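import Vale.Agent.Lib.P154.PChain.BE.R5_0

set_option linter.all false

namespace Vale.Agent.Lib.P154.PChain.BE.S6

open Vale.Agent.Lib.P154.Chain

noncomputable def pc0 : PT := (PT.nd (nat_lit 6641856) (PT.nd (nat_lit 6392178) (PT.nd (nat_lit 6204900) (PT.nd (nat_lit 6080022) (PT.nd (nat_lit 6079944) (PT.nd (nat_lit 6017544) PT.nil (PT.lf (nat_lit 76) (nat_lit 3) (nat_lit 1) (nat_lit 1) (nat_lit 252) (nat_lit 96) (nat_lit 252))) (PT.lf (nat_lit 152) (nat_lit 6) (nat_lit 2) (nat_lit 3) (nat_lit 251) (nat_lit 97) (nat_lit 252))) (PT.nd (nat_lit 124800) (PT.lf (nat_lit 152) (nat_lit 6) (nat_lit 2) (nat_lit 1) (nat_lit 252) (nat_lit 97) (nat_lit 251)) (PT.lf (nat_lit 228) (nat_lit 6) (nat_lit 3) (nat_lit 3) (nat_lit 250) (nat_lit 99) (nat_lit 251)))) (PT.nd (nat_lit 124800) (PT.nd (nat_lit 62400) (PT.lf (nat_lit 228) (nat_lit 6) (nat_lit 3) (nat_lit 1) (nat_lit 251) (nat_lit 99) (nat_lit 250)) (PT.lf (nat_lit 380)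 (nat_lit 3) (nat_lit 5) (nat_lit 1) (nat_lit 250) (nat_lit 100) (nat_lit 250))) (PT.nd (nat_lit 78) (PT.lf (nat_lit 456) (nat_lit 6) (nat_lit 6) (nat_lit 3) (nat_lit 249) (nat_lit 101) (nat_lit 250)) (PT.nd (nat_lit 62322) (PT.lf (nat_lit 456) (nat_lit 6) (nat_lit 6) (nat_lit 1) (nat_lit 250) (nat_lit 101) (nat_lit 249)) (PT.lf (nat_lit 532) (nat_lit 6) (nat_lit 7) (nat_lit 3) (nat_lit 248) (nat_lit 102) (nat_lit 250)))))) (PT.nd (nat_lit 124800) (PT.nd (nat_lit 62400) (PT.nd (nat_lit 78) (PT.lf (nat_lit 608) (nat_lit 3) (nat_lit 8) (nat_lit 1) (nat_lit 249) (nat_lit 102) (nat_lit 249)) (PT.lf (nat_lit 532) (nat_lit 6) (nat_lit 7) (nat_lit 1) (nat_lit 250) (nat_lit 102) (nat_lit 248))) (PT.nd (nat_lit 78) (PT.lf (nat_lit 684) (nat_lit 6) (nat_lit 9) (nat_lit 3) (nat_lit 248) (nat_lit 103) (nat_lit 249)) (PT.lf (nat_lit 684) (nat_lit 6) (nat_lit 9) (nat_lit 1) (nat_lit 249) (nat_lit 103) (nat_lit 248)))) (PT.nd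 (nat_lit 156) (PT.nd (nat_lit 78) (PT.lf (nat_lit 760) (nat_lit 6) (nat_lit 10) (nat_lit 3) (nat_lit 247) (nat_lit 104) (nat_lit 249)) (PT.lf (nat_lit 836) (nat_lit 3) (nat_lit 11) (nat_lit 1) (nat_lit 248) (nat_lit 104) (nat_lit 248))) (PT.nd (nat_lit 62322) (PT.lf (nat_lit 760) (nat_lit 6) (nat_lit 10) (nat_lit 1) (nat_lit 249) (nat_lit 104) (nat_lit 247)) (PT.nd (nat_lit 78) (PT.lf (nat_lit 912) (nat_lit 6) (nat_lit 12) (nat_lit 3) (nat_lit 247) (nat_lit 105) (nat_lit 248)) (PT.lf (nat_lit 912) (nat_lit 6) (nat_lit 12) (nat_lit 1) (nat_lit 248) (nat_lit 105) (nat_lit 247))))))) (PT.nd (nat_lit 187434) (PT.nd (nat_lit 62556) (PT.nd (nat_lit 156) (PT.nd (nat_lit 78) (PT.lf (nat_lit 988) (nat_lit 6) (nat_lit 13) (nat_lit 3) (nat_lit 246) (nat_lit 106) (nat_lit 248)) (PT.lf (nat_lit 1064) (nat_lit 3) (nat_lit 14) (nat_lit 1) (nat_lit 247) (nat_lit 106) (nat_lit 247))) (PT.nd (nat_lit 62322) (PT.lf (nat_lit 988)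 (nat_lit 6) (nat_lit 13) (nat_lit 1) (nat_lit 248) (nat_lit 106) (nat_lit 246)) (PT.lf (nat_lit 1140) (nat_lit 6) (nat_lit 15) (nat_lit 3) (nat_lit 246) (nat_lit 107) (nat_lit 247)))) (PT.nd (nat_lit 62400) (PT.nd (nat_lit 62322) (PT.lf (nat_lit 1140) (nat_lit 6) (nat_lit 15) (nat_lit 1) (nat_lit 247) (nat_lit 107) (nat_lit 246)) (PT.lf (nat_lit 1216) (nat_lit 6) (nat_lit 16) (nat_lit 3) (nat_lit 245) (nat_lit 108) (nat_lit 247))) (PT.nd (nat_lit 78) (PT.lf (nat_lit 1292) (nat_lit 3) (nat_lit 17) (nat_lit 1) (nat_lit 246) (nat_lit 108) (nat_lit 246)) (PT.nd (nat_lit 62322) (PT.lf (nat_lit 1216) (nat_lit 6) (nat_lit 16) (nat_lit 1) (nat_lit 247) (nat_lit 108) (nat_lit 245)) (PT.lf (nat_lit 1368) (nat_lit 6) (nat_lit 18) (nat_lit 3) (nat_lit 245) (nat_lit 109) (nat_lit 246)))))) (PT.nd (nat_lit 124800) (PT.nd (nat_lit 62400) (PT.nd (nat_lit 62322) (PT.lf (nat_lit 1368) (nat_lit 6) (nat_lit 18) (nat_lit 1) (nat_lit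 246) (nat_lit 109) (nat_lit 245)) (PT.lf (nat_lit 1444) (nat_lit 6) (nat_lit 19) (nat_lit 3) (nat_lit 244) (nat_lit 110) (nat_lit 246))) (PT.nd (nat_lit 78) (PT.lf (nat_lit 1520) (nat_lit 3) (nat_lit 20) (nat_lit 1) (nat_lit 245) (nat_lit 110) (nat_lit 245)) (PT.lf (nat_lit 1444) (nat_lit 6) (nat_lit 19) (nat_lit 1) (nat_lit 246) (nat_lit 110) (nat_lit 244)))) (PT.nd (nat_lit 62400) (PT.nd (nat_lit 78) (PT.lf (nat_lit 1596) (nat_lit 6) (nat_lit 21) (nat_lit 3) (nat_lit 244) (nat_lit 111) (nat_lit 245)) (PT.lf (nat_lit 1596) (nat_lit 6) (nat_lit 21) (nat_lit 1) (nat_lit 245) (nat_lit 111) (nat_lit 244))) (PT.nd (nat_lit 78) (PT.lf (nat_lit 1672) (nat_lit 6) (nat_lit 22) (nat_lit 3) (nat_lit 243) (nat_lit 112) (nat_lit 245)) (PT.nd (nat_lit 78) (PT.lf (nat_lit 1748) (nat_lit 3) (nat_lit 23) (nat_lit 1) (nat_lit 244) (nat_lit 112) (nat_lit 244)) (PT.lf (nat_lit 1672) (nat_lit 6) (nat_lit 22) (nat_lit 1) (nat_lit 245)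 (nat_lit 112) (nat_lit 243))))))))
noncomputable def pc1 : PT := (PT.nd (nat_lit 437112) (PT.nd (nat_lit 187434) (PT.nd (nat_lit 62556) (PT.nd (nat_lit 62400) (PT.nd (nat_lit 78) (PT.lf (nat_lit 1824) (nat_lit 6) (nat_lit 24) (nat_lit 3) (nat_lit 243) (nat_lit 113) (nat_lit 244)) (PT.lf (nat_lit 1824) (nat_lit 6) (nat_lit 24) (nat_lit 1) (nat_lit 244) (nat_lit 113) (nat_lit 243))) (PT.nd (nat_lit 78) (PT.lf (nat_lit 1900) (nat_lit 6) (nat_lit 25) (nat_lit 3) (nat_lit 242) (nat_lit 114) (nat_lit 244)) (PT.lf (nat_lit 1976) (nat_lit 3) (nat_lit 26) (nat_lit 1) (nat_lit 243) (nat_lit 114) (nat_lit 243)))) (PT.nd (nat_lit 62400) (PT.nd (nat_lit 62322) (PT.lf (nat_lit 1900) (nat_lit 6) (nat_lit 25) (nat_lit 1) (nat_lit 244) (nat_lit 114) (nat_lit 242)) (PT.lf (nat_lit 2052) (nat_lit 6) (nat_lit 27) (nat_lit 3) (nat_lit 242) (nat_lit 115) (nat_lit 243))) (PT.nd (nat_lit 62322) (PT.lf (nat_lit 2052) (nat_lit 6) (nat_lit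 27) (nat_lit 1) (nat_lit 243) (nat_lit 115) (nat_lit 242)) (PT.nd (nat_lit 78) (PT.lf (nat_lit 2128) (nat_lit 6) (nat_lit 28) (nat_lit 3) (nat_lit 241) (nat_lit 116) (nat_lit 243)) (PT.lf (nat_lit 2204) (nat_lit 3) (nat_lit 29) (nat_lit 1) (nat_lit 242) (nat_lit 116) (nat_lit 242)))))) (PT.nd (nat_lit 124800) (PT.nd (nat_lit 62400) (PT.nd (nat_lit 62322) (PT.lf (nat_lit 2128) (nat_lit 6) (nat_lit 28) (nat_lit 1) (nat_lit 243) (nat_lit 116) (nat_lit 241)) (PT.lf (nat_lit 2280) (nat_lit 6) (nat_lit 30) (nat_lit 3) (nat_lit 241) (nat_lit 117) (nat_lit 242))) (PT.nd (nat_lit 62322) (PT.lf (nat_lit 2280) (nat_lit 6) (nat_lit 30) (nat_lit 1) (nat_lit 242) (nat_lit 117) (nat_lit 241)) (PT.lf (nat_lit 2356) (nat_lit 6) (nat_lit 31) (nat_lit 3) (nat_lit 240) (nat_lit 118) (nat_lit 242)))) (PT.nd (nat_lit 62400) (PT.nd (nat_lit 78) (PT.lf (nat_lit 2432) (nat_lit 3) (nat_lit 32) (nat_lit 1) (nat_lit 241) (nat_lit 118) (nat_lit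 241)) (PT.lf (nat_lit 2356) (nat_lit 6) (nat_lit 31) (nat_lit 1) (nat_lit 242) (nat_lit 118) (nat_lit 240))) (PT.nd (nat_lit 78) (PT.lf (nat_lit 2508) (nat_lit 6) (nat_lit 33) (nat_lit 3) (nat_lit 240) (nat_lit 119) (nat_lit 241)) (PT.nd (nat_lit 62322) (PT.lf (nat_lit 2508) (nat_lit 6) (nat_lit 33) (nat_lit 1) (nat_lit 241) (nat_lit 119) (nat_lit 240)) (PT.lf (nat_lit 2584) (nat_lit 6) (nat_lit 34) (nat_lit 3) (nat_lit 239) (nat_lit 120) (nat_lit 241))))))) (PT.nd (nat_lit 249678) (PT.nd (nat_lit 124800) (PT.nd (nat_lit 62400) (PT.nd (nat_lit 78) (PT.lf (nat_lit 2660) (nat_lit 3) (nat_lit 35) (nat_lit 1) (nat_lit 240) (nat_lit 120) (nat_lit 240)) (PT.lf (nat_lit 2584) (nat_lit 6) (nat_lit 34) (nat_lit 1) (nat_lit 241) (nat_lit 120) (nat_lit 239))) (PT.nd (nat_lit 78) (PT.lf (nat_lit 2736) (nat_lit 6) (nat_lit 36) (nat_lit 3) (nat_lit 239) (nat_lit 121) (nat_lit 240)) (PT.lf (nat_lit 2736) (nat_lit 6) (nat_lit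 36) (nat_lit 1) (nat_lit 240) (nat_lit 121) (nat_lit 239)))) (PT.nd (nat_lit 156) (PT.nd (nat_lit 78) (PT.lf (nat_lit 2812) (nat_lit 6) (nat_lit 37) (nat_lit 3) (nat_lit 238) (nat_lit 122) (nat_lit 240)) (PT.lf (nat_lit 2888) (nat_lit 3) (nat_lit 38) (nat_lit 1) (nat_lit 239) (nat_lit 122) (nat_lit 239))) (PT.nd (nat_lit 62322) (PT.lf (nat_lit 2812) (nat_lit 6) (nat_lit 37) (nat_lit 1) (nat_lit 240) (nat_lit 122) (nat_lit 238)) (PT.nd (nat_lit 78) (PT.lf (nat_lit 2964) (nat_lit 6) (nat_lit 39) (nat_lit 3) (nat_lit 238) (nat_lit 123) (nat_lit 239)) (PT.lf (nat_lit 2964) (nat_lit 6) (nat_lit 39) (nat_lit 1) (nat_lit 239) (nat_lit 123) (nat_lit 238)))))) (PT.nd (nat_lit 62556) (PT.nd (nat_lit 156) (PT.nd (nat_lit 78) (PT.lf (nat_lit 3040) (nat_lit 6) (nat_lit 40) (nat_lit 3) (nat_lit 237) (nat_lit 124) (nat_lit 239)) (PT.lf (nat_lit 3116) (nat_lit 3) (nat_lit 41) (nat_lit 1) (nat_lit 238) (nat_lit 124) (nat_lit 238)))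 (PT.nd (nat_lit 62322) (PT.lf (nat_lit 3040) (nat_lit 6) (nat_lit 40) (nat_lit 1) (nat_lit 239) (nat_lit 124) (nat_lit 237)) (PT.lf (nat_lit 3192) (nat_lit 6) (nat_lit 42) (nat_lit 3) (nat_lit 237) (nat_lit 125) (nat_lit 238)))) (PT.nd (nat_lit 62400) (PT.nd (nat_lit 62322) (PT.lf (nat_lit 3192) (nat_lit 6) (nat_lit 42) (nat_lit 1) (nat_lit 238) (nat_lit 125) (nat_lit 237)) (PT.lf (nat_lit 3268) (nat_lit 6) (nat_lit 43) (nat_lit 3) (nat_lit 236) (nat_lit 126) (nat_lit 238))) (PT.nd (nat_lit 78) (PT.lf (nat_lit 3344) (nat_lit 3) (nat_lit 44) (nat_lit 1) (nat_lit 237) (nat_lit 126) (nat_lit 237)) (PT.nd (nat_lit 62322) (PT.lf (nat_lit 3268) (nat_lit 6) (nat_lit 43) (nat_lit 1) (nat_lit 238) (nat_lit 126) (nat_lit 236)) (PT.lf (nat_lit 3420) (nat_lit 6) (nat_lit 45) (nat_lit 3) (nat_lit 236) (nat_lit 127) (nat_lit 237))))))))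
noncomputable def pc2 : PT := (PT.nd (nat_lit 374478) (PT.nd (nat_lit 187278) (PT.nd (nat_lit 124722) (PT.nd (nat_lit 62400) (PT.nd (nat_lit 62322) (PT.lf (nat_lit 3420) (nat_lit 6) (nat_lit 45) (nat_lit 1) (nat_lit 237) (nat_lit 127) (nat_lit 236)) (PT.lf (nat_lit 3496) (nat_lit 6) (nat_lit 46) (nat_lit 3) (nat_lit 235) (nat_lit 128) (nat_lit 237))) (PT.nd (nat_lit 78) (PT.lf (nat_lit 3572) (nat_lit 3) (nat_lit 47) (nat_lit 1) (nat_lit 236) (nat_lit 128) (nat_lit 236)) (PT.lf (nat_lit 3496) (nat_lit 6) (nat_lit 46) (nat_lit 1) (nat_lit 237) (nat_lit 128) (nat_lit 235)))) (PT.nd (nat_lit 156) (PT.nd (nat_lit 78) (PT.lf (nat_lit 3648) (nat_lit 6) (nat_lit 48) (nat_lit 3) (nat_lit 234) (nat_lit 129) (nat_lit 237)) (PT.lf (nat_lit 3724) (nat_lit 6) (nat_lit 49) (nat_lit 3) (nat_lit 235) (nat_lit 129) (nat_lit 236))) (PT.nd (nat_lit 78) (PT.lf (nat_lit 3724) (nat_lit 6) (nat_lit 49) (nat_lit 1) (nat_lit 236) (nat_lit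 129) (nat_lit 235)) (PT.nd (nat_lit 62244) (PT.lf (nat_lit 3648) (nat_lit 6) (nat_lit 48) (nat_lit 1) (nat_lit 237) (nat_lit 129) (nat_lit 234)) (PT.lf (nat_lit 3800) (nat_lit 6) (nat_lit 50) (nat_lit 3) (nat_lit 234) (nat_lit 130) (nat_lit 236)))))) (PT.nd (nat_lit 62478) (PT.nd (nat_lit 62322) (PT.nd (nat_lit 78) (PT.lf (nat_lit 3876) (nat_lit 3) (nat_lit 51) (nat_lit 1) (nat_lit 235) (nat_lit 130) (nat_lit 235)) (PT.lf (nat_lit 3800) (nat_lit 6) (nat_lit 50) (nat_lit 1) (nat_lit 236) (nat_lit 130) (nat_lit 234))) (PT.nd (nat_lit 78) (PT.lf (nat_lit 3952) (nat_lit 6) (nat_lit 52) (nat_lit 3) (nat_lit 233) (nat_lit 131) (nat_lit 236)) (PT.lf (nat_lit 4028) (nat_lit 6) (nat_lit 53) (nat_lit 3) (nat_lit 234) (nat_lit 131) (nat_lit 235)))) (PT.nd (nat_lit 62322) (PT.nd (nat_lit 78) (PT.lf (nat_lit 4028) (nat_lit 6) (nat_lit 53) (nat_lit 1) (nat_lit 235) (nat_lit 131) (nat_lit 234)) (PT.lf (nat_lit 3952) (nat_lit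 6) (nat_lit 52) (nat_lit 1) (nat_lit 236) (nat_lit 131) (nat_lit 233))) (PT.nd (nat_lit 78) (PT.lf (nat_lit 4104) (nat_lit 6) (nat_lit 54) (nat_lit 3) (nat_lit 233) (nat_lit 132) (nat_lit 235)) (PT.nd (nat_lit 78) (PT.lf (nat_lit 4180) (nat_lit 3) (nat_lit 55) (nat_lit 1) (nat_lit 234) (nat_lit 132) (nat_lit 234)) (PT.lf (nat_lit 4104) (nat_lit 6) (nat_lit 54) (nat_lit 1) (nat_lit 235) (nat_lit 132) (nat_lit 233))))))) (PT.nd (nat_lit 125034) (PT.nd (nat_lit 62478) (PT.nd (nat_lit 156) (PT.nd (nat_lit 78) (PT.lf (nat_lit 4256) (nat_lit 6) (nat_lit 56) (nat_lit 3) (nat_lit 232) (nat_lit 133) (nat_lit 235)) (PT.lf (nat_lit 4332) (nat_lit 6) (nat_lit 57) (nat_lit 3) (nat_lit 233) (nat_lit 133) (nat_lit 234))) (PT.nd (nat_lit 78) (PT.lf (nat_lit 4332) (nat_lit 6) (nat_lit 57) (nat_lit 1) (nat_lit 234) (nat_lit 133) (nat_lit 233)) (PT.lf (nat_lit 4256) (nat_lit 6) (nat_lit 56) (nat_lit 1) (nat_lit 235) (nat_lit 133)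 (nat_lit 232)))) (PT.nd (nat_lit 156) (PT.nd (nat_lit 78) (PT.lf (nat_lit 4408) (nat_lit 6) (nat_lit 58) (nat_lit 3) (nat_lit 232) (nat_lit 134) (nat_lit 234)) (PT.lf (nat_lit 4484) (nat_lit 3) (nat_lit 59) (nat_lit 1) (nat_lit 233) (nat_lit 134) (nat_lit 233))) (PT.nd (nat_lit 62244) (PT.lf (nat_lit 4408) (nat_lit 6) (nat_lit 58) (nat_lit 1) (nat_lit 234) (nat_lit 134) (nat_lit 232)) (PT.nd (nat_lit 78) (PT.lf (nat_lit 4560) (nat_lit 6) (nat_lit 60) (nat_lit 3) (nat_lit 231) (nat_lit 135) (nat_lit 234)) (PT.lf (nat_lit 4636) (nat_lit 6) (nat_lit 61) (nat_lit 3) (nat_lit 232) (nat_lit 135) (nat_lit 233)))))) (PT.nd (nat_lit 62478) (PT.nd (nat_lit 62322) (PT.nd (nat_lit 78) (PT.lf (nat_lit 4636) (nat_lit 6) (nat_lit 61) (nat_lit 1) (nat_lit 233) (nat_lit 135) (nat_lit 232)) (PT.lf (nat_lit 4560) (nat_lit 6) (nat_lit 60) (nat_lit 1) (nat_lit 234) (nat_lit 135) (nat_lit 231))) (PT.nd (nat_lit 78) (PT.lf (nat_lit 4712)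 (nat_lit 6) (nat_lit 62) (nat_lit 3) (nat_lit 231) (nat_lit 136) (nat_lit 233)) (PT.lf (nat_lit 4788) (nat_lit 3) (nat_lit 63) (nat_lit 1) (nat_lit 232) (nat_lit 136) (nat_lit 232)))) (PT.nd (nat_lit 62322) (PT.nd (nat_lit 62244) (PT.lf (nat_lit 4712) (nat_lit 6) (nat_lit 62) (nat_lit 1) (nat_lit 233) (nat_lit 136) (nat_lit 231)) (PT.lf (nat_lit 4864) (nat_lit 6) (nat_lit 64) (nat_lit 3) (nat_lit 230) (nat_lit 137) (nat_lit 233))) (PT.nd (nat_lit 78) (PT.lf (nat_lit 4940) (nat_lit 6) (nat_lit 65) (nat_lit 3) (nat_lit 231) (nat_lit 137) (nat_lit 232)) (PT.nd (nat_lit 78) (PT.lf (nat_lit 4940) (nat_lit 6) (nat_lit 65) (nat_lit 1) (nat_lit 232) (nat_lit 137) (nat_lit 231)) (PT.lf (nat_lit 4864) (nat_lit 6) (nat_lit 64) (nat_lit 1) (nat_lit 233) (nat_lit 137) (nat_lit 230))))))))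
noncomputable def pc3 : PT := (PT.nd (nat_lit 249834) (PT.nd (nat_lit 124956) (PT.nd (nat_lit 62478) (PT.nd (nat_lit 156) (PT.nd (nat_lit 78) (PT.lf (nat_lit 5016) (nat_lit 6) (nat_lit 66) (nat_lit 3) (nat_lit 230) (nat_lit 138) (nat_lit 232)) (PT.lf (nat_lit 5092) (nat_lit 3) (nat_lit 67) (nat_lit 1) (nat_lit 231) (nat_lit 138) (nat_lit 231))) (PT.nd (nat_lit 62244) (PT.lf (nat_lit 5016) (nat_lit 6) (nat_lit 66) (nat_lit 1) (nat_lit 232) (nat_lit 138) (nat_lit 230)) (PT.lf (nat_lit 5168) (nat_lit 6) (nat_lit 68) (nat_lit 3) (nat_lit 229) (nat_lit 139) (nat_lit 232)))) (PT.nd (nat_lit 156) (PT.nd (nat_lit 78) (PT.lf (nat_lit 5244) (nat_lit 6) (nat_lit 69) (nat_lit 3) (nat_lit 230) (nat_lit 139) (nat_lit 231)) (PT.lf (nat_lit 5244) (nat_lit 6) (nat_lit 69) (nat_lit 1) (nat_lit 231) (nat_lit 139) (nat_lit 230))) (PT.nd (nat_lit 62166) (PT.lf (nat_lit 5168) (nat_lit 6) (nat_lit 68) (nat_lit 1) (nat_lit 232) (nat_lit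 139) (nat_lit 229)) (PT.nd (nat_lit 78) (PT.lf (nat_lit 5320) (nat_lit 6) (nat_lit 70) (nat_lit 3) (nat_lit 228) (nat_lit 140) (nat_lit 232)) (PT.lf (nat_lit 5396) (nat_lit 6) (nat_lit 71) (nat_lit 3) (nat_lit 229) (nat_lit 140) (nat_lit 231)))))) (PT.nd (nat_lit 62400) (PT.nd (nat_lit 156) (PT.nd (nat_lit 78) (PT.lf (nat_lit 5472) (nat_lit 3) (nat_lit 72) (nat_lit 1) (nat_lit 230) (nat_lit 140) (nat_lit 230)) (PT.lf (nat_lit 5396) (nat_lit 6) (nat_lit 71) (nat_lit 1) (nat_lit 231) (nat_lit 140) (nat_lit 229))) (PT.nd (nat_lit 62166) (PT.lf (nat_lit 5320) (nat_lit 6) (nat_lit 70) (nat_lit 1) (nat_lit 232) (nat_lit 140) (nat_lit 228)) (PT.lf (nat_lit 5548) (nat_lit 6) (nat_lit 73) (nat_lit 3) (nat_lit 228) (nat_lit 141) (nat_lit 231)))) (PT.nd (nat_lit 156) (PT.nd (nat_lit 78) (PT.lf (nat_lit 5624) (nat_lit 6) (nat_lit 74) (nat_lit 3) (nat_lit 229) (nat_lit 141) (nat_lit 230)) (PT.lf (nat_lit 5624) (nat_lit 6) (nat_lit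 74) (nat_lit 1) (nat_lit 230) (nat_lit 141) (nat_lit 229))) (PT.nd (nat_lit 62166) (PT.lf (nat_lit 5548) (nat_lit 6) (nat_lit 73) (nat_lit 1) (nat_lit 231) (nat_lit 141) (nat_lit 228)) (PT.nd (nat_lit 78) (PT.lf (nat_lit 5700) (nat_lit 6) (nat_lit 75) (nat_lit 3) (nat_lit 227) (nat_lit 142) (nat_lit 231)) (PT.lf (nat_lit 5776) (nat_lit 6) (nat_lit 76) (nat_lit 3) (nat_lit 228) (nat_lit 142) (nat_lit 230))))))) (PT.nd (nat_lit 124878) (PT.nd (nat_lit 62400) (PT.nd (nat_lit 156) (PT.nd (nat_lit 78) (PT.lf (nat_lit 5852) (nat_lit 3) (nat_lit 77) (nat_lit 1) (nat_lit 229) (nat_lit 142) (nat_lit 229)) (PT.lf (nat_lit 5776) (nat_lit 6) (nat_lit 76) (nat_lit 1) (nat_lit 230) (nat_lit 142) (nat_lit 228))) (PT.nd (nat_lit 62166) (PT.lf (nat_lit 5700) (nat_lit 6) (nat_lit 75) (nat_lit 1) (nat_lit 231) (nat_lit 142) (nat_lit 227)) (PT.lf (nat_lit 5928) (nat_lit 6) (nat_lit 78) (nat_lit 3) (nat_lit 227) (nat_lit 143) (nat_lit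 230)))) (PT.nd (nat_lit 156) (PT.nd (nat_lit 78) (PT.lf (nat_lit 6004) (nat_lit 6) (nat_lit 79) (nat_lit 3) (nat_lit 228) (nat_lit 143) (nat_lit 229)) (PT.lf (nat_lit 6004) (nat_lit 6) (nat_lit 79) (nat_lit 1) (nat_lit 229) (nat_lit 143) (nat_lit 228))) (PT.nd (nat_lit 62166) (PT.lf (nat_lit 5928) (nat_lit 6) (nat_lit 78) (nat_lit 1) (nat_lit 230) (nat_lit 143) (nat_lit 227)) (PT.nd (nat_lit 78) (PT.lf (nat_lit 6080) (nat_lit 6) (nat_lit 80) (nat_lit 3) (nat_lit 226) (nat_lit 144) (nat_lit 230)) (PT.lf (nat_lit 6156) (nat_lit 6) (nat_lit 81) (nat_lit 3) (nat_lit 227) (nat_lit 144) (nat_lit 229)))))) (PT.nd (nat_lit 62478) (PT.nd (nat_lit 156) (PT.nd (nat_lit 78) (PT.lf (nat_lit 6232) (nat_lit 3) (nat_lit 82) (nat_lit 1) (nat_lit 228) (nat_lit 144) (nat_lit 228)) (PT.lf (nat_lit 6156) (nat_lit 6) (nat_lit 81) (nat_lit 1) (nat_lit 229) (nat_lit 144) (nat_lit 227))) (PT.nd (nat_lit 62166) (PT.lf (nat_lit 6080) (nat_lit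 6) (nat_lit 80) (nat_lit 1) (nat_lit 230) (nat_lit 144) (nat_lit 226)) (PT.nd (nat_lit 78) (PT.lf (nat_lit 6308) (nat_lit 6) (nat_lit 83) (nat_lit 3) (nat_lit 226) (nat_lit 145) (nat_lit 229)) (PT.lf (nat_lit 6384) (nat_lit 6) (nat_lit 84) (nat_lit 3) (nat_lit 227) (nat_lit 145) (nat_lit 228))))) (PT.nd (nat_lit 62244) (PT.nd (nat_lit 78) (PT.lf (nat_lit 6384) (nat_lit 6) (nat_lit 84) (nat_lit 1) (nat_lit 228) (nat_lit 145) (nat_lit 227)) (PT.lf (nat_lit 6308) (nat_lit 6) (nat_lit 83) (nat_lit 1) (nat_lit 229) (nat_lit 145) (nat_lit 226))) (PT.nd (nat_lit 78) (PT.lf (nat_lit 6460) (nat_lit 6) (nat_lit 85) (nat_lit 3) (nat_lit 225) (nat_lit 146) (nat_lit 229)) (PT.nd (nat_lit 78) (PT.lf (nat_lit 6536) (nat_lit 6) (nat_lit 86) (nat_lit 3) (nat_lit 226) (nat_lit 146) (nat_lit 228)) (PT.lf (nat_lit 6612) (nat_lit 3) (nat_lit 87) (nat_lit 1) (nat_lit 227) (nat_lit 146) (nat_lit 227))))))))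
noncomputable def pc4 : PT := (PT.nd (nat_lit 249600) (PT.nd (nat_lit 124878) (PT.nd (nat_lit 62400) (PT.nd (nat_lit 62244) (PT.nd (nat_lit 78) (PT.lf (nat_lit 6536) (nat_lit 6) (nat_lit 86) (nat_lit 1) (nat_lit 228) (nat_lit 146) (nat_lit 226)) (PT.lf (nat_lit 6460) (nat_lit 6) (nat_lit 85) (nat_lit 1) (nat_lit 229) (nat_lit 146) (nat_lit 225))) (PT.nd (nat_lit 78) (PT.lf (nat_lit 6688) (nat_lit 6) (nat_lit 88) (nat_lit 3) (nat_lit 225) (nat_lit 147) (nat_lit 228)) (PT.lf (nat_lit 6764) (nat_lit 6) (nat_lit 89) (nat_lit 3) (nat_lit 226) (nat_lit 147) (nat_lit 227)))) (PT.nd (nat_lit 62244) (PT.nd (nat_lit 78) (PT.lf (nat_lit 6764) (nat_lit 6) (nat_lit 89) (nat_lit 1) (nat_lit 227) (nat_lit 147) (nat_lit 226)) (PT.lf (nat_lit 6688) (nat_lit 6) (nat_lit 88) (nat_lit 1) (nat_lit 228) (nat_lit 147) (nat_lit 225))) (PT.nd (nat_lit 78) (PT.lf (nat_lit 6840) (nat_lit 6) (nat_lit 90) (nat_lit 3) (nat_lit 224) (nat_lit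 148) (nat_lit 228)) (PT.nd (nat_lit 78) (PT.lf (nat_lit 6916) (nat_lit 6) (nat_lit 91) (nat_lit 3) (nat_lit 225) (nat_lit 148) (nat_lit 227)) (PT.lf (nat_lit 6992) (nat_lit 3) (nat_lit 92) (nat_lit 1) (nat_lit 226) (nat_lit 148) (nat_lit 226)))))) (PT.nd (nat_lit 62322) (PT.nd (nat_lit 62166) (PT.nd (nat_lit 78) (PT.lf (nat_lit 6916) (nat_lit 6) (nat_lit 91) (nat_lit 1) (nat_lit 227) (nat_lit 148) (nat_lit 225)) (PT.lf (nat_lit 6840) (nat_lit 6) (nat_lit 90) (nat_lit 1) (nat_lit 228) (nat_lit 148) (nat_lit 224))) (PT.nd (nat_lit 78) (PT.lf (nat_lit 7068) (nat_lit 6) (nat_lit 93) (nat_lit 3) (nat_lit 223) (nat_lit 149) (nat_lit 228)) (PT.lf (nat_lit 7144) (nat_lit 6) (nat_lit 94) (nat_lit 3) (nat_lit 224) (nat_lit 149) (nat_lit 227)))) (PT.nd (nat_lit 156) (PT.nd (nat_lit 78) (PT.lf (nat_lit 7220) (nat_lit 6) (nat_lit 95) (nat_lit 3) (nat_lit 225) (nat_lit 149) (nat_lit 226)) (PT.lf (nat_lit 7220) (nat_lit 6) (nat_lit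 95) (nat_lit 1) (nat_lit 226) (nat_lit 149) (nat_lit 225))) (PT.nd (nat_lit 78) (PT.lf (nat_lit 7144) (nat_lit 6) (nat_lit 94) (nat_lit 1) (nat_lit 227) (nat_lit 149) (nat_lit 224)) (PT.nd (nat_lit 62088) (PT.lf (nat_lit 7068) (nat_lit 6) (nat_lit 93) (nat_lit 1) (nat_lit 228) (nat_lit 149) (nat_lit 223)) (PT.lf (nat_lit 7296) (nat_lit 6) (nat_lit 96) (nat_lit 3) (nat_lit 223) (nat_lit 150) (nat_lit 227))))))) (PT.nd (nat_lit 62712) (PT.nd (nat_lit 62322) (PT.nd (nat_lit 156) (PT.nd (nat_lit 78) (PT.lf (nat_lit 7372) (nat_lit 6) (nat_lit 97) (nat_lit 3) (nat_lit 224) (nat_lit 150) (nat_lit 226)) (PT.lf (nat_lit 7448) (nat_lit 3) (nat_lit 98) (nat_lit 1) (nat_lit 225) (nat_lit 150) (nat_lit 225))) (PT.nd (nat_lit 78) (PT.lf (nat_lit 7372) (nat_lit 6) (nat_lit 97) (nat_lit 1) (nat_lit 226) (nat_lit 150) (nat_lit 224)) (PT.lf (nat_lit 7296) (nat_lit 6) (nat_lit 96) (nat_lit 1) (nat_lit 227) (nat_lit 150) (nat_lit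 223)))) (PT.nd (nat_lit 156) (PT.nd (nat_lit 78) (PT.lf (nat_lit 7524) (nat_lit 6) (nat_lit 99) (nat_lit 3) (nat_lit 222) (nat_lit 151) (nat_lit 227)) (PT.lf (nat_lit 7600) (nat_lit 6) (nat_lit 100) (nat_lit 3) (nat_lit 223) (nat_lit 151) (nat_lit 226))) (PT.nd (nat_lit 78) (PT.lf (nat_lit 7676) (nat_lit 6) (nat_lit 101) (nat_lit 3) (nat_lit 224) (nat_lit 151) (nat_lit 225)) (PT.nd (nat_lit 78) (PT.lf (nat_lit 7676) (nat_lit 6) (nat_lit 101) (nat_lit 1) (nat_lit 225) (nat_lit 151) (nat_lit 224)) (PT.lf (nat_lit 7600) (nat_lit 6) (nat_lit 100) (nat_lit 1) (nat_lit 226) (nat_lit 151) (nat_lit 223)))))) (PT.nd (nat_lit 62322) (PT.nd (nat_lit 62166) (PT.nd (nat_lit 62088) (PT.lf (nat_lit 7524) (nat_lit 6) (nat_lit 99) (nat_lit 1) (nat_lit 227) (nat_lit 151) (nat_lit 222)) (PT.lf (nat_lit 7752) (nat_lit 6) (nat_lit 102) (nat_lit 3) (nat_lit 222) (nat_lit 152) (nat_lit 226))) (PT.nd (nat_lit 78) (PT.lf (nat_lit 7828)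 (nat_lit 6) (nat_lit 103) (nat_lit 3) (nat_lit 223) (nat_lit 152) (nat_lit 225)) (PT.lf (nat_lit 7904) (nat_lit 3) (nat_lit 104) (nat_lit 1) (nat_lit 224) (nat_lit 152) (nat_lit 224)))) (PT.nd (nat_lit 62166) (PT.nd (nat_lit 78) (PT.lf (nat_lit 7828) (nat_lit 6) (nat_lit 103) (nat_lit 1) (nat_lit 225) (nat_lit 152) (nat_lit 223)) (PT.lf (nat_lit 7752) (nat_lit 6) (nat_lit 102) (nat_lit 1) (nat_lit 226) (nat_lit 152) (nat_lit 222))) (PT.nd (nat_lit 78) (PT.lf (nat_lit 7980) (nat_lit 6) (nat_lit 105) (nat_lit 3) (nat_lit 221) (nat_lit 153) (nat_lit 226)) (PT.nd (nat_lit 78) (PT.lf (nat_lit 8056) (nat_lit 6) (nat_lit 106) (nat_lit 3) (nat_lit 222) (nat_lit 153) (nat_lit 225)) (PT.lf (nat_lit 8132) (nat_lit 6) (nat_lit 107) (nat_lit 3) (nat_lit 223) (nat_lit 153) (nat_lit 224))))))))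
noncomputable def pc5 : PT := (PT.nd (nat_lit 187356) (PT.nd (nat_lit 124722) (PT.nd (nat_lit 62322) (PT.nd (nat_lit 156) (PT.nd (nat_lit 78) (PT.lf (nat_lit 8132) (nat_lit 6) (nat_lit 107) (nat_lit 1) (nat_lit 224) (nat_lit 153) (nat_lit 223)) (PT.lf (nat_lit 8056) (nat_lit 6) (nat_lit 106) (nat_lit 1) (nat_lit 225) (nat_lit 153) (nat_lit 222))) (PT.nd (nat_lit 62088) (PT.lf (nat_lit 7980) (nat_lit 6) (nat_lit 105) (nat_lit 1) (nat_lit 226) (nat_lit 153) (nat_lit 221)) (PT.lf (nat_lit 8208) (nat_lit 6) (nat_lit 108) (nat_lit 3) (nat_lit 221) (nat_lit 154) (nat_lit 225)))) (PT.nd (nat_lit 156) (PT.nd (nat_lit 78) (PT.lf (nat_lit 8284) (nat_lit 6) (nat_lit 109) (nat_lit 3) (nat_lit 222) (nat_lit 154) (nat_lit 224)) (PT.lf (nat_lit 8360) (nat_lit 3) (nat_lit 110) (nat_lit 1) (nat_lit 223) (nat_lit 154) (nat_lit 223))) (PT.nd (nat_lit 78) (PT.lf (nat_lit 8284) (nat_lit 6) (nat_lit 109) (nat_lit 1) (nat_lit 224) (nat_lit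 154) (nat_lit 222)) (PT.nd (nat_lit 62088) (PT.lf (nat_lit 8208) (nat_lit 6) (nat_lit 108) (nat_lit 1) (nat_lit 225) (nat_lit 154) (nat_lit 221)) (PT.lf (nat_lit 8436) (nat_lit 6) (nat_lit 111) (nat_lit 3) (nat_lit 220) (nat_lit 155) (nat_lit 225)))))) (PT.nd (nat_lit 312) (PT.nd (nat_lit 156) (PT.nd (nat_lit 78) (PT.lf (nat_lit 8512) (nat_lit 6) (nat_lit 112) (nat_lit 3) (nat_lit 221) (nat_lit 155) (nat_lit 224)) (PT.lf (nat_lit 8588) (nat_lit 6) (nat_lit 113) (nat_lit 3) (nat_lit 222) (nat_lit 155) (nat_lit 223))) (PT.nd (nat_lit 78) (PT.lf (nat_lit 8588) (nat_lit 6) (nat_lit 113) (nat_lit 1) (nat_lit 223) (nat_lit 155) (nat_lit 222)) (PT.lf (nat_lit 8512) (nat_lit 6) (nat_lit 112) (nat_lit 1) (nat_lit 224) (nat_lit 155) (nat_lit 221)))) (PT.nd (nat_lit 62088) (PT.nd (nat_lit 62010) (PT.lf (nat_lit 8436) (nat_lit 6) (nat_lit 111) (nat_lit 1) (nat_lit 225) (nat_lit 155) (nat_lit 220)) (PT.lf (nat_lit 8664) (nat_lit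 6) (nat_lit 114) (nat_lit 3) (nat_lit 219) (nat_lit 156) (nat_lit 225))) (PT.nd (nat_lit 78) (PT.lf (nat_lit 8740) (nat_lit 6) (nat_lit 115) (nat_lit 3) (nat_lit 220) (nat_lit 156) (nat_lit 224)) (PT.nd (nat_lit 78) (PT.lf (nat_lit 8816) (nat_lit 6) (nat_lit 116) (nat_lit 3) (nat_lit 221) (nat_lit 156) (nat_lit 223)) (PT.lf (nat_lit 8892) (nat_lit 3) (nat_lit 117) (nat_lit 1) (nat_lit 222) (nat_lit 156) (nat_lit 222))))))) (PT.nd (nat_lit 124566) (PT.nd (nat_lit 62244) (PT.nd (nat_lit 156) (PT.nd (nat_lit 78) (PT.lf (nat_lit 8816) (nat_lit 6) (nat_lit 116) (nat_lit 1) (nat_lit 223) (nat_lit 156) (nat_lit 221)) (PT.lf (nat_lit 8740) (nat_lit 6) (nat_lit 115) (nat_lit 1) (nat_lit 224) (nat_lit 156) (nat_lit 220))) (PT.nd (nat_lit 62010) (PT.lf (nat_lit 8664) (nat_lit 6) (nat_lit 114) (nat_lit 1) (nat_lit 225) (nat_lit 156) (nat_lit 219)) (PT.lf (nat_lit 8968) (nat_lit 6) (nat_lit 118) (nat_lit 3) (nat_lit 219) (nat_lit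 157) (nat_lit 224)))) (PT.nd (nat_lit 156) (PT.nd (nat_lit 78) (PT.lf (nat_lit 9044) (nat_lit 6) (nat_lit 119) (nat_lit 3) (nat_lit 220) (nat_lit 157) (nat_lit 223)) (PT.lf (nat_lit 9120) (nat_lit 6) (nat_lit 120) (nat_lit 3) (nat_lit 221) (nat_lit 157) (nat_lit 222))) (PT.nd (nat_lit 78) (PT.lf (nat_lit 9120) (nat_lit 6) (nat_lit 120) (nat_lit 1) (nat_lit 222) (nat_lit 157) (nat_lit 221)) (PT.nd (nat_lit 78) (PT.lf (nat_lit 9044) (nat_lit 6) (nat_lit 119) (nat_lit 1) (nat_lit 223) (nat_lit 157) (nat_lit 220)) (PT.lf (nat_lit 8968) (nat_lit 6) (nat_lit 118) (nat_lit 1) (nat_lit 224) (nat_lit 157) (nat_lit 219)))))) (PT.nd (nat_lit 312) (PT.nd (nat_lit 156) (PT.nd (nat_lit 78) (PT.lf (nat_lit 9196) (nat_lit 6) (nat_lit 121) (nat_lit 3) (nat_lit 218) (nat_lit 158) (nat_lit 224)) (PT.lf (nat_lit 9272) (nat_lit 6) (nat_lit 122) (nat_lit 3) (nat_lit 219) (nat_lit 158) (nat_lit 223))) (PT.nd (nat_lit 78) (PT.lf (nat_lit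 9348) (nat_lit 6) (nat_lit 123) (nat_lit 3) (nat_lit 220) (nat_lit 158) (nat_lit 222)) (PT.lf (nat_lit 9424) (nat_lit 3) (nat_lit 124) (nat_lit 1) (nat_lit 221) (nat_lit 158) (nat_lit 221)))) (PT.nd (nat_lit 156) (PT.nd (nat_lit 78) (PT.lf (nat_lit 9348) (nat_lit 6) (nat_lit 123) (nat_lit 1) (nat_lit 222) (nat_lit 158) (nat_lit 220)) (PT.lf (nat_lit 9272) (nat_lit 6) (nat_lit 122) (nat_lit 1) (nat_lit 223) (nat_lit 158) (nat_lit 219))) (PT.nd (nat_lit 61932) (PT.lf (nat_lit 9196) (nat_lit 6) (nat_lit 121) (nat_lit 1) (nat_lit 224) (nat_lit 158) (nat_lit 218)) (PT.nd (nat_lit 78) (PT.lf (nat_lit 9500) (nat_lit 6) (nat_lit 125) (nat_lit 3) (nat_lit 217) (nat_lit 159) (nat_lit 224)) (PT.lf (nat_lit 9576) (nat_lit 6) (nat_lit 126) (nat_lit 3) (nat_lit 218) (nat_lit 159) (nat_lit 223))))))))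
noncomputable def pc6 : PT := (PT.nd (nat_lit 125112) (PT.nd (nat_lit 62556) (PT.nd (nat_lit 312) (PT.nd (nat_lit 156) (PT.nd (nat_lit 78) (PT.lf (nat_lit 9652) (nat_lit 6) (nat_lit 127) (nat_lit 3) (nat_lit 219) (nat_lit 159) (nat_lit 222)) (PT.lf (nat_lit 9728) (nat_lit 6) (nat_lit 128) (nat_lit 3) (nat_lit 220) (nat_lit 159) (nat_lit 221))) (PT.nd (nat_lit 78) (PT.lf (nat_lit 9728) (nat_lit 6) (nat_lit 128) (nat_lit 1) (nat_lit 221) (nat_lit 159) (nat_lit 220)) (PT.lf (nat_lit 9652) (nat_lit 6) (nat_lit 127) (nat_lit 1) (nat_lit 222) (nat_lit 159) (nat_lit 219)))) (PT.nd (nat_lit 62010) (PT.nd (nat_lit 78) (PT.lf (nat_lit 9576) (nat_lit 6) (nat_lit 126) (nat_lit 1) (nat_lit 223) (nat_lit 159) (nat_lit 218)) (PT.lf (nat_lit 9500) (nat_lit 6) (nat_lit 125) (nat_lit 1) (nat_lit 224) (nat_lit 159) (nat_lit 217))) (PT.nd (nat_lit 78) (PT.lf (nat_lit 9804) (nat_lit 6) (nat_lit 129) (nat_lit 3) (nat_lit 217) (nat_lit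 160) (nat_lit 223)) (PT.nd (nat_lit 78) (PT.lf (nat_lit 9880) (nat_lit 6) (nat_lit 130) (nat_lit 3) (nat_lit 218) (nat_lit 160) (nat_lit 222)) (PT.lf (nat_lit 9956) (nat_lit 6) (nat_lit 131) (nat_lit 3) (nat_lit 219) (nat_lit 160) (nat_lit 221)))))) (PT.nd (nat_lit 62166) (PT.nd (nat_lit 156) (PT.nd (nat_lit 78) (PT.lf (nat_lit 10032) (nat_lit 3) (nat_lit 132) (nat_lit 1) (nat_lit 220) (nat_lit 160) (nat_lit 220)) (PT.lf (nat_lit 9956) (nat_lit 6) (nat_lit 131) (nat_lit 1) (nat_lit 221) (nat_lit 160) (nat_lit 219))) (PT.nd (nat_lit 78) (PT.lf (nat_lit 9880) (nat_lit 6) (nat_lit 130) (nat_lit 1) (nat_lit 222) (nat_lit 160) (nat_lit 218)) (PT.lf (nat_lit 9804) (nat_lit 6) (nat_lit 129) (nat_lit 1) (nat_lit 223) (nat_lit 160) (nat_lit 217)))) (PT.nd (nat_lit 156) (PT.nd (nat_lit 78) (PT.lf (nat_lit 10108) (nat_lit 6) (nat_lit 133) (nat_lit 3) (nat_lit 216) (nat_lit 161) (nat_lit 223)) (PT.lf (nat_lit 10184) (nat_lit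 6) (nat_lit 134) (nat_lit 3) (nat_lit 217) (nat_lit 161) (nat_lit 222))) (PT.nd (nat_lit 78) (PT.lf (nat_lit 10260) (nat_lit 6) (nat_lit 135) (nat_lit 3) (nat_lit 218) (nat_lit 161) (nat_lit 221)) (PT.nd (nat_lit 78) (PT.lf (nat_lit 10336) (nat_lit 6) (nat_lit 136) (nat_lit 3) (nat_lit 219) (nat_lit 161) (nat_lit 220)) (PT.lf (nat_lit 10336) (nat_lit 6) (nat_lit 136) (nat_lit 1) (nat_lit 220) (nat_lit 161) (nat_lit 219))))))) (PT.nd (nat_lit 62556) (PT.nd (nat_lit 62166) (PT.nd (nat_lit 156) (PT.nd (nat_lit 78) (PT.lf (nat_lit 10260) (nat_lit 6) (nat_lit 135) (nat_lit 1) (nat_lit 221) (nat_lit 161) (nat_lit 218)) (PT.lf (nat_lit 10184) (nat_lit 6) (nat_lit 134) (nat_lit 1) (nat_lit 222) (nat_lit 161) (nat_lit 217))) (PT.nd (nat_lit 61932) (PT.lf (nat_lit 10108) (nat_lit 6) (nat_lit 133) (nat_lit 1) (nat_lit 223) (nat_lit 161) (nat_lit 216)) (PT.lf (nat_lit 10412) (nat_lit 6) (nat_lit 137) (nat_lit 3) (nat_lit 216)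 (nat_lit 162) (nat_lit 222)))) (PT.nd (nat_lit 156) (PT.nd (nat_lit 78) (PT.lf (nat_lit 10488) (nat_lit 6) (nat_lit 138) (nat_lit 3) (nat_lit 217) (nat_lit 162) (nat_lit 221)) (PT.lf (nat_lit 10564) (nat_lit 6) (nat_lit 139) (nat_lit 3) (nat_lit 218) (nat_lit 162) (nat_lit 220))) (PT.nd (nat_lit 78) (PT.lf (nat_lit 10640) (nat_lit 3) (nat_lit 140) (nat_lit 1) (nat_lit 219) (nat_lit 162) (nat_lit 219)) (PT.nd (nat_lit 78) (PT.lf (nat_lit 10564) (nat_lit 6) (nat_lit 139) (nat_lit 1) (nat_lit 220) (nat_lit 162) (nat_lit 218)) (PT.lf (nat_lit 10488) (nat_lit 6) (nat_lit 138) (nat_lit 1) (nat_lit 221) (nat_lit 162) (nat_lit 217)))))) (PT.nd (nat_lit 62166) (PT.nd (nat_lit 62010) (PT.nd (nat_lit 61932) (PT.lf (nat_lit 10412) (nat_lit 6) (nat_lit 137) (nat_lit 1) (nat_lit 222) (nat_lit 162) (nat_lit 216)) (PT.lf (nat_lit 10716) (nat_lit 6) (nat_lit 141) (nat_lit 3) (nat_lit 215) (nat_lit 163) (nat_lit 222))) (PT.nd (nat_lit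 78) (PT.lf (nat_lit 10792) (nat_lit 6) (nat_lit 142) (nat_lit 3) (nat_lit 216) (nat_lit 163) (nat_lit 221)) (PT.lf (nat_lit 10868) (nat_lit 6) (nat_lit 143) (nat_lit 3) (nat_lit 217) (nat_lit 163) (nat_lit 220)))) (PT.nd (nat_lit 156) (PT.nd (nat_lit 78) (PT.lf (nat_lit 10944) (nat_lit 6) (nat_lit 144) (nat_lit 3) (nat_lit 218) (nat_lit 163) (nat_lit 219)) (PT.lf (nat_lit 10944) (nat_lit 6) (nat_lit 144) (nat_lit 1) (nat_lit 219) (nat_lit 163) (nat_lit 218))) (PT.nd (nat_lit 78) (PT.lf (nat_lit 10868) (nat_lit 6) (nat_lit 143) (nat_lit 1) (nat_lit 220) (nat_lit 163) (nat_lit 217)) (PT.nd (nat_lit 78) (PT.lf (nat_lit 10792) (nat_lit 6) (nat_lit 142) (nat_lit 1) (nat_lit 221) (nat_lit 163) (nat_lit 216)) (PT.lf (nat_lit 10716) (nat_lit 6) (nat_lit 141) (nat_lit 1) (nat_lit 222) (nat_lit 163) (nat_lit 215))))))))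
noncomputable def pc7 : PT := (PT.nd (nat_lit 124956) (PT.nd (nat_lit 62478) (PT.nd (nat_lit 312) (PT.nd (nat_lit 156) (PT.nd (nat_lit 78) (PT.lf (nat_lit 11020) (nat_lit 6) (nat_lit 145) (nat_lit 3) (nat_lit 214) (nat_lit 164) (nat_lit 222)) (PT.lf (nat_lit 11096) (nat_lit 6) (nat_lit 146) (nat_lit 3) (nat_lit 215) (nat_lit 164) (nat_lit 221))) (PT.nd (nat_lit 78) (PT.lf (nat_lit 11172) (nat_lit 6) (nat_lit 147) (nat_lit 3) (nat_lit 216) (nat_lit 164) (nat_lit 220)) (PT.lf (nat_lit 11248) (nat_lit 6) (nat_lit 148) (nat_lit 3) (nat_lit 217) (nat_lit 164) (nat_lit 219)))) (PT.nd (nat_lit 156) (PT.nd (nat_lit 78) (PT.lf (nat_lit 11324) (nat_lit 3) (nat_lit 149) (nat_lit 1) (nat_lit 218) (nat_lit 164) (nat_lit 218)) (PT.lf (nat_lit 11248) (nat_lit 6) (nat_lit 148) (nat_lit 1) (nat_lit 219) (nat_lit 164) (nat_lit 217))) (PT.nd (nat_lit 78) (PT.lf (nat_lit 11172) (nat_lit 6) (nat_lit 147) (nat_lit 1) (nat_lit 220) (nat_lit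 164) (nat_lit 216)) (PT.nd (nat_lit 78) (PT.lf (nat_lit 11096) (nat_lit 6) (nat_lit 146) (nat_lit 1) (nat_lit 221) (nat_lit 164) (nat_lit 215)) (PT.lf (nat_lit 11020) (nat_lit 6) (nat_lit 145) (nat_lit 1) (nat_lit 222) (nat_lit 164) (nat_lit 214)))))) (PT.nd (nat_lit 312) (PT.nd (nat_lit 156) (PT.nd (nat_lit 78) (PT.lf (nat_lit 11400) (nat_lit 6) (nat_lit 150) (nat_lit 3) (nat_lit 214) (nat_lit 165) (nat_lit 221)) (PT.lf (nat_lit 11476) (nat_lit 6) (nat_lit 151) (nat_lit 3) (nat_lit 215) (nat_lit 165) (nat_lit 220))) (PT.nd (nat_lit 78) (PT.lf (nat_lit 11552) (nat_lit 6) (nat_lit 152) (nat_lit 3) (nat_lit 216) (nat_lit 165) (nat_lit 219)) (PT.lf (nat_lit 11628) (nat_lit 6) (nat_lit 153) (nat_lit 3) (nat_lit 217) (nat_lit 165) (nat_lit 218)))) (PT.nd (nat_lit 156) (PT.nd (nat_lit 78) (PT.lf (nat_lit 11628) (nat_lit 6) (nat_lit 153) (nat_lit 1) (nat_lit 218) (nat_lit 165) (nat_lit 217)) (PT.lf (nat_lit 11552) (nat_lit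 6) (nat_lit 152) (nat_lit 1) (nat_lit 219) (nat_lit 165) (nat_lit 216))) (PT.nd (nat_lit 78) (PT.lf (nat_lit 11476) (nat_lit 6) (nat_lit 151) (nat_lit 1) (nat_lit 220) (nat_lit 165) (nat_lit 215)) (PT.nd (nat_lit 61854) (PT.lf (nat_lit 11400) (nat_lit 6) (nat_lit 150) (nat_lit 1) (nat_lit 221) (nat_lit 165) (nat_lit 214)) (PT.lf (nat_lit 11704) (nat_lit 6) (nat_lit 154) (nat_lit 3) (nat_lit 213) (nat_lit 166) (nat_lit 221))))))) (PT.nd (nat_lit 62400) (PT.nd (nat_lit 312) (PT.nd (nat_lit 156) (PT.nd (nat_lit 78) (PT.lf (nat_lit 11780) (nat_lit 6) (nat_lit 155) (nat_lit 3) (nat_lit 214) (nat_lit 166) (nat_lit 220)) (PT.lf (nat_lit 11856) (nat_lit 6) (nat_lit 156) (nat_lit 3) (nat_lit 215) (nat_lit 166) (nat_lit 219))) (PT.nd (nat_lit 78) (PT.lf (nat_lit 11932) (nat_lit 6) (nat_lit 157) (nat_lit 3) (nat_lit 216) (nat_lit 166) (nat_lit 218)) (PT.lf (nat_lit 12008) (nat_lit 3) (nat_lit 158) (nat_lit 1) (nat_lit 217)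 (nat_lit 166) (nat_lit 217)))) (PT.nd (nat_lit 156) (PT.nd (nat_lit 78) (PT.lf (nat_lit 11932) (nat_lit 6) (nat_lit 157) (nat_lit 1) (nat_lit 218) (nat_lit 166) (nat_lit 216)) (PT.lf (nat_lit 11856) (nat_lit 6) (nat_lit 156) (nat_lit 1) (nat_lit 219) (nat_lit 166) (nat_lit 215))) (PT.nd (nat_lit 78) (PT.lf (nat_lit 11780) (nat_lit 6) (nat_lit 155) (nat_lit 1) (nat_lit 220) (nat_lit 166) (nat_lit 214)) (PT.nd (nat_lit 61776) (PT.lf (nat_lit 11704) (nat_lit 6) (nat_lit 154) (nat_lit 1) (nat_lit 221) (nat_lit 166) (nat_lit 213)) (PT.lf (nat_lit 12084) (nat_lit 6) (nat_lit 159) (nat_lit 3) (nat_lit 212) (nat_lit 167) (nat_lit 221)))))) (PT.nd (nat_lit 390) (PT.nd (nat_lit 156) (PT.nd (nat_lit 78) (PT.lf (nat_lit 12160) (nat_lit 6) (nat_lit 160) (nat_lit 3) (nat_lit 213) (nat_lit 167) (nat_lit 220)) (PT.lf (nat_lit 12236) (nat_lit 6) (nat_lit 161) (nat_lit 3) (nat_lit 214) (nat_lit 167) (nat_lit 219))) (PT.nd (nat_lit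 78) (PT.lf (nat_lit 12312) (nat_lit 6) (nat_lit 162) (nat_lit 3) (nat_lit 215) (nat_lit 167) (nat_lit 218)) (PT.nd (nat_lit 78) (PT.lf (nat_lit 12388) (nat_lit 6) (nat_lit 163) (nat_lit 3) (nat_lit 216) (nat_lit 167) (nat_lit 217)) (PT.lf (nat_lit 12388) (nat_lit 6) (nat_lit 163) (nat_lit 1) (nat_lit 217) (nat_lit 167) (nat_lit 216))))) (PT.nd (nat_lit 156) (PT.nd (nat_lit 78) (PT.lf (nat_lit 12312) (nat_lit 6) (nat_lit 162) (nat_lit 1) (nat_lit 218) (nat_lit 167) (nat_lit 215)) (PT.lf (nat_lit 12236) (nat_lit 6) (nat_lit 161) (nat_lit 1) (nat_lit 219) (nat_lit 167) (nat_lit 214))) (PT.nd (nat_lit 78) (PT.lf (nat_lit 12160) (nat_lit 6) (nat_lit 160) (nat_lit 1) (nat_lit 220) (nat_lit 167) (nat_lit 213)) (PT.nd (nat_lit 61776) (PT.lf (nat_lit 12084) (nat_lit 6) (nat_lit 159) (nat_lit 1) (nat_lit 221) (nat_lit 167) (nat_lit 212)) (PT.lf (nat_lit 12464) (nat_lit 6) (nat_lit 164) (nat_lit 3) (nat_lit 212) (nat_lit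 168) (nat_lit 220))))))))
noncomputable def pc8 : PT := (PT.nd (nat_lit 124722) (PT.nd (nat_lit 62400) (PT.nd (nat_lit 312) (PT.nd (nat_lit 156) (PT.nd (nat_lit 78) (PT.lf (nat_lit 12540) (nat_lit 6) (nat_lit 165) (nat_lit 3) (nat_lit 213) (nat_lit 168) (nat_lit 219)) (PT.lf (nat_lit 12616) (nat_lit 6) (nat_lit 166) (nat_lit 3) (nat_lit 214) (nat_lit 168) (nat_lit 218))) (PT.nd (nat_lit 78) (PT.lf (nat_lit 12692) (nat_lit 6) (nat_lit 167) (nat_lit 3) (nat_lit 215) (nat_lit 168) (nat_lit 217)) (PT.lf (nat_lit 12768) (nat_lit 3) (nat_lit 168) (nat_lit 1) (nat_lit 216) (nat_lit 168) (nat_lit 216)))) (PT.nd (nat_lit 156) (PT.nd (nat_lit 78) (PT.lf (nat_lit 12692) (nat_lit 6) (nat_lit 167) (nat_lit 1) (nat_lit 217) (nat_lit 168) (nat_lit 215)) (PT.lf (nat_lit 12616) (nat_lit 6) (nat_lit 166) (nat_lit 1) (nat_lit 218) (nat_lit 168) (nat_lit 214))) (PT.nd (nat_lit 78) (PT.lf (nat_lit 12540) (nat_lit 6) (nat_lit 165) (nat_lit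 1) (nat_lit 219) (nat_lit 168) (nat_lit 213)) (PT.nd (nat_lit 61776) (PT.lf (nat_lit 12464) (nat_lit 6) (nat_lit 164) (nat_lit 1) (nat_lit 220) (nat_lit 168) (nat_lit 212)) (PT.lf (nat_lit 12844) (nat_lit 6) (nat_lit 169) (nat_lit 3) (nat_lit 211) (nat_lit 169) (nat_lit 220)))))) (PT.nd (nat_lit 312) (PT.nd (nat_lit 156) (PT.nd (nat_lit 78) (PT.lf (nat_lit 12920) (nat_lit 6) (nat_lit 170) (nat_lit 3) (nat_lit 212) (nat_lit 169) (nat_lit 219)) (PT.lf (nat_lit 12996) (nat_lit 6) (nat_lit 171) (nat_lit 3) (nat_lit 213) (nat_lit 169) (nat_lit 218))) (PT.nd (nat_lit 78) (PT.lf (nat_lit 13072) (nat_lit 6) (nat_lit 172) (nat_lit 3) (nat_lit 214) (nat_lit 169) (nat_lit 217)) (PT.lf (nat_lit 13148) (nat_lit 6) (nat_lit 173) (nat_lit 3) (nat_lit 215) (nat_lit 169) (nat_lit 216)))) (PT.nd (nat_lit 156) (PT.nd (nat_lit 78) (PT.lf (nat_lit 13148) (nat_lit 6) (nat_lit 173) (nat_lit 1) (nat_lit 216) (nat_lit 169) (nat_lit 215))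 (PT.lf (nat_lit 13072) (nat_lit 6) (nat_lit 172) (nat_lit 1) (nat_lit 217) (nat_lit 169) (nat_lit 214))) (PT.nd (nat_lit 78) (PT.lf (nat_lit 12996) (nat_lit 6) (nat_lit 171) (nat_lit 1) (nat_lit 218) (nat_lit 169) (nat_lit 213)) (PT.nd (nat_lit 78) (PT.lf (nat_lit 12920) (nat_lit 6) (nat_lit 170) (nat_lit 1) (nat_lit 219) (nat_lit 169) (nat_lit 212)) (PT.lf (nat_lit 12844) (nat_lit 6) (nat_lit 169) (nat_lit 1) (nat_lit 220) (nat_lit 169) (nat_lit 211))))))) (PT.nd (nat_lit 702) (PT.nd (nat_lit 312) (PT.nd (nat_lit 156) (PT.nd (nat_lit 78) (PT.lf (nat_lit 13224) (nat_lit 6) (nat_lit 174) (nat_lit 3) (nat_lit 210) (nat_lit 170) (nat_lit 220)) (PT.lf (nat_lit 13300) (nat_lit 6) (nat_lit 175) (nat_lit 3) (nat_lit 211) (nat_lit 170) (nat_lit 219))) (PT.nd (nat_lit 78) (PT.lf (nat_lit 13376) (nat_lit 6) (nat_lit 176) (nat_lit 3) (nat_lit 212) (nat_lit 170) (nat_lit 218)) (PT.lf (nat_lit 13452) (nat_lit 6) (nat_lit 177)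 (nat_lit 3) (nat_lit 213) (nat_lit 170) (nat_lit 217)))) (PT.nd (nat_lit 156) (PT.nd (nat_lit 78) (PT.lf (nat_lit 13528) (nat_lit 6) (nat_lit 178) (nat_lit 3) (nat_lit 214) (nat_lit 170) (nat_lit 216)) (PT.lf (nat_lit 13604) (nat_lit 3) (nat_lit 179) (nat_lit 1) (nat_lit 215) (nat_lit 170) (nat_lit 215))) (PT.nd (nat_lit 78) (PT.lf (nat_lit 13528) (nat_lit 6) (nat_lit 178) (nat_lit 1) (nat_lit 216) (nat_lit 170) (nat_lit 214)) (PT.nd (nat_lit 78) (PT.lf (nat_lit 13452) (nat_lit 6) (nat_lit 177) (nat_lit 1) (nat_lit 217) (nat_lit 170) (nat_lit 213)) (PT.lf (nat_lit 13376) (nat_lit 6) (nat_lit 176) (nat_lit 1) (nat_lit 218) (nat_lit 170) (nat_lit 212)))))) (PT.nd (nat_lit 61932) (PT.nd (nat_lit 61776) (PT.nd (nat_lit 78) (PT.lf (nat_lit 13300) (nat_lit 6) (nat_lit 175) (nat_lit 1) (nat_lit 219) (nat_lit 170) (nat_lit 211)) (PT.lf (nat_lit 13224) (nat_lit 6) (nat_lit 174) (nat_lit 1) (nat_lit 220) (nat_lit 170) (nat_lit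 210))) (PT.nd (nat_lit 78) (PT.lf (nat_lit 13680) (nat_lit 6) (nat_lit 180) (nat_lit 3) (nat_lit 210) (nat_lit 171) (nat_lit 219)) (PT.lf (nat_lit 13756) (nat_lit 6) (nat_lit 181) (nat_lit 3) (nat_lit 211) (nat_lit 171) (nat_lit 218)))) (PT.nd (nat_lit 156) (PT.nd (nat_lit 78) (PT.lf (nat_lit 13832) (nat_lit 6) (nat_lit 182) (nat_lit 3) (nat_lit 212) (nat_lit 171) (nat_lit 217)) (PT.lf (nat_lit 13908) (nat_lit 6) (nat_lit 183) (nat_lit 3) (nat_lit 213) (nat_lit 171) (nat_lit 216))) (PT.nd (nat_lit 78) (PT.lf (nat_lit 13984) (nat_lit 6) (nat_lit 184) (nat_lit 3) (nat_lit 214) (nat_lit 171) (nat_lit 215)) (PT.nd (nat_lit 78) (PT.lf (nat_lit 13984) (nat_lit 6) (nat_lit 184) (nat_lit 1) (nat_lit 215) (nat_lit 171) (nat_lit 214)) (PT.lf (nat_lit 13908) (nat_lit 6) (nat_lit 183) (nat_lit 1) (nat_lit 216) (nat_lit 171) (nat_lit 213))))))))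
noncomputable def pc9 : PT := (PT.nd (nat_lit 124566) (PT.nd (nat_lit 62322) (PT.nd (nat_lit 61932) (PT.nd (nat_lit 156) (PT.nd (nat_lit 78) (PT.lf (nat_lit 13832) (nat_lit 6) (nat_lit 182) (nat_lit 1) (nat_lit 217) (nat_lit 171) (nat_lit 212)) (PT.lf (nat_lit 13756) (nat_lit 6) (nat_lit 181) (nat_lit 1) (nat_lit 218) (nat_lit 171) (nat_lit 211))) (PT.nd (nat_lit 61698) (PT.lf (nat_lit 13680) (nat_lit 6) (nat_lit 180) (nat_lit 1) (nat_lit 219) (nat_lit 171) (nat_lit 210)) (PT.lf (nat_lit 14060) (nat_lit 6) (nat_lit 185) (nat_lit 3) (nat_lit 209) (nat_lit 172) (nat_lit 219)))) (PT.nd (nat_lit 156) (PT.nd (nat_lit 78) (PT.lf (nat_lit 14136) (nat_lit 6) (nat_lit 186) (nat_lit 3) (nat_lit 210) (nat_lit 172) (nat_lit 218)) (PT.lf (nat_lit 14212) (nat_lit 6) (nat_lit 187) (nat_lit 3) (nat_lit 211) (nat_lit 172) (nat_lit 217))) (PT.nd (nat_lit 78) (PT.lf (nat_lit 14288) (nat_lit 6) (nat_lit 188) (nat_lit 3) (nat_lit 212)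 (nat_lit 172) (nat_lit 216)) (PT.nd (nat_lit 78) (PT.lf (nat_lit 14364) (nat_lit 6) (nat_lit 189) (nat_lit 3) (nat_lit 213) (nat_lit 172) (nat_lit 215)) (PT.lf (nat_lit 14440) (nat_lit 3) (nat_lit 190) (nat_lit 1) (nat_lit 214) (nat_lit 172) (nat_lit 214)))))) (PT.nd (nat_lit 312) (PT.nd (nat_lit 156) (PT.nd (nat_lit 78) (PT.lf (nat_lit 14364) (nat_lit 6) (nat_lit 189) (nat_lit 1) (nat_lit 215) (nat_lit 172) (nat_lit 213)) (PT.lf (nat_lit 14288) (nat_lit 6) (nat_lit 188) (nat_lit 1) (nat_lit 216) (nat_lit 172) (nat_lit 212))) (PT.nd (nat_lit 78) (PT.lf (nat_lit 14212) (nat_lit 6) (nat_lit 187) (nat_lit 1) (nat_lit 217) (nat_lit 172) (nat_lit 211)) (PT.lf (nat_lit 14136) (nat_lit 6) (nat_lit 186) (nat_lit 1) (nat_lit 218) (nat_lit 172) (nat_lit 210)))) (PT.nd (nat_lit 61698) (PT.nd (nat_lit 61620) (PT.lf (nat_lit 14060) (nat_lit 6) (nat_lit 185) (nat_lit 1) (nat_lit 219) (nat_lit 172) (nat_lit 209)) (PT.lf (nat_lit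 14516) (nat_lit 6) (nat_lit 191) (nat_lit 3) (nat_lit 208) (nat_lit 173) (nat_lit 219))) (PT.nd (nat_lit 78) (PT.lf (nat_lit 14592) (nat_lit 6) (nat_lit 192) (nat_lit 3) (nat_lit 209) (nat_lit 173) (nat_lit 218)) (PT.nd (nat_lit 78) (PT.lf (nat_lit 14668) (nat_lit 6) (nat_lit 193) (nat_lit 3) (nat_lit 210) (nat_lit 173) (nat_lit 217)) (PT.lf (nat_lit 14744) (nat_lit 6) (nat_lit 194) (nat_lit 3) (nat_lit 211) (nat_lit 173) (nat_lit 216))))))) (PT.nd (nat_lit 62166) (PT.nd (nat_lit 312) (PT.nd (nat_lit 156) (PT.nd (nat_lit 78) (PT.lf (nat_lit 14820) (nat_lit 6) (nat_lit 195) (nat_lit 3) (nat_lit 212) (nat_lit 173) (nat_lit 215)) (PT.lf (nat_lit 14896) (nat_lit 6) (nat_lit 196) (nat_lit 3) (nat_lit 213) (nat_lit 173) (nat_lit 214))) (PT.nd (nat_lit 78) (PT.lf (nat_lit 14896) (nat_lit 6) (nat_lit 196) (nat_lit 1) (nat_lit 214) (nat_lit 173) (nat_lit 213)) (PT.lf (nat_lit 14820) (nat_lit 6) (nat_lit 195) (nat_lit 1)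 (nat_lit 215) (nat_lit 173) (nat_lit 212)))) (PT.nd (nat_lit 156) (PT.nd (nat_lit 78) (PT.lf (nat_lit 14744) (nat_lit 6) (nat_lit 194) (nat_lit 1) (nat_lit 216) (nat_lit 173) (nat_lit 211)) (PT.lf (nat_lit 14668) (nat_lit 6) (nat_lit 193) (nat_lit 1) (nat_lit 217) (nat_lit 173) (nat_lit 210))) (PT.nd (nat_lit 78) (PT.lf (nat_lit 14592) (nat_lit 6) (nat_lit 192) (nat_lit 1) (nat_lit 218) (nat_lit 173) (nat_lit 209)) (PT.nd (nat_lit 61542) (PT.lf (nat_lit 14516) (nat_lit 6) (nat_lit 191) (nat_lit 1) (nat_lit 219) (nat_lit 173) (nat_lit 208)) (PT.lf (nat_lit 14972) (nat_lit 6) (nat_lit 197) (nat_lit 3) (nat_lit 207) (nat_lit 174) (nat_lit 219)))))) (PT.nd (nat_lit 312) (PT.nd (nat_lit 156) (PT.nd (nat_lit 78) (PT.lf (nat_lit 15048) (nat_lit 6) (nat_lit 198) (nat_lit 3) (nat_lit 208) (nat_lit 174) (nat_lit 218)) (PT.lf (nat_lit 15124) (nat_lit 6) (nat_lit 199) (nat_lit 3) (nat_lit 209) (nat_lit 174) (nat_lit 217)))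 (PT.nd (nat_lit 78) (PT.lf (nat_lit 15200) (nat_lit 6) (nat_lit 200) (nat_lit 3) (nat_lit 210) (nat_lit 174) (nat_lit 216)) (PT.lf (nat_lit 15276) (nat_lit 6) (nat_lit 201) (nat_lit 3) (nat_lit 211) (nat_lit 174) (nat_lit 215)))) (PT.nd (nat_lit 156) (PT.nd (nat_lit 78) (PT.lf (nat_lit 15352) (nat_lit 6) (nat_lit 202) (nat_lit 3) (nat_lit 212) (nat_lit 174) (nat_lit 214)) (PT.lf (nat_lit 15428) (nat_lit 3) (nat_lit 203) (nat_lit 1) (nat_lit 213) (nat_lit 174) (nat_lit 213))) (PT.nd (nat_lit 78) (PT.lf (nat_lit 15352) (nat_lit 6) (nat_lit 202) (nat_lit 1) (nat_lit 214) (nat_lit 174) (nat_lit 212)) (PT.nd (nat_lit 78) (PT.lf (nat_lit 15276) (nat_lit 6) (nat_lit 201) (nat_lit 1) (nat_lit 215) (nat_lit 174) (nat_lit 211)) (PT.lf (nat_lit 15200) (nat_lit 6) (nat_lit 200) (nat_lit 1) (nat_lit 216) (nat_lit 174) (nat_lit 210))))))))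
noncomputable def pc10 : PT := (PT.nd (nat_lit 124332) (PT.nd (nat_lit 62166) (PT.nd (nat_lit 61776) (PT.nd (nat_lit 156) (PT.nd (nat_lit 78) (PT.lf (nat_lit 15124) (nat_lit 6) (nat_lit 199) (nat_lit 1) (nat_lit 217) (nat_lit 174) (nat_lit 209)) (PT.lf (nat_lit 15048) (nat_lit 6) (nat_lit 198) (nat_lit 1) (nat_lit 218) (nat_lit 174) (nat_lit 208))) (PT.nd (nat_lit 61542) (PT.lf (nat_lit 14972) (nat_lit 6) (nat_lit 197) (nat_lit 1) (nat_lit 219) (nat_lit 174) (nat_lit 207)) (PT.lf (nat_lit 15504) (nat_lit 6) (nat_lit 204) (nat_lit 3) (nat_lit 207) (nat_lit 175) (nat_lit 218)))) (PT.nd (nat_lit 156) (PT.nd (nat_lit 78) (PT.lf (nat_lit 15580) (nat_lit 6) (nat_lit 205) (nat_lit 3) (nat_lit 208) (nat_lit 175) (nat_lit 217)) (PT.lf (nat_lit 15656) (nat_lit 6) (nat_lit 206) (nat_lit 3) (nat_lit 209) (nat_lit 175) (nat_lit 216))) (PT.nd (nat_lit 78) (PT.lf (nat_lit 15732) (nat_lit 6) (nat_lit 207) (nat_lit 3) (nat_lit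 210) (nat_lit 175) (nat_lit 215)) (PT.nd (nat_lit 78) (PT.lf (nat_lit 15808) (nat_lit 6) (nat_lit 208) (nat_lit 3) (nat_lit 211) (nat_lit 175) (nat_lit 214)) (PT.lf (nat_lit 15884) (nat_lit 6) (nat_lit 209) (nat_lit 3) (nat_lit 212) (nat_lit 175) (nat_lit 213)))))) (PT.nd (nat_lit 312) (PT.nd (nat_lit 156) (PT.nd (nat_lit 78) (PT.lf (nat_lit 15884) (nat_lit 6) (nat_lit 209) (nat_lit 1) (nat_lit 213) (nat_lit 175) (nat_lit 212)) (PT.lf (nat_lit 15808) (nat_lit 6) (nat_lit 208) (nat_lit 1) (nat_lit 214) (nat_lit 175) (nat_lit 211))) (PT.nd (nat_lit 78) (PT.lf (nat_lit 15732) (nat_lit 6) (nat_lit 207) (nat_lit 1) (nat_lit 215) (nat_lit 175) (nat_lit 210)) (PT.lf (nat_lit 15656) (nat_lit 6) (nat_lit 206) (nat_lit 1) (nat_lit 216) (nat_lit 175) (nat_lit 209)))) (PT.nd (nat_lit 61620) (PT.nd (nat_lit 78) (PT.lf (nat_lit 15580) (nat_lit 6) (nat_lit 205) (nat_lit 1) (nat_lit 217) (nat_lit 175) (nat_lit 208)) (PT.lf (nat_lit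 15504) (nat_lit 6) (nat_lit 204) (nat_lit 1) (nat_lit 218) (nat_lit 175) (nat_lit 207))) (PT.nd (nat_lit 78) (PT.lf (nat_lit 15960) (nat_lit 6) (nat_lit 210) (nat_lit 3) (nat_lit 206) (nat_lit 176) (nat_lit 218)) (PT.nd (nat_lit 78) (PT.lf (nat_lit 16036) (nat_lit 6) (nat_lit 211) (nat_lit 3) (nat_lit 207) (nat_lit 176) (nat_lit 217)) (PT.lf (nat_lit 16112) (nat_lit 6) (nat_lit 212) (nat_lit 3) (nat_lit 208) (nat_lit 176) (nat_lit 216))))))) (PT.nd (nat_lit 702) (PT.nd (nat_lit 312) (PT.nd (nat_lit 156) (PT.nd (nat_lit 78) (PT.lf (nat_lit 16188) (nat_lit 6) (nat_lit 213) (nat_lit 3) (nat_lit 209) (nat_lit 176) (nat_lit 215)) (PT.lf (nat_lit 16264) (nat_lit 6) (nat_lit 214) (nat_lit 3) (nat_lit 210) (nat_lit 176) (nat_lit 214))) (PT.nd (nat_lit 78) (PT.lf (nat_lit 16340) (nat_lit 6) (nat_lit 215) (nat_lit 3) (nat_lit 211) (nat_lit 176) (nat_lit 213)) (PT.lf (nat_lit 16416) (nat_lit 3) (nat_lit 216) (nat_lit 1) (nat_lit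 212) (nat_lit 176) (nat_lit 212)))) (PT.nd (nat_lit 156) (PT.nd (nat_lit 78) (PT.lf (nat_lit 16340) (nat_lit 6) (nat_lit 215) (nat_lit 1) (nat_lit 213) (nat_lit 176) (nat_lit 211)) (PT.lf (nat_lit 16264) (nat_lit 6) (nat_lit 214) (nat_lit 1) (nat_lit 214) (nat_lit 176) (nat_lit 210))) (PT.nd (nat_lit 78) (PT.lf (nat_lit 16188) (nat_lit 6) (nat_lit 213) (nat_lit 1) (nat_lit 215) (nat_lit 176) (nat_lit 209)) (PT.nd (nat_lit 78) (PT.lf (nat_lit 16112) (nat_lit 6) (nat_lit 212) (nat_lit 1) (nat_lit 216) (nat_lit 176) (nat_lit 208)) (PT.lf (nat_lit 16036) (nat_lit 6) (nat_lit 211) (nat_lit 1) (nat_lit 217) (nat_lit 176) (nat_lit 207)))))) (PT.nd (nat_lit 61698) (PT.nd (nat_lit 61542) (PT.nd (nat_lit 61464) (PT.lf (nat_lit 15960) (nat_lit 6) (nat_lit 210) (nat_lit 1) (nat_lit 218) (nat_lit 176) (nat_lit 206)) (PT.lf (nat_lit 16492) (nat_lit 6) (nat_lit 217) (nat_lit 3) (nat_lit 205) (nat_lit 177) (nat_lit 218))) (PT.nd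 (nat_lit 78) (PT.lf (nat_lit 16568) (nat_lit 6) (nat_lit 218) (nat_lit 3) (nat_lit 206) (nat_lit 177) (nat_lit 217)) (PT.lf (nat_lit 16644) (nat_lit 6) (nat_lit 219) (nat_lit 3) (nat_lit 207) (nat_lit 177) (nat_lit 216)))) (PT.nd (nat_lit 156) (PT.nd (nat_lit 78) (PT.lf (nat_lit 16720) (nat_lit 6) (nat_lit 220) (nat_lit 3) (nat_lit 208) (nat_lit 177) (nat_lit 215)) (PT.lf (nat_lit 16796) (nat_lit 6) (nat_lit 221) (nat_lit 3) (nat_lit 209) (nat_lit 177) (nat_lit 214))) (PT.nd (nat_lit 78) (PT.lf (nat_lit 16872) (nat_lit 6) (nat_lit 222) (nat_lit 3) (nat_lit 210) (nat_lit 177) (nat_lit 213)) (PT.nd (nat_lit 78) (PT.lf (nat_lit 16948) (nat_lit 6) (nat_lit 223) (nat_lit 3) (nat_lit 211) (nat_lit 177) (nat_lit 212)) (PT.lf (nat_lit 16948) (nat_lit 6) (nat_lit 223) (nat_lit 1) (nat_lit 212) (nat_lit 177) (nat_lit 211))))))))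
noncomputable def pc11 : PT := (PT.nd (nat_lit 62712) (PT.nd (nat_lit 62010) (PT.nd (nat_lit 312) (PT.nd (nat_lit 156) (PT.nd (nat_lit 78) (PT.lf (nat_lit 16872) (nat_lit 6) (nat_lit 222) (nat_lit 1) (nat_lit 213) (nat_lit 177) (nat_lit 210)) (PT.lf (nat_lit 16796) (nat_lit 6) (nat_lit 221) (nat_lit 1) (nat_lit 214) (nat_lit 177) (nat_lit 209))) (PT.nd (nat_lit 78) (PT.lf (nat_lit 16720) (nat_lit 6) (nat_lit 220) (nat_lit 1) (nat_lit 215) (nat_lit 177) (nat_lit 208)) (PT.lf (nat_lit 16644) (nat_lit 6) (nat_lit 219) (nat_lit 1) (nat_lit 216) (nat_lit 177) (nat_lit 207)))) (PT.nd (nat_lit 61464) (PT.nd (nat_lit 78) (PT.lf (nat_lit 16568) (nat_lit 6) (nat_lit 218) (nat_lit 1) (nat_lit 217) (nat_lit 177) (nat_lit 206)) (PT.lf (nat_lit 16492) (nat_lit 6) (nat_lit 217) (nat_lit 1) (nat_lit 218) (nat_lit 177) (nat_lit 205))) (PT.nd (nat_lit 78) (PT.lf (nat_lit 17024) (nat_lit 6) (nat_lit 224) (nat_lit 3) (nat_lit 204)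 (nat_lit 178) (nat_lit 218)) (PT.nd (nat_lit 78) (PT.lf (nat_lit 17100) (nat_lit 6) (nat_lit 225) (nat_lit 3) (nat_lit 205) (nat_lit 178) (nat_lit 217)) (PT.lf (nat_lit 17176) (nat_lit 6) (nat_lit 226) (nat_lit 3) (nat_lit 206) (nat_lit 178) (nat_lit 216)))))) (PT.nd (nat_lit 312) (PT.nd (nat_lit 156) (PT.nd (nat_lit 78) (PT.lf (nat_lit 17252) (nat_lit 6) (nat_lit 227) (nat_lit 3) (nat_lit 207) (nat_lit 178) (nat_lit 215)) (PT.lf (nat_lit 17328) (nat_lit 6) (nat_lit 228) (nat_lit 3) (nat_lit 208) (nat_lit 178) (nat_lit 214))) (PT.nd (nat_lit 78) (PT.lf (nat_lit 17404) (nat_lit 6) (nat_lit 229) (nat_lit 3) (nat_lit 209) (nat_lit 178) (nat_lit 213)) (PT.lf (nat_lit 17480) (nat_lit 6) (nat_lit 230) (nat_lit 3) (nat_lit 210) (nat_lit 178) (nat_lit 212)))) (PT.nd (nat_lit 156) (PT.nd (nat_lit 78) (PT.lf (nat_lit 17556) (nat_lit 3) (nat_lit 231) (nat_lit 1) (nat_lit 211) (nat_lit 178) (nat_lit 211)) (PT.lf (nat_lit 17480)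 (nat_lit 6) (nat_lit 230) (nat_lit 1) (nat_lit 212) (nat_lit 178) (nat_lit 210))) (PT.nd (nat_lit 78) (PT.lf (nat_lit 17404) (nat_lit 6) (nat_lit 229) (nat_lit 1) (nat_lit 213) (nat_lit 178) (nat_lit 209)) (PT.nd (nat_lit 78) (PT.lf (nat_lit 17328) (nat_lit 6) (nat_lit 228) (nat_lit 1) (nat_lit 214) (nat_lit 178) (nat_lit 208)) (PT.lf (nat_lit 17252) (nat_lit 6) (nat_lit 227) (nat_lit 1) (nat_lit 215) (nat_lit 178) (nat_lit 207))))))) (PT.nd (nat_lit 62010) (PT.nd (nat_lit 61620) (PT.nd (nat_lit 156) (PT.nd (nat_lit 78) (PT.lf (nat_lit 17176) (nat_lit 6) (nat_lit 226) (nat_lit 1) (nat_lit 216) (nat_lit 178) (nat_lit 206)) (PT.lf (nat_lit 17100) (nat_lit 6) (nat_lit 225) (nat_lit 1) (nat_lit 217) (nat_lit 178) (nat_lit 205))) (PT.nd (nat_lit 61386) (PT.lf (nat_lit 17024) (nat_lit 6) (nat_lit 224) (nat_lit 1) (nat_lit 218) (nat_lit 178) (nat_lit 204)) (PT.lf (nat_lit 17632) (nat_lit 6) (nat_lit 232) (nat_lit 3) (nat_lit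 204) (nat_lit 179) (nat_lit 217)))) (PT.nd (nat_lit 156) (PT.nd (nat_lit 78) (PT.lf (nat_lit 17708) (nat_lit 6) (nat_lit 233) (nat_lit 3) (nat_lit 205) (nat_lit 179) (nat_lit 216)) (PT.lf (nat_lit 17784) (nat_lit 6) (nat_lit 234) (nat_lit 3) (nat_lit 206) (nat_lit 179) (nat_lit 215))) (PT.nd (nat_lit 78) (PT.lf (nat_lit 17860) (nat_lit 6) (nat_lit 235) (nat_lit 3) (nat_lit 207) (nat_lit 179) (nat_lit 214)) (PT.nd (nat_lit 78) (PT.lf (nat_lit 17936) (nat_lit 6) (nat_lit 236) (nat_lit 3) (nat_lit 208) (nat_lit 179) (nat_lit 213)) (PT.lf (nat_lit 18012) (nat_lit 6) (nat_lit 237) (nat_lit 3) (nat_lit 209) (nat_lit 179) (nat_lit 212)))))) (PT.nd (nat_lit 390) (PT.nd (nat_lit 156) (PT.nd (nat_lit 78) (PT.lf (nat_lit 18088) (nat_lit 6) (nat_lit 238) (nat_lit 3) (nat_lit 210) (nat_lit 179) (nat_lit 211)) (PT.lf (nat_lit 18088) (nat_lit 6) (nat_lit 238) (nat_lit 1) (nat_lit 211) (nat_lit 179) (nat_lit 210))) (PT.nd (nat_lit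 78) (PT.lf (nat_lit 18012) (nat_lit 6) (nat_lit 237) (nat_lit 1) (nat_lit 212) (nat_lit 179) (nat_lit 209)) (PT.nd (nat_lit 78) (PT.lf (nat_lit 17936) (nat_lit 6) (nat_lit 236) (nat_lit 1) (nat_lit 213) (nat_lit 179) (nat_lit 208)) (PT.lf (nat_lit 17860) (nat_lit 6) (nat_lit 235) (nat_lit 1) (nat_lit 214) (nat_lit 179) (nat_lit 207))))) (PT.nd (nat_lit 156) (PT.nd (nat_lit 78) (PT.lf (nat_lit 17784) (nat_lit 6) (nat_lit 234) (nat_lit 1) (nat_lit 215) (nat_lit 179) (nat_lit 206)) (PT.lf (nat_lit 17708) (nat_lit 6) (nat_lit 233) (nat_lit 1) (nat_lit 216) (nat_lit 179) (nat_lit 205))) (PT.nd (nat_lit 61386) (PT.lf (nat_lit 17632) (nat_lit 6) (nat_lit 232) (nat_lit 1) (nat_lit 217) (nat_lit 179) (nat_lit 204)) (PT.nd (nat_lit 78) (PT.lf (nat_lit 18164) (nat_lit 6) (nat_lit 239) (nat_lit 3) (nat_lit 203) (nat_lit 180) (nat_lit 217)) (PT.lf (nat_lit 18240) (nat_lit 6) (nat_lit 240) (nat_lit 3) (nat_lit 204) (nat_lit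 180) (nat_lit 216))))))))
noncomputable def pc12 : PT := (PT.nd (nat_lit 62634) (PT.nd (nat_lit 702) (PT.nd (nat_lit 312) (PT.nd (nat_lit 156) (PT.nd (nat_lit 78) (PT.lf (nat_lit 18316) (nat_lit 6) (nat_lit 241) (nat_lit 3) (nat_lit 205) (nat_lit 180) (nat_lit 215)) (PT.lf (nat_lit 18392) (nat_lit 6) (nat_lit 242) (nat_lit 3) (nat_lit 206) (nat_lit 180) (nat_lit 214))) (PT.nd (nat_lit 78) (PT.lf (nat_lit 18468) (nat_lit 6) (nat_lit 243) (nat_lit 3) (nat_lit 207) (nat_lit 180) (nat_lit 213)) (PT.lf (nat_lit 18544) (nat_lit 6) (nat_lit 244) (nat_lit 3) (nat_lit 208) (nat_lit 180) (nat_lit 212)))) (PT.nd (nat_lit 156) (PT.nd (nat_lit 78) (PT.lf (nat_lit 18620) (nat_lit 6) (nat_lit 245) (nat_lit 3) (nat_lit 209) (nat_lit 180) (nat_lit 211)) (PT.lf (nat_lit 18696) (nat_lit 3) (nat_lit 246) (nat_lit 1) (nat_lit 210) (nat_lit 180) (nat_lit 210))) (PT.nd (nat_lit 78) (PT.lf (nat_lit 18620) (nat_lit 6) (nat_lit 245) (nat_lit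 1) (nat_lit 211) (nat_lit 180) (nat_lit 209)) (PT.nd (nat_lit 78) (PT.lf (nat_lit 18544) (nat_lit 6) (nat_lit 244) (nat_lit 1) (nat_lit 212) (nat_lit 180) (nat_lit 208)) (PT.lf (nat_lit 18468) (nat_lit 6) (nat_lit 243) (nat_lit 1) (nat_lit 213) (nat_lit 180) (nat_lit 207)))))) (PT.nd (nat_lit 61542) (PT.nd (nat_lit 156) (PT.nd (nat_lit 78) (PT.lf (nat_lit 18392) (nat_lit 6) (nat_lit 242) (nat_lit 1) (nat_lit 214) (nat_lit 180) (nat_lit 206)) (PT.lf (nat_lit 18316) (nat_lit 6) (nat_lit 241) (nat_lit 1) (nat_lit 215) (nat_lit 180) (nat_lit 205))) (PT.nd (nat_lit 78) (PT.lf (nat_lit 18240) (nat_lit 6) (nat_lit 240) (nat_lit 1) (nat_lit 216) (nat_lit 180) (nat_lit 204)) (PT.lf (nat_lit 18164) (nat_lit 6) (nat_lit 239) (nat_lit 1) (nat_lit 217) (nat_lit 180) (nat_lit 203)))) (PT.nd (nat_lit 156) (PT.nd (nat_lit 78) (PT.lf (nat_lit 18772) (nat_lit 6) (nat_lit 247) (nat_lit 3) (nat_lit 202) (nat_lit 181) (nat_lit 217))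 (PT.lf (nat_lit 18848) (nat_lit 6) (nat_lit 248) (nat_lit 3) (nat_lit 203) (nat_lit 181) (nat_lit 216))) (PT.nd (nat_lit 78) (PT.lf (nat_lit 18924) (nat_lit 6) (nat_lit 249) (nat_lit 3) (nat_lit 204) (nat_lit 181) (nat_lit 215)) (PT.nd (nat_lit 78) (PT.lf (nat_lit 19000) (nat_lit 6) (nat_lit 250) (nat_lit 3) (nat_lit 205) (nat_lit 181) (nat_lit 214)) (PT.lf (nat_lit 19076) (nat_lit 6) (nat_lit 251) (nat_lit 3) (nat_lit 206) (nat_lit 181) (nat_lit 213))))))) (PT.nd (nat_lit 702) (PT.nd (nat_lit 312) (PT.nd (nat_lit 156) (PT.nd (nat_lit 78) (PT.lf (nat_lit 19152) (nat_lit 6) (nat_lit 252) (nat_lit 3) (nat_lit 207) (nat_lit 181) (nat_lit 212)) (PT.lf (nat_lit 19228) (nat_lit 6) (nat_lit 253) (nat_lit 3) (nat_lit 208) (nat_lit 181) (nat_lit 211))) (PT.nd (nat_lit 78) (PT.lf (nat_lit 19304) (nat_lit 6) (nat_lit 254) (nat_lit 3) (nat_lit 209) (nat_lit 181) (nat_lit 210)) (PT.lf (nat_lit 19304) (nat_lit 6) (nat_lit 254)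 (nat_lit 1) (nat_lit 210) (nat_lit 181) (nat_lit 209)))) (PT.nd (nat_lit 156) (PT.nd (nat_lit 78) (PT.lf (nat_lit 19228) (nat_lit 6) (nat_lit 253) (nat_lit 1) (nat_lit 211) (nat_lit 181) (nat_lit 208)) (PT.lf (nat_lit 19152) (nat_lit 6) (nat_lit 252) (nat_lit 1) (nat_lit 212) (nat_lit 181) (nat_lit 207))) (PT.nd (nat_lit 78) (PT.lf (nat_lit 19076) (nat_lit 6) (nat_lit 251) (nat_lit 1) (nat_lit 213) (nat_lit 181) (nat_lit 206)) (PT.nd (nat_lit 78) (PT.lf (nat_lit 19000) (nat_lit 6) (nat_lit 250) (nat_lit 1) (nat_lit 214) (nat_lit 181) (nat_lit 205)) (PT.lf (nat_lit 18924) (nat_lit 6) (nat_lit 249) (nat_lit 1) (nat_lit 215) (nat_lit 181) (nat_lit 204)))))) (PT.nd (nat_lit 61464) (PT.nd (nat_lit 61308) (PT.nd (nat_lit 78) (PT.lf (nat_lit 18848) (nat_lit 6) (nat_lit 248) (nat_lit 1) (nat_lit 216) (nat_lit 181) (nat_lit 203)) (PT.lf (nat_lit 18772) (nat_lit 6) (nat_lit 247) (nat_lit 1) (nat_lit 217) (nat_lit 181) (nat_lit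 202))) (PT.nd (nat_lit 78) (PT.lf (nat_lit 19380) (nat_lit 6) (nat_lit 255) (nat_lit 3) (nat_lit 201) (nat_lit 182) (nat_lit 217)) (PT.lf (nat_lit 19456) (nat_lit 6) (nat_lit 256) (nat_lit 3) (nat_lit 202) (nat_lit 182) (nat_lit 216)))) (PT.nd (nat_lit 156) (PT.nd (nat_lit 78) (PT.lf (nat_lit 19532) (nat_lit 6) (nat_lit 257) (nat_lit 3) (nat_lit 203) (nat_lit 182) (nat_lit 215)) (PT.lf (nat_lit 19608) (nat_lit 6) (nat_lit 258) (nat_lit 3) (nat_lit 204) (nat_lit 182) (nat_lit 214))) (PT.nd (nat_lit 78) (PT.lf (nat_lit 19684) (nat_lit 6) (nat_lit 259) (nat_lit 3) (nat_lit 205) (nat_lit 182) (nat_lit 213)) (PT.nd (nat_lit 78) (PT.lf (nat_lit 19760) (nat_lit 6) (nat_lit 260) (nat_lit 3) (nat_lit 206) (nat_lit 182) (nat_lit 212)) (PT.lf (nat_lit 19836) (nat_lit 6) (nat_lit 261) (nat_lit 3) (nat_lit 207) (nat_lit 182) (nat_lit 211))))))))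
noncomputable def pc13 : PT := (PT.nd (nat_lit 62478) (PT.nd (nat_lit 702) (PT.nd (nat_lit 312) (PT.nd (nat_lit 156) (PT.nd (nat_lit 78) (PT.lf (nat_lit 19912) (nat_lit 6) (nat_lit 262) (nat_lit 3) (nat_lit 208) (nat_lit 182) (nat_lit 210)) (PT.lf (nat_lit 19988) (nat_lit 3) (nat_lit 263) (nat_lit 1) (nat_lit 209) (nat_lit 182) (nat_lit 209))) (PT.nd (nat_lit 78) (PT.lf (nat_lit 19912) (nat_lit 6) (nat_lit 262) (nat_lit 1) (nat_lit 210) (nat_lit 182) (nat_lit 208)) (PT.lf (nat_lit 19836) (nat_lit 6) (nat_lit 261) (nat_lit 1) (nat_lit 211) (nat_lit 182) (nat_lit 207)))) (PT.nd (nat_lit 156) (PT.nd (nat_lit 78) (PT.lf (nat_lit 19760) (nat_lit 6) (nat_lit 260) (nat_lit 1) (nat_lit 212) (nat_lit 182) (nat_lit 206)) (PT.lf (nat_lit 19684) (nat_lit 6) (nat_lit 259) (nat_lit 1) (nat_lit 213) (nat_lit 182) (nat_lit 205))) (PT.nd (nat_lit 78) (PT.lf (nat_lit 19608) (nat_lit 6) (nat_lit 258) (nat_lit 1) (nat_lit 214) (nat_lit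 182) (nat_lit 204)) (PT.nd (nat_lit 78) (PT.lf (nat_lit 19532) (nat_lit 6) (nat_lit 257) (nat_lit 1) (nat_lit 215) (nat_lit 182) (nat_lit 203)) (PT.lf (nat_lit 19456) (nat_lit 6) (nat_lit 256) (nat_lit 1) (nat_lit 216) (nat_lit 182) (nat_lit 202)))))) (PT.nd (nat_lit 61386) (PT.nd (nat_lit 61230) (PT.nd (nat_lit 61152) (PT.lf (nat_lit 19380) (nat_lit 6) (nat_lit 255) (nat_lit 1) (nat_lit 217) (nat_lit 182) (nat_lit 201)) (PT.lf (nat_lit 20140) (nat_lit 6) (nat_lit 265) (nat_lit 3) (nat_lit 200) (nat_lit 183) (nat_lit 217))) (PT.nd (nat_lit 78) (PT.lf (nat_lit 20216) (nat_lit 6) (nat_lit 266) (nat_lit 3) (nat_lit 201) (nat_lit 183) (nat_lit 216)) (PT.lf (nat_lit 20292) (nat_lit 6) (nat_lit 267) (nat_lit 3) (nat_lit 202) (nat_lit 183) (nat_lit 215)))) (PT.nd (nat_lit 156) (PT.nd (nat_lit 78) (PT.lf (nat_lit 20368) (nat_lit 6) (nat_lit 268) (nat_lit 3) (nat_lit 203) (nat_lit 183) (nat_lit 214)) (PT.lf (nat_lit 20444)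 (nat_lit 6) (nat_lit 269) (nat_lit 3) (nat_lit 204) (nat_lit 183) (nat_lit 213))) (PT.nd (nat_lit 78) (PT.lf (nat_lit 20520) (nat_lit 6) (nat_lit 270) (nat_lit 3) (nat_lit 205) (nat_lit 183) (nat_lit 212)) (PT.nd (nat_lit 78) (PT.lf (nat_lit 20596) (nat_lit 6) (nat_lit 271) (nat_lit 3) (nat_lit 206) (nat_lit 183) (nat_lit 211)) (PT.lf (nat_lit 20672) (nat_lit 6) (nat_lit 272) (nat_lit 3) (nat_lit 207) (nat_lit 183) (nat_lit 210))))))) (PT.nd (nat_lit 702) (PT.nd (nat_lit 312) (PT.nd (nat_lit 156) (PT.nd (nat_lit 78) (PT.lf (nat_lit 20748) (nat_lit 6) (nat_lit 273) (nat_lit 3) (nat_lit 208) (nat_lit 183) (nat_lit 209)) (PT.lf (nat_lit 20748) (nat_lit 6) (nat_lit 273) (nat_lit 1) (nat_lit 209) (nat_lit 183) (nat_lit 208))) (PT.nd (nat_lit 78) (PT.lf (nat_lit 20672) (nat_lit 6) (nat_lit 272) (nat_lit 1) (nat_lit 210) (nat_lit 183) (nat_lit 207)) (PT.lf (nat_lit 20596) (nat_lit 6) (nat_lit 271) (nat_lit 1) (nat_lit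 211) (nat_lit 183) (nat_lit 206)))) (PT.nd (nat_lit 156) (PT.nd (nat_lit 78) (PT.lf (nat_lit 20520) (nat_lit 6) (nat_lit 270) (nat_lit 1) (nat_lit 212) (nat_lit 183) (nat_lit 205)) (PT.lf (nat_lit 20444) (nat_lit 6) (nat_lit 269) (nat_lit 1) (nat_lit 213) (nat_lit 183) (nat_lit 204))) (PT.nd (nat_lit 78) (PT.lf (nat_lit 20368) (nat_lit 6) (nat_lit 268) (nat_lit 1) (nat_lit 214) (nat_lit 183) (nat_lit 203)) (PT.nd (nat_lit 78) (PT.lf (nat_lit 20292) (nat_lit 6) (nat_lit 267) (nat_lit 1) (nat_lit 215) (nat_lit 183) (nat_lit 202)) (PT.lf (nat_lit 20216) (nat_lit 6) (nat_lit 266) (nat_lit 1) (nat_lit 216) (nat_lit 183) (nat_lit 201)))))) (PT.nd (nat_lit 61308) (PT.nd (nat_lit 61152) (PT.nd (nat_lit 61074) (PT.lf (nat_lit 20140) (nat_lit 6) (nat_lit 265) (nat_lit 1) (nat_lit 217) (nat_lit 183) (nat_lit 200)) (PT.lf (nat_lit 20064) (nat_lit 6) (nat_lit 264) (nat_lit 3) (nat_lit 199) (nat_lit 184) (nat_lit 217))) (PT.nd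 (nat_lit 78) (PT.lf (nat_lit 21432) (nat_lit 6) (nat_lit 282) (nat_lit 3) (nat_lit 200) (nat_lit 184) (nat_lit 216)) (PT.lf (nat_lit 21508) (nat_lit 6) (nat_lit 283) (nat_lit 3) (nat_lit 201) (nat_lit 184) (nat_lit 215)))) (PT.nd (nat_lit 156) (PT.nd (nat_lit 78) (PT.lf (nat_lit 21584) (nat_lit 6) (nat_lit 284) (nat_lit 3) (nat_lit 202) (nat_lit 184) (nat_lit 214)) (PT.lf (nat_lit 21660) (nat_lit 6) (nat_lit 285) (nat_lit 3) (nat_lit 203) (nat_lit 184) (nat_lit 213))) (PT.nd (nat_lit 78) (PT.lf (nat_lit 21736) (nat_lit 6) (nat_lit 286) (nat_lit 3) (nat_lit 204) (nat_lit 184) (nat_lit 212)) (PT.nd (nat_lit 78) (PT.lf (nat_lit 21812) (nat_lit 6) (nat_lit 287) (nat_lit 3) (nat_lit 205) (nat_lit 184) (nat_lit 211)) (PT.lf (nat_lit 21888) (nat_lit 6) (nat_lit 288) (nat_lit 3) (nat_lit 206) (nat_lit 184) (nat_lit 210))))))))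
noncomputable def pc14 : PT := (PT.nd (nat_lit 62400) (PT.nd (nat_lit 702) (PT.nd (nat_lit 312) (PT.nd (nat_lit 156) (PT.nd (nat_lit 78) (PT.lf (nat_lit 21964) (nat_lit 6) (nat_lit 289) (nat_lit 3) (nat_lit 207) (nat_lit 184) (nat_lit 209)) (PT.lf (nat_lit 22040) (nat_lit 3) (nat_lit 290) (nat_lit 1) (nat_lit 208) (nat_lit 184) (nat_lit 208))) (PT.nd (nat_lit 78) (PT.lf (nat_lit 21964) (nat_lit 6) (nat_lit 289) (nat_lit 1) (nat_lit 209) (nat_lit 184) (nat_lit 207)) (PT.lf (nat_lit 21888) (nat_lit 6) (nat_lit 288) (nat_lit 1) (nat_lit 210) (nat_lit 184) (nat_lit 206)))) (PT.nd (nat_lit 156) (PT.nd (nat_lit 78) (PT.lf (nat_lit 21812) (nat_lit 6) (nat_lit 287) (nat_lit 1) (nat_lit 211) (nat_lit 184) (nat_lit 205)) (PT.lf (nat_lit 21736) (nat_lit 6) (nat_lit 286) (nat_lit 1) (nat_lit 212) (nat_lit 184) (nat_lit 204))) (PT.nd (nat_lit 78) (PT.lf (nat_lit 21660) (nat_lit 6) (nat_lit 285) (nat_lit 1) (nat_lit 213) (nat_lit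 184) (nat_lit 203)) (PT.nd (nat_lit 78) (PT.lf (nat_lit 21584) (nat_lit 6) (nat_lit 284) (nat_lit 1) (nat_lit 214) (nat_lit 184) (nat_lit 202)) (PT.lf (nat_lit 21508) (nat_lit 6) (nat_lit 283) (nat_lit 1) (nat_lit 215) (nat_lit 184) (nat_lit 201)))))) (PT.nd (nat_lit 61308) (PT.nd (nat_lit 61152) (PT.nd (nat_lit 78) (PT.lf (nat_lit 21432) (nat_lit 6) (nat_lit 282) (nat_lit 1) (nat_lit 216) (nat_lit 184) (nat_lit 200)) (PT.lf (nat_lit 20064) (nat_lit 6) (nat_lit 264) (nat_lit 1) (nat_lit 217) (nat_lit 184) (nat_lit 199))) (PT.nd (nat_lit 78) (PT.lf (nat_lit 21356) (nat_lit 6) (nat_lit 281) (nat_lit 3) (nat_lit 199) (nat_lit 185) (nat_lit 216)) (PT.lf (nat_lit 22648) (nat_lit 6) (nat_lit 298) (nat_lit 3) (nat_lit 200) (nat_lit 185) (nat_lit 215)))) (PT.nd (nat_lit 156) (PT.nd (nat_lit 78) (PT.lf (nat_lit 22724) (nat_lit 6) (nat_lit 299) (nat_lit 3) (nat_lit 201) (nat_lit 185) (nat_lit 214)) (PT.lf (nat_lit 22800)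 (nat_lit 6) (nat_lit 300) (nat_lit 3) (nat_lit 202) (nat_lit 185) (nat_lit 213))) (PT.nd (nat_lit 78) (PT.lf (nat_lit 22876) (nat_lit 6) (nat_lit 301) (nat_lit 3) (nat_lit 203) (nat_lit 185) (nat_lit 212)) (PT.nd (nat_lit 78) (PT.lf (nat_lit 22952) (nat_lit 6) (nat_lit 302) (nat_lit 3) (nat_lit 204) (nat_lit 185) (nat_lit 211)) (PT.lf (nat_lit 23028) (nat_lit 6) (nat_lit 303) (nat_lit 3) (nat_lit 205) (nat_lit 185) (nat_lit 210))))))) (PT.nd (nat_lit 702) (PT.nd (nat_lit 312) (PT.nd (nat_lit 156) (PT.nd (nat_lit 78) (PT.lf (nat_lit 23104) (nat_lit 6) (nat_lit 304) (nat_lit 3) (nat_lit 206) (nat_lit 185) (nat_lit 209)) (PT.lf (nat_lit 23180) (nat_lit 6) (nat_lit 305) (nat_lit 3) (nat_lit 207) (nat_lit 185) (nat_lit 208))) (PT.nd (nat_lit 78) (PT.lf (nat_lit 23180) (nat_lit 6) (nat_lit 305) (nat_lit 1) (nat_lit 208) (nat_lit 185) (nat_lit 207)) (PT.lf (nat_lit 23104) (nat_lit 6) (nat_lit 304) (nat_lit 1) (nat_lit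 209) (nat_lit 185) (nat_lit 206)))) (PT.nd (nat_lit 156) (PT.nd (nat_lit 78) (PT.lf (nat_lit 23028) (nat_lit 6) (nat_lit 303) (nat_lit 1) (nat_lit 210) (nat_lit 185) (nat_lit 205)) (PT.lf (nat_lit 22952) (nat_lit 6) (nat_lit 302) (nat_lit 1) (nat_lit 211) (nat_lit 185) (nat_lit 204))) (PT.nd (nat_lit 78) (PT.lf (nat_lit 22876) (nat_lit 6) (nat_lit 301) (nat_lit 1) (nat_lit 212) (nat_lit 185) (nat_lit 203)) (PT.nd (nat_lit 78) (PT.lf (nat_lit 22800) (nat_lit 6) (nat_lit 300) (nat_lit 1) (nat_lit 213) (nat_lit 185) (nat_lit 202)) (PT.lf (nat_lit 22724) (nat_lit 6) (nat_lit 299) (nat_lit 1) (nat_lit 214) (nat_lit 185) (nat_lit 201)))))) (PT.nd (nat_lit 61308) (PT.nd (nat_lit 61152) (PT.nd (nat_lit 78) (PT.lf (nat_lit 22648) (nat_lit 6) (nat_lit 298) (nat_lit 1) (nat_lit 215) (nat_lit 185) (nat_lit 200)) (PT.lf (nat_lit 21356) (nat_lit 6) (nat_lit 281) (nat_lit 1) (nat_lit 216) (nat_lit 185) (nat_lit 199))) (PT.nd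 (nat_lit 78) (PT.lf (nat_lit 21280) (nat_lit 6) (nat_lit 280) (nat_lit 3) (nat_lit 198) (nat_lit 186) (nat_lit 216)) (PT.lf (nat_lit 22572) (nat_lit 6) (nat_lit 297) (nat_lit 3) (nat_lit 199) (nat_lit 186) (nat_lit 215)))) (PT.nd (nat_lit 156) (PT.nd (nat_lit 78) (PT.lf (nat_lit 23788) (nat_lit 6) (nat_lit 313) (nat_lit 3) (nat_lit 200) (nat_lit 186) (nat_lit 214)) (PT.lf (nat_lit 23864) (nat_lit 6) (nat_lit 314) (nat_lit 3) (nat_lit 201) (nat_lit 186) (nat_lit 213))) (PT.nd (nat_lit 78) (PT.lf (nat_lit 23940) (nat_lit 6) (nat_lit 315) (nat_lit 3) (nat_lit 202) (nat_lit 186) (nat_lit 212)) (PT.nd (nat_lit 78) (PT.lf (nat_lit 24016) (nat_lit 6) (nat_lit 316) (nat_lit 3) (nat_lit 203) (nat_lit 186) (nat_lit 211)) (PT.lf (nat_lit 24092) (nat_lit 6) (nat_lit 317) (nat_lit 3) (nat_lit 204) (nat_lit 186) (nat_lit 210))))))))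
noncomputable def pc15 : PT := (PT.nd (nat_lit 62322) (PT.nd (nat_lit 702) (PT.nd (nat_lit 312) (PT.nd (nat_lit 156) (PT.nd (nat_lit 78) (PT.lf (nat_lit 24168) (nat_lit 6) (nat_lit 318) (nat_lit 3) (nat_lit 205) (nat_lit 186) (nat_lit 209)) (PT.lf (nat_lit 24244) (nat_lit 6) (nat_lit 319) (nat_lit 3) (nat_lit 206) (nat_lit 186) (nat_lit 208))) (PT.nd (nat_lit 78) (PT.lf (nat_lit 24320) (nat_lit 3) (nat_lit 320) (nat_lit 1) (nat_lit 207) (nat_lit 186) (nat_lit 207)) (PT.lf (nat_lit 24244) (nat_lit 6) (nat_lit 319) (nat_lit 1) (nat_lit 208) (nat_lit 186) (nat_lit 206)))) (PT.nd (nat_lit 156) (PT.nd (nat_lit 78) (PT.lf (nat_lit 24168) (nat_lit 6) (nat_lit 318) (nat_lit 1) (nat_lit 209) (nat_lit 186) (nat_lit 205)) (PT.lf (nat_lit 24092) (nat_lit 6) (nat_lit 317) (nat_lit 1) (nat_lit 210) (nat_lit 186) (nat_lit 204))) (PT.nd (nat_lit 78) (PT.lf (nat_lit 24016) (nat_lit 6) (nat_lit 316) (nat_lit 1) (nat_lit 211) (nat_lit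 186) (nat_lit 203)) (PT.nd (nat_lit 78) (PT.lf (nat_lit 23940) (nat_lit 6) (nat_lit 315) (nat_lit 1) (nat_lit 212) (nat_lit 186) (nat_lit 202)) (PT.lf (nat_lit 23864) (nat_lit 6) (nat_lit 314) (nat_lit 1) (nat_lit 213) (nat_lit 186) (nat_lit 201)))))) (PT.nd (nat_lit 61230) (PT.nd (nat_lit 156) (PT.nd (nat_lit 78) (PT.lf (nat_lit 23788) (nat_lit 6) (nat_lit 313) (nat_lit 1) (nat_lit 214) (nat_lit 186) (nat_lit 200)) (PT.lf (nat_lit 22572) (nat_lit 6) (nat_lit 297) (nat_lit 1) (nat_lit 215) (nat_lit 186) (nat_lit 199))) (PT.nd (nat_lit 60996) (PT.lf (nat_lit 21280) (nat_lit 6) (nat_lit 280) (nat_lit 1) (nat_lit 216) (nat_lit 186) (nat_lit 198)) (PT.lf (nat_lit 21204) (nat_lit 6) (nat_lit 279) (nat_lit 3) (nat_lit 197) (nat_lit 187) (nat_lit 216)))) (PT.nd (nat_lit 156) (PT.nd (nat_lit 78) (PT.lf (nat_lit 22496) (nat_lit 6) (nat_lit 296) (nat_lit 3) (nat_lit 198) (nat_lit 187) (nat_lit 215)) (PT.lf (nat_lit 23712)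 (nat_lit 6) (nat_lit 312) (nat_lit 3) (nat_lit 199) (nat_lit 187) (nat_lit 214))) (PT.nd (nat_lit 78) (PT.lf (nat_lit 24852) (nat_lit 6) (nat_lit 327) (nat_lit 3) (nat_lit 200) (nat_lit 187) (nat_lit 213)) (PT.nd (nat_lit 78) (PT.lf (nat_lit 24928) (nat_lit 6) (nat_lit 328) (nat_lit 3) (nat_lit 201) (nat_lit 187) (nat_lit 212)) (PT.lf (nat_lit 25004) (nat_lit 6) (nat_lit 329) (nat_lit 3) (nat_lit 202) (nat_lit 187) (nat_lit 211))))))) (PT.nd (nat_lit 702) (PT.nd (nat_lit 312) (PT.nd (nat_lit 156) (PT.nd (nat_lit 78) (PT.lf (nat_lit 25080) (nat_lit 6) (nat_lit 330) (nat_lit 3) (nat_lit 203) (nat_lit 187) (nat_lit 210)) (PT.lf (nat_lit 25156) (nat_lit 6) (nat_lit 331) (nat_lit 3) (nat_lit 204) (nat_lit 187) (nat_lit 209))) (PT.nd (nat_lit 78) (PT.lf (nat_lit 25232) (nat_lit 6) (nat_lit 332) (nat_lit 3) (nat_lit 205) (nat_lit 187) (nat_lit 208)) (PT.lf (nat_lit 25308) (nat_lit 6) (nat_lit 333) (nat_lit 3) (nat_lit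 206) (nat_lit 187) (nat_lit 207)))) (PT.nd (nat_lit 156) (PT.nd (nat_lit 78) (PT.lf (nat_lit 25308) (nat_lit 6) (nat_lit 333) (nat_lit 1) (nat_lit 207) (nat_lit 187) (nat_lit 206)) (PT.lf (nat_lit 25232) (nat_lit 6) (nat_lit 332) (nat_lit 1) (nat_lit 208) (nat_lit 187) (nat_lit 205))) (PT.nd (nat_lit 78) (PT.lf (nat_lit 25156) (nat_lit 6) (nat_lit 331) (nat_lit 1) (nat_lit 209) (nat_lit 187) (nat_lit 204)) (PT.nd (nat_lit 78) (PT.lf (nat_lit 25080) (nat_lit 6) (nat_lit 330) (nat_lit 1) (nat_lit 210) (nat_lit 187) (nat_lit 203)) (PT.lf (nat_lit 25004) (nat_lit 6) (nat_lit 329) (nat_lit 1) (nat_lit 211) (nat_lit 187) (nat_lit 202)))))) (PT.nd (nat_lit 61230) (PT.nd (nat_lit 156) (PT.nd (nat_lit 78) (PT.lf (nat_lit 24928) (nat_lit 6) (nat_lit 328) (nat_lit 1) (nat_lit 212) (nat_lit 187) (nat_lit 201)) (PT.lf (nat_lit 24852) (nat_lit 6) (nat_lit 327) (nat_lit 1) (nat_lit 213) (nat_lit 187) (nat_lit 200))) (PT.nd (nat_lit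 78) (PT.lf (nat_lit 23712) (nat_lit 6) (nat_lit 312) (nat_lit 1) (nat_lit 214) (nat_lit 187) (nat_lit 199)) (PT.nd (nat_lit 78) (PT.lf (nat_lit 22496) (nat_lit 6) (nat_lit 296) (nat_lit 1) (nat_lit 215) (nat_lit 187) (nat_lit 198)) (PT.lf (nat_lit 21204) (nat_lit 6) (nat_lit 279) (nat_lit 1) (nat_lit 216) (nat_lit 187) (nat_lit 197))))) (PT.nd (nat_lit 156) (PT.nd (nat_lit 78) (PT.lf (nat_lit 21128) (nat_lit 6) (nat_lit 278) (nat_lit 3) (nat_lit 196) (nat_lit 188) (nat_lit 216)) (PT.lf (nat_lit 22420) (nat_lit 6) (nat_lit 295) (nat_lit 3) (nat_lit 197) (nat_lit 188) (nat_lit 215))) (PT.nd (nat_lit 78) (PT.lf (nat_lit 23636) (nat_lit 6) (nat_lit 311) (nat_lit 3) (nat_lit 198) (nat_lit 188) (nat_lit 214)) (PT.nd (nat_lit 78) (PT.lf (nat_lit 24776) (nat_lit 6) (nat_lit 326) (nat_lit 3) (nat_lit 199) (nat_lit 188) (nat_lit 213)) (PT.lf (nat_lit 25840) (nat_lit 6) (nat_lit 340) (nat_lit 3) (nat_lit 200) (nat_lit 188)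 (nat_lit 212))))))))
noncomputable def pc16 : PT := (PT.nd (nat_lit 62166) (PT.nd (nat_lit 702) (PT.nd (nat_lit 312) (PT.nd (nat_lit 156) (PT.nd (nat_lit 78) (PT.lf (nat_lit 25916) (nat_lit 6) (nat_lit 341) (nat_lit 3) (nat_lit 201) (nat_lit 188) (nat_lit 211)) (PT.lf (nat_lit 25992) (nat_lit 6) (nat_lit 342) (nat_lit 3) (nat_lit 202) (nat_lit 188) (nat_lit 210))) (PT.nd (nat_lit 78) (PT.lf (nat_lit 26068) (nat_lit 6) (nat_lit 343) (nat_lit 3) (nat_lit 203) (nat_lit 188) (nat_lit 209)) (PT.lf (nat_lit 26144) (nat_lit 6) (nat_lit 344) (nat_lit 3) (nat_lit 204) (nat_lit 188) (nat_lit 208)))) (PT.nd (nat_lit 156) (PT.nd (nat_lit 78) (PT.lf (nat_lit 26220) (nat_lit 6) (nat_lit 345) (nat_lit 3) (nat_lit 205) (nat_lit 188) (nat_lit 207)) (PT.lf (nat_lit 26296) (nat_lit 3) (nat_lit 346) (nat_lit 1) (nat_lit 206) (nat_lit 188) (nat_lit 206))) (PT.nd (nat_lit 78) (PT.lf (nat_lit 26220) (nat_lit 6) (nat_lit 345) (nat_lit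 1) (nat_lit 207) (nat_lit 188) (nat_lit 205)) (PT.nd (nat_lit 78) (PT.lf (nat_lit 26144) (nat_lit 6) (nat_lit 344) (nat_lit 1) (nat_lit 208) (nat_lit 188) (nat_lit 204)) (PT.lf (nat_lit 26068) (nat_lit 6) (nat_lit 343) (nat_lit 1) (nat_lit 209) (nat_lit 188) (nat_lit 203)))))) (PT.nd (nat_lit 312) (PT.nd (nat_lit 156) (PT.nd (nat_lit 78) (PT.lf (nat_lit 25992) (nat_lit 6) (nat_lit 342) (nat_lit 1) (nat_lit 210) (nat_lit 188) (nat_lit 202)) (PT.lf (nat_lit 25916) (nat_lit 6) (nat_lit 341) (nat_lit 1) (nat_lit 211) (nat_lit 188) (nat_lit 201))) (PT.nd (nat_lit 78) (PT.lf (nat_lit 25840) (nat_lit 6) (nat_lit 340) (nat_lit 1) (nat_lit 212) (nat_lit 188) (nat_lit 200)) (PT.lf (nat_lit 24776) (nat_lit 6) (nat_lit 326) (nat_lit 1) (nat_lit 213) (nat_lit 188) (nat_lit 199)))) (PT.nd (nat_lit 156) (PT.nd (nat_lit 78) (PT.lf (nat_lit 23636) (nat_lit 6) (nat_lit 311) (nat_lit 1) (nat_lit 214) (nat_lit 188) (nat_lit 198))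 (PT.lf (nat_lit 22420) (nat_lit 6) (nat_lit 295) (nat_lit 1) (nat_lit 215) (nat_lit 188) (nat_lit 197))) (PT.nd (nat_lit 60840) (PT.lf (nat_lit 21128) (nat_lit 6) (nat_lit 278) (nat_lit 1) (nat_lit 216) (nat_lit 188) (nat_lit 196)) (PT.nd (nat_lit 78) (PT.lf (nat_lit 21052) (nat_lit 6) (nat_lit 277) (nat_lit 3) (nat_lit 195) (nat_lit 189) (nat_lit 216)) (PT.lf (nat_lit 22344) (nat_lit 6) (nat_lit 294) (nat_lit 3) (nat_lit 196) (nat_lit 189) (nat_lit 215))))))) (PT.nd (nat_lit 702) (PT.nd (nat_lit 312) (PT.nd (nat_lit 156) (PT.nd (nat_lit 78) (PT.lf (nat_lit 23560) (nat_lit 6) (nat_lit 310) (nat_lit 3) (nat_lit 197) (nat_lit 189) (nat_lit 214)) (PT.lf (nat_lit 24700) (nat_lit 6) (nat_lit 325) (nat_lit 3) (nat_lit 198) (nat_lit 189) (nat_lit 213))) (PT.nd (nat_lit 78) (PT.lf (nat_lit 25764) (nat_lit 6) (nat_lit 339) (nat_lit 3) (nat_lit 199) (nat_lit 189) (nat_lit 212)) (PT.lf (nat_lit 26752) (nat_lit 6) (nat_lit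 352) (nat_lit 3) (nat_lit 200) (nat_lit 189) (nat_lit 211)))) (PT.nd (nat_lit 156) (PT.nd (nat_lit 78) (PT.lf (nat_lit 26828) (nat_lit 6) (nat_lit 353) (nat_lit 3) (nat_lit 201) (nat_lit 189) (nat_lit 210)) (PT.lf (nat_lit 26904) (nat_lit 6) (nat_lit 354) (nat_lit 3) (nat_lit 202) (nat_lit 189) (nat_lit 209))) (PT.nd (nat_lit 78) (PT.lf (nat_lit 26980) (nat_lit 6) (nat_lit 355) (nat_lit 3) (nat_lit 203) (nat_lit 189) (nat_lit 208)) (PT.nd (nat_lit 78) (PT.lf (nat_lit 27056) (nat_lit 6) (nat_lit 356) (nat_lit 3) (nat_lit 204) (nat_lit 189) (nat_lit 207)) (PT.lf (nat_lit 27132) (nat_lit 6) (nat_lit 357) (nat_lit 3) (nat_lit 205) (nat_lit 189) (nat_lit 206)))))) (PT.nd (nat_lit 312) (PT.nd (nat_lit 156) (PT.nd (nat_lit 78) (PT.lf (nat_lit 27132) (nat_lit 6) (nat_lit 357) (nat_lit 1) (nat_lit 206) (nat_lit 189) (nat_lit 205)) (PT.lf (nat_lit 27056) (nat_lit 6) (nat_lit 356) (nat_lit 1) (nat_lit 207) (nat_lit 189) (nat_lit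 204))) (PT.nd (nat_lit 78) (PT.lf (nat_lit 26980) (nat_lit 6) (nat_lit 355) (nat_lit 1) (nat_lit 208) (nat_lit 189) (nat_lit 203)) (PT.lf (nat_lit 26904) (nat_lit 6) (nat_lit 354) (nat_lit 1) (nat_lit 209) (nat_lit 189) (nat_lit 202)))) (PT.nd (nat_lit 156) (PT.nd (nat_lit 78) (PT.lf (nat_lit 26828) (nat_lit 6) (nat_lit 353) (nat_lit 1) (nat_lit 210) (nat_lit 189) (nat_lit 201)) (PT.lf (nat_lit 26752) (nat_lit 6) (nat_lit 352) (nat_lit 1) (nat_lit 211) (nat_lit 189) (nat_lit 200))) (PT.nd (nat_lit 78) (PT.lf (nat_lit 25764) (nat_lit 6) (nat_lit 339) (nat_lit 1) (nat_lit 212) (nat_lit 189) (nat_lit 199)) (PT.nd (nat_lit 78) (PT.lf (nat_lit 24700) (nat_lit 6) (nat_lit 325) (nat_lit 1) (nat_lit 213) (nat_lit 189) (nat_lit 198)) (PT.lf (nat_lit 23560) (nat_lit 6) (nat_lit 310) (nat_lit 1) (nat_lit 214) (nat_lit 189) (nat_lit 197))))))))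
noncomputable def pc17 : PT := (PT.nd (nat_lit 62088) (PT.nd (nat_lit 61386) (PT.nd (nat_lit 60996) (PT.nd (nat_lit 60840) (PT.nd (nat_lit 78) (PT.lf (nat_lit 22344) (nat_lit 6) (nat_lit 294) (nat_lit 1) (nat_lit 215) (nat_lit 189) (nat_lit 196)) (PT.lf (nat_lit 21052) (nat_lit 6) (nat_lit 277) (nat_lit 1) (nat_lit 216) (nat_lit 189) (nat_lit 195))) (PT.nd (nat_lit 78) (PT.lf (nat_lit 20976) (nat_lit 6) (nat_lit 276) (nat_lit 3) (nat_lit 194) (nat_lit 190) (nat_lit 216)) (PT.lf (nat_lit 22268) (nat_lit 6) (nat_lit 293) (nat_lit 3) (nat_lit 195) (nat_lit 190) (nat_lit 215)))) (PT.nd (nat_lit 156) (PT.nd (nat_lit 78) (PT.lf (nat_lit 23484) (nat_lit 6) (nat_lit 309) (nat_lit 3) (nat_lit 196) (nat_lit 190) (nat_lit 214)) (PT.lf (nat_lit 24624) (nat_lit 6) (nat_lit 324) (nat_lit 3) (nat_lit 197) (nat_lit 190) (nat_lit 213))) (PT.nd (nat_lit 78) (PT.lf (nat_lit 25688) (nat_lit 6) (nat_lit 338) (nat_lit 3) (nat_lit 198)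 (nat_lit 190) (nat_lit 212)) (PT.nd (nat_lit 78) (PT.lf (nat_lit 26676) (nat_lit 6) (nat_lit 351) (nat_lit 3) (nat_lit 199) (nat_lit 190) (nat_lit 211)) (PT.lf (nat_lit 27588) (nat_lit 6) (nat_lit 363) (nat_lit 3) (nat_lit 200) (nat_lit 190) (nat_lit 210)))))) (PT.nd (nat_lit 312) (PT.nd (nat_lit 156) (PT.nd (nat_lit 78) (PT.lf (nat_lit 27664) (nat_lit 6) (nat_lit 364) (nat_lit 3) (nat_lit 201) (nat_lit 190) (nat_lit 209)) (PT.lf (nat_lit 27740) (nat_lit 6) (nat_lit 365) (nat_lit 3) (nat_lit 202) (nat_lit 190) (nat_lit 208))) (PT.nd (nat_lit 78) (PT.lf (nat_lit 27816) (nat_lit 6) (nat_lit 366) (nat_lit 3) (nat_lit 203) (nat_lit 190) (nat_lit 207)) (PT.lf (nat_lit 27892) (nat_lit 6) (nat_lit 367) (nat_lit 3) (nat_lit 204) (nat_lit 190) (nat_lit 206)))) (PT.nd (nat_lit 156) (PT.nd (nat_lit 78) (PT.lf (nat_lit 27968) (nat_lit 3) (nat_lit 368) (nat_lit 1) (nat_lit 205) (nat_lit 190) (nat_lit 205)) (PT.lf (nat_lit 27892)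 (nat_lit 6) (nat_lit 367) (nat_lit 1) (nat_lit 206) (nat_lit 190) (nat_lit 204))) (PT.nd (nat_lit 78) (PT.lf (nat_lit 27816) (nat_lit 6) (nat_lit 366) (nat_lit 1) (nat_lit 207) (nat_lit 190) (nat_lit 203)) (PT.nd (nat_lit 78) (PT.lf (nat_lit 27740) (nat_lit 6) (nat_lit 365) (nat_lit 1) (nat_lit 208) (nat_lit 190) (nat_lit 202)) (PT.lf (nat_lit 27664) (nat_lit 6) (nat_lit 364) (nat_lit 1) (nat_lit 209) (nat_lit 190) (nat_lit 201))))))) (PT.nd (nat_lit 61308) (PT.nd (nat_lit 312) (PT.nd (nat_lit 156) (PT.nd (nat_lit 78) (PT.lf (nat_lit 27588) (nat_lit 6) (nat_lit 363) (nat_lit 1) (nat_lit 210) (nat_lit 190) (nat_lit 200)) (PT.lf (nat_lit 26676) (nat_lit 6) (nat_lit 351) (nat_lit 1) (nat_lit 211) (nat_lit 190) (nat_lit 199))) (PT.nd (nat_lit 78) (PT.lf (nat_lit 25688) (nat_lit 6) (nat_lit 338) (nat_lit 1) (nat_lit 212) (nat_lit 190) (nat_lit 198)) (PT.lf (nat_lit 24624) (nat_lit 6) (nat_lit 324) (nat_lit 1) (nat_lit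 213) (nat_lit 190) (nat_lit 197)))) (PT.nd (nat_lit 156) (PT.nd (nat_lit 78) (PT.lf (nat_lit 23484) (nat_lit 6) (nat_lit 309) (nat_lit 1) (nat_lit 214) (nat_lit 190) (nat_lit 196)) (PT.lf (nat_lit 22268) (nat_lit 6) (nat_lit 293) (nat_lit 1) (nat_lit 215) (nat_lit 190) (nat_lit 195))) (PT.nd (nat_lit 60684) (PT.lf (nat_lit 20976) (nat_lit 6) (nat_lit 276) (nat_lit 1) (nat_lit 216) (nat_lit 190) (nat_lit 194)) (PT.nd (nat_lit 78) (PT.lf (nat_lit 20900) (nat_lit 6) (nat_lit 275) (nat_lit 3) (nat_lit 193) (nat_lit 191) (nat_lit 216)) (PT.lf (nat_lit 22192) (nat_lit 6) (nat_lit 292) (nat_lit 3) (nat_lit 194) (nat_lit 191) (nat_lit 215)))))) (PT.nd (nat_lit 312) (PT.nd (nat_lit 156) (PT.nd (nat_lit 78) (PT.lf (nat_lit 23408) (nat_lit 6) (nat_lit 308) (nat_lit 3) (nat_lit 195) (nat_lit 191) (nat_lit 214)) (PT.lf (nat_lit 24548) (nat_lit 6) (nat_lit 323) (nat_lit 3) (nat_lit 196) (nat_lit 191) (nat_lit 213))) (PT.nd (nat_lit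 78) (PT.lf (nat_lit 25612) (nat_lit 6) (nat_lit 337) (nat_lit 3) (nat_lit 197) (nat_lit 191) (nat_lit 212)) (PT.lf (nat_lit 26600) (nat_lit 6) (nat_lit 350) (nat_lit 3) (nat_lit 198) (nat_lit 191) (nat_lit 211)))) (PT.nd (nat_lit 156) (PT.nd (nat_lit 78) (PT.lf (nat_lit 27512) (nat_lit 6) (nat_lit 362) (nat_lit 3) (nat_lit 199) (nat_lit 191) (nat_lit 210)) (PT.lf (nat_lit 28348) (nat_lit 6) (nat_lit 373) (nat_lit 3) (nat_lit 200) (nat_lit 191) (nat_lit 209))) (PT.nd (nat_lit 78) (PT.lf (nat_lit 28424) (nat_lit 6) (nat_lit 374) (nat_lit 3) (nat_lit 201) (nat_lit 191) (nat_lit 208)) (PT.nd (nat_lit 78) (PT.lf (nat_lit 28500) (nat_lit 6) (nat_lit 375) (nat_lit 3) (nat_lit 202) (nat_lit 191) (nat_lit 207)) (PT.lf (nat_lit 28576) (nat_lit 6) (nat_lit 376) (nat_lit 3) (nat_lit 203) (nat_lit 191) (nat_lit 206))))))))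
noncomputable def pc18 : PT := (PT.nd (nat_lit 61932) (PT.nd (nat_lit 702) (PT.nd (nat_lit 312) (PT.nd (nat_lit 156) (PT.nd (nat_lit 78) (PT.lf (nat_lit 28652) (nat_lit 6) (nat_lit 377) (nat_lit 3) (nat_lit 204) (nat_lit 191) (nat_lit 205)) (PT.lf (nat_lit 28652) (nat_lit 6) (nat_lit 377) (nat_lit 1) (nat_lit 205) (nat_lit 191) (nat_lit 204))) (PT.nd (nat_lit 78) (PT.lf (nat_lit 28576) (nat_lit 6) (nat_lit 376) (nat_lit 1) (nat_lit 206) (nat_lit 191) (nat_lit 203)) (PT.lf (nat_lit 28500) (nat_lit 6) (nat_lit 375) (nat_lit 1) (nat_lit 207) (nat_lit 191) (nat_lit 202)))) (PT.nd (nat_lit 156) (PT.nd (nat_lit 78) (PT.lf (nat_lit 28424) (nat_lit 6) (nat_lit 374) (nat_lit 1) (nat_lit 208) (nat_lit 191) (nat_lit 201)) (PT.lf (nat_lit 28348) (nat_lit 6) (nat_lit 373) (nat_lit 1) (nat_lit 209) (nat_lit 191) (nat_lit 200))) (PT.nd (nat_lit 78) (PT.lf (nat_lit 27512) (nat_lit 6) (nat_lit 362) (nat_lit 1) (nat_lit 210) (nat_lit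 191) (nat_lit 199)) (PT.nd (nat_lit 78) (PT.lf (nat_lit 26600) (nat_lit 6) (nat_lit 350) (nat_lit 1) (nat_lit 211) (nat_lit 191) (nat_lit 198)) (PT.lf (nat_lit 25612) (nat_lit 6) (nat_lit 337) (nat_lit 1) (nat_lit 212) (nat_lit 191) (nat_lit 197)))))) (PT.nd (nat_lit 60840) (PT.nd (nat_lit 156) (PT.nd (nat_lit 78) (PT.lf (nat_lit 24548) (nat_lit 6) (nat_lit 323) (nat_lit 1) (nat_lit 213) (nat_lit 191) (nat_lit 196)) (PT.lf (nat_lit 23408) (nat_lit 6) (nat_lit 308) (nat_lit 1) (nat_lit 214) (nat_lit 191) (nat_lit 195))) (PT.nd (nat_lit 78) (PT.lf (nat_lit 22192) (nat_lit 6) (nat_lit 292) (nat_lit 1) (nat_lit 215) (nat_lit 191) (nat_lit 194)) (PT.lf (nat_lit 20900) (nat_lit 6) (nat_lit 275) (nat_lit 1) (nat_lit 216) (nat_lit 191) (nat_lit 193)))) (PT.nd (nat_lit 156) (PT.nd (nat_lit 78) (PT.lf (nat_lit 20824) (nat_lit 3) (nat_lit 274) (nat_lit 3) (nat_lit 192) (nat_lit 192) (nat_lit 216)) (PT.lf (nat_lit 22116) (nat_lit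 6) (nat_lit 291) (nat_lit 3) (nat_lit 193) (nat_lit 192) (nat_lit 215))) (PT.nd (nat_lit 78) (PT.lf (nat_lit 23332) (nat_lit 6) (nat_lit 307) (nat_lit 3) (nat_lit 194) (nat_lit 192) (nat_lit 214)) (PT.nd (nat_lit 78) (PT.lf (nat_lit 24472) (nat_lit 6) (nat_lit 322) (nat_lit 3) (nat_lit 195) (nat_lit 192) (nat_lit 213)) (PT.lf (nat_lit 25536) (nat_lit 6) (nat_lit 336) (nat_lit 3) (nat_lit 196) (nat_lit 192) (nat_lit 212))))))) (PT.nd (nat_lit 702) (PT.nd (nat_lit 312) (PT.nd (nat_lit 156) (PT.nd (nat_lit 78) (PT.lf (nat_lit 26524) (nat_lit 6) (nat_lit 349) (nat_lit 3) (nat_lit 197) (nat_lit 192) (nat_lit 211)) (PT.lf (nat_lit 27436) (nat_lit 6) (nat_lit 361) (nat_lit 3) (nat_lit 198) (nat_lit 192) (nat_lit 210))) (PT.nd (nat_lit 78) (PT.lf (nat_lit 28272) (nat_lit 6) (nat_lit 372) (nat_lit 3) (nat_lit 199) (nat_lit 192) (nat_lit 209)) (PT.lf (nat_lit 29032) (nat_lit 6) (nat_lit 382) (nat_lit 3) (nat_lit 200) (nat_lit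 192) (nat_lit 208)))) (PT.nd (nat_lit 156) (PT.nd (nat_lit 78) (PT.lf (nat_lit 29108) (nat_lit 6) (nat_lit 383) (nat_lit 3) (nat_lit 201) (nat_lit 192) (nat_lit 207)) (PT.lf (nat_lit 29184) (nat_lit 6) (nat_lit 384) (nat_lit 3) (nat_lit 202) (nat_lit 192) (nat_lit 206))) (PT.nd (nat_lit 78) (PT.lf (nat_lit 29260) (nat_lit 6) (nat_lit 385) (nat_lit 3) (nat_lit 203) (nat_lit 192) (nat_lit 205)) (PT.nd (nat_lit 78) (PT.lf (nat_lit 29336) (nat_lit 3) (nat_lit 386) (nat_lit 1) (nat_lit 204) (nat_lit 192) (nat_lit 204)) (PT.lf (nat_lit 29260) (nat_lit 6) (nat_lit 385) (nat_lit 1) (nat_lit 205) (nat_lit 192) (nat_lit 203)))))) (PT.nd (nat_lit 312) (PT.nd (nat_lit 156) (PT.nd (nat_lit 78) (PT.lf (nat_lit 29184) (nat_lit 6) (nat_lit 384) (nat_lit 1) (nat_lit 206) (nat_lit 192) (nat_lit 202)) (PT.lf (nat_lit 29108) (nat_lit 6) (nat_lit 383) (nat_lit 1) (nat_lit 207) (nat_lit 192) (nat_lit 201))) (PT.nd (nat_lit 78) (PT.lf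 (nat_lit 29032) (nat_lit 6) (nat_lit 382) (nat_lit 1) (nat_lit 208) (nat_lit 192) (nat_lit 200)) (PT.lf (nat_lit 28272) (nat_lit 6) (nat_lit 372) (nat_lit 1) (nat_lit 209) (nat_lit 192) (nat_lit 199)))) (PT.nd (nat_lit 156) (PT.nd (nat_lit 78) (PT.lf (nat_lit 27436) (nat_lit 6) (nat_lit 361) (nat_lit 1) (nat_lit 210) (nat_lit 192) (nat_lit 198)) (PT.lf (nat_lit 26524) (nat_lit 6) (nat_lit 349) (nat_lit 1) (nat_lit 211) (nat_lit 192) (nat_lit 197))) (PT.nd (nat_lit 78) (PT.lf (nat_lit 25536) (nat_lit 6) (nat_lit 336) (nat_lit 1) (nat_lit 212) (nat_lit 192) (nat_lit 196)) (PT.nd (nat_lit 78) (PT.lf (nat_lit 24472) (nat_lit 6) (nat_lit 322) (nat_lit 1) (nat_lit 213) (nat_lit 192) (nat_lit 195)) (PT.lf (nat_lit 23332) (nat_lit 6) (nat_lit 307) (nat_lit 1) (nat_lit 214) (nat_lit 192) (nat_lit 194))))))))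
noncomputable def pc19 : PT := (PT.nd (nat_lit 61854) (PT.nd (nat_lit 61152) (PT.nd (nat_lit 60762) (PT.nd (nat_lit 60606) (PT.nd (nat_lit 78) (PT.lf (nat_lit 22116) (nat_lit 6) (nat_lit 291) (nat_lit 1) (nat_lit 215) (nat_lit 192) (nat_lit 193)) (PT.lf (nat_lit 20824) (nat_lit 3) (nat_lit 274) (nat_lit 0) (nat_lit 216) (nat_lit 192) (nat_lit 192))) (PT.nd (nat_lit 78) (PT.lf (nat_lit 20900) (nat_lit 6) (nat_lit 275) (nat_lit 5) (nat_lit 191) (nat_lit 193) (nat_lit 216)) (PT.lf (nat_lit 22116) (nat_lit 6) (nat_lit 291) (nat_lit 5) (nat_lit 192) (nat_lit 193) (nat_lit 215)))) (PT.nd (nat_lit 156) (PT.nd (nat_lit 78) (PT.lf (nat_lit 23256) (nat_lit 3) (nat_lit 306) (nat_lit 3) (nat_lit 193) (nat_lit 193) (nat_lit 214)) (PT.lf (nat_lit 24396) (nat_lit 6) (nat_lit 321) (nat_lit 3) (nat_lit 194) (nat_lit 193) (nat_lit 213))) (PT.nd (nat_lit 78) (PT.lf (nat_lit 25460) (nat_lit 6) (nat_lit 335) (nat_lit 3) (nat_lit 195)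 (nat_lit 193) (nat_lit 212)) (PT.nd (nat_lit 78) (PT.lf (nat_lit 26448) (nat_lit 6) (nat_lit 348) (nat_lit 3) (nat_lit 196) (nat_lit 193) (nat_lit 211)) (PT.lf (nat_lit 27360) (nat_lit 6) (nat_lit 360) (nat_lit 3) (nat_lit 197) (nat_lit 193) (nat_lit 210)))))) (PT.nd (nat_lit 312) (PT.nd (nat_lit 156) (PT.nd (nat_lit 78) (PT.lf (nat_lit 28196) (nat_lit 6) (nat_lit 371) (nat_lit 3) (nat_lit 198) (nat_lit 193) (nat_lit 209)) (PT.lf (nat_lit 28956) (nat_lit 6) (nat_lit 381) (nat_lit 3) (nat_lit 199) (nat_lit 193) (nat_lit 208))) (PT.nd (nat_lit 78) (PT.lf (nat_lit 29640) (nat_lit 6) (nat_lit 390) (nat_lit 3) (nat_lit 200) (nat_lit 193) (nat_lit 207)) (PT.lf (nat_lit 29716) (nat_lit 6) (nat_lit 391) (nat_lit 3) (nat_lit 201) (nat_lit 193) (nat_lit 206)))) (PT.nd (nat_lit 156) (PT.nd (nat_lit 78) (PT.lf (nat_lit 29792) (nat_lit 6) (nat_lit 392) (nat_lit 3) (nat_lit 202) (nat_lit 193) (nat_lit 205)) (PT.lf (nat_lit 29868)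 (nat_lit 6) (nat_lit 393) (nat_lit 3) (nat_lit 203) (nat_lit 193) (nat_lit 204))) (PT.nd (nat_lit 78) (PT.lf (nat_lit 29868) (nat_lit 6) (nat_lit 393) (nat_lit 1) (nat_lit 204) (nat_lit 193) (nat_lit 203)) (PT.nd (nat_lit 78) (PT.lf (nat_lit 29792) (nat_lit 6) (nat_lit 392) (nat_lit 1) (nat_lit 205) (nat_lit 193) (nat_lit 202)) (PT.lf (nat_lit 29716) (nat_lit 6) (nat_lit 391) (nat_lit 1) (nat_lit 206) (nat_lit 193) (nat_lit 201))))))) (PT.nd (nat_lit 702) (PT.nd (nat_lit 312) (PT.nd (nat_lit 156) (PT.nd (nat_lit 78) (PT.lf (nat_lit 29640) (nat_lit 6) (nat_lit 390) (nat_lit 1) (nat_lit 207) (nat_lit 193) (nat_lit 200)) (PT.lf (nat_lit 28956) (nat_lit 6) (nat_lit 381) (nat_lit 1) (nat_lit 208) (nat_lit 193) (nat_lit 199))) (PT.nd (nat_lit 78) (PT.lf (nat_lit 28196) (nat_lit 6) (nat_lit 371) (nat_lit 1) (nat_lit 209) (nat_lit 193) (nat_lit 198)) (PT.lf (nat_lit 27360) (nat_lit 6) (nat_lit 360) (nat_lit 1) (nat_lit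 210) (nat_lit 193) (nat_lit 197)))) (PT.nd (nat_lit 156) (PT.nd (nat_lit 78) (PT.lf (nat_lit 26448) (nat_lit 6) (nat_lit 348) (nat_lit 1) (nat_lit 211) (nat_lit 193) (nat_lit 196)) (PT.lf (nat_lit 25460) (nat_lit 6) (nat_lit 335) (nat_lit 1) (nat_lit 212) (nat_lit 193) (nat_lit 195))) (PT.nd (nat_lit 78) (PT.lf (nat_lit 24396) (nat_lit 6) (nat_lit 321) (nat_lit 1) (nat_lit 213) (nat_lit 193) (nat_lit 194)) (PT.nd (nat_lit 78) (PT.lf (nat_lit 23256) (nat_lit 3) (nat_lit 306) (nat_lit 0) (nat_lit 214) (nat_lit 193) (nat_lit 193)) (PT.lf (nat_lit 22116) (nat_lit 6) (nat_lit 291) (nat_lit 0) (nat_lit 215) (nat_lit 193) (nat_lit 192)))))) (PT.nd (nat_lit 60762) (PT.nd (nat_lit 60528) (PT.nd (nat_lit 60450) (PT.lf (nat_lit 20900) (nat_lit 6) (nat_lit 275) (nat_lit 0) (nat_lit 216) (nat_lit 193) (nat_lit 191)) (PT.lf (nat_lit 20976) (nat_lit 6) (nat_lit 276) (nat_lit 5) (nat_lit 190) (nat_lit 194) (nat_lit 216))) (PT.nd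 (nat_lit 78) (PT.lf (nat_lit 22192) (nat_lit 6) (nat_lit 292) (nat_lit 5) (nat_lit 191) (nat_lit 194) (nat_lit 215)) (PT.nd (nat_lit 78) (PT.lf (nat_lit 23332) (nat_lit 6) (nat_lit 307) (nat_lit 5) (nat_lit 192) (nat_lit 194) (nat_lit 214)) (PT.lf (nat_lit 24396) (nat_lit 6) (nat_lit 321) (nat_lit 5) (nat_lit 193) (nat_lit 194) (nat_lit 213))))) (PT.nd (nat_lit 156) (PT.nd (nat_lit 78) (PT.lf (nat_lit 25384) (nat_lit 3) (nat_lit 334) (nat_lit 3) (nat_lit 194) (nat_lit 194) (nat_lit 212)) (PT.lf (nat_lit 26372) (nat_lit 6) (nat_lit 347) (nat_lit 3) (nat_lit 195) (nat_lit 194) (nat_lit 211))) (PT.nd (nat_lit 78) (PT.lf (nat_lit 27284) (nat_lit 6) (nat_lit 359) (nat_lit 3) (nat_lit 196) (nat_lit 194) (nat_lit 210)) (PT.nd (nat_lit 78) (PT.lf (nat_lit 28120) (nat_lit 6) (nat_lit 370) (nat_lit 3) (nat_lit 197) (nat_lit 194) (nat_lit 209)) (PT.lf (nat_lit 28880) (nat_lit 6) (nat_lit 380) (nat_lit 3) (nat_lit 198) (nat_lit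 194) (nat_lit 208))))))))
noncomputable def pc20 : PT := (PT.nd (nat_lit 61698) (PT.nd (nat_lit 702) (PT.nd (nat_lit 312) (PT.nd (nat_lit 156) (PT.nd (nat_lit 78) (PT.lf (nat_lit 29564) (nat_lit 6) (nat_lit 389) (nat_lit 3) (nat_lit 199) (nat_lit 194) (nat_lit 207)) (PT.lf (nat_lit 30172) (nat_lit 6) (nat_lit 397) (nat_lit 3) (nat_lit 200) (nat_lit 194) (nat_lit 206))) (PT.nd (nat_lit 78) (PT.lf (nat_lit 30248) (nat_lit 6) (nat_lit 398) (nat_lit 3) (nat_lit 201) (nat_lit 194) (nat_lit 205)) (PT.lf (nat_lit 30324) (nat_lit 6) (nat_lit 399) (nat_lit 3) (nat_lit 202) (nat_lit 194) (nat_lit 204)))) (PT.nd (nat_lit 156) (PT.nd (nat_lit 78) (PT.lf (nat_lit 30400) (nat_lit 3) (nat_lit 400) (nat_lit 1) (nat_lit 203) (nat_lit 194) (nat_lit 203)) (PT.lf (nat_lit 30324) (nat_lit 6) (nat_lit 399) (nat_lit 1) (nat_lit 204) (nat_lit 194) (nat_lit 202))) (PT.nd (nat_lit 78) (PT.lf (nat_lit 30248) (nat_lit 6) (nat_lit 398) (nat_lit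 1) (nat_lit 205) (nat_lit 194) (nat_lit 201)) (PT.nd (nat_lit 78) (PT.lf (nat_lit 30172) (nat_lit 6) (nat_lit 397) (nat_lit 1) (nat_lit 206) (nat_lit 194) (nat_lit 200)) (PT.lf (nat_lit 29564) (nat_lit 6) (nat_lit 389) (nat_lit 1) (nat_lit 207) (nat_lit 194) (nat_lit 199)))))) (PT.nd (nat_lit 312) (PT.nd (nat_lit 156) (PT.nd (nat_lit 78) (PT.lf (nat_lit 28880) (nat_lit 6) (nat_lit 380) (nat_lit 1) (nat_lit 208) (nat_lit 194) (nat_lit 198)) (PT.lf (nat_lit 28120) (nat_lit 6) (nat_lit 370) (nat_lit 1) (nat_lit 209) (nat_lit 194) (nat_lit 197))) (PT.nd (nat_lit 78) (PT.lf (nat_lit 27284) (nat_lit 6) (nat_lit 359) (nat_lit 1) (nat_lit 210) (nat_lit 194) (nat_lit 196)) (PT.lf (nat_lit 26372) (nat_lit 6) (nat_lit 347) (nat_lit 1) (nat_lit 211) (nat_lit 194) (nat_lit 195)))) (PT.nd (nat_lit 156) (PT.nd (nat_lit 78) (PT.lf (nat_lit 25384) (nat_lit 3) (nat_lit 334) (nat_lit 0) (nat_lit 212) (nat_lit 194) (nat_lit 194))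 (PT.lf (nat_lit 24396) (nat_lit 6) (nat_lit 321) (nat_lit 0) (nat_lit 213) (nat_lit 194) (nat_lit 193))) (PT.nd (nat_lit 78) (PT.lf (nat_lit 23332) (nat_lit 6) (nat_lit 307) (nat_lit 0) (nat_lit 214) (nat_lit 194) (nat_lit 192)) (PT.nd (nat_lit 78) (PT.lf (nat_lit 22192) (nat_lit 6) (nat_lit 292) (nat_lit 0) (nat_lit 215) (nat_lit 194) (nat_lit 191)) (PT.lf (nat_lit 20976) (nat_lit 6) (nat_lit 276) (nat_lit 0) (nat_lit 216) (nat_lit 194) (nat_lit 190))))))) (PT.nd (nat_lit 702) (PT.nd (nat_lit 312) (PT.nd (nat_lit 156) (PT.nd (nat_lit 78) (PT.lf (nat_lit 21052) (nat_lit 6) (nat_lit 277) (nat_lit 5) (nat_lit 189) (nat_lit 195) (nat_lit 216)) (PT.lf (nat_lit 22268) (nat_lit 6) (nat_lit 293) (nat_lit 5) (nat_lit 190) (nat_lit 195) (nat_lit 215))) (PT.nd (nat_lit 78) (PT.lf (nat_lit 23408) (nat_lit 6) (nat_lit 308) (nat_lit 5) (nat_lit 191) (nat_lit 195) (nat_lit 214)) (PT.lf (nat_lit 24472) (nat_lit 6) (nat_lit 322)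 (nat_lit 5) (nat_lit 192) (nat_lit 195) (nat_lit 213)))) (PT.nd (nat_lit 156) (PT.nd (nat_lit 78) (PT.lf (nat_lit 25460) (nat_lit 6) (nat_lit 335) (nat_lit 5) (nat_lit 193) (nat_lit 195) (nat_lit 212)) (PT.lf (nat_lit 26372) (nat_lit 6) (nat_lit 347) (nat_lit 5) (nat_lit 194) (nat_lit 195) (nat_lit 211))) (PT.nd (nat_lit 78) (PT.lf (nat_lit 27208) (nat_lit 3) (nat_lit 358) (nat_lit 3) (nat_lit 195) (nat_lit 195) (nat_lit 210)) (PT.nd (nat_lit 78) (PT.lf (nat_lit 28044) (nat_lit 6) (nat_lit 369) (nat_lit 3) (nat_lit 196) (nat_lit 195) (nat_lit 209)) (PT.lf (nat_lit 28804) (nat_lit 6) (nat_lit 379) (nat_lit 3) (nat_lit 197) (nat_lit 195) (nat_lit 208)))))) (PT.nd (nat_lit 312) (PT.nd (nat_lit 156) (PT.nd (nat_lit 78) (PT.lf (nat_lit 29488) (nat_lit 6) (nat_lit 388) (nat_lit 3) (nat_lit 198) (nat_lit 195) (nat_lit 207)) (PT.lf (nat_lit 30096) (nat_lit 6) (nat_lit 396) (nat_lit 3) (nat_lit 199) (nat_lit 195) (nat_lit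 206))) (PT.nd (nat_lit 78) (PT.lf (nat_lit 30628) (nat_lit 6) (nat_lit 403) (nat_lit 3) (nat_lit 200) (nat_lit 195) (nat_lit 205)) (PT.lf (nat_lit 30704) (nat_lit 6) (nat_lit 404) (nat_lit 3) (nat_lit 201) (nat_lit 195) (nat_lit 204)))) (PT.nd (nat_lit 156) (PT.nd (nat_lit 78) (PT.lf (nat_lit 30780) (nat_lit 6) (nat_lit 405) (nat_lit 3) (nat_lit 202) (nat_lit 195) (nat_lit 203)) (PT.lf (nat_lit 30780) (nat_lit 6) (nat_lit 405) (nat_lit 1) (nat_lit 203) (nat_lit 195) (nat_lit 202))) (PT.nd (nat_lit 78) (PT.lf (nat_lit 30704) (nat_lit 6) (nat_lit 404) (nat_lit 1) (nat_lit 204) (nat_lit 195) (nat_lit 201)) (PT.nd (nat_lit 78) (PT.lf (nat_lit 30628) (nat_lit 6) (nat_lit 403) (nat_lit 1) (nat_lit 205) (nat_lit 195) (nat_lit 200)) (PT.lf (nat_lit 30096) (nat_lit 6) (nat_lit 396) (nat_lit 1) (nat_lit 206) (nat_lit 195) (nat_lit 199))))))))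
noncomputable def pc21 : PT := (PT.nd (nat_lit 61620) (PT.nd (nat_lit 702) (PT.nd (nat_lit 312) (PT.nd (nat_lit 156) (PT.nd (nat_lit 78) (PT.lf (nat_lit 29488) (nat_lit 6) (nat_lit 388) (nat_lit 1) (nat_lit 207) (nat_lit 195) (nat_lit 198)) (PT.lf (nat_lit 28804) (nat_lit 6) (nat_lit 379) (nat_lit 1) (nat_lit 208) (nat_lit 195) (nat_lit 197))) (PT.nd (nat_lit 78) (PT.lf (nat_lit 28044) (nat_lit 6) (nat_lit 369) (nat_lit 1) (nat_lit 209) (nat_lit 195) (nat_lit 196)) (PT.lf (nat_lit 27208) (nat_lit 3) (nat_lit 358) (nat_lit 0) (nat_lit 210) (nat_lit 195) (nat_lit 195)))) (PT.nd (nat_lit 156) (PT.nd (nat_lit 78) (PT.lf (nat_lit 26372) (nat_lit 6) (nat_lit 347) (nat_lit 0) (nat_lit 211) (nat_lit 195) (nat_lit 194)) (PT.lf (nat_lit 25460) (nat_lit 6) (nat_lit 335) (nat_lit 0) (nat_lit 212) (nat_lit 195) (nat_lit 193))) (PT.nd (nat_lit 78) (PT.lf (nat_lit 24472) (nat_lit 6) (nat_lit 322) (nat_lit 0) (nat_lit 213) (nat_lit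 195) (nat_lit 192)) (PT.nd (nat_lit 78) (PT.lf (nat_lit 23408) (nat_lit 6) (nat_lit 308) (nat_lit 0) (nat_lit 214) (nat_lit 195) (nat_lit 191)) (PT.lf (nat_lit 22268) (nat_lit 6) (nat_lit 293) (nat_lit 0) (nat_lit 215) (nat_lit 195) (nat_lit 190)))))) (PT.nd (nat_lit 60528) (PT.nd (nat_lit 60372) (PT.nd (nat_lit 60294) (PT.lf (nat_lit 21052) (nat_lit 6) (nat_lit 277) (nat_lit 0) (nat_lit 216) (nat_lit 195) (nat_lit 189)) (PT.lf (nat_lit 21128) (nat_lit 6) (nat_lit 278) (nat_lit 5) (nat_lit 188) (nat_lit 196) (nat_lit 216))) (PT.nd (nat_lit 78) (PT.lf (nat_lit 22344) (nat_lit 6) (nat_lit 294) (nat_lit 5) (nat_lit 189) (nat_lit 196) (nat_lit 215)) (PT.lf (nat_lit 23484) (nat_lit 6) (nat_lit 309) (nat_lit 5) (nat_lit 190) (nat_lit 196) (nat_lit 214)))) (PT.nd (nat_lit 156) (PT.nd (nat_lit 78) (PT.lf (nat_lit 24548) (nat_lit 6) (nat_lit 323) (nat_lit 5) (nat_lit 191) (nat_lit 196) (nat_lit 213)) (PT.lf (nat_lit 25536)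 (nat_lit 6) (nat_lit 336) (nat_lit 5) (nat_lit 192) (nat_lit 196) (nat_lit 212))) (PT.nd (nat_lit 78) (PT.lf (nat_lit 26448) (nat_lit 6) (nat_lit 348) (nat_lit 5) (nat_lit 193) (nat_lit 196) (nat_lit 211)) (PT.nd (nat_lit 78) (PT.lf (nat_lit 27284) (nat_lit 6) (nat_lit 359) (nat_lit 5) (nat_lit 194) (nat_lit 196) (nat_lit 210)) (PT.lf (nat_lit 28044) (nat_lit 6) (nat_lit 369) (nat_lit 5) (nat_lit 195) (nat_lit 196) (nat_lit 209))))))) (PT.nd (nat_lit 702) (PT.nd (nat_lit 312) (PT.nd (nat_lit 156) (PT.nd (nat_lit 78) (PT.lf (nat_lit 28728) (nat_lit 3) (nat_lit 378) (nat_lit 3) (nat_lit 196) (nat_lit 196) (nat_lit 208)) (PT.lf (nat_lit 29412) (nat_lit 6) (nat_lit 387) (nat_lit 3) (nat_lit 197) (nat_lit 196) (nat_lit 207))) (PT.nd (nat_lit 78) (PT.lf (nat_lit 30020) (nat_lit 6) (nat_lit 395) (nat_lit 3) (nat_lit 198) (nat_lit 196) (nat_lit 206)) (PT.lf (nat_lit 30552) (nat_lit 6) (nat_lit 402) (nat_lit 3) (nat_lit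 199) (nat_lit 196) (nat_lit 205)))) (PT.nd (nat_lit 156) (PT.nd (nat_lit 78) (PT.lf (nat_lit 31008) (nat_lit 6) (nat_lit 408) (nat_lit 3) (nat_lit 200) (nat_lit 196) (nat_lit 204)) (PT.lf (nat_lit 31084) (nat_lit 6) (nat_lit 409) (nat_lit 3) (nat_lit 201) (nat_lit 196) (nat_lit 203))) (PT.nd (nat_lit 78) (PT.lf (nat_lit 31160) (nat_lit 3) (nat_lit 410) (nat_lit 1) (nat_lit 202) (nat_lit 196) (nat_lit 202)) (PT.nd (nat_lit 78) (PT.lf (nat_lit 31084) (nat_lit 6) (nat_lit 409) (nat_lit 1) (nat_lit 203) (nat_lit 196) (nat_lit 201)) (PT.lf (nat_lit 31008) (nat_lit 6) (nat_lit 408) (nat_lit 1) (nat_lit 204) (nat_lit 196) (nat_lit 200)))))) (PT.nd (nat_lit 312) (PT.nd (nat_lit 156) (PT.nd (nat_lit 78) (PT.lf (nat_lit 30552) (nat_lit 6) (nat_lit 402) (nat_lit 1) (nat_lit 205) (nat_lit 196) (nat_lit 199)) (PT.lf (nat_lit 30020) (nat_lit 6) (nat_lit 395) (nat_lit 1) (nat_lit 206) (nat_lit 196) (nat_lit 198))) (PT.nd (nat_lit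 78) (PT.lf (nat_lit 29412) (nat_lit 6) (nat_lit 387) (nat_lit 1) (nat_lit 207) (nat_lit 196) (nat_lit 197)) (PT.lf (nat_lit 28728) (nat_lit 3) (nat_lit 378) (nat_lit 0) (nat_lit 208) (nat_lit 196) (nat_lit 196)))) (PT.nd (nat_lit 156) (PT.nd (nat_lit 78) (PT.lf (nat_lit 28044) (nat_lit 6) (nat_lit 369) (nat_lit 0) (nat_lit 209) (nat_lit 196) (nat_lit 195)) (PT.lf (nat_lit 27284) (nat_lit 6) (nat_lit 359) (nat_lit 0) (nat_lit 210) (nat_lit 196) (nat_lit 194))) (PT.nd (nat_lit 78) (PT.lf (nat_lit 26448) (nat_lit 6) (nat_lit 348) (nat_lit 0) (nat_lit 211) (nat_lit 196) (nat_lit 193)) (PT.nd (nat_lit 78) (PT.lf (nat_lit 25536) (nat_lit 6) (nat_lit 336) (nat_lit 0) (nat_lit 212) (nat_lit 196) (nat_lit 192)) (PT.lf (nat_lit 24548) (nat_lit 6) (nat_lit 323) (nat_lit 0) (nat_lit 213) (nat_lit 196) (nat_lit 191))))))))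
noncomputable def pc22 : PT := (PT.nd (nat_lit 61542) (PT.nd (nat_lit 60840) (PT.nd (nat_lit 60450) (PT.nd (nat_lit 156) (PT.nd (nat_lit 78) (PT.lf (nat_lit 23484) (nat_lit 6) (nat_lit 309) (nat_lit 0) (nat_lit 214) (nat_lit 196) (nat_lit 190)) (PT.lf (nat_lit 22344) (nat_lit 6) (nat_lit 294) (nat_lit 0) (nat_lit 215) (nat_lit 196) (nat_lit 189))) (PT.nd (nat_lit 60216) (PT.lf (nat_lit 21128) (nat_lit 6) (nat_lit 278) (nat_lit 0) (nat_lit 216) (nat_lit 196) (nat_lit 188)) (PT.lf (nat_lit 21204) (nat_lit 6) (nat_lit 279) (nat_lit 5) (nat_lit 187) (nat_lit 197) (nat_lit 216)))) (PT.nd (nat_lit 156) (PT.nd (nat_lit 78) (PT.lf (nat_lit 22420) (nat_lit 6) (nat_lit 295) (nat_lit 5) (nat_lit 188) (nat_lit 197) (nat_lit 215)) (PT.lf (nat_lit 23560) (nat_lit 6) (nat_lit 310) (nat_lit 5) (nat_lit 189) (nat_lit 197) (nat_lit 214))) (PT.nd (nat_lit 78) (PT.lf (nat_lit 24624) (nat_lit 6) (nat_lit 324) (nat_lit 5) (nat_lit 190)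 (nat_lit 197) (nat_lit 213)) (PT.nd (nat_lit 78) (PT.lf (nat_lit 25612) (nat_lit 6) (nat_lit 337) (nat_lit 5) (nat_lit 191) (nat_lit 197) (nat_lit 212)) (PT.lf (nat_lit 26524) (nat_lit 6) (nat_lit 349) (nat_lit 5) (nat_lit 192) (nat_lit 197) (nat_lit 211)))))) (PT.nd (nat_lit 312) (PT.nd (nat_lit 156) (PT.nd (nat_lit 78) (PT.lf (nat_lit 27360) (nat_lit 6) (nat_lit 360) (nat_lit 5) (nat_lit 193) (nat_lit 197) (nat_lit 210)) (PT.lf (nat_lit 28120) (nat_lit 6) (nat_lit 370) (nat_lit 5) (nat_lit 194) (nat_lit 197) (nat_lit 209))) (PT.nd (nat_lit 78) (PT.lf (nat_lit 28804) (nat_lit 6) (nat_lit 379) (nat_lit 5) (nat_lit 195) (nat_lit 197) (nat_lit 208)) (PT.lf (nat_lit 29412) (nat_lit 6) (nat_lit 387) (nat_lit 5) (nat_lit 196) (nat_lit 197) (nat_lit 207)))) (PT.nd (nat_lit 156) (PT.nd (nat_lit 78) (PT.lf (nat_lit 29944) (nat_lit 3) (nat_lit 394) (nat_lit 3) (nat_lit 197) (nat_lit 197) (nat_lit 206)) (PT.lf (nat_lit 30476)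 (nat_lit 6) (nat_lit 401) (nat_lit 3) (nat_lit 198) (nat_lit 197) (nat_lit 205))) (PT.nd (nat_lit 78) (PT.lf (nat_lit 30932) (nat_lit 6) (nat_lit 407) (nat_lit 3) (nat_lit 199) (nat_lit 197) (nat_lit 204)) (PT.nd (nat_lit 78) (PT.lf (nat_lit 31312) (nat_lit 6) (nat_lit 412) (nat_lit 3) (nat_lit 200) (nat_lit 197) (nat_lit 203)) (PT.lf (nat_lit 31388) (nat_lit 6) (nat_lit 413) (nat_lit 3) (nat_lit 201) (nat_lit 197) (nat_lit 202))))))) (PT.nd (nat_lit 702) (PT.nd (nat_lit 312) (PT.nd (nat_lit 156) (PT.nd (nat_lit 78) (PT.lf (nat_lit 31388) (nat_lit 6) (nat_lit 413) (nat_lit 1) (nat_lit 202) (nat_lit 197) (nat_lit 201)) (PT.lf (nat_lit 31312) (nat_lit 6) (nat_lit 412) (nat_lit 1) (nat_lit 203) (nat_lit 197) (nat_lit 200))) (PT.nd (nat_lit 78) (PT.lf (nat_lit 30932) (nat_lit 6) (nat_lit 407) (nat_lit 1) (nat_lit 204) (nat_lit 197) (nat_lit 199)) (PT.lf (nat_lit 30476) (nat_lit 6) (nat_lit 401) (nat_lit 1) (nat_lit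 205) (nat_lit 197) (nat_lit 198)))) (PT.nd (nat_lit 156) (PT.nd (nat_lit 78) (PT.lf (nat_lit 29944) (nat_lit 3) (nat_lit 394) (nat_lit 0) (nat_lit 206) (nat_lit 197) (nat_lit 197)) (PT.lf (nat_lit 29412) (nat_lit 6) (nat_lit 387) (nat_lit 0) (nat_lit 207) (nat_lit 197) (nat_lit 196))) (PT.nd (nat_lit 78) (PT.lf (nat_lit 28804) (nat_lit 6) (nat_lit 379) (nat_lit 0) (nat_lit 208) (nat_lit 197) (nat_lit 195)) (PT.nd (nat_lit 78) (PT.lf (nat_lit 28120) (nat_lit 6) (nat_lit 370) (nat_lit 0) (nat_lit 209) (nat_lit 197) (nat_lit 194)) (PT.lf (nat_lit 27360) (nat_lit 6) (nat_lit 360) (nat_lit 0) (nat_lit 210) (nat_lit 197) (nat_lit 193)))))) (PT.nd (nat_lit 312) (PT.nd (nat_lit 156) (PT.nd (nat_lit 78) (PT.lf (nat_lit 26524) (nat_lit 6) (nat_lit 349) (nat_lit 0) (nat_lit 211) (nat_lit 197) (nat_lit 192)) (PT.lf (nat_lit 25612) (nat_lit 6) (nat_lit 337) (nat_lit 0) (nat_lit 212) (nat_lit 197) (nat_lit 191))) (PT.nd (nat_lit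 78) (PT.lf (nat_lit 24624) (nat_lit 6) (nat_lit 324) (nat_lit 0) (nat_lit 213) (nat_lit 197) (nat_lit 190)) (PT.lf (nat_lit 23560) (nat_lit 6) (nat_lit 310) (nat_lit 0) (nat_lit 214) (nat_lit 197) (nat_lit 189)))) (PT.nd (nat_lit 60216) (PT.nd (nat_lit 78) (PT.lf (nat_lit 22420) (nat_lit 6) (nat_lit 295) (nat_lit 0) (nat_lit 215) (nat_lit 197) (nat_lit 188)) (PT.lf (nat_lit 21204) (nat_lit 6) (nat_lit 279) (nat_lit 0) (nat_lit 216) (nat_lit 197) (nat_lit 187))) (PT.nd (nat_lit 78) (PT.lf (nat_lit 21280) (nat_lit 6) (nat_lit 280) (nat_lit 5) (nat_lit 186) (nat_lit 198) (nat_lit 216)) (PT.nd (nat_lit 78) (PT.lf (nat_lit 22496) (nat_lit 6) (nat_lit 296) (nat_lit 5) (nat_lit 187) (nat_lit 198) (nat_lit 215)) (PT.lf (nat_lit 23636) (nat_lit 6) (nat_lit 311) (nat_lit 5) (nat_lit 188) (nat_lit 198) (nat_lit 214))))))))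
noncomputable def pc23 : PT := (PT.nd (nat_lit 1404) (PT.nd (nat_lit 702) (PT.nd (nat_lit 312) (PT.nd (nat_lit 156) (PT.nd (nat_lit 78) (PT.lf (nat_lit 24700) (nat_lit 6) (nat_lit 325) (nat_lit 5) (nat_lit 189) (nat_lit 198) (nat_lit 213)) (PT.lf (nat_lit 25688) (nat_lit 6) (nat_lit 338) (nat_lit 5) (nat_lit 190) (nat_lit 198) (nat_lit 212))) (PT.nd (nat_lit 78) (PT.lf (nat_lit 26600) (nat_lit 6) (nat_lit 350) (nat_lit 5) (nat_lit 191) (nat_lit 198) (nat_lit 211)) (PT.lf (nat_lit 27436) (nat_lit 6) (nat_lit 361) (nat_lit 5) (nat_lit 192) (nat_lit 198) (nat_lit 210)))) (PT.nd (nat_lit 156) (PT.nd (nat_lit 78) (PT.lf (nat_lit 28196) (nat_lit 6) (nat_lit 371) (nat_lit 5) (nat_lit 193) (nat_lit 198) (nat_lit 209)) (PT.lf (nat_lit 28880) (nat_lit 6) (nat_lit 380) (nat_lit 5) (nat_lit 194) (nat_lit 198) (nat_lit 208))) (PT.nd (nat_lit 78) (PT.lf (nat_lit 29488) (nat_lit 6) (nat_lit 388) (nat_lit 5) (nat_lit 195) (nat_lit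 198) (nat_lit 207)) (PT.nd (nat_lit 78) (PT.lf (nat_lit 30020) (nat_lit 6) (nat_lit 395) (nat_lit 5) (nat_lit 196) (nat_lit 198) (nat_lit 206)) (PT.lf (nat_lit 30476) (nat_lit 6) (nat_lit 401) (nat_lit 5) (nat_lit 197) (nat_lit 198) (nat_lit 205)))))) (PT.nd (nat_lit 312) (PT.nd (nat_lit 156) (PT.nd (nat_lit 78) (PT.lf (nat_lit 30856) (nat_lit 3) (nat_lit 406) (nat_lit 3) (nat_lit 198) (nat_lit 198) (nat_lit 204)) (PT.lf (nat_lit 31236) (nat_lit 6) (nat_lit 411) (nat_lit 3) (nat_lit 199) (nat_lit 198) (nat_lit 203))) (PT.nd (nat_lit 78) (PT.lf (nat_lit 31540) (nat_lit 6) (nat_lit 415) (nat_lit 3) (nat_lit 200) (nat_lit 198) (nat_lit 202)) (PT.lf (nat_lit 31616) (nat_lit 3) (nat_lit 416) (nat_lit 1) (nat_lit 201) (nat_lit 198) (nat_lit 201)))) (PT.nd (nat_lit 156) (PT.nd (nat_lit 78) (PT.lf (nat_lit 31540) (nat_lit 6) (nat_lit 415) (nat_lit 1) (nat_lit 202) (nat_lit 198) (nat_lit 200)) (PT.lf (nat_lit 31236) (nat_lit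 6) (nat_lit 411) (nat_lit 1) (nat_lit 203) (nat_lit 198) (nat_lit 199))) (PT.nd (nat_lit 78) (PT.lf (nat_lit 30856) (nat_lit 3) (nat_lit 406) (nat_lit 0) (nat_lit 204) (nat_lit 198) (nat_lit 198)) (PT.nd (nat_lit 78) (PT.lf (nat_lit 30476) (nat_lit 6) (nat_lit 401) (nat_lit 0) (nat_lit 205) (nat_lit 198) (nat_lit 197)) (PT.lf (nat_lit 30020) (nat_lit 6) (nat_lit 395) (nat_lit 0) (nat_lit 206) (nat_lit 198) (nat_lit 196))))))) (PT.nd (nat_lit 702) (PT.nd (nat_lit 312) (PT.nd (nat_lit 156) (PT.nd (nat_lit 78) (PT.lf (nat_lit 29488) (nat_lit 6) (nat_lit 388) (nat_lit 0) (nat_lit 207) (nat_lit 198) (nat_lit 195)) (PT.lf (nat_lit 28880) (nat_lit 6) (nat_lit 380) (nat_lit 0) (nat_lit 208) (nat_lit 198) (nat_lit 194))) (PT.nd (nat_lit 78) (PT.lf (nat_lit 28196) (nat_lit 6) (nat_lit 371) (nat_lit 0) (nat_lit 209) (nat_lit 198) (nat_lit 193)) (PT.lf (nat_lit 27436) (nat_lit 6) (nat_lit 361) (nat_lit 0) (nat_lit 210) (nat_lit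 198) (nat_lit 192)))) (PT.nd (nat_lit 156) (PT.nd (nat_lit 78) (PT.lf (nat_lit 26600) (nat_lit 6) (nat_lit 350) (nat_lit 0) (nat_lit 211) (nat_lit 198) (nat_lit 191)) (PT.lf (nat_lit 25688) (nat_lit 6) (nat_lit 338) (nat_lit 0) (nat_lit 212) (nat_lit 198) (nat_lit 190))) (PT.nd (nat_lit 78) (PT.lf (nat_lit 24700) (nat_lit 6) (nat_lit 325) (nat_lit 0) (nat_lit 213) (nat_lit 198) (nat_lit 189)) (PT.nd (nat_lit 78) (PT.lf (nat_lit 23636) (nat_lit 6) (nat_lit 311) (nat_lit 0) (nat_lit 214) (nat_lit 198) (nat_lit 188)) (PT.lf (nat_lit 22496) (nat_lit 6) (nat_lit 296) (nat_lit 0) (nat_lit 215) (nat_lit 198) (nat_lit 187)))))) (PT.nd (nat_lit 60294) (PT.nd (nat_lit 60060) (PT.nd (nat_lit 59982) (PT.lf (nat_lit 21280) (nat_lit 6) (nat_lit 280) (nat_lit 0) (nat_lit 216) (nat_lit 198) (nat_lit 186)) (PT.lf (nat_lit 20064) (nat_lit 6) (nat_lit 264) (nat_lit 5) (nat_lit 184) (nat_lit 199) (nat_lit 217))) (PT.nd (nat_lit 78)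 (PT.lf (nat_lit 21356) (nat_lit 6) (nat_lit 281) (nat_lit 5) (nat_lit 185) (nat_lit 199) (nat_lit 216)) (PT.nd (nat_lit 78) (PT.lf (nat_lit 22572) (nat_lit 6) (nat_lit 297) (nat_lit 5) (nat_lit 186) (nat_lit 199) (nat_lit 215)) (PT.lf (nat_lit 23712) (nat_lit 6) (nat_lit 312) (nat_lit 5) (nat_lit 187) (nat_lit 199) (nat_lit 214))))) (PT.nd (nat_lit 156) (PT.nd (nat_lit 78) (PT.lf (nat_lit 24776) (nat_lit 6) (nat_lit 326) (nat_lit 5) (nat_lit 188) (nat_lit 199) (nat_lit 213)) (PT.lf (nat_lit 25764) (nat_lit 6) (nat_lit 339) (nat_lit 5) (nat_lit 189) (nat_lit 199) (nat_lit 212))) (PT.nd (nat_lit 78) (PT.lf (nat_lit 26676) (nat_lit 6) (nat_lit 351) (nat_lit 5) (nat_lit 190) (nat_lit 199) (nat_lit 211)) (PT.nd (nat_lit 78) (PT.lf (nat_lit 27512) (nat_lit 6) (nat_lit 362) (nat_lit 5) (nat_lit 191) (nat_lit 199) (nat_lit 210)) (PT.lf (nat_lit 28272) (nat_lit 6) (nat_lit 372) (nat_lit 5) (nat_lit 192) (nat_lit 199) (nat_lit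 209))))))))
noncomputable def pc24 : PT := (PT.nd (nat_lit 1404) (PT.nd (nat_lit 702) (PT.nd (nat_lit 312) (PT.nd (nat_lit 156) (PT.nd (nat_lit 78) (PT.lf (nat_lit 28956) (nat_lit 6) (nat_lit 381) (nat_lit 5) (nat_lit 193) (nat_lit 199) (nat_lit 208)) (PT.lf (nat_lit 29564) (nat_lit 6) (nat_lit 389) (nat_lit 5) (nat_lit 194) (nat_lit 199) (nat_lit 207))) (PT.nd (nat_lit 78) (PT.lf (nat_lit 30096) (nat_lit 6) (nat_lit 396) (nat_lit 5) (nat_lit 195) (nat_lit 199) (nat_lit 206)) (PT.lf (nat_lit 30552) (nat_lit 6) (nat_lit 402) (nat_lit 5) (nat_lit 196) (nat_lit 199) (nat_lit 205)))) (PT.nd (nat_lit 156) (PT.nd (nat_lit 78) (PT.lf (nat_lit 30932) (nat_lit 6) (nat_lit 407) (nat_lit 5) (nat_lit 197) (nat_lit 199) (nat_lit 204)) (PT.lf (nat_lit 31236) (nat_lit 6) (nat_lit 411) (nat_lit 5) (nat_lit 198) (nat_lit 199) (nat_lit 203))) (PT.nd (nat_lit 78) (PT.lf (nat_lit 31464) (nat_lit 3) (nat_lit 414) (nat_lit 3) (nat_lit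 199) (nat_lit 199) (nat_lit 202)) (PT.nd (nat_lit 78) (PT.lf (nat_lit 31692) (nat_lit 6) (nat_lit 417) (nat_lit 3) (nat_lit 200) (nat_lit 199) (nat_lit 201)) (PT.lf (nat_lit 31692) (nat_lit 6) (nat_lit 417) (nat_lit 1) (nat_lit 201) (nat_lit 199) (nat_lit 200)))))) (PT.nd (nat_lit 312) (PT.nd (nat_lit 156) (PT.nd (nat_lit 78) (PT.lf (nat_lit 31464) (nat_lit 3) (nat_lit 414) (nat_lit 0) (nat_lit 202) (nat_lit 199) (nat_lit 199)) (PT.lf (nat_lit 31236) (nat_lit 6) (nat_lit 411) (nat_lit 0) (nat_lit 203) (nat_lit 199) (nat_lit 198))) (PT.nd (nat_lit 78) (PT.lf (nat_lit 30932) (nat_lit 6) (nat_lit 407) (nat_lit 0) (nat_lit 204) (nat_lit 199) (nat_lit 197)) (PT.lf (nat_lit 30552) (nat_lit 6) (nat_lit 402) (nat_lit 0) (nat_lit 205) (nat_lit 199) (nat_lit 196)))) (PT.nd (nat_lit 156) (PT.nd (nat_lit 78) (PT.lf (nat_lit 30096) (nat_lit 6) (nat_lit 396) (nat_lit 0) (nat_lit 206) (nat_lit 199) (nat_lit 195)) (PT.lf (nat_lit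 29564) (nat_lit 6) (nat_lit 389) (nat_lit 0) (nat_lit 207) (nat_lit 199) (nat_lit 194))) (PT.nd (nat_lit 78) (PT.lf (nat_lit 28956) (nat_lit 6) (nat_lit 381) (nat_lit 0) (nat_lit 208) (nat_lit 199) (nat_lit 193)) (PT.nd (nat_lit 78) (PT.lf (nat_lit 28272) (nat_lit 6) (nat_lit 372) (nat_lit 0) (nat_lit 209) (nat_lit 199) (nat_lit 192)) (PT.lf (nat_lit 27512) (nat_lit 6) (nat_lit 362) (nat_lit 0) (nat_lit 210) (nat_lit 199) (nat_lit 191))))))) (PT.nd (nat_lit 60450) (PT.nd (nat_lit 312) (PT.nd (nat_lit 156) (PT.nd (nat_lit 78) (PT.lf (nat_lit 26676) (nat_lit 6) (nat_lit 351) (nat_lit 0) (nat_lit 211) (nat_lit 199) (nat_lit 190)) (PT.lf (nat_lit 25764) (nat_lit 6) (nat_lit 339) (nat_lit 0) (nat_lit 212) (nat_lit 199) (nat_lit 189))) (PT.nd (nat_lit 78) (PT.lf (nat_lit 24776) (nat_lit 6) (nat_lit 326) (nat_lit 0) (nat_lit 213) (nat_lit 199) (nat_lit 188)) (PT.lf (nat_lit 23712) (nat_lit 6) (nat_lit 312) (nat_lit 0)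 (nat_lit 214) (nat_lit 199) (nat_lit 187)))) (PT.nd (nat_lit 156) (PT.nd (nat_lit 78) (PT.lf (nat_lit 22572) (nat_lit 6) (nat_lit 297) (nat_lit 0) (nat_lit 215) (nat_lit 199) (nat_lit 186)) (PT.lf (nat_lit 21356) (nat_lit 6) (nat_lit 281) (nat_lit 0) (nat_lit 216) (nat_lit 199) (nat_lit 185))) (PT.nd (nat_lit 59826) (PT.lf (nat_lit 20064) (nat_lit 6) (nat_lit 264) (nat_lit 0) (nat_lit 217) (nat_lit 199) (nat_lit 184)) (PT.nd (nat_lit 78) (PT.lf (nat_lit 20140) (nat_lit 6) (nat_lit 265) (nat_lit 5) (nat_lit 183) (nat_lit 200) (nat_lit 217)) (PT.lf (nat_lit 21432) (nat_lit 6) (nat_lit 282) (nat_lit 5) (nat_lit 184) (nat_lit 200) (nat_lit 216)))))) (PT.nd (nat_lit 312) (PT.nd (nat_lit 156) (PT.nd (nat_lit 78) (PT.lf (nat_lit 22648) (nat_lit 6) (nat_lit 298) (nat_lit 5) (nat_lit 185) (nat_lit 200) (nat_lit 215)) (PT.lf (nat_lit 23788) (nat_lit 6) (nat_lit 313) (nat_lit 5) (nat_lit 186) (nat_lit 200) (nat_lit 214)))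 (PT.nd (nat_lit 78) (PT.lf (nat_lit 24852) (nat_lit 6) (nat_lit 327) (nat_lit 5) (nat_lit 187) (nat_lit 200) (nat_lit 213)) (PT.lf (nat_lit 25840) (nat_lit 6) (nat_lit 340) (nat_lit 5) (nat_lit 188) (nat_lit 200) (nat_lit 212)))) (PT.nd (nat_lit 156) (PT.nd (nat_lit 78) (PT.lf (nat_lit 26752) (nat_lit 6) (nat_lit 352) (nat_lit 5) (nat_lit 189) (nat_lit 200) (nat_lit 211)) (PT.lf (nat_lit 27588) (nat_lit 6) (nat_lit 363) (nat_lit 5) (nat_lit 190) (nat_lit 200) (nat_lit 210))) (PT.nd (nat_lit 78) (PT.lf (nat_lit 28348) (nat_lit 6) (nat_lit 373) (nat_lit 5) (nat_lit 191) (nat_lit 200) (nat_lit 209)) (PT.nd (nat_lit 78) (PT.lf (nat_lit 29032) (nat_lit 6) (nat_lit 382) (nat_lit 5) (nat_lit 192) (nat_lit 200) (nat_lit 208)) (PT.lf (nat_lit 29640) (nat_lit 6) (nat_lit 390) (nat_lit 5) (nat_lit 193) (nat_lit 200) (nat_lit 207))))))))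
noncomputable def pc25 : PT := (PT.nd (nat_lit 1404) (PT.nd (nat_lit 702) (PT.nd (nat_lit 312) (PT.nd (nat_lit 156) (PT.nd (nat_lit 78) (PT.lf (nat_lit 30172) (nat_lit 6) (nat_lit 397) (nat_lit 5) (nat_lit 194) (nat_lit 200) (nat_lit 206)) (PT.lf (nat_lit 30628) (nat_lit 6) (nat_lit 403) (nat_lit 5) (nat_lit 195) (nat_lit 200) (nat_lit 205))) (PT.nd (nat_lit 78) (PT.lf (nat_lit 31008) (nat_lit 6) (nat_lit 408) (nat_lit 5) (nat_lit 196) (nat_lit 200) (nat_lit 204)) (PT.lf (nat_lit 31312) (nat_lit 6) (nat_lit 412) (nat_lit 5) (nat_lit 197) (nat_lit 200) (nat_lit 203)))) (PT.nd (nat_lit 156) (PT.nd (nat_lit 78) (PT.lf (nat_lit 31540) (nat_lit 6) (nat_lit 415) (nat_lit 5) (nat_lit 198) (nat_lit 200) (nat_lit 202)) (PT.lf (nat_lit 31692) (nat_lit 6) (nat_lit 417) (nat_lit 5) (nat_lit 199) (nat_lit 200) (nat_lit 201))) (PT.nd (nat_lit 78) (PT.lf (nat_lit 31768) (nat_lit 1) (nat_lit 418) (nat_lit 0) (nat_lit 200) (nat_lit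 200) (nat_lit 200)) (PT.nd (nat_lit 78) (PT.lf (nat_lit 31692) (nat_lit 6) (nat_lit 417) (nat_lit 0) (nat_lit 201) (nat_lit 200) (nat_lit 199)) (PT.lf (nat_lit 31540) (nat_lit 6) (nat_lit 415) (nat_lit 0) (nat_lit 202) (nat_lit 200) (nat_lit 198)))))) (PT.nd (nat_lit 312) (PT.nd (nat_lit 156) (PT.nd (nat_lit 78) (PT.lf (nat_lit 31312) (nat_lit 6) (nat_lit 412) (nat_lit 0) (nat_lit 203) (nat_lit 200) (nat_lit 197)) (PT.lf (nat_lit 31008) (nat_lit 6) (nat_lit 408) (nat_lit 0) (nat_lit 204) (nat_lit 200) (nat_lit 196))) (PT.nd (nat_lit 78) (PT.lf (nat_lit 30628) (nat_lit 6) (nat_lit 403) (nat_lit 0) (nat_lit 205) (nat_lit 200) (nat_lit 195)) (PT.lf (nat_lit 30172) (nat_lit 6) (nat_lit 397) (nat_lit 0) (nat_lit 206) (nat_lit 200) (nat_lit 194)))) (PT.nd (nat_lit 156) (PT.nd (nat_lit 78) (PT.lf (nat_lit 29640) (nat_lit 6) (nat_lit 390) (nat_lit 0) (nat_lit 207) (nat_lit 200) (nat_lit 193)) (PT.lf (nat_lit 29032) (nat_lit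 6) (nat_lit 382) (nat_lit 0) (nat_lit 208) (nat_lit 200) (nat_lit 192))) (PT.nd (nat_lit 78) (PT.lf (nat_lit 28348) (nat_lit 6) (nat_lit 373) (nat_lit 0) (nat_lit 209) (nat_lit 200) (nat_lit 191)) (PT.nd (nat_lit 78) (PT.lf (nat_lit 27588) (nat_lit 6) (nat_lit 363) (nat_lit 0) (nat_lit 210) (nat_lit 200) (nat_lit 190)) (PT.lf (nat_lit 26752) (nat_lit 6) (nat_lit 352) (nat_lit 0) (nat_lit 211) (nat_lit 200) (nat_lit 189))))))) (PT.nd (nat_lit 60372) (PT.nd (nat_lit 312) (PT.nd (nat_lit 156) (PT.nd (nat_lit 78) (PT.lf (nat_lit 25840) (nat_lit 6) (nat_lit 340) (nat_lit 0) (nat_lit 212) (nat_lit 200) (nat_lit 188)) (PT.lf (nat_lit 24852) (nat_lit 6) (nat_lit 327) (nat_lit 0) (nat_lit 213) (nat_lit 200) (nat_lit 187))) (PT.nd (nat_lit 78) (PT.lf (nat_lit 23788) (nat_lit 6) (nat_lit 313) (nat_lit 0) (nat_lit 214) (nat_lit 200) (nat_lit 186)) (PT.lf (nat_lit 22648) (nat_lit 6) (nat_lit 298) (nat_lit 0) (nat_lit 215) (nat_lit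 200) (nat_lit 185)))) (PT.nd (nat_lit 59826) (PT.nd (nat_lit 78) (PT.lf (nat_lit 21432) (nat_lit 6) (nat_lit 282) (nat_lit 0) (nat_lit 216) (nat_lit 200) (nat_lit 184)) (PT.lf (nat_lit 20140) (nat_lit 6) (nat_lit 265) (nat_lit 0) (nat_lit 217) (nat_lit 200) (nat_lit 183))) (PT.nd (nat_lit 78) (PT.lf (nat_lit 19380) (nat_lit 6) (nat_lit 255) (nat_lit 5) (nat_lit 182) (nat_lit 201) (nat_lit 217)) (PT.nd (nat_lit 78) (PT.lf (nat_lit 20216) (nat_lit 6) (nat_lit 266) (nat_lit 5) (nat_lit 183) (nat_lit 201) (nat_lit 216)) (PT.lf (nat_lit 21508) (nat_lit 6) (nat_lit 283) (nat_lit 5) (nat_lit 184) (nat_lit 201) (nat_lit 215)))))) (PT.nd (nat_lit 312) (PT.nd (nat_lit 156) (PT.nd (nat_lit 78) (PT.lf (nat_lit 22724) (nat_lit 6) (nat_lit 299) (nat_lit 5) (nat_lit 185) (nat_lit 201) (nat_lit 214)) (PT.lf (nat_lit 23864) (nat_lit 6) (nat_lit 314) (nat_lit 5) (nat_lit 186) (nat_lit 201) (nat_lit 213))) (PT.nd (nat_lit 78) (PT.lf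 (nat_lit 24928) (nat_lit 6) (nat_lit 328) (nat_lit 5) (nat_lit 187) (nat_lit 201) (nat_lit 212)) (PT.lf (nat_lit 25916) (nat_lit 6) (nat_lit 341) (nat_lit 5) (nat_lit 188) (nat_lit 201) (nat_lit 211)))) (PT.nd (nat_lit 156) (PT.nd (nat_lit 78) (PT.lf (nat_lit 26828) (nat_lit 6) (nat_lit 353) (nat_lit 5) (nat_lit 189) (nat_lit 201) (nat_lit 210)) (PT.lf (nat_lit 27664) (nat_lit 6) (nat_lit 364) (nat_lit 5) (nat_lit 190) (nat_lit 201) (nat_lit 209))) (PT.nd (nat_lit 78) (PT.lf (nat_lit 28424) (nat_lit 6) (nat_lit 374) (nat_lit 5) (nat_lit 191) (nat_lit 201) (nat_lit 208)) (PT.nd (nat_lit 78) (PT.lf (nat_lit 29108) (nat_lit 6) (nat_lit 383) (nat_lit 5) (nat_lit 192) (nat_lit 201) (nat_lit 207)) (PT.lf (nat_lit 29716) (nat_lit 6) (nat_lit 391) (nat_lit 5) (nat_lit 193) (nat_lit 201) (nat_lit 206))))))))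
noncomputable def pc26 : PT := (PT.nd (nat_lit 1404) (PT.nd (nat_lit 702) (PT.nd (nat_lit 312) (PT.nd (nat_lit 156) (PT.nd (nat_lit 78) (PT.lf (nat_lit 30248) (nat_lit 6) (nat_lit 398) (nat_lit 5) (nat_lit 194) (nat_lit 201) (nat_lit 205)) (PT.lf (nat_lit 30704) (nat_lit 6) (nat_lit 404) (nat_lit 5) (nat_lit 195) (nat_lit 201) (nat_lit 204))) (PT.nd (nat_lit 78) (PT.lf (nat_lit 31084) (nat_lit 6) (nat_lit 409) (nat_lit 5) (nat_lit 196) (nat_lit 201) (nat_lit 203)) (PT.lf (nat_lit 31388) (nat_lit 6) (nat_lit 413) (nat_lit 5) (nat_lit 197) (nat_lit 201) (nat_lit 202)))) (PT.nd (nat_lit 156) (PT.nd (nat_lit 78) (PT.lf (nat_lit 31616) (nat_lit 3) (nat_lit 416) (nat_lit 4) (nat_lit 198) (nat_lit 201) (nat_lit 201)) (PT.lf (nat_lit 31692) (nat_lit 6) (nat_lit 417) (nat_lit 4) (nat_lit 199) (nat_lit 201) (nat_lit 200))) (PT.nd (nat_lit 78) (PT.lf (nat_lit 31692) (nat_lit 6) (nat_lit 417) (nat_lit 2) (nat_lit 200) (nat_lit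 201) (nat_lit 199)) (PT.nd (nat_lit 78) (PT.lf (nat_lit 31616) (nat_lit 3) (nat_lit 416) (nat_lit 0) (nat_lit 201) (nat_lit 201) (nat_lit 198)) (PT.lf (nat_lit 31388) (nat_lit 6) (nat_lit 413) (nat_lit 0) (nat_lit 202) (nat_lit 201) (nat_lit 197)))))) (PT.nd (nat_lit 312) (PT.nd (nat_lit 156) (PT.nd (nat_lit 78) (PT.lf (nat_lit 31084) (nat_lit 6) (nat_lit 409) (nat_lit 0) (nat_lit 203) (nat_lit 201) (nat_lit 196)) (PT.lf (nat_lit 30704) (nat_lit 6) (nat_lit 404) (nat_lit 0) (nat_lit 204) (nat_lit 201) (nat_lit 195))) (PT.nd (nat_lit 78) (PT.lf (nat_lit 30248) (nat_lit 6) (nat_lit 398) (nat_lit 0) (nat_lit 205) (nat_lit 201) (nat_lit 194)) (PT.lf (nat_lit 29716) (nat_lit 6) (nat_lit 391) (nat_lit 0) (nat_lit 206) (nat_lit 201) (nat_lit 193)))) (PT.nd (nat_lit 156) (PT.nd (nat_lit 78) (PT.lf (nat_lit 29108) (nat_lit 6) (nat_lit 383) (nat_lit 0) (nat_lit 207) (nat_lit 201) (nat_lit 192)) (PT.lf (nat_lit 28424) (nat_lit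 6) (nat_lit 374) (nat_lit 0) (nat_lit 208) (nat_lit 201) (nat_lit 191))) (PT.nd (nat_lit 78) (PT.lf (nat_lit 27664) (nat_lit 6) (nat_lit 364) (nat_lit 0) (nat_lit 209) (nat_lit 201) (nat_lit 190)) (PT.nd (nat_lit 78) (PT.lf (nat_lit 26828) (nat_lit 6) (nat_lit 353) (nat_lit 0) (nat_lit 210) (nat_lit 201) (nat_lit 189)) (PT.lf (nat_lit 25916) (nat_lit 6) (nat_lit 341) (nat_lit 0) (nat_lit 211) (nat_lit 201) (nat_lit 188))))))) (PT.nd (nat_lit 60294) (PT.nd (nat_lit 312) (PT.nd (nat_lit 156) (PT.nd (nat_lit 78) (PT.lf (nat_lit 24928) (nat_lit 6) (nat_lit 328) (nat_lit 0) (nat_lit 212) (nat_lit 201) (nat_lit 187)) (PT.lf (nat_lit 23864) (nat_lit 6) (nat_lit 314) (nat_lit 0) (nat_lit 213) (nat_lit 201) (nat_lit 186))) (PT.nd (nat_lit 78) (PT.lf (nat_lit 22724) (nat_lit 6) (nat_lit 299) (nat_lit 0) (nat_lit 214) (nat_lit 201) (nat_lit 185)) (PT.lf (nat_lit 21508) (nat_lit 6) (nat_lit 283) (nat_lit 0) (nat_lit 215) (nat_lit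 201) (nat_lit 184)))) (PT.nd (nat_lit 59748) (PT.nd (nat_lit 78) (PT.lf (nat_lit 20216) (nat_lit 6) (nat_lit 266) (nat_lit 0) (nat_lit 216) (nat_lit 201) (nat_lit 183)) (PT.lf (nat_lit 19380) (nat_lit 6) (nat_lit 255) (nat_lit 0) (nat_lit 217) (nat_lit 201) (nat_lit 182))) (PT.nd (nat_lit 78) (PT.lf (nat_lit 18772) (nat_lit 6) (nat_lit 247) (nat_lit 5) (nat_lit 181) (nat_lit 202) (nat_lit 217)) (PT.nd (nat_lit 78) (PT.lf (nat_lit 19456) (nat_lit 6) (nat_lit 256) (nat_lit 5) (nat_lit 182) (nat_lit 202) (nat_lit 216)) (PT.lf (nat_lit 20292) (nat_lit 6) (nat_lit 267) (nat_lit 5) (nat_lit 183) (nat_lit 202) (nat_lit 215)))))) (PT.nd (nat_lit 312) (PT.nd (nat_lit 156) (PT.nd (nat_lit 78) (PT.lf (nat_lit 21584) (nat_lit 6) (nat_lit 284) (nat_lit 5) (nat_lit 184) (nat_lit 202) (nat_lit 214)) (PT.lf (nat_lit 22800) (nat_lit 6) (nat_lit 300) (nat_lit 5) (nat_lit 185) (nat_lit 202) (nat_lit 213))) (PT.nd (nat_lit 78) (PT.lf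 (nat_lit 23940) (nat_lit 6) (nat_lit 315) (nat_lit 5) (nat_lit 186) (nat_lit 202) (nat_lit 212)) (PT.lf (nat_lit 25004) (nat_lit 6) (nat_lit 329) (nat_lit 5) (nat_lit 187) (nat_lit 202) (nat_lit 211)))) (PT.nd (nat_lit 156) (PT.nd (nat_lit 78) (PT.lf (nat_lit 25992) (nat_lit 6) (nat_lit 342) (nat_lit 5) (nat_lit 188) (nat_lit 202) (nat_lit 210)) (PT.lf (nat_lit 26904) (nat_lit 6) (nat_lit 354) (nat_lit 5) (nat_lit 189) (nat_lit 202) (nat_lit 209))) (PT.nd (nat_lit 78) (PT.lf (nat_lit 27740) (nat_lit 6) (nat_lit 365) (nat_lit 5) (nat_lit 190) (nat_lit 202) (nat_lit 208)) (PT.nd (nat_lit 78) (PT.lf (nat_lit 28500) (nat_lit 6) (nat_lit 375) (nat_lit 5) (nat_lit 191) (nat_lit 202) (nat_lit 207)) (PT.lf (nat_lit 29184) (nat_lit 6) (nat_lit 384) (nat_lit 5) (nat_lit 192) (nat_lit 202) (nat_lit 206))))))))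
noncomputable def pc27 : PT := (PT.nd (nat_lit 1404) (PT.nd (nat_lit 702) (PT.nd (nat_lit 312) (PT.nd (nat_lit 156) (PT.nd (nat_lit 78) (PT.lf (nat_lit 29792) (nat_lit 6) (nat_lit 392) (nat_lit 5) (nat_lit 193) (nat_lit 202) (nat_lit 205)) (PT.lf (nat_lit 30324) (nat_lit 6) (nat_lit 399) (nat_lit 5) (nat_lit 194) (nat_lit 202) (nat_lit 204))) (PT.nd (nat_lit 78) (PT.lf (nat_lit 30780) (nat_lit 6) (nat_lit 405) (nat_lit 5) (nat_lit 195) (nat_lit 202) (nat_lit 203)) (PT.lf (nat_lit 31160) (nat_lit 3) (nat_lit 410) (nat_lit 4) (nat_lit 196) (nat_lit 202) (nat_lit 202)))) (PT.nd (nat_lit 156) (PT.nd (nat_lit 78) (PT.lf (nat_lit 31388) (nat_lit 6) (nat_lit 413) (nat_lit 4) (nat_lit 197) (nat_lit 202) (nat_lit 201)) (PT.lf (nat_lit 31540) (nat_lit 6) (nat_lit 415) (nat_lit 4) (nat_lit 198) (nat_lit 202) (nat_lit 200))) (PT.nd (nat_lit 78) (PT.lf (nat_lit 31464) (nat_lit 3) (nat_lit 414) (nat_lit 2) (nat_lit 199) (nat_lit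 202) (nat_lit 199)) (PT.nd (nat_lit 78) (PT.lf (nat_lit 31540) (nat_lit 6) (nat_lit 415) (nat_lit 2) (nat_lit 200) (nat_lit 202) (nat_lit 198)) (PT.lf (nat_lit 31388) (nat_lit 6) (nat_lit 413) (nat_lit 2) (nat_lit 201) (nat_lit 202) (nat_lit 197)))))) (PT.nd (nat_lit 312) (PT.nd (nat_lit 156) (PT.nd (nat_lit 78) (PT.lf (nat_lit 31160) (nat_lit 3) (nat_lit 410) (nat_lit 0) (nat_lit 202) (nat_lit 202) (nat_lit 196)) (PT.lf (nat_lit 30780) (nat_lit 6) (nat_lit 405) (nat_lit 0) (nat_lit 203) (nat_lit 202) (nat_lit 195))) (PT.nd (nat_lit 78) (PT.lf (nat_lit 30324) (nat_lit 6) (nat_lit 399) (nat_lit 0) (nat_lit 204) (nat_lit 202) (nat_lit 194)) (PT.lf (nat_lit 29792) (nat_lit 6) (nat_lit 392) (nat_lit 0) (nat_lit 205) (nat_lit 202) (nat_lit 193)))) (PT.nd (nat_lit 156) (PT.nd (nat_lit 78) (PT.lf (nat_lit 29184) (nat_lit 6) (nat_lit 384) (nat_lit 0) (nat_lit 206) (nat_lit 202) (nat_lit 192)) (PT.lf (nat_lit 28500) (nat_lit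 6) (nat_lit 375) (nat_lit 0) (nat_lit 207) (nat_lit 202) (nat_lit 191))) (PT.nd (nat_lit 78) (PT.lf (nat_lit 27740) (nat_lit 6) (nat_lit 365) (nat_lit 0) (nat_lit 208) (nat_lit 202) (nat_lit 190)) (PT.nd (nat_lit 78) (PT.lf (nat_lit 26904) (nat_lit 6) (nat_lit 354) (nat_lit 0) (nat_lit 209) (nat_lit 202) (nat_lit 189)) (PT.lf (nat_lit 25992) (nat_lit 6) (nat_lit 342) (nat_lit 0) (nat_lit 210) (nat_lit 202) (nat_lit 188))))))) (PT.nd (nat_lit 60216) (PT.nd (nat_lit 312) (PT.nd (nat_lit 156) (PT.nd (nat_lit 78) (PT.lf (nat_lit 25004) (nat_lit 6) (nat_lit 329) (nat_lit 0) (nat_lit 211) (nat_lit 202) (nat_lit 187)) (PT.lf (nat_lit 23940) (nat_lit 6) (nat_lit 315) (nat_lit 0) (nat_lit 212) (nat_lit 202) (nat_lit 186))) (PT.nd (nat_lit 78) (PT.lf (nat_lit 22800) (nat_lit 6) (nat_lit 300) (nat_lit 0) (nat_lit 213) (nat_lit 202) (nat_lit 185)) (PT.lf (nat_lit 21584) (nat_lit 6) (nat_lit 284) (nat_lit 0) (nat_lit 214) (nat_lit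 202) (nat_lit 184)))) (PT.nd (nat_lit 156) (PT.nd (nat_lit 78) (PT.lf (nat_lit 20292) (nat_lit 6) (nat_lit 267) (nat_lit 0) (nat_lit 215) (nat_lit 202) (nat_lit 183)) (PT.lf (nat_lit 19456) (nat_lit 6) (nat_lit 256) (nat_lit 0) (nat_lit 216) (nat_lit 202) (nat_lit 182))) (PT.nd (nat_lit 59592) (PT.lf (nat_lit 18772) (nat_lit 6) (nat_lit 247) (nat_lit 0) (nat_lit 217) (nat_lit 202) (nat_lit 181)) (PT.nd (nat_lit 78) (PT.lf (nat_lit 18164) (nat_lit 6) (nat_lit 239) (nat_lit 5) (nat_lit 180) (nat_lit 203) (nat_lit 217)) (PT.lf (nat_lit 18848) (nat_lit 6) (nat_lit 248) (nat_lit 5) (nat_lit 181) (nat_lit 203) (nat_lit 216)))))) (PT.nd (nat_lit 390) (PT.nd (nat_lit 156) (PT.nd (nat_lit 78) (PT.lf (nat_lit 19532) (nat_lit 6) (nat_lit 257) (nat_lit 5) (nat_lit 182) (nat_lit 203) (nat_lit 215)) (PT.lf (nat_lit 20368) (nat_lit 6) (nat_lit 268) (nat_lit 5) (nat_lit 183) (nat_lit 203) (nat_lit 214))) (PT.nd (nat_lit 78) (PT.lf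 (nat_lit 21660) (nat_lit 6) (nat_lit 285) (nat_lit 5) (nat_lit 184) (nat_lit 203) (nat_lit 213)) (PT.nd (nat_lit 78) (PT.lf (nat_lit 22876) (nat_lit 6) (nat_lit 301) (nat_lit 5) (nat_lit 185) (nat_lit 203) (nat_lit 212)) (PT.lf (nat_lit 24016) (nat_lit 6) (nat_lit 316) (nat_lit 5) (nat_lit 186) (nat_lit 203) (nat_lit 211))))) (PT.nd (nat_lit 156) (PT.nd (nat_lit 78) (PT.lf (nat_lit 25080) (nat_lit 6) (nat_lit 330) (nat_lit 5) (nat_lit 187) (nat_lit 203) (nat_lit 210)) (PT.lf (nat_lit 26068) (nat_lit 6) (nat_lit 343) (nat_lit 5) (nat_lit 188) (nat_lit 203) (nat_lit 209))) (PT.nd (nat_lit 78) (PT.lf (nat_lit 26980) (nat_lit 6) (nat_lit 355) (nat_lit 5) (nat_lit 189) (nat_lit 203) (nat_lit 208)) (PT.nd (nat_lit 78) (PT.lf (nat_lit 27816) (nat_lit 6) (nat_lit 366) (nat_lit 5) (nat_lit 190) (nat_lit 203) (nat_lit 207)) (PT.lf (nat_lit 28576) (nat_lit 6) (nat_lit 376) (nat_lit 5) (nat_lit 191) (nat_lit 203) (nat_lit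 206))))))))
noncomputable def pc28 : PT := (PT.nd (nat_lit 1404) (PT.nd (nat_lit 702) (PT.nd (nat_lit 312) (PT.nd (nat_lit 156) (PT.nd (nat_lit 78) (PT.lf (nat_lit 29260) (nat_lit 6) (nat_lit 385) (nat_lit 5) (nat_lit 192) (nat_lit 203) (nat_lit 205)) (PT.lf (nat_lit 29868) (nat_lit 6) (nat_lit 393) (nat_lit 5) (nat_lit 193) (nat_lit 203) (nat_lit 204))) (PT.nd (nat_lit 78) (PT.lf (nat_lit 30400) (nat_lit 3) (nat_lit 400) (nat_lit 4) (nat_lit 194) (nat_lit 203) (nat_lit 203)) (PT.lf (nat_lit 30780) (nat_lit 6) (nat_lit 405) (nat_lit 4) (nat_lit 195) (nat_lit 203) (nat_lit 202)))) (PT.nd (nat_lit 156) (PT.nd (nat_lit 78) (PT.lf (nat_lit 31084) (nat_lit 6) (nat_lit 409) (nat_lit 4) (nat_lit 196) (nat_lit 203) (nat_lit 201)) (PT.lf (nat_lit 31312) (nat_lit 6) (nat_lit 412) (nat_lit 4) (nat_lit 197) (nat_lit 203) (nat_lit 200))) (PT.nd (nat_lit 78) (PT.lf (nat_lit 31236) (nat_lit 6) (nat_lit 411) (nat_lit 4) (nat_lit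 198) (nat_lit 203) (nat_lit 199)) (PT.nd (nat_lit 78) (PT.lf (nat_lit 31236) (nat_lit 6) (nat_lit 411) (nat_lit 2) (nat_lit 199) (nat_lit 203) (nat_lit 198)) (PT.lf (nat_lit 31312) (nat_lit 6) (nat_lit 412) (nat_lit 2) (nat_lit 200) (nat_lit 203) (nat_lit 197)))))) (PT.nd (nat_lit 312) (PT.nd (nat_lit 156) (PT.nd (nat_lit 78) (PT.lf (nat_lit 31084) (nat_lit 6) (nat_lit 409) (nat_lit 2) (nat_lit 201) (nat_lit 203) (nat_lit 196)) (PT.lf (nat_lit 30780) (nat_lit 6) (nat_lit 405) (nat_lit 2) (nat_lit 202) (nat_lit 203) (nat_lit 195))) (PT.nd (nat_lit 78) (PT.lf (nat_lit 30400) (nat_lit 3) (nat_lit 400) (nat_lit 0) (nat_lit 203) (nat_lit 203) (nat_lit 194)) (PT.lf (nat_lit 29868) (nat_lit 6) (nat_lit 393) (nat_lit 0) (nat_lit 204) (nat_lit 203) (nat_lit 193)))) (PT.nd (nat_lit 156) (PT.nd (nat_lit 78) (PT.lf (nat_lit 29260) (nat_lit 6) (nat_lit 385) (nat_lit 0) (nat_lit 205) (nat_lit 203) (nat_lit 192)) (PT.lf (nat_lit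 28576) (nat_lit 6) (nat_lit 376) (nat_lit 0) (nat_lit 206) (nat_lit 203) (nat_lit 191))) (PT.nd (nat_lit 78) (PT.lf (nat_lit 27816) (nat_lit 6) (nat_lit 366) (nat_lit 0) (nat_lit 207) (nat_lit 203) (nat_lit 190)) (PT.nd (nat_lit 78) (PT.lf (nat_lit 26980) (nat_lit 6) (nat_lit 355) (nat_lit 0) (nat_lit 208) (nat_lit 203) (nat_lit 189)) (PT.lf (nat_lit 26068) (nat_lit 6) (nat_lit 343) (nat_lit 0) (nat_lit 209) (nat_lit 203) (nat_lit 188))))))) (PT.nd (nat_lit 60060) (PT.nd (nat_lit 312) (PT.nd (nat_lit 156) (PT.nd (nat_lit 78) (PT.lf (nat_lit 25080) (nat_lit 6) (nat_lit 330) (nat_lit 0) (nat_lit 210) (nat_lit 203) (nat_lit 187)) (PT.lf (nat_lit 24016) (nat_lit 6) (nat_lit 316) (nat_lit 0) (nat_lit 211) (nat_lit 203) (nat_lit 186))) (PT.nd (nat_lit 78) (PT.lf (nat_lit 22876) (nat_lit 6) (nat_lit 301) (nat_lit 0) (nat_lit 212) (nat_lit 203) (nat_lit 185)) (PT.lf (nat_lit 21660) (nat_lit 6) (nat_lit 285) (nat_lit 0)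 (nat_lit 213) (nat_lit 203) (nat_lit 184)))) (PT.nd (nat_lit 156) (PT.nd (nat_lit 78) (PT.lf (nat_lit 20368) (nat_lit 6) (nat_lit 268) (nat_lit 0) (nat_lit 214) (nat_lit 203) (nat_lit 183)) (PT.lf (nat_lit 19532) (nat_lit 6) (nat_lit 257) (nat_lit 0) (nat_lit 215) (nat_lit 203) (nat_lit 182))) (PT.nd (nat_lit 78) (PT.lf (nat_lit 18848) (nat_lit 6) (nat_lit 248) (nat_lit 0) (nat_lit 216) (nat_lit 203) (nat_lit 181)) (PT.nd (nat_lit 59436) (PT.lf (nat_lit 18164) (nat_lit 6) (nat_lit 239) (nat_lit 0) (nat_lit 217) (nat_lit 203) (nat_lit 180)) (PT.lf (nat_lit 17024) (nat_lit 6) (nat_lit 224) (nat_lit 5) (nat_lit 178) (nat_lit 204) (nat_lit 218)))))) (PT.nd (nat_lit 312) (PT.nd (nat_lit 156) (PT.nd (nat_lit 78) (PT.lf (nat_lit 17632) (nat_lit 6) (nat_lit 232) (nat_lit 5) (nat_lit 179) (nat_lit 204) (nat_lit 217)) (PT.lf (nat_lit 18240) (nat_lit 6) (nat_lit 240) (nat_lit 5) (nat_lit 180) (nat_lit 204) (nat_lit 216)))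 (PT.nd (nat_lit 78) (PT.lf (nat_lit 18924) (nat_lit 6) (nat_lit 249) (nat_lit 5) (nat_lit 181) (nat_lit 204) (nat_lit 215)) (PT.lf (nat_lit 19608) (nat_lit 6) (nat_lit 258) (nat_lit 5) (nat_lit 182) (nat_lit 204) (nat_lit 214)))) (PT.nd (nat_lit 156) (PT.nd (nat_lit 78) (PT.lf (nat_lit 20444) (nat_lit 6) (nat_lit 269) (nat_lit 5) (nat_lit 183) (nat_lit 204) (nat_lit 213)) (PT.lf (nat_lit 21736) (nat_lit 6) (nat_lit 286) (nat_lit 5) (nat_lit 184) (nat_lit 204) (nat_lit 212))) (PT.nd (nat_lit 78) (PT.lf (nat_lit 22952) (nat_lit 6) (nat_lit 302) (nat_lit 5) (nat_lit 185) (nat_lit 204) (nat_lit 211)) (PT.nd (nat_lit 78) (PT.lf (nat_lit 24092) (nat_lit 6) (nat_lit 317) (nat_lit 5) (nat_lit 186) (nat_lit 204) (nat_lit 210)) (PT.lf (nat_lit 25156) (nat_lit 6) (nat_lit 331) (nat_lit 5) (nat_lit 187) (nat_lit 204) (nat_lit 209))))))))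
noncomputable def pc29 : PT := (PT.nd (nat_lit 1404) (PT.nd (nat_lit 702) (PT.nd (nat_lit 312) (PT.nd (nat_lit 156) (PT.nd (nat_lit 78) (PT.lf (nat_lit 26144) (nat_lit 6) (nat_lit 344) (nat_lit 5) (nat_lit 188) (nat_lit 204) (nat_lit 208)) (PT.lf (nat_lit 27056) (nat_lit 6) (nat_lit 356) (nat_lit 5) (nat_lit 189) (nat_lit 204) (nat_lit 207))) (PT.nd (nat_lit 78) (PT.lf (nat_lit 27892) (nat_lit 6) (nat_lit 367) (nat_lit 5) (nat_lit 190) (nat_lit 204) (nat_lit 206)) (PT.lf (nat_lit 28652) (nat_lit 6) (nat_lit 377) (nat_lit 5) (nat_lit 191) (nat_lit 204) (nat_lit 205)))) (PT.nd (nat_lit 156) (PT.nd (nat_lit 78) (PT.lf (nat_lit 29336) (nat_lit 3) (nat_lit 386) (nat_lit 4) (nat_lit 192) (nat_lit 204) (nat_lit 204)) (PT.lf (nat_lit 29868) (nat_lit 6) (nat_lit 393) (nat_lit 4) (nat_lit 193) (nat_lit 204) (nat_lit 203))) (PT.nd (nat_lit 78) (PT.lf (nat_lit 30324) (nat_lit 6) (nat_lit 399) (nat_lit 4) (nat_lit 194) (nat_lit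 204) (nat_lit 202)) (PT.nd (nat_lit 78) (PT.lf (nat_lit 30704) (nat_lit 6) (nat_lit 404) (nat_lit 4) (nat_lit 195) (nat_lit 204) (nat_lit 201)) (PT.lf (nat_lit 31008) (nat_lit 6) (nat_lit 408) (nat_lit 4) (nat_lit 196) (nat_lit 204) (nat_lit 200)))))) (PT.nd (nat_lit 312) (PT.nd (nat_lit 156) (PT.nd (nat_lit 78) (PT.lf (nat_lit 30932) (nat_lit 6) (nat_lit 407) (nat_lit 4) (nat_lit 197) (nat_lit 204) (nat_lit 199)) (PT.lf (nat_lit 30856) (nat_lit 3) (nat_lit 406) (nat_lit 2) (nat_lit 198) (nat_lit 204) (nat_lit 198))) (PT.nd (nat_lit 78) (PT.lf (nat_lit 30932) (nat_lit 6) (nat_lit 407) (nat_lit 2) (nat_lit 199) (nat_lit 204) (nat_lit 197)) (PT.lf (nat_lit 31008) (nat_lit 6) (nat_lit 408) (nat_lit 2) (nat_lit 200) (nat_lit 204) (nat_lit 196)))) (PT.nd (nat_lit 156) (PT.nd (nat_lit 78) (PT.lf (nat_lit 30704) (nat_lit 6) (nat_lit 404) (nat_lit 2) (nat_lit 201) (nat_lit 204) (nat_lit 195)) (PT.lf (nat_lit 30324) (nat_lit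 6) (nat_lit 399) (nat_lit 2) (nat_lit 202) (nat_lit 204) (nat_lit 194))) (PT.nd (nat_lit 78) (PT.lf (nat_lit 29868) (nat_lit 6) (nat_lit 393) (nat_lit 2) (nat_lit 203) (nat_lit 204) (nat_lit 193)) (PT.nd (nat_lit 78) (PT.lf (nat_lit 29336) (nat_lit 3) (nat_lit 386) (nat_lit 0) (nat_lit 204) (nat_lit 204) (nat_lit 192)) (PT.lf (nat_lit 28652) (nat_lit 6) (nat_lit 377) (nat_lit 0) (nat_lit 205) (nat_lit 204) (nat_lit 191))))))) (PT.nd (nat_lit 702) (PT.nd (nat_lit 312) (PT.nd (nat_lit 156) (PT.nd (nat_lit 78) (PT.lf (nat_lit 27892) (nat_lit 6) (nat_lit 367) (nat_lit 0) (nat_lit 206) (nat_lit 204) (nat_lit 190)) (PT.lf (nat_lit 27056) (nat_lit 6) (nat_lit 356) (nat_lit 0) (nat_lit 207) (nat_lit 204) (nat_lit 189))) (PT.nd (nat_lit 78) (PT.lf (nat_lit 26144) (nat_lit 6) (nat_lit 344) (nat_lit 0) (nat_lit 208) (nat_lit 204) (nat_lit 188)) (PT.lf (nat_lit 25156) (nat_lit 6) (nat_lit 331) (nat_lit 0) (nat_lit 209) (nat_lit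 204) (nat_lit 187)))) (PT.nd (nat_lit 156) (PT.nd (nat_lit 78) (PT.lf (nat_lit 24092) (nat_lit 6) (nat_lit 317) (nat_lit 0) (nat_lit 210) (nat_lit 204) (nat_lit 186)) (PT.lf (nat_lit 22952) (nat_lit 6) (nat_lit 302) (nat_lit 0) (nat_lit 211) (nat_lit 204) (nat_lit 185))) (PT.nd (nat_lit 78) (PT.lf (nat_lit 21736) (nat_lit 6) (nat_lit 286) (nat_lit 0) (nat_lit 212) (nat_lit 204) (nat_lit 184)) (PT.nd (nat_lit 78) (PT.lf (nat_lit 20444) (nat_lit 6) (nat_lit 269) (nat_lit 0) (nat_lit 213) (nat_lit 204) (nat_lit 183)) (PT.lf (nat_lit 19608) (nat_lit 6) (nat_lit 258) (nat_lit 0) (nat_lit 214) (nat_lit 204) (nat_lit 182)))))) (PT.nd (nat_lit 59514) (PT.nd (nat_lit 156) (PT.nd (nat_lit 78) (PT.lf (nat_lit 18924) (nat_lit 6) (nat_lit 249) (nat_lit 0) (nat_lit 215) (nat_lit 204) (nat_lit 181)) (PT.lf (nat_lit 18240) (nat_lit 6) (nat_lit 240) (nat_lit 0) (nat_lit 216) (nat_lit 204) (nat_lit 180))) (PT.nd (nat_lit 78) (PT.lf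 (nat_lit 17632) (nat_lit 6) (nat_lit 232) (nat_lit 0) (nat_lit 217) (nat_lit 204) (nat_lit 179)) (PT.lf (nat_lit 17024) (nat_lit 6) (nat_lit 224) (nat_lit 0) (nat_lit 218) (nat_lit 204) (nat_lit 178)))) (PT.nd (nat_lit 156) (PT.nd (nat_lit 78) (PT.lf (nat_lit 16492) (nat_lit 6) (nat_lit 217) (nat_lit 5) (nat_lit 177) (nat_lit 205) (nat_lit 218)) (PT.lf (nat_lit 17100) (nat_lit 6) (nat_lit 225) (nat_lit 5) (nat_lit 178) (nat_lit 205) (nat_lit 217))) (PT.nd (nat_lit 78) (PT.lf (nat_lit 17708) (nat_lit 6) (nat_lit 233) (nat_lit 5) (nat_lit 179) (nat_lit 205) (nat_lit 216)) (PT.nd (nat_lit 78) (PT.lf (nat_lit 18316) (nat_lit 6) (nat_lit 241) (nat_lit 5) (nat_lit 180) (nat_lit 205) (nat_lit 215)) (PT.lf (nat_lit 19000) (nat_lit 6) (nat_lit 250) (nat_lit 5) (nat_lit 181) (nat_lit 205) (nat_lit 214))))))))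
noncomputable def pc30 : PT := (PT.nd (nat_lit 1404) (PT.nd (nat_lit 702) (PT.nd (nat_lit 312) (PT.nd (nat_lit 156) (PT.nd (nat_lit 78) (PT.lf (nat_lit 19684) (nat_lit 6) (nat_lit 259) (nat_lit 5) (nat_lit 182) (nat_lit 205) (nat_lit 213)) (PT.lf (nat_lit 20520) (nat_lit 6) (nat_lit 270) (nat_lit 5) (nat_lit 183) (nat_lit 205) (nat_lit 212))) (PT.nd (nat_lit 78) (PT.lf (nat_lit 21812) (nat_lit 6) (nat_lit 287) (nat_lit 5) (nat_lit 184) (nat_lit 205) (nat_lit 211)) (PT.lf (nat_lit 23028) (nat_lit 6) (nat_lit 303) (nat_lit 5) (nat_lit 185) (nat_lit 205) (nat_lit 210)))) (PT.nd (nat_lit 156) (PT.nd (nat_lit 78) (PT.lf (nat_lit 24168) (nat_lit 6) (nat_lit 318) (nat_lit 5) (nat_lit 186) (nat_lit 205) (nat_lit 209)) (PT.lf (nat_lit 25232) (nat_lit 6) (nat_lit 332) (nat_lit 5) (nat_lit 187) (nat_lit 205) (nat_lit 208))) (PT.nd (nat_lit 78) (PT.lf (nat_lit 26220) (nat_lit 6) (nat_lit 345) (nat_lit 5) (nat_lit 188) (nat_lit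 205) (nat_lit 207)) (PT.nd (nat_lit 78) (PT.lf (nat_lit 27132) (nat_lit 6) (nat_lit 357) (nat_lit 5) (nat_lit 189) (nat_lit 205) (nat_lit 206)) (PT.lf (nat_lit 27968) (nat_lit 3) (nat_lit 368) (nat_lit 4) (nat_lit 190) (nat_lit 205) (nat_lit 205)))))) (PT.nd (nat_lit 312) (PT.nd (nat_lit 156) (PT.nd (nat_lit 78) (PT.lf (nat_lit 28652) (nat_lit 6) (nat_lit 377) (nat_lit 4) (nat_lit 191) (nat_lit 205) (nat_lit 204)) (PT.lf (nat_lit 29260) (nat_lit 6) (nat_lit 385) (nat_lit 4) (nat_lit 192) (nat_lit 205) (nat_lit 203))) (PT.nd (nat_lit 78) (PT.lf (nat_lit 29792) (nat_lit 6) (nat_lit 392) (nat_lit 4) (nat_lit 193) (nat_lit 205) (nat_lit 202)) (PT.lf (nat_lit 30248) (nat_lit 6) (nat_lit 398) (nat_lit 4) (nat_lit 194) (nat_lit 205) (nat_lit 201)))) (PT.nd (nat_lit 156) (PT.nd (nat_lit 78) (PT.lf (nat_lit 30628) (nat_lit 6) (nat_lit 403) (nat_lit 4) (nat_lit 195) (nat_lit 205) (nat_lit 200)) (PT.lf (nat_lit 30552) (nat_lit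 6) (nat_lit 402) (nat_lit 4) (nat_lit 196) (nat_lit 205) (nat_lit 199))) (PT.nd (nat_lit 78) (PT.lf (nat_lit 30476) (nat_lit 6) (nat_lit 401) (nat_lit 4) (nat_lit 197) (nat_lit 205) (nat_lit 198)) (PT.nd (nat_lit 78) (PT.lf (nat_lit 30476) (nat_lit 6) (nat_lit 401) (nat_lit 2) (nat_lit 198) (nat_lit 205) (nat_lit 197)) (PT.lf (nat_lit 30552) (nat_lit 6) (nat_lit 402) (nat_lit 2) (nat_lit 199) (nat_lit 205) (nat_lit 196))))))) (PT.nd (nat_lit 702) (PT.nd (nat_lit 312) (PT.nd (nat_lit 156) (PT.nd (nat_lit 78) (PT.lf (nat_lit 30628) (nat_lit 6) (nat_lit 403) (nat_lit 2) (nat_lit 200) (nat_lit 205) (nat_lit 195)) (PT.lf (nat_lit 30248) (nat_lit 6) (nat_lit 398) (nat_lit 2) (nat_lit 201) (nat_lit 205) (nat_lit 194))) (PT.nd (nat_lit 78) (PT.lf (nat_lit 29792) (nat_lit 6) (nat_lit 392) (nat_lit 2) (nat_lit 202) (nat_lit 205) (nat_lit 193)) (PT.lf (nat_lit 29260) (nat_lit 6) (nat_lit 385) (nat_lit 2) (nat_lit 203) (nat_lit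 205) (nat_lit 192)))) (PT.nd (nat_lit 156) (PT.nd (nat_lit 78) (PT.lf (nat_lit 28652) (nat_lit 6) (nat_lit 377) (nat_lit 2) (nat_lit 204) (nat_lit 205) (nat_lit 191)) (PT.lf (nat_lit 27968) (nat_lit 3) (nat_lit 368) (nat_lit 0) (nat_lit 205) (nat_lit 205) (nat_lit 190))) (PT.nd (nat_lit 78) (PT.lf (nat_lit 27132) (nat_lit 6) (nat_lit 357) (nat_lit 0) (nat_lit 206) (nat_lit 205) (nat_lit 189)) (PT.nd (nat_lit 78) (PT.lf (nat_lit 26220) (nat_lit 6) (nat_lit 345) (nat_lit 0) (nat_lit 207) (nat_lit 205) (nat_lit 188)) (PT.lf (nat_lit 25232) (nat_lit 6) (nat_lit 332) (nat_lit 0) (nat_lit 208) (nat_lit 205) (nat_lit 187)))))) (PT.nd (nat_lit 312) (PT.nd (nat_lit 156) (PT.nd (nat_lit 78) (PT.lf (nat_lit 24168) (nat_lit 6) (nat_lit 318) (nat_lit 0) (nat_lit 209) (nat_lit 205) (nat_lit 186)) (PT.lf (nat_lit 23028) (nat_lit 6) (nat_lit 303) (nat_lit 0) (nat_lit 210) (nat_lit 205) (nat_lit 185))) (PT.nd (nat_lit 78) (PT.lf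 (nat_lit 21812) (nat_lit 6) (nat_lit 287) (nat_lit 0) (nat_lit 211) (nat_lit 205) (nat_lit 184)) (PT.lf (nat_lit 20520) (nat_lit 6) (nat_lit 270) (nat_lit 0) (nat_lit 212) (nat_lit 205) (nat_lit 183)))) (PT.nd (nat_lit 156) (PT.nd (nat_lit 78) (PT.lf (nat_lit 19684) (nat_lit 6) (nat_lit 259) (nat_lit 0) (nat_lit 213) (nat_lit 205) (nat_lit 182)) (PT.lf (nat_lit 19000) (nat_lit 6) (nat_lit 250) (nat_lit 0) (nat_lit 214) (nat_lit 205) (nat_lit 181))) (PT.nd (nat_lit 78) (PT.lf (nat_lit 18316) (nat_lit 6) (nat_lit 241) (nat_lit 0) (nat_lit 215) (nat_lit 205) (nat_lit 180)) (PT.nd (nat_lit 78) (PT.lf (nat_lit 17708) (nat_lit 6) (nat_lit 233) (nat_lit 0) (nat_lit 216) (nat_lit 205) (nat_lit 179)) (PT.lf (nat_lit 17100) (nat_lit 6) (nat_lit 225) (nat_lit 0) (nat_lit 217) (nat_lit 205) (nat_lit 178))))))))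
noncomputable def pc31 : PT := (PT.nd (nat_lit 60528) (PT.nd (nat_lit 59826) (PT.nd (nat_lit 59436) (PT.nd (nat_lit 59280) (PT.nd (nat_lit 59202) (PT.lf (nat_lit 16492) (nat_lit 6) (nat_lit 217) (nat_lit 0) (nat_lit 218) (nat_lit 205) (nat_lit 177)) (PT.lf (nat_lit 15960) (nat_lit 6) (nat_lit 210) (nat_lit 5) (nat_lit 176) (nat_lit 206) (nat_lit 218))) (PT.nd (nat_lit 78) (PT.lf (nat_lit 16568) (nat_lit 6) (nat_lit 218) (nat_lit 5) (nat_lit 177) (nat_lit 206) (nat_lit 217)) (PT.lf (nat_lit 17176) (nat_lit 6) (nat_lit 226) (nat_lit 5) (nat_lit 178) (nat_lit 206) (nat_lit 216)))) (PT.nd (nat_lit 156) (PT.nd (nat_lit 78) (PT.lf (nat_lit 17784) (nat_lit 6) (nat_lit 234) (nat_lit 5) (nat_lit 179) (nat_lit 206) (nat_lit 215)) (PT.lf (nat_lit 18392) (nat_lit 6) (nat_lit 242) (nat_lit 5) (nat_lit 180) (nat_lit 206) (nat_lit 214))) (PT.nd (nat_lit 78) (PT.lf (nat_lit 19076) (nat_lit 6) (nat_lit 251) (nat_lit 5) (nat_lit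 181) (nat_lit 206) (nat_lit 213)) (PT.nd (nat_lit 78) (PT.lf (nat_lit 19760) (nat_lit 6) (nat_lit 260) (nat_lit 5) (nat_lit 182) (nat_lit 206) (nat_lit 212)) (PT.lf (nat_lit 20596) (nat_lit 6) (nat_lit 271) (nat_lit 5) (nat_lit 183) (nat_lit 206) (nat_lit 211)))))) (PT.nd (nat_lit 312) (PT.nd (nat_lit 156) (PT.nd (nat_lit 78) (PT.lf (nat_lit 21888) (nat_lit 6) (nat_lit 288) (nat_lit 5) (nat_lit 184) (nat_lit 206) (nat_lit 210)) (PT.lf (nat_lit 23104) (nat_lit 6) (nat_lit 304) (nat_lit 5) (nat_lit 185) (nat_lit 206) (nat_lit 209))) (PT.nd (nat_lit 78) (PT.lf (nat_lit 24244) (nat_lit 6) (nat_lit 319) (nat_lit 5) (nat_lit 186) (nat_lit 206) (nat_lit 208)) (PT.lf (nat_lit 25308) (nat_lit 6) (nat_lit 333) (nat_lit 5) (nat_lit 187) (nat_lit 206) (nat_lit 207)))) (PT.nd (nat_lit 156) (PT.nd (nat_lit 78) (PT.lf (nat_lit 26296) (nat_lit 3) (nat_lit 346) (nat_lit 4) (nat_lit 188) (nat_lit 206) (nat_lit 206)) (PT.lf (nat_lit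 27132) (nat_lit 6) (nat_lit 357) (nat_lit 4) (nat_lit 189) (nat_lit 206) (nat_lit 205))) (PT.nd (nat_lit 78) (PT.lf (nat_lit 27892) (nat_lit 6) (nat_lit 367) (nat_lit 4) (nat_lit 190) (nat_lit 206) (nat_lit 204)) (PT.nd (nat_lit 78) (PT.lf (nat_lit 28576) (nat_lit 6) (nat_lit 376) (nat_lit 4) (nat_lit 191) (nat_lit 206) (nat_lit 203)) (PT.lf (nat_lit 29184) (nat_lit 6) (nat_lit 384) (nat_lit 4) (nat_lit 192) (nat_lit 206) (nat_lit 202))))))) (PT.nd (nat_lit 702) (PT.nd (nat_lit 312) (PT.nd (nat_lit 156) (PT.nd (nat_lit 78) (PT.lf (nat_lit 29716) (nat_lit 6) (nat_lit 391) (nat_lit 4) (nat_lit 193) (nat_lit 206) (nat_lit 201)) (PT.lf (nat_lit 30172) (nat_lit 6) (nat_lit 397) (nat_lit 4) (nat_lit 194) (nat_lit 206) (nat_lit 200))) (PT.nd (nat_lit 78) (PT.lf (nat_lit 30096) (nat_lit 6) (nat_lit 396) (nat_lit 4) (nat_lit 195) (nat_lit 206) (nat_lit 199)) (PT.lf (nat_lit 30020) (nat_lit 6) (nat_lit 395) (nat_lit 4) (nat_lit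 196) (nat_lit 206) (nat_lit 198)))) (PT.nd (nat_lit 156) (PT.nd (nat_lit 78) (PT.lf (nat_lit 29944) (nat_lit 3) (nat_lit 394) (nat_lit 2) (nat_lit 197) (nat_lit 206) (nat_lit 197)) (PT.lf (nat_lit 30020) (nat_lit 6) (nat_lit 395) (nat_lit 2) (nat_lit 198) (nat_lit 206) (nat_lit 196))) (PT.nd (nat_lit 78) (PT.lf (nat_lit 30096) (nat_lit 6) (nat_lit 396) (nat_lit 2) (nat_lit 199) (nat_lit 206) (nat_lit 195)) (PT.nd (nat_lit 78) (PT.lf (nat_lit 30172) (nat_lit 6) (nat_lit 397) (nat_lit 2) (nat_lit 200) (nat_lit 206) (nat_lit 194)) (PT.lf (nat_lit 29716) (nat_lit 6) (nat_lit 391) (nat_lit 2) (nat_lit 201) (nat_lit 206) (nat_lit 193)))))) (PT.nd (nat_lit 390) (PT.nd (nat_lit 156) (PT.nd (nat_lit 78) (PT.lf (nat_lit 29184) (nat_lit 6) (nat_lit 384) (nat_lit 2) (nat_lit 202) (nat_lit 206) (nat_lit 192)) (PT.lf (nat_lit 28576) (nat_lit 6) (nat_lit 376) (nat_lit 2) (nat_lit 203) (nat_lit 206) (nat_lit 191))) (PT.nd (nat_lit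 78) (PT.lf (nat_lit 27892) (nat_lit 6) (nat_lit 367) (nat_lit 2) (nat_lit 204) (nat_lit 206) (nat_lit 190)) (PT.nd (nat_lit 78) (PT.lf (nat_lit 27132) (nat_lit 6) (nat_lit 357) (nat_lit 2) (nat_lit 205) (nat_lit 206) (nat_lit 189)) (PT.lf (nat_lit 26296) (nat_lit 3) (nat_lit 346) (nat_lit 0) (nat_lit 206) (nat_lit 206) (nat_lit 188))))) (PT.nd (nat_lit 156) (PT.nd (nat_lit 78) (PT.lf (nat_lit 25308) (nat_lit 6) (nat_lit 333) (nat_lit 0) (nat_lit 207) (nat_lit 206) (nat_lit 187)) (PT.lf (nat_lit 24244) (nat_lit 6) (nat_lit 319) (nat_lit 0) (nat_lit 208) (nat_lit 206) (nat_lit 186))) (PT.nd (nat_lit 78) (PT.lf (nat_lit 23104) (nat_lit 6) (nat_lit 304) (nat_lit 0) (nat_lit 209) (nat_lit 206) (nat_lit 185)) (PT.nd (nat_lit 78) (PT.lf (nat_lit 21888) (nat_lit 6) (nat_lit 288) (nat_lit 0) (nat_lit 210) (nat_lit 206) (nat_lit 184)) (PT.lf (nat_lit 20596) (nat_lit 6) (nat_lit 271) (nat_lit 0) (nat_lit 211) (nat_lit 206)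 (nat_lit 183))))))))
noncomputable def pc32 : PT := (PT.nd (nat_lit 60372) (PT.nd (nat_lit 59670) (PT.nd (nat_lit 312) (PT.nd (nat_lit 156) (PT.nd (nat_lit 78) (PT.lf (nat_lit 19760) (nat_lit 6) (nat_lit 260) (nat_lit 0) (nat_lit 212) (nat_lit 206) (nat_lit 182)) (PT.lf (nat_lit 19076) (nat_lit 6) (nat_lit 251) (nat_lit 0) (nat_lit 213) (nat_lit 206) (nat_lit 181))) (PT.nd (nat_lit 78) (PT.lf (nat_lit 18392) (nat_lit 6) (nat_lit 242) (nat_lit 0) (nat_lit 214) (nat_lit 206) (nat_lit 180)) (PT.lf (nat_lit 17784) (nat_lit 6) (nat_lit 234) (nat_lit 0) (nat_lit 215) (nat_lit 206) (nat_lit 179)))) (PT.nd (nat_lit 156) (PT.nd (nat_lit 78) (PT.lf (nat_lit 17176) (nat_lit 6) (nat_lit 226) (nat_lit 0) (nat_lit 216) (nat_lit 206) (nat_lit 178)) (PT.lf (nat_lit 16568) (nat_lit 6) (nat_lit 218) (nat_lit 0) (nat_lit 217) (nat_lit 206) (nat_lit 177))) (PT.nd (nat_lit 59046) (PT.lf (nat_lit 15960) (nat_lit 6) (nat_lit 210) (nat_lit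 0) (nat_lit 218) (nat_lit 206) (nat_lit 176)) (PT.nd (nat_lit 78) (PT.lf (nat_lit 14972) (nat_lit 6) (nat_lit 197) (nat_lit 5) (nat_lit 174) (nat_lit 207) (nat_lit 219)) (PT.lf (nat_lit 15504) (nat_lit 6) (nat_lit 204) (nat_lit 5) (nat_lit 175) (nat_lit 207) (nat_lit 218)))))) (PT.nd (nat_lit 312) (PT.nd (nat_lit 156) (PT.nd (nat_lit 78) (PT.lf (nat_lit 16036) (nat_lit 6) (nat_lit 211) (nat_lit 5) (nat_lit 176) (nat_lit 207) (nat_lit 217)) (PT.lf (nat_lit 16644) (nat_lit 6) (nat_lit 219) (nat_lit 5) (nat_lit 177) (nat_lit 207) (nat_lit 216))) (PT.nd (nat_lit 78) (PT.lf (nat_lit 17252) (nat_lit 6) (nat_lit 227) (nat_lit 5) (nat_lit 178) (nat_lit 207) (nat_lit 215)) (PT.lf (nat_lit 17860) (nat_lit 6) (nat_lit 235) (nat_lit 5) (nat_lit 179) (nat_lit 207) (nat_lit 214)))) (PT.nd (nat_lit 156) (PT.nd (nat_lit 78) (PT.lf (nat_lit 18468) (nat_lit 6) (nat_lit 243) (nat_lit 5) (nat_lit 180) (nat_lit 207) (nat_lit 213))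 (PT.lf (nat_lit 19152) (nat_lit 6) (nat_lit 252) (nat_lit 5) (nat_lit 181) (nat_lit 207) (nat_lit 212))) (PT.nd (nat_lit 78) (PT.lf (nat_lit 19836) (nat_lit 6) (nat_lit 261) (nat_lit 5) (nat_lit 182) (nat_lit 207) (nat_lit 211)) (PT.nd (nat_lit 78) (PT.lf (nat_lit 20672) (nat_lit 6) (nat_lit 272) (nat_lit 5) (nat_lit 183) (nat_lit 207) (nat_lit 210)) (PT.lf (nat_lit 21964) (nat_lit 6) (nat_lit 289) (nat_lit 5) (nat_lit 184) (nat_lit 207) (nat_lit 209))))))) (PT.nd (nat_lit 702) (PT.nd (nat_lit 312) (PT.nd (nat_lit 156) (PT.nd (nat_lit 78) (PT.lf (nat_lit 23180) (nat_lit 6) (nat_lit 305) (nat_lit 5) (nat_lit 185) (nat_lit 207) (nat_lit 208)) (PT.lf (nat_lit 24320) (nat_lit 3) (nat_lit 320) (nat_lit 4) (nat_lit 186) (nat_lit 207) (nat_lit 207))) (PT.nd (nat_lit 78) (PT.lf (nat_lit 25308) (nat_lit 6) (nat_lit 333) (nat_lit 4) (nat_lit 187) (nat_lit 207) (nat_lit 206)) (PT.lf (nat_lit 26220) (nat_lit 6) (nat_lit 345)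 (nat_lit 4) (nat_lit 188) (nat_lit 207) (nat_lit 205)))) (PT.nd (nat_lit 156) (PT.nd (nat_lit 78) (PT.lf (nat_lit 27056) (nat_lit 6) (nat_lit 356) (nat_lit 4) (nat_lit 189) (nat_lit 207) (nat_lit 204)) (PT.lf (nat_lit 27816) (nat_lit 6) (nat_lit 366) (nat_lit 4) (nat_lit 190) (nat_lit 207) (nat_lit 203))) (PT.nd (nat_lit 78) (PT.lf (nat_lit 28500) (nat_lit 6) (nat_lit 375) (nat_lit 4) (nat_lit 191) (nat_lit 207) (nat_lit 202)) (PT.nd (nat_lit 78) (PT.lf (nat_lit 29108) (nat_lit 6) (nat_lit 383) (nat_lit 4) (nat_lit 192) (nat_lit 207) (nat_lit 201)) (PT.lf (nat_lit 29640) (nat_lit 6) (nat_lit 390) (nat_lit 4) (nat_lit 193) (nat_lit 207) (nat_lit 200)))))) (PT.nd (nat_lit 312) (PT.nd (nat_lit 156) (PT.nd (nat_lit 78) (PT.lf (nat_lit 29564) (nat_lit 6) (nat_lit 389) (nat_lit 4) (nat_lit 194) (nat_lit 207) (nat_lit 199)) (PT.lf (nat_lit 29488) (nat_lit 6) (nat_lit 388) (nat_lit 4) (nat_lit 195) (nat_lit 207) (nat_lit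 198))) (PT.nd (nat_lit 78) (PT.lf (nat_lit 29412) (nat_lit 6) (nat_lit 387) (nat_lit 4) (nat_lit 196) (nat_lit 207) (nat_lit 197)) (PT.lf (nat_lit 29412) (nat_lit 6) (nat_lit 387) (nat_lit 2) (nat_lit 197) (nat_lit 207) (nat_lit 196)))) (PT.nd (nat_lit 156) (PT.nd (nat_lit 78) (PT.lf (nat_lit 29488) (nat_lit 6) (nat_lit 388) (nat_lit 2) (nat_lit 198) (nat_lit 207) (nat_lit 195)) (PT.lf (nat_lit 29564) (nat_lit 6) (nat_lit 389) (nat_lit 2) (nat_lit 199) (nat_lit 207) (nat_lit 194))) (PT.nd (nat_lit 78) (PT.lf (nat_lit 29640) (nat_lit 6) (nat_lit 390) (nat_lit 2) (nat_lit 200) (nat_lit 207) (nat_lit 193)) (PT.nd (nat_lit 78) (PT.lf (nat_lit 29108) (nat_lit 6) (nat_lit 383) (nat_lit 2) (nat_lit 201) (nat_lit 207) (nat_lit 192)) (PT.lf (nat_lit 28500) (nat_lit 6) (nat_lit 375) (nat_lit 2) (nat_lit 202) (nat_lit 207) (nat_lit 191))))))))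
noncomputable def pc33 : PT := (PT.nd (nat_lit 60216) (PT.nd (nat_lit 702) (PT.nd (nat_lit 312) (PT.nd (nat_lit 156) (PT.nd (nat_lit 78) (PT.lf (nat_lit 27816) (nat_lit 6) (nat_lit 366) (nat_lit 2) (nat_lit 203) (nat_lit 207) (nat_lit 190)) (PT.lf (nat_lit 27056) (nat_lit 6) (nat_lit 356) (nat_lit 2) (nat_lit 204) (nat_lit 207) (nat_lit 189))) (PT.nd (nat_lit 78) (PT.lf (nat_lit 26220) (nat_lit 6) (nat_lit 345) (nat_lit 2) (nat_lit 205) (nat_lit 207) (nat_lit 188)) (PT.lf (nat_lit 25308) (nat_lit 6) (nat_lit 333) (nat_lit 2) (nat_lit 206) (nat_lit 207) (nat_lit 187)))) (PT.nd (nat_lit 156) (PT.nd (nat_lit 78) (PT.lf (nat_lit 24320) (nat_lit 3) (nat_lit 320) (nat_lit 0) (nat_lit 207) (nat_lit 207) (nat_lit 186)) (PT.lf (nat_lit 23180) (nat_lit 6) (nat_lit 305) (nat_lit 0) (nat_lit 208) (nat_lit 207) (nat_lit 185))) (PT.nd (nat_lit 78) (PT.lf (nat_lit 21964) (nat_lit 6) (nat_lit 289) (nat_lit 0) (nat_lit 209) (nat_lit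 207) (nat_lit 184)) (PT.nd (nat_lit 78) (PT.lf (nat_lit 20672) (nat_lit 6) (nat_lit 272) (nat_lit 0) (nat_lit 210) (nat_lit 207) (nat_lit 183)) (PT.lf (nat_lit 19836) (nat_lit 6) (nat_lit 261) (nat_lit 0) (nat_lit 211) (nat_lit 207) (nat_lit 182)))))) (PT.nd (nat_lit 312) (PT.nd (nat_lit 156) (PT.nd (nat_lit 78) (PT.lf (nat_lit 19152) (nat_lit 6) (nat_lit 252) (nat_lit 0) (nat_lit 212) (nat_lit 207) (nat_lit 181)) (PT.lf (nat_lit 18468) (nat_lit 6) (nat_lit 243) (nat_lit 0) (nat_lit 213) (nat_lit 207) (nat_lit 180))) (PT.nd (nat_lit 78) (PT.lf (nat_lit 17860) (nat_lit 6) (nat_lit 235) (nat_lit 0) (nat_lit 214) (nat_lit 207) (nat_lit 179)) (PT.lf (nat_lit 17252) (nat_lit 6) (nat_lit 227) (nat_lit 0) (nat_lit 215) (nat_lit 207) (nat_lit 178)))) (PT.nd (nat_lit 156) (PT.nd (nat_lit 78) (PT.lf (nat_lit 16644) (nat_lit 6) (nat_lit 219) (nat_lit 0) (nat_lit 216) (nat_lit 207) (nat_lit 177)) (PT.lf (nat_lit 16036) (nat_lit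 6) (nat_lit 211) (nat_lit 0) (nat_lit 217) (nat_lit 207) (nat_lit 176))) (PT.nd (nat_lit 78) (PT.lf (nat_lit 15504) (nat_lit 6) (nat_lit 204) (nat_lit 0) (nat_lit 218) (nat_lit 207) (nat_lit 175)) (PT.nd (nat_lit 58890) (PT.lf (nat_lit 14972) (nat_lit 6) (nat_lit 197) (nat_lit 0) (nat_lit 219) (nat_lit 207) (nat_lit 174)) (PT.lf (nat_lit 14516) (nat_lit 6) (nat_lit 191) (nat_lit 5) (nat_lit 173) (nat_lit 208) (nat_lit 219))))))) (PT.nd (nat_lit 702) (PT.nd (nat_lit 312) (PT.nd (nat_lit 156) (PT.nd (nat_lit 78) (PT.lf (nat_lit 15048) (nat_lit 6) (nat_lit 198) (nat_lit 5) (nat_lit 174) (nat_lit 208) (nat_lit 218)) (PT.lf (nat_lit 15580) (nat_lit 6) (nat_lit 205) (nat_lit 5) (nat_lit 175) (nat_lit 208) (nat_lit 217))) (PT.nd (nat_lit 78) (PT.lf (nat_lit 16112) (nat_lit 6) (nat_lit 212) (nat_lit 5) (nat_lit 176) (nat_lit 208) (nat_lit 216)) (PT.lf (nat_lit 16720) (nat_lit 6) (nat_lit 220) (nat_lit 5) (nat_lit 177)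 (nat_lit 208) (nat_lit 215)))) (PT.nd (nat_lit 156) (PT.nd (nat_lit 78) (PT.lf (nat_lit 17328) (nat_lit 6) (nat_lit 228) (nat_lit 5) (nat_lit 178) (nat_lit 208) (nat_lit 214)) (PT.lf (nat_lit 17936) (nat_lit 6) (nat_lit 236) (nat_lit 5) (nat_lit 179) (nat_lit 208) (nat_lit 213))) (PT.nd (nat_lit 78) (PT.lf (nat_lit 18544) (nat_lit 6) (nat_lit 244) (nat_lit 5) (nat_lit 180) (nat_lit 208) (nat_lit 212)) (PT.nd (nat_lit 78) (PT.lf (nat_lit 19228) (nat_lit 6) (nat_lit 253) (nat_lit 5) (nat_lit 181) (nat_lit 208) (nat_lit 211)) (PT.lf (nat_lit 19912) (nat_lit 6) (nat_lit 262) (nat_lit 5) (nat_lit 182) (nat_lit 208) (nat_lit 210)))))) (PT.nd (nat_lit 312) (PT.nd (nat_lit 156) (PT.nd (nat_lit 78) (PT.lf (nat_lit 20748) (nat_lit 6) (nat_lit 273) (nat_lit 5) (nat_lit 183) (nat_lit 208) (nat_lit 209)) (PT.lf (nat_lit 22040) (nat_lit 3) (nat_lit 290) (nat_lit 4) (nat_lit 184) (nat_lit 208) (nat_lit 208))) (PT.nd (nat_lit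 78) (PT.lf (nat_lit 23180) (nat_lit 6) (nat_lit 305) (nat_lit 4) (nat_lit 185) (nat_lit 208) (nat_lit 207)) (PT.lf (nat_lit 24244) (nat_lit 6) (nat_lit 319) (nat_lit 4) (nat_lit 186) (nat_lit 208) (nat_lit 206)))) (PT.nd (nat_lit 156) (PT.nd (nat_lit 78) (PT.lf (nat_lit 25232) (nat_lit 6) (nat_lit 332) (nat_lit 4) (nat_lit 187) (nat_lit 208) (nat_lit 205)) (PT.lf (nat_lit 26144) (nat_lit 6) (nat_lit 344) (nat_lit 4) (nat_lit 188) (nat_lit 208) (nat_lit 204))) (PT.nd (nat_lit 78) (PT.lf (nat_lit 26980) (nat_lit 6) (nat_lit 355) (nat_lit 4) (nat_lit 189) (nat_lit 208) (nat_lit 203)) (PT.nd (nat_lit 78) (PT.lf (nat_lit 27740) (nat_lit 6) (nat_lit 365) (nat_lit 4) (nat_lit 190) (nat_lit 208) (nat_lit 202)) (PT.lf (nat_lit 28424) (nat_lit 6) (nat_lit 374) (nat_lit 4) (nat_lit 191) (nat_lit 208) (nat_lit 201))))))))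
noncomputable def pc34 : PT := (PT.nd (nat_lit 1404) (PT.nd (nat_lit 702) (PT.nd (nat_lit 312) (PT.nd (nat_lit 156) (PT.nd (nat_lit 78) (PT.lf (nat_lit 29032) (nat_lit 6) (nat_lit 382) (nat_lit 4) (nat_lit 192) (nat_lit 208) (nat_lit 200)) (PT.lf (nat_lit 28956) (nat_lit 6) (nat_lit 381) (nat_lit 4) (nat_lit 193) (nat_lit 208) (nat_lit 199))) (PT.nd (nat_lit 78) (PT.lf (nat_lit 28880) (nat_lit 6) (nat_lit 380) (nat_lit 4) (nat_lit 194) (nat_lit 208) (nat_lit 198)) (PT.lf (nat_lit 28804) (nat_lit 6) (nat_lit 379) (nat_lit 4) (nat_lit 195) (nat_lit 208) (nat_lit 197)))) (PT.nd (nat_lit 156) (PT.nd (nat_lit 78) (PT.lf (nat_lit 28728) (nat_lit 3) (nat_lit 378) (nat_lit 2) (nat_lit 196) (nat_lit 208) (nat_lit 196)) (PT.lf (nat_lit 28804) (nat_lit 6) (nat_lit 379) (nat_lit 2) (nat_lit 197) (nat_lit 208) (nat_lit 195))) (PT.nd (nat_lit 78) (PT.lf (nat_lit 28880) (nat_lit 6) (nat_lit 380) (nat_lit 2) (nat_lit 198) (nat_lit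 208) (nat_lit 194)) (PT.nd (nat_lit 78) (PT.lf (nat_lit 28956) (nat_lit 6) (nat_lit 381) (nat_lit 2) (nat_lit 199) (nat_lit 208) (nat_lit 193)) (PT.lf (nat_lit 29032) (nat_lit 6) (nat_lit 382) (nat_lit 2) (nat_lit 200) (nat_lit 208) (nat_lit 192)))))) (PT.nd (nat_lit 312) (PT.nd (nat_lit 156) (PT.nd (nat_lit 78) (PT.lf (nat_lit 28424) (nat_lit 6) (nat_lit 374) (nat_lit 2) (nat_lit 201) (nat_lit 208) (nat_lit 191)) (PT.lf (nat_lit 27740) (nat_lit 6) (nat_lit 365) (nat_lit 2) (nat_lit 202) (nat_lit 208) (nat_lit 190))) (PT.nd (nat_lit 78) (PT.lf (nat_lit 26980) (nat_lit 6) (nat_lit 355) (nat_lit 2) (nat_lit 203) (nat_lit 208) (nat_lit 189)) (PT.lf (nat_lit 26144) (nat_lit 6) (nat_lit 344) (nat_lit 2) (nat_lit 204) (nat_lit 208) (nat_lit 188)))) (PT.nd (nat_lit 156) (PT.nd (nat_lit 78) (PT.lf (nat_lit 25232) (nat_lit 6) (nat_lit 332) (nat_lit 2) (nat_lit 205) (nat_lit 208) (nat_lit 187)) (PT.lf (nat_lit 24244) (nat_lit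 6) (nat_lit 319) (nat_lit 2) (nat_lit 206) (nat_lit 208) (nat_lit 186))) (PT.nd (nat_lit 78) (PT.lf (nat_lit 23180) (nat_lit 6) (nat_lit 305) (nat_lit 2) (nat_lit 207) (nat_lit 208) (nat_lit 185)) (PT.nd (nat_lit 78) (PT.lf (nat_lit 22040) (nat_lit 3) (nat_lit 290) (nat_lit 0) (nat_lit 208) (nat_lit 208) (nat_lit 184)) (PT.lf (nat_lit 20748) (nat_lit 6) (nat_lit 273) (nat_lit 0) (nat_lit 209) (nat_lit 208) (nat_lit 183))))))) (PT.nd (nat_lit 702) (PT.nd (nat_lit 312) (PT.nd (nat_lit 156) (PT.nd (nat_lit 78) (PT.lf (nat_lit 19912) (nat_lit 6) (nat_lit 262) (nat_lit 0) (nat_lit 210) (nat_lit 208) (nat_lit 182)) (PT.lf (nat_lit 19228) (nat_lit 6) (nat_lit 253) (nat_lit 0) (nat_lit 211) (nat_lit 208) (nat_lit 181))) (PT.nd (nat_lit 78) (PT.lf (nat_lit 18544) (nat_lit 6) (nat_lit 244) (nat_lit 0) (nat_lit 212) (nat_lit 208) (nat_lit 180)) (PT.lf (nat_lit 17936) (nat_lit 6) (nat_lit 236) (nat_lit 0) (nat_lit 213) (nat_lit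 208) (nat_lit 179)))) (PT.nd (nat_lit 156) (PT.nd (nat_lit 78) (PT.lf (nat_lit 17328) (nat_lit 6) (nat_lit 228) (nat_lit 0) (nat_lit 214) (nat_lit 208) (nat_lit 178)) (PT.lf (nat_lit 16720) (nat_lit 6) (nat_lit 220) (nat_lit 0) (nat_lit 215) (nat_lit 208) (nat_lit 177))) (PT.nd (nat_lit 78) (PT.lf (nat_lit 16112) (nat_lit 6) (nat_lit 212) (nat_lit 0) (nat_lit 216) (nat_lit 208) (nat_lit 176)) (PT.nd (nat_lit 78) (PT.lf (nat_lit 15580) (nat_lit 6) (nat_lit 205) (nat_lit 0) (nat_lit 217) (nat_lit 208) (nat_lit 175)) (PT.lf (nat_lit 15048) (nat_lit 6) (nat_lit 198) (nat_lit 0) (nat_lit 218) (nat_lit 208) (nat_lit 174)))))) (PT.nd (nat_lit 59046) (PT.nd (nat_lit 58890) (PT.nd (nat_lit 58812) (PT.lf (nat_lit 14516) (nat_lit 6) (nat_lit 191) (nat_lit 0) (nat_lit 219) (nat_lit 208) (nat_lit 173)) (PT.lf (nat_lit 14060) (nat_lit 6) (nat_lit 185) (nat_lit 5) (nat_lit 172) (nat_lit 209) (nat_lit 219))) (PT.nd (nat_lit 78)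 (PT.lf (nat_lit 14592) (nat_lit 6) (nat_lit 192) (nat_lit 5) (nat_lit 173) (nat_lit 209) (nat_lit 218)) (PT.lf (nat_lit 15124) (nat_lit 6) (nat_lit 199) (nat_lit 5) (nat_lit 174) (nat_lit 209) (nat_lit 217)))) (PT.nd (nat_lit 156) (PT.nd (nat_lit 78) (PT.lf (nat_lit 15656) (nat_lit 6) (nat_lit 206) (nat_lit 5) (nat_lit 175) (nat_lit 209) (nat_lit 216)) (PT.lf (nat_lit 16188) (nat_lit 6) (nat_lit 213) (nat_lit 5) (nat_lit 176) (nat_lit 209) (nat_lit 215))) (PT.nd (nat_lit 78) (PT.lf (nat_lit 16796) (nat_lit 6) (nat_lit 221) (nat_lit 5) (nat_lit 177) (nat_lit 209) (nat_lit 214)) (PT.nd (nat_lit 78) (PT.lf (nat_lit 17404) (nat_lit 6) (nat_lit 229) (nat_lit 5) (nat_lit 178) (nat_lit 209) (nat_lit 213)) (PT.lf (nat_lit 18012) (nat_lit 6) (nat_lit 237) (nat_lit 5) (nat_lit 179) (nat_lit 209) (nat_lit 212))))))))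
noncomputable def pc35 : PT := (PT.nd (nat_lit 1404) (PT.nd (nat_lit 702) (PT.nd (nat_lit 312) (PT.nd (nat_lit 156) (PT.nd (nat_lit 78) (PT.lf (nat_lit 18620) (nat_lit 6) (nat_lit 245) (nat_lit 5) (nat_lit 180) (nat_lit 209) (nat_lit 211)) (PT.lf (nat_lit 19304) (nat_lit 6) (nat_lit 254) (nat_lit 5) (nat_lit 181) (nat_lit 209) (nat_lit 210))) (PT.nd (nat_lit 78) (PT.lf (nat_lit 19988) (nat_lit 3) (nat_lit 263) (nat_lit 4) (nat_lit 182) (nat_lit 209) (nat_lit 209)) (PT.lf (nat_lit 20748) (nat_lit 6) (nat_lit 273) (nat_lit 4) (nat_lit 183) (nat_lit 209) (nat_lit 208)))) (PT.nd (nat_lit 156) (PT.nd (nat_lit 78) (PT.lf (nat_lit 21964) (nat_lit 6) (nat_lit 289) (nat_lit 4) (nat_lit 184) (nat_lit 209) (nat_lit 207)) (PT.lf (nat_lit 23104) (nat_lit 6) (nat_lit 304) (nat_lit 4) (nat_lit 185) (nat_lit 209) (nat_lit 206))) (PT.nd (nat_lit 78) (PT.lf (nat_lit 24168) (nat_lit 6) (nat_lit 318) (nat_lit 4) (nat_lit 186) (nat_lit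 209) (nat_lit 205)) (PT.nd (nat_lit 78) (PT.lf (nat_lit 25156) (nat_lit 6) (nat_lit 331) (nat_lit 4) (nat_lit 187) (nat_lit 209) (nat_lit 204)) (PT.lf (nat_lit 26068) (nat_lit 6) (nat_lit 343) (nat_lit 4) (nat_lit 188) (nat_lit 209) (nat_lit 203)))))) (PT.nd (nat_lit 312) (PT.nd (nat_lit 156) (PT.nd (nat_lit 78) (PT.lf (nat_lit 26904) (nat_lit 6) (nat_lit 354) (nat_lit 4) (nat_lit 189) (nat_lit 209) (nat_lit 202)) (PT.lf (nat_lit 27664) (nat_lit 6) (nat_lit 364) (nat_lit 4) (nat_lit 190) (nat_lit 209) (nat_lit 201))) (PT.nd (nat_lit 78) (PT.lf (nat_lit 28348) (nat_lit 6) (nat_lit 373) (nat_lit 4) (nat_lit 191) (nat_lit 209) (nat_lit 200)) (PT.lf (nat_lit 28272) (nat_lit 6) (nat_lit 372) (nat_lit 4) (nat_lit 192) (nat_lit 209) (nat_lit 199)))) (PT.nd (nat_lit 156) (PT.nd (nat_lit 78) (PT.lf (nat_lit 28196) (nat_lit 6) (nat_lit 371) (nat_lit 4) (nat_lit 193) (nat_lit 209) (nat_lit 198)) (PT.lf (nat_lit 28120) (nat_lit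 6) (nat_lit 370) (nat_lit 4) (nat_lit 194) (nat_lit 209) (nat_lit 197))) (PT.nd (nat_lit 78) (PT.lf (nat_lit 28044) (nat_lit 6) (nat_lit 369) (nat_lit 4) (nat_lit 195) (nat_lit 209) (nat_lit 196)) (PT.nd (nat_lit 78) (PT.lf (nat_lit 28044) (nat_lit 6) (nat_lit 369) (nat_lit 2) (nat_lit 196) (nat_lit 209) (nat_lit 195)) (PT.lf (nat_lit 28120) (nat_lit 6) (nat_lit 370) (nat_lit 2) (nat_lit 197) (nat_lit 209) (nat_lit 194))))))) (PT.nd (nat_lit 702) (PT.nd (nat_lit 312) (PT.nd (nat_lit 156) (PT.nd (nat_lit 78) (PT.lf (nat_lit 28196) (nat_lit 6) (nat_lit 371) (nat_lit 2) (nat_lit 198) (nat_lit 209) (nat_lit 193)) (PT.lf (nat_lit 28272) (nat_lit 6) (nat_lit 372) (nat_lit 2) (nat_lit 199) (nat_lit 209) (nat_lit 192))) (PT.nd (nat_lit 78) (PT.lf (nat_lit 28348) (nat_lit 6) (nat_lit 373) (nat_lit 2) (nat_lit 200) (nat_lit 209) (nat_lit 191)) (PT.lf (nat_lit 27664) (nat_lit 6) (nat_lit 364) (nat_lit 2) (nat_lit 201) (nat_lit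 209) (nat_lit 190)))) (PT.nd (nat_lit 156) (PT.nd (nat_lit 78) (PT.lf (nat_lit 26904) (nat_lit 6) (nat_lit 354) (nat_lit 2) (nat_lit 202) (nat_lit 209) (nat_lit 189)) (PT.lf (nat_lit 26068) (nat_lit 6) (nat_lit 343) (nat_lit 2) (nat_lit 203) (nat_lit 209) (nat_lit 188))) (PT.nd (nat_lit 78) (PT.lf (nat_lit 25156) (nat_lit 6) (nat_lit 331) (nat_lit 2) (nat_lit 204) (nat_lit 209) (nat_lit 187)) (PT.nd (nat_lit 78) (PT.lf (nat_lit 24168) (nat_lit 6) (nat_lit 318) (nat_lit 2) (nat_lit 205) (nat_lit 209) (nat_lit 186)) (PT.lf (nat_lit 23104) (nat_lit 6) (nat_lit 304) (nat_lit 2) (nat_lit 206) (nat_lit 209) (nat_lit 185)))))) (PT.nd (nat_lit 390) (PT.nd (nat_lit 156) (PT.nd (nat_lit 78) (PT.lf (nat_lit 21964) (nat_lit 6) (nat_lit 289) (nat_lit 2) (nat_lit 207) (nat_lit 209) (nat_lit 184)) (PT.lf (nat_lit 20748) (nat_lit 6) (nat_lit 273) (nat_lit 2) (nat_lit 208) (nat_lit 209) (nat_lit 183))) (PT.nd (nat_lit 78) (PT.lf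 (nat_lit 19988) (nat_lit 3) (nat_lit 263) (nat_lit 0) (nat_lit 209) (nat_lit 209) (nat_lit 182)) (PT.nd (nat_lit 78) (PT.lf (nat_lit 19304) (nat_lit 6) (nat_lit 254) (nat_lit 0) (nat_lit 210) (nat_lit 209) (nat_lit 181)) (PT.lf (nat_lit 18620) (nat_lit 6) (nat_lit 245) (nat_lit 0) (nat_lit 211) (nat_lit 209) (nat_lit 180))))) (PT.nd (nat_lit 156) (PT.nd (nat_lit 78) (PT.lf (nat_lit 18012) (nat_lit 6) (nat_lit 237) (nat_lit 0) (nat_lit 212) (nat_lit 209) (nat_lit 179)) (PT.lf (nat_lit 17404) (nat_lit 6) (nat_lit 229) (nat_lit 0) (nat_lit 213) (nat_lit 209) (nat_lit 178))) (PT.nd (nat_lit 78) (PT.lf (nat_lit 16796) (nat_lit 6) (nat_lit 221) (nat_lit 0) (nat_lit 214) (nat_lit 209) (nat_lit 177)) (PT.nd (nat_lit 78) (PT.lf (nat_lit 16188) (nat_lit 6) (nat_lit 213) (nat_lit 0) (nat_lit 215) (nat_lit 209) (nat_lit 176)) (PT.lf (nat_lit 15656) (nat_lit 6) (nat_lit 206) (nat_lit 0) (nat_lit 216) (nat_lit 209) (nat_lit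 175))))))))
noncomputable def pc36 : PT := (PT.nd (nat_lit 59982) (PT.nd (nat_lit 59280) (PT.nd (nat_lit 58890) (PT.nd (nat_lit 156) (PT.nd (nat_lit 78) (PT.lf (nat_lit 15124) (nat_lit 6) (nat_lit 199) (nat_lit 0) (nat_lit 217) (nat_lit 209) (nat_lit 174)) (PT.lf (nat_lit 14592) (nat_lit 6) (nat_lit 192) (nat_lit 0) (nat_lit 218) (nat_lit 209) (nat_lit 173))) (PT.nd (nat_lit 58656) (PT.lf (nat_lit 14060) (nat_lit 6) (nat_lit 185) (nat_lit 0) (nat_lit 219) (nat_lit 209) (nat_lit 172)) (PT.lf (nat_lit 13224) (nat_lit 6) (nat_lit 174) (nat_lit 5) (nat_lit 170) (nat_lit 210) (nat_lit 220)))) (PT.nd (nat_lit 156) (PT.nd (nat_lit 78) (PT.lf (nat_lit 13680) (nat_lit 6) (nat_lit 180) (nat_lit 5) (nat_lit 171) (nat_lit 210) (nat_lit 219)) (PT.lf (nat_lit 14136) (nat_lit 6) (nat_lit 186) (nat_lit 5) (nat_lit 172) (nat_lit 210) (nat_lit 218))) (PT.nd (nat_lit 78) (PT.lf (nat_lit 14668) (nat_lit 6) (nat_lit 193) (nat_lit 5)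 (nat_lit 173) (nat_lit 210) (nat_lit 217)) (PT.nd (nat_lit 78) (PT.lf (nat_lit 15200) (nat_lit 6) (nat_lit 200) (nat_lit 5) (nat_lit 174) (nat_lit 210) (nat_lit 216)) (PT.lf (nat_lit 15732) (nat_lit 6) (nat_lit 207) (nat_lit 5) (nat_lit 175) (nat_lit 210) (nat_lit 215)))))) (PT.nd (nat_lit 312) (PT.nd (nat_lit 156) (PT.nd (nat_lit 78) (PT.lf (nat_lit 16264) (nat_lit 6) (nat_lit 214) (nat_lit 5) (nat_lit 176) (nat_lit 210) (nat_lit 214)) (PT.lf (nat_lit 16872) (nat_lit 6) (nat_lit 222) (nat_lit 5) (nat_lit 177) (nat_lit 210) (nat_lit 213))) (PT.nd (nat_lit 78) (PT.lf (nat_lit 17480) (nat_lit 6) (nat_lit 230) (nat_lit 5) (nat_lit 178) (nat_lit 210) (nat_lit 212)) (PT.lf (nat_lit 18088) (nat_lit 6) (nat_lit 238) (nat_lit 5) (nat_lit 179) (nat_lit 210) (nat_lit 211)))) (PT.nd (nat_lit 156) (PT.nd (nat_lit 78) (PT.lf (nat_lit 18696) (nat_lit 3) (nat_lit 246) (nat_lit 4) (nat_lit 180) (nat_lit 210) (nat_lit 210)) (PT.lf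 (nat_lit 19304) (nat_lit 6) (nat_lit 254) (nat_lit 4) (nat_lit 181) (nat_lit 210) (nat_lit 209))) (PT.nd (nat_lit 78) (PT.lf (nat_lit 19912) (nat_lit 6) (nat_lit 262) (nat_lit 4) (nat_lit 182) (nat_lit 210) (nat_lit 208)) (PT.nd (nat_lit 78) (PT.lf (nat_lit 20672) (nat_lit 6) (nat_lit 272) (nat_lit 4) (nat_lit 183) (nat_lit 210) (nat_lit 207)) (PT.lf (nat_lit 21888) (nat_lit 6) (nat_lit 288) (nat_lit 4) (nat_lit 184) (nat_lit 210) (nat_lit 206))))))) (PT.nd (nat_lit 702) (PT.nd (nat_lit 312) (PT.nd (nat_lit 156) (PT.nd (nat_lit 78) (PT.lf (nat_lit 23028) (nat_lit 6) (nat_lit 303) (nat_lit 4) (nat_lit 185) (nat_lit 210) (nat_lit 205)) (PT.lf (nat_lit 24092) (nat_lit 6) (nat_lit 317) (nat_lit 4) (nat_lit 186) (nat_lit 210) (nat_lit 204))) (PT.nd (nat_lit 78) (PT.lf (nat_lit 25080) (nat_lit 6) (nat_lit 330) (nat_lit 4) (nat_lit 187) (nat_lit 210) (nat_lit 203)) (PT.lf (nat_lit 25992) (nat_lit 6) (nat_lit 342) (nat_lit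 4) (nat_lit 188) (nat_lit 210) (nat_lit 202)))) (PT.nd (nat_lit 156) (PT.nd (nat_lit 78) (PT.lf (nat_lit 26828) (nat_lit 6) (nat_lit 353) (nat_lit 4) (nat_lit 189) (nat_lit 210) (nat_lit 201)) (PT.lf (nat_lit 27588) (nat_lit 6) (nat_lit 363) (nat_lit 4) (nat_lit 190) (nat_lit 210) (nat_lit 200))) (PT.nd (nat_lit 78) (PT.lf (nat_lit 27512) (nat_lit 6) (nat_lit 362) (nat_lit 4) (nat_lit 191) (nat_lit 210) (nat_lit 199)) (PT.nd (nat_lit 78) (PT.lf (nat_lit 27436) (nat_lit 6) (nat_lit 361) (nat_lit 4) (nat_lit 192) (nat_lit 210) (nat_lit 198)) (PT.lf (nat_lit 27360) (nat_lit 6) (nat_lit 360) (nat_lit 4) (nat_lit 193) (nat_lit 210) (nat_lit 197)))))) (PT.nd (nat_lit 312) (PT.nd (nat_lit 156) (PT.nd (nat_lit 78) (PT.lf (nat_lit 27284) (nat_lit 6) (nat_lit 359) (nat_lit 4) (nat_lit 194) (nat_lit 210) (nat_lit 196)) (PT.lf (nat_lit 27208) (nat_lit 3) (nat_lit 358) (nat_lit 2) (nat_lit 195) (nat_lit 210) (nat_lit 195)))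 (PT.nd (nat_lit 78) (PT.lf (nat_lit 27284) (nat_lit 6) (nat_lit 359) (nat_lit 2) (nat_lit 196) (nat_lit 210) (nat_lit 194)) (PT.lf (nat_lit 27360) (nat_lit 6) (nat_lit 360) (nat_lit 2) (nat_lit 197) (nat_lit 210) (nat_lit 193)))) (PT.nd (nat_lit 156) (PT.nd (nat_lit 78) (PT.lf (nat_lit 27436) (nat_lit 6) (nat_lit 361) (nat_lit 2) (nat_lit 198) (nat_lit 210) (nat_lit 192)) (PT.lf (nat_lit 27512) (nat_lit 6) (nat_lit 362) (nat_lit 2) (nat_lit 199) (nat_lit 210) (nat_lit 191))) (PT.nd (nat_lit 78) (PT.lf (nat_lit 27588) (nat_lit 6) (nat_lit 363) (nat_lit 2) (nat_lit 200) (nat_lit 210) (nat_lit 190)) (PT.nd (nat_lit 78) (PT.lf (nat_lit 26828) (nat_lit 6) (nat_lit 353) (nat_lit 2) (nat_lit 201) (nat_lit 210) (nat_lit 189)) (PT.lf (nat_lit 25992) (nat_lit 6) (nat_lit 342) (nat_lit 2) (nat_lit 202) (nat_lit 210) (nat_lit 188))))))))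
noncomputable def pc37 : PT := (PT.nd (nat_lit 59826) (PT.nd (nat_lit 702) (PT.nd (nat_lit 312) (PT.nd (nat_lit 156) (PT.nd (nat_lit 78) (PT.lf (nat_lit 25080) (nat_lit 6) (nat_lit 330) (nat_lit 2) (nat_lit 203) (nat_lit 210) (nat_lit 187)) (PT.lf (nat_lit 24092) (nat_lit 6) (nat_lit 317) (nat_lit 2) (nat_lit 204) (nat_lit 210) (nat_lit 186))) (PT.nd (nat_lit 78) (PT.lf (nat_lit 23028) (nat_lit 6) (nat_lit 303) (nat_lit 2) (nat_lit 205) (nat_lit 210) (nat_lit 185)) (PT.lf (nat_lit 21888) (nat_lit 6) (nat_lit 288) (nat_lit 2) (nat_lit 206) (nat_lit 210) (nat_lit 184)))) (PT.nd (nat_lit 156) (PT.nd (nat_lit 78) (PT.lf (nat_lit 20672) (nat_lit 6) (nat_lit 272) (nat_lit 2) (nat_lit 207) (nat_lit 210) (nat_lit 183)) (PT.lf (nat_lit 19912) (nat_lit 6) (nat_lit 262) (nat_lit 2) (nat_lit 208) (nat_lit 210) (nat_lit 182))) (PT.nd (nat_lit 78) (PT.lf (nat_lit 19304) (nat_lit 6) (nat_lit 254) (nat_lit 2) (nat_lit 209) (nat_lit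 210) (nat_lit 181)) (PT.nd (nat_lit 78) (PT.lf (nat_lit 18696) (nat_lit 3) (nat_lit 246) (nat_lit 0) (nat_lit 210) (nat_lit 210) (nat_lit 180)) (PT.lf (nat_lit 18088) (nat_lit 6) (nat_lit 238) (nat_lit 0) (nat_lit 211) (nat_lit 210) (nat_lit 179)))))) (PT.nd (nat_lit 312) (PT.nd (nat_lit 156) (PT.nd (nat_lit 78) (PT.lf (nat_lit 17480) (nat_lit 6) (nat_lit 230) (nat_lit 0) (nat_lit 212) (nat_lit 210) (nat_lit 178)) (PT.lf (nat_lit 16872) (nat_lit 6) (nat_lit 222) (nat_lit 0) (nat_lit 213) (nat_lit 210) (nat_lit 177))) (PT.nd (nat_lit 78) (PT.lf (nat_lit 16264) (nat_lit 6) (nat_lit 214) (nat_lit 0) (nat_lit 214) (nat_lit 210) (nat_lit 176)) (PT.lf (nat_lit 15732) (nat_lit 6) (nat_lit 207) (nat_lit 0) (nat_lit 215) (nat_lit 210) (nat_lit 175)))) (PT.nd (nat_lit 156) (PT.nd (nat_lit 78) (PT.lf (nat_lit 15200) (nat_lit 6) (nat_lit 200) (nat_lit 0) (nat_lit 216) (nat_lit 210) (nat_lit 174)) (PT.lf (nat_lit 14668) (nat_lit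 6) (nat_lit 193) (nat_lit 0) (nat_lit 217) (nat_lit 210) (nat_lit 173))) (PT.nd (nat_lit 78) (PT.lf (nat_lit 14136) (nat_lit 6) (nat_lit 186) (nat_lit 0) (nat_lit 218) (nat_lit 210) (nat_lit 172)) (PT.nd (nat_lit 78) (PT.lf (nat_lit 13680) (nat_lit 6) (nat_lit 180) (nat_lit 0) (nat_lit 219) (nat_lit 210) (nat_lit 171)) (PT.lf (nat_lit 13224) (nat_lit 6) (nat_lit 174) (nat_lit 0) (nat_lit 220) (nat_lit 210) (nat_lit 170))))))) (PT.nd (nat_lit 702) (PT.nd (nat_lit 312) (PT.nd (nat_lit 156) (PT.nd (nat_lit 78) (PT.lf (nat_lit 12844) (nat_lit 6) (nat_lit 169) (nat_lit 5) (nat_lit 169) (nat_lit 211) (nat_lit 220)) (PT.lf (nat_lit 13300) (nat_lit 6) (nat_lit 175) (nat_lit 5) (nat_lit 170) (nat_lit 211) (nat_lit 219))) (PT.nd (nat_lit 78) (PT.lf (nat_lit 13756) (nat_lit 6) (nat_lit 181) (nat_lit 5) (nat_lit 171) (nat_lit 211) (nat_lit 218)) (PT.lf (nat_lit 14212) (nat_lit 6) (nat_lit 187) (nat_lit 5) (nat_lit 172) (nat_lit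 211) (nat_lit 217)))) (PT.nd (nat_lit 156) (PT.nd (nat_lit 78) (PT.lf (nat_lit 14744) (nat_lit 6) (nat_lit 194) (nat_lit 5) (nat_lit 173) (nat_lit 211) (nat_lit 216)) (PT.lf (nat_lit 15276) (nat_lit 6) (nat_lit 201) (nat_lit 5) (nat_lit 174) (nat_lit 211) (nat_lit 215))) (PT.nd (nat_lit 78) (PT.lf (nat_lit 15808) (nat_lit 6) (nat_lit 208) (nat_lit 5) (nat_lit 175) (nat_lit 211) (nat_lit 214)) (PT.nd (nat_lit 78) (PT.lf (nat_lit 16340) (nat_lit 6) (nat_lit 215) (nat_lit 5) (nat_lit 176) (nat_lit 211) (nat_lit 213)) (PT.lf (nat_lit 16948) (nat_lit 6) (nat_lit 223) (nat_lit 5) (nat_lit 177) (nat_lit 211) (nat_lit 212)))))) (PT.nd (nat_lit 312) (PT.nd (nat_lit 156) (PT.nd (nat_lit 78) (PT.lf (nat_lit 17556) (nat_lit 3) (nat_lit 231) (nat_lit 4) (nat_lit 178) (nat_lit 211) (nat_lit 211)) (PT.lf (nat_lit 18088) (nat_lit 6) (nat_lit 238) (nat_lit 4) (nat_lit 179) (nat_lit 211) (nat_lit 210))) (PT.nd (nat_lit 78) (PT.lf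 (nat_lit 18620) (nat_lit 6) (nat_lit 245) (nat_lit 4) (nat_lit 180) (nat_lit 211) (nat_lit 209)) (PT.lf (nat_lit 19228) (nat_lit 6) (nat_lit 253) (nat_lit 4) (nat_lit 181) (nat_lit 211) (nat_lit 208)))) (PT.nd (nat_lit 156) (PT.nd (nat_lit 78) (PT.lf (nat_lit 19836) (nat_lit 6) (nat_lit 261) (nat_lit 4) (nat_lit 182) (nat_lit 211) (nat_lit 207)) (PT.lf (nat_lit 20596) (nat_lit 6) (nat_lit 271) (nat_lit 4) (nat_lit 183) (nat_lit 211) (nat_lit 206))) (PT.nd (nat_lit 78) (PT.lf (nat_lit 21812) (nat_lit 6) (nat_lit 287) (nat_lit 4) (nat_lit 184) (nat_lit 211) (nat_lit 205)) (PT.nd (nat_lit 78) (PT.lf (nat_lit 22952) (nat_lit 6) (nat_lit 302) (nat_lit 4) (nat_lit 185) (nat_lit 211) (nat_lit 204)) (PT.lf (nat_lit 24016) (nat_lit 6) (nat_lit 316) (nat_lit 4) (nat_lit 186) (nat_lit 211) (nat_lit 203))))))))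
noncomputable def pc38 : PT := (PT.nd (nat_lit 1404) (PT.nd (nat_lit 702) (PT.nd (nat_lit 312) (PT.nd (nat_lit 156) (PT.nd (nat_lit 78) (PT.lf (nat_lit 25004) (nat_lit 6) (nat_lit 329) (nat_lit 4) (nat_lit 187) (nat_lit 211) (nat_lit 202)) (PT.lf (nat_lit 25916) (nat_lit 6) (nat_lit 341) (nat_lit 4) (nat_lit 188) (nat_lit 211) (nat_lit 201))) (PT.nd (nat_lit 78) (PT.lf (nat_lit 26752) (nat_lit 6) (nat_lit 352) (nat_lit 4) (nat_lit 189) (nat_lit 211) (nat_lit 200)) (PT.lf (nat_lit 26676) (nat_lit 6) (nat_lit 351) (nat_lit 4) (nat_lit 190) (nat_lit 211) (nat_lit 199)))) (PT.nd (nat_lit 156) (PT.nd (nat_lit 78) (PT.lf (nat_lit 26600) (nat_lit 6) (nat_lit 350) (nat_lit 4) (nat_lit 191) (nat_lit 211) (nat_lit 198)) (PT.lf (nat_lit 26524) (nat_lit 6) (nat_lit 349) (nat_lit 4) (nat_lit 192) (nat_lit 211) (nat_lit 197))) (PT.nd (nat_lit 78) (PT.lf (nat_lit 26448) (nat_lit 6) (nat_lit 348) (nat_lit 4) (nat_lit 193) (nat_lit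 211) (nat_lit 196)) (PT.nd (nat_lit 78) (PT.lf (nat_lit 26372) (nat_lit 6) (nat_lit 347) (nat_lit 4) (nat_lit 194) (nat_lit 211) (nat_lit 195)) (PT.lf (nat_lit 26372) (nat_lit 6) (nat_lit 347) (nat_lit 2) (nat_lit 195) (nat_lit 211) (nat_lit 194)))))) (PT.nd (nat_lit 312) (PT.nd (nat_lit 156) (PT.nd (nat_lit 78) (PT.lf (nat_lit 26448) (nat_lit 6) (nat_lit 348) (nat_lit 2) (nat_lit 196) (nat_lit 211) (nat_lit 193)) (PT.lf (nat_lit 26524) (nat_lit 6) (nat_lit 349) (nat_lit 2) (nat_lit 197) (nat_lit 211) (nat_lit 192))) (PT.nd (nat_lit 78) (PT.lf (nat_lit 26600) (nat_lit 6) (nat_lit 350) (nat_lit 2) (nat_lit 198) (nat_lit 211) (nat_lit 191)) (PT.lf (nat_lit 26676) (nat_lit 6) (nat_lit 351) (nat_lit 2) (nat_lit 199) (nat_lit 211) (nat_lit 190)))) (PT.nd (nat_lit 156) (PT.nd (nat_lit 78) (PT.lf (nat_lit 26752) (nat_lit 6) (nat_lit 352) (nat_lit 2) (nat_lit 200) (nat_lit 211) (nat_lit 189)) (PT.lf (nat_lit 25916) (nat_lit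 6) (nat_lit 341) (nat_lit 2) (nat_lit 201) (nat_lit 211) (nat_lit 188))) (PT.nd (nat_lit 78) (PT.lf (nat_lit 25004) (nat_lit 6) (nat_lit 329) (nat_lit 2) (nat_lit 202) (nat_lit 211) (nat_lit 187)) (PT.nd (nat_lit 78) (PT.lf (nat_lit 24016) (nat_lit 6) (nat_lit 316) (nat_lit 2) (nat_lit 203) (nat_lit 211) (nat_lit 186)) (PT.lf (nat_lit 22952) (nat_lit 6) (nat_lit 302) (nat_lit 2) (nat_lit 204) (nat_lit 211) (nat_lit 185))))))) (PT.nd (nat_lit 702) (PT.nd (nat_lit 312) (PT.nd (nat_lit 156) (PT.nd (nat_lit 78) (PT.lf (nat_lit 21812) (nat_lit 6) (nat_lit 287) (nat_lit 2) (nat_lit 205) (nat_lit 211) (nat_lit 184)) (PT.lf (nat_lit 20596) (nat_lit 6) (nat_lit 271) (nat_lit 2) (nat_lit 206) (nat_lit 211) (nat_lit 183))) (PT.nd (nat_lit 78) (PT.lf (nat_lit 19836) (nat_lit 6) (nat_lit 261) (nat_lit 2) (nat_lit 207) (nat_lit 211) (nat_lit 182)) (PT.lf (nat_lit 19228) (nat_lit 6) (nat_lit 253) (nat_lit 2) (nat_lit 208) (nat_lit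 211) (nat_lit 181)))) (PT.nd (nat_lit 156) (PT.nd (nat_lit 78) (PT.lf (nat_lit 18620) (nat_lit 6) (nat_lit 245) (nat_lit 2) (nat_lit 209) (nat_lit 211) (nat_lit 180)) (PT.lf (nat_lit 18088) (nat_lit 6) (nat_lit 238) (nat_lit 2) (nat_lit 210) (nat_lit 211) (nat_lit 179))) (PT.nd (nat_lit 78) (PT.lf (nat_lit 17556) (nat_lit 3) (nat_lit 231) (nat_lit 0) (nat_lit 211) (nat_lit 211) (nat_lit 178)) (PT.nd (nat_lit 78) (PT.lf (nat_lit 16948) (nat_lit 6) (nat_lit 223) (nat_lit 0) (nat_lit 212) (nat_lit 211) (nat_lit 177)) (PT.lf (nat_lit 16340) (nat_lit 6) (nat_lit 215) (nat_lit 0) (nat_lit 213) (nat_lit 211) (nat_lit 176)))))) (PT.nd (nat_lit 312) (PT.nd (nat_lit 156) (PT.nd (nat_lit 78) (PT.lf (nat_lit 15808) (nat_lit 6) (nat_lit 208) (nat_lit 0) (nat_lit 214) (nat_lit 211) (nat_lit 175)) (PT.lf (nat_lit 15276) (nat_lit 6) (nat_lit 201) (nat_lit 0) (nat_lit 215) (nat_lit 211) (nat_lit 174))) (PT.nd (nat_lit 78) (PT.lf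 (nat_lit 14744) (nat_lit 6) (nat_lit 194) (nat_lit 0) (nat_lit 216) (nat_lit 211) (nat_lit 173)) (PT.lf (nat_lit 14212) (nat_lit 6) (nat_lit 187) (nat_lit 0) (nat_lit 217) (nat_lit 211) (nat_lit 172)))) (PT.nd (nat_lit 156) (PT.nd (nat_lit 78) (PT.lf (nat_lit 13756) (nat_lit 6) (nat_lit 181) (nat_lit 0) (nat_lit 218) (nat_lit 211) (nat_lit 171)) (PT.lf (nat_lit 13300) (nat_lit 6) (nat_lit 175) (nat_lit 0) (nat_lit 219) (nat_lit 211) (nat_lit 170))) (PT.nd (nat_lit 58344) (PT.lf (nat_lit 12844) (nat_lit 6) (nat_lit 169) (nat_lit 0) (nat_lit 220) (nat_lit 211) (nat_lit 169)) (PT.nd (nat_lit 78) (PT.lf (nat_lit 12084) (nat_lit 6) (nat_lit 159) (nat_lit 5) (nat_lit 167) (nat_lit 212) (nat_lit 221)) (PT.lf (nat_lit 12464) (nat_lit 6) (nat_lit 164) (nat_lit 5) (nat_lit 168) (nat_lit 212) (nat_lit 220))))))))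
noncomputable def pc39 : PT := (PT.nd (nat_lit 1404) (PT.nd (nat_lit 702) (PT.nd (nat_lit 312) (PT.nd (nat_lit 156) (PT.nd (nat_lit 78) (PT.lf (nat_lit 12920) (nat_lit 6) (nat_lit 170) (nat_lit 5) (nat_lit 169) (nat_lit 212) (nat_lit 219)) (PT.lf (nat_lit 13376) (nat_lit 6) (nat_lit 176) (nat_lit 5) (nat_lit 170) (nat_lit 212) (nat_lit 218))) (PT.nd (nat_lit 78) (PT.lf (nat_lit 13832) (nat_lit 6) (nat_lit 182) (nat_lit 5) (nat_lit 171) (nat_lit 212) (nat_lit 217)) (PT.lf (nat_lit 14288) (nat_lit 6) (nat_lit 188) (nat_lit 5) (nat_lit 172) (nat_lit 212) (nat_lit 216)))) (PT.nd (nat_lit 156) (PT.nd (nat_lit 78) (PT.lf (nat_lit 14820) (nat_lit 6) (nat_lit 195) (nat_lit 5) (nat_lit 173) (nat_lit 212) (nat_lit 215)) (PT.lf (nat_lit 15352) (nat_lit 6) (nat_lit 202) (nat_lit 5) (nat_lit 174) (nat_lit 212) (nat_lit 214))) (PT.nd (nat_lit 78) (PT.lf (nat_lit 15884) (nat_lit 6) (nat_lit 209) (nat_lit 5) (nat_lit 175) (nat_lit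 212) (nat_lit 213)) (PT.nd (nat_lit 78) (PT.lf (nat_lit 16416) (nat_lit 3) (nat_lit 216) (nat_lit 4) (nat_lit 176) (nat_lit 212) (nat_lit 212)) (PT.lf (nat_lit 16948) (nat_lit 6) (nat_lit 223) (nat_lit 4) (nat_lit 177) (nat_lit 212) (nat_lit 211)))))) (PT.nd (nat_lit 312) (PT.nd (nat_lit 156) (PT.nd (nat_lit 78) (PT.lf (nat_lit 17480) (nat_lit 6) (nat_lit 230) (nat_lit 4) (nat_lit 178) (nat_lit 212) (nat_lit 210)) (PT.lf (nat_lit 18012) (nat_lit 6) (nat_lit 237) (nat_lit 4) (nat_lit 179) (nat_lit 212) (nat_lit 209))) (PT.nd (nat_lit 78) (PT.lf (nat_lit 18544) (nat_lit 6) (nat_lit 244) (nat_lit 4) (nat_lit 180) (nat_lit 212) (nat_lit 208)) (PT.lf (nat_lit 19152) (nat_lit 6) (nat_lit 252) (nat_lit 4) (nat_lit 181) (nat_lit 212) (nat_lit 207)))) (PT.nd (nat_lit 156) (PT.nd (nat_lit 78) (PT.lf (nat_lit 19760) (nat_lit 6) (nat_lit 260) (nat_lit 4) (nat_lit 182) (nat_lit 212) (nat_lit 206)) (PT.lf (nat_lit 20520) (nat_lit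 6) (nat_lit 270) (nat_lit 4) (nat_lit 183) (nat_lit 212) (nat_lit 205))) (PT.nd (nat_lit 78) (PT.lf (nat_lit 21736) (nat_lit 6) (nat_lit 286) (nat_lit 4) (nat_lit 184) (nat_lit 212) (nat_lit 204)) (PT.nd (nat_lit 78) (PT.lf (nat_lit 22876) (nat_lit 6) (nat_lit 301) (nat_lit 4) (nat_lit 185) (nat_lit 212) (nat_lit 203)) (PT.lf (nat_lit 23940) (nat_lit 6) (nat_lit 315) (nat_lit 4) (nat_lit 186) (nat_lit 212) (nat_lit 202))))))) (PT.nd (nat_lit 702) (PT.nd (nat_lit 312) (PT.nd (nat_lit 156) (PT.nd (nat_lit 78) (PT.lf (nat_lit 24928) (nat_lit 6) (nat_lit 328) (nat_lit 4) (nat_lit 187) (nat_lit 212) (nat_lit 201)) (PT.lf (nat_lit 25840) (nat_lit 6) (nat_lit 340) (nat_lit 4) (nat_lit 188) (nat_lit 212) (nat_lit 200))) (PT.nd (nat_lit 78) (PT.lf (nat_lit 25764) (nat_lit 6) (nat_lit 339) (nat_lit 4) (nat_lit 189) (nat_lit 212) (nat_lit 199)) (PT.lf (nat_lit 25688) (nat_lit 6) (nat_lit 338) (nat_lit 4) (nat_lit 190) (nat_lit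 212) (nat_lit 198)))) (PT.nd (nat_lit 156) (PT.nd (nat_lit 78) (PT.lf (nat_lit 25612) (nat_lit 6) (nat_lit 337) (nat_lit 4) (nat_lit 191) (nat_lit 212) (nat_lit 197)) (PT.lf (nat_lit 25536) (nat_lit 6) (nat_lit 336) (nat_lit 4) (nat_lit 192) (nat_lit 212) (nat_lit 196))) (PT.nd (nat_lit 78) (PT.lf (nat_lit 25460) (nat_lit 6) (nat_lit 335) (nat_lit 4) (nat_lit 193) (nat_lit 212) (nat_lit 195)) (PT.nd (nat_lit 78) (PT.lf (nat_lit 25384) (nat_lit 3) (nat_lit 334) (nat_lit 2) (nat_lit 194) (nat_lit 212) (nat_lit 194)) (PT.lf (nat_lit 25460) (nat_lit 6) (nat_lit 335) (nat_lit 2) (nat_lit 195) (nat_lit 212) (nat_lit 193)))))) (PT.nd (nat_lit 390) (PT.nd (nat_lit 156) (PT.nd (nat_lit 78) (PT.lf (nat_lit 25536) (nat_lit 6) (nat_lit 336) (nat_lit 2) (nat_lit 196) (nat_lit 212) (nat_lit 192)) (PT.lf (nat_lit 25612) (nat_lit 6) (nat_lit 337) (nat_lit 2) (nat_lit 197) (nat_lit 212) (nat_lit 191))) (PT.nd (nat_lit 78) (PT.lf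 (nat_lit 25688) (nat_lit 6) (nat_lit 338) (nat_lit 2) (nat_lit 198) (nat_lit 212) (nat_lit 190)) (PT.nd (nat_lit 78) (PT.lf (nat_lit 25764) (nat_lit 6) (nat_lit 339) (nat_lit 2) (nat_lit 199) (nat_lit 212) (nat_lit 189)) (PT.lf (nat_lit 25840) (nat_lit 6) (nat_lit 340) (nat_lit 2) (nat_lit 200) (nat_lit 212) (nat_lit 188))))) (PT.nd (nat_lit 156) (PT.nd (nat_lit 78) (PT.lf (nat_lit 24928) (nat_lit 6) (nat_lit 328) (nat_lit 2) (nat_lit 201) (nat_lit 212) (nat_lit 187)) (PT.lf (nat_lit 23940) (nat_lit 6) (nat_lit 315) (nat_lit 2) (nat_lit 202) (nat_lit 212) (nat_lit 186))) (PT.nd (nat_lit 78) (PT.lf (nat_lit 22876) (nat_lit 6) (nat_lit 301) (nat_lit 2) (nat_lit 203) (nat_lit 212) (nat_lit 185)) (PT.nd (nat_lit 78) (PT.lf (nat_lit 21736) (nat_lit 6) (nat_lit 286) (nat_lit 2) (nat_lit 204) (nat_lit 212) (nat_lit 184)) (PT.lf (nat_lit 20520) (nat_lit 6) (nat_lit 270) (nat_lit 2) (nat_lit 205) (nat_lit 212) (nat_lit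 183))))))))
noncomputable def pc40 : PT := (PT.nd (nat_lit 59514) (PT.nd (nat_lit 702) (PT.nd (nat_lit 312) (PT.nd (nat_lit 156) (PT.nd (nat_lit 78) (PT.lf (nat_lit 19760) (nat_lit 6) (nat_lit 260) (nat_lit 2) (nat_lit 206) (nat_lit 212) (nat_lit 182)) (PT.lf (nat_lit 19152) (nat_lit 6) (nat_lit 252) (nat_lit 2) (nat_lit 207) (nat_lit 212) (nat_lit 181))) (PT.nd (nat_lit 78) (PT.lf (nat_lit 18544) (nat_lit 6) (nat_lit 244) (nat_lit 2) (nat_lit 208) (nat_lit 212) (nat_lit 180)) (PT.lf (nat_lit 18012) (nat_lit 6) (nat_lit 237) (nat_lit 2) (nat_lit 209) (nat_lit 212) (nat_lit 179)))) (PT.nd (nat_lit 156) (PT.nd (nat_lit 78) (PT.lf (nat_lit 17480) (nat_lit 6) (nat_lit 230) (nat_lit 2) (nat_lit 210) (nat_lit 212) (nat_lit 178)) (PT.lf (nat_lit 16948) (nat_lit 6) (nat_lit 223) (nat_lit 2) (nat_lit 211) (nat_lit 212) (nat_lit 177))) (PT.nd (nat_lit 78) (PT.lf (nat_lit 16416) (nat_lit 3) (nat_lit 216) (nat_lit 0) (nat_lit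 212) (nat_lit 212) (nat_lit 176)) (PT.nd (nat_lit 78) (PT.lf (nat_lit 15884) (nat_lit 6) (nat_lit 209) (nat_lit 0) (nat_lit 213) (nat_lit 212) (nat_lit 175)) (PT.lf (nat_lit 15352) (nat_lit 6) (nat_lit 202) (nat_lit 0) (nat_lit 214) (nat_lit 212) (nat_lit 174)))))) (PT.nd (nat_lit 312) (PT.nd (nat_lit 156) (PT.nd (nat_lit 78) (PT.lf (nat_lit 14820) (nat_lit 6) (nat_lit 195) (nat_lit 0) (nat_lit 215) (nat_lit 212) (nat_lit 173)) (PT.lf (nat_lit 14288) (nat_lit 6) (nat_lit 188) (nat_lit 0) (nat_lit 216) (nat_lit 212) (nat_lit 172))) (PT.nd (nat_lit 78) (PT.lf (nat_lit 13832) (nat_lit 6) (nat_lit 182) (nat_lit 0) (nat_lit 217) (nat_lit 212) (nat_lit 171)) (PT.lf (nat_lit 13376) (nat_lit 6) (nat_lit 176) (nat_lit 0) (nat_lit 218) (nat_lit 212) (nat_lit 170)))) (PT.nd (nat_lit 156) (PT.nd (nat_lit 78) (PT.lf (nat_lit 12920) (nat_lit 6) (nat_lit 170) (nat_lit 0) (nat_lit 219) (nat_lit 212) (nat_lit 169)) (PT.lf (nat_lit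 12464) (nat_lit 6) (nat_lit 164) (nat_lit 0) (nat_lit 220) (nat_lit 212) (nat_lit 168))) (PT.nd (nat_lit 58188) (PT.lf (nat_lit 12084) (nat_lit 6) (nat_lit 159) (nat_lit 0) (nat_lit 221) (nat_lit 212) (nat_lit 167)) (PT.nd (nat_lit 78) (PT.lf (nat_lit 11704) (nat_lit 6) (nat_lit 154) (nat_lit 5) (nat_lit 166) (nat_lit 213) (nat_lit 221)) (PT.lf (nat_lit 12160) (nat_lit 6) (nat_lit 160) (nat_lit 5) (nat_lit 167) (nat_lit 213) (nat_lit 220))))))) (PT.nd (nat_lit 702) (PT.nd (nat_lit 312) (PT.nd (nat_lit 156) (PT.nd (nat_lit 78) (PT.lf (nat_lit 12540) (nat_lit 6) (nat_lit 165) (nat_lit 5) (nat_lit 168) (nat_lit 213) (nat_lit 219)) (PT.lf (nat_lit 12996) (nat_lit 6) (nat_lit 171) (nat_lit 5) (nat_lit 169) (nat_lit 213) (nat_lit 218))) (PT.nd (nat_lit 78) (PT.lf (nat_lit 13452) (nat_lit 6) (nat_lit 177) (nat_lit 5) (nat_lit 170) (nat_lit 213) (nat_lit 217)) (PT.lf (nat_lit 13908) (nat_lit 6) (nat_lit 183) (nat_lit 5)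 (nat_lit 171) (nat_lit 213) (nat_lit 216)))) (PT.nd (nat_lit 156) (PT.nd (nat_lit 78) (PT.lf (nat_lit 14364) (nat_lit 6) (nat_lit 189) (nat_lit 5) (nat_lit 172) (nat_lit 213) (nat_lit 215)) (PT.lf (nat_lit 14896) (nat_lit 6) (nat_lit 196) (nat_lit 5) (nat_lit 173) (nat_lit 213) (nat_lit 214))) (PT.nd (nat_lit 78) (PT.lf (nat_lit 15428) (nat_lit 3) (nat_lit 203) (nat_lit 4) (nat_lit 174) (nat_lit 213) (nat_lit 213)) (PT.nd (nat_lit 78) (PT.lf (nat_lit 15884) (nat_lit 6) (nat_lit 209) (nat_lit 4) (nat_lit 175) (nat_lit 213) (nat_lit 212)) (PT.lf (nat_lit 16340) (nat_lit 6) (nat_lit 215) (nat_lit 4) (nat_lit 176) (nat_lit 213) (nat_lit 211)))))) (PT.nd (nat_lit 312) (PT.nd (nat_lit 156) (PT.nd (nat_lit 78) (PT.lf (nat_lit 16872) (nat_lit 6) (nat_lit 222) (nat_lit 4) (nat_lit 177) (nat_lit 213) (nat_lit 210)) (PT.lf (nat_lit 17404) (nat_lit 6) (nat_lit 229) (nat_lit 4) (nat_lit 178) (nat_lit 213) (nat_lit 209))) (PT.nd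 (nat_lit 78) (PT.lf (nat_lit 17936) (nat_lit 6) (nat_lit 236) (nat_lit 4) (nat_lit 179) (nat_lit 213) (nat_lit 208)) (PT.lf (nat_lit 18468) (nat_lit 6) (nat_lit 243) (nat_lit 4) (nat_lit 180) (nat_lit 213) (nat_lit 207)))) (PT.nd (nat_lit 156) (PT.nd (nat_lit 78) (PT.lf (nat_lit 19076) (nat_lit 6) (nat_lit 251) (nat_lit 4) (nat_lit 181) (nat_lit 213) (nat_lit 206)) (PT.lf (nat_lit 19684) (nat_lit 6) (nat_lit 259) (nat_lit 4) (nat_lit 182) (nat_lit 213) (nat_lit 205))) (PT.nd (nat_lit 78) (PT.lf (nat_lit 20444) (nat_lit 6) (nat_lit 269) (nat_lit 4) (nat_lit 183) (nat_lit 213) (nat_lit 204)) (PT.nd (nat_lit 78) (PT.lf (nat_lit 21660) (nat_lit 6) (nat_lit 285) (nat_lit 4) (nat_lit 184) (nat_lit 213) (nat_lit 203)) (PT.lf (nat_lit 22800) (nat_lit 6) (nat_lit 300) (nat_lit 4) (nat_lit 185) (nat_lit 213) (nat_lit 202))))))))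
noncomputable def pc41 : PT := (PT.nd (nat_lit 1404) (PT.nd (nat_lit 702) (PT.nd (nat_lit 312) (PT.nd (nat_lit 156) (PT.nd (nat_lit 78) (PT.lf (nat_lit 23864) (nat_lit 6) (nat_lit 314) (nat_lit 4) (nat_lit 186) (nat_lit 213) (nat_lit 201)) (PT.lf (nat_lit 24852) (nat_lit 6) (nat_lit 327) (nat_lit 4) (nat_lit 187) (nat_lit 213) (nat_lit 200))) (PT.nd (nat_lit 78) (PT.lf (nat_lit 24776) (nat_lit 6) (nat_lit 326) (nat_lit 4) (nat_lit 188) (nat_lit 213) (nat_lit 199)) (PT.lf (nat_lit 24700) (nat_lit 6) (nat_lit 325) (nat_lit 4) (nat_lit 189) (nat_lit 213) (nat_lit 198)))) (PT.nd (nat_lit 156) (PT.nd (nat_lit 78) (PT.lf (nat_lit 24624) (nat_lit 6) (nat_lit 324) (nat_lit 4) (nat_lit 190) (nat_lit 213) (nat_lit 197)) (PT.lf (nat_lit 24548) (nat_lit 6) (nat_lit 323) (nat_lit 4) (nat_lit 191) (nat_lit 213) (nat_lit 196))) (PT.nd (nat_lit 78) (PT.lf (nat_lit 24472) (nat_lit 6) (nat_lit 322) (nat_lit 4) (nat_lit 192) (nat_lit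 213) (nat_lit 195)) (PT.nd (nat_lit 78) (PT.lf (nat_lit 24396) (nat_lit 6) (nat_lit 321) (nat_lit 4) (nat_lit 193) (nat_lit 213) (nat_lit 194)) (PT.lf (nat_lit 24396) (nat_lit 6) (nat_lit 321) (nat_lit 2) (nat_lit 194) (nat_lit 213) (nat_lit 193)))))) (PT.nd (nat_lit 312) (PT.nd (nat_lit 156) (PT.nd (nat_lit 78) (PT.lf (nat_lit 24472) (nat_lit 6) (nat_lit 322) (nat_lit 2) (nat_lit 195) (nat_lit 213) (nat_lit 192)) (PT.lf (nat_lit 24548) (nat_lit 6) (nat_lit 323) (nat_lit 2) (nat_lit 196) (nat_lit 213) (nat_lit 191))) (PT.nd (nat_lit 78) (PT.lf (nat_lit 24624) (nat_lit 6) (nat_lit 324) (nat_lit 2) (nat_lit 197) (nat_lit 213) (nat_lit 190)) (PT.lf (nat_lit 24700) (nat_lit 6) (nat_lit 325) (nat_lit 2) (nat_lit 198) (nat_lit 213) (nat_lit 189)))) (PT.nd (nat_lit 156) (PT.nd (nat_lit 78) (PT.lf (nat_lit 24776) (nat_lit 6) (nat_lit 326) (nat_lit 2) (nat_lit 199) (nat_lit 213) (nat_lit 188)) (PT.lf (nat_lit 24852) (nat_lit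 6) (nat_lit 327) (nat_lit 2) (nat_lit 200) (nat_lit 213) (nat_lit 187))) (PT.nd (nat_lit 78) (PT.lf (nat_lit 23864) (nat_lit 6) (nat_lit 314) (nat_lit 2) (nat_lit 201) (nat_lit 213) (nat_lit 186)) (PT.nd (nat_lit 78) (PT.lf (nat_lit 22800) (nat_lit 6) (nat_lit 300) (nat_lit 2) (nat_lit 202) (nat_lit 213) (nat_lit 185)) (PT.lf (nat_lit 21660) (nat_lit 6) (nat_lit 285) (nat_lit 2) (nat_lit 203) (nat_lit 213) (nat_lit 184))))))) (PT.nd (nat_lit 702) (PT.nd (nat_lit 312) (PT.nd (nat_lit 156) (PT.nd (nat_lit 78) (PT.lf (nat_lit 20444) (nat_lit 6) (nat_lit 269) (nat_lit 2) (nat_lit 204) (nat_lit 213) (nat_lit 183)) (PT.lf (nat_lit 19684) (nat_lit 6) (nat_lit 259) (nat_lit 2) (nat_lit 205) (nat_lit 213) (nat_lit 182))) (PT.nd (nat_lit 78) (PT.lf (nat_lit 19076) (nat_lit 6) (nat_lit 251) (nat_lit 2) (nat_lit 206) (nat_lit 213) (nat_lit 181)) (PT.lf (nat_lit 18468) (nat_lit 6) (nat_lit 243) (nat_lit 2) (nat_lit 207) (nat_lit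 213) (nat_lit 180)))) (PT.nd (nat_lit 156) (PT.nd (nat_lit 78) (PT.lf (nat_lit 17936) (nat_lit 6) (nat_lit 236) (nat_lit 2) (nat_lit 208) (nat_lit 213) (nat_lit 179)) (PT.lf (nat_lit 17404) (nat_lit 6) (nat_lit 229) (nat_lit 2) (nat_lit 209) (nat_lit 213) (nat_lit 178))) (PT.nd (nat_lit 78) (PT.lf (nat_lit 16872) (nat_lit 6) (nat_lit 222) (nat_lit 2) (nat_lit 210) (nat_lit 213) (nat_lit 177)) (PT.nd (nat_lit 78) (PT.lf (nat_lit 16340) (nat_lit 6) (nat_lit 215) (nat_lit 2) (nat_lit 211) (nat_lit 213) (nat_lit 176)) (PT.lf (nat_lit 15884) (nat_lit 6) (nat_lit 209) (nat_lit 2) (nat_lit 212) (nat_lit 213) (nat_lit 175)))))) (PT.nd (nat_lit 312) (PT.nd (nat_lit 156) (PT.nd (nat_lit 78) (PT.lf (nat_lit 15428) (nat_lit 3) (nat_lit 203) (nat_lit 0) (nat_lit 213) (nat_lit 213) (nat_lit 174)) (PT.lf (nat_lit 14896) (nat_lit 6) (nat_lit 196) (nat_lit 0) (nat_lit 214) (nat_lit 213) (nat_lit 173))) (PT.nd (nat_lit 78) (PT.lf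 (nat_lit 14364) (nat_lit 6) (nat_lit 189) (nat_lit 0) (nat_lit 215) (nat_lit 213) (nat_lit 172)) (PT.lf (nat_lit 13908) (nat_lit 6) (nat_lit 183) (nat_lit 0) (nat_lit 216) (nat_lit 213) (nat_lit 171)))) (PT.nd (nat_lit 156) (PT.nd (nat_lit 78) (PT.lf (nat_lit 13452) (nat_lit 6) (nat_lit 177) (nat_lit 0) (nat_lit 217) (nat_lit 213) (nat_lit 170)) (PT.lf (nat_lit 12996) (nat_lit 6) (nat_lit 171) (nat_lit 0) (nat_lit 218) (nat_lit 213) (nat_lit 169))) (PT.nd (nat_lit 78) (PT.lf (nat_lit 12540) (nat_lit 6) (nat_lit 165) (nat_lit 0) (nat_lit 219) (nat_lit 213) (nat_lit 168)) (PT.nd (nat_lit 78) (PT.lf (nat_lit 12160) (nat_lit 6) (nat_lit 160) (nat_lit 0) (nat_lit 220) (nat_lit 213) (nat_lit 167)) (PT.lf (nat_lit 11704) (nat_lit 6) (nat_lit 154) (nat_lit 0) (nat_lit 221) (nat_lit 213) (nat_lit 166))))))))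
noncomputable def pc42 : PT := (PT.nd (nat_lit 1404) (PT.nd (nat_lit 702) (PT.nd (nat_lit 312) (PT.nd (nat_lit 156) (PT.nd (nat_lit 78) (PT.lf (nat_lit 11020) (nat_lit 6) (nat_lit 145) (nat_lit 5) (nat_lit 164) (nat_lit 214) (nat_lit 222)) (PT.lf (nat_lit 11400) (nat_lit 6) (nat_lit 150) (nat_lit 5) (nat_lit 165) (nat_lit 214) (nat_lit 221))) (PT.nd (nat_lit 78) (PT.lf (nat_lit 11780) (nat_lit 6) (nat_lit 155) (nat_lit 5) (nat_lit 166) (nat_lit 214) (nat_lit 220)) (PT.lf (nat_lit 12236) (nat_lit 6) (nat_lit 161) (nat_lit 5) (nat_lit 167) (nat_lit 214) (nat_lit 219)))) (PT.nd (nat_lit 156) (PT.nd (nat_lit 78) (PT.lf (nat_lit 12616) (nat_lit 6) (nat_lit 166) (nat_lit 5) (nat_lit 168) (nat_lit 214) (nat_lit 218)) (PT.lf (nat_lit 13072) (nat_lit 6) (nat_lit 172) (nat_lit 5) (nat_lit 169) (nat_lit 214) (nat_lit 217))) (PT.nd (nat_lit 78) (PT.lf (nat_lit 13528) (nat_lit 6) (nat_lit 178) (nat_lit 5) (nat_lit 170) (nat_lit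 214) (nat_lit 216)) (PT.nd (nat_lit 78) (PT.lf (nat_lit 13984) (nat_lit 6) (nat_lit 184) (nat_lit 5) (nat_lit 171) (nat_lit 214) (nat_lit 215)) (PT.lf (nat_lit 14440) (nat_lit 3) (nat_lit 190) (nat_lit 4) (nat_lit 172) (nat_lit 214) (nat_lit 214)))))) (PT.nd (nat_lit 312) (PT.nd (nat_lit 156) (PT.nd (nat_lit 78) (PT.lf (nat_lit 14896) (nat_lit 6) (nat_lit 196) (nat_lit 4) (nat_lit 173) (nat_lit 214) (nat_lit 213)) (PT.lf (nat_lit 15352) (nat_lit 6) (nat_lit 202) (nat_lit 4) (nat_lit 174) (nat_lit 214) (nat_lit 212))) (PT.nd (nat_lit 78) (PT.lf (nat_lit 15808) (nat_lit 6) (nat_lit 208) (nat_lit 4) (nat_lit 175) (nat_lit 214) (nat_lit 211)) (PT.lf (nat_lit 16264) (nat_lit 6) (nat_lit 214) (nat_lit 4) (nat_lit 176) (nat_lit 214) (nat_lit 210)))) (PT.nd (nat_lit 156) (PT.nd (nat_lit 78) (PT.lf (nat_lit 16796) (nat_lit 6) (nat_lit 221) (nat_lit 4) (nat_lit 177) (nat_lit 214) (nat_lit 209)) (PT.lf (nat_lit 17328) (nat_lit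 6) (nat_lit 228) (nat_lit 4) (nat_lit 178) (nat_lit 214) (nat_lit 208))) (PT.nd (nat_lit 78) (PT.lf (nat_lit 17860) (nat_lit 6) (nat_lit 235) (nat_lit 4) (nat_lit 179) (nat_lit 214) (nat_lit 207)) (PT.nd (nat_lit 78) (PT.lf (nat_lit 18392) (nat_lit 6) (nat_lit 242) (nat_lit 4) (nat_lit 180) (nat_lit 214) (nat_lit 206)) (PT.lf (nat_lit 19000) (nat_lit 6) (nat_lit 250) (nat_lit 4) (nat_lit 181) (nat_lit 214) (nat_lit 205))))))) (PT.nd (nat_lit 702) (PT.nd (nat_lit 312) (PT.nd (nat_lit 156) (PT.nd (nat_lit 78) (PT.lf (nat_lit 19608) (nat_lit 6) (nat_lit 258) (nat_lit 4) (nat_lit 182) (nat_lit 214) (nat_lit 204)) (PT.lf (nat_lit 20368) (nat_lit 6) (nat_lit 268) (nat_lit 4) (nat_lit 183) (nat_lit 214) (nat_lit 203))) (PT.nd (nat_lit 78) (PT.lf (nat_lit 21584) (nat_lit 6) (nat_lit 284) (nat_lit 4) (nat_lit 184) (nat_lit 214) (nat_lit 202)) (PT.lf (nat_lit 22724) (nat_lit 6) (nat_lit 299) (nat_lit 4) (nat_lit 185) (nat_lit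 214) (nat_lit 201)))) (PT.nd (nat_lit 156) (PT.nd (nat_lit 78) (PT.lf (nat_lit 23788) (nat_lit 6) (nat_lit 313) (nat_lit 4) (nat_lit 186) (nat_lit 214) (nat_lit 200)) (PT.lf (nat_lit 23712) (nat_lit 6) (nat_lit 312) (nat_lit 4) (nat_lit 187) (nat_lit 214) (nat_lit 199))) (PT.nd (nat_lit 78) (PT.lf (nat_lit 23636) (nat_lit 6) (nat_lit 311) (nat_lit 4) (nat_lit 188) (nat_lit 214) (nat_lit 198)) (PT.nd (nat_lit 78) (PT.lf (nat_lit 23560) (nat_lit 6) (nat_lit 310) (nat_lit 4) (nat_lit 189) (nat_lit 214) (nat_lit 197)) (PT.lf (nat_lit 23484) (nat_lit 6) (nat_lit 309) (nat_lit 4) (nat_lit 190) (nat_lit 214) (nat_lit 196)))))) (PT.nd (nat_lit 312) (PT.nd (nat_lit 156) (PT.nd (nat_lit 78) (PT.lf (nat_lit 23408) (nat_lit 6) (nat_lit 308) (nat_lit 4) (nat_lit 191) (nat_lit 214) (nat_lit 195)) (PT.lf (nat_lit 23332) (nat_lit 6) (nat_lit 307) (nat_lit 4) (nat_lit 192) (nat_lit 214) (nat_lit 194))) (PT.nd (nat_lit 78) (PT.lf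 (nat_lit 23256) (nat_lit 3) (nat_lit 306) (nat_lit 2) (nat_lit 193) (nat_lit 214) (nat_lit 193)) (PT.lf (nat_lit 23332) (nat_lit 6) (nat_lit 307) (nat_lit 2) (nat_lit 194) (nat_lit 214) (nat_lit 192)))) (PT.nd (nat_lit 156) (PT.nd (nat_lit 78) (PT.lf (nat_lit 23408) (nat_lit 6) (nat_lit 308) (nat_lit 2) (nat_lit 195) (nat_lit 214) (nat_lit 191)) (PT.lf (nat_lit 23484) (nat_lit 6) (nat_lit 309) (nat_lit 2) (nat_lit 196) (nat_lit 214) (nat_lit 190))) (PT.nd (nat_lit 78) (PT.lf (nat_lit 23560) (nat_lit 6) (nat_lit 310) (nat_lit 2) (nat_lit 197) (nat_lit 214) (nat_lit 189)) (PT.nd (nat_lit 78) (PT.lf (nat_lit 23636) (nat_lit 6) (nat_lit 311) (nat_lit 2) (nat_lit 198) (nat_lit 214) (nat_lit 188)) (PT.lf (nat_lit 23712) (nat_lit 6) (nat_lit 312) (nat_lit 2) (nat_lit 199) (nat_lit 214) (nat_lit 187))))))))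
noncomputable def pc43 : PT := (PT.nd (nat_lit 1404) (PT.nd (nat_lit 702) (PT.nd (nat_lit 312) (PT.nd (nat_lit 156) (PT.nd (nat_lit 78) (PT.lf (nat_lit 23788) (nat_lit 6) (nat_lit 313) (nat_lit 2) (nat_lit 200) (nat_lit 214) (nat_lit 186)) (PT.lf (nat_lit 22724) (nat_lit 6) (nat_lit 299) (nat_lit 2) (nat_lit 201) (nat_lit 214) (nat_lit 185))) (PT.nd (nat_lit 78) (PT.lf (nat_lit 21584) (nat_lit 6) (nat_lit 284) (nat_lit 2) (nat_lit 202) (nat_lit 214) (nat_lit 184)) (PT.lf (nat_lit 20368) (nat_lit 6) (nat_lit 268) (nat_lit 2) (nat_lit 203) (nat_lit 214) (nat_lit 183)))) (PT.nd (nat_lit 156) (PT.nd (nat_lit 78) (PT.lf (nat_lit 19608) (nat_lit 6) (nat_lit 258) (nat_lit 2) (nat_lit 204) (nat_lit 214) (nat_lit 182)) (PT.lf (nat_lit 19000) (nat_lit 6) (nat_lit 250) (nat_lit 2) (nat_lit 205) (nat_lit 214) (nat_lit 181))) (PT.nd (nat_lit 78) (PT.lf (nat_lit 18392) (nat_lit 6) (nat_lit 242) (nat_lit 2) (nat_lit 206) (nat_lit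 214) (nat_lit 180)) (PT.nd (nat_lit 78) (PT.lf (nat_lit 17860) (nat_lit 6) (nat_lit 235) (nat_lit 2) (nat_lit 207) (nat_lit 214) (nat_lit 179)) (PT.lf (nat_lit 17328) (nat_lit 6) (nat_lit 228) (nat_lit 2) (nat_lit 208) (nat_lit 214) (nat_lit 178)))))) (PT.nd (nat_lit 312) (PT.nd (nat_lit 156) (PT.nd (nat_lit 78) (PT.lf (nat_lit 16796) (nat_lit 6) (nat_lit 221) (nat_lit 2) (nat_lit 209) (nat_lit 214) (nat_lit 177)) (PT.lf (nat_lit 16264) (nat_lit 6) (nat_lit 214) (nat_lit 2) (nat_lit 210) (nat_lit 214) (nat_lit 176))) (PT.nd (nat_lit 78) (PT.lf (nat_lit 15808) (nat_lit 6) (nat_lit 208) (nat_lit 2) (nat_lit 211) (nat_lit 214) (nat_lit 175)) (PT.lf (nat_lit 15352) (nat_lit 6) (nat_lit 202) (nat_lit 2) (nat_lit 212) (nat_lit 214) (nat_lit 174)))) (PT.nd (nat_lit 156) (PT.nd (nat_lit 78) (PT.lf (nat_lit 14896) (nat_lit 6) (nat_lit 196) (nat_lit 2) (nat_lit 213) (nat_lit 214) (nat_lit 173)) (PT.lf (nat_lit 14440) (nat_lit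 3) (nat_lit 190) (nat_lit 0) (nat_lit 214) (nat_lit 214) (nat_lit 172))) (PT.nd (nat_lit 78) (PT.lf (nat_lit 13984) (nat_lit 6) (nat_lit 184) (nat_lit 0) (nat_lit 215) (nat_lit 214) (nat_lit 171)) (PT.nd (nat_lit 78) (PT.lf (nat_lit 13528) (nat_lit 6) (nat_lit 178) (nat_lit 0) (nat_lit 216) (nat_lit 214) (nat_lit 170)) (PT.lf (nat_lit 13072) (nat_lit 6) (nat_lit 172) (nat_lit 0) (nat_lit 217) (nat_lit 214) (nat_lit 169))))))) (PT.nd (nat_lit 58500) (PT.nd (nat_lit 312) (PT.nd (nat_lit 156) (PT.nd (nat_lit 78) (PT.lf (nat_lit 12616) (nat_lit 6) (nat_lit 166) (nat_lit 0) (nat_lit 218) (nat_lit 214) (nat_lit 168)) (PT.lf (nat_lit 12236) (nat_lit 6) (nat_lit 161) (nat_lit 0) (nat_lit 219) (nat_lit 214) (nat_lit 167))) (PT.nd (nat_lit 78) (PT.lf (nat_lit 11780) (nat_lit 6) (nat_lit 155) (nat_lit 0) (nat_lit 220) (nat_lit 214) (nat_lit 166)) (PT.lf (nat_lit 11400) (nat_lit 6) (nat_lit 150) (nat_lit 0) (nat_lit 221) (nat_lit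 214) (nat_lit 165)))) (PT.nd (nat_lit 57954) (PT.nd (nat_lit 57876) (PT.lf (nat_lit 11020) (nat_lit 6) (nat_lit 145) (nat_lit 0) (nat_lit 222) (nat_lit 214) (nat_lit 164)) (PT.lf (nat_lit 10716) (nat_lit 6) (nat_lit 141) (nat_lit 5) (nat_lit 163) (nat_lit 215) (nat_lit 222))) (PT.nd (nat_lit 78) (PT.lf (nat_lit 11096) (nat_lit 6) (nat_lit 146) (nat_lit 5) (nat_lit 164) (nat_lit 215) (nat_lit 221)) (PT.nd (nat_lit 78) (PT.lf (nat_lit 11476) (nat_lit 6) (nat_lit 151) (nat_lit 5) (nat_lit 165) (nat_lit 215) (nat_lit 220)) (PT.lf (nat_lit 11856) (nat_lit 6) (nat_lit 156) (nat_lit 5) (nat_lit 166) (nat_lit 215) (nat_lit 219)))))) (PT.nd (nat_lit 390) (PT.nd (nat_lit 156) (PT.nd (nat_lit 78) (PT.lf (nat_lit 12312) (nat_lit 6) (nat_lit 162) (nat_lit 5) (nat_lit 167) (nat_lit 215) (nat_lit 218)) (PT.lf (nat_lit 12692) (nat_lit 6) (nat_lit 167) (nat_lit 5) (nat_lit 168) (nat_lit 215) (nat_lit 217))) (PT.nd (nat_lit 78)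 (PT.lf (nat_lit 13148) (nat_lit 6) (nat_lit 173) (nat_lit 5) (nat_lit 169) (nat_lit 215) (nat_lit 216)) (PT.nd (nat_lit 78) (PT.lf (nat_lit 13604) (nat_lit 3) (nat_lit 179) (nat_lit 4) (nat_lit 170) (nat_lit 215) (nat_lit 215)) (PT.lf (nat_lit 13984) (nat_lit 6) (nat_lit 184) (nat_lit 4) (nat_lit 171) (nat_lit 215) (nat_lit 214))))) (PT.nd (nat_lit 156) (PT.nd (nat_lit 78) (PT.lf (nat_lit 14364) (nat_lit 6) (nat_lit 189) (nat_lit 4) (nat_lit 172) (nat_lit 215) (nat_lit 213)) (PT.lf (nat_lit 14820) (nat_lit 6) (nat_lit 195) (nat_lit 4) (nat_lit 173) (nat_lit 215) (nat_lit 212))) (PT.nd (nat_lit 78) (PT.lf (nat_lit 15276) (nat_lit 6) (nat_lit 201) (nat_lit 4) (nat_lit 174) (nat_lit 215) (nat_lit 211)) (PT.nd (nat_lit 78) (PT.lf (nat_lit 15732) (nat_lit 6) (nat_lit 207) (nat_lit 4) (nat_lit 175) (nat_lit 215) (nat_lit 210)) (PT.lf (nat_lit 16188) (nat_lit 6) (nat_lit 213) (nat_lit 4) (nat_lit 176) (nat_lit 215) (nat_lit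 209))))))))
noncomputable def pc44 : PT := (PT.nd (nat_lit 1404) (PT.nd (nat_lit 702) (PT.nd (nat_lit 312) (PT.nd (nat_lit 156) (PT.nd (nat_lit 78) (PT.lf (nat_lit 16720) (nat_lit 6) (nat_lit 220) (nat_lit 4) (nat_lit 177) (nat_lit 215) (nat_lit 208)) (PT.lf (nat_lit 17252) (nat_lit 6) (nat_lit 227) (nat_lit 4) (nat_lit 178) (nat_lit 215) (nat_lit 207))) (PT.nd (nat_lit 78) (PT.lf (nat_lit 17784) (nat_lit 6) (nat_lit 234) (nat_lit 4) (nat_lit 179) (nat_lit 215) (nat_lit 206)) (PT.lf (nat_lit 18316) (nat_lit 6) (nat_lit 241) (nat_lit 4) (nat_lit 180) (nat_lit 215) (nat_lit 205)))) (PT.nd (nat_lit 156) (PT.nd (nat_lit 78) (PT.lf (nat_lit 18924) (nat_lit 6) (nat_lit 249) (nat_lit 4) (nat_lit 181) (nat_lit 215) (nat_lit 204)) (PT.lf (nat_lit 19532) (nat_lit 6) (nat_lit 257) (nat_lit 4) (nat_lit 182) (nat_lit 215) (nat_lit 203))) (PT.nd (nat_lit 78) (PT.lf (nat_lit 20292) (nat_lit 6) (nat_lit 267) (nat_lit 4) (nat_lit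 183) (nat_lit 215) (nat_lit 202)) (PT.nd (nat_lit 78) (PT.lf (nat_lit 21508) (nat_lit 6) (nat_lit 283) (nat_lit 4) (nat_lit 184) (nat_lit 215) (nat_lit 201)) (PT.lf (nat_lit 22648) (nat_lit 6) (nat_lit 298) (nat_lit 4) (nat_lit 185) (nat_lit 215) (nat_lit 200)))))) (PT.nd (nat_lit 312) (PT.nd (nat_lit 156) (PT.nd (nat_lit 78) (PT.lf (nat_lit 22572) (nat_lit 6) (nat_lit 297) (nat_lit 4) (nat_lit 186) (nat_lit 215) (nat_lit 199)) (PT.lf (nat_lit 22496) (nat_lit 6) (nat_lit 296) (nat_lit 4) (nat_lit 187) (nat_lit 215) (nat_lit 198))) (PT.nd (nat_lit 78) (PT.lf (nat_lit 22420) (nat_lit 6) (nat_lit 295) (nat_lit 4) (nat_lit 188) (nat_lit 215) (nat_lit 197)) (PT.lf (nat_lit 22344) (nat_lit 6) (nat_lit 294) (nat_lit 4) (nat_lit 189) (nat_lit 215) (nat_lit 196)))) (PT.nd (nat_lit 156) (PT.nd (nat_lit 78) (PT.lf (nat_lit 22268) (nat_lit 6) (nat_lit 293) (nat_lit 4) (nat_lit 190) (nat_lit 215) (nat_lit 195)) (PT.lf (nat_lit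 22192) (nat_lit 6) (nat_lit 292) (nat_lit 4) (nat_lit 191) (nat_lit 215) (nat_lit 194))) (PT.nd (nat_lit 78) (PT.lf (nat_lit 22116) (nat_lit 6) (nat_lit 291) (nat_lit 4) (nat_lit 192) (nat_lit 215) (nat_lit 193)) (PT.nd (nat_lit 78) (PT.lf (nat_lit 22116) (nat_lit 6) (nat_lit 291) (nat_lit 2) (nat_lit 193) (nat_lit 215) (nat_lit 192)) (PT.lf (nat_lit 22192) (nat_lit 6) (nat_lit 292) (nat_lit 2) (nat_lit 194) (nat_lit 215) (nat_lit 191))))))) (PT.nd (nat_lit 702) (PT.nd (nat_lit 312) (PT.nd (nat_lit 156) (PT.nd (nat_lit 78) (PT.lf (nat_lit 22268) (nat_lit 6) (nat_lit 293) (nat_lit 2) (nat_lit 195) (nat_lit 215) (nat_lit 190)) (PT.lf (nat_lit 22344) (nat_lit 6) (nat_lit 294) (nat_lit 2) (nat_lit 196) (nat_lit 215) (nat_lit 189))) (PT.nd (nat_lit 78) (PT.lf (nat_lit 22420) (nat_lit 6) (nat_lit 295) (nat_lit 2) (nat_lit 197) (nat_lit 215) (nat_lit 188)) (PT.lf (nat_lit 22496) (nat_lit 6) (nat_lit 296) (nat_lit 2) (nat_lit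 198) (nat_lit 215) (nat_lit 187)))) (PT.nd (nat_lit 156) (PT.nd (nat_lit 78) (PT.lf (nat_lit 22572) (nat_lit 6) (nat_lit 297) (nat_lit 2) (nat_lit 199) (nat_lit 215) (nat_lit 186)) (PT.lf (nat_lit 22648) (nat_lit 6) (nat_lit 298) (nat_lit 2) (nat_lit 200) (nat_lit 215) (nat_lit 185))) (PT.nd (nat_lit 78) (PT.lf (nat_lit 21508) (nat_lit 6) (nat_lit 283) (nat_lit 2) (nat_lit 201) (nat_lit 215) (nat_lit 184)) (PT.nd (nat_lit 78) (PT.lf (nat_lit 20292) (nat_lit 6) (nat_lit 267) (nat_lit 2) (nat_lit 202) (nat_lit 215) (nat_lit 183)) (PT.lf (nat_lit 19532) (nat_lit 6) (nat_lit 257) (nat_lit 2) (nat_lit 203) (nat_lit 215) (nat_lit 182)))))) (PT.nd (nat_lit 312) (PT.nd (nat_lit 156) (PT.nd (nat_lit 78) (PT.lf (nat_lit 18924) (nat_lit 6) (nat_lit 249) (nat_lit 2) (nat_lit 204) (nat_lit 215) (nat_lit 181)) (PT.lf (nat_lit 18316) (nat_lit 6) (nat_lit 241) (nat_lit 2) (nat_lit 205) (nat_lit 215) (nat_lit 180))) (PT.nd (nat_lit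 78) (PT.lf (nat_lit 17784) (nat_lit 6) (nat_lit 234) (nat_lit 2) (nat_lit 206) (nat_lit 215) (nat_lit 179)) (PT.lf (nat_lit 17252) (nat_lit 6) (nat_lit 227) (nat_lit 2) (nat_lit 207) (nat_lit 215) (nat_lit 178)))) (PT.nd (nat_lit 156) (PT.nd (nat_lit 78) (PT.lf (nat_lit 16720) (nat_lit 6) (nat_lit 220) (nat_lit 2) (nat_lit 208) (nat_lit 215) (nat_lit 177)) (PT.lf (nat_lit 16188) (nat_lit 6) (nat_lit 213) (nat_lit 2) (nat_lit 209) (nat_lit 215) (nat_lit 176))) (PT.nd (nat_lit 78) (PT.lf (nat_lit 15732) (nat_lit 6) (nat_lit 207) (nat_lit 2) (nat_lit 210) (nat_lit 215) (nat_lit 175)) (PT.nd (nat_lit 78) (PT.lf (nat_lit 15276) (nat_lit 6) (nat_lit 201) (nat_lit 2) (nat_lit 211) (nat_lit 215) (nat_lit 174)) (PT.lf (nat_lit 14820) (nat_lit 6) (nat_lit 195) (nat_lit 2) (nat_lit 212) (nat_lit 215) (nat_lit 173))))))))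
noncomputable def pc45 : PT := (PT.nd (nat_lit 59046) (PT.nd (nat_lit 702) (PT.nd (nat_lit 312) (PT.nd (nat_lit 156) (PT.nd (nat_lit 78) (PT.lf (nat_lit 14364) (nat_lit 6) (nat_lit 189) (nat_lit 2) (nat_lit 213) (nat_lit 215) (nat_lit 172)) (PT.lf (nat_lit 13984) (nat_lit 6) (nat_lit 184) (nat_lit 2) (nat_lit 214) (nat_lit 215) (nat_lit 171))) (PT.nd (nat_lit 78) (PT.lf (nat_lit 13604) (nat_lit 3) (nat_lit 179) (nat_lit 0) (nat_lit 215) (nat_lit 215) (nat_lit 170)) (PT.lf (nat_lit 13148) (nat_lit 6) (nat_lit 173) (nat_lit 0) (nat_lit 216) (nat_lit 215) (nat_lit 169)))) (PT.nd (nat_lit 156) (PT.nd (nat_lit 78) (PT.lf (nat_lit 12692) (nat_lit 6) (nat_lit 167) (nat_lit 0) (nat_lit 217) (nat_lit 215) (nat_lit 168)) (PT.lf (nat_lit 12312) (nat_lit 6) (nat_lit 162) (nat_lit 0) (nat_lit 218) (nat_lit 215) (nat_lit 167))) (PT.nd (nat_lit 78) (PT.lf (nat_lit 11856) (nat_lit 6) (nat_lit 156) (nat_lit 0) (nat_lit 219) (nat_lit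 215) (nat_lit 166)) (PT.nd (nat_lit 78) (PT.lf (nat_lit 11476) (nat_lit 6) (nat_lit 151) (nat_lit 0) (nat_lit 220) (nat_lit 215) (nat_lit 165)) (PT.lf (nat_lit 11096) (nat_lit 6) (nat_lit 146) (nat_lit 0) (nat_lit 221) (nat_lit 215) (nat_lit 164)))))) (PT.nd (nat_lit 57954) (PT.nd (nat_lit 57798) (PT.nd (nat_lit 57720) (PT.lf (nat_lit 10716) (nat_lit 6) (nat_lit 141) (nat_lit 0) (nat_lit 222) (nat_lit 215) (nat_lit 163)) (PT.lf (nat_lit 10108) (nat_lit 6) (nat_lit 133) (nat_lit 5) (nat_lit 161) (nat_lit 216) (nat_lit 223))) (PT.nd (nat_lit 78) (PT.lf (nat_lit 10412) (nat_lit 6) (nat_lit 137) (nat_lit 5) (nat_lit 162) (nat_lit 216) (nat_lit 222)) (PT.lf (nat_lit 10792) (nat_lit 6) (nat_lit 142) (nat_lit 5) (nat_lit 163) (nat_lit 216) (nat_lit 221)))) (PT.nd (nat_lit 156) (PT.nd (nat_lit 78) (PT.lf (nat_lit 11172) (nat_lit 6) (nat_lit 147) (nat_lit 5) (nat_lit 164) (nat_lit 216) (nat_lit 220)) (PT.lf (nat_lit 11552)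 (nat_lit 6) (nat_lit 152) (nat_lit 5) (nat_lit 165) (nat_lit 216) (nat_lit 219))) (PT.nd (nat_lit 78) (PT.lf (nat_lit 11932) (nat_lit 6) (nat_lit 157) (nat_lit 5) (nat_lit 166) (nat_lit 216) (nat_lit 218)) (PT.nd (nat_lit 78) (PT.lf (nat_lit 12388) (nat_lit 6) (nat_lit 163) (nat_lit 5) (nat_lit 167) (nat_lit 216) (nat_lit 217)) (PT.lf (nat_lit 12768) (nat_lit 3) (nat_lit 168) (nat_lit 4) (nat_lit 168) (nat_lit 216) (nat_lit 216))))))) (PT.nd (nat_lit 702) (PT.nd (nat_lit 312) (PT.nd (nat_lit 156) (PT.nd (nat_lit 78) (PT.lf (nat_lit 13148) (nat_lit 6) (nat_lit 173) (nat_lit 4) (nat_lit 169) (nat_lit 216) (nat_lit 215)) (PT.lf (nat_lit 13528) (nat_lit 6) (nat_lit 178) (nat_lit 4) (nat_lit 170) (nat_lit 216) (nat_lit 214))) (PT.nd (nat_lit 78) (PT.lf (nat_lit 13908) (nat_lit 6) (nat_lit 183) (nat_lit 4) (nat_lit 171) (nat_lit 216) (nat_lit 213)) (PT.lf (nat_lit 14288) (nat_lit 6) (nat_lit 188) (nat_lit 4) (nat_lit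 172) (nat_lit 216) (nat_lit 212)))) (PT.nd (nat_lit 156) (PT.nd (nat_lit 78) (PT.lf (nat_lit 14744) (nat_lit 6) (nat_lit 194) (nat_lit 4) (nat_lit 173) (nat_lit 216) (nat_lit 211)) (PT.lf (nat_lit 15200) (nat_lit 6) (nat_lit 200) (nat_lit 4) (nat_lit 174) (nat_lit 216) (nat_lit 210))) (PT.nd (nat_lit 78) (PT.lf (nat_lit 15656) (nat_lit 6) (nat_lit 206) (nat_lit 4) (nat_lit 175) (nat_lit 216) (nat_lit 209)) (PT.nd (nat_lit 78) (PT.lf (nat_lit 16112) (nat_lit 6) (nat_lit 212) (nat_lit 4) (nat_lit 176) (nat_lit 216) (nat_lit 208)) (PT.lf (nat_lit 16644) (nat_lit 6) (nat_lit 219) (nat_lit 4) (nat_lit 177) (nat_lit 216) (nat_lit 207)))))) (PT.nd (nat_lit 312) (PT.nd (nat_lit 156) (PT.nd (nat_lit 78) (PT.lf (nat_lit 17176) (nat_lit 6) (nat_lit 226) (nat_lit 4) (nat_lit 178) (nat_lit 216) (nat_lit 206)) (PT.lf (nat_lit 17708) (nat_lit 6) (nat_lit 233) (nat_lit 4) (nat_lit 179) (nat_lit 216) (nat_lit 205))) (PT.nd (nat_lit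 78) (PT.lf (nat_lit 18240) (nat_lit 6) (nat_lit 240) (nat_lit 4) (nat_lit 180) (nat_lit 216) (nat_lit 204)) (PT.lf (nat_lit 18848) (nat_lit 6) (nat_lit 248) (nat_lit 4) (nat_lit 181) (nat_lit 216) (nat_lit 203)))) (PT.nd (nat_lit 156) (PT.nd (nat_lit 78) (PT.lf (nat_lit 19456) (nat_lit 6) (nat_lit 256) (nat_lit 4) (nat_lit 182) (nat_lit 216) (nat_lit 202)) (PT.lf (nat_lit 20216) (nat_lit 6) (nat_lit 266) (nat_lit 4) (nat_lit 183) (nat_lit 216) (nat_lit 201))) (PT.nd (nat_lit 78) (PT.lf (nat_lit 21432) (nat_lit 6) (nat_lit 282) (nat_lit 4) (nat_lit 184) (nat_lit 216) (nat_lit 200)) (PT.nd (nat_lit 78) (PT.lf (nat_lit 21356) (nat_lit 6) (nat_lit 281) (nat_lit 4) (nat_lit 185) (nat_lit 216) (nat_lit 199)) (PT.lf (nat_lit 21280) (nat_lit 6) (nat_lit 280) (nat_lit 4) (nat_lit 186) (nat_lit 216) (nat_lit 198))))))))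
noncomputable def pc46 : PT := (PT.nd (nat_lit 1404) (PT.nd (nat_lit 702) (PT.nd (nat_lit 312) (PT.nd (nat_lit 156) (PT.nd (nat_lit 78) (PT.lf (nat_lit 21204) (nat_lit 6) (nat_lit 279) (nat_lit 4) (nat_lit 187) (nat_lit 216) (nat_lit 197)) (PT.lf (nat_lit 21128) (nat_lit 6) (nat_lit 278) (nat_lit 4) (nat_lit 188) (nat_lit 216) (nat_lit 196))) (PT.nd (nat_lit 78) (PT.lf (nat_lit 21052) (nat_lit 6) (nat_lit 277) (nat_lit 4) (nat_lit 189) (nat_lit 216) (nat_lit 195)) (PT.lf (nat_lit 20976) (nat_lit 6) (nat_lit 276) (nat_lit 4) (nat_lit 190) (nat_lit 216) (nat_lit 194)))) (PT.nd (nat_lit 156) (PT.nd (nat_lit 78) (PT.lf (nat_lit 20900) (nat_lit 6) (nat_lit 275) (nat_lit 4) (nat_lit 191) (nat_lit 216) (nat_lit 193)) (PT.lf (nat_lit 20824) (nat_lit 3) (nat_lit 274) (nat_lit 2) (nat_lit 192) (nat_lit 216) (nat_lit 192))) (PT.nd (nat_lit 78) (PT.lf (nat_lit 20900) (nat_lit 6) (nat_lit 275) (nat_lit 2) (nat_lit 193) (nat_lit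 216) (nat_lit 191)) (PT.nd (nat_lit 78) (PT.lf (nat_lit 20976) (nat_lit 6) (nat_lit 276) (nat_lit 2) (nat_lit 194) (nat_lit 216) (nat_lit 190)) (PT.lf (nat_lit 21052) (nat_lit 6) (nat_lit 277) (nat_lit 2) (nat_lit 195) (nat_lit 216) (nat_lit 189)))))) (PT.nd (nat_lit 312) (PT.nd (nat_lit 156) (PT.nd (nat_lit 78) (PT.lf (nat_lit 21128) (nat_lit 6) (nat_lit 278) (nat_lit 2) (nat_lit 196) (nat_lit 216) (nat_lit 188)) (PT.lf (nat_lit 21204) (nat_lit 6) (nat_lit 279) (nat_lit 2) (nat_lit 197) (nat_lit 216) (nat_lit 187))) (PT.nd (nat_lit 78) (PT.lf (nat_lit 21280) (nat_lit 6) (nat_lit 280) (nat_lit 2) (nat_lit 198) (nat_lit 216) (nat_lit 186)) (PT.lf (nat_lit 21356) (nat_lit 6) (nat_lit 281) (nat_lit 2) (nat_lit 199) (nat_lit 216) (nat_lit 185)))) (PT.nd (nat_lit 156) (PT.nd (nat_lit 78) (PT.lf (nat_lit 21432) (nat_lit 6) (nat_lit 282) (nat_lit 2) (nat_lit 200) (nat_lit 216) (nat_lit 184)) (PT.lf (nat_lit 20216) (nat_lit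 6) (nat_lit 266) (nat_lit 2) (nat_lit 201) (nat_lit 216) (nat_lit 183))) (PT.nd (nat_lit 78) (PT.lf (nat_lit 19456) (nat_lit 6) (nat_lit 256) (nat_lit 2) (nat_lit 202) (nat_lit 216) (nat_lit 182)) (PT.nd (nat_lit 78) (PT.lf (nat_lit 18848) (nat_lit 6) (nat_lit 248) (nat_lit 2) (nat_lit 203) (nat_lit 216) (nat_lit 181)) (PT.lf (nat_lit 18240) (nat_lit 6) (nat_lit 240) (nat_lit 2) (nat_lit 204) (nat_lit 216) (nat_lit 180))))))) (PT.nd (nat_lit 702) (PT.nd (nat_lit 312) (PT.nd (nat_lit 156) (PT.nd (nat_lit 78) (PT.lf (nat_lit 17708) (nat_lit 6) (nat_lit 233) (nat_lit 2) (nat_lit 205) (nat_lit 216) (nat_lit 179)) (PT.lf (nat_lit 17176) (nat_lit 6) (nat_lit 226) (nat_lit 2) (nat_lit 206) (nat_lit 216) (nat_lit 178))) (PT.nd (nat_lit 78) (PT.lf (nat_lit 16644) (nat_lit 6) (nat_lit 219) (nat_lit 2) (nat_lit 207) (nat_lit 216) (nat_lit 177)) (PT.lf (nat_lit 16112) (nat_lit 6) (nat_lit 212) (nat_lit 2) (nat_lit 208) (nat_lit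 216) (nat_lit 176)))) (PT.nd (nat_lit 156) (PT.nd (nat_lit 78) (PT.lf (nat_lit 15656) (nat_lit 6) (nat_lit 206) (nat_lit 2) (nat_lit 209) (nat_lit 216) (nat_lit 175)) (PT.lf (nat_lit 15200) (nat_lit 6) (nat_lit 200) (nat_lit 2) (nat_lit 210) (nat_lit 216) (nat_lit 174))) (PT.nd (nat_lit 78) (PT.lf (nat_lit 14744) (nat_lit 6) (nat_lit 194) (nat_lit 2) (nat_lit 211) (nat_lit 216) (nat_lit 173)) (PT.nd (nat_lit 78) (PT.lf (nat_lit 14288) (nat_lit 6) (nat_lit 188) (nat_lit 2) (nat_lit 212) (nat_lit 216) (nat_lit 172)) (PT.lf (nat_lit 13908) (nat_lit 6) (nat_lit 183) (nat_lit 2) (nat_lit 213) (nat_lit 216) (nat_lit 171)))))) (PT.nd (nat_lit 312) (PT.nd (nat_lit 156) (PT.nd (nat_lit 78) (PT.lf (nat_lit 13528) (nat_lit 6) (nat_lit 178) (nat_lit 2) (nat_lit 214) (nat_lit 216) (nat_lit 170)) (PT.lf (nat_lit 13148) (nat_lit 6) (nat_lit 173) (nat_lit 2) (nat_lit 215) (nat_lit 216) (nat_lit 169))) (PT.nd (nat_lit 78) (PT.lf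 (nat_lit 12768) (nat_lit 3) (nat_lit 168) (nat_lit 0) (nat_lit 216) (nat_lit 216) (nat_lit 168)) (PT.lf (nat_lit 12388) (nat_lit 6) (nat_lit 163) (nat_lit 0) (nat_lit 217) (nat_lit 216) (nat_lit 167)))) (PT.nd (nat_lit 156) (PT.nd (nat_lit 78) (PT.lf (nat_lit 11932) (nat_lit 6) (nat_lit 157) (nat_lit 0) (nat_lit 218) (nat_lit 216) (nat_lit 166)) (PT.lf (nat_lit 11552) (nat_lit 6) (nat_lit 152) (nat_lit 0) (nat_lit 219) (nat_lit 216) (nat_lit 165))) (PT.nd (nat_lit 78) (PT.lf (nat_lit 11172) (nat_lit 6) (nat_lit 147) (nat_lit 0) (nat_lit 220) (nat_lit 216) (nat_lit 164)) (PT.nd (nat_lit 78) (PT.lf (nat_lit 10792) (nat_lit 6) (nat_lit 142) (nat_lit 0) (nat_lit 221) (nat_lit 216) (nat_lit 163)) (PT.lf (nat_lit 10412) (nat_lit 6) (nat_lit 137) (nat_lit 0) (nat_lit 222) (nat_lit 216) (nat_lit 162))))))))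
noncomputable def pc47 : PT := (PT.nd (nat_lit 58812) (PT.nd (nat_lit 58110) (PT.nd (nat_lit 57720) (PT.nd (nat_lit 57564) (PT.nd (nat_lit 57486) (PT.lf (nat_lit 10108) (nat_lit 6) (nat_lit 133) (nat_lit 0) (nat_lit 223) (nat_lit 216) (nat_lit 161)) (PT.lf (nat_lit 9500) (nat_lit 6) (nat_lit 125) (nat_lit 5) (nat_lit 159) (nat_lit 217) (nat_lit 224))) (PT.nd (nat_lit 78) (PT.lf (nat_lit 9804) (nat_lit 6) (nat_lit 129) (nat_lit 5) (nat_lit 160) (nat_lit 217) (nat_lit 223)) (PT.lf (nat_lit 10184) (nat_lit 6) (nat_lit 134) (nat_lit 5) (nat_lit 161) (nat_lit 217) (nat_lit 222)))) (PT.nd (nat_lit 156) (PT.nd (nat_lit 78) (PT.lf (nat_lit 10488) (nat_lit 6) (nat_lit 138) (nat_lit 5) (nat_lit 162) (nat_lit 217) (nat_lit 221)) (PT.lf (nat_lit 10868) (nat_lit 6) (nat_lit 143) (nat_lit 5) (nat_lit 163) (nat_lit 217) (nat_lit 220))) (PT.nd (nat_lit 78) (PT.lf (nat_lit 11248) (nat_lit 6) (nat_lit 148) (nat_lit 5) (nat_lit 164)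 (nat_lit 217) (nat_lit 219)) (PT.nd (nat_lit 78) (PT.lf (nat_lit 11628) (nat_lit 6) (nat_lit 153) (nat_lit 5) (nat_lit 165) (nat_lit 217) (nat_lit 218)) (PT.lf (nat_lit 12008) (nat_lit 3) (nat_lit 158) (nat_lit 4) (nat_lit 166) (nat_lit 217) (nat_lit 217)))))) (PT.nd (nat_lit 312) (PT.nd (nat_lit 156) (PT.nd (nat_lit 78) (PT.lf (nat_lit 12388) (nat_lit 6) (nat_lit 163) (nat_lit 4) (nat_lit 167) (nat_lit 217) (nat_lit 216)) (PT.lf (nat_lit 12692) (nat_lit 6) (nat_lit 167) (nat_lit 4) (nat_lit 168) (nat_lit 217) (nat_lit 215))) (PT.nd (nat_lit 78) (PT.lf (nat_lit 13072) (nat_lit 6) (nat_lit 172) (nat_lit 4) (nat_lit 169) (nat_lit 217) (nat_lit 214)) (PT.lf (nat_lit 13452) (nat_lit 6) (nat_lit 177) (nat_lit 4) (nat_lit 170) (nat_lit 217) (nat_lit 213)))) (PT.nd (nat_lit 156) (PT.nd (nat_lit 78) (PT.lf (nat_lit 13832) (nat_lit 6) (nat_lit 182) (nat_lit 4) (nat_lit 171) (nat_lit 217) (nat_lit 212)) (PT.lf (nat_lit 14212)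 (nat_lit 6) (nat_lit 187) (nat_lit 4) (nat_lit 172) (nat_lit 217) (nat_lit 211))) (PT.nd (nat_lit 78) (PT.lf (nat_lit 14668) (nat_lit 6) (nat_lit 193) (nat_lit 4) (nat_lit 173) (nat_lit 217) (nat_lit 210)) (PT.nd (nat_lit 78) (PT.lf (nat_lit 15124) (nat_lit 6) (nat_lit 199) (nat_lit 4) (nat_lit 174) (nat_lit 217) (nat_lit 209)) (PT.lf (nat_lit 15580) (nat_lit 6) (nat_lit 205) (nat_lit 4) (nat_lit 175) (nat_lit 217) (nat_lit 208))))))) (PT.nd (nat_lit 1794) (PT.nd (nat_lit 312) (PT.nd (nat_lit 156) (PT.nd (nat_lit 78) (PT.lf (nat_lit 16036) (nat_lit 6) (nat_lit 211) (nat_lit 4) (nat_lit 176) (nat_lit 217) (nat_lit 207)) (PT.lf (nat_lit 16568) (nat_lit 6) (nat_lit 218) (nat_lit 4) (nat_lit 177) (nat_lit 217) (nat_lit 206))) (PT.nd (nat_lit 78) (PT.lf (nat_lit 17100) (nat_lit 6) (nat_lit 225) (nat_lit 4) (nat_lit 178) (nat_lit 217) (nat_lit 205)) (PT.lf (nat_lit 17632) (nat_lit 6) (nat_lit 232) (nat_lit 4) (nat_lit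 179) (nat_lit 217) (nat_lit 204)))) (PT.nd (nat_lit 156) (PT.nd (nat_lit 78) (PT.lf (nat_lit 18164) (nat_lit 6) (nat_lit 239) (nat_lit 4) (nat_lit 180) (nat_lit 217) (nat_lit 203)) (PT.lf (nat_lit 18772) (nat_lit 6) (nat_lit 247) (nat_lit 4) (nat_lit 181) (nat_lit 217) (nat_lit 202))) (PT.nd (nat_lit 78) (PT.lf (nat_lit 19380) (nat_lit 6) (nat_lit 255) (nat_lit 4) (nat_lit 182) (nat_lit 217) (nat_lit 201)) (PT.nd (nat_lit 78) (PT.lf (nat_lit 20140) (nat_lit 6) (nat_lit 265) (nat_lit 4) (nat_lit 183) (nat_lit 217) (nat_lit 200)) (PT.lf (nat_lit 20064) (nat_lit 6) (nat_lit 264) (nat_lit 4) (nat_lit 184) (nat_lit 217) (nat_lit 199)))))) (PT.nd (nat_lit 390) (PT.nd (nat_lit 156) (PT.nd (nat_lit 78) (PT.lf (nat_lit 20064) (nat_lit 6) (nat_lit 264) (nat_lit 2) (nat_lit 199) (nat_lit 217) (nat_lit 184)) (PT.lf (nat_lit 20140) (nat_lit 6) (nat_lit 265) (nat_lit 2) (nat_lit 200) (nat_lit 217) (nat_lit 183))) (PT.nd (nat_lit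 78) (PT.lf (nat_lit 19380) (nat_lit 6) (nat_lit 255) (nat_lit 2) (nat_lit 201) (nat_lit 217) (nat_lit 182)) (PT.nd (nat_lit 78) (PT.lf (nat_lit 18772) (nat_lit 6) (nat_lit 247) (nat_lit 2) (nat_lit 202) (nat_lit 217) (nat_lit 181)) (PT.lf (nat_lit 18164) (nat_lit 6) (nat_lit 239) (nat_lit 2) (nat_lit 203) (nat_lit 217) (nat_lit 180))))) (PT.nd (nat_lit 156) (PT.nd (nat_lit 78) (PT.lf (nat_lit 17632) (nat_lit 6) (nat_lit 232) (nat_lit 2) (nat_lit 204) (nat_lit 217) (nat_lit 179)) (PT.lf (nat_lit 17100) (nat_lit 6) (nat_lit 225) (nat_lit 2) (nat_lit 205) (nat_lit 217) (nat_lit 178))) (PT.nd (nat_lit 78) (PT.lf (nat_lit 16568) (nat_lit 6) (nat_lit 218) (nat_lit 2) (nat_lit 206) (nat_lit 217) (nat_lit 177)) (PT.nd (nat_lit 78) (PT.lf (nat_lit 16036) (nat_lit 6) (nat_lit 211) (nat_lit 2) (nat_lit 207) (nat_lit 217) (nat_lit 176)) (PT.lf (nat_lit 15580) (nat_lit 6) (nat_lit 205) (nat_lit 2) (nat_lit 208) (nat_lit 217)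 (nat_lit 175))))))))
noncomputable def pc48 : PT := (PT.nd (nat_lit 58656) (PT.nd (nat_lit 702) (PT.nd (nat_lit 312) (PT.nd (nat_lit 156) (PT.nd (nat_lit 78) (PT.lf (nat_lit 15124) (nat_lit 6) (nat_lit 199) (nat_lit 2) (nat_lit 209) (nat_lit 217) (nat_lit 174)) (PT.lf (nat_lit 14668) (nat_lit 6) (nat_lit 193) (nat_lit 2) (nat_lit 210) (nat_lit 217) (nat_lit 173))) (PT.nd (nat_lit 78) (PT.lf (nat_lit 14212) (nat_lit 6) (nat_lit 187) (nat_lit 2) (nat_lit 211) (nat_lit 217) (nat_lit 172)) (PT.lf (nat_lit 13832) (nat_lit 6) (nat_lit 182) (nat_lit 2) (nat_lit 212) (nat_lit 217) (nat_lit 171)))) (PT.nd (nat_lit 156) (PT.nd (nat_lit 78) (PT.lf (nat_lit 13452) (nat_lit 6) (nat_lit 177) (nat_lit 2) (nat_lit 213) (nat_lit 217) (nat_lit 170)) (PT.lf (nat_lit 13072) (nat_lit 6) (nat_lit 172) (nat_lit 2) (nat_lit 214) (nat_lit 217) (nat_lit 169))) (PT.nd (nat_lit 78) (PT.lf (nat_lit 12692) (nat_lit 6) (nat_lit 167) (nat_lit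 2) (nat_lit 215) (nat_lit 217) (nat_lit 168)) (PT.nd (nat_lit 78) (PT.lf (nat_lit 12388) (nat_lit 6) (nat_lit 163) (nat_lit 2) (nat_lit 216) (nat_lit 217) (nat_lit 167)) (PT.lf (nat_lit 12008) (nat_lit 3) (nat_lit 158) (nat_lit 0) (nat_lit 217) (nat_lit 217) (nat_lit 166)))))) (PT.nd (nat_lit 312) (PT.nd (nat_lit 156) (PT.nd (nat_lit 78) (PT.lf (nat_lit 11628) (nat_lit 6) (nat_lit 153) (nat_lit 0) (nat_lit 218) (nat_lit 217) (nat_lit 165)) (PT.lf (nat_lit 11248) (nat_lit 6) (nat_lit 148) (nat_lit 0) (nat_lit 219) (nat_lit 217) (nat_lit 164))) (PT.nd (nat_lit 78) (PT.lf (nat_lit 10868) (nat_lit 6) (nat_lit 143) (nat_lit 0) (nat_lit 220) (nat_lit 217) (nat_lit 163)) (PT.lf (nat_lit 10488) (nat_lit 6) (nat_lit 138) (nat_lit 0) (nat_lit 221) (nat_lit 217) (nat_lit 162)))) (PT.nd (nat_lit 156) (PT.nd (nat_lit 78) (PT.lf (nat_lit 10184) (nat_lit 6) (nat_lit 134) (nat_lit 0) (nat_lit 222) (nat_lit 217) (nat_lit 161))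 (PT.lf (nat_lit 9804) (nat_lit 6) (nat_lit 129) (nat_lit 0) (nat_lit 223) (nat_lit 217) (nat_lit 160))) (PT.nd (nat_lit 57330) (PT.lf (nat_lit 9500) (nat_lit 6) (nat_lit 125) (nat_lit 0) (nat_lit 224) (nat_lit 217) (nat_lit 159)) (PT.nd (nat_lit 78) (PT.lf (nat_lit 9196) (nat_lit 6) (nat_lit 121) (nat_lit 5) (nat_lit 158) (nat_lit 218) (nat_lit 224)) (PT.lf (nat_lit 9576) (nat_lit 6) (nat_lit 126) (nat_lit 5) (nat_lit 159) (nat_lit 218) (nat_lit 223))))))) (PT.nd (nat_lit 702) (PT.nd (nat_lit 312) (PT.nd (nat_lit 156) (PT.nd (nat_lit 78) (PT.lf (nat_lit 9880) (nat_lit 6) (nat_lit 130) (nat_lit 5) (nat_lit 160) (nat_lit 218) (nat_lit 222)) (PT.lf (nat_lit 10260) (nat_lit 6) (nat_lit 135) (nat_lit 5) (nat_lit 161) (nat_lit 218) (nat_lit 221))) (PT.nd (nat_lit 78) (PT.lf (nat_lit 10564) (nat_lit 6) (nat_lit 139) (nat_lit 5) (nat_lit 162) (nat_lit 218) (nat_lit 220)) (PT.lf (nat_lit 10944) (nat_lit 6) (nat_lit 144)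 (nat_lit 5) (nat_lit 163) (nat_lit 218) (nat_lit 219)))) (PT.nd (nat_lit 156) (PT.nd (nat_lit 78) (PT.lf (nat_lit 11324) (nat_lit 3) (nat_lit 149) (nat_lit 4) (nat_lit 164) (nat_lit 218) (nat_lit 218)) (PT.lf (nat_lit 11628) (nat_lit 6) (nat_lit 153) (nat_lit 4) (nat_lit 165) (nat_lit 218) (nat_lit 217))) (PT.nd (nat_lit 78) (PT.lf (nat_lit 11932) (nat_lit 6) (nat_lit 157) (nat_lit 4) (nat_lit 166) (nat_lit 218) (nat_lit 216)) (PT.nd (nat_lit 78) (PT.lf (nat_lit 12312) (nat_lit 6) (nat_lit 162) (nat_lit 4) (nat_lit 167) (nat_lit 218) (nat_lit 215)) (PT.lf (nat_lit 12616) (nat_lit 6) (nat_lit 166) (nat_lit 4) (nat_lit 168) (nat_lit 218) (nat_lit 214)))))) (PT.nd (nat_lit 312) (PT.nd (nat_lit 156) (PT.nd (nat_lit 78) (PT.lf (nat_lit 12996) (nat_lit 6) (nat_lit 171) (nat_lit 4) (nat_lit 169) (nat_lit 218) (nat_lit 213)) (PT.lf (nat_lit 13376) (nat_lit 6) (nat_lit 176) (nat_lit 4) (nat_lit 170) (nat_lit 218) (nat_lit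 212))) (PT.nd (nat_lit 78) (PT.lf (nat_lit 13756) (nat_lit 6) (nat_lit 181) (nat_lit 4) (nat_lit 171) (nat_lit 218) (nat_lit 211)) (PT.lf (nat_lit 14136) (nat_lit 6) (nat_lit 186) (nat_lit 4) (nat_lit 172) (nat_lit 218) (nat_lit 210)))) (PT.nd (nat_lit 156) (PT.nd (nat_lit 78) (PT.lf (nat_lit 14592) (nat_lit 6) (nat_lit 192) (nat_lit 4) (nat_lit 173) (nat_lit 218) (nat_lit 209)) (PT.lf (nat_lit 15048) (nat_lit 6) (nat_lit 198) (nat_lit 4) (nat_lit 174) (nat_lit 218) (nat_lit 208))) (PT.nd (nat_lit 78) (PT.lf (nat_lit 15504) (nat_lit 6) (nat_lit 204) (nat_lit 4) (nat_lit 175) (nat_lit 218) (nat_lit 207)) (PT.nd (nat_lit 78) (PT.lf (nat_lit 15960) (nat_lit 6) (nat_lit 210) (nat_lit 4) (nat_lit 176) (nat_lit 218) (nat_lit 206)) (PT.lf (nat_lit 16492) (nat_lit 6) (nat_lit 217) (nat_lit 4) (nat_lit 177) (nat_lit 218) (nat_lit 205))))))))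
noncomputable def pc49 : PT := (PT.nd (nat_lit 3354) (PT.nd (nat_lit 2652) (PT.nd (nat_lit 2262) (PT.nd (nat_lit 2106) (PT.nd (nat_lit 2028) (PT.lf (nat_lit 17024) (nat_lit 6) (nat_lit 224) (nat_lit 4) (nat_lit 178) (nat_lit 218) (nat_lit 204)) (PT.lf (nat_lit 17024) (nat_lit 6) (nat_lit 224) (nat_lit 2) (nat_lit 204) (nat_lit 218) (nat_lit 178))) (PT.nd (nat_lit 78) (PT.lf (nat_lit 16492) (nat_lit 6) (nat_lit 217) (nat_lit 2) (nat_lit 205) (nat_lit 218) (nat_lit 177)) (PT.lf (nat_lit 15960) (nat_lit 6) (nat_lit 210) (nat_lit 2) (nat_lit 206) (nat_lit 218) (nat_lit 176)))) (PT.nd (nat_lit 156) (PT.nd (nat_lit 78) (PT.lf (nat_lit 15504) (nat_lit 6) (nat_lit 204) (nat_lit 2) (nat_lit 207) (nat_lit 218) (nat_lit 175)) (PT.lf (nat_lit 15048) (nat_lit 6) (nat_lit 198) (nat_lit 2) (nat_lit 208) (nat_lit 218) (nat_lit 174))) (PT.nd (nat_lit 78) (PT.lf (nat_lit 14592) (nat_lit 6) (nat_lit 192) (nat_lit 2) (nat_lit 209)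 (nat_lit 218) (nat_lit 173)) (PT.nd (nat_lit 78) (PT.lf (nat_lit 14136) (nat_lit 6) (nat_lit 186) (nat_lit 2) (nat_lit 210) (nat_lit 218) (nat_lit 172)) (PT.lf (nat_lit 13756) (nat_lit 6) (nat_lit 181) (nat_lit 2) (nat_lit 211) (nat_lit 218) (nat_lit 171)))))) (PT.nd (nat_lit 312) (PT.nd (nat_lit 156) (PT.nd (nat_lit 78) (PT.lf (nat_lit 13376) (nat_lit 6) (nat_lit 176) (nat_lit 2) (nat_lit 212) (nat_lit 218) (nat_lit 170)) (PT.lf (nat_lit 12996) (nat_lit 6) (nat_lit 171) (nat_lit 2) (nat_lit 213) (nat_lit 218) (nat_lit 169))) (PT.nd (nat_lit 78) (PT.lf (nat_lit 12616) (nat_lit 6) (nat_lit 166) (nat_lit 2) (nat_lit 214) (nat_lit 218) (nat_lit 168)) (PT.lf (nat_lit 12312) (nat_lit 6) (nat_lit 162) (nat_lit 2) (nat_lit 215) (nat_lit 218) (nat_lit 167)))) (PT.nd (nat_lit 156) (PT.nd (nat_lit 78) (PT.lf (nat_lit 11932) (nat_lit 6) (nat_lit 157) (nat_lit 2) (nat_lit 216) (nat_lit 218) (nat_lit 166)) (PT.lf (nat_lit 11628)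 (nat_lit 6) (nat_lit 153) (nat_lit 2) (nat_lit 217) (nat_lit 218) (nat_lit 165))) (PT.nd (nat_lit 78) (PT.lf (nat_lit 11324) (nat_lit 3) (nat_lit 149) (nat_lit 0) (nat_lit 218) (nat_lit 218) (nat_lit 164)) (PT.nd (nat_lit 78) (PT.lf (nat_lit 10944) (nat_lit 6) (nat_lit 144) (nat_lit 0) (nat_lit 219) (nat_lit 218) (nat_lit 163)) (PT.lf (nat_lit 10564) (nat_lit 6) (nat_lit 139) (nat_lit 0) (nat_lit 220) (nat_lit 218) (nat_lit 162))))))) (PT.nd (nat_lit 57798) (PT.nd (nat_lit 57408) (PT.nd (nat_lit 156) (PT.nd (nat_lit 78) (PT.lf (nat_lit 10260) (nat_lit 6) (nat_lit 135) (nat_lit 0) (nat_lit 221) (nat_lit 218) (nat_lit 161)) (PT.lf (nat_lit 9880) (nat_lit 6) (nat_lit 130) (nat_lit 0) (nat_lit 222) (nat_lit 218) (nat_lit 160))) (PT.nd (nat_lit 78) (PT.lf (nat_lit 9576) (nat_lit 6) (nat_lit 126) (nat_lit 0) (nat_lit 223) (nat_lit 218) (nat_lit 159)) (PT.lf (nat_lit 9196) (nat_lit 6) (nat_lit 121) (nat_lit 0) (nat_lit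 224) (nat_lit 218) (nat_lit 158)))) (PT.nd (nat_lit 156) (PT.nd (nat_lit 78) (PT.lf (nat_lit 8664) (nat_lit 6) (nat_lit 114) (nat_lit 5) (nat_lit 156) (nat_lit 219) (nat_lit 225)) (PT.lf (nat_lit 8968) (nat_lit 6) (nat_lit 118) (nat_lit 5) (nat_lit 157) (nat_lit 219) (nat_lit 224))) (PT.nd (nat_lit 78) (PT.lf (nat_lit 9272) (nat_lit 6) (nat_lit 122) (nat_lit 5) (nat_lit 158) (nat_lit 219) (nat_lit 223)) (PT.nd (nat_lit 78) (PT.lf (nat_lit 9652) (nat_lit 6) (nat_lit 127) (nat_lit 5) (nat_lit 159) (nat_lit 219) (nat_lit 222)) (PT.lf (nat_lit 9956) (nat_lit 6) (nat_lit 131) (nat_lit 5) (nat_lit 160) (nat_lit 219) (nat_lit 221)))))) (PT.nd (nat_lit 312) (PT.nd (nat_lit 156) (PT.nd (nat_lit 78) (PT.lf (nat_lit 10336) (nat_lit 6) (nat_lit 136) (nat_lit 5) (nat_lit 161) (nat_lit 219) (nat_lit 220)) (PT.lf (nat_lit 10640) (nat_lit 3) (nat_lit 140) (nat_lit 4) (nat_lit 162) (nat_lit 219) (nat_lit 219))) (PT.nd (nat_lit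 78) (PT.lf (nat_lit 10944) (nat_lit 6) (nat_lit 144) (nat_lit 4) (nat_lit 163) (nat_lit 219) (nat_lit 218)) (PT.lf (nat_lit 11248) (nat_lit 6) (nat_lit 148) (nat_lit 4) (nat_lit 164) (nat_lit 219) (nat_lit 217)))) (PT.nd (nat_lit 156) (PT.nd (nat_lit 78) (PT.lf (nat_lit 11552) (nat_lit 6) (nat_lit 152) (nat_lit 4) (nat_lit 165) (nat_lit 219) (nat_lit 216)) (PT.lf (nat_lit 11856) (nat_lit 6) (nat_lit 156) (nat_lit 4) (nat_lit 166) (nat_lit 219) (nat_lit 215))) (PT.nd (nat_lit 78) (PT.lf (nat_lit 12236) (nat_lit 6) (nat_lit 161) (nat_lit 4) (nat_lit 167) (nat_lit 219) (nat_lit 214)) (PT.nd (nat_lit 78) (PT.lf (nat_lit 12540) (nat_lit 6) (nat_lit 165) (nat_lit 4) (nat_lit 168) (nat_lit 219) (nat_lit 213)) (PT.lf (nat_lit 12920) (nat_lit 6) (nat_lit 170) (nat_lit 4) (nat_lit 169) (nat_lit 219) (nat_lit 212))))))))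
noncomputable def pc50 : PT := (PT.nd (nat_lit 3900) (PT.nd (nat_lit 3198) (PT.nd (nat_lit 312) (PT.nd (nat_lit 156) (PT.nd (nat_lit 78) (PT.lf (nat_lit 13300) (nat_lit 6) (nat_lit 175) (nat_lit 4) (nat_lit 170) (nat_lit 219) (nat_lit 211)) (PT.lf (nat_lit 13680) (nat_lit 6) (nat_lit 180) (nat_lit 4) (nat_lit 171) (nat_lit 219) (nat_lit 210))) (PT.nd (nat_lit 78) (PT.lf (nat_lit 14060) (nat_lit 6) (nat_lit 185) (nat_lit 4) (nat_lit 172) (nat_lit 219) (nat_lit 209)) (PT.lf (nat_lit 14516) (nat_lit 6) (nat_lit 191) (nat_lit 4) (nat_lit 173) (nat_lit 219) (nat_lit 208)))) (PT.nd (nat_lit 2652) (PT.nd (nat_lit 2574) (PT.lf (nat_lit 14972) (nat_lit 6) (nat_lit 197) (nat_lit 4) (nat_lit 174) (nat_lit 219) (nat_lit 207)) (PT.lf (nat_lit 14972) (nat_lit 6) (nat_lit 197) (nat_lit 2) (nat_lit 207) (nat_lit 219) (nat_lit 174))) (PT.nd (nat_lit 78) (PT.lf (nat_lit 14516) (nat_lit 6) (nat_lit 191) (nat_lit 2) (nat_lit 208)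 (nat_lit 219) (nat_lit 173)) (PT.nd (nat_lit 78) (PT.lf (nat_lit 14060) (nat_lit 6) (nat_lit 185) (nat_lit 2) (nat_lit 209) (nat_lit 219) (nat_lit 172)) (PT.lf (nat_lit 13680) (nat_lit 6) (nat_lit 180) (nat_lit 2) (nat_lit 210) (nat_lit 219) (nat_lit 171)))))) (PT.nd (nat_lit 312) (PT.nd (nat_lit 156) (PT.nd (nat_lit 78) (PT.lf (nat_lit 13300) (nat_lit 6) (nat_lit 175) (nat_lit 2) (nat_lit 211) (nat_lit 219) (nat_lit 170)) (PT.lf (nat_lit 12920) (nat_lit 6) (nat_lit 170) (nat_lit 2) (nat_lit 212) (nat_lit 219) (nat_lit 169))) (PT.nd (nat_lit 78) (PT.lf (nat_lit 12540) (nat_lit 6) (nat_lit 165) (nat_lit 2) (nat_lit 213) (nat_lit 219) (nat_lit 168)) (PT.lf (nat_lit 12236) (nat_lit 6) (nat_lit 161) (nat_lit 2) (nat_lit 214) (nat_lit 219) (nat_lit 167)))) (PT.nd (nat_lit 156) (PT.nd (nat_lit 78) (PT.lf (nat_lit 11856) (nat_lit 6) (nat_lit 156) (nat_lit 2) (nat_lit 215) (nat_lit 219) (nat_lit 166)) (PT.lf (nat_lit 11552)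 (nat_lit 6) (nat_lit 152) (nat_lit 2) (nat_lit 216) (nat_lit 219) (nat_lit 165))) (PT.nd (nat_lit 78) (PT.lf (nat_lit 11248) (nat_lit 6) (nat_lit 148) (nat_lit 2) (nat_lit 217) (nat_lit 219) (nat_lit 164)) (PT.nd (nat_lit 78) (PT.lf (nat_lit 10944) (nat_lit 6) (nat_lit 144) (nat_lit 2) (nat_lit 218) (nat_lit 219) (nat_lit 163)) (PT.lf (nat_lit 10640) (nat_lit 3) (nat_lit 140) (nat_lit 0) (nat_lit 219) (nat_lit 219) (nat_lit 162))))))) (PT.nd (nat_lit 57642) (PT.nd (nat_lit 312) (PT.nd (nat_lit 156) (PT.nd (nat_lit 78) (PT.lf (nat_lit 10336) (nat_lit 6) (nat_lit 136) (nat_lit 0) (nat_lit 220) (nat_lit 219) (nat_lit 161)) (PT.lf (nat_lit 9956) (nat_lit 6) (nat_lit 131) (nat_lit 0) (nat_lit 221) (nat_lit 219) (nat_lit 160))) (PT.nd (nat_lit 78) (PT.lf (nat_lit 9652) (nat_lit 6) (nat_lit 127) (nat_lit 0) (nat_lit 222) (nat_lit 219) (nat_lit 159)) (PT.lf (nat_lit 9272) (nat_lit 6) (nat_lit 122) (nat_lit 0) (nat_lit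 223) (nat_lit 219) (nat_lit 158)))) (PT.nd (nat_lit 57096) (PT.nd (nat_lit 78) (PT.lf (nat_lit 8968) (nat_lit 6) (nat_lit 118) (nat_lit 0) (nat_lit 224) (nat_lit 219) (nat_lit 157)) (PT.lf (nat_lit 8664) (nat_lit 6) (nat_lit 114) (nat_lit 0) (nat_lit 225) (nat_lit 219) (nat_lit 156))) (PT.nd (nat_lit 78) (PT.lf (nat_lit 8436) (nat_lit 6) (nat_lit 111) (nat_lit 5) (nat_lit 155) (nat_lit 220) (nat_lit 225)) (PT.nd (nat_lit 78) (PT.lf (nat_lit 8740) (nat_lit 6) (nat_lit 115) (nat_lit 5) (nat_lit 156) (nat_lit 220) (nat_lit 224)) (PT.lf (nat_lit 9044) (nat_lit 6) (nat_lit 119) (nat_lit 5) (nat_lit 157) (nat_lit 220) (nat_lit 223)))))) (PT.nd (nat_lit 312) (PT.nd (nat_lit 156) (PT.nd (nat_lit 78) (PT.lf (nat_lit 9348) (nat_lit 6) (nat_lit 123) (nat_lit 5) (nat_lit 158) (nat_lit 220) (nat_lit 222)) (PT.lf (nat_lit 9728) (nat_lit 6) (nat_lit 128) (nat_lit 5) (nat_lit 159) (nat_lit 220) (nat_lit 221))) (PT.nd (nat_lit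 78) (PT.lf (nat_lit 10032) (nat_lit 3) (nat_lit 132) (nat_lit 4) (nat_lit 160) (nat_lit 220) (nat_lit 220)) (PT.lf (nat_lit 10336) (nat_lit 6) (nat_lit 136) (nat_lit 4) (nat_lit 161) (nat_lit 220) (nat_lit 219)))) (PT.nd (nat_lit 156) (PT.nd (nat_lit 78) (PT.lf (nat_lit 10564) (nat_lit 6) (nat_lit 139) (nat_lit 4) (nat_lit 162) (nat_lit 220) (nat_lit 218)) (PT.lf (nat_lit 10868) (nat_lit 6) (nat_lit 143) (nat_lit 4) (nat_lit 163) (nat_lit 220) (nat_lit 217))) (PT.nd (nat_lit 78) (PT.lf (nat_lit 11172) (nat_lit 6) (nat_lit 147) (nat_lit 4) (nat_lit 164) (nat_lit 220) (nat_lit 216)) (PT.nd (nat_lit 78) (PT.lf (nat_lit 11476) (nat_lit 6) (nat_lit 151) (nat_lit 4) (nat_lit 165) (nat_lit 220) (nat_lit 215)) (PT.lf (nat_lit 11780) (nat_lit 6) (nat_lit 155) (nat_lit 4) (nat_lit 166) (nat_lit 220) (nat_lit 214))))))))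
noncomputable def pc51 : PT := (PT.nd (nat_lit 4446) (PT.nd (nat_lit 3744) (PT.nd (nat_lit 3354) (PT.nd (nat_lit 156) (PT.nd (nat_lit 78) (PT.lf (nat_lit 12160) (nat_lit 6) (nat_lit 160) (nat_lit 4) (nat_lit 167) (nat_lit 220) (nat_lit 213)) (PT.lf (nat_lit 12464) (nat_lit 6) (nat_lit 164) (nat_lit 4) (nat_lit 168) (nat_lit 220) (nat_lit 212))) (PT.nd (nat_lit 78) (PT.lf (nat_lit 12844) (nat_lit 6) (nat_lit 169) (nat_lit 4) (nat_lit 169) (nat_lit 220) (nat_lit 211)) (PT.lf (nat_lit 13224) (nat_lit 6) (nat_lit 174) (nat_lit 4) (nat_lit 170) (nat_lit 220) (nat_lit 210)))) (PT.nd (nat_lit 156) (PT.nd (nat_lit 78) (PT.lf (nat_lit 13224) (nat_lit 6) (nat_lit 174) (nat_lit 2) (nat_lit 210) (nat_lit 220) (nat_lit 170)) (PT.lf (nat_lit 12844) (nat_lit 6) (nat_lit 169) (nat_lit 2) (nat_lit 211) (nat_lit 220) (nat_lit 169))) (PT.nd (nat_lit 78) (PT.lf (nat_lit 12464) (nat_lit 6) (nat_lit 164) (nat_lit 2) (nat_lit 212) (nat_lit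 220) (nat_lit 168)) (PT.nd (nat_lit 78) (PT.lf (nat_lit 12160) (nat_lit 6) (nat_lit 160) (nat_lit 2) (nat_lit 213) (nat_lit 220) (nat_lit 167)) (PT.lf (nat_lit 11780) (nat_lit 6) (nat_lit 155) (nat_lit 2) (nat_lit 214) (nat_lit 220) (nat_lit 166)))))) (PT.nd (nat_lit 312) (PT.nd (nat_lit 156) (PT.nd (nat_lit 78) (PT.lf (nat_lit 11476) (nat_lit 6) (nat_lit 151) (nat_lit 2) (nat_lit 215) (nat_lit 220) (nat_lit 165)) (PT.lf (nat_lit 11172) (nat_lit 6) (nat_lit 147) (nat_lit 2) (nat_lit 216) (nat_lit 220) (nat_lit 164))) (PT.nd (nat_lit 78) (PT.lf (nat_lit 10868) (nat_lit 6) (nat_lit 143) (nat_lit 2) (nat_lit 217) (nat_lit 220) (nat_lit 163)) (PT.lf (nat_lit 10564) (nat_lit 6) (nat_lit 139) (nat_lit 2) (nat_lit 218) (nat_lit 220) (nat_lit 162)))) (PT.nd (nat_lit 156) (PT.nd (nat_lit 78) (PT.lf (nat_lit 10336) (nat_lit 6) (nat_lit 136) (nat_lit 2) (nat_lit 219) (nat_lit 220) (nat_lit 161)) (PT.lf (nat_lit 10032) (nat_lit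 3) (nat_lit 132) (nat_lit 0) (nat_lit 220) (nat_lit 220) (nat_lit 160))) (PT.nd (nat_lit 78) (PT.lf (nat_lit 9728) (nat_lit 6) (nat_lit 128) (nat_lit 0) (nat_lit 221) (nat_lit 220) (nat_lit 159)) (PT.nd (nat_lit 78) (PT.lf (nat_lit 9348) (nat_lit 6) (nat_lit 123) (nat_lit 0) (nat_lit 222) (nat_lit 220) (nat_lit 158)) (PT.lf (nat_lit 9044) (nat_lit 6) (nat_lit 119) (nat_lit 0) (nat_lit 223) (nat_lit 220) (nat_lit 157))))))) (PT.nd (nat_lit 57486) (PT.nd (nat_lit 57096) (PT.nd (nat_lit 56940) (PT.nd (nat_lit 78) (PT.lf (nat_lit 8740) (nat_lit 6) (nat_lit 115) (nat_lit 0) (nat_lit 224) (nat_lit 220) (nat_lit 156)) (PT.lf (nat_lit 8436) (nat_lit 6) (nat_lit 111) (nat_lit 0) (nat_lit 225) (nat_lit 220) (nat_lit 155))) (PT.nd (nat_lit 78) (PT.lf (nat_lit 7980) (nat_lit 6) (nat_lit 105) (nat_lit 5) (nat_lit 153) (nat_lit 221) (nat_lit 226)) (PT.lf (nat_lit 8208) (nat_lit 6) (nat_lit 108) (nat_lit 5) (nat_lit 154) (nat_lit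 221) (nat_lit 225)))) (PT.nd (nat_lit 156) (PT.nd (nat_lit 78) (PT.lf (nat_lit 8512) (nat_lit 6) (nat_lit 112) (nat_lit 5) (nat_lit 155) (nat_lit 221) (nat_lit 224)) (PT.lf (nat_lit 8816) (nat_lit 6) (nat_lit 116) (nat_lit 5) (nat_lit 156) (nat_lit 221) (nat_lit 223))) (PT.nd (nat_lit 78) (PT.lf (nat_lit 9120) (nat_lit 6) (nat_lit 120) (nat_lit 5) (nat_lit 157) (nat_lit 221) (nat_lit 222)) (PT.nd (nat_lit 78) (PT.lf (nat_lit 9424) (nat_lit 3) (nat_lit 124) (nat_lit 4) (nat_lit 158) (nat_lit 221) (nat_lit 221)) (PT.lf (nat_lit 9728) (nat_lit 6) (nat_lit 128) (nat_lit 4) (nat_lit 159) (nat_lit 221) (nat_lit 220)))))) (PT.nd (nat_lit 390) (PT.nd (nat_lit 156) (PT.nd (nat_lit 78) (PT.lf (nat_lit 9956) (nat_lit 6) (nat_lit 131) (nat_lit 4) (nat_lit 160) (nat_lit 221) (nat_lit 219)) (PT.lf (nat_lit 10260) (nat_lit 6) (nat_lit 135) (nat_lit 4) (nat_lit 161) (nat_lit 221) (nat_lit 218))) (PT.nd (nat_lit 78) (PT.lf (nat_lit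 10488) (nat_lit 6) (nat_lit 138) (nat_lit 4) (nat_lit 162) (nat_lit 221) (nat_lit 217)) (PT.nd (nat_lit 78) (PT.lf (nat_lit 10792) (nat_lit 6) (nat_lit 142) (nat_lit 4) (nat_lit 163) (nat_lit 221) (nat_lit 216)) (PT.lf (nat_lit 11096) (nat_lit 6) (nat_lit 146) (nat_lit 4) (nat_lit 164) (nat_lit 221) (nat_lit 215))))) (PT.nd (nat_lit 156) (PT.nd (nat_lit 78) (PT.lf (nat_lit 11400) (nat_lit 6) (nat_lit 150) (nat_lit 4) (nat_lit 165) (nat_lit 221) (nat_lit 214)) (PT.lf (nat_lit 11704) (nat_lit 6) (nat_lit 154) (nat_lit 4) (nat_lit 166) (nat_lit 221) (nat_lit 213))) (PT.nd (nat_lit 3510) (PT.lf (nat_lit 12084) (nat_lit 6) (nat_lit 159) (nat_lit 4) (nat_lit 167) (nat_lit 221) (nat_lit 212)) (PT.nd (nat_lit 78) (PT.lf (nat_lit 12084) (nat_lit 6) (nat_lit 159) (nat_lit 2) (nat_lit 212) (nat_lit 221) (nat_lit 167)) (PT.lf (nat_lit 11704) (nat_lit 6) (nat_lit 154) (nat_lit 2) (nat_lit 213) (nat_lit 221) (nat_lit 166))))))))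
noncomputable def pc52 : PT := (PT.nd (nat_lit 57954) (PT.nd (nat_lit 702) (PT.nd (nat_lit 312) (PT.nd (nat_lit 156) (PT.nd (nat_lit 78) (PT.lf (nat_lit 11400) (nat_lit 6) (nat_lit 150) (nat_lit 2) (nat_lit 214) (nat_lit 221) (nat_lit 165)) (PT.lf (nat_lit 11096) (nat_lit 6) (nat_lit 146) (nat_lit 2) (nat_lit 215) (nat_lit 221) (nat_lit 164))) (PT.nd (nat_lit 78) (PT.lf (nat_lit 10792) (nat_lit 6) (nat_lit 142) (nat_lit 2) (nat_lit 216) (nat_lit 221) (nat_lit 163)) (PT.lf (nat_lit 10488) (nat_lit 6) (nat_lit 138) (nat_lit 2) (nat_lit 217) (nat_lit 221) (nat_lit 162)))) (PT.nd (nat_lit 156) (PT.nd (nat_lit 78) (PT.lf (nat_lit 10260) (nat_lit 6) (nat_lit 135) (nat_lit 2) (nat_lit 218) (nat_lit 221) (nat_lit 161)) (PT.lf (nat_lit 9956) (nat_lit 6) (nat_lit 131) (nat_lit 2) (nat_lit 219) (nat_lit 221) (nat_lit 160))) (PT.nd (nat_lit 78) (PT.lf (nat_lit 9728) (nat_lit 6) (nat_lit 128) (nat_lit 2) (nat_lit 220) (nat_lit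 221) (nat_lit 159)) (PT.nd (nat_lit 78) (PT.lf (nat_lit 9424) (nat_lit 3) (nat_lit 124) (nat_lit 0) (nat_lit 221) (nat_lit 221) (nat_lit 158)) (PT.lf (nat_lit 9120) (nat_lit 6) (nat_lit 120) (nat_lit 0) (nat_lit 222) (nat_lit 221) (nat_lit 157)))))) (PT.nd (nat_lit 56862) (PT.nd (nat_lit 156) (PT.nd (nat_lit 78) (PT.lf (nat_lit 8816) (nat_lit 6) (nat_lit 116) (nat_lit 0) (nat_lit 223) (nat_lit 221) (nat_lit 156)) (PT.lf (nat_lit 8512) (nat_lit 6) (nat_lit 112) (nat_lit 0) (nat_lit 224) (nat_lit 221) (nat_lit 155))) (PT.nd (nat_lit 78) (PT.lf (nat_lit 8208) (nat_lit 6) (nat_lit 108) (nat_lit 0) (nat_lit 225) (nat_lit 221) (nat_lit 154)) (PT.lf (nat_lit 7980) (nat_lit 6) (nat_lit 105) (nat_lit 0) (nat_lit 226) (nat_lit 221) (nat_lit 153)))) (PT.nd (nat_lit 156) (PT.nd (nat_lit 78) (PT.lf (nat_lit 7524) (nat_lit 6) (nat_lit 99) (nat_lit 5) (nat_lit 151) (nat_lit 222) (nat_lit 227)) (PT.lf (nat_lit 7752) (nat_lit 6)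 (nat_lit 102) (nat_lit 5) (nat_lit 152) (nat_lit 222) (nat_lit 226))) (PT.nd (nat_lit 78) (PT.lf (nat_lit 8056) (nat_lit 6) (nat_lit 106) (nat_lit 5) (nat_lit 153) (nat_lit 222) (nat_lit 225)) (PT.nd (nat_lit 78) (PT.lf (nat_lit 8284) (nat_lit 6) (nat_lit 109) (nat_lit 5) (nat_lit 154) (nat_lit 222) (nat_lit 224)) (PT.lf (nat_lit 8588) (nat_lit 6) (nat_lit 113) (nat_lit 5) (nat_lit 155) (nat_lit 222) (nat_lit 223))))))) (PT.nd (nat_lit 4524) (PT.nd (nat_lit 312) (PT.nd (nat_lit 156) (PT.nd (nat_lit 78) (PT.lf (nat_lit 8892) (nat_lit 3) (nat_lit 117) (nat_lit 4) (nat_lit 156) (nat_lit 222) (nat_lit 222)) (PT.lf (nat_lit 9120) (nat_lit 6) (nat_lit 120) (nat_lit 4) (nat_lit 157) (nat_lit 222) (nat_lit 221))) (PT.nd (nat_lit 78) (PT.lf (nat_lit 9348) (nat_lit 6) (nat_lit 123) (nat_lit 4) (nat_lit 158) (nat_lit 222) (nat_lit 220)) (PT.lf (nat_lit 9652) (nat_lit 6) (nat_lit 127) (nat_lit 4) (nat_lit 159) (nat_lit 222)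 (nat_lit 219)))) (PT.nd (nat_lit 156) (PT.nd (nat_lit 78) (PT.lf (nat_lit 9880) (nat_lit 6) (nat_lit 130) (nat_lit 4) (nat_lit 160) (nat_lit 222) (nat_lit 218)) (PT.lf (nat_lit 10184) (nat_lit 6) (nat_lit 134) (nat_lit 4) (nat_lit 161) (nat_lit 222) (nat_lit 217))) (PT.nd (nat_lit 78) (PT.lf (nat_lit 10412) (nat_lit 6) (nat_lit 137) (nat_lit 4) (nat_lit 162) (nat_lit 222) (nat_lit 216)) (PT.nd (nat_lit 78) (PT.lf (nat_lit 10716) (nat_lit 6) (nat_lit 141) (nat_lit 4) (nat_lit 163) (nat_lit 222) (nat_lit 215)) (PT.lf (nat_lit 11020) (nat_lit 6) (nat_lit 145) (nat_lit 4) (nat_lit 164) (nat_lit 222) (nat_lit 214)))))) (PT.nd (nat_lit 312) (PT.nd (nat_lit 156) (PT.nd (nat_lit 78) (PT.lf (nat_lit 11020) (nat_lit 6) (nat_lit 145) (nat_lit 2) (nat_lit 214) (nat_lit 222) (nat_lit 164)) (PT.lf (nat_lit 10716) (nat_lit 6) (nat_lit 141) (nat_lit 2) (nat_lit 215) (nat_lit 222) (nat_lit 163))) (PT.nd (nat_lit 78) (PT.lf (nat_lit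 10412) (nat_lit 6) (nat_lit 137) (nat_lit 2) (nat_lit 216) (nat_lit 222) (nat_lit 162)) (PT.lf (nat_lit 10184) (nat_lit 6) (nat_lit 134) (nat_lit 2) (nat_lit 217) (nat_lit 222) (nat_lit 161)))) (PT.nd (nat_lit 156) (PT.nd (nat_lit 78) (PT.lf (nat_lit 9880) (nat_lit 6) (nat_lit 130) (nat_lit 2) (nat_lit 218) (nat_lit 222) (nat_lit 160)) (PT.lf (nat_lit 9652) (nat_lit 6) (nat_lit 127) (nat_lit 2) (nat_lit 219) (nat_lit 222) (nat_lit 159))) (PT.nd (nat_lit 78) (PT.lf (nat_lit 9348) (nat_lit 6) (nat_lit 123) (nat_lit 2) (nat_lit 220) (nat_lit 222) (nat_lit 158)) (PT.nd (nat_lit 78) (PT.lf (nat_lit 9120) (nat_lit 6) (nat_lit 120) (nat_lit 2) (nat_lit 221) (nat_lit 222) (nat_lit 157)) (PT.lf (nat_lit 8892) (nat_lit 3) (nat_lit 117) (nat_lit 0) (nat_lit 222) (nat_lit 222) (nat_lit 156))))))))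
noncomputable def pc53 : PT := (PT.nd (nat_lit 61932) (PT.nd (nat_lit 57018) (PT.nd (nat_lit 312) (PT.nd (nat_lit 156) (PT.nd (nat_lit 78) (PT.lf (nat_lit 8588) (nat_lit 6) (nat_lit 113) (nat_lit 0) (nat_lit 223) (nat_lit 222) (nat_lit 155)) (PT.lf (nat_lit 8284) (nat_lit 6) (nat_lit 109) (nat_lit 0) (nat_lit 224) (nat_lit 222) (nat_lit 154))) (PT.nd (nat_lit 78) (PT.lf (nat_lit 8056) (nat_lit 6) (nat_lit 106) (nat_lit 0) (nat_lit 225) (nat_lit 222) (nat_lit 153)) (PT.lf (nat_lit 7752) (nat_lit 6) (nat_lit 102) (nat_lit 0) (nat_lit 226) (nat_lit 222) (nat_lit 152)))) (PT.nd (nat_lit 56472) (PT.nd (nat_lit 56394) (PT.lf (nat_lit 7524) (nat_lit 6) (nat_lit 99) (nat_lit 0) (nat_lit 227) (nat_lit 222) (nat_lit 151)) (PT.lf (nat_lit 7068) (nat_lit 6) (nat_lit 93) (nat_lit 5) (nat_lit 149) (nat_lit 223) (nat_lit 228))) (PT.nd (nat_lit 78) (PT.lf (nat_lit 7296) (nat_lit 6) (nat_lit 96) (nat_lit 5) (nat_lit 150) (nat_lit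 223) (nat_lit 227)) (PT.nd (nat_lit 78) (PT.lf (nat_lit 7600) (nat_lit 6) (nat_lit 100) (nat_lit 5) (nat_lit 151) (nat_lit 223) (nat_lit 226)) (PT.lf (nat_lit 7828) (nat_lit 6) (nat_lit 103) (nat_lit 5) (nat_lit 152) (nat_lit 223) (nat_lit 225)))))) (PT.nd (nat_lit 312) (PT.nd (nat_lit 156) (PT.nd (nat_lit 78) (PT.lf (nat_lit 8132) (nat_lit 6) (nat_lit 107) (nat_lit 5) (nat_lit 153) (nat_lit 223) (nat_lit 224)) (PT.lf (nat_lit 8360) (nat_lit 3) (nat_lit 110) (nat_lit 4) (nat_lit 154) (nat_lit 223) (nat_lit 223))) (PT.nd (nat_lit 78) (PT.lf (nat_lit 8588) (nat_lit 6) (nat_lit 113) (nat_lit 4) (nat_lit 155) (nat_lit 223) (nat_lit 222)) (PT.lf (nat_lit 8816) (nat_lit 6) (nat_lit 116) (nat_lit 4) (nat_lit 156) (nat_lit 223) (nat_lit 221)))) (PT.nd (nat_lit 156) (PT.nd (nat_lit 78) (PT.lf (nat_lit 9044) (nat_lit 6) (nat_lit 119) (nat_lit 4) (nat_lit 157) (nat_lit 223) (nat_lit 220)) (PT.lf (nat_lit 9272) (nat_lit 6)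 (nat_lit 122) (nat_lit 4) (nat_lit 158) (nat_lit 223) (nat_lit 219))) (PT.nd (nat_lit 78) (PT.lf (nat_lit 9576) (nat_lit 6) (nat_lit 126) (nat_lit 4) (nat_lit 159) (nat_lit 223) (nat_lit 218)) (PT.nd (nat_lit 78) (PT.lf (nat_lit 9804) (nat_lit 6) (nat_lit 129) (nat_lit 4) (nat_lit 160) (nat_lit 223) (nat_lit 217)) (PT.lf (nat_lit 10108) (nat_lit 6) (nat_lit 133) (nat_lit 4) (nat_lit 161) (nat_lit 223) (nat_lit 216))))))) (PT.nd (nat_lit 702) (PT.nd (nat_lit 312) (PT.nd (nat_lit 156) (PT.nd (nat_lit 78) (PT.lf (nat_lit 10108) (nat_lit 6) (nat_lit 133) (nat_lit 2) (nat_lit 216) (nat_lit 223) (nat_lit 161)) (PT.lf (nat_lit 9804) (nat_lit 6) (nat_lit 129) (nat_lit 2) (nat_lit 217) (nat_lit 223) (nat_lit 160))) (PT.nd (nat_lit 78) (PT.lf (nat_lit 9576) (nat_lit 6) (nat_lit 126) (nat_lit 2) (nat_lit 218) (nat_lit 223) (nat_lit 159)) (PT.lf (nat_lit 9272) (nat_lit 6) (nat_lit 122) (nat_lit 2) (nat_lit 219) (nat_lit 223)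 (nat_lit 158)))) (PT.nd (nat_lit 156) (PT.nd (nat_lit 78) (PT.lf (nat_lit 9044) (nat_lit 6) (nat_lit 119) (nat_lit 2) (nat_lit 220) (nat_lit 223) (nat_lit 157)) (PT.lf (nat_lit 8816) (nat_lit 6) (nat_lit 116) (nat_lit 2) (nat_lit 221) (nat_lit 223) (nat_lit 156))) (PT.nd (nat_lit 78) (PT.lf (nat_lit 8588) (nat_lit 6) (nat_lit 113) (nat_lit 2) (nat_lit 222) (nat_lit 223) (nat_lit 155)) (PT.nd (nat_lit 78) (PT.lf (nat_lit 8360) (nat_lit 3) (nat_lit 110) (nat_lit 0) (nat_lit 223) (nat_lit 223) (nat_lit 154)) (PT.lf (nat_lit 8132) (nat_lit 6) (nat_lit 107) (nat_lit 0) (nat_lit 224) (nat_lit 223) (nat_lit 153)))))) (PT.nd (nat_lit 56472) (PT.nd (nat_lit 156) (PT.nd (nat_lit 78) (PT.lf (nat_lit 7828) (nat_lit 6) (nat_lit 103) (nat_lit 0) (nat_lit 225) (nat_lit 223) (nat_lit 152)) (PT.lf (nat_lit 7600) (nat_lit 6) (nat_lit 100) (nat_lit 0) (nat_lit 226) (nat_lit 223) (nat_lit 151))) (PT.nd (nat_lit 78) (PT.lf (nat_lit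 7296) (nat_lit 6) (nat_lit 96) (nat_lit 0) (nat_lit 227) (nat_lit 223) (nat_lit 150)) (PT.lf (nat_lit 7068) (nat_lit 6) (nat_lit 93) (nat_lit 0) (nat_lit 228) (nat_lit 223) (nat_lit 149)))) (PT.nd (nat_lit 156) (PT.nd (nat_lit 78) (PT.lf (nat_lit 6840) (nat_lit 6) (nat_lit 90) (nat_lit 5) (nat_lit 148) (nat_lit 224) (nat_lit 228)) (PT.lf (nat_lit 7144) (nat_lit 6) (nat_lit 94) (nat_lit 5) (nat_lit 149) (nat_lit 224) (nat_lit 227))) (PT.nd (nat_lit 78) (PT.lf (nat_lit 7372) (nat_lit 6) (nat_lit 97) (nat_lit 5) (nat_lit 150) (nat_lit 224) (nat_lit 226)) (PT.nd (nat_lit 78) (PT.lf (nat_lit 7676) (nat_lit 6) (nat_lit 101) (nat_lit 5) (nat_lit 151) (nat_lit 224) (nat_lit 225)) (PT.lf (nat_lit 7904) (nat_lit 3) (nat_lit 104) (nat_lit 4) (nat_lit 152) (nat_lit 224) (nat_lit 224))))))))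
noncomputable def pc54 : PT := (PT.nd (nat_lit 5850) (PT.nd (nat_lit 5148) (PT.nd (nat_lit 312) (PT.nd (nat_lit 156) (PT.nd (nat_lit 78) (PT.lf (nat_lit 8132) (nat_lit 6) (nat_lit 107) (nat_lit 4) (nat_lit 153) (nat_lit 224) (nat_lit 223)) (PT.lf (nat_lit 8284) (nat_lit 6) (nat_lit 109) (nat_lit 4) (nat_lit 154) (nat_lit 224) (nat_lit 222))) (PT.nd (nat_lit 78) (PT.lf (nat_lit 8512) (nat_lit 6) (nat_lit 112) (nat_lit 4) (nat_lit 155) (nat_lit 224) (nat_lit 221)) (PT.lf (nat_lit 8740) (nat_lit 6) (nat_lit 115) (nat_lit 4) (nat_lit 156) (nat_lit 224) (nat_lit 220)))) (PT.nd (nat_lit 156) (PT.nd (nat_lit 78) (PT.lf (nat_lit 8968) (nat_lit 6) (nat_lit 118) (nat_lit 4) (nat_lit 157) (nat_lit 224) (nat_lit 219)) (PT.lf (nat_lit 9196) (nat_lit 6) (nat_lit 121) (nat_lit 4) (nat_lit 158) (nat_lit 224) (nat_lit 218))) (PT.nd (nat_lit 4524) (PT.lf (nat_lit 9500) (nat_lit 6) (nat_lit 125) (nat_lit 4) (nat_lit 159) (nat_lit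 224) (nat_lit 217)) (PT.nd (nat_lit 78) (PT.lf (nat_lit 9500) (nat_lit 6) (nat_lit 125) (nat_lit 2) (nat_lit 217) (nat_lit 224) (nat_lit 159)) (PT.lf (nat_lit 9196) (nat_lit 6) (nat_lit 121) (nat_lit 2) (nat_lit 218) (nat_lit 224) (nat_lit 158)))))) (PT.nd (nat_lit 312) (PT.nd (nat_lit 156) (PT.nd (nat_lit 78) (PT.lf (nat_lit 8968) (nat_lit 6) (nat_lit 118) (nat_lit 2) (nat_lit 219) (nat_lit 224) (nat_lit 157)) (PT.lf (nat_lit 8740) (nat_lit 6) (nat_lit 115) (nat_lit 2) (nat_lit 220) (nat_lit 224) (nat_lit 156))) (PT.nd (nat_lit 78) (PT.lf (nat_lit 8512) (nat_lit 6) (nat_lit 112) (nat_lit 2) (nat_lit 221) (nat_lit 224) (nat_lit 155)) (PT.lf (nat_lit 8284) (nat_lit 6) (nat_lit 109) (nat_lit 2) (nat_lit 222) (nat_lit 224) (nat_lit 154)))) (PT.nd (nat_lit 156) (PT.nd (nat_lit 78) (PT.lf (nat_lit 8132) (nat_lit 6) (nat_lit 107) (nat_lit 2) (nat_lit 223) (nat_lit 224) (nat_lit 153)) (PT.lf (nat_lit 7904) (nat_lit 3)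 (nat_lit 104) (nat_lit 0) (nat_lit 224) (nat_lit 224) (nat_lit 152))) (PT.nd (nat_lit 78) (PT.lf (nat_lit 7676) (nat_lit 6) (nat_lit 101) (nat_lit 0) (nat_lit 225) (nat_lit 224) (nat_lit 151)) (PT.nd (nat_lit 78) (PT.lf (nat_lit 7372) (nat_lit 6) (nat_lit 97) (nat_lit 0) (nat_lit 226) (nat_lit 224) (nat_lit 150)) (PT.lf (nat_lit 7144) (nat_lit 6) (nat_lit 94) (nat_lit 0) (nat_lit 227) (nat_lit 224) (nat_lit 149))))))) (PT.nd (nat_lit 56706) (PT.nd (nat_lit 56316) (PT.nd (nat_lit 56160) (PT.nd (nat_lit 56082) (PT.lf (nat_lit 6840) (nat_lit 6) (nat_lit 90) (nat_lit 0) (nat_lit 228) (nat_lit 224) (nat_lit 148)) (PT.lf (nat_lit 6460) (nat_lit 6) (nat_lit 85) (nat_lit 5) (nat_lit 146) (nat_lit 225) (nat_lit 229))) (PT.nd (nat_lit 78) (PT.lf (nat_lit 6688) (nat_lit 6) (nat_lit 88) (nat_lit 5) (nat_lit 147) (nat_lit 225) (nat_lit 228)) (PT.lf (nat_lit 6916) (nat_lit 6) (nat_lit 91) (nat_lit 5) (nat_lit 148) (nat_lit 225)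 (nat_lit 227)))) (PT.nd (nat_lit 156) (PT.nd (nat_lit 78) (PT.lf (nat_lit 7220) (nat_lit 6) (nat_lit 95) (nat_lit 5) (nat_lit 149) (nat_lit 225) (nat_lit 226)) (PT.lf (nat_lit 7448) (nat_lit 3) (nat_lit 98) (nat_lit 4) (nat_lit 150) (nat_lit 225) (nat_lit 225))) (PT.nd (nat_lit 78) (PT.lf (nat_lit 7676) (nat_lit 6) (nat_lit 101) (nat_lit 4) (nat_lit 151) (nat_lit 225) (nat_lit 224)) (PT.nd (nat_lit 78) (PT.lf (nat_lit 7828) (nat_lit 6) (nat_lit 103) (nat_lit 4) (nat_lit 152) (nat_lit 225) (nat_lit 223)) (PT.lf (nat_lit 8056) (nat_lit 6) (nat_lit 106) (nat_lit 4) (nat_lit 153) (nat_lit 225) (nat_lit 222)))))) (PT.nd (nat_lit 5148) (PT.nd (nat_lit 156) (PT.nd (nat_lit 78) (PT.lf (nat_lit 8208) (nat_lit 6) (nat_lit 108) (nat_lit 4) (nat_lit 154) (nat_lit 225) (nat_lit 221)) (PT.lf (nat_lit 8436) (nat_lit 6) (nat_lit 111) (nat_lit 4) (nat_lit 155) (nat_lit 225) (nat_lit 220))) (PT.nd (nat_lit 4914) (PT.lf (nat_lit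 8664) (nat_lit 6) (nat_lit 114) (nat_lit 4) (nat_lit 156) (nat_lit 225) (nat_lit 219)) (PT.lf (nat_lit 8664) (nat_lit 6) (nat_lit 114) (nat_lit 2) (nat_lit 219) (nat_lit 225) (nat_lit 156)))) (PT.nd (nat_lit 156) (PT.nd (nat_lit 78) (PT.lf (nat_lit 8436) (nat_lit 6) (nat_lit 111) (nat_lit 2) (nat_lit 220) (nat_lit 225) (nat_lit 155)) (PT.lf (nat_lit 8208) (nat_lit 6) (nat_lit 108) (nat_lit 2) (nat_lit 221) (nat_lit 225) (nat_lit 154))) (PT.nd (nat_lit 78) (PT.lf (nat_lit 8056) (nat_lit 6) (nat_lit 106) (nat_lit 2) (nat_lit 222) (nat_lit 225) (nat_lit 153)) (PT.nd (nat_lit 78) (PT.lf (nat_lit 7828) (nat_lit 6) (nat_lit 103) (nat_lit 2) (nat_lit 223) (nat_lit 225) (nat_lit 152)) (PT.lf (nat_lit 7676) (nat_lit 6) (nat_lit 101) (nat_lit 2) (nat_lit 224) (nat_lit 225) (nat_lit 151))))))))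
noncomputable def pc55 : PT := (PT.nd (nat_lit 62400) (PT.nd (nat_lit 56472) (PT.nd (nat_lit 312) (PT.nd (nat_lit 156) (PT.nd (nat_lit 78) (PT.lf (nat_lit 7448) (nat_lit 3) (nat_lit 98) (nat_lit 0) (nat_lit 225) (nat_lit 225) (nat_lit 150)) (PT.lf (nat_lit 7220) (nat_lit 6) (nat_lit 95) (nat_lit 0) (nat_lit 226) (nat_lit 225) (nat_lit 149))) (PT.nd (nat_lit 78) (PT.lf (nat_lit 6916) (nat_lit 6) (nat_lit 91) (nat_lit 0) (nat_lit 227) (nat_lit 225) (nat_lit 148)) (PT.lf (nat_lit 6688) (nat_lit 6) (nat_lit 88) (nat_lit 0) (nat_lit 228) (nat_lit 225) (nat_lit 147)))) (PT.nd (nat_lit 55926) (PT.nd (nat_lit 55848) (PT.lf (nat_lit 6460) (nat_lit 6) (nat_lit 85) (nat_lit 0) (nat_lit 229) (nat_lit 225) (nat_lit 146)) (PT.lf (nat_lit 6080) (nat_lit 6) (nat_lit 80) (nat_lit 5) (nat_lit 144) (nat_lit 226) (nat_lit 230))) (PT.nd (nat_lit 78) (PT.lf (nat_lit 6308) (nat_lit 6) (nat_lit 83) (nat_lit 5) (nat_lit 145) (nat_lit 226)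 (nat_lit 229)) (PT.nd (nat_lit 78) (PT.lf (nat_lit 6536) (nat_lit 6) (nat_lit 86) (nat_lit 5) (nat_lit 146) (nat_lit 226) (nat_lit 228)) (PT.lf (nat_lit 6764) (nat_lit 6) (nat_lit 89) (nat_lit 5) (nat_lit 147) (nat_lit 226) (nat_lit 227)))))) (PT.nd (nat_lit 312) (PT.nd (nat_lit 156) (PT.nd (nat_lit 78) (PT.lf (nat_lit 6992) (nat_lit 3) (nat_lit 92) (nat_lit 4) (nat_lit 148) (nat_lit 226) (nat_lit 226)) (PT.lf (nat_lit 7220) (nat_lit 6) (nat_lit 95) (nat_lit 4) (nat_lit 149) (nat_lit 226) (nat_lit 225))) (PT.nd (nat_lit 78) (PT.lf (nat_lit 7372) (nat_lit 6) (nat_lit 97) (nat_lit 4) (nat_lit 150) (nat_lit 226) (nat_lit 224)) (PT.lf (nat_lit 7600) (nat_lit 6) (nat_lit 100) (nat_lit 4) (nat_lit 151) (nat_lit 226) (nat_lit 223)))) (PT.nd (nat_lit 5382) (PT.nd (nat_lit 78) (PT.lf (nat_lit 7752) (nat_lit 6) (nat_lit 102) (nat_lit 4) (nat_lit 152) (nat_lit 226) (nat_lit 222)) (PT.lf (nat_lit 7980) (nat_lit 6) (nat_lit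 105) (nat_lit 4) (nat_lit 153) (nat_lit 226) (nat_lit 221))) (PT.nd (nat_lit 78) (PT.lf (nat_lit 7980) (nat_lit 6) (nat_lit 105) (nat_lit 2) (nat_lit 221) (nat_lit 226) (nat_lit 153)) (PT.nd (nat_lit 78) (PT.lf (nat_lit 7752) (nat_lit 6) (nat_lit 102) (nat_lit 2) (nat_lit 222) (nat_lit 226) (nat_lit 152)) (PT.lf (nat_lit 7600) (nat_lit 6) (nat_lit 100) (nat_lit 2) (nat_lit 223) (nat_lit 226) (nat_lit 151))))))) (PT.nd (nat_lit 56238) (PT.nd (nat_lit 312) (PT.nd (nat_lit 156) (PT.nd (nat_lit 78) (PT.lf (nat_lit 7372) (nat_lit 6) (nat_lit 97) (nat_lit 2) (nat_lit 224) (nat_lit 226) (nat_lit 150)) (PT.lf (nat_lit 7220) (nat_lit 6) (nat_lit 95) (nat_lit 2) (nat_lit 225) (nat_lit 226) (nat_lit 149))) (PT.nd (nat_lit 78) (PT.lf (nat_lit 6992) (nat_lit 3) (nat_lit 92) (nat_lit 0) (nat_lit 226) (nat_lit 226) (nat_lit 148)) (PT.lf (nat_lit 6764) (nat_lit 6) (nat_lit 89) (nat_lit 0) (nat_lit 227) (nat_lit 226) (nat_lit 147))))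 (PT.nd (nat_lit 156) (PT.nd (nat_lit 78) (PT.lf (nat_lit 6536) (nat_lit 6) (nat_lit 86) (nat_lit 0) (nat_lit 228) (nat_lit 226) (nat_lit 146)) (PT.lf (nat_lit 6308) (nat_lit 6) (nat_lit 83) (nat_lit 0) (nat_lit 229) (nat_lit 226) (nat_lit 145))) (PT.nd (nat_lit 55614) (PT.lf (nat_lit 6080) (nat_lit 6) (nat_lit 80) (nat_lit 0) (nat_lit 230) (nat_lit 226) (nat_lit 144)) (PT.nd (nat_lit 78) (PT.lf (nat_lit 5700) (nat_lit 6) (nat_lit 75) (nat_lit 5) (nat_lit 142) (nat_lit 227) (nat_lit 231)) (PT.lf (nat_lit 5928) (nat_lit 6) (nat_lit 78) (nat_lit 5) (nat_lit 143) (nat_lit 227) (nat_lit 230)))))) (PT.nd (nat_lit 390) (PT.nd (nat_lit 156) (PT.nd (nat_lit 78) (PT.lf (nat_lit 6156) (nat_lit 6) (nat_lit 81) (nat_lit 5) (nat_lit 144) (nat_lit 227) (nat_lit 229)) (PT.lf (nat_lit 6384) (nat_lit 6) (nat_lit 84) (nat_lit 5) (nat_lit 145) (nat_lit 227) (nat_lit 228))) (PT.nd (nat_lit 78) (PT.lf (nat_lit 6612) (nat_lit 3) (nat_lit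 87) (nat_lit 4) (nat_lit 146) (nat_lit 227) (nat_lit 227)) (PT.nd (nat_lit 78) (PT.lf (nat_lit 6764) (nat_lit 6) (nat_lit 89) (nat_lit 4) (nat_lit 147) (nat_lit 227) (nat_lit 226)) (PT.lf (nat_lit 6916) (nat_lit 6) (nat_lit 91) (nat_lit 4) (nat_lit 148) (nat_lit 227) (nat_lit 225))))) (PT.nd (nat_lit 156) (PT.nd (nat_lit 78) (PT.lf (nat_lit 7144) (nat_lit 6) (nat_lit 94) (nat_lit 4) (nat_lit 149) (nat_lit 227) (nat_lit 224)) (PT.lf (nat_lit 7296) (nat_lit 6) (nat_lit 96) (nat_lit 4) (nat_lit 150) (nat_lit 227) (nat_lit 223))) (PT.nd (nat_lit 5538) (PT.lf (nat_lit 7524) (nat_lit 6) (nat_lit 99) (nat_lit 4) (nat_lit 151) (nat_lit 227) (nat_lit 222)) (PT.nd (nat_lit 78) (PT.lf (nat_lit 7524) (nat_lit 6) (nat_lit 99) (nat_lit 2) (nat_lit 222) (nat_lit 227) (nat_lit 151)) (PT.lf (nat_lit 7296) (nat_lit 6) (nat_lit 96) (nat_lit 2) (nat_lit 223) (nat_lit 227) (nat_lit 150))))))))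
noncomputable def pc56 : PT := (PT.nd (nat_lit 62400) (PT.nd (nat_lit 56004) (PT.nd (nat_lit 312) (PT.nd (nat_lit 156) (PT.nd (nat_lit 78) (PT.lf (nat_lit 7144) (nat_lit 6) (nat_lit 94) (nat_lit 2) (nat_lit 224) (nat_lit 227) (nat_lit 149)) (PT.lf (nat_lit 6916) (nat_lit 6) (nat_lit 91) (nat_lit 2) (nat_lit 225) (nat_lit 227) (nat_lit 148))) (PT.nd (nat_lit 78) (PT.lf (nat_lit 6764) (nat_lit 6) (nat_lit 89) (nat_lit 2) (nat_lit 226) (nat_lit 227) (nat_lit 147)) (PT.lf (nat_lit 6612) (nat_lit 3) (nat_lit 87) (nat_lit 0) (nat_lit 227) (nat_lit 227) (nat_lit 146)))) (PT.nd (nat_lit 156) (PT.nd (nat_lit 78) (PT.lf (nat_lit 6384) (nat_lit 6) (nat_lit 84) (nat_lit 0) (nat_lit 228) (nat_lit 227) (nat_lit 145)) (PT.lf (nat_lit 6156) (nat_lit 6) (nat_lit 81) (nat_lit 0) (nat_lit 229) (nat_lit 227) (nat_lit 144))) (PT.nd (nat_lit 78) (PT.lf (nat_lit 5928) (nat_lit 6) (nat_lit 78) (nat_lit 0) (nat_lit 230) (nat_lit 227) (nat_lit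 143)) (PT.nd (nat_lit 55380) (PT.lf (nat_lit 5700) (nat_lit 6) (nat_lit 75) (nat_lit 0) (nat_lit 231) (nat_lit 227) (nat_lit 142)) (PT.lf (nat_lit 5320) (nat_lit 6) (nat_lit 70) (nat_lit 5) (nat_lit 140) (nat_lit 228) (nat_lit 232)))))) (PT.nd (nat_lit 312) (PT.nd (nat_lit 156) (PT.nd (nat_lit 78) (PT.lf (nat_lit 5548) (nat_lit 6) (nat_lit 73) (nat_lit 5) (nat_lit 141) (nat_lit 228) (nat_lit 231)) (PT.lf (nat_lit 5776) (nat_lit 6) (nat_lit 76) (nat_lit 5) (nat_lit 142) (nat_lit 228) (nat_lit 230))) (PT.nd (nat_lit 78) (PT.lf (nat_lit 6004) (nat_lit 6) (nat_lit 79) (nat_lit 5) (nat_lit 143) (nat_lit 228) (nat_lit 229)) (PT.lf (nat_lit 6232) (nat_lit 3) (nat_lit 82) (nat_lit 4) (nat_lit 144) (nat_lit 228) (nat_lit 228)))) (PT.nd (nat_lit 156) (PT.nd (nat_lit 78) (PT.lf (nat_lit 6384) (nat_lit 6) (nat_lit 84) (nat_lit 4) (nat_lit 145) (nat_lit 228) (nat_lit 227)) (PT.lf (nat_lit 6536) (nat_lit 6) (nat_lit 86) (nat_lit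 4) (nat_lit 146) (nat_lit 228) (nat_lit 226))) (PT.nd (nat_lit 78) (PT.lf (nat_lit 6688) (nat_lit 6) (nat_lit 88) (nat_lit 4) (nat_lit 147) (nat_lit 228) (nat_lit 225)) (PT.nd (nat_lit 78) (PT.lf (nat_lit 6840) (nat_lit 6) (nat_lit 90) (nat_lit 4) (nat_lit 148) (nat_lit 228) (nat_lit 224)) (PT.lf (nat_lit 7068) (nat_lit 6) (nat_lit 93) (nat_lit 4) (nat_lit 149) (nat_lit 228) (nat_lit 223))))))) (PT.nd (nat_lit 702) (PT.nd (nat_lit 312) (PT.nd (nat_lit 156) (PT.nd (nat_lit 78) (PT.lf (nat_lit 7068) (nat_lit 6) (nat_lit 93) (nat_lit 2) (nat_lit 223) (nat_lit 228) (nat_lit 149)) (PT.lf (nat_lit 6840) (nat_lit 6) (nat_lit 90) (nat_lit 2) (nat_lit 224) (nat_lit 228) (nat_lit 148))) (PT.nd (nat_lit 78) (PT.lf (nat_lit 6688) (nat_lit 6) (nat_lit 88) (nat_lit 2) (nat_lit 225) (nat_lit 228) (nat_lit 147)) (PT.lf (nat_lit 6536) (nat_lit 6) (nat_lit 86) (nat_lit 2) (nat_lit 226) (nat_lit 228) (nat_lit 146)))) (PT.nd (nat_lit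 156) (PT.nd (nat_lit 78) (PT.lf (nat_lit 6384) (nat_lit 6) (nat_lit 84) (nat_lit 2) (nat_lit 227) (nat_lit 228) (nat_lit 145)) (PT.lf (nat_lit 6232) (nat_lit 3) (nat_lit 82) (nat_lit 0) (nat_lit 228) (nat_lit 228) (nat_lit 144))) (PT.nd (nat_lit 78) (PT.lf (nat_lit 6004) (nat_lit 6) (nat_lit 79) (nat_lit 0) (nat_lit 229) (nat_lit 228) (nat_lit 143)) (PT.nd (nat_lit 78) (PT.lf (nat_lit 5776) (nat_lit 6) (nat_lit 76) (nat_lit 0) (nat_lit 230) (nat_lit 228) (nat_lit 142)) (PT.lf (nat_lit 5548) (nat_lit 6) (nat_lit 73) (nat_lit 0) (nat_lit 231) (nat_lit 228) (nat_lit 141)))))) (PT.nd (nat_lit 55458) (PT.nd (nat_lit 55302) (PT.nd (nat_lit 55224) (PT.lf (nat_lit 5320) (nat_lit 6) (nat_lit 70) (nat_lit 0) (nat_lit 232) (nat_lit 228) (nat_lit 140)) (PT.lf (nat_lit 5168) (nat_lit 6) (nat_lit 68) (nat_lit 5) (nat_lit 139) (nat_lit 229) (nat_lit 232))) (PT.nd (nat_lit 78) (PT.lf (nat_lit 5396) (nat_lit 6) (nat_lit 71) (nat_lit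 5) (nat_lit 140) (nat_lit 229) (nat_lit 231)) (PT.lf (nat_lit 5624) (nat_lit 6) (nat_lit 74) (nat_lit 5) (nat_lit 141) (nat_lit 229) (nat_lit 230)))) (PT.nd (nat_lit 156) (PT.nd (nat_lit 78) (PT.lf (nat_lit 5852) (nat_lit 3) (nat_lit 77) (nat_lit 4) (nat_lit 142) (nat_lit 229) (nat_lit 229)) (PT.lf (nat_lit 6004) (nat_lit 6) (nat_lit 79) (nat_lit 4) (nat_lit 143) (nat_lit 229) (nat_lit 228))) (PT.nd (nat_lit 78) (PT.lf (nat_lit 6156) (nat_lit 6) (nat_lit 81) (nat_lit 4) (nat_lit 144) (nat_lit 229) (nat_lit 227)) (PT.nd (nat_lit 78) (PT.lf (nat_lit 6308) (nat_lit 6) (nat_lit 83) (nat_lit 4) (nat_lit 145) (nat_lit 229) (nat_lit 226)) (PT.lf (nat_lit 6460) (nat_lit 6) (nat_lit 85) (nat_lit 4) (nat_lit 146) (nat_lit 229) (nat_lit 225))))))))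
noncomputable def pc57 : PT := (PT.nd (nat_lit 62712) (PT.nd (nat_lit 55692) (PT.nd (nat_lit 312) (PT.nd (nat_lit 156) (PT.nd (nat_lit 78) (PT.lf (nat_lit 6460) (nat_lit 6) (nat_lit 85) (nat_lit 2) (nat_lit 225) (nat_lit 229) (nat_lit 146)) (PT.lf (nat_lit 6308) (nat_lit 6) (nat_lit 83) (nat_lit 2) (nat_lit 226) (nat_lit 229) (nat_lit 145))) (PT.nd (nat_lit 78) (PT.lf (nat_lit 6156) (nat_lit 6) (nat_lit 81) (nat_lit 2) (nat_lit 227) (nat_lit 229) (nat_lit 144)) (PT.lf (nat_lit 6004) (nat_lit 6) (nat_lit 79) (nat_lit 2) (nat_lit 228) (nat_lit 229) (nat_lit 143)))) (PT.nd (nat_lit 156) (PT.nd (nat_lit 78) (PT.lf (nat_lit 5852) (nat_lit 3) (nat_lit 77) (nat_lit 0) (nat_lit 229) (nat_lit 229) (nat_lit 142)) (PT.lf (nat_lit 5624) (nat_lit 6) (nat_lit 74) (nat_lit 0) (nat_lit 230) (nat_lit 229) (nat_lit 141))) (PT.nd (nat_lit 78) (PT.lf (nat_lit 5396) (nat_lit 6) (nat_lit 71) (nat_lit 0) (nat_lit 231) (nat_lit 229) (nat_lit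 140)) (PT.nd (nat_lit 55068) (PT.lf (nat_lit 5168) (nat_lit 6) (nat_lit 68) (nat_lit 0) (nat_lit 232) (nat_lit 229) (nat_lit 139)) (PT.lf (nat_lit 4864) (nat_lit 6) (nat_lit 64) (nat_lit 5) (nat_lit 137) (nat_lit 230) (nat_lit 233)))))) (PT.nd (nat_lit 312) (PT.nd (nat_lit 156) (PT.nd (nat_lit 78) (PT.lf (nat_lit 5016) (nat_lit 6) (nat_lit 66) (nat_lit 5) (nat_lit 138) (nat_lit 230) (nat_lit 232)) (PT.lf (nat_lit 5244) (nat_lit 6) (nat_lit 69) (nat_lit 5) (nat_lit 139) (nat_lit 230) (nat_lit 231))) (PT.nd (nat_lit 78) (PT.lf (nat_lit 5472) (nat_lit 3) (nat_lit 72) (nat_lit 4) (nat_lit 140) (nat_lit 230) (nat_lit 230)) (PT.lf (nat_lit 5624) (nat_lit 6) (nat_lit 74) (nat_lit 4) (nat_lit 141) (nat_lit 230) (nat_lit 229)))) (PT.nd (nat_lit 156) (PT.nd (nat_lit 78) (PT.lf (nat_lit 5776) (nat_lit 6) (nat_lit 76) (nat_lit 4) (nat_lit 142) (nat_lit 230) (nat_lit 228)) (PT.lf (nat_lit 5928) (nat_lit 6) (nat_lit 78) (nat_lit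 4) (nat_lit 143) (nat_lit 230) (nat_lit 227))) (PT.nd (nat_lit 6396) (PT.lf (nat_lit 6080) (nat_lit 6) (nat_lit 80) (nat_lit 4) (nat_lit 144) (nat_lit 230) (nat_lit 226)) (PT.nd (nat_lit 78) (PT.lf (nat_lit 6080) (nat_lit 6) (nat_lit 80) (nat_lit 2) (nat_lit 226) (nat_lit 230) (nat_lit 144)) (PT.lf (nat_lit 5928) (nat_lit 6) (nat_lit 78) (nat_lit 2) (nat_lit 227) (nat_lit 230) (nat_lit 143))))))) (PT.nd (nat_lit 55458) (PT.nd (nat_lit 312) (PT.nd (nat_lit 156) (PT.nd (nat_lit 78) (PT.lf (nat_lit 5776) (nat_lit 6) (nat_lit 76) (nat_lit 2) (nat_lit 228) (nat_lit 230) (nat_lit 142)) (PT.lf (nat_lit 5624) (nat_lit 6) (nat_lit 74) (nat_lit 2) (nat_lit 229) (nat_lit 230) (nat_lit 141))) (PT.nd (nat_lit 78) (PT.lf (nat_lit 5472) (nat_lit 3) (nat_lit 72) (nat_lit 0) (nat_lit 230) (nat_lit 230) (nat_lit 140)) (PT.lf (nat_lit 5244) (nat_lit 6) (nat_lit 69) (nat_lit 0) (nat_lit 231) (nat_lit 230) (nat_lit 139)))) (PT.nd (nat_lit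 54912) (PT.nd (nat_lit 78) (PT.lf (nat_lit 5016) (nat_lit 6) (nat_lit 66) (nat_lit 0) (nat_lit 232) (nat_lit 230) (nat_lit 138)) (PT.lf (nat_lit 4864) (nat_lit 6) (nat_lit 64) (nat_lit 0) (nat_lit 233) (nat_lit 230) (nat_lit 137))) (PT.nd (nat_lit 78) (PT.lf (nat_lit 4560) (nat_lit 6) (nat_lit 60) (nat_lit 5) (nat_lit 135) (nat_lit 231) (nat_lit 234)) (PT.nd (nat_lit 78) (PT.lf (nat_lit 4712) (nat_lit 6) (nat_lit 62) (nat_lit 5) (nat_lit 136) (nat_lit 231) (nat_lit 233)) (PT.lf (nat_lit 4940) (nat_lit 6) (nat_lit 65) (nat_lit 5) (nat_lit 137) (nat_lit 231) (nat_lit 232)))))) (PT.nd (nat_lit 312) (PT.nd (nat_lit 156) (PT.nd (nat_lit 78) (PT.lf (nat_lit 5092) (nat_lit 3) (nat_lit 67) (nat_lit 4) (nat_lit 138) (nat_lit 231) (nat_lit 231)) (PT.lf (nat_lit 5244) (nat_lit 6) (nat_lit 69) (nat_lit 4) (nat_lit 139) (nat_lit 231) (nat_lit 230))) (PT.nd (nat_lit 78) (PT.lf (nat_lit 5396) (nat_lit 6) (nat_lit 71) (nat_lit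 4) (nat_lit 140) (nat_lit 231) (nat_lit 229)) (PT.lf (nat_lit 5548) (nat_lit 6) (nat_lit 73) (nat_lit 4) (nat_lit 141) (nat_lit 231) (nat_lit 228)))) (PT.nd (nat_lit 6708) (PT.nd (nat_lit 6630) (PT.lf (nat_lit 5700) (nat_lit 6) (nat_lit 75) (nat_lit 4) (nat_lit 142) (nat_lit 231) (nat_lit 227)) (PT.lf (nat_lit 5700) (nat_lit 6) (nat_lit 75) (nat_lit 2) (nat_lit 227) (nat_lit 231) (nat_lit 142))) (PT.nd (nat_lit 78) (PT.lf (nat_lit 5548) (nat_lit 6) (nat_lit 73) (nat_lit 2) (nat_lit 228) (nat_lit 231) (nat_lit 141)) (PT.nd (nat_lit 78) (PT.lf (nat_lit 5396) (nat_lit 6) (nat_lit 71) (nat_lit 2) (nat_lit 229) (nat_lit 231) (nat_lit 140)) (PT.lf (nat_lit 5244) (nat_lit 6) (nat_lit 69) (nat_lit 2) (nat_lit 230) (nat_lit 231) (nat_lit 139))))))))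
noncomputable def pc58 : PT := (PT.nd (nat_lit 62712) (PT.nd (nat_lit 55224) (PT.nd (nat_lit 54834) (PT.nd (nat_lit 156) (PT.nd (nat_lit 78) (PT.lf (nat_lit 5092) (nat_lit 3) (nat_lit 67) (nat_lit 0) (nat_lit 231) (nat_lit 231) (nat_lit 138)) (PT.lf (nat_lit 4940) (nat_lit 6) (nat_lit 65) (nat_lit 0) (nat_lit 232) (nat_lit 231) (nat_lit 137))) (PT.nd (nat_lit 78) (PT.lf (nat_lit 4712) (nat_lit 6) (nat_lit 62) (nat_lit 0) (nat_lit 233) (nat_lit 231) (nat_lit 136)) (PT.lf (nat_lit 4560) (nat_lit 6) (nat_lit 60) (nat_lit 0) (nat_lit 234) (nat_lit 231) (nat_lit 135)))) (PT.nd (nat_lit 156) (PT.nd (nat_lit 78) (PT.lf (nat_lit 4256) (nat_lit 6) (nat_lit 56) (nat_lit 5) (nat_lit 133) (nat_lit 232) (nat_lit 235)) (PT.lf (nat_lit 4408) (nat_lit 6) (nat_lit 58) (nat_lit 5) (nat_lit 134) (nat_lit 232) (nat_lit 234))) (PT.nd (nat_lit 78) (PT.lf (nat_lit 4636) (nat_lit 6) (nat_lit 61) (nat_lit 5) (nat_lit 135) (nat_lit 232)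 (nat_lit 233)) (PT.nd (nat_lit 78) (PT.lf (nat_lit 4788) (nat_lit 3) (nat_lit 63) (nat_lit 4) (nat_lit 136) (nat_lit 232) (nat_lit 232)) (PT.lf (nat_lit 4940) (nat_lit 6) (nat_lit 65) (nat_lit 4) (nat_lit 137) (nat_lit 232) (nat_lit 231)))))) (PT.nd (nat_lit 7098) (PT.nd (nat_lit 156) (PT.nd (nat_lit 78) (PT.lf (nat_lit 5016) (nat_lit 6) (nat_lit 66) (nat_lit 4) (nat_lit 138) (nat_lit 232) (nat_lit 230)) (PT.lf (nat_lit 5168) (nat_lit 6) (nat_lit 68) (nat_lit 4) (nat_lit 139) (nat_lit 232) (nat_lit 229))) (PT.nd (nat_lit 6864) (PT.lf (nat_lit 5320) (nat_lit 6) (nat_lit 70) (nat_lit 4) (nat_lit 140) (nat_lit 232) (nat_lit 228)) (PT.lf (nat_lit 5320) (nat_lit 6) (nat_lit 70) (nat_lit 2) (nat_lit 228) (nat_lit 232) (nat_lit 140)))) (PT.nd (nat_lit 156) (PT.nd (nat_lit 78) (PT.lf (nat_lit 5168) (nat_lit 6) (nat_lit 68) (nat_lit 2) (nat_lit 229) (nat_lit 232) (nat_lit 139)) (PT.lf (nat_lit 5016) (nat_lit 6) (nat_lit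 66) (nat_lit 2) (nat_lit 230) (nat_lit 232) (nat_lit 138))) (PT.nd (nat_lit 78) (PT.lf (nat_lit 4940) (nat_lit 6) (nat_lit 65) (nat_lit 2) (nat_lit 231) (nat_lit 232) (nat_lit 137)) (PT.nd (nat_lit 78) (PT.lf (nat_lit 4788) (nat_lit 3) (nat_lit 63) (nat_lit 0) (nat_lit 232) (nat_lit 232) (nat_lit 136)) (PT.lf (nat_lit 4636) (nat_lit 6) (nat_lit 61) (nat_lit 0) (nat_lit 233) (nat_lit 232) (nat_lit 135))))))) (PT.nd (nat_lit 62166) (PT.nd (nat_lit 54600) (PT.nd (nat_lit 54444) (PT.nd (nat_lit 78) (PT.lf (nat_lit 4408) (nat_lit 6) (nat_lit 58) (nat_lit 0) (nat_lit 234) (nat_lit 232) (nat_lit 134)) (PT.lf (nat_lit 4256) (nat_lit 6) (nat_lit 56) (nat_lit 0) (nat_lit 235) (nat_lit 232) (nat_lit 133))) (PT.nd (nat_lit 78) (PT.lf (nat_lit 3952) (nat_lit 6) (nat_lit 52) (nat_lit 5) (nat_lit 131) (nat_lit 233) (nat_lit 236)) (PT.lf (nat_lit 4104) (nat_lit 6) (nat_lit 54) (nat_lit 5) (nat_lit 132) (nat_lit 233) (nat_lit 235))))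 (PT.nd (nat_lit 156) (PT.nd (nat_lit 78) (PT.lf (nat_lit 4332) (nat_lit 6) (nat_lit 57) (nat_lit 5) (nat_lit 133) (nat_lit 233) (nat_lit 234)) (PT.lf (nat_lit 4484) (nat_lit 3) (nat_lit 59) (nat_lit 4) (nat_lit 134) (nat_lit 233) (nat_lit 233))) (PT.nd (nat_lit 78) (PT.lf (nat_lit 4636) (nat_lit 6) (nat_lit 61) (nat_lit 4) (nat_lit 135) (nat_lit 233) (nat_lit 232)) (PT.nd (nat_lit 78) (PT.lf (nat_lit 4712) (nat_lit 6) (nat_lit 62) (nat_lit 4) (nat_lit 136) (nat_lit 233) (nat_lit 231)) (PT.lf (nat_lit 4864) (nat_lit 6) (nat_lit 64) (nat_lit 4) (nat_lit 137) (nat_lit 233) (nat_lit 230)))))) (PT.nd (nat_lit 312) (PT.nd (nat_lit 156) (PT.nd (nat_lit 78) (PT.lf (nat_lit 4864) (nat_lit 6) (nat_lit 64) (nat_lit 2) (nat_lit 230) (nat_lit 233) (nat_lit 137)) (PT.lf (nat_lit 4712) (nat_lit 6) (nat_lit 62) (nat_lit 2) (nat_lit 231) (nat_lit 233) (nat_lit 136))) (PT.nd (nat_lit 78) (PT.lf (nat_lit 4636) (nat_lit 6) (nat_lit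 61) (nat_lit 2) (nat_lit 232) (nat_lit 233) (nat_lit 135)) (PT.lf (nat_lit 4484) (nat_lit 3) (nat_lit 59) (nat_lit 0) (nat_lit 233) (nat_lit 233) (nat_lit 134)))) (PT.nd (nat_lit 156) (PT.nd (nat_lit 78) (PT.lf (nat_lit 4332) (nat_lit 6) (nat_lit 57) (nat_lit 0) (nat_lit 234) (nat_lit 233) (nat_lit 133)) (PT.lf (nat_lit 4104) (nat_lit 6) (nat_lit 54) (nat_lit 0) (nat_lit 235) (nat_lit 233) (nat_lit 132))) (PT.nd (nat_lit 54132) (PT.lf (nat_lit 3952) (nat_lit 6) (nat_lit 52) (nat_lit 0) (nat_lit 236) (nat_lit 233) (nat_lit 131)) (PT.nd (nat_lit 78) (PT.lf (nat_lit 3648) (nat_lit 6) (nat_lit 48) (nat_lit 5) (nat_lit 129) (nat_lit 234) (nat_lit 237)) (PT.lf (nat_lit 3800) (nat_lit 6) (nat_lit 50) (nat_lit 5) (nat_lit 130) (nat_lit 234) (nat_lit 236))))))))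
noncomputable def pc59 : PT := (PT.nd (nat_lit 70356) (PT.nd (nat_lit 8112) (PT.nd (nat_lit 312) (PT.nd (nat_lit 156) (PT.nd (nat_lit 78) (PT.lf (nat_lit 4028) (nat_lit 6) (nat_lit 53) (nat_lit 5) (nat_lit 131) (nat_lit 234) (nat_lit 235)) (PT.lf (nat_lit 4180) (nat_lit 3) (nat_lit 55) (nat_lit 4) (nat_lit 132) (nat_lit 234) (nat_lit 234))) (PT.nd (nat_lit 78) (PT.lf (nat_lit 4332) (nat_lit 6) (nat_lit 57) (nat_lit 4) (nat_lit 133) (nat_lit 234) (nat_lit 233)) (PT.lf (nat_lit 4408) (nat_lit 6) (nat_lit 58) (nat_lit 4) (nat_lit 134) (nat_lit 234) (nat_lit 232)))) (PT.nd (nat_lit 7566) (PT.nd (nat_lit 7488) (PT.lf (nat_lit 4560) (nat_lit 6) (nat_lit 60) (nat_lit 4) (nat_lit 135) (nat_lit 234) (nat_lit 231)) (PT.lf (nat_lit 4560) (nat_lit 6) (nat_lit 60) (nat_lit 2) (nat_lit 231) (nat_lit 234) (nat_lit 135))) (PT.nd (nat_lit 78) (PT.lf (nat_lit 4408) (nat_lit 6) (nat_lit 58) (nat_lit 2) (nat_lit 232) (nat_lit 234)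 (nat_lit 134)) (PT.nd (nat_lit 78) (PT.lf (nat_lit 4332) (nat_lit 6) (nat_lit 57) (nat_lit 2) (nat_lit 233) (nat_lit 234) (nat_lit 133)) (PT.lf (nat_lit 4180) (nat_lit 3) (nat_lit 55) (nat_lit 0) (nat_lit 234) (nat_lit 234) (nat_lit 132)))))) (PT.nd (nat_lit 54210) (PT.nd (nat_lit 156) (PT.nd (nat_lit 78) (PT.lf (nat_lit 4028) (nat_lit 6) (nat_lit 53) (nat_lit 0) (nat_lit 235) (nat_lit 234) (nat_lit 131)) (PT.lf (nat_lit 3800) (nat_lit 6) (nat_lit 50) (nat_lit 0) (nat_lit 236) (nat_lit 234) (nat_lit 130))) (PT.nd (nat_lit 53976) (PT.lf (nat_lit 3648) (nat_lit 6) (nat_lit 48) (nat_lit 0) (nat_lit 237) (nat_lit 234) (nat_lit 129)) (PT.lf (nat_lit 3496) (nat_lit 6) (nat_lit 46) (nat_lit 5) (nat_lit 128) (nat_lit 235) (nat_lit 237)))) (PT.nd (nat_lit 156) (PT.nd (nat_lit 78) (PT.lf (nat_lit 3724) (nat_lit 6) (nat_lit 49) (nat_lit 5) (nat_lit 129) (nat_lit 235) (nat_lit 236)) (PT.lf (nat_lit 3876) (nat_lit 3) (nat_lit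 51) (nat_lit 4) (nat_lit 130) (nat_lit 235) (nat_lit 235))) (PT.nd (nat_lit 78) (PT.lf (nat_lit 4028) (nat_lit 6) (nat_lit 53) (nat_lit 4) (nat_lit 131) (nat_lit 235) (nat_lit 234)) (PT.nd (nat_lit 78) (PT.lf (nat_lit 4104) (nat_lit 6) (nat_lit 54) (nat_lit 4) (nat_lit 132) (nat_lit 235) (nat_lit 233)) (PT.lf (nat_lit 4256) (nat_lit 6) (nat_lit 56) (nat_lit 4) (nat_lit 133) (nat_lit 235) (nat_lit 232))))))) (PT.nd (nat_lit 54444) (PT.nd (nat_lit 312) (PT.nd (nat_lit 156) (PT.nd (nat_lit 78) (PT.lf (nat_lit 4256) (nat_lit 6) (nat_lit 56) (nat_lit 2) (nat_lit 232) (nat_lit 235) (nat_lit 133)) (PT.lf (nat_lit 4104) (nat_lit 6) (nat_lit 54) (nat_lit 2) (nat_lit 233) (nat_lit 235) (nat_lit 132))) (PT.nd (nat_lit 78) (PT.lf (nat_lit 4028) (nat_lit 6) (nat_lit 53) (nat_lit 2) (nat_lit 234) (nat_lit 235) (nat_lit 131)) (PT.lf (nat_lit 3876) (nat_lit 3) (nat_lit 51) (nat_lit 0) (nat_lit 235) (nat_lit 235) (nat_lit 130))))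 (PT.nd (nat_lit 53898) (PT.nd (nat_lit 78) (PT.lf (nat_lit 3724) (nat_lit 6) (nat_lit 49) (nat_lit 0) (nat_lit 236) (nat_lit 235) (nat_lit 129)) (PT.lf (nat_lit 3496) (nat_lit 6) (nat_lit 46) (nat_lit 0) (nat_lit 237) (nat_lit 235) (nat_lit 128))) (PT.nd (nat_lit 78) (PT.lf (nat_lit 3268) (nat_lit 6) (nat_lit 43) (nat_lit 5) (nat_lit 126) (nat_lit 236) (nat_lit 238)) (PT.nd (nat_lit 78) (PT.lf (nat_lit 3420) (nat_lit 6) (nat_lit 45) (nat_lit 5) (nat_lit 127) (nat_lit 236) (nat_lit 237)) (PT.lf (nat_lit 3572) (nat_lit 3) (nat_lit 47) (nat_lit 4) (nat_lit 128) (nat_lit 236) (nat_lit 236)))))) (PT.nd (nat_lit 8268) (PT.nd (nat_lit 156) (PT.nd (nat_lit 78) (PT.lf (nat_lit 3724) (nat_lit 6) (nat_lit 49) (nat_lit 4) (nat_lit 129) (nat_lit 236) (nat_lit 235)) (PT.lf (nat_lit 3800) (nat_lit 6) (nat_lit 50) (nat_lit 4) (nat_lit 130) (nat_lit 236) (nat_lit 234))) (PT.nd (nat_lit 7956) (PT.lf (nat_lit 3952) (nat_lit 6) (nat_lit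 52) (nat_lit 4) (nat_lit 131) (nat_lit 236) (nat_lit 233)) (PT.nd (nat_lit 78) (PT.lf (nat_lit 3952) (nat_lit 6) (nat_lit 52) (nat_lit 2) (nat_lit 233) (nat_lit 236) (nat_lit 131)) (PT.lf (nat_lit 3800) (nat_lit 6) (nat_lit 50) (nat_lit 2) (nat_lit 234) (nat_lit 236) (nat_lit 130))))) (PT.nd (nat_lit 156) (PT.nd (nat_lit 78) (PT.lf (nat_lit 3724) (nat_lit 6) (nat_lit 49) (nat_lit 2) (nat_lit 235) (nat_lit 236) (nat_lit 129)) (PT.lf (nat_lit 3572) (nat_lit 3) (nat_lit 47) (nat_lit 0) (nat_lit 236) (nat_lit 236) (nat_lit 128))) (PT.nd (nat_lit 78) (PT.lf (nat_lit 3420) (nat_lit 6) (nat_lit 45) (nat_lit 0) (nat_lit 237) (nat_lit 236) (nat_lit 127)) (PT.nd (nat_lit 53586) (PT.lf (nat_lit 3268) (nat_lit 6) (nat_lit 43) (nat_lit 0) (nat_lit 238) (nat_lit 236) (nat_lit 126)) (PT.lf (nat_lit 3040) (nat_lit 6) (nat_lit 40) (nat_lit 5) (nat_lit 124) (nat_lit 237) (nat_lit 239))))))))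
noncomputable def pc60 : PT := (PT.nd (nat_lit 71292) (PT.nd (nat_lit 8814) (PT.nd (nat_lit 312) (PT.nd (nat_lit 156) (PT.nd (nat_lit 78) (PT.lf (nat_lit 3192) (nat_lit 6) (nat_lit 42) (nat_lit 5) (nat_lit 125) (nat_lit 237) (nat_lit 238)) (PT.lf (nat_lit 3344) (nat_lit 3) (nat_lit 44) (nat_lit 4) (nat_lit 126) (nat_lit 237) (nat_lit 237))) (PT.nd (nat_lit 78) (PT.lf (nat_lit 3420) (nat_lit 6) (nat_lit 45) (nat_lit 4) (nat_lit 127) (nat_lit 237) (nat_lit 236)) (PT.lf (nat_lit 3496) (nat_lit 6) (nat_lit 46) (nat_lit 4) (nat_lit 128) (nat_lit 237) (nat_lit 235)))) (PT.nd (nat_lit 8268) (PT.nd (nat_lit 8190) (PT.lf (nat_lit 3648) (nat_lit 6) (nat_lit 48) (nat_lit 4) (nat_lit 129) (nat_lit 237) (nat_lit 234)) (PT.lf (nat_lit 3648) (nat_lit 6) (nat_lit 48) (nat_lit 2) (nat_lit 234) (nat_lit 237) (nat_lit 129))) (PT.nd (nat_lit 78) (PT.lf (nat_lit 3496) (nat_lit 6) (nat_lit 46) (nat_lit 2) (nat_lit 235) (nat_lit 237)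 (nat_lit 128)) (PT.nd (nat_lit 78) (PT.lf (nat_lit 3420) (nat_lit 6) (nat_lit 45) (nat_lit 2) (nat_lit 236) (nat_lit 237) (nat_lit 127)) (PT.lf (nat_lit 3344) (nat_lit 3) (nat_lit 44) (nat_lit 0) (nat_lit 237) (nat_lit 237) (nat_lit 126)))))) (PT.nd (nat_lit 53586) (PT.nd (nat_lit 53430) (PT.nd (nat_lit 78) (PT.lf (nat_lit 3192) (nat_lit 6) (nat_lit 42) (nat_lit 0) (nat_lit 238) (nat_lit 237) (nat_lit 125)) (PT.lf (nat_lit 3040) (nat_lit 6) (nat_lit 40) (nat_lit 0) (nat_lit 239) (nat_lit 237) (nat_lit 124))) (PT.nd (nat_lit 78) (PT.lf (nat_lit 2812) (nat_lit 6) (nat_lit 37) (nat_lit 5) (nat_lit 122) (nat_lit 238) (nat_lit 240)) (PT.lf (nat_lit 2964) (nat_lit 6) (nat_lit 39) (nat_lit 5) (nat_lit 123) (nat_lit 238) (nat_lit 239)))) (PT.nd (nat_lit 156) (PT.nd (nat_lit 78) (PT.lf (nat_lit 3116) (nat_lit 3) (nat_lit 41) (nat_lit 4) (nat_lit 124) (nat_lit 238) (nat_lit 238)) (PT.lf (nat_lit 3192) (nat_lit 6) (nat_lit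 42) (nat_lit 4) (nat_lit 125) (nat_lit 238) (nat_lit 237))) (PT.nd (nat_lit 8580) (PT.lf (nat_lit 3268) (nat_lit 6) (nat_lit 43) (nat_lit 4) (nat_lit 126) (nat_lit 238) (nat_lit 236)) (PT.nd (nat_lit 78) (PT.lf (nat_lit 3268) (nat_lit 6) (nat_lit 43) (nat_lit 2) (nat_lit 236) (nat_lit 238) (nat_lit 126)) (PT.lf (nat_lit 3192) (nat_lit 6) (nat_lit 42) (nat_lit 2) (nat_lit 237) (nat_lit 238) (nat_lit 125))))))) (PT.nd (nat_lit 62478) (PT.nd (nat_lit 53352) (PT.nd (nat_lit 156) (PT.nd (nat_lit 78) (PT.lf (nat_lit 3116) (nat_lit 3) (nat_lit 41) (nat_lit 0) (nat_lit 238) (nat_lit 238) (nat_lit 124)) (PT.lf (nat_lit 2964) (nat_lit 6) (nat_lit 39) (nat_lit 0) (nat_lit 239) (nat_lit 238) (nat_lit 123))) (PT.nd (nat_lit 53118) (PT.lf (nat_lit 2812) (nat_lit 6) (nat_lit 37) (nat_lit 0) (nat_lit 240) (nat_lit 238) (nat_lit 122)) (PT.lf (nat_lit 2584) (nat_lit 6) (nat_lit 34) (nat_lit 5) (nat_lit 120) (nat_lit 239) (nat_lit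 241)))) (PT.nd (nat_lit 156) (PT.nd (nat_lit 78) (PT.lf (nat_lit 2736) (nat_lit 6) (nat_lit 36) (nat_lit 5) (nat_lit 121) (nat_lit 239) (nat_lit 240)) (PT.lf (nat_lit 2888) (nat_lit 3) (nat_lit 38) (nat_lit 4) (nat_lit 122) (nat_lit 239) (nat_lit 239))) (PT.nd (nat_lit 78) (PT.lf (nat_lit 2964) (nat_lit 6) (nat_lit 39) (nat_lit 4) (nat_lit 123) (nat_lit 239) (nat_lit 238)) (PT.nd (nat_lit 8814) (PT.lf (nat_lit 3040) (nat_lit 6) (nat_lit 40) (nat_lit 4) (nat_lit 124) (nat_lit 239) (nat_lit 237)) (PT.lf (nat_lit 3040) (nat_lit 6) (nat_lit 40) (nat_lit 2) (nat_lit 237) (nat_lit 239) (nat_lit 124)))))) (PT.nd (nat_lit 53118) (PT.nd (nat_lit 156) (PT.nd (nat_lit 78) (PT.lf (nat_lit 2964) (nat_lit 6) (nat_lit 39) (nat_lit 2) (nat_lit 238) (nat_lit 239) (nat_lit 123)) (PT.lf (nat_lit 2888) (nat_lit 3) (nat_lit 38) (nat_lit 0) (nat_lit 239) (nat_lit 239) (nat_lit 122))) (PT.nd (nat_lit 78) (PT.lf (nat_lit 2736) (nat_lit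 6) (nat_lit 36) (nat_lit 0) (nat_lit 240) (nat_lit 239) (nat_lit 121)) (PT.lf (nat_lit 2584) (nat_lit 6) (nat_lit 34) (nat_lit 0) (nat_lit 241) (nat_lit 239) (nat_lit 120)))) (PT.nd (nat_lit 156) (PT.nd (nat_lit 78) (PT.lf (nat_lit 2356) (nat_lit 6) (nat_lit 31) (nat_lit 5) (nat_lit 118) (nat_lit 240) (nat_lit 242)) (PT.lf (nat_lit 2508) (nat_lit 6) (nat_lit 33) (nat_lit 5) (nat_lit 119) (nat_lit 240) (nat_lit 241))) (PT.nd (nat_lit 78) (PT.lf (nat_lit 2660) (nat_lit 3) (nat_lit 35) (nat_lit 4) (nat_lit 120) (nat_lit 240) (nat_lit 240)) (PT.nd (nat_lit 78) (PT.lf (nat_lit 2736) (nat_lit 6) (nat_lit 36) (nat_lit 4) (nat_lit 121) (nat_lit 240) (nat_lit 239)) (PT.lf (nat_lit 2812) (nat_lit 6) (nat_lit 37) (nat_lit 4) (nat_lit 122) (nat_lit 240) (nat_lit 238))))))))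
noncomputable def pc61 : PT := (PT.nd (nat_lit 115518) (PT.nd (nat_lit 53274) (PT.nd (nat_lit 312) (PT.nd (nat_lit 156) (PT.nd (nat_lit 78) (PT.lf (nat_lit 2812) (nat_lit 6) (nat_lit 37) (nat_lit 2) (nat_lit 238) (nat_lit 240) (nat_lit 122)) (PT.lf (nat_lit 2736) (nat_lit 6) (nat_lit 36) (nat_lit 2) (nat_lit 239) (nat_lit 240) (nat_lit 121))) (PT.nd (nat_lit 78) (PT.lf (nat_lit 2660) (nat_lit 3) (nat_lit 35) (nat_lit 0) (nat_lit 240) (nat_lit 240) (nat_lit 120)) (PT.lf (nat_lit 2508) (nat_lit 6) (nat_lit 33) (nat_lit 0) (nat_lit 241) (nat_lit 240) (nat_lit 119)))) (PT.nd (nat_lit 52728) (PT.nd (nat_lit 52650) (PT.lf (nat_lit 2356) (nat_lit 6) (nat_lit 31) (nat_lit 0) (nat_lit 242) (nat_lit 240) (nat_lit 118)) (PT.lf (nat_lit 2128) (nat_lit 6) (nat_lit 28) (nat_lit 5) (nat_lit 116) (nat_lit 241) (nat_lit 243))) (PT.nd (nat_lit 78) (PT.lf (nat_lit 2280) (nat_lit 6) (nat_lit 30) (nat_lit 5) (nat_lit 117) (nat_lit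 241) (nat_lit 242)) (PT.nd (nat_lit 78) (PT.lf (nat_lit 2432) (nat_lit 3) (nat_lit 32) (nat_lit 4) (nat_lit 118) (nat_lit 241) (nat_lit 241)) (PT.lf (nat_lit 2508) (nat_lit 6) (nat_lit 33) (nat_lit 4) (nat_lit 119) (nat_lit 241) (nat_lit 240)))))) (PT.nd (nat_lit 9516) (PT.nd (nat_lit 9360) (PT.nd (nat_lit 9282) (PT.lf (nat_lit 2584) (nat_lit 6) (nat_lit 34) (nat_lit 4) (nat_lit 120) (nat_lit 241) (nat_lit 239)) (PT.lf (nat_lit 2584) (nat_lit 6) (nat_lit 34) (nat_lit 2) (nat_lit 239) (nat_lit 241) (nat_lit 120))) (PT.nd (nat_lit 78) (PT.lf (nat_lit 2508) (nat_lit 6) (nat_lit 33) (nat_lit 2) (nat_lit 240) (nat_lit 241) (nat_lit 119)) (PT.lf (nat_lit 2432) (nat_lit 3) (nat_lit 32) (nat_lit 0) (nat_lit 241) (nat_lit 241) (nat_lit 118)))) (PT.nd (nat_lit 52494) (PT.nd (nat_lit 78) (PT.lf (nat_lit 2280) (nat_lit 6) (nat_lit 30) (nat_lit 0) (nat_lit 242) (nat_lit 241) (nat_lit 117)) (PT.lf (nat_lit 2128) (nat_lit 6)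 (nat_lit 28) (nat_lit 0) (nat_lit 243) (nat_lit 241) (nat_lit 116))) (PT.nd (nat_lit 78) (PT.lf (nat_lit 1900) (nat_lit 6) (nat_lit 25) (nat_lit 5) (nat_lit 114) (nat_lit 242) (nat_lit 244)) (PT.nd (nat_lit 78) (PT.lf (nat_lit 2052) (nat_lit 6) (nat_lit 27) (nat_lit 5) (nat_lit 115) (nat_lit 242) (nat_lit 243)) (PT.lf (nat_lit 2204) (nat_lit 3) (nat_lit 29) (nat_lit 4) (nat_lit 116) (nat_lit 242) (nat_lit 242))))))) (PT.nd (nat_lit 62244) (PT.nd (nat_lit 9750) (PT.nd (nat_lit 9594) (PT.nd (nat_lit 78) (PT.lf (nat_lit 2280) (nat_lit 6) (nat_lit 30) (nat_lit 4) (nat_lit 117) (nat_lit 242) (nat_lit 241)) (PT.lf (nat_lit 2356) (nat_lit 6) (nat_lit 31) (nat_lit 4) (nat_lit 118) (nat_lit 242) (nat_lit 240))) (PT.nd (nat_lit 78) (PT.lf (nat_lit 2356) (nat_lit 6) (nat_lit 31) (nat_lit 2) (nat_lit 240) (nat_lit 242) (nat_lit 118)) (PT.lf (nat_lit 2280) (nat_lit 6) (nat_lit 30) (nat_lit 2) (nat_lit 241) (nat_lit 242) (nat_lit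 117)))) (PT.nd (nat_lit 156) (PT.nd (nat_lit 78) (PT.lf (nat_lit 2204) (nat_lit 3) (nat_lit 29) (nat_lit 0) (nat_lit 242) (nat_lit 242) (nat_lit 116)) (PT.lf (nat_lit 2052) (nat_lit 6) (nat_lit 27) (nat_lit 0) (nat_lit 243) (nat_lit 242) (nat_lit 115))) (PT.nd (nat_lit 52182) (PT.lf (nat_lit 1900) (nat_lit 6) (nat_lit 25) (nat_lit 0) (nat_lit 244) (nat_lit 242) (nat_lit 114)) (PT.nd (nat_lit 78) (PT.lf (nat_lit 1672) (nat_lit 6) (nat_lit 22) (nat_lit 5) (nat_lit 112) (nat_lit 243) (nat_lit 245)) (PT.lf (nat_lit 1824) (nat_lit 6) (nat_lit 24) (nat_lit 5) (nat_lit 113) (nat_lit 243) (nat_lit 244)))))) (PT.nd (nat_lit 9984) (PT.nd (nat_lit 156) (PT.nd (nat_lit 78) (PT.lf (nat_lit 1976) (nat_lit 3) (nat_lit 26) (nat_lit 4) (nat_lit 114) (nat_lit 243) (nat_lit 243)) (PT.lf (nat_lit 2052) (nat_lit 6) (nat_lit 27) (nat_lit 4) (nat_lit 115) (nat_lit 243) (nat_lit 242))) (PT.nd (nat_lit 9750) (PT.lf (nat_lit 2128) (nat_lit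 6) (nat_lit 28) (nat_lit 4) (nat_lit 116) (nat_lit 243) (nat_lit 241)) (PT.lf (nat_lit 2128) (nat_lit 6) (nat_lit 28) (nat_lit 2) (nat_lit 241) (nat_lit 243) (nat_lit 116)))) (PT.nd (nat_lit 156) (PT.nd (nat_lit 78) (PT.lf (nat_lit 2052) (nat_lit 6) (nat_lit 27) (nat_lit 2) (nat_lit 242) (nat_lit 243) (nat_lit 115)) (PT.lf (nat_lit 1976) (nat_lit 3) (nat_lit 26) (nat_lit 0) (nat_lit 243) (nat_lit 243) (nat_lit 114))) (PT.nd (nat_lit 78) (PT.lf (nat_lit 1824) (nat_lit 6) (nat_lit 24) (nat_lit 0) (nat_lit 244) (nat_lit 243) (nat_lit 113)) (PT.nd (nat_lit 51948) (PT.lf (nat_lit 1672) (nat_lit 6) (nat_lit 22) (nat_lit 0) (nat_lit 245) (nat_lit 243) (nat_lit 112)) (PT.lf (nat_lit 1444) (nat_lit 6) (nat_lit 19) (nat_lit 5) (nat_lit 110) (nat_lit 244) (nat_lit 246))))))))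
noncomputable def pc62 : PT := (PT.nd (nat_lit 73086) (PT.nd (nat_lit 62244) (PT.nd (nat_lit 10218) (PT.nd (nat_lit 156) (PT.nd (nat_lit 78) (PT.lf (nat_lit 1596) (nat_lit 6) (nat_lit 21) (nat_lit 5) (nat_lit 111) (nat_lit 244) (nat_lit 245)) (PT.lf (nat_lit 1748) (nat_lit 3) (nat_lit 23) (nat_lit 4) (nat_lit 112) (nat_lit 244) (nat_lit 244))) (PT.nd (nat_lit 78) (PT.lf (nat_lit 1824) (nat_lit 6) (nat_lit 24) (nat_lit 4) (nat_lit 113) (nat_lit 244) (nat_lit 243)) (PT.lf (nat_lit 1900) (nat_lit 6) (nat_lit 25) (nat_lit 4) (nat_lit 114) (nat_lit 244) (nat_lit 242)))) (PT.nd (nat_lit 156) (PT.nd (nat_lit 78) (PT.lf (nat_lit 1900) (nat_lit 6) (nat_lit 25) (nat_lit 2) (nat_lit 242) (nat_lit 244) (nat_lit 114)) (PT.lf (nat_lit 1824) (nat_lit 6) (nat_lit 24) (nat_lit 2) (nat_lit 243) (nat_lit 244) (nat_lit 113))) (PT.nd (nat_lit 78) (PT.lf (nat_lit 1748) (nat_lit 3) (nat_lit 23) (nat_lit 0) (nat_lit 244) (nat_lit 244)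 (nat_lit 112)) (PT.nd (nat_lit 78) (PT.lf (nat_lit 1596) (nat_lit 6) (nat_lit 21) (nat_lit 0) (nat_lit 245) (nat_lit 244) (nat_lit 111)) (PT.lf (nat_lit 1444) (nat_lit 6) (nat_lit 19) (nat_lit 0) (nat_lit 246) (nat_lit 244) (nat_lit 110)))))) (PT.nd (nat_lit 312) (PT.nd (nat_lit 156) (PT.nd (nat_lit 78) (PT.lf (nat_lit 1216) (nat_lit 6) (nat_lit 16) (nat_lit 5) (nat_lit 108) (nat_lit 245) (nat_lit 247)) (PT.lf (nat_lit 1368) (nat_lit 6) (nat_lit 18) (nat_lit 5) (nat_lit 109) (nat_lit 245) (nat_lit 246))) (PT.nd (nat_lit 78) (PT.lf (nat_lit 1520) (nat_lit 3) (nat_lit 20) (nat_lit 4) (nat_lit 110) (nat_lit 245) (nat_lit 245)) (PT.lf (nat_lit 1596) (nat_lit 6) (nat_lit 21) (nat_lit 4) (nat_lit 111) (nat_lit 245) (nat_lit 244)))) (PT.nd (nat_lit 10296) (PT.nd (nat_lit 10218) (PT.lf (nat_lit 1672) (nat_lit 6) (nat_lit 22) (nat_lit 4) (nat_lit 112) (nat_lit 245) (nat_lit 243)) (PT.lf (nat_lit 1672) (nat_lit 6) (nat_lit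 22) (nat_lit 2) (nat_lit 243) (nat_lit 245) (nat_lit 112))) (PT.nd (nat_lit 78) (PT.lf (nat_lit 1596) (nat_lit 6) (nat_lit 21) (nat_lit 2) (nat_lit 244) (nat_lit 245) (nat_lit 111)) (PT.nd (nat_lit 78) (PT.lf (nat_lit 1520) (nat_lit 3) (nat_lit 20) (nat_lit 0) (nat_lit 245) (nat_lit 245) (nat_lit 110)) (PT.lf (nat_lit 1368) (nat_lit 6) (nat_lit 18) (nat_lit 0) (nat_lit 246) (nat_lit 245) (nat_lit 109))))))) (PT.nd (nat_lit 62478) (PT.nd (nat_lit 51714) (PT.nd (nat_lit 51558) (PT.nd (nat_lit 51480) (PT.lf (nat_lit 1216) (nat_lit 6) (nat_lit 16) (nat_lit 0) (nat_lit 247) (nat_lit 245) (nat_lit 108)) (PT.lf (nat_lit 988) (nat_lit 6) (nat_lit 13) (nat_lit 5) (nat_lit 106) (nat_lit 246) (nat_lit 248))) (PT.nd (nat_lit 78) (PT.lf (nat_lit 1140) (nat_lit 6) (nat_lit 15) (nat_lit 5) (nat_lit 107) (nat_lit 246) (nat_lit 247)) (PT.lf (nat_lit 1292) (nat_lit 3) (nat_lit 17) (nat_lit 4) (nat_lit 108) (nat_lit 246) (nat_lit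 246)))) (PT.nd (nat_lit 10530) (PT.nd (nat_lit 78) (PT.lf (nat_lit 1368) (nat_lit 6) (nat_lit 18) (nat_lit 4) (nat_lit 109) (nat_lit 246) (nat_lit 245)) (PT.lf (nat_lit 1444) (nat_lit 6) (nat_lit 19) (nat_lit 4) (nat_lit 110) (nat_lit 246) (nat_lit 244))) (PT.nd (nat_lit 78) (PT.lf (nat_lit 1444) (nat_lit 6) (nat_lit 19) (nat_lit 2) (nat_lit 244) (nat_lit 246) (nat_lit 110)) (PT.nd (nat_lit 78) (PT.lf (nat_lit 1368) (nat_lit 6) (nat_lit 18) (nat_lit 2) (nat_lit 245) (nat_lit 246) (nat_lit 109)) (PT.lf (nat_lit 1292) (nat_lit 3) (nat_lit 17) (nat_lit 0) (nat_lit 246) (nat_lit 246) (nat_lit 108)))))) (PT.nd (nat_lit 51480) (PT.nd (nat_lit 51324) (PT.nd (nat_lit 78) (PT.lf (nat_lit 1140) (nat_lit 6) (nat_lit 15) (nat_lit 0) (nat_lit 247) (nat_lit 246) (nat_lit 107)) (PT.lf (nat_lit 988) (nat_lit 6) (nat_lit 13) (nat_lit 0) (nat_lit 248) (nat_lit 246) (nat_lit 106))) (PT.nd (nat_lit 78) (PT.lf (nat_lit 760) (nat_lit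 6) (nat_lit 10) (nat_lit 5) (nat_lit 104) (nat_lit 247) (nat_lit 249)) (PT.lf (nat_lit 912) (nat_lit 6) (nat_lit 12) (nat_lit 5) (nat_lit 105) (nat_lit 247) (nat_lit 248)))) (PT.nd (nat_lit 156) (PT.nd (nat_lit 78) (PT.lf (nat_lit 1064) (nat_lit 3) (nat_lit 14) (nat_lit 4) (nat_lit 106) (nat_lit 247) (nat_lit 247)) (PT.lf (nat_lit 1140) (nat_lit 6) (nat_lit 15) (nat_lit 4) (nat_lit 107) (nat_lit 247) (nat_lit 246))) (PT.nd (nat_lit 10686) (PT.lf (nat_lit 1216) (nat_lit 6) (nat_lit 16) (nat_lit 4) (nat_lit 108) (nat_lit 247) (nat_lit 245)) (PT.nd (nat_lit 78) (PT.lf (nat_lit 1216) (nat_lit 6) (nat_lit 16) (nat_lit 2) (nat_lit 245) (nat_lit 247) (nat_lit 108)) (PT.lf (nat_lit 1140) (nat_lit 6) (nat_lit 15) (nat_lit 2) (nat_lit 246) (nat_lit 247) (nat_lit 107))))))))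
noncomputable def pc63 : PT := (PT.nd (nat_lit 125034) (PT.nd (nat_lit 62478) (PT.nd (nat_lit 51246) (PT.nd (nat_lit 156) (PT.nd (nat_lit 78) (PT.lf (nat_lit 1064) (nat_lit 3) (nat_lit 14) (nat_lit 0) (nat_lit 247) (nat_lit 247) (nat_lit 106)) (PT.lf (nat_lit 912) (nat_lit 6) (nat_lit 12) (nat_lit 0) (nat_lit 248) (nat_lit 247) (nat_lit 105))) (PT.nd (nat_lit 51012) (PT.lf (nat_lit 760) (nat_lit 6) (nat_lit 10) (nat_lit 0) (nat_lit 249) (nat_lit 247) (nat_lit 104)) (PT.lf (nat_lit 532) (nat_lit 6) (nat_lit 7) (nat_lit 5) (nat_lit 102) (nat_lit 248) (nat_lit 250)))) (PT.nd (nat_lit 156) (PT.nd (nat_lit 78) (PT.lf (nat_lit 684) (nat_lit 6) (nat_lit 9) (nat_lit 5) (nat_lit 103) (nat_lit 248) (nat_lit 249)) (PT.lf (nat_lit 836) (nat_lit 3) (nat_lit 11) (nat_lit 4) (nat_lit 104) (nat_lit 248) (nat_lit 248))) (PT.nd (nat_lit 78) (PT.lf (nat_lit 912) (nat_lit 6) (nat_lit 12) (nat_lit 4) (nat_lit 105) (nat_lit 248) (nat_lit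 247)) (PT.nd (nat_lit 10920) (PT.lf (nat_lit 988) (nat_lit 6) (nat_lit 13) (nat_lit 4) (nat_lit 106) (nat_lit 248) (nat_lit 246)) (PT.lf (nat_lit 988) (nat_lit 6) (nat_lit 13) (nat_lit 2) (nat_lit 246) (nat_lit 248) (nat_lit 106)))))) (PT.nd (nat_lit 51090) (PT.nd (nat_lit 156) (PT.nd (nat_lit 78) (PT.lf (nat_lit 912) (nat_lit 6) (nat_lit 12) (nat_lit 2) (nat_lit 247) (nat_lit 248) (nat_lit 105)) (PT.lf (nat_lit 836) (nat_lit 3) (nat_lit 11) (nat_lit 0) (nat_lit 248) (nat_lit 248) (nat_lit 104))) (PT.nd (nat_lit 78) (PT.lf (nat_lit 684) (nat_lit 6) (nat_lit 9) (nat_lit 0) (nat_lit 249) (nat_lit 248) (nat_lit 103)) (PT.lf (nat_lit 532) (nat_lit 6) (nat_lit 7) (nat_lit 0) (nat_lit 250) (nat_lit 248) (nat_lit 102)))) (PT.nd (nat_lit 156) (PT.nd (nat_lit 78) (PT.lf (nat_lit 456) (nat_lit 6) (nat_lit 6) (nat_lit 5) (nat_lit 101) (nat_lit 249) (nat_lit 250)) (PT.lf (nat_lit 608) (nat_lit 3) (nat_lit 8) (nat_lit 4) (nat_lit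 102) (nat_lit 249) (nat_lit 249))) (PT.nd (nat_lit 78) (PT.lf (nat_lit 684) (nat_lit 6) (nat_lit 9) (nat_lit 4) (nat_lit 103) (nat_lit 249) (nat_lit 248)) (PT.nd (nat_lit 11154) (PT.lf (nat_lit 760) (nat_lit 6) (nat_lit 10) (nat_lit 4) (nat_lit 104) (nat_lit 249) (nat_lit 247)) (PT.lf (nat_lit 760) (nat_lit 6) (nat_lit 10) (nat_lit 2) (nat_lit 247) (nat_lit 249) (nat_lit 104))))))) (PT.nd (nat_lit 62634) (PT.nd (nat_lit 50934) (PT.nd (nat_lit 156) (PT.nd (nat_lit 78) (PT.lf (nat_lit 684) (nat_lit 6) (nat_lit 9) (nat_lit 2) (nat_lit 248) (nat_lit 249) (nat_lit 103)) (PT.lf (nat_lit 608) (nat_lit 3) (nat_lit 8) (nat_lit 0) (nat_lit 249) (nat_lit 249) (nat_lit 102))) (PT.nd (nat_lit 50700) (PT.lf (nat_lit 456) (nat_lit 6) (nat_lit 6) (nat_lit 0) (nat_lit 250) (nat_lit 249) (nat_lit 101)) (PT.lf (nat_lit 228) (nat_lit 6) (nat_lit 3) (nat_lit 5) (nat_lit 99) (nat_lit 250) (nat_lit 251)))) (PT.nd (nat_lit 156) (PT.nd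 (nat_lit 78) (PT.lf (nat_lit 380) (nat_lit 3) (nat_lit 5) (nat_lit 4) (nat_lit 100) (nat_lit 250) (nat_lit 250)) (PT.lf (nat_lit 456) (nat_lit 6) (nat_lit 6) (nat_lit 4) (nat_lit 101) (nat_lit 250) (nat_lit 249))) (PT.nd (nat_lit 11388) (PT.lf (nat_lit 532) (nat_lit 6) (nat_lit 7) (nat_lit 4) (nat_lit 102) (nat_lit 250) (nat_lit 248)) (PT.nd (nat_lit 78) (PT.lf (nat_lit 532) (nat_lit 6) (nat_lit 7) (nat_lit 2) (nat_lit 248) (nat_lit 250) (nat_lit 102)) (PT.lf (nat_lit 456) (nat_lit 6) (nat_lit 6) (nat_lit 2) (nat_lit 249) (nat_lit 250) (nat_lit 101)))))) (PT.nd (nat_lit 62634) (PT.nd (nat_lit 50544) (PT.nd (nat_lit 78) (PT.lf (nat_lit 380) (nat_lit 3) (nat_lit 5) (nat_lit 0) (nat_lit 250) (nat_lit 250) (nat_lit 100)) (PT.lf (nat_lit 228) (nat_lit 6) (nat_lit 3) (nat_lit 0) (nat_lit 251) (nat_lit 250) (nat_lit 99))) (PT.nd (nat_lit 156) (PT.lf (nat_lit 152) (nat_lit 6) (nat_lit 2) (nat_lit 5) (nat_lit 97) (nat_lit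 251) (nat_lit 252)) (PT.nd (nat_lit 11778) (PT.lf (nat_lit 228) (nat_lit 6) (nat_lit 3) (nat_lit 4) (nat_lit 99) (nat_lit 251) (nat_lit 250)) (PT.lf (nat_lit 228) (nat_lit 6) (nat_lit 3) (nat_lit 2) (nat_lit 250) (nat_lit 251) (nat_lit 99))))) (PT.nd (nat_lit 50388) (PT.nd (nat_lit 50310) (PT.lf (nat_lit 152) (nat_lit 6) (nat_lit 2) (nat_lit 0) (nat_lit 252) (nat_lit 251) (nat_lit 97)) (PT.lf (nat_lit 76) (nat_lit 3) (nat_lit 1) (nat_lit 4) (nat_lit 96) (nat_lit 252) (nat_lit 252))) (PT.nd (nat_lit 12012) (PT.lf (nat_lit 152) (nat_lit 6) (nat_lit 2) (nat_lit 4) (nat_lit 97) (nat_lit 252) (nat_lit 251)) (PT.nd (nat_lit 78) (PT.lf (nat_lit 152) (nat_lit 6) (nat_lit 2) (nat_lit 2) (nat_lit 251) (nat_lit 252) (nat_lit 97)) (PT.lf (nat_lit 76) (nat_lit 3) (nat_lit 1) (nat_lit 0) (nat_lit 252) (nat_lit 252) (nat_lit 96))))))))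
noncomputable def xc0 : XT := (XT.nd (nat_lit 249756) (nat_lit 0) (nat_lit 0) (XT.nd (nat_lit 186966) (nat_lit 0) (nat_lit 0) (XT.nd (nat_lit 124566) (nat_lit 0) (nat_lit 0) (XT.nd (nat_lit 62322) (nat_lit 0) (nat_lit 0) (XT.nd (nat_lit 78) (nat_lit 0) (nat_lit 0) (XT.lf (nat_lit 0) (nat_lit 13221590972) (nat_lit 76) (nat_lit 27521106053) (nat_lit 76) (nat_lit 27444552202) (nat_lit 5) (nat_lit 4) (nat_lit 6) (nat_lit 5) (nat_lit 6) (nat_lit 4) (nat_lit 553) (nat_lit 324) (nat_lit 323)) (XT.nd (nat_lit 62166) (nat_lit 0) (nat_lit 76) (XT.lf (nat_lit 0) (nat_lit 26132153575) (nat_lit 76) (nat_lit 22031596234) (nat_lit 76) (nat_lit 21880718256) (nat_lit 5) (nat_lit 4) (nat_lit 6) (nat_lit 5) (nat_lit 6) (nat_lit 4) (nat_lit 554) (nat_lit 324) (nat_lit 322)) (XT.lf (nat_lit 0) (nat_lit 9705201575) (nat_lit 152) (nat_lit 12062848027) (nat_lit 0) (nat_lit 9705201575) (nat_lit 6) (nat_lit 5) (nat_lit 8) (nat_lit 4) (nat_lit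 6) (nat_lit 4) (nat_lit 550) (nat_lit 325) (nat_lit 325)))) (XT.nd (nat_lit 156) (nat_lit 0) (nat_lit 0) (XT.nd (nat_lit 78) (nat_lit 76) (nat_lit 0) (XT.lf (nat_lit 0) (nat_lit 26378507549) (nat_lit 152) (nat_lit 11962649055) (nat_lit 0) (nat_lit 26299657083) (nat_lit 6) (nat_lit 5) (nat_lit 8) (nat_lit 4) (nat_lit 6) (nat_lit 4) (nat_lit 551) (nat_lit 325) (nat_lit 324)) (XT.lf (nat_lit 0) (nat_lit 322581215) (nat_lit 76) (nat_lit 33111217291) (nat_lit 76) (nat_lit 32955812974) (nat_lit 5) (nat_lit 4) (nat_lit 6) (nat_lit 5) (nat_lit 6) (nat_lit 4) (nat_lit 552) (nat_lit 325) (nat_lit 323))) (XT.nd (nat_lit 78) (nat_lit 0) (nat_lit 0) (XT.lf (nat_lit 0) (nat_lit 12975029318) (nat_lit 76) (nat_lit 27722830186) (nat_lit 76) (nat_lit 27493101741) (nat_lit 5) (nat_lit 4) (nat_lit 6) (nat_lit 5) (nat_lit 6) (nat_lit 4) (nat_lit 553) (nat_lit 325) (nat_lit 322)) (XT.lf (nat_lit 0) (nat_lit 25767670618) (nat_lit 76)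 (nat_lit 22292086289) (nat_lit 76) (nat_lit 21990198498) (nat_lit 5) (nat_lit 4) (nat_lit 6) (nat_lit 5) (nat_lit 6) (nat_lit 4) (nat_lit 554) (nat_lit 325) (nat_lit 321))))) (XT.nd (nat_lit 312) (nat_lit 76) (nat_lit 0) (XT.nd (nat_lit 156) (nat_lit 0) (nat_lit 0) (XT.nd (nat_lit 78) (nat_lit 0) (nat_lit 0) (XT.lf (nat_lit 0) (nat_lit 2924342587) (nat_lit 152) (nat_lit 24008206224) (nat_lit 0) (nat_lit 2924342587) (nat_lit 6) (nat_lit 5) (nat_lit 8) (nat_lit 4) (nat_lit 6) (nat_lit 4) (nat_lit 548) (nat_lit 326) (nat_lit 326)) (XT.lf (nat_lit 0) (nat_lit 12601511805) (nat_lit 152) (nat_lit 36183482405) (nat_lit 0) (nat_lit 12520295824) (nat_lit 6) (nat_lit 5) (nat_lit 8) (nat_lit 4) (nat_lit 6) (nat_lit 4) (nat_lit 549) (nat_lit 326) (nat_lit 325))) (XT.nd (nat_lit 78) (nat_lit 0) (nat_lit 0) (XT.lf (nat_lit 0) (nat_lit 19428217088) (nat_lit 152) (nat_lit 24252037405) (nat_lit 0) (nat_lit 19268150641) (nat_lit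 6) (nat_lit 5) (nat_lit 8) (nat_lit 4) (nat_lit 6) (nat_lit 4) (nat_lit 550) (nat_lit 326) (nat_lit 324)) (XT.lf (nat_lit 0) (nat_lit 26334766107) (nat_lit 152) (nat_lit 12211651914) (nat_lit 0) (nat_lit 26098145809) (nat_lit 6) (nat_lit 5) (nat_lit 8) (nat_lit 4) (nat_lit 6) (nat_lit 4) (nat_lit 551) (nat_lit 326) (nat_lit 323)))) (XT.nd (nat_lit 156) (nat_lit 0) (nat_lit 0) (XT.nd (nat_lit 78) (nat_lit 76) (nat_lit 0) (XT.lf (nat_lit 0) (nat_lit 33327193711) (nat_lit 152) (nat_lit 51805205) (nat_lit 0) (nat_lit 33016249286) (nat_lit 6) (nat_lit 5) (nat_lit 8) (nat_lit 4) (nat_lit 6) (nat_lit 4) (nat_lit 552) (nat_lit 326) (nat_lit 322)) (XT.lf (nat_lit 0) (nat_lit 12481690568) (nat_lit 76) (nat_lit 28049900864) (nat_lit 76) (nat_lit 27666797093) (nat_lit 5) (nat_lit 4) (nat_lit 6) (nat_lit 5) (nat_lit 6) (nat_lit 4) (nat_lit 553) (nat_lit 326) (nat_lit 321))) (XT.nd (nat_lit 61854) (nat_lit 0) (nat_lit 228) (XT.lf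 (nat_lit 0) (nat_lit 25159845165) (nat_lit 76) (nat_lit 22676211261) (nat_lit 76) (nat_lit 22223049871) (nat_lit 5) (nat_lit 4) (nat_lit 6) (nat_lit 5) (nat_lit 6) (nat_lit 4) (nat_lit 554) (nat_lit 326) (nat_lit 320)) (XT.lf (nat_lit 0) (nat_lit 21098478605) (nat_lit 76) (nat_lit 3618156246) (nat_lit 76) (nat_lit 3618156246) (nat_lit 8) (nat_lit 4) (nat_lit 9) (nat_lit 5) (nat_lit 9) (nat_lit 4) (nat_lit 546) (nat_lit 327) (nat_lit 327)))))) (XT.nd (nat_lit 546) (nat_lit 0) (nat_lit 0) (XT.nd (nat_lit 234) (nat_lit 76) (nat_lit 0) (XT.nd (nat_lit 78) (nat_lit 152) (nat_lit 0) (XT.lf (nat_lit 0) (nat_lit 56598472924) (nat_lit 76) (nat_lit 829630497) (nat_lit 76) (nat_lit 743468463) (nat_lit 8) (nat_lit 4) (nat_lit 9) (nat_lit 5) (nat_lit 9) (nat_lit 4) (nat_lit 547) (nat_lit 327) (nat_lit 326)) (XT.nd (nat_lit 78) (nat_lit 0) (nat_lit 0) (XT.lf (nat_lit 0) (nat_lit 5867033532) (nat_lit 152) (nat_lit 48146544040)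 (nat_lit 0) (nat_lit 5702165091) (nat_lit 6) (nat_lit 5) (nat_lit 8) (nat_lit 4) (nat_lit 6) (nat_lit 4) (nat_lit 548) (nat_lit 327) (nat_lit 325)) (XT.lf (nat_lit 0) (nat_lit 12556458119) (nat_lit 152) (nat_lit 36439955349) (nat_lit 0) (nat_lit 12312739212) (nat_lit 6) (nat_lit 5) (nat_lit 8) (nat_lit 4) (nat_lit 6) (nat_lit 4) (nat_lit 549) (nat_lit 327) (nat_lit 324)))) (XT.nd (nat_lit 156) (nat_lit 76) (nat_lit 0) (XT.nd (nat_lit 78) (nat_lit 0) (nat_lit 0) (XT.lf (nat_lit 0) (nat_lit 19321608022) (nat_lit 152) (nat_lit 24631171856) (nat_lit 0) (nat_lit 19001335264) (nat_lit 6) (nat_lit 5) (nat_lit 8) (nat_lit 4) (nat_lit 6) (nat_lit 4) (nat_lit 550) (nat_lit 327) (nat_lit 323)) (XT.lf (nat_lit 0) (nat_lit 26168394536) (nat_lit 152) (nat_lit 12709875206) (nat_lit 0) (nat_lit 25773797651) (nat_lit 6) (nat_lit 5) (nat_lit 8) (nat_lit 4) (nat_lit 6) (nat_lit 4) (nat_lit 551) (nat_lit 327) (nat_lit 322))) (XT.nd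 (nat_lit 78) (nat_lit 76) (nat_lit 0) (XT.lf (nat_lit 0) (nat_lit 33102800290) (nat_lit 152) (nat_lit 665648731) (nat_lit 0) (nat_lit 32636044058) (nat_lit 6) (nat_lit 5) (nat_lit 8) (nat_lit 4) (nat_lit 6) (nat_lit 4) (nat_lit 552) (nat_lit 327) (nat_lit 321)) (XT.lf (nat_lit 0) (nat_lit 11741143650) (nat_lit 76) (nat_lit 28502603879) (nat_lit 76) (nat_lit 27965790029) (nat_lit 5) (nat_lit 4) (nat_lit 6) (nat_lit 5) (nat_lit 6) (nat_lit 4) (nat_lit 553) (nat_lit 327) (nat_lit 320))))) (XT.nd (nat_lit 61932) (nat_lit 0) (nat_lit 76) (XT.nd (nat_lit 61776) (nat_lit 0) (nat_lit 228) (XT.nd (nat_lit 61698) (nat_lit 0) (nat_lit 228) (XT.lf (nat_lit 0) (nat_lit 24308146108) (nat_lit 76) (nat_lit 23184306793) (nat_lit 76) (nat_lit 22579475838) (nat_lit 5) (nat_lit 4) (nat_lit 6) (nat_lit 5) (nat_lit 6) (nat_lit 4) (nat_lit 554) (nat_lit 327) (nat_lit 319)) (XT.lf (nat_lit 0) (nat_lit 7005542658) (nat_lit 76) (nat_lit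 9948492795) (nat_lit 76) (nat_lit 9948492795) (nat_lit 8) (nat_lit 4) (nat_lit 9) (nat_lit 5) (nat_lit 9) (nat_lit 4) (nat_lit 544) (nat_lit 328) (nat_lit 328))) (XT.nd (nat_lit 78) (nat_lit 0) (nat_lit 0) (XT.lf (nat_lit 0) (nat_lit 27961093084) (nat_lit 76) (nat_lit 13671410646) (nat_lit 76) (nat_lit 13582663751) (nat_lit 8) (nat_lit 4) (nat_lit 9) (nat_lit 5) (nat_lit 9) (nat_lit 4) (nat_lit 545) (nat_lit 328) (nat_lit 327)) (XT.lf (nat_lit 0) (nat_lit 42068176749) (nat_lit 76) (nat_lit 7389128255) (nat_lit 76) (nat_lit 7214219326) (nat_lit 8) (nat_lit 4) (nat_lit 9) (nat_lit 5) (nat_lit 9) (nat_lit 4) (nat_lit 546) (nat_lit 328) (nat_lit 326)))) (XT.nd (nat_lit 156) (nat_lit 0) (nat_lit 0) (XT.nd (nat_lit 78) (nat_lit 152) (nat_lit 0) (XT.lf (nat_lit 0) (nat_lit 56344662889) (nat_lit 76) (nat_lit 1044649043) (nat_lit 76) (nat_lit 786087654) (nat_lit 8) (nat_lit 4) (nat_lit 9) (nat_lit 5) (nat_lit 9) (nat_lit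 4) (nat_lit 547) (nat_lit 328) (nat_lit 325)) (XT.lf (nat_lit 0) (nat_lit 5757226194) (nat_lit 152) (nat_lit 48537052525) (nat_lit 0) (nat_lit 5427345253) (nat_lit 6) (nat_lit 5) (nat_lit 8) (nat_lit 4) (nat_lit 6) (nat_lit 4) (nat_lit 548) (nat_lit 328) (nat_lit 324))) (XT.nd (nat_lit 78) (nat_lit 0) (nat_lit 0) (XT.lf (nat_lit 0) (nat_lit 12385095401) (nat_lit 152) (nat_lit 36953125340) (nat_lit 0) (nat_lit 11978660609) (nat_lit 6) (nat_lit 5) (nat_lit 8) (nat_lit 4) (nat_lit 6) (nat_lit 4) (nat_lit 549) (nat_lit 328) (nat_lit 323)) (XT.lf (nat_lit 0) (nat_lit 19090482798) (nat_lit 152) (nat_lit 25263430688) (nat_lit 0) (nat_lit 18609723879) (nat_lit 6) (nat_lit 5) (nat_lit 8) (nat_lit 4) (nat_lit 6) (nat_lit 4) (nat_lit 550) (nat_lit 328) (nat_lit 322))))))) (XT.nd (nat_lit 62634) (nat_lit 0) (nat_lit 0) (XT.nd (nat_lit 62010) (nat_lit 0) (nat_lit 76) (XT.nd (nat_lit 234) (nat_lit 0) (nat_lit 0) (XT.nd (nat_lit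 78) (nat_lit 76) (nat_lit 0) (XT.lf (nat_lit 0) (nat_lit 25879247462) (nat_lit 152) (nat_lit 13457754272) (nat_lit 0) (nat_lit 25326329197) (nat_lit 6) (nat_lit 5) (nat_lit 8) (nat_lit 4) (nat_lit 6) (nat_lit 4) (nat_lit 551) (nat_lit 328) (nat_lit 321)) (XT.nd (nat_lit 78) (nat_lit 76) (nat_lit 0) (XT.lf (nat_lit 0) (nat_lit 32757321323) (nat_lit 152) (nat_lit 1525780452) (nat_lit 0) (nat_lit 32134345439) (nat_lit 6) (nat_lit 5) (nat_lit 8) (nat_lit 4) (nat_lit 6) (nat_lit 4) (nat_lit 552) (nat_lit 328) (nat_lit 320)) (XT.lf (nat_lit 0) (nat_lit 10752741482) (nat_lit 76) (nat_lit 29081334794) (nat_lit 76) (nat_lit 28390341805) (nat_lit 5) (nat_lit 4) (nat_lit 6) (nat_lit 5) (nat_lit 6) (nat_lit 4) (nat_lit 553) (nat_lit 328) (nat_lit 319)))) (XT.nd (nat_lit 61620) (nat_lit 0) (nat_lit 228) (XT.nd (nat_lit 61542) (nat_lit 0) (nat_lit 304) (XT.lf (nat_lit 0) (nat_lit 23211829244) (nat_lit 76) (nat_lit 23816816851)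 (nat_lit 76) (nat_lit 23059787839) (nat_lit 5) (nat_lit 4) (nat_lit 6) (nat_lit 5) (nat_lit 6) (nat_lit 4) (nat_lit 554) (nat_lit 328) (nat_lit 318)) (XT.lf (nat_lit 0) (nat_lit 9510794777) (nat_lit 152) (nat_lit 6534799693) (nat_lit 0) (nat_lit 9510794777) (nat_lit 9) (nat_lit 5) (nat_lit 11) (nat_lit 4) (nat_lit 9) (nat_lit 4) (nat_lit 542) (nat_lit 329) (nat_lit 329))) (XT.nd (nat_lit 78) (nat_lit 0) (nat_lit 0) (XT.lf (nat_lit 0) (nat_lit 205964120) (nat_lit 76) (nat_lit 26162702211) (nat_lit 76) (nat_lit 26071292909) (nat_lit 8) (nat_lit 4) (nat_lit 9) (nat_lit 5) (nat_lit 9) (nat_lit 4) (nat_lit 543) (nat_lit 329) (nat_lit 328)) (XT.lf (nat_lit 0) (nat_lit 13878441442) (nat_lit 76) (nat_lit 20054385825) (nat_lit 76) (nat_lit 19874229629) (nat_lit 8) (nat_lit 4) (nat_lit 9) (nat_lit 5) (nat_lit 9) (nat_lit 4) (nat_lit 544) (nat_lit 329) (nat_lit 327))))) (XT.nd (nat_lit 312) (nat_lit 0) (nat_lit 0) (XT.nd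 (nat_lit 156) (nat_lit 152) (nat_lit 0) (XT.nd (nat_lit 78) (nat_lit 0) (nat_lit 0) (XT.lf (nat_lit 0) (nat_lit 27699668749) (nat_lit 76) (nat_lit 13892879748) (nat_lit 76) (nat_lit 13626561518) (nat_lit 8) (nat_lit 4) (nat_lit 9) (nat_lit 5) (nat_lit 9) (nat_lit 4) (nat_lit 545) (nat_lit 329) (nat_lit 326)) (XT.lf (nat_lit 0) (nat_lit 41681722840) (nat_lit 76) (nat_lit 7672800141) (nat_lit 76) (nat_lit 7322829451) (nat_lit 8) (nat_lit 4) (nat_lit 9) (nat_lit 5) (nat_lit 9) (nat_lit 4) (nat_lit 546) (nat_lit 329) (nat_lit 325))) (XT.nd (nat_lit 78) (nat_lit 152) (nat_lit 0) (XT.lf (nat_lit 0) (nat_lit 55836821045) (nat_lit 76) (nat_lit 1388711981) (nat_lit 76) (nat_lit 957525311) (nat_lit 8) (nat_lit 4) (nat_lit 9) (nat_lit 5) (nat_lit 9) (nat_lit 4) (nat_lit 547) (nat_lit 329) (nat_lit 324)) (XT.lf (nat_lit 0) (nat_lit 5519167213) (nat_lit 152) (nat_lit 49188279122) (nat_lit 0) (nat_lit 5023985527) (nat_lit 6)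 (nat_lit 5) (nat_lit 8) (nat_lit 4) (nat_lit 6) (nat_lit 4) (nat_lit 548) (nat_lit 329) (nat_lit 323)))) (XT.nd (nat_lit 156) (nat_lit 0) (nat_lit 0) (XT.nd (nat_lit 78) (nat_lit 0) (nat_lit 0) (XT.lf (nat_lit 0) (nat_lit 12087273915) (nat_lit 152) (nat_lit 37723440779) (nat_lit 0) (nat_lit 11517768101) (nat_lit 6) (nat_lit 5) (nat_lit 8) (nat_lit 4) (nat_lit 6) (nat_lit 4) (nat_lit 549) (nat_lit 329) (nat_lit 322)) (XT.lf (nat_lit 0) (nat_lit 18734639462) (nat_lit 152) (nat_lit 26149366361) (nat_lit 0) (nat_lit 18092974302) (nat_lit 6) (nat_lit 5) (nat_lit 8) (nat_lit 4) (nat_lit 6) (nat_lit 4) (nat_lit 550) (nat_lit 329) (nat_lit 321))) (XT.nd (nat_lit 78) (nat_lit 0) (nat_lit 0) (XT.lf (nat_lit 0) (nat_lit 25467072233) (nat_lit 152) (nat_lit 14455942599) (nat_lit 0) (nat_lit 24755349454) (nat_lit 6) (nat_lit 5) (nat_lit 8) (nat_lit 4) (nat_lit 6) (nat_lit 4) (nat_lit 551) (nat_lit 329) (nat_lit 320)) (XT.lf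 (nat_lit 0) (nat_lit 32290454935) (nat_lit 152) (nat_lit 2632951940) (nat_lit 0) (nat_lit 31510715052) (nat_lit 6) (nat_lit 5) (nat_lit 8) (nat_lit 4) (nat_lit 6) (nat_lit 4) (nat_lit 552) (nat_lit 329) (nat_lit 319)))))) (XT.nd (nat_lit 61854) (nat_lit 0) (nat_lit 76) (XT.nd (nat_lit 61542) (nat_lit 0) (nat_lit 228) (XT.nd (nat_lit 78) (nat_lit 0) (nat_lit 0) (XT.lf (nat_lit 0) (nat_lit 9515620414) (nat_lit 76) (nat_lit 29786599298) (nat_lit 76) (nat_lit 28940823390) (nat_lit 5) (nat_lit 4) (nat_lit 6) (nat_lit 5) (nat_lit 6) (nat_lit 4) (nat_lit 553) (nat_lit 329) (nat_lit 318)) (XT.nd (nat_lit 61386) (nat_lit 0) (nat_lit 304) (XT.lf (nat_lit 0) (nat_lit 21869936624) (nat_lit 76) (nat_lit 24574294116) (nat_lit 76) (nat_lit 23664405563) (nat_lit 5) (nat_lit 4) (nat_lit 6) (nat_lit 5) (nat_lit 6) (nat_lit 4) (nat_lit 554) (nat_lit 329) (nat_lit 317)) (XT.lf (nat_lit 0) (nat_lit 2366106431) (nat_lit 152) (nat_lit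 19559295151) (nat_lit 0) (nat_lit 2366106431) (nat_lit 9) (nat_lit 5) (nat_lit 11) (nat_lit 4) (nat_lit 9) (nat_lit 4) (nat_lit 540) (nat_lit 330) (nat_lit 330)))) (XT.nd (nat_lit 156) (nat_lit 76) (nat_lit 0) (XT.nd (nat_lit 78) (nat_lit 0) (nat_lit 0) (XT.lf (nat_lit 0) (nat_lit 11851861963) (nat_lit 152) (nat_lit 26218606651) (nat_lit 0) (nat_lit 11757710382) (nat_lit 9) (nat_lit 5) (nat_lit 11) (nat_lit 4) (nat_lit 9) (nat_lit 4) (nat_lit 541) (nat_lit 330) (nat_lit 329)) (XT.lf (nat_lit 0) (nat_lit 19048401912) (nat_lit 152) (nat_lit 13203556567) (nat_lit 0) (nat_lit 18862841029) (nat_lit 9) (nat_lit 5) (nat_lit 11) (nat_lit 4) (nat_lit 9) (nat_lit 4) (nat_lit 542) (nat_lit 330) (nat_lit 328))) (XT.nd (nat_lit 78) (nat_lit 76) (nat_lit 0) (XT.lf (nat_lit 0) (nat_lit 26328120948) (nat_lit 152) (nat_lit 62067676) (nat_lit 0) (nat_lit 26053813171) (nat_lit 9) (nat_lit 5) (nat_lit 11) (nat_lit 4) (nat_lit 9) (nat_lit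 4) (nat_lit 543) (nat_lit 330) (nat_lit 327)) (XT.lf (nat_lit 0) (nat_lit 13480393916) (nat_lit 76) (nat_lit 20346567868) (nat_lit 76) (nat_lit 19986098057) (nat_lit 8) (nat_lit 4) (nat_lit 9) (nat_lit 5) (nat_lit 9) (nat_lit 4) (nat_lit 544) (nat_lit 330) (nat_lit 326))))) (XT.nd (nat_lit 312) (nat_lit 0) (nat_lit 0) (XT.nd (nat_lit 156) (nat_lit 152) (nat_lit 0) (XT.nd (nat_lit 78) (nat_lit 0) (nat_lit 0) (XT.lf (nat_lit 0) (nat_lit 27176591649) (nat_lit 76) (nat_lit 14247264575) (nat_lit 76) (nat_lit 13803142305) (nat_lit 8) (nat_lit 4) (nat_lit 9) (nat_lit 5) (nat_lit 9) (nat_lit 4) (nat_lit 545) (nat_lit 330) (nat_lit 325)) (XT.lf (nat_lit 0) (nat_lit 41037257805) (nat_lit 76) (nat_lit 8087576020) (nat_lit 76) (nat_lit 7562237769) (nat_lit 8) (nat_lit 4) (nat_lit 9) (nat_lit 5) (nat_lit 9) (nat_lit 4) (nat_lit 546) (nat_lit 330) (nat_lit 324))) (XT.nd (nat_lit 78) (nat_lit 152) (nat_lit 0) (XT.lf (nat_lit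 0) (nat_lit 55074503645) (nat_lit 76) (nat_lit 1862119950) (nat_lit 76) (nat_lit 1257931233) (nat_lit 8) (nat_lit 4) (nat_lit 9) (nat_lit 5) (nat_lit 9) (nat_lit 4) (nat_lit 547) (nat_lit 330) (nat_lit 323)) (XT.lf (nat_lit 0) (nat_lit 5152648577) (nat_lit 152) (nat_lit 50100792864) (nat_lit 0) (nat_lit 4491733462) (nat_lit 6) (nat_lit 5) (nat_lit 8) (nat_lit 4) (nat_lit 6) (nat_lit 4) (nat_lit 548) (nat_lit 330) (nat_lit 322)))) (XT.nd (nat_lit 156) (nat_lit 0) (nat_lit 0) (XT.nd (nat_lit 78) (nat_lit 0) (nat_lit 0) (XT.lf (nat_lit 0) (nat_lit 11662733428) (nat_lit 152) (nat_lit 38751574756) (nat_lit 0) (nat_lit 10929658967) (nat_lit 6) (nat_lit 5) (nat_lit 8) (nat_lit 4) (nat_lit 6) (nat_lit 4) (nat_lit 549) (nat_lit 330) (nat_lit 321)) (XT.lf (nat_lit 0) (nat_lit 18253767083) (nat_lit 152) (nat_lit 27289752992) (nat_lit 0) (nat_lit 17450635003) (nat_lit 6) (nat_lit 5) (nat_lit 8) (nat_lit 4) (nat_lit 6) (nat_lit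 4) (nat_lit 550) (nat_lit 330) (nat_lit 320))) (XT.nd (nat_lit 78) (nat_lit 0) (nat_lit 0) (XT.lf (nat_lit 0) (nat_lit 24931508695) (nat_lit 152) (nat_lit 15705312391) (nat_lit 0) (nat_lit 24060359510) (nat_lit 6) (nat_lit 5) (nat_lit 8) (nat_lit 4) (nat_lit 6) (nat_lit 4) (nat_lit 551) (nat_lit 330) (nat_lit 319)) (XT.lf (nat_lit 0) (nat_lit 31701793185) (nat_lit 152) (nat_lit 3988130624) (nat_lit 0) (nat_lit 30764607976) (nat_lit 6) (nat_lit 5) (nat_lit 8) (nat_lit 4) (nat_lit 6) (nat_lit 4) (nat_lit 552) (nat_lit 330) (nat_lit 318))))))))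
noncomputable def xc1 : XT := (XT.nd (nat_lit 124488) (nat_lit 0) (nat_lit 0) (XT.nd (nat_lit 62322) (nat_lit 0) (nat_lit 0) (XT.nd (nat_lit 61698) (nat_lit 0) (nat_lit 76) (XT.nd (nat_lit 61386) (nat_lit 0) (nat_lit 304) (XT.nd (nat_lit 78) (nat_lit 0) (nat_lit 0) (XT.lf (nat_lit 0) (nat_lit 8028699465) (nat_lit 76) (nat_lit 30619013641) (nat_lit 76) (nat_lit 29617715787) (nat_lit 5) (nat_lit 4) (nat_lit 6) (nat_lit 5) (nat_lit 6) (nat_lit 4) (nat_lit 553) (nat_lit 330) (nat_lit 317)) (XT.nd (nat_lit 61230) (nat_lit 0) (nat_lit 456) (XT.lf (nat_lit 0) (nat_lit 20281295723) (nat_lit 76) (nat_lit 25457400460) (nat_lit 76) (nat_lit 24393857319) (nat_lit 5) (nat_lit 4) (nat_lit 6) (nat_lit 5) (nat_lit 6) (nat_lit 4) (nat_lit 554) (nat_lit 330) (nat_lit 316)) (XT.lf (nat_lit 0) (nat_lit 14056725432) (nat_lit 76) (nat_lit 4521640749) (nat_lit 76) (nat_lit 4521640749) (nat_lit 11) (nat_lit 4) (nat_lit 12) (nat_lit 5)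 (nat_lit 12) (nat_lit 4) (nat_lit 538) (nat_lit 331) (nat_lit 331)))) (XT.nd (nat_lit 156) (nat_lit 0) (nat_lit 0) (XT.nd (nat_lit 78) (nat_lit 152) (nat_lit 0) (XT.lf (nat_lit 0) (nat_lit 42883512193) (nat_lit 76) (nat_lit 2295983058) (nat_lit 76) (nat_lit 2196097646) (nat_lit 11) (nat_lit 4) (nat_lit 12) (nat_lit 5) (nat_lit 12) (nat_lit 4) (nat_lit 539) (nat_lit 331) (nat_lit 330)) (XT.lf (nat_lit 0) (nat_lit 4759829591) (nat_lit 152) (nat_lit 39256566198) (nat_lit 0) (nat_lit 4568701882) (nat_lit 9) (nat_lit 5) (nat_lit 11) (nat_lit 4) (nat_lit 9) (nat_lit 4) (nat_lit 540) (nat_lit 331) (nat_lit 329))) (XT.nd (nat_lit 78) (nat_lit 0) (nat_lit 0) (XT.lf (nat_lit 0) (nat_lit 11812139467) (nat_lit 152) (nat_lit 26490539727) (nat_lit 0) (nat_lit 11529602457) (nat_lit 9) (nat_lit 5) (nat_lit 11) (nat_lit 4) (nat_lit 9) (nat_lit 4) (nat_lit 541) (nat_lit 331) (nat_lit 328)) (XT.lf (nat_lit 0) (nat_lit 18943301528)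 (nat_lit 152) (nat_lit 13605545158) (nat_lit 0) (nat_lit 18572017624) (nat_lit 9) (nat_lit 5) (nat_lit 11) (nat_lit 4) (nat_lit 9) (nat_lit 4) (nat_lit 542) (nat_lit 331) (nat_lit 327))))) (XT.nd (nat_lit 312) (nat_lit 152) (nat_lit 0) (XT.nd (nat_lit 156) (nat_lit 0) (nat_lit 0) (XT.nd (nat_lit 78) (nat_lit 76) (nat_lit 0) (XT.lf (nat_lit 0) (nat_lit 26159546888) (nat_lit 152) (nat_lit 590323757) (nat_lit 0) (nat_lit 25702100949) (nat_lit 9) (nat_lit 5) (nat_lit 11) (nat_lit 4) (nat_lit 9) (nat_lit 4) (nat_lit 543) (nat_lit 331) (nat_lit 326)) (XT.lf (nat_lit 0) (nat_lit 12816594930) (nat_lit 76) (nat_lit 20773787023) (nat_lit 76) (nat_lit 20232688625) (nat_lit 8) (nat_lit 4) (nat_lit 9) (nat_lit 5) (nat_lit 9) (nat_lit 4) (nat_lit 544) (nat_lit 331) (nat_lit 325))) (XT.nd (nat_lit 78) (nat_lit 0) (nat_lit 0) (XT.lf (nat_lit 0) (nat_lit 26391404727) (nat_lit 76) (nat_lit 14734874783) (nat_lit 76) (nat_lit 14112560404)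 (nat_lit 8) (nat_lit 4) (nat_lit 9) (nat_lit 5) (nat_lit 9) (nat_lit 4) (nat_lit 545) (nat_lit 331) (nat_lit 324)) (XT.lf (nat_lit 0) (nat_lit 40134218518) (nat_lit 76) (nat_lit 8633818317) (nat_lit 76) (nat_lit 7932653472) (nat_lit 8) (nat_lit 4) (nat_lit 9) (nat_lit 5) (nat_lit 9) (nat_lit 4) (nat_lit 546) (nat_lit 331) (nat_lit 323)))) (XT.nd (nat_lit 156) (nat_lit 0) (nat_lit 0) (XT.nd (nat_lit 78) (nat_lit 152) (nat_lit 0) (XT.lf (nat_lit 0) (nat_lit 54057044587) (nat_lit 76) (nat_lit 2465286606) (nat_lit 76) (nat_lit 1687567910) (nat_lit 8) (nat_lit 4) (nat_lit 9) (nat_lit 5) (nat_lit 9) (nat_lit 4) (nat_lit 547) (nat_lit 331) (nat_lit 322)) (XT.lf (nat_lit 0) (nat_lit 4657350026) (nat_lit 152) (nat_lit 51275391095) (nat_lit 0) (nat_lit 3830123984) (nat_lit 6) (nat_lit 5) (nat_lit 8) (nat_lit 4) (nat_lit 6) (nat_lit 4) (nat_lit 548) (nat_lit 331) (nat_lit 321))) (XT.nd (nat_lit 78) (nat_lit 0) (nat_lit 0)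 (XT.lf (nat_lit 0) (nat_lit 11111102985) (nat_lit 152) (nat_lit 40038425641) (nat_lit 0) (nat_lit 10213819324) (nat_lit 6) (nat_lit 5) (nat_lit 8) (nat_lit 4) (nat_lit 6) (nat_lit 4) (nat_lit 549) (nat_lit 331) (nat_lit 320)) (XT.lf (nat_lit 0) (nat_lit 17647445480) (nat_lit 152) (nat_lit 28685587038) (nat_lit 0) (nat_lit 16682144715) (nat_lit 6) (nat_lit 5) (nat_lit 8) (nat_lit 4) (nat_lit 6) (nat_lit 4) (nat_lit 550) (nat_lit 331) (nat_lit 319)))))) (XT.nd (nat_lit 61542) (nat_lit 0) (nat_lit 228) (XT.nd (nat_lit 234) (nat_lit 0) (nat_lit 0) (XT.nd (nat_lit 78) (nat_lit 76) (nat_lit 0) (XT.lf (nat_lit 0) (nat_lit 24272088881) (nat_lit 152) (nat_lit 17206955329) (nat_lit 0) (nat_lit 23240752091) (nat_lit 6) (nat_lit 5) (nat_lit 8) (nat_lit 4) (nat_lit 6) (nat_lit 4) (nat_lit 551) (nat_lit 331) (nat_lit 318)) (XT.nd (nat_lit 78) (nat_lit 76) (nat_lit 0) (XT.lf (nat_lit 0) (nat_lit 30990821709) (nat_lit 152) (nat_lit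 5592500643) (nat_lit 0) (nat_lit 29895372274) (nat_lit 6) (nat_lit 5) (nat_lit 8) (nat_lit 4) (nat_lit 6) (nat_lit 4) (nat_lit 552) (nat_lit 331) (nat_lit 317)) (XT.lf (nat_lit 0) (nat_lit 6290679385) (nat_lit 76) (nat_lit 31579305176) (nat_lit 76) (nat_lit 30421610454) (nat_lit 5) (nat_lit 4) (nat_lit 6) (nat_lit 5) (nat_lit 6) (nat_lit 4) (nat_lit 553) (nat_lit 331) (nat_lit 316)))) (XT.nd (nat_lit 61152) (nat_lit 0) (nat_lit 456) (XT.nd (nat_lit 61074) (nat_lit 0) (nat_lit 532) (XT.lf (nat_lit 0) (nat_lit 18444518407) (nat_lit 76) (nat_lit 26466907529) (nat_lit 76) (nat_lit 25248780491) (nat_lit 5) (nat_lit 4) (nat_lit 6) (nat_lit 5) (nat_lit 6) (nat_lit 4) (nat_lit 554) (nat_lit 331) (nat_lit 315)) (XT.lf (nat_lit 0) (nat_lit 10790207862) (nat_lit 152) (nat_lit 399794276) (nat_lit 0) (nat_lit 10790207862) (nat_lit 12) (nat_lit 5) (nat_lit 14) (nat_lit 4) (nat_lit 12) (nat_lit 4) (nat_lit 536) (nat_lit 332)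 (nat_lit 332))) (XT.nd (nat_lit 78) (nat_lit 0) (nat_lit 0) (XT.lf (nat_lit 0) (nat_lit 13504490546) (nat_lit 76) (nat_lit 15830566119) (nat_lit 76) (nat_lit 15727684145) (nat_lit 11) (nat_lit 4) (nat_lit 12) (nat_lit 5) (nat_lit 12) (nat_lit 4) (nat_lit 537) (nat_lit 332) (nat_lit 331)) (XT.lf (nat_lit 0) (nat_lit 27976915003) (nat_lit 76) (nat_lit 9213964598) (nat_lit 76) (nat_lit 9011197212) (nat_lit 11) (nat_lit 4) (nat_lit 12) (nat_lit 5) (nat_lit 12) (nat_lit 4) (nat_lit 538) (nat_lit 332) (nat_lit 330))))) (XT.nd (nat_lit 312) (nat_lit 76) (nat_lit 0) (XT.nd (nat_lit 156) (nat_lit 0) (nat_lit 0) (XT.nd (nat_lit 78) (nat_lit 152) (nat_lit 0) (XT.lf (nat_lit 0) (nat_lit 42614417244) (nat_lit 76) (nat_lit 2532492495) (nat_lit 76) (nat_lit 2232748981) (nat_lit 11) (nat_lit 4) (nat_lit 12) (nat_lit 5) (nat_lit 12) (nat_lit 4) (nat_lit 539) (nat_lit 332) (nat_lit 329)) (XT.lf (nat_lit 0) (nat_lit 4651576196) (nat_lit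 152) (nat_lit 39670614446) (nat_lit 0) (nat_lit 4269153774) (nat_lit 9) (nat_lit 5) (nat_lit 11) (nat_lit 4) (nat_lit 9) (nat_lit 4) (nat_lit 540) (nat_lit 332) (nat_lit 328))) (XT.nd (nat_lit 78) (nat_lit 0) (nat_lit 0) (XT.lf (nat_lit 0) (nat_lit 11638508185) (nat_lit 152) (nat_lit 27034643491) (nat_lit 0) (nat_lit 11167338868) (nat_lit 9) (nat_lit 5) (nat_lit 11) (nat_lit 4) (nat_lit 9) (nat_lit 4) (nat_lit 541) (nat_lit 332) (nat_lit 327)) (XT.lf (nat_lit 0) (nat_lit 18706196570) (nat_lit 152) (nat_lit 14275916412) (nat_lit 0) (nat_lit 18148865219) (nat_lit 9) (nat_lit 5) (nat_lit 11) (nat_lit 4) (nat_lit 9) (nat_lit 4) (nat_lit 542) (nat_lit 332) (nat_lit 326)))) (XT.nd (nat_lit 156) (nat_lit 0) (nat_lit 0) (XT.nd (nat_lit 78) (nat_lit 76) (nat_lit 0) (XT.lf (nat_lit 0) (nat_lit 25860817000) (nat_lit 152) (nat_lit 1383284807) (nat_lit 0) (nat_lit 25219833190) (nat_lit 9) (nat_lit 5) (nat_lit 11) (nat_lit 4)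 (nat_lit 9) (nat_lit 4) (nat_lit 543) (nat_lit 332) (nat_lit 325)) (XT.lf (nat_lit 0) (nat_lit 11886464465) (nat_lit 76) (nat_lit 21336416589) (nat_lit 76) (nat_lit 20614216799) (nat_lit 8) (nat_lit 4) (nat_lit 9) (nat_lit 5) (nat_lit 9) (nat_lit 4) (nat_lit 544) (nat_lit 332) (nat_lit 324))) (XT.nd (nat_lit 78) (nat_lit 0) (nat_lit 0) (XT.lf (nat_lit 0) (nat_lit 25343421898) (nat_lit 76) (nat_lit 15356136439) (nat_lit 76) (nat_lit 14555086182) (nat_lit 8) (nat_lit 4) (nat_lit 9) (nat_lit 5) (nat_lit 9) (nat_lit 4) (nat_lit 545) (nat_lit 332) (nat_lit 323)) (XT.lf (nat_lit 0) (nat_lit 38971815918) (nat_lit 76) (nat_lit 9312004332) (nat_lit 76) (nat_lit 8434400224) (nat_lit 8) (nat_lit 4) (nat_lit 9) (nat_lit 5) (nat_lit 9) (nat_lit 4) (nat_lit 546) (nat_lit 332) (nat_lit 322))))))) (XT.nd (nat_lit 62010) (nat_lit 0) (nat_lit 0) (XT.nd (nat_lit 546) (nat_lit 0) (nat_lit 0) (XT.nd (nat_lit 234) (nat_lit 76) (nat_lit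 0) (XT.nd (nat_lit 78) (nat_lit 152) (nat_lit 0) (XT.lf (nat_lit 0) (nat_lit 52783554830) (nat_lit 76) (nat_lit 3198738989) (nat_lit 76) (nat_lit 2246810754) (nat_lit 8) (nat_lit 4) (nat_lit 9) (nat_lit 5) (nat_lit 9) (nat_lit 4) (nat_lit 547) (nat_lit 332) (nat_lit 321)) (XT.nd (nat_lit 78) (nat_lit 0) (nat_lit 0) (XT.lf (nat_lit 0) (nat_lit 4032838776) (nat_lit 152) (nat_lit 52713100162) (nat_lit 0) (nat_lit 3038578987) (nat_lit 6) (nat_lit 5) (nat_lit 8) (nat_lit 4) (nat_lit 6) (nat_lit 4) (nat_lit 548) (nat_lit 332) (nat_lit 320)) (XT.lf (nat_lit 0) (nat_lit 10431900576) (nat_lit 152) (nat_lit 41585117867) (nat_lit 0) (nat_lit 9369623682) (nat_lit 6) (nat_lit 5) (nat_lit 8) (nat_lit 4) (nat_lit 6) (nat_lit 4) (nat_lit 549) (nat_lit 332) (nat_lit 319)))) (XT.nd (nat_lit 156) (nat_lit 76) (nat_lit 0) (XT.nd (nat_lit 78) (nat_lit 0) (nat_lit 0) (XT.lf (nat_lit 0) (nat_lit 16915144860) (nat_lit 152) (nat_lit 30338088157)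 (nat_lit 0) (nat_lit 15786831942) (nat_lit 6) (nat_lit 5) (nat_lit 8) (nat_lit 4) (nat_lit 6) (nat_lit 4) (nat_lit 550) (nat_lit 332) (nat_lit 318)) (XT.lf (nat_lit 0) (nat_lit 23488236598) (nat_lit 152) (nat_lit 18962183529) (nat_lit 0) (nat_lit 22295811035) (nat_lit 6) (nat_lit 5) (nat_lit 8) (nat_lit 4) (nat_lit 6) (nat_lit 4) (nat_lit 551) (nat_lit 332) (nat_lit 317))) (XT.nd (nat_lit 78) (nat_lit 76) (nat_lit 0) (XT.lf (nat_lit 0) (nat_lit 30156919269) (nat_lit 152) (nat_lit 7447463873) (nat_lit 0) (nat_lit 28902248420) (nat_lit 6) (nat_lit 5) (nat_lit 8) (nat_lit 4) (nat_lit 6) (nat_lit 4) (nat_lit 552) (nat_lit 332) (nat_lit 316)) (XT.lf (nat_lit 0) (nat_lit 4300041514) (nat_lit 76) (nat_lit 32668312991) (nat_lit 76) (nat_lit 31353209825) (nat_lit 5) (nat_lit 4) (nat_lit 6) (nat_lit 5) (nat_lit 6) (nat_lit 4) (nat_lit 553) (nat_lit 332) (nat_lit 315))))) (XT.nd (nat_lit 61152) (nat_lit 0) (nat_lit 304) (XT.nd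 (nat_lit 60996) (nat_lit 0) (nat_lit 532) (XT.nd (nat_lit 60918) (nat_lit 0) (nat_lit 532) (XT.lf (nat_lit 0) (nat_lit 16357999725) (nat_lit 76) (nat_lit 27603697417) (nat_lit 76) (nat_lit 26229922098) (nat_lit 5) (nat_lit 4) (nat_lit 6) (nat_lit 5) (nat_lit 6) (nat_lit 4) (nat_lit 554) (nat_lit 332) (nat_lit 314)) (XT.lf (nat_lit 0) (nat_lit 3378657425) (nat_lit 152) (nat_lit 14169630698) (nat_lit 0) (nat_lit 3378657425) (nat_lit 12) (nat_lit 5) (nat_lit 14) (nat_lit 4) (nat_lit 12) (nat_lit 4) (nat_lit 534) (nat_lit 333) (nat_lit 333))) (XT.nd (nat_lit 78) (nat_lit 0) (nat_lit 0) (XT.lf (nat_lit 0) (nat_lit 14146771792) (nat_lit 152) (nat_lit 14702957369) (nat_lit 0) (nat_lit 14040803358) (nat_lit 12) (nat_lit 5) (nat_lit 14) (nat_lit 4) (nat_lit 12) (nat_lit 4) (nat_lit 535) (nat_lit 333) (nat_lit 332)) (XT.lf (nat_lit 0) (nat_lit 21616939222) (nat_lit 152) (nat_lit 937476253) (nat_lit 0) (nat_lit 21408088814)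 (nat_lit 12) (nat_lit 5) (nat_lit 14) (nat_lit 4) (nat_lit 12) (nat_lit 4) (nat_lit 536) (nat_lit 333) (nat_lit 331)))) (XT.nd (nat_lit 156) (nat_lit 152) (nat_lit 0) (XT.nd (nat_lit 78) (nat_lit 0) (nat_lit 0) (XT.lf (nat_lit 0) (nat_lit 13227322749) (nat_lit 76) (nat_lit 16074170840) (nat_lit 76) (nat_lit 15765435020) (nat_lit 11) (nat_lit 4) (nat_lit 12) (nat_lit 5) (nat_lit 12) (nat_lit 4) (nat_lit 537) (nat_lit 333) (nat_lit 330)) (XT.lf (nat_lit 0) (nat_lit 27567188117) (nat_lit 76) (nat_lit 9523395655) (nat_lit 76) (nat_lit 9117683708) (nat_lit 11) (nat_lit 4) (nat_lit 12) (nat_lit 5) (nat_lit 12) (nat_lit 4) (nat_lit 538) (nat_lit 333) (nat_lit 329))) (XT.nd (nat_lit 78) (nat_lit 152) (nat_lit 0) (XT.lf (nat_lit 0) (nat_lit 42075992214) (nat_lit 76) (nat_lit 2905832616) (nat_lit 76) (nat_lit 2405969088) (nat_lit 11) (nat_lit 4) (nat_lit 12) (nat_lit 5) (nat_lit 12) (nat_lit 4) (nat_lit 539) (nat_lit 333)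 (nat_lit 328)) (XT.lf (nat_lit 0) (nat_lit 4407358089) (nat_lit 152) (nat_lit 40361096837) (nat_lit 0) (nat_lit 3833306798) (nat_lit 9) (nat_lit 5) (nat_lit 11) (nat_lit 4) (nat_lit 9) (nat_lit 4) (nat_lit 540) (nat_lit 333) (nat_lit 327)))))) (XT.nd (nat_lit 624) (nat_lit 76) (nat_lit 0) (XT.nd (nat_lit 312) (nat_lit 152) (nat_lit 0) (XT.nd (nat_lit 156) (nat_lit 76) (nat_lit 0) (XT.nd (nat_lit 78) (nat_lit 0) (nat_lit 0) (XT.lf (nat_lit 0) (nat_lit 11330816401) (nat_lit 152) (nat_lit 27851393372) (nat_lit 0) (nat_lit 10670603076) (nat_lit 9) (nat_lit 5) (nat_lit 11) (nat_lit 4) (nat_lit 9) (nat_lit 4) (nat_lit 541) (nat_lit 333) (nat_lit 326)) (XT.lf (nat_lit 0) (nat_lit 18336879857) (nat_lit 152) (nat_lit 15215256089) (nat_lit 0) (nat_lit 17593014072) (nat_lit 9) (nat_lit 5) (nat_lit 11) (nat_lit 4) (nat_lit 9) (nat_lit 4) (nat_lit 542) (nat_lit 333) (nat_lit 325))) (XT.nd (nat_lit 78) (nat_lit 76) (nat_lit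 0) (XT.lf (nat_lit 0) (nat_lit 25431670259) (nat_lit 152) (nat_lit 2441643704) (nat_lit 0) (nat_lit 24606588494) (nat_lit 9) (nat_lit 5) (nat_lit 11) (nat_lit 4) (nat_lit 9) (nat_lit 4) (nat_lit 543) (nat_lit 333) (nat_lit 324)) (XT.lf (nat_lit 0) (nat_lit 10689189786) (nat_lit 76) (nat_lit 22034948185) (nat_lit 76) (nat_lit 21131015953) (nat_lit 8) (nat_lit 4) (nat_lit 9) (nat_lit 5) (nat_lit 9) (nat_lit 4) (nat_lit 544) (nat_lit 333) (nat_lit 323)))) (XT.nd (nat_lit 156) (nat_lit 152) (nat_lit 0) (XT.nd (nat_lit 78) (nat_lit 0) (nat_lit 0) (XT.lf (nat_lit 0) (nat_lit 24031727447) (nat_lit 76) (nat_lit 16111592393) (nat_lit 76) (nat_lit 15131106311) (nat_lit 8) (nat_lit 4) (nat_lit 9) (nat_lit 5) (nat_lit 9) (nat_lit 4) (nat_lit 545) (nat_lit 333) (nat_lit 322)) (XT.lf (nat_lit 0) (nat_lit 37549034311) (nat_lit 76) (nat_lit 10122726654) (nat_lit 76) (nat_lit 9067916445) (nat_lit 8) (nat_lit 4) (nat_lit 9) (nat_lit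 5) (nat_lit 9) (nat_lit 4) (nat_lit 546) (nat_lit 333) (nat_lit 321))) (XT.nd (nat_lit 78) (nat_lit 152) (nat_lit 0) (XT.lf (nat_lit 0) (nat_lit 51252921614) (nat_lit 76) (nat_lit 4063117979) (nat_lit 76) (nat_lit 2936148422) (nat_lit 8) (nat_lit 4) (nat_lit 9) (nat_lit 5) (nat_lit 9) (nat_lit 4) (nat_lit 547) (nat_lit 333) (nat_lit 320)) (XT.lf (nat_lit 0) (nat_lit 3278569136) (nat_lit 152) (nat_lit 54415176315) (nat_lit 0) (nat_lit 2116406831) (nat_lit 6) (nat_lit 5) (nat_lit 8) (nat_lit 4) (nat_lit 6) (nat_lit 4) (nat_lit 548) (nat_lit 333) (nat_lit 319))))) (XT.nd (nat_lit 312) (nat_lit 76) (nat_lit 0) (XT.nd (nat_lit 156) (nat_lit 0) (nat_lit 0) (XT.nd (nat_lit 78) (nat_lit 0) (nat_lit 0) (XT.lf (nat_lit 0) (nat_lit 9624532725) (nat_lit 152) (nat_lit 43393002914) (nat_lit 0) (nat_lit 8396334395) (nat_lit 6) (nat_lit 5) (nat_lit 8) (nat_lit 4) (nat_lit 6) (nat_lit 4) (nat_lit 549) (nat_lit 333) (nat_lit 318))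 (XT.lf (nat_lit 0) (nat_lit 16056225346) (nat_lit 152) (nat_lit 32248700284) (nat_lit 0) (nat_lit 14763914372) (nat_lit 6) (nat_lit 5) (nat_lit 8) (nat_lit 4) (nat_lit 6) (nat_lit 4) (nat_lit 550) (nat_lit 333) (nat_lit 317))) (XT.nd (nat_lit 78) (nat_lit 0) (nat_lit 0) (XT.lf (nat_lit 0) (nat_lit 22579266927) (nat_lit 152) (nat_lit 20972530686) (nat_lit 0) (nat_lit 21224710666) (nat_lit 6) (nat_lit 5) (nat_lit 8) (nat_lit 4) (nat_lit 6) (nat_lit 4) (nat_lit 551) (nat_lit 333) (nat_lit 316)) (XT.lf (nat_lit 0) (nat_lit 29199357212) (nat_lit 152) (nat_lit 9554641156) (nat_lit 0) (nat_lit 27784368634) (nat_lit 6) (nat_lit 5) (nat_lit 8) (nat_lit 4) (nat_lit 6) (nat_lit 4) (nat_lit 552) (nat_lit 333) (nat_lit 315)))) (XT.nd (nat_lit 60840) (nat_lit 0) (nat_lit 684) (XT.nd (nat_lit 78) (nat_lit 0) (nat_lit 0) (XT.lf (nat_lit 0) (nat_lit 2055046461) (nat_lit 76) (nat_lit 33886988648) (nat_lit 76) (nat_lit 32413327918)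 (nat_lit 5) (nat_lit 4) (nat_lit 6) (nat_lit 5) (nat_lit 6) (nat_lit 4) (nat_lit 553) (nat_lit 333) (nat_lit 314)) (XT.lf (nat_lit 0) (nat_lit 14019916506) (nat_lit 76) (nat_lit 28868763435) (nat_lit 76) (nat_lit 27338139450) (nat_lit 5) (nat_lit 4) (nat_lit 6) (nat_lit 5) (nat_lit 6) (nat_lit 4) (nat_lit 554) (nat_lit 333) (nat_lit 313))) (XT.nd (nat_lit 78) (nat_lit 0) (nat_lit 0) (XT.lf (nat_lit 0) (nat_lit 12388300194) (nat_lit 76) (nat_lit 3773839401) (nat_lit 76) (nat_lit 3773839401) (nat_lit 14) (nat_lit 4) (nat_lit 15) (nat_lit 5) (nat_lit 15) (nat_lit 4) (nat_lit 532) (nat_lit 334) (nat_lit 334)) (XT.lf (nat_lit 0) (nat_lit 39854330287) (nat_lit 76) (nat_lit 554591165) (nat_lit 76) (nat_lit 442169254) (nat_lit 14) (nat_lit 4) (nat_lit 15) (nat_lit 5) (nat_lit 15) (nat_lit 4) (nat_lit 533) (nat_lit 334) (nat_lit 333))))))))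
noncomputable def xc2 : XT := (XT.nd (nat_lit 62868) (nat_lit 0) (nat_lit 0) (XT.nd (nat_lit 1170) (nat_lit 76) (nat_lit 0) (XT.nd (nat_lit 546) (nat_lit 228) (nat_lit 0) (XT.nd (nat_lit 234) (nat_lit 228) (nat_lit 0) (XT.nd (nat_lit 78) (nat_lit 0) (nat_lit 0) (XT.lf (nat_lit 0) (nat_lit 6794934052) (nat_lit 152) (nat_lit 28481285728) (nat_lit 0) (nat_lit 6579818132) (nat_lit 12) (nat_lit 5) (nat_lit 14) (nat_lit 4) (nat_lit 12) (nat_lit 4) (nat_lit 534) (nat_lit 334) (nat_lit 332)) (XT.nd (nat_lit 78) (nat_lit 0) (nat_lit 0) (XT.lf (nat_lit 0) (nat_lit 14114946058) (nat_lit 152) (nat_lit 14982869402) (nat_lit 0) (nat_lit 13796948164) (nat_lit 12) (nat_lit 5) (nat_lit 14) (nat_lit 4) (nat_lit 12) (nat_lit 4) (nat_lit 535) (nat_lit 334) (nat_lit 331)) (XT.lf (nat_lit 0) (nat_lit 21517691220) (nat_lit 152) (nat_lit 1351259841) (nat_lit 0) (nat_lit 21099807914) (nat_lit 12) (nat_lit 5) (nat_lit 14) (nat_lit 4) (nat_lit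 12) (nat_lit 4) (nat_lit 536) (nat_lit 334) (nat_lit 330)))) (XT.nd (nat_lit 156) (nat_lit 152) (nat_lit 0) (XT.nd (nat_lit 78) (nat_lit 0) (nat_lit 0) (XT.lf (nat_lit 0) (nat_lit 12672744968) (nat_lit 76) (nat_lit 16458711165) (nat_lit 76) (nat_lit 15943851731) (nat_lit 11) (nat_lit 4) (nat_lit 12) (nat_lit 5) (nat_lit 12) (nat_lit 4) (nat_lit 537) (nat_lit 334) (nat_lit 329)) (XT.lf (nat_lit 0) (nat_lit 26883912193) (nat_lit 76) (nat_lit 9971845045) (nat_lit 76) (nat_lit 9362834030) (nat_lit 11) (nat_lit 4) (nat_lit 12) (nat_lit 5) (nat_lit 12) (nat_lit 4) (nat_lit 538) (nat_lit 334) (nat_lit 328))) (XT.nd (nat_lit 78) (nat_lit 152) (nat_lit 0) (XT.lf (nat_lit 0) (nat_lit 41267766636) (nat_lit 76) (nat_lit 3416329642) (nat_lit 76) (nat_lit 2715909325) (nat_lit 11) (nat_lit 4) (nat_lit 12) (nat_lit 5) (nat_lit 12) (nat_lit 4) (nat_lit 539) (nat_lit 334) (nat_lit 327)) (XT.lf (nat_lit 0) (nat_lit 4026961874) (nat_lit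 152) (nat_lit 41328616705) (nat_lit 0) (nat_lit 3260780116) (nat_lit 9) (nat_lit 5) (nat_lit 11) (nat_lit 4) (nat_lit 9) (nat_lit 4) (nat_lit 540) (nat_lit 334) (nat_lit 326))))) (XT.nd (nat_lit 312) (nat_lit 152) (nat_lit 0) (XT.nd (nat_lit 156) (nat_lit 76) (nat_lit 0) (XT.nd (nat_lit 78) (nat_lit 0) (nat_lit 0) (XT.lf (nat_lit 0) (nat_lit 10888795258) (nat_lit 152) (nat_lit 28941503036) (nat_lit 0) (nat_lit 10038961040) (nat_lit 9) (nat_lit 5) (nat_lit 11) (nat_lit 4) (nat_lit 9) (nat_lit 4) (nat_lit 541) (nat_lit 334) (nat_lit 325)) (XT.lf (nat_lit 0) (nat_lit 17835028685) (nat_lit 152) (nat_lit 16424384973) (nat_lit 0) (nat_lit 16903978487) (nat_lit 9) (nat_lit 5) (nat_lit 11) (nat_lit 4) (nat_lit 9) (nat_lit 4) (nat_lit 542) (nat_lit 334) (nat_lit 324))) (XT.nd (nat_lit 78) (nat_lit 76) (nat_lit 0) (XT.lf (nat_lit 0) (nat_lit 24871731682) (nat_lit 152) (nat_lit 3766325228) (nat_lit 0) (nat_lit 23861831017)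 (nat_lit 9) (nat_lit 5) (nat_lit 11) (nat_lit 4) (nat_lit 9) (nat_lit 4) (nat_lit 543) (nat_lit 334) (nat_lit 323)) (XT.lf (nat_lit 0) (nat_lit 9223724731) (nat_lit 76) (nat_lit 22869992176) (nat_lit 76) (nat_lit 21783537661) (nat_lit 8) (nat_lit 4) (nat_lit 9) (nat_lit 5) (nat_lit 9) (nat_lit 4) (nat_lit 544) (nat_lit 334) (nat_lit 322)))) (XT.nd (nat_lit 156) (nat_lit 152) (nat_lit 0) (XT.nd (nat_lit 78) (nat_lit 0) (nat_lit 0) (XT.lf (nat_lit 0) (nat_lit 22455175235) (nat_lit 76) (nat_lit 17001902752) (nat_lit 76) (nat_lit 15841124109) (nat_lit 8) (nat_lit 4) (nat_lit 9) (nat_lit 5) (nat_lit 9) (nat_lit 4) (nat_lit 545) (nat_lit 334) (nat_lit 321)) (XT.lf (nat_lit 0) (nat_lit 35864630490) (nat_lit 76) (nat_lit 11066693681) (nat_lit 76) (nat_lit 9833755692) (nat_lit 8) (nat_lit 4) (nat_lit 9) (nat_lit 5) (nat_lit 9) (nat_lit 4) (nat_lit 546) (nat_lit 334) (nat_lit 320))) (XT.nd (nat_lit 78) (nat_lit 152) (nat_lit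 0) (XT.lf (nat_lit 0) (nat_lit 49463807495) (nat_lit 76) (nat_lit 5059178858) (nat_lit 76) (nat_lit 3756183250) (nat_lit 8) (nat_lit 4) (nat_lit 9) (nat_lit 5) (nat_lit 9) (nat_lit 4) (nat_lit 547) (nat_lit 334) (nat_lit 319)) (XT.lf (nat_lit 0) (nat_lit 2393882037) (nat_lit 152) (nat_lit 56383106806) (nat_lit 0) (nat_lit 1062801734) (nat_lit 6) (nat_lit 5) (nat_lit 8) (nat_lit 4) (nat_lit 6) (nat_lit 4) (nat_lit 548) (nat_lit 334) (nat_lit 318)))))) (XT.nd (nat_lit 61074) (nat_lit 0) (nat_lit 456) (XT.nd (nat_lit 234) (nat_lit 76) (nat_lit 0) (XT.nd (nat_lit 78) (nat_lit 0) (nat_lit 0) (XT.lf (nat_lit 0) (nat_lit 8688293963) (nat_lit 152) (nat_lit 45463660485) (nat_lit 0) (nat_lit 7293101015) (nat_lit 6) (nat_lit 5) (nat_lit 8) (nat_lit 4) (nat_lit 6) (nat_lit 4) (nat_lit 549) (nat_lit 334) (nat_lit 317)) (XT.nd (nat_lit 78) (nat_lit 0) (nat_lit 0) (XT.lf (nat_lit 0) (nat_lit 15069936428) (nat_lit 152) (nat_lit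 34419092885) (nat_lit 0) (nat_lit 13612498193) (nat_lit 6) (nat_lit 5) (nat_lit 8) (nat_lit 4) (nat_lit 6) (nat_lit 4) (nat_lit 550) (nat_lit 334) (nat_lit 316)) (XT.lf (nat_lit 0) (nat_lit 21544385623) (nat_lit 152) (nat_lit 23239753413) (nat_lit 0) (nat_lit 20026515071) (nat_lit 6) (nat_lit 5) (nat_lit 8) (nat_lit 4) (nat_lit 6) (nat_lit 4) (nat_lit 551) (nat_lit 334) (nat_lit 315)))) (XT.nd (nat_lit 156) (nat_lit 76) (nat_lit 0) (XT.nd (nat_lit 78) (nat_lit 0) (nat_lit 0) (XT.lf (nat_lit 0) (nat_lit 28117298834) (nat_lit 152) (nat_lit 11915873714) (nat_lit 0) (nat_lit 26540756129) (nat_lit 6) (nat_lit 5) (nat_lit 8) (nat_lit 4) (nat_lit 6) (nat_lit 4) (nat_lit 552) (nat_lit 334) (nat_lit 314)) (XT.lf (nat_lit 0) (nat_lit 34794419383) (nat_lit 152) (nat_lit 437559135) (nat_lit 0) (nat_lit 33160913424) (nat_lit 6) (nat_lit 5) (nat_lit 8) (nat_lit 4) (nat_lit 6) (nat_lit 4) (nat_lit 553) (nat_lit 334) (nat_lit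 313))) (XT.nd (nat_lit 60606) (nat_lit 0) (nat_lit 760) (XT.lf (nat_lit 0) (nat_lit 11428225764) (nat_lit 76) (nat_lit 30263210982) (nat_lit 76) (nat_lit 28574400892) (nat_lit 5) (nat_lit 4) (nat_lit 6) (nat_lit 5) (nat_lit 6) (nat_lit 4) (nat_lit 554) (nat_lit 334) (nat_lit 312)) (XT.lf (nat_lit 0) (nat_lit 8334934924) (nat_lit 152) (nat_lit 2333848561) (nat_lit 0) (nat_lit 8334934924) (nat_lit 15) (nat_lit 5) (nat_lit 17) (nat_lit 4) (nat_lit 15) (nat_lit 4) (nat_lit 530) (nat_lit 335) (nat_lit 335))))) (XT.nd (nat_lit 312) (nat_lit 76) (nat_lit 0) (XT.nd (nat_lit 156) (nat_lit 152) (nat_lit 0) (XT.nd (nat_lit 78) (nat_lit 0) (nat_lit 0) (XT.lf (nat_lit 0) (nat_lit 9861053592) (nat_lit 76) (nat_lit 14590139064) (nat_lit 76) (nat_lit 14474344496) (nat_lit 14) (nat_lit 4) (nat_lit 15) (nat_lit 5) (nat_lit 15) (nat_lit 4) (nat_lit 531) (nat_lit 335) (nat_lit 334)) (XT.lf (nat_lit 0) (nat_lit 24636066742) (nat_lit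 76) (nat_lit 7733117719) (nat_lit 76) (nat_lit 7504901240) (nat_lit 14) (nat_lit 4) (nat_lit 15) (nat_lit 5) (nat_lit 15) (nat_lit 4) (nat_lit 532) (nat_lit 335) (nat_lit 333))) (XT.nd (nat_lit 78) (nat_lit 152) (nat_lit 0) (XT.lf (nat_lit 0) (nat_lit 39577356208) (nat_lit 76) (nat_lit 807645952) (nat_lit 76) (nat_lit 470281986) (nat_lit 14) (nat_lit 4) (nat_lit 15) (nat_lit 5) (nat_lit 15) (nat_lit 4) (nat_lit 533) (nat_lit 335) (nat_lit 332)) (XT.lf (nat_lit 0) (nat_lit 6692708610) (nat_lit 152) (nat_lit 28907482824) (nat_lit 0) (nat_lit 6262288805) (nat_lit 12) (nat_lit 5) (nat_lit 14) (nat_lit 4) (nat_lit 12) (nat_lit 4) (nat_lit 534) (nat_lit 335) (nat_lit 331)))) (XT.nd (nat_lit 156) (nat_lit 76) (nat_lit 0) (XT.nd (nat_lit 78) (nat_lit 0) (nat_lit 0) (XT.lf (nat_lit 0) (nat_lit 13945298348) (nat_lit 152) (nat_lit 15542938051) (nat_lit 0) (nat_lit 13414993131) (nat_lit 12) (nat_lit 5) (nat_lit 14) (nat_lit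 4) (nat_lit 12) (nat_lit 4) (nat_lit 535) (nat_lit 335) (nat_lit 330)) (XT.lf (nat_lit 0) (nat_lit 21282584998) (nat_lit 152) (nat_lit 2041300873) (nat_lit 0) (nat_lit 20655303653) (nat_lit 12) (nat_lit 5) (nat_lit 14) (nat_lit 4) (nat_lit 12) (nat_lit 4) (nat_lit 536) (nat_lit 335) (nat_lit 329))) (XT.nd (nat_lit 78) (nat_lit 0) (nat_lit 0) (XT.lf (nat_lit 0) (nat_lit 11840272623) (nat_lit 76) (nat_lit 16984523100) (nat_lit 76) (nat_lit 16263090175) (nat_lit 11) (nat_lit 4) (nat_lit 12) (nat_lit 5) (nat_lit 12) (nat_lit 4) (nat_lit 537) (nat_lit 335) (nat_lit 328)) (XT.lf (nat_lit 0) (nat_lit 25926490193) (nat_lit 76) (nat_lit 10559704616) (nat_lit 76) (nat_lit 9746862389) (nat_lit 11) (nat_lit 4) (nat_lit 12) (nat_lit 5) (nat_lit 12) (nat_lit 4) (nat_lit 538) (nat_lit 335) (nat_lit 327))))))) (XT.nd (nat_lit 1170) (nat_lit 76) (nat_lit 0) (XT.nd (nat_lit 546) (nat_lit 152) (nat_lit 0) (XT.nd (nat_lit 234) (nat_lit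 76) (nat_lit 0) (XT.nd (nat_lit 78) (nat_lit 152) (nat_lit 0) (XT.lf (nat_lit 0) (nat_lit 40189034292) (nat_lit 76) (nat_lit 4064429636) (nat_lit 76) (nat_lit 3162840514) (nat_lit 11) (nat_lit 4) (nat_lit 12) (nat_lit 5) (nat_lit 12) (nat_lit 4) (nat_lit 539) (nat_lit 335) (nat_lit 326)) (XT.nd (nat_lit 78) (nat_lit 0) (nat_lit 0) (XT.lf (nat_lit 0) (nat_lit 3510055168) (nat_lit 152) (nat_lit 42574019455) (nat_lit 0) (nat_lit 2551073464) (nat_lit 9) (nat_lit 5) (nat_lit 11) (nat_lit 4) (nat_lit 9) (nat_lit 4) (nat_lit 540) (nat_lit 335) (nat_lit 325)) (XT.lf (nat_lit 0) (nat_lit 10312058523) (nat_lit 152) (nat_lit 30305925006) (nat_lit 0) (nat_lit 9271860838) (nat_lit 9) (nat_lit 5) (nat_lit 11) (nat_lit 4) (nat_lit 9) (nat_lit 4) (nat_lit 541) (nat_lit 335) (nat_lit 324)))) (XT.nd (nat_lit 156) (nat_lit 76) (nat_lit 0) (XT.nd (nat_lit 78) (nat_lit 0) (nat_lit 0) (XT.lf (nat_lit 0) (nat_lit 17200204545) (nat_lit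 152) (nat_lit 17904359583) (nat_lit 0) (nat_lit 16081156394) (nat_lit 9) (nat_lit 5) (nat_lit 11) (nat_lit 4) (nat_lit 9) (nat_lit 4) (nat_lit 542) (nat_lit 335) (nat_lit 323)) (XT.lf (nat_lit 0) (nat_lit 24180512002) (nat_lit 152) (nat_lit 5358486867) (nat_lit 0) (nat_lit 22984910000) (nat_lit 9) (nat_lit 5) (nat_lit 11) (nat_lit 4) (nat_lit 9) (nat_lit 4) (nat_lit 543) (nat_lit 335) (nat_lit 322))) (XT.nd (nat_lit 78) (nat_lit 0) (nat_lit 0) (XT.lf (nat_lit 0) (nat_lit 7488788796) (nat_lit 76) (nat_lit 23842278214) (nat_lit 76) (nat_lit 22572352085) (nat_lit 8) (nat_lit 4) (nat_lit 9) (nat_lit 5) (nat_lit 9) (nat_lit 4) (nat_lit 544) (nat_lit 335) (nat_lit 321)) (XT.lf (nat_lit 0) (nat_lit 20612387692) (nat_lit 76) (nat_lit 18027845458) (nat_lit 76) (nat_lit 16685759982) (nat_lit 8) (nat_lit 4) (nat_lit 9) (nat_lit 5) (nat_lit 9) (nat_lit 4) (nat_lit 545) (nat_lit 335) (nat_lit 320))))) (XT.nd (nat_lit 312) (nat_lit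 0) (nat_lit 0) (XT.nd (nat_lit 156) (nat_lit 152) (nat_lit 0) (XT.nd (nat_lit 78) (nat_lit 0) (nat_lit 0) (XT.lf (nat_lit 0) (nat_lit 33917132647) (nat_lit 76) (nat_lit 12144730240) (nat_lit 76) (nat_lit 10732587145) (nat_lit 8) (nat_lit 4) (nat_lit 9) (nat_lit 5) (nat_lit 9) (nat_lit 4) (nat_lit 546) (nat_lit 335) (nat_lit 319)) (XT.lf (nat_lit 0) (nat_lit 47414649167) (nat_lit 76) (nat_lit 6187791972) (nat_lit 76) (nat_lit 4707631773) (nat_lit 8) (nat_lit 4) (nat_lit 9) (nat_lit 5) (nat_lit 9) (nat_lit 4) (nat_lit 547) (nat_lit 335) (nat_lit 318))) (XT.nd (nat_lit 78) (nat_lit 0) (nat_lit 0) (XT.lf (nat_lit 0) (nat_lit 1253603877) (nat_lit 76) (nat_lit 125607994) (nat_lit 152) (nat_lit 58494210611) (nat_lit 6) (nat_lit 5) (nat_lit 7) (nat_lit 5) (nat_lit 8) (nat_lit 4) (nat_lit 548) (nat_lit 335) (nat_lit 317)) (XT.lf (nat_lit 0) (nat_lit 7622366220) (nat_lit 152) (nat_lit 47798899894) (nat_lit 0) (nat_lit 6058959551)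 (nat_lit 6) (nat_lit 5) (nat_lit 8) (nat_lit 4) (nat_lit 6) (nat_lit 4) (nat_lit 549) (nat_lit 335) (nat_lit 316)))) (XT.nd (nat_lit 156) (nat_lit 0) (nat_lit 0) (XT.nd (nat_lit 78) (nat_lit 0) (nat_lit 0) (XT.lf (nat_lit 0) (nat_lit 13955416298) (nat_lit 152) (nat_lit 36851162420) (nat_lit 0) (nat_lit 12331577313) (nat_lit 6) (nat_lit 5) (nat_lit 8) (nat_lit 4) (nat_lit 6) (nat_lit 4) (nat_lit 550) (nat_lit 335) (nat_lit 315)) (XT.lf (nat_lit 0) (nat_lit 20382688420) (nat_lit 152) (nat_lit 25765832779) (nat_lit 0) (nat_lit 18700177282) (nat_lit 6) (nat_lit 5) (nat_lit 8) (nat_lit 4) (nat_lit 6) (nat_lit 4) (nat_lit 551) (nat_lit 335) (nat_lit 314))) (XT.nd (nat_lit 78) (nat_lit 0) (nat_lit 0) (XT.lf (nat_lit 0) (nat_lit 26909798647) (nat_lit 152) (nat_lit 14533224760) (nat_lit 0) (nat_lit 25170324254) (nat_lit 6) (nat_lit 5) (nat_lit 8) (nat_lit 4) (nat_lit 6) (nat_lit 4) (nat_lit 552) (nat_lit 335) (nat_lit 313))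 (XT.lf (nat_lit 0) (nat_lit 33542450280) (nat_lit 152) (nat_lit 3143523464) (nat_lit 0) (nat_lit 31747671757) (nat_lit 6) (nat_lit 5) (nat_lit 8) (nat_lit 4) (nat_lit 6) (nat_lit 4) (nat_lit 553) (nat_lit 335) (nat_lit 312)))))) (XT.nd (nat_lit 60918) (nat_lit 0) (nat_lit 304) (XT.nd (nat_lit 60606) (nat_lit 0) (nat_lit 684) (XT.nd (nat_lit 60450) (nat_lit 0) (nat_lit 760) (XT.lf (nat_lit 0) (nat_lit 8580662915) (nat_lit 76) (nat_lit 31788258505) (nat_lit 76) (nat_lit 29939786651) (nat_lit 5) (nat_lit 4) (nat_lit 6) (nat_lit 5) (nat_lit 6) (nat_lit 4) (nat_lit 554) (nat_lit 335) (nat_lit 311)) (XT.nd (nat_lit 78) (nat_lit 0) (nat_lit 0) (XT.lf (nat_lit 0) (nat_lit 865676324) (nat_lit 152) (nat_lit 16396516665) (nat_lit 0) (nat_lit 865676324) (nat_lit 15) (nat_lit 5) (nat_lit 17) (nat_lit 4) (nat_lit 15) (nat_lit 4) (nat_lit 528) (nat_lit 336) (nat_lit 336)) (XT.lf (nat_lit 0) (nat_lit 9185322549) (nat_lit 152)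 (nat_lit 18866176666) (nat_lit 0) (nat_lit 9066054143) (nat_lit 15) (nat_lit 5) (nat_lit 17) (nat_lit 4) (nat_lit 15) (nat_lit 4) (nat_lit 529) (nat_lit 336) (nat_lit 335)))) (XT.nd (nat_lit 156) (nat_lit 0) (nat_lit 0) (XT.nd (nat_lit 78) (nat_lit 76) (nat_lit 0) (XT.lf (nat_lit 0) (nat_lit 16717513698) (nat_lit 152) (nat_lit 4809622191) (nat_lit 0) (nat_lit 16482450725) (nat_lit 15) (nat_lit 5) (nat_lit 17) (nat_lit 4) (nat_lit 15) (nat_lit 4) (nat_lit 530) (nat_lit 336) (nat_lit 334)) (XT.lf (nat_lit 0) (nat_lit 9575770290) (nat_lit 76) (nat_lit 14850785495) (nat_lit 76) (nat_lit 14503300610) (nat_lit 14) (nat_lit 4) (nat_lit 15) (nat_lit 5) (nat_lit 15) (nat_lit 4) (nat_lit 531) (nat_lit 336) (nat_lit 333))) (XT.nd (nat_lit 78) (nat_lit 0) (nat_lit 0) (XT.lf (nat_lit 0) (nat_lit 24214343008) (nat_lit 76) (nat_lit 8061380021) (nat_lit 76) (nat_lit 7604747650) (nat_lit 14) (nat_lit 4) (nat_lit 15) (nat_lit 5)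 (nat_lit 15) (nat_lit 4) (nat_lit 532) (nat_lit 336) (nat_lit 332)) (XT.lf (nat_lit 0) (nat_lit 39023166034) (nat_lit 76) (nat_lit 1201554731) (nat_lit 76) (nat_lit 638953926) (nat_lit 14) (nat_lit 4) (nat_lit 15) (nat_lit 5) (nat_lit 15) (nat_lit 4) (nat_lit 533) (nat_lit 336) (nat_lit 331))))) (XT.nd (nat_lit 312) (nat_lit 152) (nat_lit 0) (XT.nd (nat_lit 156) (nat_lit 76) (nat_lit 0) (XT.nd (nat_lit 78) (nat_lit 0) (nat_lit 0) (XT.lf (nat_lit 0) (nat_lit 6450549201) (nat_lit 152) (nat_lit 29618225087) (nat_lit 0) (nat_lit 5804449416) (nat_lit 12) (nat_lit 5) (nat_lit 14) (nat_lit 4) (nat_lit 12) (nat_lit 4) (nat_lit 534) (nat_lit 336) (nat_lit 330)) (XT.lf (nat_lit 0) (nat_lit 13637680426) (nat_lit 152) (nat_lit 16383652698) (nat_lit 0) (nat_lit 12894604513) (nat_lit 12) (nat_lit 5) (nat_lit 14) (nat_lit 4) (nat_lit 12) (nat_lit 4) (nat_lit 535) (nat_lit 336) (nat_lit 329))) (XT.nd (nat_lit 78) (nat_lit 76)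 (nat_lit 0) (XT.lf (nat_lit 0) (nat_lit 20911415122) (nat_lit 152) (nat_lit 3008202299) (nat_lit 0) (nat_lit 20074187628) (nat_lit 12) (nat_lit 5) (nat_lit 14) (nat_lit 4) (nat_lit 12) (nat_lit 4) (nat_lit 536) (nat_lit 336) (nat_lit 328)) (XT.lf (nat_lit 0) (nat_lit 10729178308) (nat_lit 76) (nat_lit 17652066094) (nat_lit 76) (nat_lit 16723429299) (nat_lit 11) (nat_lit 4) (nat_lit 12) (nat_lit 5) (nat_lit 12) (nat_lit 4) (nat_lit 537) (nat_lit 336) (nat_lit 327)))) (XT.nd (nat_lit 156) (nat_lit 152) (nat_lit 0) (XT.nd (nat_lit 78) (nat_lit 0) (nat_lit 0) (XT.lf (nat_lit 0) (nat_lit 24694085535) (nat_lit 76) (nat_lit 11287488033) (nat_lit 76) (nat_lit 10270104343) (nat_lit 11) (nat_lit 4) (nat_lit 12) (nat_lit 5) (nat_lit 12) (nat_lit 4) (nat_lit 538) (nat_lit 336) (nat_lit 326)) (XT.lf (nat_lit 0) (nat_lit 38838852601) (nat_lit 76) (nat_lit 4850698900) (nat_lit 76) (nat_lit 3747153176) (nat_lit 11) (nat_lit 4)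 (nat_lit 12) (nat_lit 5) (nat_lit 12) (nat_lit 4) (nat_lit 539) (nat_lit 336) (nat_lit 325))) (XT.nd (nat_lit 78) (nat_lit 0) (nat_lit 0) (XT.lf (nat_lit 0) (nat_lit 2856186303) (nat_lit 152) (nat_lit 44098393304) (nat_lit 0) (nat_lit 1703566707) (nat_lit 9) (nat_lit 5) (nat_lit 11) (nat_lit 4) (nat_lit 9) (nat_lit 4) (nat_lit 540) (nat_lit 336) (nat_lit 324)) (XT.lf (nat_lit 0) (nat_lit 9600102252) (nat_lit 152) (nat_lit 31945851495) (nat_lit 0) (nat_lit 8368632190) (nat_lit 9) (nat_lit 5) (nat_lit 11) (nat_lit 4) (nat_lit 9) (nat_lit 4) (nat_lit 541) (nat_lit 336) (nat_lit 323))))))))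
noncomputable def xc3 : XT := (XT.nd (nat_lit 62556) (nat_lit 0) (nat_lit 0) (XT.nd (nat_lit 61386) (nat_lit 0) (nat_lit 304) (XT.nd (nat_lit 546) (nat_lit 152) (nat_lit 0) (XT.nd (nat_lit 234) (nat_lit 76) (nat_lit 0) (XT.nd (nat_lit 78) (nat_lit 76) (nat_lit 0) (XT.lf (nat_lit 0) (nat_lit 16431852735) (nat_lit 152) (nat_lit 19656473101) (nat_lit 0) (nat_lit 15123828821) (nat_lit 9) (nat_lit 5) (nat_lit 11) (nat_lit 4) (nat_lit 9) (nat_lit 4) (nat_lit 542) (nat_lit 336) (nat_lit 322)) (XT.nd (nat_lit 78) (nat_lit 76) (nat_lit 0) (XT.lf (nat_lit 0) (nat_lit 23357407240) (nat_lit 152) (nat_lit 7219519832) (nat_lit 0) (nat_lit 21975059200) (nat_lit 9) (nat_lit 5) (nat_lit 11) (nat_lit 4) (nat_lit 9) (nat_lit 4) (nat_lit 543) (nat_lit 336) (nat_lit 321)) (XT.lf (nat_lit 0) (nat_lit 5482866017) (nat_lit 76) (nat_lit 24952655869) (nat_lit 76) (nat_lit 23498148482) (nat_lit 8) (nat_lit 4) (nat_lit 9) (nat_lit 5) (nat_lit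 9) (nat_lit 4) (nat_lit 544) (nat_lit 336) (nat_lit 320)))) (XT.nd (nat_lit 156) (nat_lit 76) (nat_lit 0) (XT.nd (nat_lit 78) (nat_lit 0) (nat_lit 0) (XT.lf (nat_lit 0) (nat_lit 18501754614) (nat_lit 76) (nat_lit 19190316965) (nat_lit 76) (nat_lit 17665751960) (nat_lit 8) (nat_lit 4) (nat_lit 9) (nat_lit 5) (nat_lit 9) (nat_lit 4) (nat_lit 545) (nat_lit 336) (nat_lit 319)) (XT.lf (nat_lit 0) (nat_lit 31704839085) (nat_lit 76) (nat_lit 13357778302) (nat_lit 76) (nat_lit 11765196192) (nat_lit 8) (nat_lit 4) (nat_lit 9) (nat_lit 5) (nat_lit 9) (nat_lit 4) (nat_lit 546) (nat_lit 336) (nat_lit 318))) (XT.nd (nat_lit 78) (nat_lit 76) (nat_lit 0) (XT.lf (nat_lit 0) (nat_lit 45103656104) (nat_lit 76) (nat_lit 7449943487) (nat_lit 76) (nat_lit 5791325352) (nat_lit 8) (nat_lit 4) (nat_lit 9) (nat_lit 5) (nat_lit 9) (nat_lit 4) (nat_lit 547) (nat_lit 336) (nat_lit 317)) (XT.lf (nat_lit 0) (nat_lit 255985826) (nat_lit 152)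 (nat_lit 1203079552) (nat_lit 76) (nat_lit 58451342596) (nat_lit 7) (nat_lit 5) (nat_lit 9) (nat_lit 5) (nat_lit 8) (nat_lit 4) (nat_lit 548) (nat_lit 336) (nat_lit 316))))) (XT.nd (nat_lit 312) (nat_lit 76) (nat_lit 0) (XT.nd (nat_lit 156) (nat_lit 0) (nat_lit 0) (XT.nd (nat_lit 78) (nat_lit 0) (nat_lit 0) (XT.lf (nat_lit 0) (nat_lit 6425818101) (nat_lit 152) (nat_lit 50400761641) (nat_lit 0) (nat_lit 4692831629) (nat_lit 6) (nat_lit 5) (nat_lit 8) (nat_lit 4) (nat_lit 6) (nat_lit 4) (nat_lit 549) (nat_lit 336) (nat_lit 315)) (XT.lf (nat_lit 0) (nat_lit 12711691106) (nat_lit 152) (nat_lit 39547033998) (nat_lit 0) (nat_lit 10920032481) (nat_lit 6) (nat_lit 5) (nat_lit 8) (nat_lit 4) (nat_lit 6) (nat_lit 4) (nat_lit 550) (nat_lit 336) (nat_lit 314))) (XT.nd (nat_lit 78) (nat_lit 0) (nat_lit 0) (XT.lf (nat_lit 0) (nat_lit 19093160243) (nat_lit 152) (nat_lit 28552976038) (nat_lit 0) (nat_lit 17244538364) (nat_lit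 6) (nat_lit 5) (nat_lit 8) (nat_lit 4) (nat_lit 6) (nat_lit 4) (nat_lit 551) (nat_lit 336) (nat_lit 313)) (XT.lf (nat_lit 0) (nat_lit 25575801553) (nat_lit 152) (nat_lit 17408981301) (nat_lit 0) (nat_lit 23671875543) (nat_lit 6) (nat_lit 5) (nat_lit 8) (nat_lit 4) (nat_lit 6) (nat_lit 4) (nat_lit 552) (nat_lit 336) (nat_lit 312)))) (XT.nd (nat_lit 60372) (nat_lit 0) (nat_lit 912) (XT.nd (nat_lit 78) (nat_lit 76) (nat_lit 0) (XT.lf (nat_lit 0) (nat_lit 32165279481) (nat_lit 152) (nat_lit 6105312318) (nat_lit 0) (nat_lit 30207660140) (nat_lit 6) (nat_lit 5) (nat_lit 8) (nat_lit 4) (nat_lit 6) (nat_lit 4) (nat_lit 553) (nat_lit 336) (nat_lit 311)) (XT.lf (nat_lit 0) (nat_lit 5474739797) (nat_lit 76) (nat_lit 33445238572) (nat_lit 76) (nat_lit 31435489784) (nat_lit 5) (nat_lit 4) (nat_lit 6) (nat_lit 5) (nat_lit 6) (nat_lit 4) (nat_lit 554) (nat_lit 336) (nat_lit 310))) (XT.nd (nat_lit 78) (nat_lit 0) (nat_lit 0) (XT.lf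 (nat_lit 0) (nat_lit 4657453525) (nat_lit 76) (nat_lit 6321946720) (nat_lit 76) (nat_lit 6321946720) (nat_lit 17) (nat_lit 4) (nat_lit 18) (nat_lit 5) (nat_lit 18) (nat_lit 4) (nat_lit 526) (nat_lit 337) (nat_lit 337)) (XT.lf (nat_lit 0) (nat_lit 24347535148) (nat_lit 76) (nat_lit 5597952992) (nat_lit 76) (nat_lit 5471421141) (nat_lit 17) (nat_lit 4) (nat_lit 18) (nat_lit 5) (nat_lit 18) (nat_lit 4) (nat_lit 527) (nat_lit 337) (nat_lit 336)))))) (XT.nd (nat_lit 546) (nat_lit 228) (nat_lit 0) (XT.nd (nat_lit 234) (nat_lit 228) (nat_lit 0) (XT.nd (nat_lit 78) (nat_lit 0) (nat_lit 0) (XT.lf (nat_lit 0) (nat_lit 1780425815) (nat_lit 152) (nat_lit 32939216151) (nat_lit 0) (nat_lit 1538310952) (nat_lit 15) (nat_lit 5) (nat_lit 17) (nat_lit 4) (nat_lit 15) (nat_lit 4) (nat_lit 528) (nat_lit 337) (nat_lit 335)) (XT.nd (nat_lit 78) (nat_lit 0) (nat_lit 0) (XT.lf (nat_lit 0) (nat_lit 9162771159) (nat_lit 152) (nat_lit 19154284555)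 (nat_lit 0) (nat_lit 8804861728) (nat_lit 15) (nat_lit 5) (nat_lit 17) (nat_lit 4) (nat_lit 15) (nat_lit 4) (nat_lit 529) (nat_lit 337) (nat_lit 334)) (XT.lf (nat_lit 0) (nat_lit 16625423905) (nat_lit 152) (nat_lit 5235521408) (nat_lit 0) (nat_lit 16155092563) (nat_lit 15) (nat_lit 5) (nat_lit 17) (nat_lit 4) (nat_lit 15) (nat_lit 4) (nat_lit 530) (nat_lit 337) (nat_lit 333)))) (XT.nd (nat_lit 156) (nat_lit 152) (nat_lit 0) (XT.nd (nat_lit 78) (nat_lit 0) (nat_lit 0) (XT.lf (nat_lit 0) (nat_lit 9004954411) (nat_lit 76) (nat_lit 15256511537) (nat_lit 76) (nat_lit 14677032708) (nat_lit 14) (nat_lit 4) (nat_lit 15) (nat_lit 5) (nat_lit 15) (nat_lit 4) (nat_lit 531) (nat_lit 337) (nat_lit 332)) (XT.lf (nat_lit 0) (nat_lit 23511060689) (nat_lit 76) (nat_lit 8532752540) (nat_lit 76) (nat_lit 7847305278) (nat_lit 14) (nat_lit 4) (nat_lit 15) (nat_lit 5) (nat_lit 15) (nat_lit 4) (nat_lit 532) (nat_lit 337) (nat_lit 331)))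 (XT.nd (nat_lit 78) (nat_lit 152) (nat_lit 0) (XT.lf (nat_lit 0) (nat_lit 38191275521) (nat_lit 76) (nat_lit 1736661694) (nat_lit 76) (nat_lit 948332457) (nat_lit 14) (nat_lit 4) (nat_lit 15) (nat_lit 5) (nat_lit 15) (nat_lit 4) (nat_lit 533) (nat_lit 337) (nat_lit 330)) (XT.lf (nat_lit 0) (nat_lit 6068244229) (nat_lit 152) (nat_lit 30614133555) (nat_lit 0) (nat_lit 5205899910) (nat_lit 12) (nat_lit 5) (nat_lit 14) (nat_lit 4) (nat_lit 12) (nat_lit 4) (nat_lit 534) (nat_lit 337) (nat_lit 329))))) (XT.nd (nat_lit 312) (nat_lit 152) (nat_lit 0) (XT.nd (nat_lit 156) (nat_lit 76) (nat_lit 0) (XT.nd (nat_lit 78) (nat_lit 0) (nat_lit 0) (XT.lf (nat_lit 0) (nat_lit 13191823500) (nat_lit 152) (nat_lit 17505747946) (nat_lit 0) (nat_lit 12235327601) (nat_lit 12) (nat_lit 5) (nat_lit 14) (nat_lit 4) (nat_lit 12) (nat_lit 4) (nat_lit 535) (nat_lit 337) (nat_lit 328)) (XT.lf (nat_lit 0) (nat_lit 20403857269) (nat_lit 152) (nat_lit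 4252808983) (nat_lit 0) (nat_lit 19355952069) (nat_lit 12) (nat_lit 5) (nat_lit 14) (nat_lit 4) (nat_lit 12) (nat_lit 4) (nat_lit 536) (nat_lit 337) (nat_lit 327))) (XT.nd (nat_lit 78) (nat_lit 0) (nat_lit 0) (XT.lf (nat_lit 0) (nat_lit 9338491167) (nat_lit 76) (nat_lit 18461923436) (nat_lit 76) (nat_lit 17325271341) (nat_lit 11) (nat_lit 4) (nat_lit 12) (nat_lit 5) (nat_lit 12) (nat_lit 4) (nat_lit 537) (nat_lit 337) (nat_lit 326)) (XT.lf (nat_lit 0) (nat_lit 23185621360) (nat_lit 76) (nat_lit 12155831222) (nat_lit 76) (nat_lit 10933017093) (nat_lit 11) (nat_lit 4) (nat_lit 12) (nat_lit 5) (nat_lit 12) (nat_lit 4) (nat_lit 538) (nat_lit 337) (nat_lit 325)))) (XT.nd (nat_lit 156) (nat_lit 0) (nat_lit 0) (XT.nd (nat_lit 78) (nat_lit 152) (nat_lit 0) (XT.lf (nat_lit 0) (nat_lit 37216041792) (nat_lit 76) (nat_lit 5775824465) (nat_lit 76) (nat_lit 4469357876) (nat_lit 11) (nat_lit 4) (nat_lit 12) (nat_lit 5) (nat_lit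 12) (nat_lit 4) (nat_lit 539) (nat_lit 337) (nat_lit 324)) (XT.lf (nat_lit 0) (nat_lit 2064783939) (nat_lit 152) (nat_lit 45903070228) (nat_lit 0) (nat_lit 717519308) (nat_lit 9) (nat_lit 5) (nat_lit 11) (nat_lit 4) (nat_lit 9) (nat_lit 4) (nat_lit 540) (nat_lit 337) (nat_lit 323))) (XT.nd (nat_lit 78) (nat_lit 0) (nat_lit 0) (XT.lf (nat_lit 0) (nat_lit 8752304348) (nat_lit 152) (nat_lit 33862715448) (nat_lit 0) (nat_lit 7328485867) (nat_lit 9) (nat_lit 5) (nat_lit 11) (nat_lit 4) (nat_lit 9) (nat_lit 4) (nat_lit 541) (nat_lit 337) (nat_lit 322)) (XT.lf (nat_lit 0) (nat_lit 15529301879) (nat_lit 152) (nat_lit 21682256501) (nat_lit 0) (nat_lit 14031159270) (nat_lit 9) (nat_lit 5) (nat_lit 11) (nat_lit 4) (nat_lit 9) (nat_lit 4) (nat_lit 542) (nat_lit 337) (nat_lit 321))))))) (XT.nd (nat_lit 61230) (nat_lit 0) (nat_lit 304) (XT.nd (nat_lit 546) (nat_lit 76) (nat_lit 0) (XT.nd (nat_lit 234) (nat_lit 152) (nat_lit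 0) (XT.nd (nat_lit 78) (nat_lit 76) (nat_lit 0) (XT.lf (nat_lit 0) (nat_lit 22401698180) (nat_lit 152) (nat_lit 9351050267) (nat_lit 0) (nat_lit 20831396224) (nat_lit 9) (nat_lit 5) (nat_lit 11) (nat_lit 4) (nat_lit 9) (nat_lit 4) (nat_lit 543) (nat_lit 337) (nat_lit 320)) (XT.nd (nat_lit 78) (nat_lit 0) (nat_lit 0) (XT.lf (nat_lit 0) (nat_lit 3204203648) (nat_lit 76) (nat_lit 26202095374) (nat_lit 76) (nat_lit 24561735800) (nat_lit 8) (nat_lit 4) (nat_lit 9) (nat_lit 5) (nat_lit 9) (nat_lit 4) (nat_lit 544) (nat_lit 337) (nat_lit 319)) (XT.lf (nat_lit 0) (nat_lit 16121431760) (nat_lit 76) (nat_lit 20490333026) (nat_lit 76) (nat_lit 18781956347) (nat_lit 8) (nat_lit 4) (nat_lit 9) (nat_lit 5) (nat_lit 9) (nat_lit 4) (nat_lit 545) (nat_lit 337) (nat_lit 318)))) (XT.nd (nat_lit 156) (nat_lit 152) (nat_lit 0) (XT.nd (nat_lit 78) (nat_lit 0) (nat_lit 0) (XT.lf (nat_lit 0) (nat_lit 29225816730) (nat_lit 76) (nat_lit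 14706897814) (nat_lit 76) (nat_lit 12932485111) (nat_lit 8) (nat_lit 4) (nat_lit 9) (nat_lit 5) (nat_lit 9) (nat_lit 4) (nat_lit 546) (nat_lit 337) (nat_lit 317)) (XT.lf (nat_lit 0) (nat_lit 42528808993) (nat_lit 76) (nat_lit 8846736253) (nat_lit 76) (nat_lit 7008210905) (nat_lit 8) (nat_lit 4) (nat_lit 9) (nat_lit 5) (nat_lit 9) (nat_lit 4) (nat_lit 547) (nat_lit 337) (nat_lit 316))) (XT.nd (nat_lit 78) (nat_lit 152) (nat_lit 0) (XT.lf (nat_lit 0) (nat_lit 56042032521) (nat_lit 76) (nat_lit 2904727812) (nat_lit 76) (nat_lit 1003957178) (nat_lit 8) (nat_lit 4) (nat_lit 9) (nat_lit 5) (nat_lit 9) (nat_lit 4) (nat_lit 548) (nat_lit 337) (nat_lit 315)) (XT.lf (nat_lit 0) (nat_lit 5097604079) (nat_lit 152) (nat_lit 53271519197) (nat_lit 0) (nat_lit 3193523543) (nat_lit 6) (nat_lit 5) (nat_lit 8) (nat_lit 4) (nat_lit 6) (nat_lit 4) (nat_lit 549) (nat_lit 337) (nat_lit 314))))) (XT.nd (nat_lit 312) (nat_lit 76) (nat_lit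 0) (XT.nd (nat_lit 156) (nat_lit 0) (nat_lit 0) (XT.nd (nat_lit 78) (nat_lit 0) (nat_lit 0) (XT.lf (nat_lit 0) (nat_lit 11337674099) (nat_lit 152) (nat_lit 42509063235) (nat_lit 0) (nat_lit 9376630309) (nat_lit 6) (nat_lit 5) (nat_lit 8) (nat_lit 4) (nat_lit 6) (nat_lit 4) (nat_lit 550) (nat_lit 337) (nat_lit 313)) (XT.lf (nat_lit 0) (nat_lit 17674674320) (nat_lit 152) (nat_lit 31603618557) (nat_lit 0) (nat_lit 15658326399) (nat_lit 6) (nat_lit 5) (nat_lit 8) (nat_lit 4) (nat_lit 6) (nat_lit 4) (nat_lit 551) (nat_lit 337) (nat_lit 312))) (XT.nd (nat_lit 78) (nat_lit 0) (nat_lit 0) (XT.lf (nat_lit 0) (nat_lit 24114141925) (nat_lit 152) (nat_lit 20545656133) (nat_lit 0) (nat_lit 22044100673) (nat_lit 6) (nat_lit 5) (nat_lit 8) (nat_lit 4) (nat_lit 6) (nat_lit 4) (nat_lit 552) (nat_lit 337) (nat_lit 311)) (XT.lf (nat_lit 0) (nat_lit 30661703633) (nat_lit 152) (nat_lit 9325513667) (nat_lit 0) (nat_lit 28539532934)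 (nat_lit 6) (nat_lit 5) (nat_lit 8) (nat_lit 4) (nat_lit 6) (nat_lit 4) (nat_lit 553) (nat_lit 337) (nat_lit 310)))) (XT.nd (nat_lit 60216) (nat_lit 0) (nat_lit 912) (XT.nd (nat_lit 60138) (nat_lit 0) (nat_lit 988) (XT.lf (nat_lit 0) (nat_lit 2107742497) (nat_lit 76) (nat_lit 35235599029) (nat_lit 76) (nat_lit 33062817216) (nat_lit 5) (nat_lit 4) (nat_lit 6) (nat_lit 5) (nat_lit 6) (nat_lit 4) (nat_lit 554) (nat_lit 337) (nat_lit 309)) (XT.lf (nat_lit 0) (nat_lit 3321725969) (nat_lit 152) (nat_lit 9881360526) (nat_lit 0) (nat_lit 3321725969) (nat_lit 18) (nat_lit 5) (nat_lit 20) (nat_lit 4) (nat_lit 18) (nat_lit 4) (nat_lit 524) (nat_lit 338) (nat_lit 338))) (XT.nd (nat_lit 78) (nat_lit 76) (nat_lit 0) (XT.lf (nat_lit 0) (nat_lit 14244445742) (nat_lit 152) (nat_lit 5456350701) (nat_lit 0) (nat_lit 14114117935) (nat_lit 18) (nat_lit 5) (nat_lit 20) (nat_lit 4) (nat_lit 18) (nat_lit 4) (nat_lit 525) (nat_lit 338)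 (nat_lit 337)) (XT.lf (nat_lit 0) (nat_lit 9170268022) (nat_lit 76) (nat_lit 12845740164) (nat_lit 76) (nat_lit 12588880505) (nat_lit 17) (nat_lit 4) (nat_lit 18) (nat_lit 5) (nat_lit 18) (nat_lit 4) (nat_lit 526) (nat_lit 338) (nat_lit 336)))))) (XT.nd (nat_lit 624) (nat_lit 228) (nat_lit 0) (XT.nd (nat_lit 312) (nat_lit 228) (nat_lit 0) (XT.nd (nat_lit 156) (nat_lit 0) (nat_lit 0) (XT.nd (nat_lit 78) (nat_lit 152) (nat_lit 0) (XT.lf (nat_lit 0) (nat_lit 24062469879) (nat_lit 76) (nat_lit 5869235556) (nat_lit 76) (nat_lit 5489529440) (nat_lit 17) (nat_lit 4) (nat_lit 18) (nat_lit 5) (nat_lit 18) (nat_lit 4) (nat_lit 527) (nat_lit 338) (nat_lit 335)) (XT.lf (nat_lit 0) (nat_lit 1685573328) (nat_lit 152) (nat_lit 33377892344) (nat_lit 0) (nat_lit 1201132046) (nat_lit 15) (nat_lit 5) (nat_lit 17) (nat_lit 4) (nat_lit 15) (nat_lit 4) (nat_lit 528) (nat_lit 338) (nat_lit 334))) (XT.nd (nat_lit 78) (nat_lit 0) (nat_lit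 0) (XT.lf (nat_lit 0) (nat_lit 8998380269) (nat_lit 152) (nat_lit 19730752076) (nat_lit 0) (nat_lit 8401517076) (nat_lit 15) (nat_lit 5) (nat_lit 17) (nat_lit 4) (nat_lit 15) (nat_lit 4) (nat_lit 529) (nat_lit 338) (nat_lit 333)) (XT.lf (nat_lit 0) (nat_lit 16393520003) (nat_lit 152) (nat_lit 5945766918) (nat_lit 0) (nat_lit 15687509323) (nat_lit 15) (nat_lit 5) (nat_lit 17) (nat_lit 4) (nat_lit 15) (nat_lit 4) (nat_lit 530) (nat_lit 338) (nat_lit 332)))) (XT.nd (nat_lit 156) (nat_lit 152) (nat_lit 0) (XT.nd (nat_lit 78) (nat_lit 0) (nat_lit 0) (XT.lf (nat_lit 0) (nat_lit 8148107183) (nat_lit 76) (nat_lit 15807671709) (nat_lit 76) (nat_lit 14995692595) (nat_lit 14) (nat_lit 4) (nat_lit 15) (nat_lit 5) (nat_lit 15) (nat_lit 4) (nat_lit 531) (nat_lit 338) (nat_lit 331)) (XT.lf (nat_lit 0) (nat_lit 22525605266) (nat_lit 76) (nat_lit 9147647155) (nat_lit 76) (nat_lit 8232786068) (nat_lit 14) (nat_lit 4) (nat_lit 15)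 (nat_lit 5) (nat_lit 15) (nat_lit 4) (nat_lit 532) (nat_lit 338) (nat_lit 330))) (XT.nd (nat_lit 78) (nat_lit 152) (nat_lit 0) (XT.lf (nat_lit 0) (nat_lit 37080957774) (nat_lit 76) (nat_lit 2413434409) (nat_lit 76) (nat_lit 1398687910) (nat_lit 14) (nat_lit 4) (nat_lit 15) (nat_lit 5) (nat_lit 15) (nat_lit 4) (nat_lit 533) (nat_lit 338) (nat_lit 329)) (XT.lf (nat_lit 0) (nat_lit 5545459641) (nat_lit 152) (nat_lit 31896078441) (nat_lit 0) (nat_lit 4466117284) (nat_lit 12) (nat_lit 5) (nat_lit 14) (nat_lit 4) (nat_lit 12) (nat_lit 4) (nat_lit 534) (nat_lit 338) (nat_lit 328))))) (XT.nd (nat_lit 312) (nat_lit 152) (nat_lit 0) (XT.nd (nat_lit 156) (nat_lit 76) (nat_lit 0) (XT.nd (nat_lit 78) (nat_lit 0) (nat_lit 0) (XT.lf (nat_lit 0) (nat_lit 12607337986) (nat_lit 152) (nat_lit 18910204267) (nat_lit 0) (nat_lit 11436586328) (nat_lit 12) (nat_lit 5) (nat_lit 14) (nat_lit 4) (nat_lit 12) (nat_lit 4) (nat_lit 535) (nat_lit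 338) (nat_lit 327)) (XT.lf (nat_lit 0) (nat_lit 19759467943) (nat_lit 152) (nat_lit 5776208447) (nat_lit 0) (nat_lit 18499969390) (nat_lit 12) (nat_lit 5) (nat_lit 14) (nat_lit 4) (nat_lit 12) (nat_lit 4) (nat_lit 536) (nat_lit 338) (nat_lit 326))) (XT.nd (nat_lit 78) (nat_lit 0) (nat_lit 0) (XT.lf (nat_lit 0) (nat_lit 7666996034) (nat_lit 76) (nat_lit 19414802769) (nat_lit 76) (nat_lit 18069142182) (nat_lit 11) (nat_lit 4) (nat_lit 12) (nat_lit 5) (nat_lit 12) (nat_lit 4) (nat_lit 537) (nat_lit 338) (nat_lit 325)) (XT.lf (nat_lit 0) (nat_lit 21399779593) (nat_lit 76) (nat_lit 13165492931) (nat_lit 76) (nat_lit 11736179884) (nat_lit 11) (nat_lit 4) (nat_lit 12) (nat_lit 5) (nat_lit 12) (nat_lit 4) (nat_lit 538) (nat_lit 338) (nat_lit 324)))) (XT.nd (nat_lit 156) (nat_lit 0) (nat_lit 0) (XT.nd (nat_lit 78) (nat_lit 152) (nat_lit 0) (XT.lf (nat_lit 0) (nat_lit 35319183876) (nat_lit 76) (nat_lit 6840614694) (nat_lit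 76) (nat_lit 5330085667) (nat_lit 11) (nat_lit 4) (nat_lit 12) (nat_lit 5) (nat_lit 12) (nat_lit 4) (nat_lit 539) (nat_lit 338) (nat_lit 323)) (XT.lf (nat_lit 0) (nat_lit 723106932) (nat_lit 76) (nat_lit 416048942) (nat_lit 152) (nat_lit 47577577504) (nat_lit 9) (nat_lit 5) (nat_lit 10) (nat_lit 5) (nat_lit 11) (nat_lit 4) (nat_lit 540) (nat_lit 338) (nat_lit 322))) (XT.nd (nat_lit 78) (nat_lit 0) (nat_lit 0) (XT.lf (nat_lit 0) (nat_lit 7767924016) (nat_lit 152) (nat_lit 36058191796) (nat_lit 0) (nat_lit 6150513002) (nat_lit 9) (nat_lit 5) (nat_lit 11) (nat_lit 4) (nat_lit 9) (nat_lit 4) (nat_lit 541) (nat_lit 338) (nat_lit 321)) (XT.lf (nat_lit 0) (nat_lit 14491763342) (nat_lit 152) (nat_lit 23983479884) (nat_lit 0) (nat_lit 12802192981) (nat_lit 9) (nat_lit 5) (nat_lit 11) (nat_lit 4) (nat_lit 9) (nat_lit 4) (nat_lit 542) (nat_lit 338) (nat_lit 320))))))))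
noncomputable def xc4 : XT := (XT.nd (nat_lit 62244) (nat_lit 0) (nat_lit 0) (XT.nd (nat_lit 61074) (nat_lit 0) (nat_lit 380) (XT.nd (nat_lit 546) (nat_lit 0) (nat_lit 0) (XT.nd (nat_lit 234) (nat_lit 152) (nat_lit 0) (XT.nd (nat_lit 78) (nat_lit 76) (nat_lit 0) (XT.lf (nat_lit 0) (nat_lit 21312549735) (nat_lit 152) (nat_lit 11754940675) (nat_lit 0) (nat_lit 19552921756) (nat_lit 9) (nat_lit 5) (nat_lit 11) (nat_lit 4) (nat_lit 9) (nat_lit 4) (nat_lit 543) (nat_lit 338) (nat_lit 319)) (XT.nd (nat_lit 78) (nat_lit 0) (nat_lit 0) (XT.lf (nat_lit 0) (nat_lit 650810623) (nat_lit 76) (nat_lit 27591688471) (nat_lit 76) (nat_lit 25764043387) (nat_lit 8) (nat_lit 4) (nat_lit 9) (nat_lit 5) (nat_lit 9) (nat_lit 4) (nat_lit 544) (nat_lit 338) (nat_lit 318)) (XT.lf (nat_lit 0) (nat_lit 13469339235) (nat_lit 76) (nat_lit 21929029575) (nat_lit 76) (nat_lit 20035348467) (nat_lit 8) (nat_lit 4) (nat_lit 9) (nat_lit 5) (nat_lit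 9) (nat_lit 4) (nat_lit 545) (nat_lit 338) (nat_lit 317)))) (XT.nd (nat_lit 156) (nat_lit 152) (nat_lit 0) (XT.nd (nat_lit 78) (nat_lit 0) (nat_lit 0) (XT.lf (nat_lit 0) (nat_lit 26477899448) (nat_lit 76) (nat_lit 16193267618) (nat_lit 76) (nat_lit 14235473865) (nat_lit 8) (nat_lit 4) (nat_lit 9) (nat_lit 5) (nat_lit 9) (nat_lit 4) (nat_lit 546) (nat_lit 338) (nat_lit 316)) (XT.lf (nat_lit 0) (nat_lit 39687857966) (nat_lit 76) (nat_lit 10379390770) (nat_lit 76) (nat_lit 8359351730) (nat_lit 8) (nat_lit 4) (nat_lit 9) (nat_lit 5) (nat_lit 9) (nat_lit 4) (nat_lit 547) (nat_lit 338) (nat_lit 315))) (XT.nd (nat_lit 78) (nat_lit 152) (nat_lit 0) (XT.lf (nat_lit 0) (nat_lit 53110757470) (nat_lit 76) (nat_lit 4482318944) (nat_lit 76) (nat_lit 2401847587) (nat_lit 8) (nat_lit 4) (nat_lit 9) (nat_lit 5) (nat_lit 9) (nat_lit 4) (nat_lit 548) (nat_lit 338) (nat_lit 314)) (XT.lf (nat_lit 0) (nat_lit 3636563578) (nat_lit 152)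 (nat_lit 56413680992) (nat_lit 0) (nat_lit 1559725220) (nat_lit 6) (nat_lit 5) (nat_lit 8) (nat_lit 4) (nat_lit 6) (nat_lit 4) (nat_lit 549) (nat_lit 338) (nat_lit 313))))) (XT.nd (nat_lit 312) (nat_lit 0) (nat_lit 0) (XT.nd (nat_lit 156) (nat_lit 0) (nat_lit 0) (XT.nd (nat_lit 78) (nat_lit 0) (nat_lit 0) (XT.lf (nat_lit 0) (nat_lit 9832164682) (nat_lit 152) (nat_lit 45739838312) (nat_lit 0) (nat_lit 7700022193) (nat_lit 6) (nat_lit 5) (nat_lit 8) (nat_lit 4) (nat_lit 6) (nat_lit 4) (nat_lit 550) (nat_lit 338) (nat_lit 312)) (XT.lf (nat_lit 0) (nat_lit 16125991197) (nat_lit 152) (nat_lit 34920425946) (nat_lit 0) (nat_lit 13940155377) (nat_lit 6) (nat_lit 5) (nat_lit 8) (nat_lit 4) (nat_lit 6) (nat_lit 4) (nat_lit 551) (nat_lit 338) (nat_lit 311))) (XT.nd (nat_lit 78) (nat_lit 0) (nat_lit 0) (XT.lf (nat_lit 0) (nat_lit 22523542583) (nat_lit 152) (nat_lit 23945990040) (nat_lit 0) (nat_lit 20285577316) (nat_lit 6)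 (nat_lit 5) (nat_lit 8) (nat_lit 4) (nat_lit 6) (nat_lit 4) (nat_lit 552) (nat_lit 338) (nat_lit 310)) (XT.lf (nat_lit 0) (nat_lit 29030408933) (nat_lit 152) (nat_lit 12806941280) (nat_lit 0) (nat_lit 26741832552) (nat_lit 6) (nat_lit 5) (nat_lit 8) (nat_lit 4) (nat_lit 6) (nat_lit 4) (nat_lit 553) (nat_lit 338) (nat_lit 309)))) (XT.nd (nat_lit 60060) (nat_lit 0) (nat_lit 912) (XT.nd (nat_lit 59982) (nat_lit 0) (nat_lit 1064) (XT.lf (nat_lit 0) (nat_lit 35652275860) (nat_lit 152) (nat_lit 1493546516) (nat_lit 0) (nat_lit 33314562475) (nat_lit 6) (nat_lit 5) (nat_lit 8) (nat_lit 4) (nat_lit 6) (nat_lit 4) (nat_lit 554) (nat_lit 338) (nat_lit 308)) (XT.lf (nat_lit 0) (nat_lit 7745573791) (nat_lit 76) (nat_lit 4023882111) (nat_lit 76) (nat_lit 4023882111) (nat_lit 20) (nat_lit 4) (nat_lit 21) (nat_lit 5) (nat_lit 21) (nat_lit 4) (nat_lit 522) (nat_lit 339) (nat_lit 339))) (XT.nd (nat_lit 78) (nat_lit 152) (nat_lit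 0) (XT.lf (nat_lit 0) (nat_lit 30696732610) (nat_lit 76) (nat_lit 875791932) (nat_lit 76) (nat_lit 737527161) (nat_lit 20) (nat_lit 4) (nat_lit 21) (nat_lit 5) (nat_lit 21) (nat_lit 4) (nat_lit 523) (nat_lit 339) (nat_lit 338)) (XT.lf (nat_lit 0) (nat_lit 6703807933) (nat_lit 152) (nat_lit 19908792151) (nat_lit 0) (nat_lit 6439242485) (nat_lit 18) (nat_lit 5) (nat_lit 20) (nat_lit 4) (nat_lit 18) (nat_lit 4) (nat_lit 524) (nat_lit 339) (nat_lit 337)))))) (XT.nd (nat_lit 546) (nat_lit 228) (nat_lit 0) (XT.nd (nat_lit 234) (nat_lit 228) (nat_lit 0) (XT.nd (nat_lit 78) (nat_lit 76) (nat_lit 0) (XT.lf (nat_lit 0) (nat_lit 14233071983) (nat_lit 152) (nat_lit 5744238399) (nat_lit 0) (nat_lit 13841974684) (nat_lit 18) (nat_lit 5) (nat_lit 20) (nat_lit 4) (nat_lit 18) (nat_lit 4) (nat_lit 525) (nat_lit 339) (nat_lit 336)) (XT.nd (nat_lit 78) (nat_lit 0) (nat_lit 0) (XT.lf (nat_lit 0) (nat_lit 8736224554) (nat_lit 76) (nat_lit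 13194597045) (nat_lit 76) (nat_lit 12680653288) (nat_lit 17) (nat_lit 4) (nat_lit 18) (nat_lit 5) (nat_lit 18) (nat_lit 4) (nat_lit 526) (nat_lit 339) (nat_lit 335)) (XT.lf (nat_lit 0) (nat_lit 23492090254) (nat_lit 76) (nat_lit 6285505876) (nat_lit 76) (nat_lit 5652293713) (nat_lit 17) (nat_lit 4) (nat_lit 18) (nat_lit 5) (nat_lit 18) (nat_lit 4) (nat_lit 527) (nat_lit 339) (nat_lit 334)))) (XT.nd (nat_lit 156) (nat_lit 76) (nat_lit 0) (XT.nd (nat_lit 78) (nat_lit 0) (nat_lit 0) (XT.lf (nat_lit 0) (nat_lit 1446712309) (nat_lit 152) (nat_lit 34109445220) (nat_lit 0) (nat_lit 719521308) (nat_lit 15) (nat_lit 5) (nat_lit 17) (nat_lit 4) (nat_lit 15) (nat_lit 4) (nat_lit 528) (nat_lit 339) (nat_lit 333)) (XT.lf (nat_lit 0) (nat_lit 8692006237) (nat_lit 152) (nat_lit 20596082941) (nat_lit 0) (nat_lit 7855667750) (nat_lit 15) (nat_lit 5) (nat_lit 17) (nat_lit 4) (nat_lit 15) (nat_lit 4) (nat_lit 529) (nat_lit 339) (nat_lit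 332))) (XT.nd (nat_lit 78) (nat_lit 76) (nat_lit 0) (XT.lf (nat_lit 0) (nat_lit 16021599356) (nat_lit 152) (nat_lit 6940979325) (nat_lit 0) (nat_lit 15079292436) (nat_lit 15) (nat_lit 5) (nat_lit 17) (nat_lit 4) (nat_lit 15) (nat_lit 4) (nat_lit 530) (nat_lit 339) (nat_lit 331)) (XT.lf (nat_lit 0) (nat_lit 7004479904) (nat_lit 76) (nat_lit 16504747606) (nat_lit 76) (nat_lit 15459558712) (nat_lit 14) (nat_lit 4) (nat_lit 15) (nat_lit 5) (nat_lit 15) (nat_lit 4) (nat_lit 531) (nat_lit 339) (nat_lit 330))))) (XT.nd (nat_lit 312) (nat_lit 76) (nat_lit 0) (XT.nd (nat_lit 156) (nat_lit 152) (nat_lit 0) (XT.nd (nat_lit 78) (nat_lit 0) (nat_lit 0) (XT.lf (nat_lit 0) (nat_lit 21257115663) (nat_lit 76) (nat_lit 9906601153) (nat_lit 76) (nat_lit 8761526847) (nat_lit 14) (nat_lit 4) (nat_lit 15) (nat_lit 5) (nat_lit 15) (nat_lit 4) (nat_lit 532) (nat_lit 339) (nat_lit 329)) (XT.lf (nat_lit 0) (nat_lit 35691242614) (nat_lit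 76) (nat_lit 3232464233) (nat_lit 76) (nat_lit 1990413799) (nat_lit 14) (nat_lit 4) (nat_lit 15) (nat_lit 5) (nat_lit 15) (nat_lit 4) (nat_lit 533) (nat_lit 339) (nat_lit 328))) (XT.nd (nat_lit 78) (nat_lit 0) (nat_lit 0) (XT.lf (nat_lit 0) (nat_lit 4881738635) (nat_lit 152) (nat_lit 33465179888) (nat_lit 0) (nat_lit 3584455125) (nat_lit 12) (nat_lit 5) (nat_lit 14) (nat_lit 4) (nat_lit 12) (nat_lit 4) (nat_lit 534) (nat_lit 339) (nat_lit 327)) (XT.lf (nat_lit 0) (nat_lit 11883713168) (nat_lit 152) (nat_lit 20598248857) (nat_lit 0) (nat_lit 10497682764) (nat_lit 12) (nat_lit 5) (nat_lit 14) (nat_lit 4) (nat_lit 12) (nat_lit 4) (nat_lit 535) (nat_lit 339) (nat_lit 326)))) (XT.nd (nat_lit 156) (nat_lit 0) (nat_lit 0) (XT.nd (nat_lit 78) (nat_lit 76) (nat_lit 0) (XT.lf (nat_lit 0) (nat_lit 18977684085) (nat_lit 152) (nat_lit 7579731816) (nat_lit 0) (nat_lit 17505491647) (nat_lit 12) (nat_lit 5) (nat_lit 14) (nat_lit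 4) (nat_lit 12) (nat_lit 4) (nat_lit 536) (nat_lit 339) (nat_lit 325)) (XT.lf (nat_lit 0) (nat_lit 5713232380) (nat_lit 76) (nat_lit 20511536705) (nat_lit 76) (nat_lit 18955691807) (nat_lit 11) (nat_lit 4) (nat_lit 12) (nat_lit 5) (nat_lit 12) (nat_lit 4) (nat_lit 537) (nat_lit 339) (nat_lit 324))) (XT.nd (nat_lit 78) (nat_lit 0) (nat_lit 0) (XT.lf (nat_lit 0) (nat_lit 19334999790) (nat_lit 76) (nat_lit 14317355387) (nat_lit 76) (nat_lit 12680294509) (nat_lit 11) (nat_lit 4) (nat_lit 12) (nat_lit 5) (nat_lit 12) (nat_lit 4) (nat_lit 538) (nat_lit 339) (nat_lit 323)) (XT.lf (nat_lit 0) (nat_lit 33146621403) (nat_lit 76) (nat_lit 8045999986) (nat_lit 76) (nat_lit 6330088641) (nat_lit 11) (nat_lit 4) (nat_lit 12) (nat_lit 5) (nat_lit 12) (nat_lit 4) (nat_lit 539) (nat_lit 339) (nat_lit 322))))))) (XT.nd (nat_lit 60918) (nat_lit 0) (nat_lit 456) (XT.nd (nat_lit 546) (nat_lit 152) (nat_lit 0) (XT.nd (nat_lit 234) (nat_lit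 76) (nat_lit 0) (XT.nd (nat_lit 78) (nat_lit 76) (nat_lit 0) (XT.lf (nat_lit 0) (nat_lit 98513899) (nat_lit 152) (nat_lit 1592481979) (nat_lit 76) (nat_lit 47060656931) (nat_lit 10) (nat_lit 5) (nat_lit 12) (nat_lit 5) (nat_lit 11) (nat_lit 4) (nat_lit 540) (nat_lit 339) (nat_lit 321)) (XT.nd (nat_lit 78) (nat_lit 0) (nat_lit 0) (XT.lf (nat_lit 0) (nat_lit 6646101117) (nat_lit 152) (nat_lit 38534198916) (nat_lit 0) (nat_lit 4833684299) (nat_lit 9) (nat_lit 5) (nat_lit 11) (nat_lit 4) (nat_lit 9) (nat_lit 4) (nat_lit 541) (nat_lit 339) (nat_lit 320)) (XT.lf (nat_lit 0) (nat_lit 13318330535) (nat_lit 152) (nat_lit 26562154028) (nat_lit 0) (nat_lit 11435856099) (nat_lit 9) (nat_lit 5) (nat_lit 11) (nat_lit 4) (nat_lit 9) (nat_lit 4) (nat_lit 542) (nat_lit 339) (nat_lit 319)))) (XT.nd (nat_lit 156) (nat_lit 76) (nat_lit 0) (XT.nd (nat_lit 78) (nat_lit 0) (nat_lit 0) (XT.lf (nat_lit 0) (nat_lit 20089010222) (nat_lit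 152) (nat_lit 14433291541) (nat_lit 0) (nat_lit 18138518680) (nat_lit 9) (nat_lit 5) (nat_lit 11) (nat_lit 4) (nat_lit 9) (nat_lit 4) (nat_lit 543) (nat_lit 339) (nat_lit 318)) (XT.lf (nat_lit 0) (nat_lit 26964056304) (nat_lit 152) (nat_lit 2137013419) (nat_lit 0) (nat_lit 24947528738) (nat_lit 9) (nat_lit 5) (nat_lit 11) (nat_lit 4) (nat_lit 9) (nat_lit 4) (nat_lit 544) (nat_lit 339) (nat_lit 317))) (XT.nd (nat_lit 78) (nat_lit 0) (nat_lit 0) (XT.lf (nat_lit 0) (nat_lit 10543159677) (nat_lit 76) (nat_lit 23507663727) (nat_lit 76) (nat_lit 21427023516) (nat_lit 8) (nat_lit 4) (nat_lit 9) (nat_lit 5) (nat_lit 9) (nat_lit 4) (nat_lit 545) (nat_lit 339) (nat_lit 316)) (XT.lf (nat_lit 0) (nat_lit 23458686145) (nat_lit 76) (nat_lit 17818186483) (nat_lit 76) (nat_lit 15675300986) (nat_lit 8) (nat_lit 4) (nat_lit 9) (nat_lit 5) (nat_lit 9) (nat_lit 4) (nat_lit 546) (nat_lit 339) (nat_lit 315))))) (XT.nd (nat_lit 312)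 (nat_lit 0) (nat_lit 0) (XT.nd (nat_lit 156) (nat_lit 152) (nat_lit 0) (XT.nd (nat_lit 78) (nat_lit 0) (nat_lit 0) (XT.lf (nat_lit 0) (nat_lit 36578320639) (nat_lit 76) (nat_lit 12049246250) (nat_lit 76) (nat_lit 9845928436) (nat_lit 8) (nat_lit 4) (nat_lit 9) (nat_lit 5) (nat_lit 9) (nat_lit 4) (nat_lit 547) (nat_lit 339) (nat_lit 314)) (XT.lf (nat_lit 0) (nat_lit 49913526915) (nat_lit 76) (nat_lit 6195802205) (nat_lit 76) (nat_lit 3933812238) (nat_lit 8) (nat_lit 4) (nat_lit 9) (nat_lit 5) (nat_lit 9) (nat_lit 4) (nat_lit 548) (nat_lit 339) (nat_lit 313))) (XT.nd (nat_lit 78) (nat_lit 0) (nat_lit 0) (XT.lf (nat_lit 0) (nat_lit 1829308532) (nat_lit 76) (nat_lit 214170163) (nat_lit 152) (nat_lit 59617881174) (nat_lit 6) (nat_lit 5) (nat_lit 7) (nat_lit 5) (nat_lit 8) (nat_lit 4) (nat_lit 549) (nat_lit 339) (nat_lit 312)) (XT.lf (nat_lit 0) (nat_lit 8193847360) (nat_lit 152) (nat_lit 49242182236) (nat_lit 0) (nat_lit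 5888743135) (nat_lit 6) (nat_lit 5) (nat_lit 8) (nat_lit 4) (nat_lit 6) (nat_lit 4) (nat_lit 550) (nat_lit 339) (nat_lit 311)))) (XT.nd (nat_lit 156) (nat_lit 0) (nat_lit 0) (XT.nd (nat_lit 78) (nat_lit 0) (nat_lit 0) (XT.lf (nat_lit 0) (nat_lit 14445757656) (nat_lit 152) (nat_lit 38506296388) (nat_lit 0) (nat_lit 12088523983) (nat_lit 6) (nat_lit 5) (nat_lit 8) (nat_lit 4) (nat_lit 6) (nat_lit 4) (nat_lit 551) (nat_lit 339) (nat_lit 310)) (XT.lf (nat_lit 0) (nat_lit 20802613684) (nat_lit 152) (nat_lit 27612954187) (nat_lit 0) (nat_lit 18394768897) (nat_lit 6) (nat_lit 5) (nat_lit 8) (nat_lit 4) (nat_lit 6) (nat_lit 4) (nat_lit 552) (nat_lit 339) (nat_lit 309))) (XT.nd (nat_lit 78) (nat_lit 0) (nat_lit 0) (XT.lf (nat_lit 0) (nat_lit 27269969978) (nat_lit 152) (nat_lit 16552637180) (nat_lit 0) (nat_lit 24812988188) (nat_lit 6) (nat_lit 5) (nat_lit 8) (nat_lit 4) (nat_lit 6) (nat_lit 4) (nat_lit 553) (nat_lit 339)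 (nat_lit 308)) (XT.lf (nat_lit 0) (nat_lit 33853477626) (nat_lit 152) (nat_lit 5315681013) (nat_lit 0) (nat_lit 31348790007) (nat_lit 6) (nat_lit 5) (nat_lit 8) (nat_lit 4) (nat_lit 6) (nat_lit 4) (nat_lit 554) (nat_lit 339) (nat_lit 307)))))) (XT.nd (nat_lit 546) (nat_lit 380) (nat_lit 0) (XT.nd (nat_lit 234) (nat_lit 228) (nat_lit 0) (XT.nd (nat_lit 78) (nat_lit 76) (nat_lit 0) (XT.lf (nat_lit 0) (nat_lit 4044554211) (nat_lit 152) (nat_lit 7015456079) (nat_lit 0) (nat_lit 4044554211) (nat_lit 21) (nat_lit 5) (nat_lit 23) (nat_lit 4) (nat_lit 21) (nat_lit 4) (nat_lit 520) (nat_lit 340) (nat_lit 340)) (XT.nd (nat_lit 78) (nat_lit 0) (nat_lit 0) (XT.lf (nat_lit 0) (nat_lit 443616651) (nat_lit 76) (nat_lit 15293749069) (nat_lit 76) (nat_lit 15151336355) (nat_lit 20) (nat_lit 4) (nat_lit 21) (nat_lit 5) (nat_lit 21) (nat_lit 4) (nat_lit 521) (nat_lit 340) (nat_lit 339)) (XT.lf (nat_lit 0) (nat_lit 15346629439) (nat_lit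 76) (nat_lit 8261461175) (nat_lit 76) (nat_lit 7980783692) (nat_lit 20) (nat_lit 4) (nat_lit 21) (nat_lit 5) (nat_lit 21) (nat_lit 4) (nat_lit 522) (nat_lit 340) (nat_lit 338)))) (XT.nd (nat_lit 156) (nat_lit 76) (nat_lit 0) (XT.nd (nat_lit 78) (nat_lit 152) (nat_lit 0) (XT.lf (nat_lit 0) (nat_lit 30411905590) (nat_lit 76) (nat_lit 1158696885) (nat_lit 76) (nat_lit 743781761) (nat_lit 20) (nat_lit 4) (nat_lit 21) (nat_lit 5) (nat_lit 21) (nat_lit 4) (nat_lit 523) (nat_lit 340) (nat_lit 337)) (XT.lf (nat_lit 0) (nat_lit 6620363209) (nat_lit 152) (nat_lit 20347133080) (nat_lit 0) (nat_lit 6091001139) (nat_lit 18) (nat_lit 5) (nat_lit 20) (nat_lit 4) (nat_lit 18) (nat_lit 4) (nat_lit 524) (nat_lit 340) (nat_lit 336))) (XT.nd (nat_lit 78) (nat_lit 76) (nat_lit 0) (XT.lf (nat_lit 0) (nat_lit 14079986722) (nat_lit 152) (nat_lit 6320265347) (nat_lit 0) (nat_lit 13427778195) (nat_lit 18) (nat_lit 5) (nat_lit 20) (nat_lit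 4) (nat_lit 18) (nat_lit 4) (nat_lit 525) (nat_lit 340) (nat_lit 335)) (XT.lf (nat_lit 0) (nat_lit 8012397384) (nat_lit 76) (nat_lit 13690768912) (nat_lit 76) (nat_lit 12919291980) (nat_lit 17) (nat_lit 4) (nat_lit 18) (nat_lit 5) (nat_lit 18) (nat_lit 4) (nat_lit 526) (nat_lit 340) (nat_lit 334))))) (XT.nd (nat_lit 312) (nat_lit 228) (nat_lit 0) (XT.nd (nat_lit 156) (nat_lit 0) (nat_lit 0) (XT.nd (nat_lit 78) (nat_lit 152) (nat_lit 0) (XT.lf (nat_lit 0) (nat_lit 22635897883) (nat_lit 76) (nat_lit 6847127682) (nat_lit 76) (nat_lit 5959856181) (nat_lit 17) (nat_lit 4) (nat_lit 18) (nat_lit 5) (nat_lit 18) (nat_lit 4) (nat_lit 527) (nat_lit 340) (nat_lit 333)) (XT.lf (nat_lit 0) (nat_lit 1063634042) (nat_lit 152) (nat_lit 35134513998) (nat_lit 0) (nat_lit 93057914) (nat_lit 15) (nat_lit 5) (nat_lit 17) (nat_lit 4) (nat_lit 15) (nat_lit 4) (nat_lit 528) (nat_lit 340) (nat_lit 332))) (XT.nd (nat_lit 78) (nat_lit 0)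 (nat_lit 0) (XT.lf (nat_lit 0) (nat_lit 8243381356) (nat_lit 152) (nat_lit 21751033262) (nat_lit 0) (nat_lit 7166836795) (nat_lit 15) (nat_lit 5) (nat_lit 17) (nat_lit 4) (nat_lit 15) (nat_lit 4) (nat_lit 529) (nat_lit 340) (nat_lit 331)) (XT.lf (nat_lit 0) (nat_lit 15509336986) (nat_lit 152) (nat_lit 8222028231) (nat_lit 0) (nat_lit 14329910450) (nat_lit 15) (nat_lit 5) (nat_lit 17) (nat_lit 4) (nat_lit 15) (nat_lit 4) (nat_lit 530) (nat_lit 340) (nat_lit 330)))) (XT.nd (nat_lit 156) (nat_lit 152) (nat_lit 0) (XT.nd (nat_lit 78) (nat_lit 0) (nat_lit 0) (XT.lf (nat_lit 0) (nat_lit 5573073288) (nat_lit 76) (nat_lit 17348348325) (nat_lit 76) (nat_lit 16069036377) (nat_lit 14) (nat_lit 4) (nat_lit 15) (nat_lit 5) (nat_lit 15) (nat_lit 4) (nat_lit 531) (nat_lit 340) (nat_lit 329)) (XT.lf (nat_lit 0) (nat_lit 19704483490) (nat_lit 76) (nat_lit 10810277698) (nat_lit 76) (nat_lit 9433989622) (nat_lit 14) (nat_lit 4) (nat_lit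 15) (nat_lit 5) (nat_lit 15) (nat_lit 4) (nat_lit 532) (nat_lit 340) (nat_lit 328))) (XT.nd (nat_lit 78) (nat_lit 152) (nat_lit 0) (XT.lf (nat_lit 0) (nat_lit 34020915725) (nat_lit 76) (nat_lit 4194466822) (nat_lit 76) (nat_lit 2724027166) (nat_lit 14) (nat_lit 4) (nat_lit 15) (nat_lit 5) (nat_lit 15) (nat_lit 4) (nat_lit 533) (nat_lit 340) (nat_lit 327)) (XT.lf (nat_lit 0) (nat_lit 4076501261) (nat_lit 152) (nat_lit 35322808958) (nat_lit 0) (nat_lit 2560143050) (nat_lit 12) (nat_lit 5) (nat_lit 14) (nat_lit 4) (nat_lit 12) (nat_lit 4) (nat_lit 534) (nat_lit 340) (nat_lit 326))))))))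
noncomputable def xc5 : XT := (XT.nd (nat_lit 61932) (nat_lit 0) (nat_lit 0) (XT.nd (nat_lit 1170) (nat_lit 76) (nat_lit 0) (XT.nd (nat_lit 546) (nat_lit 152) (nat_lit 0) (XT.nd (nat_lit 234) (nat_lit 152) (nat_lit 0) (XT.nd (nat_lit 78) (nat_lit 76) (nat_lit 0) (XT.lf (nat_lit 0) (nat_lit 11020316753) (nat_lit 152) (nat_lit 22571356705) (nat_lit 0) (nat_lit 9417796508) (nat_lit 12) (nat_lit 5) (nat_lit 14) (nat_lit 4) (nat_lit 12) (nat_lit 4) (nat_lit 535) (nat_lit 340) (nat_lit 325)) (XT.nd (nat_lit 78) (nat_lit 76) (nat_lit 0) (XT.lf (nat_lit 0) (nat_lit 18057822582) (nat_lit 152) (nat_lit 9664954983) (nat_lit 0) (nat_lit 16371649877) (nat_lit 12) (nat_lit 5) (nat_lit 14) (nat_lit 4) (nat_lit 12) (nat_lit 4) (nat_lit 536) (nat_lit 340) (nat_lit 324)) (XT.lf (nat_lit 0) (nat_lit 3475493033) (nat_lit 76) (nat_lit 21753083555) (nat_lit 76) (nat_lit 19985694870) (nat_lit 11) (nat_lit 4) (nat_lit 12) (nat_lit 5)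 (nat_lit 12) (nat_lit 4) (nat_lit 537) (nat_lit 340) (nat_lit 323)))) (XT.nd (nat_lit 156) (nat_lit 152) (nat_lit 0) (XT.nd (nat_lit 78) (nat_lit 0) (nat_lit 0) (XT.lf (nat_lit 0) (nat_lit 16989477774) (nat_lit 76) (nat_lit 15612425073) (nat_lit 76) (nat_lit 13766185921) (nat_lit 11) (nat_lit 4) (nat_lit 12) (nat_lit 5) (nat_lit 12) (nat_lit 4) (nat_lit 538) (nat_lit 340) (nat_lit 322)) (XT.lf (nat_lit 0) (nat_lit 30696456019) (nat_lit 76) (nat_lit 9393033590) (nat_lit 76) (nat_lit 7470240587) (nat_lit 11) (nat_lit 4) (nat_lit 12) (nat_lit 5) (nat_lit 12) (nat_lit 4) (nat_lit 539) (nat_lit 340) (nat_lit 321))) (XT.nd (nat_lit 78) (nat_lit 152) (nat_lit 0) (XT.lf (nat_lit 0) (nat_lit 44608404740) (nat_lit 76) (nat_lit 3089474686) (nat_lit 76) (nat_lit 1092357556) (nat_lit 11) (nat_lit 4) (nat_lit 12) (nat_lit 5) (nat_lit 12) (nat_lit 4) (nat_lit 540) (nat_lit 340) (nat_lit 320)) (XT.lf (nat_lit 0) (nat_lit 5385855419)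 (nat_lit 152) (nat_lit 41292900309) (nat_lit 0) (nat_lit 3376849131) (nat_lit 9) (nat_lit 5) (nat_lit 11) (nat_lit 4) (nat_lit 9) (nat_lit 4) (nat_lit 541) (nat_lit 340) (nat_lit 319))))) (XT.nd (nat_lit 312) (nat_lit 76) (nat_lit 0) (XT.nd (nat_lit 156) (nat_lit 76) (nat_lit 0) (XT.nd (nat_lit 78) (nat_lit 0) (nat_lit 0) (XT.lf (nat_lit 0) (nat_lit 12007978131) (nat_lit 152) (nat_lit 29420532144) (nat_lit 0) (nat_lit 9930954738) (nat_lit 9) (nat_lit 5) (nat_lit 11) (nat_lit 4) (nat_lit 9) (nat_lit 4) (nat_lit 542) (nat_lit 340) (nat_lit 318)) (XT.lf (nat_lit 0) (nat_lit 18730010529) (nat_lit 152) (nat_lit 17388443174) (nat_lit 0) (nat_lit 16586951112) (nat_lit 9) (nat_lit 5) (nat_lit 11) (nat_lit 4) (nat_lit 9) (nat_lit 4) (nat_lit 543) (nat_lit 340) (nat_lit 317))) (XT.nd (nat_lit 78) (nat_lit 76) (nat_lit 0) (XT.lf (nat_lit 0) (nat_lit 25557826235) (nat_lit 152) (nat_lit 5186119923) (nat_lit 0) (nat_lit 23350654172)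 (nat_lit 9) (nat_lit 5) (nat_lit 11) (nat_lit 4) (nat_lit 9) (nat_lit 4) (nat_lit 544) (nat_lit 340) (nat_lit 316)) (XT.lf (nat_lit 0) (nat_lit 7340336230) (nat_lit 76) (nat_lit 25227614872) (nat_lit 76) (nat_lit 22958197523) (nat_lit 8) (nat_lit 4) (nat_lit 9) (nat_lit 5) (nat_lit 9) (nat_lit 4) (nat_lit 545) (nat_lit 340) (nat_lit 315)))) (XT.nd (nat_lit 156) (nat_lit 76) (nat_lit 0) (XT.nd (nat_lit 78) (nat_lit 0) (nat_lit 0) (XT.lf (nat_lit 0) (nat_lit 20165538675) (nat_lit 76) (nat_lit 19583074242) (nat_lit 76) (nat_lit 17253224577) (nat_lit 8) (nat_lit 4) (nat_lit 9) (nat_lit 5) (nat_lit 9) (nat_lit 4) (nat_lit 546) (nat_lit 340) (nat_lit 314)) (XT.lf (nat_lit 0) (nat_lit 33197479941) (nat_lit 76) (nat_lit 13857761790) (nat_lit 76) (nat_lit 11469239972) (nat_lit 8) (nat_lit 4) (nat_lit 9) (nat_lit 5) (nat_lit 9) (nat_lit 4) (nat_lit 547) (nat_lit 340) (nat_lit 313))) (XT.nd (nat_lit 78) (nat_lit 76) (nat_lit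 0) (XT.lf (nat_lit 0) (nat_lit 46447547162) (nat_lit 76) (nat_lit 8046674814) (nat_lit 76) (nat_lit 5601189741) (nat_lit 8) (nat_lit 4) (nat_lit 9) (nat_lit 5) (nat_lit 9) (nat_lit 4) (nat_lit 548) (nat_lit 340) (nat_lit 312)) (XT.lf (nat_lit 0) (nat_lit 349105650) (nat_lit 152) (nat_lit 1792104733) (nat_lit 76) (nat_lit 59574687134) (nat_lit 7) (nat_lit 5) (nat_lit 9) (nat_lit 5) (nat_lit 8) (nat_lit 4) (nat_lit 549) (nat_lit 340) (nat_lit 311)))))) (XT.nd (nat_lit 60138) (nat_lit 0) (nat_lit 836) (XT.nd (nat_lit 234) (nat_lit 0) (nat_lit 0) (XT.nd (nat_lit 78) (nat_lit 0) (nat_lit 0) (XT.lf (nat_lit 0) (nat_lit 6421290594) (nat_lit 152) (nat_lit 53019155308) (nat_lit 0) (nat_lit 3941210464) (nat_lit 6) (nat_lit 5) (nat_lit 8) (nat_lit 4) (nat_lit 6) (nat_lit 4) (nat_lit 550) (nat_lit 340) (nat_lit 310)) (XT.nd (nat_lit 78) (nat_lit 0) (nat_lit 0) (XT.lf (nat_lit 0) (nat_lit 12632505532) (nat_lit 152) (nat_lit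 42364363165) (nat_lit 0) (nat_lit 10101814288) (nat_lit 6) (nat_lit 5) (nat_lit 8) (nat_lit 4) (nat_lit 6) (nat_lit 4) (nat_lit 551) (nat_lit 340) (nat_lit 309)) (XT.lf (nat_lit 0) (nat_lit 18949851503) (nat_lit 152) (nat_lit 31549752719) (nat_lit 0) (nat_lit 16370023255) (nat_lit 6) (nat_lit 5) (nat_lit 8) (nat_lit 4) (nat_lit 6) (nat_lit 4) (nat_lit 552) (nat_lit 340) (nat_lit 308)))) (XT.nd (nat_lit 59748) (nat_lit 0) (nat_lit 1140) (XT.nd (nat_lit 78) (nat_lit 0) (nat_lit 0) (XT.lf (nat_lit 0) (nat_lit 25378848519) (nat_lit 152) (nat_lit 20565874307) (nat_lit 0) (nat_lit 22751314442) (nat_lit 6) (nat_lit 5) (nat_lit 8) (nat_lit 4) (nat_lit 6) (nat_lit 4) (nat_lit 553) (nat_lit 340) (nat_lit 307)) (XT.lf (nat_lit 0) (nat_lit 31925114150) (nat_lit 152) (nat_lit 9403130368) (nat_lit 0) (nat_lit 29251263734) (nat_lit 6) (nat_lit 5) (nat_lit 8) (nat_lit 4) (nat_lit 6) (nat_lit 4) (nat_lit 554) (nat_lit 340) (nat_lit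 306))) (XT.nd (nat_lit 78) (nat_lit 152) (nat_lit 0) (XT.lf (nat_lit 0) (nat_lit 7769782591) (nat_lit 76) (nat_lit 3342999522) (nat_lit 76) (nat_lit 3342999522) (nat_lit 23) (nat_lit 4) (nat_lit 24) (nat_lit 5) (nat_lit 24) (nat_lit 4) (nat_lit 518) (nat_lit 341) (nat_lit 341)) (XT.lf (nat_lit 0) (nat_lit 668596355) (nat_lit 152) (nat_lit 28363095414) (nat_lit 0) (nat_lit 521911260) (nat_lit 21) (nat_lit 5) (nat_lit 23) (nat_lit 4) (nat_lit 21) (nat_lit 4) (nat_lit 519) (nat_lit 341) (nat_lit 340))))) (XT.nd (nat_lit 312) (nat_lit 228) (nat_lit 0) (XT.nd (nat_lit 156) (nat_lit 0) (nat_lit 0) (XT.nd (nat_lit 78) (nat_lit 76) (nat_lit 0) (XT.lf (nat_lit 0) (nat_lit 8161793471) (nat_lit 152) (nat_lit 14176861174) (nat_lit 0) (nat_lit 7872695663) (nat_lit 21) (nat_lit 5) (nat_lit 23) (nat_lit 4) (nat_lit 21) (nat_lit 4) (nat_lit 520) (nat_lit 341) (nat_lit 339)) (XT.lf (nat_lit 0) (nat_lit 150244821) (nat_lit 76) (nat_lit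 15585141171) (nat_lit 76) (nat_lit 15157778593) (nat_lit 20) (nat_lit 4) (nat_lit 21) (nat_lit 5) (nat_lit 21) (nat_lit 4) (nat_lit 521) (nat_lit 341) (nat_lit 338))) (XT.nd (nat_lit 78) (nat_lit 0) (nat_lit 0) (XT.lf (nat_lit 0) (nat_lit 14912948731) (nat_lit 76) (nat_lit 8622061278) (nat_lit 76) (nat_lit 8060461058) (nat_lit 20) (nat_lit 4) (nat_lit 21) (nat_lit 5) (nat_lit 21) (nat_lit 4) (nat_lit 522) (nat_lit 341) (nat_lit 337)) (XT.lf (nat_lit 0) (nat_lit 29842002672) (nat_lit 76) (nat_lit 1586489221) (nat_lit 76) (nat_lit 894561195) (nat_lit 20) (nat_lit 4) (nat_lit 21) (nat_lit 5) (nat_lit 21) (nat_lit 4) (nat_lit 523) (nat_lit 341) (nat_lit 336)))) (XT.nd (nat_lit 156) (nat_lit 76) (nat_lit 0) (XT.nd (nat_lit 78) (nat_lit 0) (nat_lit 0) (XT.lf (nat_lit 0) (nat_lit 6393044852) (nat_lit 152) (nat_lit 21078126855) (nat_lit 0) (nat_lit 5598423612) (nat_lit 18) (nat_lit 5) (nat_lit 20) (nat_lit 4) (nat_lit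 18) (nat_lit 4) (nat_lit 524) (nat_lit 341) (nat_lit 335)) (XT.lf (nat_lit 0) (nat_lit 13785056193) (nat_lit 152) (nat_lit 7184934869) (nat_lit 0) (nat_lit 12871166547) (nat_lit 18) (nat_lit 5) (nat_lit 20) (nat_lit 4) (nat_lit 18) (nat_lit 4) (nat_lit 525) (nat_lit 341) (nat_lit 334))) (XT.nd (nat_lit 78) (nat_lit 0) (nat_lit 0) (XT.lf (nat_lit 0) (nat_lit 6998154042) (nat_lit 76) (nat_lit 14334689312) (nat_lit 76) (nat_lit 13305005098) (nat_lit 17) (nat_lit 4) (nat_lit 18) (nat_lit 5) (nat_lit 18) (nat_lit 4) (nat_lit 526) (nat_lit 341) (nat_lit 333)) (XT.lf (nat_lit 0) (nat_lit 21493144638) (nat_lit 76) (nat_lit 7554591713) (nat_lit 76) (nat_lit 6412485588) (nat_lit 17) (nat_lit 4) (nat_lit 18) (nat_lit 5) (nat_lit 18) (nat_lit 4) (nat_lit 527) (nat_lit 341) (nat_lit 332))))))) (XT.nd (nat_lit 1170) (nat_lit 228) (nat_lit 0) (XT.nd (nat_lit 546) (nat_lit 228) (nat_lit 0) (XT.nd (nat_lit 234) (nat_lit 228) (nat_lit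 0) (XT.nd (nat_lit 78) (nat_lit 76) (nat_lit 0) (XT.lf (nat_lit 0) (nat_lit 544097345) (nat_lit 152) (nat_lit 146735999) (nat_lit 76) (nat_lit 35620116491) (nat_lit 16) (nat_lit 5) (nat_lit 18) (nat_lit 5) (nat_lit 17) (nat_lit 4) (nat_lit 528) (nat_lit 341) (nat_lit 331)) (XT.nd (nat_lit 78) (nat_lit 0) (nat_lit 0) (XT.lf (nat_lit 0) (nat_lit 7652113625) (nat_lit 152) (nat_lit 23196612220) (nat_lit 0) (nat_lit 6334422319) (nat_lit 15) (nat_lit 5) (nat_lit 17) (nat_lit 4) (nat_lit 15) (nat_lit 4) (nat_lit 529) (nat_lit 341) (nat_lit 330)) (XT.lf (nat_lit 0) (nat_lit 14856285284) (nat_lit 152) (nat_lit 9790032999) (nat_lit 0) (nat_lit 13438708566) (nat_lit 15) (nat_lit 5) (nat_lit 17) (nat_lit 4) (nat_lit 15) (nat_lit 4) (nat_lit 530) (nat_lit 341) (nat_lit 329)))) (XT.nd (nat_lit 156) (nat_lit 152) (nat_lit 0) (XT.nd (nat_lit 78) (nat_lit 0) (nat_lit 0) (XT.lf (nat_lit 0) (nat_lit 3852636593) (nat_lit 76) (nat_lit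 18339210991) (nat_lit 76) (nat_lit 16824658146) (nat_lit 14) (nat_lit 4) (nat_lit 15) (nat_lit 5) (nat_lit 15) (nat_lit 4) (nat_lit 531) (nat_lit 341) (nat_lit 328)) (XT.lf (nat_lit 0) (nat_lit 17866352079) (nat_lit 76) (nat_lit 11859466409) (nat_lit 76) (nat_lit 10250761982) (nat_lit 14) (nat_lit 4) (nat_lit 15) (nat_lit 5) (nat_lit 15) (nat_lit 4) (nat_lit 532) (nat_lit 341) (nat_lit 327))) (XT.nd (nat_lit 78) (nat_lit 152) (nat_lit 0) (XT.lf (nat_lit 0) (nat_lit 32068517598) (nat_lit 76) (nat_lit 5300282761) (nat_lit 76) (nat_lit 3600169033) (nat_lit 14) (nat_lit 4) (nat_lit 15) (nat_lit 5) (nat_lit 15) (nat_lit 4) (nat_lit 533) (nat_lit 341) (nat_lit 326)) (XT.lf (nat_lit 0) (nat_lit 3129043913) (nat_lit 152) (nat_lit 37470588820) (nat_lit 0) (nat_lit 1392286027) (nat_lit 12) (nat_lit 5) (nat_lit 14) (nat_lit 4) (nat_lit 12) (nat_lit 4) (nat_lit 534) (nat_lit 341) (nat_lit 325))))) (XT.nd (nat_lit 312) (nat_lit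 152) (nat_lit 0) (XT.nd (nat_lit 156) (nat_lit 76) (nat_lit 0) (XT.nd (nat_lit 78) (nat_lit 0) (nat_lit 0) (XT.lf (nat_lit 0) (nat_lit 10016394317) (nat_lit 152) (nat_lit 24831251887) (nat_lit 0) (nat_lit 8195983972) (nat_lit 12) (nat_lit 5) (nat_lit 14) (nat_lit 4) (nat_lit 12) (nat_lit 4) (nat_lit 535) (nat_lit 341) (nat_lit 324)) (XT.lf (nat_lit 0) (nat_lit 16999079672) (nat_lit 152) (nat_lit 12033699989) (nat_lit 0) (nat_lit 15097453346) (nat_lit 12) (nat_lit 5) (nat_lit 14) (nat_lit 4) (nat_lit 12) (nat_lit 4) (nat_lit 536) (nat_lit 341) (nat_lit 323))) (XT.nd (nat_lit 78) (nat_lit 0) (nat_lit 0) (XT.lf (nat_lit 0) (nat_lit 951822687) (nat_lit 76) (nat_lit 23140528167) (nat_lit 76) (nat_lit 21160051374) (nat_lit 11) (nat_lit 4) (nat_lit 12) (nat_lit 5) (nat_lit 12) (nat_lit 4) (nat_lit 537) (nat_lit 341) (nat_lit 322)) (XT.lf (nat_lit 0) (nat_lit 14361164060) (nat_lit 76) (nat_lit 17051833603) (nat_lit 76)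 (nat_lit 14994802959) (nat_lit 11) (nat_lit 4) (nat_lit 12) (nat_lit 5) (nat_lit 12) (nat_lit 4) (nat_lit 538) (nat_lit 341) (nat_lit 321)))) (XT.nd (nat_lit 156) (nat_lit 152) (nat_lit 0) (XT.nd (nat_lit 78) (nat_lit 0) (nat_lit 0) (XT.lf (nat_lit 0) (nat_lit 27966546802) (nat_lit 76) (nat_lit 10882892525) (nat_lit 76) (nat_lit 8751537754) (nat_lit 11) (nat_lit 4) (nat_lit 12) (nat_lit 5) (nat_lit 12) (nat_lit 4) (nat_lit 539) (nat_lit 341) (nat_lit 320)) (XT.lf (nat_lit 0) (nat_lit 41779859112) (nat_lit 76) (nat_lit 4628314597) (nat_lit 76) (nat_lit 2424800480) (nat_lit 11) (nat_lit 4) (nat_lit 12) (nat_lit 5) (nat_lit 12) (nat_lit 4) (nat_lit 540) (nat_lit 341) (nat_lit 319))) (XT.nd (nat_lit 78) (nat_lit 0) (nat_lit 0) (XT.lf (nat_lit 0) (nat_lit 3986085735) (nat_lit 152) (nat_lit 44336706490) (nat_lit 0) (nat_lit 1778734536) (nat_lit 9) (nat_lit 5) (nat_lit 11) (nat_lit 4) (nat_lit 9) (nat_lit 4) (nat_lit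 541) (nat_lit 341) (nat_lit 318)) (XT.lf (nat_lit 0) (nat_lit 10559561159) (nat_lit 152) (nat_lit 32561111843) (nat_lit 0) (nat_lit 8286173935) (nat_lit 9) (nat_lit 5) (nat_lit 11) (nat_lit 4) (nat_lit 9) (nat_lit 4) (nat_lit 542) (nat_lit 341) (nat_lit 317)))))) (XT.nd (nat_lit 624) (nat_lit 0) (nat_lit 0) (XT.nd (nat_lit 312) (nat_lit 152) (nat_lit 0) (XT.nd (nat_lit 156) (nat_lit 76) (nat_lit 0) (XT.nd (nat_lit 78) (nat_lit 0) (nat_lit 0) (XT.lf (nat_lit 0) (nat_lit 17234363181) (nat_lit 152) (nat_lit 20622977744) (nat_lit 0) (nat_lit 14896863312) (nat_lit 9) (nat_lit 5) (nat_lit 11) (nat_lit 4) (nat_lit 9) (nat_lit 4) (nat_lit 543) (nat_lit 341) (nat_lit 316)) (XT.lf (nat_lit 0) (nat_lit 24016324152) (nat_lit 152) (nat_lit 8511872814) (nat_lit 0) (nat_lit 21616578996) (nat_lit 9) (nat_lit 5) (nat_lit 11) (nat_lit 4) (nat_lit 9) (nat_lit 4) (nat_lit 544) (nat_lit 341) (nat_lit 315))) (XT.nd (nat_lit 78) (nat_lit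 0) (nat_lit 0) (XT.lf (nat_lit 0) (nat_lit 3858070311) (nat_lit 76) (nat_lit 27090385878) (nat_lit 76) (nat_lit 24630208405) (nat_lit 8) (nat_lit 4) (nat_lit 9) (nat_lit 5) (nat_lit 9) (nat_lit 4) (nat_lit 545) (nat_lit 341) (nat_lit 314)) (XT.lf (nat_lit 0) (nat_lit 16595579528) (nat_lit 76) (nat_lit 21489473030) (nat_lit 76) (nat_lit 18970623405) (nat_lit 8) (nat_lit 4) (nat_lit 9) (nat_lit 5) (nat_lit 9) (nat_lit 4) (nat_lit 546) (nat_lit 341) (nat_lit 313)))) (XT.nd (nat_lit 156) (nat_lit 152) (nat_lit 0) (XT.nd (nat_lit 78) (nat_lit 0) (nat_lit 0) (XT.lf (nat_lit 0) (nat_lit 29542381739) (nat_lit 76) (nat_lit 15806517646) (nat_lit 76) (nat_lit 13230704767) (nat_lit 8) (nat_lit 4) (nat_lit 9) (nat_lit 5) (nat_lit 9) (nat_lit 4) (nat_lit 547) (nat_lit 341) (nat_lit 312)) (XT.lf (nat_lit 0) (nat_lit 42709789682) (nat_lit 76) (nat_lit 10036554038) (nat_lit 76) (nat_lit 7405437028) (nat_lit 8) (nat_lit 4) (nat_lit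 9) (nat_lit 5) (nat_lit 9) (nat_lit 4) (nat_lit 548) (nat_lit 341) (nat_lit 311))) (XT.nd (nat_lit 78) (nat_lit 152) (nat_lit 0) (XT.lf (nat_lit 0) (nat_lit 56109308861) (nat_lit 76) (nat_lit 4174540490) (nat_lit 76) (nat_lit 1489730149) (nat_lit 8) (nat_lit 4) (nat_lit 9) (nat_lit 5) (nat_lit 9) (nat_lit 4) (nat_lit 549) (nat_lit 341) (nat_lit 310)) (XT.lf (nat_lit 0) (nat_lit 4512945548) (nat_lit 152) (nat_lit 57074057795) (nat_lit 0) (nat_lit 1855722452) (nat_lit 6) (nat_lit 5) (nat_lit 8) (nat_lit 4) (nat_lit 6) (nat_lit 4) (nat_lit 550) (nat_lit 341) (nat_lit 309))))) (XT.nd (nat_lit 59748) (nat_lit 0) (nat_lit 1140) (XT.nd (nat_lit 156) (nat_lit 0) (nat_lit 0) (XT.nd (nat_lit 78) (nat_lit 0) (nat_lit 0) (XT.lf (nat_lit 0) (nat_lit 10684650429) (nat_lit 152) (nat_lit 46497997406) (nat_lit 0) (nat_lit 7978290330) (nat_lit 6) (nat_lit 5) (nat_lit 8) (nat_lit 4) (nat_lit 6) (nat_lit 4) (nat_lit 551) (nat_lit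 341) (nat_lit 308)) (XT.lf (nat_lit 0) (nat_lit 16963637123) (nat_lit 152) (nat_lit 35759825555) (nat_lit 0) (nat_lit 14209571194) (nat_lit 6) (nat_lit 5) (nat_lit 8) (nat_lit 4) (nat_lit 6) (nat_lit 4) (nat_lit 552) (nat_lit 341) (nat_lit 307))) (XT.nd (nat_lit 78) (nat_lit 0) (nat_lit 0) (XT.lf (nat_lit 0) (nat_lit 23355392121) (nat_lit 152) (nat_lit 24850159373) (nat_lit 0) (nat_lit 20555009854) (nat_lit 6) (nat_lit 5) (nat_lit 8) (nat_lit 4) (nat_lit 6) (nat_lit 4) (nat_lit 553) (nat_lit 341) (nat_lit 306)) (XT.lf (nat_lit 0) (nat_lit 29865500453) (nat_lit 152) (nat_lit 13759466141) (nat_lit 0) (nat_lit 27020150867) (nat_lit 6) (nat_lit 5) (nat_lit 8) (nat_lit 4) (nat_lit 6) (nat_lit 4) (nat_lit 554) (nat_lit 341) (nat_lit 305)))) (XT.nd (nat_lit 156) (nat_lit 152) (nat_lit 0) (XT.nd (nat_lit 78) (nat_lit 76) (nat_lit 0) (XT.lf (nat_lit 0) (nat_lit 3432028892) (nat_lit 152) (nat_lit 6980126791) (nat_lit 0)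 (nat_lit 3432028892) (nat_lit 24) (nat_lit 5) (nat_lit 26) (nat_lit 4) (nat_lit 24) (nat_lit 4) (nat_lit 516) (nat_lit 342) (nat_lit 342)) (XT.lf (nat_lit 0) (nat_lit 503965571) (nat_lit 76) (nat_lit 13971773230) (nat_lit 76) (nat_lit 13816155013) (nat_lit 23) (nat_lit 4) (nat_lit 24) (nat_lit 5) (nat_lit 24) (nat_lit 4) (nat_lit 517) (nat_lit 342) (nat_lit 341))) (XT.nd (nat_lit 78) (nat_lit 152) (nat_lit 0) (XT.lf (nat_lit 0) (nat_lit 15395179133) (nat_lit 76) (nat_lit 6912645065) (nat_lit 76) (nat_lit 6605941200) (nat_lit 23) (nat_lit 4) (nat_lit 24) (nat_lit 5) (nat_lit 24) (nat_lit 4) (nat_lit 518) (nat_lit 342) (nat_lit 340)) (XT.lf (nat_lit 0) (nat_lit 669461906) (nat_lit 152) (nat_lit 28659371917) (nat_lit 0) (nat_lit 229278450) (nat_lit 21) (nat_lit 5) (nat_lit 23) (nat_lit 4) (nat_lit 21) (nat_lit 4) (nat_lit 519) (nat_lit 342) (nat_lit 339))))))))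
noncomputable def xc6 : XT := (XT.nd (nat_lit 2340) (nat_lit 152) (nat_lit 0) (XT.nd (nat_lit 1170) (nat_lit 304) (nat_lit 0) (XT.nd (nat_lit 546) (nat_lit 380) (nat_lit 0) (XT.nd (nat_lit 234) (nat_lit 228) (nat_lit 0) (XT.nd (nat_lit 78) (nat_lit 76) (nat_lit 0) (XT.lf (nat_lit 0) (nat_lit 8090814316) (nat_lit 152) (nat_lit 14614835750) (nat_lit 0) (nat_lit 7512366090) (nat_lit 21) (nat_lit 5) (nat_lit 23) (nat_lit 4) (nat_lit 21) (nat_lit 4) (nat_lit 520) (nat_lit 342) (nat_lit 338)) (XT.nd (nat_lit 78) (nat_lit 76) (nat_lit 0) (XT.lf (nat_lit 0) (nat_lit 15593210451) (nat_lit 152) (nat_lit 428232517) (nat_lit 0) (nat_lit 14880524584) (nat_lit 21) (nat_lit 5) (nat_lit 23) (nat_lit 4) (nat_lit 21) (nat_lit 4) (nat_lit 521) (nat_lit 342) (nat_lit 337)) (XT.lf (nat_lit 0) (nat_lit 14189726515) (nat_lit 76) (nat_lit 9129879617) (nat_lit 76) (nat_lit 8286865943) (nat_lit 20) (nat_lit 4) (nat_lit 21) (nat_lit 5) (nat_lit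 21) (nat_lit 4) (nat_lit 522) (nat_lit 342) (nat_lit 336)))) (XT.nd (nat_lit 156) (nat_lit 76) (nat_lit 0) (XT.nd (nat_lit 78) (nat_lit 152) (nat_lit 0) (XT.lf (nat_lit 0) (nat_lit 28986525883) (nat_lit 76) (nat_lit 2159542738) (nat_lit 76) (nat_lit 1189997213) (nat_lit 20) (nat_lit 4) (nat_lit 21) (nat_lit 5) (nat_lit 21) (nat_lit 4) (nat_lit 523) (nat_lit 342) (nat_lit 335)) (XT.lf (nat_lit 0) (nat_lit 6021654235) (nat_lit 152) (nat_lit 22102412210) (nat_lit 0) (nat_lit 4961079495) (nat_lit 18) (nat_lit 5) (nat_lit 20) (nat_lit 4) (nat_lit 18) (nat_lit 4) (nat_lit 524) (nat_lit 342) (nat_lit 334))) (XT.nd (nat_lit 78) (nat_lit 76) (nat_lit 0) (XT.lf (nat_lit 0) (nat_lit 13348022691) (nat_lit 152) (nat_lit 8339002503) (nat_lit 0) (nat_lit 12171653382) (nat_lit 18) (nat_lit 5) (nat_lit 20) (nat_lit 4) (nat_lit 18) (nat_lit 4) (nat_lit 525) (nat_lit 342) (nat_lit 333)) (XT.lf (nat_lit 0) (nat_lit 5692608296) (nat_lit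 76) (nat_lit 15126920894) (nat_lit 76) (nat_lit 13838129675) (nat_lit 17) (nat_lit 4) (nat_lit 18) (nat_lit 5) (nat_lit 18) (nat_lit 4) (nat_lit 526) (nat_lit 342) (nat_lit 332))))) (XT.nd (nat_lit 312) (nat_lit 228) (nat_lit 0) (XT.nd (nat_lit 156) (nat_lit 152) (nat_lit 0) (XT.nd (nat_lit 78) (nat_lit 0) (nat_lit 0) (XT.lf (nat_lit 0) (nat_lit 20062831996) (nat_lit 76) (nat_lit 8408516140) (nat_lit 76) (nat_lit 7010577434) (nat_lit 17) (nat_lit 4) (nat_lit 18) (nat_lit 5) (nat_lit 18) (nat_lit 4) (nat_lit 527) (nat_lit 342) (nat_lit 331)) (XT.lf (nat_lit 0) (nat_lit 34618262602) (nat_lit 76) (nat_lit 1610148055) (nat_lit 76) (nat_lit 106240915) (nat_lit 17) (nat_lit 4) (nat_lit 18) (nat_lit 5) (nat_lit 18) (nat_lit 4) (nat_lit 528) (nat_lit 342) (nat_lit 330))) (XT.nd (nat_lit 78) (nat_lit 0) (nat_lit 0) (XT.lf (nat_lit 0) (nat_lit 6917686402) (nat_lit 152) (nat_lit 24934082943) (nat_lit 0) (nat_lit 5357696971)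 (nat_lit 15) (nat_lit 5) (nat_lit 17) (nat_lit 4) (nat_lit 15) (nat_lit 4) (nat_lit 529) (nat_lit 342) (nat_lit 329)) (XT.lf (nat_lit 0) (nat_lit 14061873623) (nat_lit 152) (nat_lit 11646363732) (nat_lit 0) (nat_lit 12404908064) (nat_lit 15) (nat_lit 5) (nat_lit 17) (nat_lit 4) (nat_lit 15) (nat_lit 4) (nat_lit 530) (nat_lit 342) (nat_lit 328)))) (XT.nd (nat_lit 156) (nat_lit 152) (nat_lit 0) (XT.nd (nat_lit 78) (nat_lit 0) (nat_lit 0) (XT.lf (nat_lit 0) (nat_lit 1841666523) (nat_lit 76) (nat_lit 19478201408) (nat_lit 76) (nat_lit 17727084268) (nat_lit 14) (nat_lit 4) (nat_lit 15) (nat_lit 5) (nat_lit 15) (nat_lit 4) (nat_lit 531) (nat_lit 342) (nat_lit 327)) (XT.lf (nat_lit 0) (nat_lit 15741115294) (nat_lit 76) (nat_lit 13055084053) (nat_lit 76) (nat_lit 11212557612) (nat_lit 14) (nat_lit 4) (nat_lit 15) (nat_lit 5) (nat_lit 15) (nat_lit 4) (nat_lit 532) (nat_lit 342) (nat_lit 326))) (XT.nd (nat_lit 78) (nat_lit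 152) (nat_lit 0) (XT.lf (nat_lit 0) (nat_lit 29832342256) (nat_lit 76) (nat_lit 6550878297) (nat_lit 76) (nat_lit 4619604961) (nat_lit 14) (nat_lit 4) (nat_lit 15) (nat_lit 5) (nat_lit 15) (nat_lit 4) (nat_lit 533) (nat_lit 342) (nat_lit 325)) (XT.lf (nat_lit 0) (nat_lit 2038538716) (nat_lit 152) (nat_lit 39910396177) (nat_lit 0) (nat_lit 79863600) (nat_lit 12) (nat_lit 5) (nat_lit 14) (nat_lit 4) (nat_lit 12) (nat_lit 4) (nat_lit 534) (nat_lit 342) (nat_lit 324)))))) (XT.nd (nat_lit 546) (nat_lit 76) (nat_lit 0) (XT.nd (nat_lit 234) (nat_lit 228) (nat_lit 0) (XT.nd (nat_lit 78) (nat_lit 0) (nat_lit 0) (XT.lf (nat_lit 0) (nat_lit 8871068647) (nat_lit 152) (nat_lit 27379909068) (nat_lit 0) (nat_lit 6831177550) (nat_lit 12) (nat_lit 5) (nat_lit 14) (nat_lit 4) (nat_lit 12) (nat_lit 4) (nat_lit 535) (nat_lit 342) (nat_lit 323)) (XT.nd (nat_lit 78) (nat_lit 0) (nat_lit 0) (XT.lf (nat_lit 0) (nat_lit 15800530240) (nat_lit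 152) (nat_lit 14688036612) (nat_lit 0) (nat_lit 13681788677) (nat_lit 12) (nat_lit 5) (nat_lit 14) (nat_lit 4) (nat_lit 12) (nat_lit 4) (nat_lit 536) (nat_lit 342) (nat_lit 322)) (XT.lf (nat_lit 0) (nat_lit 22832978367) (nat_lit 152) (nat_lit 1823688822) (nat_lit 0) (nat_lit 20637682953) (nat_lit 12) (nat_lit 5) (nat_lit 14) (nat_lit 4) (nat_lit 12) (nat_lit 4) (nat_lit 537) (nat_lit 342) (nat_lit 321)))) (XT.nd (nat_lit 156) (nat_lit 152) (nat_lit 0) (XT.nd (nat_lit 78) (nat_lit 0) (nat_lit 0) (XT.lf (nat_lit 0) (nat_lit 11447762063) (nat_lit 76) (nat_lit 18636838712) (nat_lit 76) (nat_lit 16367219171) (nat_lit 11) (nat_lit 4) (nat_lit 12) (nat_lit 5) (nat_lit 12) (nat_lit 4) (nat_lit 538) (nat_lit 342) (nat_lit 320)) (XT.lf (nat_lit 0) (nat_lit 24954508394) (nat_lit 76) (nat_lit 12516878611) (nat_lit 76) (nat_lit 10175099723) (nat_lit 11) (nat_lit 4) (nat_lit 12) (nat_lit 5) (nat_lit 12) (nat_lit 4) (nat_lit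 539) (nat_lit 342) (nat_lit 319))) (XT.nd (nat_lit 78) (nat_lit 152) (nat_lit 0) (XT.lf (nat_lit 0) (nat_lit 38672057198) (nat_lit 76) (nat_lit 6309855029) (nat_lit 76) (nat_lit 3898018523) (nat_lit 11) (nat_lit 4) (nat_lit 12) (nat_lit 5) (nat_lit 12) (nat_lit 4) (nat_lit 540) (nat_lit 342) (nat_lit 318)) (XT.lf (nat_lit 0) (nat_lit 2445568967) (nat_lit 152) (nat_lit 47668277097) (nat_lit 0) (nat_lit 37944102) (nat_lit 9) (nat_lit 5) (nat_lit 11) (nat_lit 4) (nat_lit 9) (nat_lit 4) (nat_lit 541) (nat_lit 342) (nat_lit 317))))) (XT.nd (nat_lit 312) (nat_lit 0) (nat_lit 0) (XT.nd (nat_lit 156) (nat_lit 76) (nat_lit 0) (XT.nd (nat_lit 78) (nat_lit 0) (nat_lit 0) (XT.lf (nat_lit 0) (nat_lit 8971814014) (nat_lit 152) (nat_lit 35986637321) (nat_lit 0) (nat_lit 6500076504) (nat_lit 9) (nat_lit 5) (nat_lit 11) (nat_lit 4) (nat_lit 9) (nat_lit 4) (nat_lit 542) (nat_lit 342) (nat_lit 316)) (XT.lf (nat_lit 0) (nat_lit 15600761301)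 (nat_lit 152) (nat_lit 24139721543) (nat_lit 0) (nat_lit 13066778504) (nat_lit 9) (nat_lit 5) (nat_lit 11) (nat_lit 4) (nat_lit 9) (nat_lit 4) (nat_lit 543) (nat_lit 342) (nat_lit 315))) (XT.nd (nat_lit 78) (nat_lit 76) (nat_lit 0) (XT.lf (nat_lit 0) (nat_lit 22338203112) (nat_lit 152) (nat_lit 12117178091) (nat_lit 0) (nat_lit 19743787999) (nat_lit 9) (nat_lit 5) (nat_lit 11) (nat_lit 4) (nat_lit 9) (nat_lit 4) (nat_lit 544) (nat_lit 342) (nat_lit 314)) (XT.lf (nat_lit 0) (nat_lit 93319163) (nat_lit 76) (nat_lit 29097604410) (nat_lit 76) (nat_lit 26444517144) (nat_lit 8) (nat_lit 4) (nat_lit 9) (nat_lit 5) (nat_lit 9) (nat_lit 4) (nat_lit 545) (nat_lit 342) (nat_lit 313)))) (XT.nd (nat_lit 156) (nat_lit 0) (nat_lit 0) (XT.nd (nat_lit 78) (nat_lit 0) (nat_lit 0) (XT.lf (nat_lit 0) (nat_lit 12745689325) (nat_lit 76) (nat_lit 23539048631) (nat_lit 76) (nat_lit 20828998110) (nat_lit 8) (nat_lit 4) (nat_lit 9) (nat_lit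 5) (nat_lit 9) (nat_lit 4) (nat_lit 546) (nat_lit 342) (nat_lit 312)) (XT.lf (nat_lit 0) (nat_lit 25609832258) (nat_lit 76) (nat_lit 17897216615) (nat_lit 76) (nat_lit 15131861964) (nat_lit 8) (nat_lit 4) (nat_lit 9) (nat_lit 5) (nat_lit 9) (nat_lit 4) (nat_lit 547) (nat_lit 342) (nat_lit 311))) (XT.nd (nat_lit 78) (nat_lit 0) (nat_lit 0) (XT.lf (nat_lit 0) (nat_lit 38696988476) (nat_lit 76) (nat_lit 12167178607) (nat_lit 76) (nat_lit 9348130625) (nat_lit 8) (nat_lit 4) (nat_lit 9) (nat_lit 5) (nat_lit 9) (nat_lit 4) (nat_lit 548) (nat_lit 342) (nat_lit 310)) (XT.lf (nat_lit 0) (nat_lit 52018593358) (nat_lit 76) (nat_lit 6343927777) (nat_lit 76) (nat_lit 3472750348) (nat_lit 8) (nat_lit 4) (nat_lit 9) (nat_lit 5) (nat_lit 9) (nat_lit 4) (nat_lit 549) (nat_lit 342) (nat_lit 309))))))) (XT.nd (nat_lit 60450) (nat_lit 0) (nat_lit 380) (XT.nd (nat_lit 59826) (nat_lit 0) (nat_lit 1064) (XT.nd (nat_lit 234) (nat_lit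 0) (nat_lit 0) (XT.nd (nat_lit 78) (nat_lit 0) (nat_lit 0) (XT.lf (nat_lit 0) (nat_lit 2093869905) (nat_lit 76) (nat_lit 376897803) (nat_lit 152) (nat_lit 61037157985) (nat_lit 6) (nat_lit 5) (nat_lit 7) (nat_lit 5) (nat_lit 8) (nat_lit 4) (nat_lit 550) (nat_lit 342) (nat_lit 308)) (XT.nd (nat_lit 78) (nat_lit 0) (nat_lit 0) (XT.lf (nat_lit 0) (nat_lit 8600490339) (nat_lit 152) (nat_lit 50910811023) (nat_lit 0) (nat_lit 5716096604) (nat_lit 6) (nat_lit 5) (nat_lit 8) (nat_lit 4) (nat_lit 6) (nat_lit 4) (nat_lit 551) (nat_lit 342) (nat_lit 307)) (XT.lf (nat_lit 0) (nat_lit 14842235015) (nat_lit 152) (nat_lit 40246851401) (nat_lit 0) (nat_lit 11911524941) (nat_lit 6) (nat_lit 5) (nat_lit 8) (nat_lit 4) (nat_lit 6) (nat_lit 4) (nat_lit 552) (nat_lit 342) (nat_lit 306)))) (XT.nd (nat_lit 59436) (nat_lit 0) (nat_lit 1520) (XT.nd (nat_lit 78) (nat_lit 0) (nat_lit 0) (XT.lf (nat_lit 0) (nat_lit 21197832715) (nat_lit 152)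 (nat_lit 29409235926) (nat_lit 0) (nat_lit 18222155321) (nat_lit 6) (nat_lit 5) (nat_lit 8) (nat_lit 4) (nat_lit 6) (nat_lit 4) (nat_lit 553) (nat_lit 342) (nat_lit 305)) (XT.lf (nat_lit 0) (nat_lit 27672836873) (nat_lit 152) (nat_lit 18388494838) (nat_lit 0) (nat_lit 24653501889) (nat_lit 6) (nat_lit 5) (nat_lit 8) (nat_lit 4) (nat_lit 6) (nat_lit 4) (nat_lit 554) (nat_lit 342) (nat_lit 304))) (XT.nd (nat_lit 78) (nat_lit 0) (nat_lit 0) (XT.lf (nat_lit 0) (nat_lit 5451695393) (nat_lit 76) (nat_lit 3907898105) (nat_lit 76) (nat_lit 3907898105) (nat_lit 26) (nat_lit 4) (nat_lit 27) (nat_lit 5) (nat_lit 27) (nat_lit 4) (nat_lit 514) (nat_lit 343) (nat_lit 343)) (XT.lf (nat_lit 0) (nat_lit 25943146469) (nat_lit 76) (nat_lit 663967869) (nat_lit 76) (nat_lit 498872502) (nat_lit 26) (nat_lit 4) (nat_lit 27) (nat_lit 5) (nat_lit 27) (nat_lit 4) (nat_lit 515) (nat_lit 343) (nat_lit 342))))) (XT.nd (nat_lit 312) (nat_lit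 76) (nat_lit 0) (XT.nd (nat_lit 156) (nat_lit 152) (nat_lit 0) (XT.nd (nat_lit 78) (nat_lit 76) (nat_lit 0) (XT.lf (nat_lit 0) (nat_lit 6950215121) (nat_lit 152) (nat_lit 14106069196) (nat_lit 0) (nat_lit 6634310141) (nat_lit 24) (nat_lit 5) (nat_lit 26) (nat_lit 4) (nat_lit 24) (nat_lit 4) (nat_lit 516) (nat_lit 343) (nat_lit 341)) (XT.lf (nat_lit 0) (nat_lit 210861892) (nat_lit 76) (nat_lit 14276246435) (nat_lit 76) (nat_lit 13809255806) (nat_lit 23) (nat_lit 4) (nat_lit 24) (nat_lit 5) (nat_lit 24) (nat_lit 4) (nat_lit 517) (nat_lit 343) (nat_lit 340))) (XT.nd (nat_lit 78) (nat_lit 152) (nat_lit 0) (XT.lf (nat_lit 0) (nat_lit 14961894824) (nat_lit 76) (nat_lit 7286077302) (nat_lit 76) (nat_lit 6672401579) (nat_lit 23) (nat_lit 4) (nat_lit 24) (nat_lit 5) (nat_lit 24) (nat_lit 4) (nat_lit 518) (nat_lit 343) (nat_lit 339)) (XT.lf (nat_lit 0) (nat_lit 312834777) (nat_lit 76) (nat_lit 213728382) (nat_lit 152) (nat_lit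 29040509909) (nat_lit 21) (nat_lit 5) (nat_lit 22) (nat_lit 5) (nat_lit 23) (nat_lit 4) (nat_lit 519) (nat_lit 343) (nat_lit 338)))) (XT.nd (nat_lit 156) (nat_lit 76) (nat_lit 0) (XT.nd (nat_lit 78) (nat_lit 0) (nat_lit 0) (XT.lf (nat_lit 0) (nat_lit 7876108939) (nat_lit 152) (nat_lit 15345218582) (nat_lit 0) (nat_lit 7007804855) (nat_lit 21) (nat_lit 5) (nat_lit 23) (nat_lit 4) (nat_lit 21) (nat_lit 4) (nat_lit 520) (nat_lit 343) (nat_lit 337)) (XT.lf (nat_lit 0) (nat_lit 15310784548) (nat_lit 152) (nat_lit 1292179374) (nat_lit 0) (nat_lit 14312152657) (nat_lit 21) (nat_lit 5) (nat_lit 23) (nat_lit 4) (nat_lit 21) (nat_lit 4) (nat_lit 521) (nat_lit 343) (nat_lit 336))) (XT.nd (nat_lit 78) (nat_lit 0) (nat_lit 0) (XT.lf (nat_lit 0) (nat_lit 13176330849) (nat_lit 76) (nat_lit 9785359918) (nat_lit 76) (nat_lit 8660196175) (nat_lit 20) (nat_lit 4) (nat_lit 21) (nat_lit 5) (nat_lit 21) (nat_lit 4) (nat_lit 522) (nat_lit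 343) (nat_lit 335)) (XT.lf (nat_lit 0) (nat_lit 27844727718) (nat_lit 76) (nat_lit 2878358163) (nat_lit 76) (nat_lit 1630347963) (nat_lit 20) (nat_lit 4) (nat_lit 21) (nat_lit 5) (nat_lit 21) (nat_lit 4) (nat_lit 523) (nat_lit 343) (nat_lit 334)))))) (XT.nd (nat_lit 624) (nat_lit 304) (nat_lit 0) (XT.nd (nat_lit 312) (nat_lit 152) (nat_lit 0) (XT.nd (nat_lit 156) (nat_lit 76) (nat_lit 0) (XT.nd (nat_lit 78) (nat_lit 0) (nat_lit 0) (XT.lf (nat_lit 0) (nat_lit 5505866842) (nat_lit 152) (nat_lit 23420884152) (nat_lit 0) (nat_lit 4178411886) (nat_lit 18) (nat_lit 5) (nat_lit 20) (nat_lit 4) (nat_lit 18) (nat_lit 4) (nat_lit 524) (nat_lit 343) (nat_lit 333)) (XT.lf (nat_lit 0) (nat_lit 12768504341) (nat_lit 152) (nat_lit 9783476656) (nat_lit 0) (nat_lit 11328627474) (nat_lit 18) (nat_lit 5) (nat_lit 20) (nat_lit 4) (nat_lit 18) (nat_lit 4) (nat_lit 525) (nat_lit 343) (nat_lit 332))) (XT.nd (nat_lit 78) (nat_lit 0) (nat_lit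 0) (XT.lf (nat_lit 0) (nat_lit 4094619379) (nat_lit 76) (nat_lit 16068155900) (nat_lit 76) (nat_lit 14519131546) (nat_lit 17) (nat_lit 4) (nat_lit 18) (nat_lit 5) (nat_lit 18) (nat_lit 4) (nat_lit 526) (nat_lit 343) (nat_lit 331)) (XT.lf (nat_lit 0) (nat_lit 18343710170) (nat_lit 76) (nat_lit 9409647112) (nat_lit 76) (nat_lit 7754654325) (nat_lit 17) (nat_lit 4) (nat_lit 18) (nat_lit 5) (nat_lit 18) (nat_lit 4) (nat_lit 527) (nat_lit 343) (nat_lit 330)))) (XT.nd (nat_lit 156) (nat_lit 0) (nat_lit 0) (XT.nd (nat_lit 78) (nat_lit 152) (nat_lit 0) (XT.lf (nat_lit 0) (nat_lit 32781536009) (nat_lit 76) (nat_lit 2669430451) (nat_lit 76) (nat_lit 911555689) (nat_lit 17) (nat_lit 4) (nat_lit 18) (nat_lit 5) (nat_lit 18) (nat_lit 4) (nat_lit 528) (nat_lit 343) (nat_lit 329)) (XT.lf (nat_lit 0) (nat_lit 6039457954) (nat_lit 152) (nat_lit 26964963607) (nat_lit 0) (nat_lit 4235807300) (nat_lit 15) (nat_lit 5) (nat_lit 17)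 (nat_lit 4) (nat_lit 15) (nat_lit 4) (nat_lit 529) (nat_lit 343) (nat_lit 328))) (XT.nd (nat_lit 78) (nat_lit 0) (nat_lit 0) (XT.lf (nat_lit 0) (nat_lit 13125407857) (nat_lit 152) (nat_lit 13792642465) (nat_lit 0) (nat_lit 11227605623) (nat_lit 15) (nat_lit 5) (nat_lit 17) (nat_lit 4) (nat_lit 15) (nat_lit 4) (nat_lit 530) (nat_lit 343) (nat_lit 327)) (XT.lf (nat_lit 0) (nat_lit 20309157855) (nat_lit 152) (nat_lit 452586716) (nat_lit 0) (nat_lit 18319946319) (nat_lit 15) (nat_lit 5) (nat_lit 17) (nat_lit 4) (nat_lit 15) (nat_lit 4) (nat_lit 531) (nat_lit 343) (nat_lit 326))))) (XT.nd (nat_lit 312) (nat_lit 76) (nat_lit 0) (XT.nd (nat_lit 156) (nat_lit 152) (nat_lit 0) (XT.nd (nat_lit 78) (nat_lit 0) (nat_lit 0) (XT.lf (nat_lit 0) (nat_lit 13326916133) (nat_lit 76) (nat_lit 14398175346) (nat_lit 76) (nat_lit 12320216915) (nat_lit 14) (nat_lit 4) (nat_lit 15) (nat_lit 5) (nat_lit 15) (nat_lit 4) (nat_lit 532) (nat_lit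 343) (nat_lit 325)) (XT.lf (nat_lit 0) (nat_lit 27310435758) (nat_lit 76) (nat_lit 7947346182) (nat_lit 76) (nat_lit 5783225718) (nat_lit 14) (nat_lit 4) (nat_lit 15) (nat_lit 5) (nat_lit 15) (nat_lit 4) (nat_lit 533) (nat_lit 343) (nat_lit 324))) (XT.nd (nat_lit 78) (nat_lit 76) (nat_lit 0) (XT.lf (nat_lit 0) (nat_lit 823198978) (nat_lit 152) (nat_lit 576678998) (nat_lit 76) (nat_lit 40669671729) (nat_lit 13) (nat_lit 5) (nat_lit 15) (nat_lit 5) (nat_lit 14) (nat_lit 4) (nat_lit 534) (nat_lit 343) (nat_lit 323)) (XT.lf (nat_lit 0) (nat_lit 7583338971) (nat_lit 152) (nat_lit 30219555230) (nat_lit 0) (nat_lit 5322184694) (nat_lit 12) (nat_lit 5) (nat_lit 14) (nat_lit 4) (nat_lit 12) (nat_lit 4) (nat_lit 535) (nat_lit 343) (nat_lit 322)))) (XT.nd (nat_lit 156) (nat_lit 76) (nat_lit 0) (XT.nd (nat_lit 78) (nat_lit 0) (nat_lit 0) (XT.lf (nat_lit 0) (nat_lit 14461127010) (nat_lit 152) (nat_lit 17630284173) (nat_lit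 0) (nat_lit 12123418883) (nat_lit 12) (nat_lit 5) (nat_lit 14) (nat_lit 4) (nat_lit 12) (nat_lit 4) (nat_lit 536) (nat_lit 343) (nat_lit 321)) (XT.lf (nat_lit 0) (nat_lit 21443406637) (nat_lit 152) (nat_lit 4865549393) (nat_lit 0) (nat_lit 19031374383) (nat_lit 12) (nat_lit 5) (nat_lit 14) (nat_lit 4) (nat_lit 12) (nat_lit 4) (nat_lit 537) (nat_lit 343) (nat_lit 320))) (XT.nd (nat_lit 78) (nat_lit 0) (nat_lit 0) (XT.lf (nat_lit 0) (nat_lit 8246726091) (nat_lit 76) (nat_lit 20368825357) (nat_lit 76) (nat_lit 17884633756) (nat_lit 11) (nat_lit 4) (nat_lit 12) (nat_lit 5) (nat_lit 12) (nat_lit 4) (nat_lit 538) (nat_lit 343) (nat_lit 319)) (XT.lf (nat_lit 0) (nat_lit 21657708917) (nat_lit 76) (nat_lit 14296419602) (nat_lit 76) (nat_lit 11742170382) (nat_lit 11) (nat_lit 4) (nat_lit 12) (nat_lit 5) (nat_lit 12) (nat_lit 4) (nat_lit 539) (nat_lit 343) (nat_lit 318))))))))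
noncomputable def xc7 : XT := (XT.nd (nat_lit 61464) (nat_lit 0) (nat_lit 0) (XT.nd (nat_lit 60294) (nat_lit 0) (nat_lit 836) (XT.nd (nat_lit 546) (nat_lit 152) (nat_lit 0) (XT.nd (nat_lit 234) (nat_lit 76) (nat_lit 0) (XT.nd (nat_lit 78) (nat_lit 152) (nat_lit 0) (XT.lf (nat_lit 0) (nat_lit 35282283444) (nat_lit 76) (nat_lit 8135565288) (nat_lit 76) (nat_lit 5513298963) (nat_lit 11) (nat_lit 4) (nat_lit 12) (nat_lit 5) (nat_lit 12) (nat_lit 4) (nat_lit 540) (nat_lit 343) (nat_lit 317)) (XT.nd (nat_lit 78) (nat_lit 76) (nat_lit 0) (XT.lf (nat_lit 0) (nat_lit 791667468) (nat_lit 152) (nat_lit 1081217387) (nat_lit 76) (nat_lit 48332692883) (nat_lit 10) (nat_lit 5) (nat_lit 12) (nat_lit 5) (nat_lit 11) (nat_lit 4) (nat_lit 541) (nat_lit 343) (nat_lit 316)) (XT.lf (nat_lit 0) (nat_lit 7243349343) (nat_lit 152) (nat_lit 39700101755) (nat_lit 0) (nat_lit 4571101776) (nat_lit 9) (nat_lit 5) (nat_lit 11) (nat_lit 4) (nat_lit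 9) (nat_lit 4) (nat_lit 542) (nat_lit 343) (nat_lit 315)))) (XT.nd (nat_lit 156) (nat_lit 76) (nat_lit 0) (XT.nd (nat_lit 78) (nat_lit 0) (nat_lit 0) (XT.lf (nat_lit 0) (nat_lit 13827777470) (nat_lit 152) (nat_lit 27941747455) (nat_lit 0) (nat_lit 11095097587) (nat_lit 9) (nat_lit 5) (nat_lit 11) (nat_lit 4) (nat_lit 9) (nat_lit 4) (nat_lit 543) (nat_lit 343) (nat_lit 314)) (XT.lf (nat_lit 0) (nat_lit 20521996796) (nat_lit 152) (nat_lit 16005186019) (nat_lit 0) (nat_lit 17730644760) (nat_lit 9) (nat_lit 5) (nat_lit 11) (nat_lit 4) (nat_lit 9) (nat_lit 4) (nat_lit 544) (nat_lit 343) (nat_lit 313))) (XT.nd (nat_lit 78) (nat_lit 76) (nat_lit 0) (XT.lf (nat_lit 0) (nat_lit 27331856639) (nat_lit 152) (nat_lit 3879987443) (nat_lit 0) (nat_lit 24483541348) (nat_lit 9) (nat_lit 5) (nat_lit 11) (nat_lit 4) (nat_lit 9) (nat_lit 4) (nat_lit 545) (nat_lit 343) (nat_lit 312)) (XT.lf (nat_lit 0) (nat_lit 8612504082) (nat_lit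 76) (nat_lit 25733591937) (nat_lit 76) (nat_lit 22829972515) (nat_lit 8) (nat_lit 4) (nat_lit 9) (nat_lit 5) (nat_lit 9) (nat_lit 4) (nat_lit 546) (nat_lit 343) (nat_lit 311))))) (XT.nd (nat_lit 312) (nat_lit 76) (nat_lit 0) (XT.nd (nat_lit 156) (nat_lit 76) (nat_lit 0) (XT.nd (nat_lit 78) (nat_lit 0) (nat_lit 0) (XT.lf (nat_lit 0) (nat_lit 21396395289) (nat_lit 76) (nat_lit 20131685521) (nat_lit 76) (nat_lit 17174372769) (nat_lit 8) (nat_lit 4) (nat_lit 9) (nat_lit 5) (nat_lit 9) (nat_lit 4) (nat_lit 547) (nat_lit 343) (nat_lit 310)) (XT.lf (nat_lit 0) (nat_lit 34405637211) (nat_lit 76) (nat_lit 14440410232) (nat_lit 76) (nat_lit 11430968032) (nat_lit 8) (nat_lit 4) (nat_lit 9) (nat_lit 5) (nat_lit 9) (nat_lit 4) (nat_lit 548) (nat_lit 343) (nat_lit 309))) (XT.nd (nat_lit 78) (nat_lit 76) (nat_lit 0) (XT.lf (nat_lit 0) (nat_lit 47651597145) (nat_lit 76) (nat_lit 8654793109) (nat_lit 76) (nat_lit 5594739796) (nat_lit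 8) (nat_lit 4) (nat_lit 9) (nat_lit 5) (nat_lit 9) (nat_lit 4) (nat_lit 549) (nat_lit 343) (nat_lit 308)) (XT.lf (nat_lit 0) (nat_lit 332788414) (nat_lit 152) (nat_lit 2433629835) (nat_lit 76) (nat_lit 60809700306) (nat_lit 7) (nat_lit 5) (nat_lit 9) (nat_lit 5) (nat_lit 8) (nat_lit 4) (nat_lit 550) (nat_lit 343) (nat_lit 307)))) (XT.nd (nat_lit 156) (nat_lit 0) (nat_lit 0) (XT.nd (nat_lit 78) (nat_lit 0) (nat_lit 0) (XT.lf (nat_lit 0) (nat_lit 6378204151) (nat_lit 152) (nat_lit 55606659873) (nat_lit 0) (nat_lit 3313256436) (nat_lit 6) (nat_lit 5) (nat_lit 8) (nat_lit 4) (nat_lit 6) (nat_lit 4) (nat_lit 551) (nat_lit 343) (nat_lit 306)) (XT.lf (nat_lit 0) (nat_lit 12583791528) (nat_lit 152) (nat_lit 45014750958) (nat_lit 0) (nat_lit 9473876493) (nat_lit 6) (nat_lit 5) (nat_lit 8) (nat_lit 4) (nat_lit 6) (nat_lit 4) (nat_lit 552) (nat_lit 343) (nat_lit 305))) (XT.nd (nat_lit 78) (nat_lit 0) (nat_lit 0) (XT.lf (nat_lit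 0) (nat_lit 18904285054) (nat_lit 152) (nat_lit 34247087627) (nat_lit 0) (nat_lit 15750712428) (nat_lit 6) (nat_lit 5) (nat_lit 8) (nat_lit 4) (nat_lit 6) (nat_lit 4) (nat_lit 553) (nat_lit 343) (nat_lit 304)) (XT.lf (nat_lit 0) (nat_lit 25345207491) (nat_lit 152) (nat_lit 23294261240) (nat_lit 0) (nat_lit 22149248854) (nat_lit 6) (nat_lit 5) (nat_lit 8) (nat_lit 4) (nat_lit 6) (nat_lit 4) (nat_lit 554) (nat_lit 343) (nat_lit 303)))))) (XT.nd (nat_lit 546) (nat_lit 456) (nat_lit 0) (XT.nd (nat_lit 234) (nat_lit 228) (nat_lit 0) (XT.nd (nat_lit 78) (nat_lit 76) (nat_lit 0) (XT.lf (nat_lit 0) (nat_lit 1807774960) (nat_lit 152) (nat_lit 9108351924) (nat_lit 0) (nat_lit 1807774960) (nat_lit 27) (nat_lit 5) (nat_lit 29) (nat_lit 4) (nat_lit 27) (nat_lit 4) (nat_lit 512) (nat_lit 344) (nat_lit 344)) (XT.nd (nat_lit 78) (nat_lit 76) (nat_lit 0) (XT.lf (nat_lit 0) (nat_lit 11124488860) (nat_lit 152) (nat_lit 3904881164)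 (nat_lit 0) (nat_lit 10954440633) (nat_lit 27) (nat_lit 5) (nat_lit 29) (nat_lit 4) (nat_lit 27) (nat_lit 4) (nat_lit 513) (nat_lit 344) (nat_lit 343)) (XT.lf (nat_lit 0) (nat_lit 10759149081) (nat_lit 76) (nat_lit 8056592027) (nat_lit 76) (nat_lit 7721448433) (nat_lit 26) (nat_lit 4) (nat_lit 27) (nat_lit 5) (nat_lit 27) (nat_lit 4) (nat_lit 514) (nat_lit 344) (nat_lit 342)))) (XT.nd (nat_lit 156) (nat_lit 76) (nat_lit 0) (XT.nd (nat_lit 78) (nat_lit 152) (nat_lit 0) (XT.lf (nat_lit 0) (nat_lit 25658864273) (nat_lit 76) (nat_lit 973450663) (nat_lit 76) (nat_lit 478020306) (nat_lit 26) (nat_lit 4) (nat_lit 27) (nat_lit 5) (nat_lit 27) (nat_lit 4) (nat_lit 515) (nat_lit 344) (nat_lit 341)) (XT.lf (nat_lit 0) (nat_lit 6892857431) (nat_lit 152) (nat_lit 14543643448) (nat_lit 0) (nat_lit 6260771437) (nat_lit 24) (nat_lit 5) (nat_lit 26) (nat_lit 4) (nat_lit 24) (nat_lit 4) (nat_lit 516) (nat_lit 344) (nat_lit 340)))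 (XT.nd (nat_lit 78) (nat_lit 76) (nat_lit 0) (XT.lf (nat_lit 0) (nat_lit 14357849609) (nat_lit 152) (nat_lit 368272235) (nat_lit 0) (nat_lit 13579078519) (nat_lit 24) (nat_lit 5) (nat_lit 26) (nat_lit 4) (nat_lit 24) (nat_lit 4) (nat_lit 517) (nat_lit 344) (nat_lit 339)) (XT.lf (nat_lit 0) (nat_lit 14239333658) (nat_lit 76) (nat_lit 7806622056) (nat_lit 76) (nat_lit 6885438253) (nat_lit 23) (nat_lit 4) (nat_lit 24) (nat_lit 5) (nat_lit 24) (nat_lit 4) (nat_lit 518) (nat_lit 344) (nat_lit 338))))) (XT.nd (nat_lit 312) (nat_lit 228) (nat_lit 0) (XT.nd (nat_lit 156) (nat_lit 76) (nat_lit 0) (XT.nd (nat_lit 78) (nat_lit 76) (nat_lit 0) (XT.lf (nat_lit 0) (nat_lit 246877328) (nat_lit 152) (nat_lit 558287595) (nat_lit 76) (nat_lit 28775115256) (nat_lit 22) (nat_lit 5) (nat_lit 24) (nat_lit 5) (nat_lit 23) (nat_lit 4) (nat_lit 519) (nat_lit 344) (nat_lit 337)) (XT.lf (nat_lit 0) (nat_lit 7517489733) (nat_lit 152) (nat_lit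 16368647869) (nat_lit 0) (nat_lit 6358571078) (nat_lit 21) (nat_lit 5) (nat_lit 23) (nat_lit 4) (nat_lit 21) (nat_lit 4) (nat_lit 520) (nat_lit 344) (nat_lit 336))) (XT.nd (nat_lit 78) (nat_lit 76) (nat_lit 0) (XT.lf (nat_lit 0) (nat_lit 14886417258) (nat_lit 152) (nat_lit 2445282471) (nat_lit 0) (nat_lit 13600966752) (nat_lit 21) (nat_lit 5) (nat_lit 23) (nat_lit 4) (nat_lit 21) (nat_lit 4) (nat_lit 521) (nat_lit 344) (nat_lit 335)) (XT.lf (nat_lit 0) (nat_lit 11871876241) (nat_lit 76) (nat_lit 10589074929) (nat_lit 76) (nat_lit 9180777966) (nat_lit 20) (nat_lit 4) (nat_lit 21) (nat_lit 5) (nat_lit 21) (nat_lit 4) (nat_lit 522) (nat_lit 344) (nat_lit 334)))) (XT.nd (nat_lit 156) (nat_lit 76) (nat_lit 0) (XT.nd (nat_lit 78) (nat_lit 152) (nat_lit 0) (XT.lf (nat_lit 0) (nat_lit 26415610490) (nat_lit 76) (nat_lit 3743563586) (nat_lit 76) (nat_lit 2215998218) (nat_lit 20) (nat_lit 4) (nat_lit 21) (nat_lit 5) (nat_lit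 21) (nat_lit 4) (nat_lit 523) (nat_lit 344) (nat_lit 333)) (XT.lf (nat_lit 0) (nat_lit 4845231986) (nat_lit 152) (nat_lit 25034694742) (nat_lit 0) (nat_lit 3249736901) (nat_lit 18) (nat_lit 5) (nat_lit 20) (nat_lit 4) (nat_lit 18) (nat_lit 4) (nat_lit 524) (nat_lit 344) (nat_lit 332))) (XT.nd (nat_lit 78) (nat_lit 76) (nat_lit 0) (XT.lf (nat_lit 0) (nat_lit 12045994769) (nat_lit 152) (nat_lit 11519619491) (nat_lit 0) (nat_lit 10341352198) (nat_lit 18) (nat_lit 5) (nat_lit 20) (nat_lit 4) (nat_lit 18) (nat_lit 4) (nat_lit 525) (nat_lit 344) (nat_lit 331)) (XT.lf (nat_lit 0) (nat_lit 2202790988) (nat_lit 76) (nat_lit 17159216768) (nat_lit 76) (nat_lit 15348605763) (nat_lit 17) (nat_lit 4) (nat_lit 18) (nat_lit 5) (nat_lit 18) (nat_lit 4) (nat_lit 526) (nat_lit 344) (nat_lit 330))))))) (XT.nd (nat_lit 1170) (nat_lit 380) (nat_lit 0) (XT.nd (nat_lit 546) (nat_lit 228) (nat_lit 0) (XT.nd (nat_lit 234) (nat_lit 76) (nat_lit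 0) (XT.nd (nat_lit 78) (nat_lit 152) (nat_lit 0) (XT.lf (nat_lit 0) (nat_lit 16334277013) (nat_lit 76) (nat_lit 10558859404) (nat_lit 76) (nat_lit 8645366425) (nat_lit 17) (nat_lit 4) (nat_lit 18) (nat_lit 5) (nat_lit 18) (nat_lit 4) (nat_lit 527) (nat_lit 344) (nat_lit 329)) (XT.nd (nat_lit 78) (nat_lit 152) (nat_lit 0) (XT.lf (nat_lit 0) (nat_lit 30657923468) (nat_lit 76) (nat_lit 3875100435) (nat_lit 76) (nat_lit 1861722044) (nat_lit 17) (nat_lit 4) (nat_lit 18) (nat_lit 5) (nat_lit 18) (nat_lit 4) (nat_lit 528) (nat_lit 344) (nat_lit 328)) (XT.lf (nat_lit 0) (nat_lit 5016660897) (nat_lit 152) (nat_lit 29291028770) (nat_lit 0) (nat_lit 2967773015) (nat_lit 15) (nat_lit 5) (nat_lit 17) (nat_lit 4) (nat_lit 15) (nat_lit 4) (nat_lit 529) (nat_lit 344) (nat_lit 327)))) (XT.nd (nat_lit 156) (nat_lit 76) (nat_lit 0) (XT.nd (nat_lit 78) (nat_lit 0) (nat_lit 0) (XT.lf (nat_lit 0) (nat_lit 12046069715) (nat_lit 152)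 (nat_lit 16230744588) (nat_lit 0) (nat_lit 9905772532) (nat_lit 15) (nat_lit 5) (nat_lit 17) (nat_lit 4) (nat_lit 15) (nat_lit 4) (nat_lit 530) (nat_lit 344) (nat_lit 326)) (XT.lf (nat_lit 0) (nat_lit 19174925455) (nat_lit 152) (nat_lit 2999462586) (nat_lit 0) (nat_lit 16945881377) (nat_lit 15) (nat_lit 5) (nat_lit 17) (nat_lit 4) (nat_lit 15) (nat_lit 4) (nat_lit 531) (nat_lit 344) (nat_lit 325))) (XT.nd (nat_lit 78) (nat_lit 0) (nat_lit 0) (XT.lf (nat_lit 0) (nat_lit 10621645102) (nat_lit 76) (nat_lit 15889913861) (nat_lit 76) (nat_lit 13574707749) (nat_lit 14) (nat_lit 4) (nat_lit 15) (nat_lit 5) (nat_lit 15) (nat_lit 4) (nat_lit 532) (nat_lit 344) (nat_lit 324)) (XT.lf (nat_lit 0) (nat_lit 24500594496) (nat_lit 76) (nat_lit 9490906633) (nat_lit 76) (nat_lit 7092048061) (nat_lit 14) (nat_lit 4) (nat_lit 15) (nat_lit 5) (nat_lit 15) (nat_lit 4) (nat_lit 533) (nat_lit 344) (nat_lit 323))))) (XT.nd (nat_lit 312)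 (nat_lit 76) (nat_lit 0) (XT.nd (nat_lit 156) (nat_lit 0) (nat_lit 0) (XT.nd (nat_lit 78) (nat_lit 152) (nat_lit 0) (XT.lf (nat_lit 0) (nat_lit 38589817644) (nat_lit 76) (nat_lit 3002063681) (nat_lit 76) (nat_lit 521989128) (nat_lit 14) (nat_lit 4) (nat_lit 15) (nat_lit 5) (nat_lit 15) (nat_lit 4) (nat_lit 534) (nat_lit 344) (nat_lit 322)) (XT.lf (nat_lit 0) (nat_lit 6152080089) (nat_lit 152) (nat_lit 33352671618) (nat_lit 0) (nat_lit 3667686867) (nat_lit 12) (nat_lit 5) (nat_lit 14) (nat_lit 4) (nat_lit 12) (nat_lit 4) (nat_lit 535) (nat_lit 344) (nat_lit 321))) (XT.nd (nat_lit 78) (nat_lit 0) (nat_lit 0) (XT.lf (nat_lit 0) (nat_lit 12979699629) (nat_lit 152) (nat_lit 20863013570) (nat_lit 0) (nat_lit 10420982280) (nat_lit 12) (nat_lit 5) (nat_lit 14) (nat_lit 4) (nat_lit 12) (nat_lit 4) (nat_lit 536) (nat_lit 344) (nat_lit 320)) (XT.lf (nat_lit 0) (nat_lit 19913271975) (nat_lit 152) (nat_lit 8194990448) (nat_lit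 0) (nat_lit 17282395279) (nat_lit 12) (nat_lit 5) (nat_lit 14) (nat_lit 4) (nat_lit 12) (nat_lit 4) (nat_lit 537) (nat_lit 344) (nat_lit 319)))) (XT.nd (nat_lit 156) (nat_lit 0) (nat_lit 0) (XT.nd (nat_lit 78) (nat_lit 0) (nat_lit 0) (XT.lf (nat_lit 0) (nat_lit 4755259125) (nat_lit 76) (nat_lit 22249306923) (nat_lit 76) (nat_lit 19548372609) (nat_lit 11) (nat_lit 4) (nat_lit 12) (nat_lit 5) (nat_lit 12) (nat_lit 4) (nat_lit 538) (nat_lit 344) (nat_lit 318)) (XT.lf (nat_lit 0) (nat_lit 18073267673) (nat_lit 76) (nat_lit 16223070436) (nat_lit 76) (nat_lit 13454119017) (nat_lit 11) (nat_lit 4) (nat_lit 12) (nat_lit 5) (nat_lit 12) (nat_lit 4) (nat_lit 539) (nat_lit 344) (nat_lit 317))) (XT.nd (nat_lit 78) (nat_lit 0) (nat_lit 0) (XT.lf (nat_lit 0) (nat_lit 31607575911) (nat_lit 76) (nat_lit 10107040654) (nat_lit 76) (nat_lit 7272053211) (nat_lit 11) (nat_lit 4) (nat_lit 12) (nat_lit 5) (nat_lit 12) (nat_lit 4) (nat_lit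 540) (nat_lit 344) (nat_lit 316)) (XT.lf (nat_lit 0) (nat_lit 45370009935) (nat_lit 76) (nat_lit 3895873474) (nat_lit 76) (nat_lit 996773386) (nat_lit 11) (nat_lit 4) (nat_lit 12) (nat_lit 5) (nat_lit 12) (nat_lit 4) (nat_lit 541) (nat_lit 344) (nat_lit 315)))))) (XT.nd (nat_lit 624) (nat_lit 152) (nat_lit 0) (XT.nd (nat_lit 312) (nat_lit 76) (nat_lit 0) (XT.nd (nat_lit 156) (nat_lit 0) (nat_lit 0) (XT.nd (nat_lit 78) (nat_lit 0) (nat_lit 0) (XT.lf (nat_lit 0) (nat_lit 5372656837) (nat_lit 152) (nat_lit 43704749922) (nat_lit 0) (nat_lit 2497564240) (nat_lit 9) (nat_lit 5) (nat_lit 11) (nat_lit 4) (nat_lit 9) (nat_lit 4) (nat_lit 542) (nat_lit 344) (nat_lit 314)) (XT.lf (nat_lit 0) (nat_lit 11913862480) (nat_lit 152) (nat_lit 32032377638) (nat_lit 0) (nat_lit 8980097730) (nat_lit 9) (nat_lit 5) (nat_lit 11) (nat_lit 4) (nat_lit 9) (nat_lit 4) (nat_lit 543) (nat_lit 344) (nat_lit 313))) (XT.nd (nat_lit 78) (nat_lit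 0) (nat_lit 0) (XT.lf (nat_lit 0) (nat_lit 18566118228) (nat_lit 152) (nat_lit 20179293888) (nat_lit 0) (nat_lit 15575390224) (nat_lit 9) (nat_lit 5) (nat_lit 11) (nat_lit 4) (nat_lit 9) (nat_lit 4) (nat_lit 544) (nat_lit 344) (nat_lit 312)) (XT.lf (nat_lit 0) (nat_lit 25335236732) (nat_lit 152) (nat_lit 8135141609) (nat_lit 0) (nat_lit 22289204598) (nat_lit 9) (nat_lit 5) (nat_lit 11) (nat_lit 4) (nat_lit 9) (nat_lit 4) (nat_lit 545) (nat_lit 344) (nat_lit 311)))) (XT.nd (nat_lit 156) (nat_lit 0) (nat_lit 0) (XT.nd (nat_lit 78) (nat_lit 0) (nat_lit 0) (XT.lf (nat_lit 0) (nat_lit 4192412279) (nat_lit 76) (nat_lit 28075020510) (nat_lit 76) (nat_lit 24975295044) (nat_lit 8) (nat_lit 4) (nat_lit 9) (nat_lit 5) (nat_lit 9) (nat_lit 4) (nat_lit 546) (nat_lit 344) (nat_lit 310)) (XT.lf (nat_lit 0) (nat_lit 16898389190) (nat_lit 76) (nat_lit 22511876813) (nat_lit 76) (nat_lit 19360021900) (nat_lit 8) (nat_lit 4) (nat_lit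 9) (nat_lit 5) (nat_lit 9) (nat_lit 4) (nat_lit 547) (nat_lit 344) (nat_lit 309))) (XT.nd (nat_lit 78) (nat_lit 0) (nat_lit 0) (XT.lf (nat_lit 0) (nat_lit 29831986163) (nat_lit 76) (nat_lit 16858235231) (nat_lit 76) (nat_lit 13655769204) (nat_lit 8) (nat_lit 4) (nat_lit 9) (nat_lit 5) (nat_lit 9) (nat_lit 4) (nat_lit 548) (nat_lit 344) (nat_lit 308)) (XT.lf (nat_lit 0) (nat_lit 43004504400) (nat_lit 76) (nat_lit 11109155688) (nat_lit 76) (nat_lit 7857552657) (nat_lit 8) (nat_lit 4) (nat_lit 9) (nat_lit 5) (nat_lit 9) (nat_lit 4) (nat_lit 549) (nat_lit 344) (nat_lit 307))))) (XT.nd (nat_lit 312) (nat_lit 0) (nat_lit 0) (XT.nd (nat_lit 156) (nat_lit 0) (nat_lit 0) (XT.nd (nat_lit 78) (nat_lit 152) (nat_lit 0) (XT.lf (nat_lit 0) (nat_lit 56427453868) (nat_lit 76) (nat_lit 5259614717) (nat_lit 76) (nat_lit 1960305858) (nat_lit 8) (nat_lit 4) (nat_lit 9) (nat_lit 5) (nat_lit 9) (nat_lit 4) (nat_lit 550) (nat_lit 344)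 (nat_lit 306)) (XT.lf (nat_lit 0) (nat_lit 4015850060) (nat_lit 152) (nat_lit 60589647125) (nat_lit 0) (nat_lit 767670256) (nat_lit 6) (nat_lit 5) (nat_lit 8) (nat_lit 4) (nat_lit 6) (nat_lit 4) (nat_lit 551) (nat_lit 344) (nat_lit 305))) (XT.nd (nat_lit 78) (nat_lit 0) (nat_lit 0) (XT.lf (nat_lit 0) (nat_lit 10186333264) (nat_lit 152) (nat_lit 50067690353) (nat_lit 0) (nat_lit 6894495868) (nat_lit 6) (nat_lit 5) (nat_lit 8) (nat_lit 4) (nat_lit 6) (nat_lit 4) (nat_lit 552) (nat_lit 344) (nat_lit 304)) (XT.lf (nat_lit 0) (nat_lit 16472745068) (nat_lit 152) (nat_lit 39367941724) (nat_lit 0) (nat_lit 13138521661) (nat_lit 6) (nat_lit 5) (nat_lit 8) (nat_lit 4) (nat_lit 6) (nat_lit 4) (nat_lit 553) (nat_lit 344) (nat_lit 303)))) (XT.nd (nat_lit 59124) (nat_lit 0) (nat_lit 1596) (XT.nd (nat_lit 59046) (nat_lit 0) (nat_lit 1748) (XT.lf (nat_lit 0) (nat_lit 22880578455) (nat_lit 152) (nat_lit 28481051942) (nat_lit 0)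 (nat_lit 19505203581) (nat_lit 6) (nat_lit 5) (nat_lit 8) (nat_lit 4) (nat_lit 6) (nat_lit 4) (nat_lit 554) (nat_lit 344) (nat_lit 302)) (XT.lf (nat_lit 0) (nat_lit 1377254021) (nat_lit 76) (nat_lit 5416467425) (nat_lit 76) (nat_lit 5416467425) (nat_lit 29) (nat_lit 4) (nat_lit 30) (nat_lit 5) (nat_lit 30) (nat_lit 4) (nat_lit 510) (nat_lit 345) (nat_lit 345))) (XT.nd (nat_lit 78) (nat_lit 152) (nat_lit 0) (XT.lf (nat_lit 0) (nat_lit 17533709017) (nat_lit 76) (nat_lit 3787084885) (nat_lit 76) (nat_lit 3606680721) (nat_lit 29) (nat_lit 4) (nat_lit 30) (nat_lit 5) (nat_lit 30) (nat_lit 4) (nat_lit 511) (nat_lit 345) (nat_lit 344)) (XT.lf (nat_lit 0) (nat_lit 3716428791) (nat_lit 152) (nat_lit 18362373690) (nat_lit 0) (nat_lit 3371230889) (nat_lit 27) (nat_lit 5) (nat_lit 29) (nat_lit 4) (nat_lit 27) (nat_lit 4) (nat_lit 512) (nat_lit 345) (nat_lit 343))))))))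
noncomputable def xc8 : XT := (XT.nd (nat_lit 2340) (nat_lit 228) (nat_lit 0) (XT.nd (nat_lit 1170) (nat_lit 608) (nat_lit 0) (XT.nd (nat_lit 546) (nat_lit 456) (nat_lit 0) (XT.nd (nat_lit 234) (nat_lit 228) (nat_lit 0) (XT.nd (nat_lit 78) (nat_lit 76) (nat_lit 0) (XT.lf (nat_lit 0) (nat_lit 11153260152) (nat_lit 152) (nat_lit 4191978035) (nat_lit 0) (nat_lit 10642966884) (nat_lit 27) (nat_lit 5) (nat_lit 29) (nat_lit 4) (nat_lit 27) (nat_lit 4) (nat_lit 513) (nat_lit 345) (nat_lit 342)) (XT.nd (nat_lit 78) (nat_lit 0) (nat_lit 0) (XT.lf (nat_lit 0) (nat_lit 10326297928) (nat_lit 76) (nat_lit 8444046284) (nat_lit 76) (nat_lit 7773466252) (nat_lit 26) (nat_lit 4) (nat_lit 27) (nat_lit 5) (nat_lit 27) (nat_lit 4) (nat_lit 514) (nat_lit 345) (nat_lit 341)) (XT.lf (nat_lit 0) (nat_lit 25090051479) (nat_lit 76) (nat_lit 1427591308) (nat_lit 76) (nat_lit 601393059) (nat_lit 26) (nat_lit 4) (nat_lit 27) (nat_lit 5) (nat_lit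 27) (nat_lit 4) (nat_lit 515) (nat_lit 345) (nat_lit 340)))) (XT.nd (nat_lit 156) (nat_lit 76) (nat_lit 0) (XT.nd (nat_lit 78) (nat_lit 0) (nat_lit 0) (XT.lf (nat_lit 0) (nat_lit 6691934598) (nat_lit 152) (nat_lit 15273358686) (nat_lit 0) (nat_lit 5743115281) (nat_lit 24) (nat_lit 5) (nat_lit 26) (nat_lit 4) (nat_lit 24) (nat_lit 4) (nat_lit 516) (nat_lit 345) (nat_lit 339)) (XT.lf (nat_lit 0) (nat_lit 14089087847) (nat_lit 152) (nat_lit 1231429415) (nat_lit 0) (nat_lit 12997855817) (nat_lit 24) (nat_lit 5) (nat_lit 26) (nat_lit 4) (nat_lit 24) (nat_lit 4) (nat_lit 517) (nat_lit 345) (nat_lit 338))) (XT.nd (nat_lit 78) (nat_lit 0) (nat_lit 0) (XT.lf (nat_lit 0) (nat_lit 13226864269) (nat_lit 76) (nat_lit 8474734172) (nat_lit 76) (nat_lit 7245237371) (nat_lit 23) (nat_lit 4) (nat_lit 24) (nat_lit 5) (nat_lit 24) (nat_lit 4) (nat_lit 518) (nat_lit 345) (nat_lit 337)) (XT.lf (nat_lit 0) (nat_lit 27883731039) (nat_lit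 76) (nat_lit 1538877300) (nat_lit 76) (nat_lit 175142858) (nat_lit 23) (nat_lit 4) (nat_lit 24) (nat_lit 5) (nat_lit 24) (nat_lit 4) (nat_lit 519) (nat_lit 345) (nat_lit 336))))) (XT.nd (nat_lit 312) (nat_lit 228) (nat_lit 0) (XT.nd (nat_lit 156) (nat_lit 76) (nat_lit 0) (XT.nd (nat_lit 78) (nat_lit 0) (nat_lit 0) (XT.lf (nat_lit 0) (nat_lit 7014643341) (nat_lit 152) (nat_lit 17686017869) (nat_lit 0) (nat_lit 5564097468) (nat_lit 21) (nat_lit 5) (nat_lit 23) (nat_lit 4) (nat_lit 21) (nat_lit 4) (nat_lit 520) (nat_lit 345) (nat_lit 335)) (XT.lf (nat_lit 0) (nat_lit 14319737775) (nat_lit 152) (nat_lit 3888549374) (nat_lit 0) (nat_lit 12746345445) (nat_lit 21) (nat_lit 5) (nat_lit 23) (nat_lit 4) (nat_lit 21) (nat_lit 4) (nat_lit 521) (nat_lit 345) (nat_lit 334))) (XT.nd (nat_lit 78) (nat_lit 0) (nat_lit 0) (XT.lf (nat_lit 0) (nat_lit 10275222877) (nat_lit 76) (nat_lit 11541726927) (nat_lit 76) (nat_lit 9849066192)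 (nat_lit 20) (nat_lit 4) (nat_lit 21) (nat_lit 5) (nat_lit 21) (nat_lit 4) (nat_lit 522) (nat_lit 345) (nat_lit 333)) (XT.lf (nat_lit 0) (nat_lit 24697925456) (nat_lit 76) (nat_lit 4755915013) (nat_lit 76) (nat_lit 2947459710) (nat_lit 20) (nat_lit 4) (nat_lit 21) (nat_lit 5) (nat_lit 21) (nat_lit 4) (nat_lit 523) (nat_lit 345) (nat_lit 332)))) (XT.nd (nat_lit 156) (nat_lit 76) (nat_lit 0) (XT.nd (nat_lit 78) (nat_lit 0) (nat_lit 0) (XT.lf (nat_lit 0) (nat_lit 4039172411) (nat_lit 152) (nat_lit 26945254107) (nat_lit 0) (nat_lit 2174243076) (nat_lit 18) (nat_lit 5) (nat_lit 20) (nat_lit 4) (nat_lit 18) (nat_lit 4) (nat_lit 524) (nat_lit 345) (nat_lit 331)) (XT.lf (nat_lit 0) (nat_lit 11179862655) (nat_lit 152) (nat_lit 13548948026) (nat_lit 0) (nat_lit 9208964887) (nat_lit 18) (nat_lit 5) (nat_lit 20) (nat_lit 4) (nat_lit 18) (nat_lit 4) (nat_lit 525) (nat_lit 345) (nat_lit 330))) (XT.nd (nat_lit 78) (nat_lit 0)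 (nat_lit 0) (XT.lf (nat_lit 0) (nat_lit 15470070) (nat_lit 76) (nat_lit 18401056851) (nat_lit 76) (nat_lit 16327277109) (nat_lit 17) (nat_lit 4) (nat_lit 18) (nat_lit 5) (nat_lit 18) (nat_lit 4) (nat_lit 526) (nat_lit 345) (nat_lit 329)) (XT.lf (nat_lit 0) (nat_lit 14032776711) (nat_lit 76) (nat_lit 11857157180) (nat_lit 76) (nat_lit 9683492026) (nat_lit 17) (nat_lit 4) (nat_lit 18) (nat_lit 5) (nat_lit 18) (nat_lit 4) (nat_lit 527) (nat_lit 345) (nat_lit 328)))))) (XT.nd (nat_lit 546) (nat_lit 380) (nat_lit 0) (XT.nd (nat_lit 234) (nat_lit 76) (nat_lit 0) (XT.nd (nat_lit 78) (nat_lit 152) (nat_lit 0) (XT.lf (nat_lit 0) (nat_lit 28245569394) (nat_lit 76) (nat_lit 5228211505) (nat_lit 76) (nat_lit 2957570223) (nat_lit 17) (nat_lit 4) (nat_lit 18) (nat_lit 5) (nat_lit 18) (nat_lit 4) (nat_lit 528) (nat_lit 345) (nat_lit 327)) (XT.nd (nat_lit 78) (nat_lit 0) (nat_lit 0) (XT.lf (nat_lit 0) (nat_lit 3848401525) (nat_lit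 152) (nat_lit 31914310916) (nat_lit 0) (nat_lit 1552486125) (nat_lit 15) (nat_lit 5) (nat_lit 17) (nat_lit 4) (nat_lit 15) (nat_lit 4) (nat_lit 529) (nat_lit 345) (nat_lit 326)) (XT.lf (nat_lit 0) (nat_lit 10822916086) (nat_lit 152) (nat_lit 18962800480) (nat_lit 0) (nat_lit 8438253791) (nat_lit 15) (nat_lit 5) (nat_lit 17) (nat_lit 4) (nat_lit 15) (nat_lit 4) (nat_lit 530) (nat_lit 345) (nat_lit 325)))) (XT.nd (nat_lit 156) (nat_lit 0) (nat_lit 0) (XT.nd (nat_lit 78) (nat_lit 76) (nat_lit 0) (XT.lf (nat_lit 0) (nat_lit 17898476430) (nat_lit 152) (nat_lit 5837124058) (nat_lit 0) (nat_lit 15427652101) (nat_lit 15) (nat_lit 5) (nat_lit 17) (nat_lit 4) (nat_lit 15) (nat_lit 4) (nat_lit 531) (nat_lit 345) (nat_lit 324)) (XT.lf (nat_lit 0) (nat_lit 7622938372) (nat_lit 76) (nat_lit 17531603060) (nat_lit 76) (nat_lit 14977126272) (nat_lit 14) (nat_lit 4) (nat_lit 15) (nat_lit 5) (nat_lit 15) (nat_lit 4) (nat_lit 532)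 (nat_lit 345) (nat_lit 323))) (XT.nd (nat_lit 78) (nat_lit 0) (nat_lit 0) (XT.lf (nat_lit 0) (nat_lit 21400363270) (nat_lit 76) (nat_lit 11182908390) (nat_lit 76) (nat_lit 8547215621) (nat_lit 14) (nat_lit 4) (nat_lit 15) (nat_lit 5) (nat_lit 15) (nat_lit 4) (nat_lit 533) (nat_lit 345) (nat_lit 322)) (XT.lf (nat_lit 0) (nat_lit 35391018946) (nat_lit 76) (nat_lit 4742912582) (nat_lit 76) (nat_lit 2028369346) (nat_lit 14) (nat_lit 4) (nat_lit 15) (nat_lit 5) (nat_lit 15) (nat_lit 4) (nat_lit 534) (nat_lit 345) (nat_lit 321))))) (XT.nd (nat_lit 312) (nat_lit 152) (nat_lit 0) (XT.nd (nat_lit 156) (nat_lit 76) (nat_lit 0) (XT.nd (nat_lit 78) (nat_lit 0) (nat_lit 0) (XT.lf (nat_lit 0) (nat_lit 4576041388) (nat_lit 152) (nat_lit 36781995905) (nat_lit 0) (nat_lit 1866238391) (nat_lit 12) (nat_lit 5) (nat_lit 14) (nat_lit 4) (nat_lit 12) (nat_lit 4) (nat_lit 535) (nat_lit 345) (nat_lit 320)) (XT.lf (nat_lit 0) (nat_lit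 11354953647) (nat_lit 152) (nat_lit 24389049516) (nat_lit 0) (nat_lit 8572991303) (nat_lit 12) (nat_lit 5) (nat_lit 14) (nat_lit 4) (nat_lit 12) (nat_lit 4) (nat_lit 536) (nat_lit 345) (nat_lit 319))) (XT.nd (nat_lit 78) (nat_lit 76) (nat_lit 0) (XT.lf (nat_lit 0) (nat_lit 18241237371) (nat_lit 152) (nat_lit 11814921210) (nat_lit 0) (nat_lit 15389217409) (nat_lit 12) (nat_lit 5) (nat_lit 14) (nat_lit 4) (nat_lit 12) (nat_lit 4) (nat_lit 537) (nat_lit 345) (nat_lit 318)) (XT.lf (nat_lit 0) (nat_lit 970310366) (nat_lit 76) (nat_lit 24279926551) (nat_lit 76) (nat_lit 21359889484) (nat_lit 11) (nat_lit 4) (nat_lit 12) (nat_lit 5) (nat_lit 12) (nat_lit 4) (nat_lit 538) (nat_lit 345) (nat_lit 317)))) (XT.nd (nat_lit 156) (nat_lit 152) (nat_lit 0) (XT.nd (nat_lit 78) (nat_lit 0) (nat_lit 0) (XT.lf (nat_lit 0) (nat_lit 14198052625) (nat_lit 76) (nat_lit 18298514596) (nat_lit 76) (nat_lit 15312441504) (nat_lit 11) (nat_lit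 4) (nat_lit 12) (nat_lit 5) (nat_lit 12) (nat_lit 4) (nat_lit 539) (nat_lit 345) (nat_lit 316)) (XT.lf (nat_lit 0) (nat_lit 27644723690) (nat_lit 76) (nat_lit 12226003777) (nat_lit 76) (nat_lit 9175818041) (nat_lit 11) (nat_lit 4) (nat_lit 12) (nat_lit 5) (nat_lit 12) (nat_lit 4) (nat_lit 540) (nat_lit 345) (nat_lit 315))) (XT.nd (nat_lit 78) (nat_lit 152) (nat_lit 0) (XT.lf (nat_lit 0) (nat_lit 41322073079) (nat_lit 76) (nat_lit 6057088018) (nat_lit 76) (nat_lit 2944656995) (nat_lit 11) (nat_lit 4) (nat_lit 12) (nat_lit 5) (nat_lit 12) (nat_lit 4) (nat_lit 541) (nat_lit 345) (nat_lit 314)) (XT.lf (nat_lit 0) (nat_lit 3358101912) (nat_lit 152) (nat_lit 48004081027) (nat_lit 0) (nat_lit 277652068) (nat_lit 9) (nat_lit 5) (nat_lit 11) (nat_lit 4) (nat_lit 9) (nat_lit 4) (nat_lit 542) (nat_lit 345) (nat_lit 313))))))) (XT.nd (nat_lit 59982) (nat_lit 0) (nat_lit 912) (XT.nd (nat_lit 546) (nat_lit 152) (nat_lit 0) (XT.nd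 (nat_lit 234) (nat_lit 76) (nat_lit 0) (XT.nd (nat_lit 78) (nat_lit 0) (nat_lit 0) (XT.lf (nat_lit 0) (nat_lit 9857343976) (nat_lit 152) (nat_lit 36415186429) (nat_lit 0) (nat_lit 6719930877) (nat_lit 9) (nat_lit 5) (nat_lit 11) (nat_lit 4) (nat_lit 9) (nat_lit 4) (nat_lit 543) (nat_lit 345) (nat_lit 312)) (XT.nd (nat_lit 78) (nat_lit 0) (nat_lit 0) (XT.lf (nat_lit 0) (nat_lit 16468858386) (nat_lit 152) (nat_lit 24643148976) (nat_lit 0) (nat_lit 13276141157) (nat_lit 9) (nat_lit 5) (nat_lit 11) (nat_lit 4) (nat_lit 9) (nat_lit 4) (nat_lit 544) (nat_lit 345) (nat_lit 311)) (XT.lf (nat_lit 0) (nat_lit 23198422194) (nat_lit 152) (nat_lit 12677682423) (nat_lit 0) (nat_lit 19952011634) (nat_lit 9) (nat_lit 5) (nat_lit 11) (nat_lit 4) (nat_lit 9) (nat_lit 4) (nat_lit 545) (nat_lit 345) (nat_lit 310)))) (XT.nd (nat_lit 156) (nat_lit 0) (nat_lit 0) (XT.nd (nat_lit 78) (nat_lit 76) (nat_lit 0) (XT.lf (nat_lit 0) (nat_lit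 30051915601) (nat_lit 152) (nat_lit 508331506) (nat_lit 0) (nat_lit 26753375593) (nat_lit 9) (nat_lit 5) (nat_lit 11) (nat_lit 4) (nat_lit 9) (nat_lit 4) (nat_lit 546) (nat_lit 345) (nat_lit 309)) (XT.lf (nat_lit 0) (nat_lit 12111883662) (nat_lit 76) (nat_lit 25039870269) (nat_lit 76) (nat_lit 21690719147) (nat_lit 8) (nat_lit 4) (nat_lit 9) (nat_lit 5) (nat_lit 9) (nat_lit 4) (nat_lit 547) (nat_lit 345) (nat_lit 308))) (XT.nd (nat_lit 78) (nat_lit 0) (nat_lit 0) (XT.lf (nat_lit 0) (nat_lit 24972038938) (nat_lit 76) (nat_lit 19422766267) (nat_lit 76) (nat_lit 16024478141) (nat_lit 8) (nat_lit 4) (nat_lit 9) (nat_lit 5) (nat_lit 9) (nat_lit 4) (nat_lit 548) (nat_lit 345) (nat_lit 307)) (XT.lf (nat_lit 0) (nat_lit 38073254556) (nat_lit 76) (nat_lit 13709160103) (nat_lit 76) (nat_lit 10263166148) (nat_lit 8) (nat_lit 4) (nat_lit 9) (nat_lit 5) (nat_lit 9) (nat_lit 4) (nat_lit 549) (nat_lit 345) (nat_lit 306))))) (XT.nd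 (nat_lit 312) (nat_lit 0) (nat_lit 0) (XT.nd (nat_lit 156) (nat_lit 76) (nat_lit 0) (XT.nd (nat_lit 78) (nat_lit 76) (nat_lit 0) (XT.lf (nat_lit 0) (nat_lit 51426978181) (nat_lit 76) (nat_lit 7894059305) (nat_lit 76) (nat_lit 4401749012) (nat_lit 8) (nat_lit 4) (nat_lit 9) (nat_lit 5) (nat_lit 9) (nat_lit 4) (nat_lit 550) (nat_lit 345) (nat_lit 305)) (XT.lf (nat_lit 0) (nat_lit 1534358157) (nat_lit 152) (nat_lit 422530552) (nat_lit 76) (nat_lit 63495025948) (nat_lit 7) (nat_lit 5) (nat_lit 9) (nat_lit 5) (nat_lit 8) (nat_lit 4) (nat_lit 551) (nat_lit 345) (nat_lit 304))) (XT.nd (nat_lit 78) (nat_lit 0) (nat_lit 0) (XT.lf (nat_lit 0) (nat_lit 7647765357) (nat_lit 152) (nat_lit 55410084775) (nat_lit 0) (nat_lit 4171129236) (nat_lit 6) (nat_lit 5) (nat_lit 8) (nat_lit 4) (nat_lit 6) (nat_lit 4) (nat_lit 552) (nat_lit 345) (nat_lit 303)) (XT.lf (nat_lit 0) (nat_lit 13901088111) (nat_lit 152) (nat_lit 44776272750) (nat_lit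 0) (nat_lit 10383300523) (nat_lit 6) (nat_lit 5) (nat_lit 8) (nat_lit 4) (nat_lit 6) (nat_lit 4) (nat_lit 553) (nat_lit 345) (nat_lit 302)))) (XT.nd (nat_lit 58968) (nat_lit 0) (nat_lit 1748) (XT.nd (nat_lit 58890) (nat_lit 0) (nat_lit 1976) (XT.lf (nat_lit 0) (nat_lit 20276796206) (nat_lit 152) (nat_lit 33953399088) (nat_lit 0) (nat_lit 16719055738) (nat_lit 6) (nat_lit 5) (nat_lit 8) (nat_lit 4) (nat_lit 6) (nat_lit 4) (nat_lit 554) (nat_lit 345) (nat_lit 301)) (XT.lf (nat_lit 0) (nat_lit 10605247530) (nat_lit 76) (nat_lit 560372772) (nat_lit 76) (nat_lit 560372772) (nat_lit 32) (nat_lit 4) (nat_lit 33) (nat_lit 5) (nat_lit 33) (nat_lit 4) (nat_lit 508) (nat_lit 346) (nat_lit 346))) (XT.nd (nat_lit 78) (nat_lit 76) (nat_lit 0) (XT.lf (nat_lit 0) (nat_lit 6234191705) (nat_lit 152) (nat_lit 11646415596) (nat_lit 0) (nat_lit 6048375415) (nat_lit 30) (nat_lit 5) (nat_lit 32) (nat_lit 4) (nat_lit 30) (nat_lit 4) (nat_lit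 509) (nat_lit 346) (nat_lit 345)) (XT.lf (nat_lit 0) (nat_lit 2610424064) (nat_lit 76) (nat_lit 11089192530) (nat_lit 76) (nat_lit 10722972076) (nat_lit 29) (nat_lit 4) (nat_lit 30) (nat_lit 5) (nat_lit 30) (nat_lit 4) (nat_lit 510) (nat_lit 346) (nat_lit 344)))))) (XT.nd (nat_lit 546) (nat_lit 456) (nat_lit 0) (XT.nd (nat_lit 234) (nat_lit 228) (nat_lit 0) (XT.nd (nat_lit 78) (nat_lit 152) (nat_lit 0) (XT.lf (nat_lit 0) (nat_lit 17249737682) (nat_lit 76) (nat_lit 4111732263) (nat_lit 76) (nat_lit 3570362134) (nat_lit 29) (nat_lit 4) (nat_lit 30) (nat_lit 5) (nat_lit 30) (nat_lit 4) (nat_lit 511) (nat_lit 346) (nat_lit 343)) (XT.nd (nat_lit 78) (nat_lit 0) (nat_lit 0) (XT.lf (nat_lit 0) (nat_lit 3673955643) (nat_lit 152) (nat_lit 18799510498) (nat_lit 0) (nat_lit 2983258210) (nat_lit 27) (nat_lit 5) (nat_lit 29) (nat_lit 4) (nat_lit 27) (nat_lit 4) (nat_lit 512) (nat_lit 346) (nat_lit 342)) (XT.lf (nat_lit 0) (nat_lit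 11040779647) (nat_lit 152) (nat_lit 4766422639) (nat_lit 0) (nat_lit 10189795451) (nat_lit 27) (nat_lit 5) (nat_lit 29) (nat_lit 4) (nat_lit 27) (nat_lit 4) (nat_lit 513) (nat_lit 346) (nat_lit 341)))) (XT.nd (nat_lit 156) (nat_lit 152) (nat_lit 0) (XT.nd (nat_lit 78) (nat_lit 0) (nat_lit 0) (XT.lf (nat_lit 0) (nat_lit 9604459108) (nat_lit 76) (nat_lit 8978497535) (nat_lit 76) (nat_lit 7971895122) (nat_lit 26) (nat_lit 4) (nat_lit 27) (nat_lit 5) (nat_lit 27) (nat_lit 4) (nat_lit 514) (nat_lit 346) (nat_lit 340)) (XT.lf (nat_lit 0) (nat_lit 24236211065) (nat_lit 76) (nat_lit 2026786624) (nat_lit 76) (nat_lit 869098563) (nat_lit 26) (nat_lit 4) (nat_lit 27) (nat_lit 5) (nat_lit 27) (nat_lit 4) (nat_lit 515) (nat_lit 346) (nat_lit 339))) (XT.nd (nat_lit 78) (nat_lit 0) (nat_lit 0) (XT.lf (nat_lit 0) (nat_lit 6347271056) (nat_lit 152) (nat_lit 16295852524) (nat_lit 0) (nat_lit 5080889351) (nat_lit 24) (nat_lit 5)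 (nat_lit 26) (nat_lit 4) (nat_lit 24) (nat_lit 4) (nat_lit 516) (nat_lit 346) (nat_lit 338)) (XT.lf (nat_lit 0) (nat_lit 13678561269) (nat_lit 152) (nat_lit 2383478537) (nat_lit 0) (nat_lit 12273914795) (nat_lit 24) (nat_lit 5) (nat_lit 26) (nat_lit 4) (nat_lit 24) (nat_lit 4) (nat_lit 517) (nat_lit 346) (nat_lit 337))))) (XT.nd (nat_lit 312) (nat_lit 228) (nat_lit 0) (XT.nd (nat_lit 156) (nat_lit 152) (nat_lit 0) (XT.nd (nat_lit 78) (nat_lit 0) (nat_lit 0) (XT.lf (nat_lit 0) (nat_lit 11923601977) (nat_lit 76) (nat_lit 9290997436) (nat_lit 76) (nat_lit 7752113320) (nat_lit 23) (nat_lit 4) (nat_lit 24) (nat_lit 5) (nat_lit 24) (nat_lit 4) (nat_lit 518) (nat_lit 346) (nat_lit 336)) (XT.lf (nat_lit 0) (nat_lit 26455920073) (nat_lit 76) (nat_lit 2416409772) (nat_lit 76) (nat_lit 747197849) (nat_lit 23) (nat_lit 4) (nat_lit 24) (nat_lit 5) (nat_lit 24) (nat_lit 4) (nat_lit 519) (nat_lit 346) (nat_lit 335))) (XT.nd (nat_lit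 78) (nat_lit 0) (nat_lit 0) (XT.lf (nat_lit 0) (nat_lit 6367130382) (nat_lit 152) (nat_lit 19298479682) (nat_lit 0) (nat_lit 4623689825) (nat_lit 21) (nat_lit 5) (nat_lit 23) (nat_lit 4) (nat_lit 21) (nat_lit 4) (nat_lit 520) (nat_lit 346) (nat_lit 334)) (XT.lf (nat_lit 0) (nat_lit 13610250942) (nat_lit 152) (nat_lit 5623241191) (nat_lit 0) (nat_lit 11747541979) (nat_lit 21) (nat_lit 5) (nat_lit 23) (nat_lit 4) (nat_lit 21) (nat_lit 4) (nat_lit 521) (nat_lit 346) (nat_lit 333)))) (XT.nd (nat_lit 156) (nat_lit 152) (nat_lit 0) (XT.nd (nat_lit 78) (nat_lit 0) (nat_lit 0) (XT.lf (nat_lit 0) (nat_lit 8384975622) (nat_lit 76) (nat_lit 12644148325) (nat_lit 76) (nat_lit 10665644794) (nat_lit 20) (nat_lit 4) (nat_lit 21) (nat_lit 5) (nat_lit 21) (nat_lit 4) (nat_lit 522) (nat_lit 346) (nat_lit 332)) (XT.lf (nat_lit 0) (nat_lit 22690171726) (nat_lit 76) (nat_lit 5916297022) (nat_lit 76) (nat_lit 3825371580) (nat_lit 20)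 (nat_lit 4) (nat_lit 21) (nat_lit 5) (nat_lit 21) (nat_lit 4) (nat_lit 523) (nat_lit 346) (nat_lit 331))) (XT.nd (nat_lit 78) (nat_lit 0) (nat_lit 0) (XT.lf (nat_lit 0) (nat_lit 3086983795) (nat_lit 152) (nat_lit 29154231667) (nat_lit 0) (nat_lit 950990660) (nat_lit 18) (nat_lit 5) (nat_lit 20) (nat_lit 4) (nat_lit 18) (nat_lit 4) (nat_lit 524) (nat_lit 346) (nat_lit 330)) (XT.lf (nat_lit 0) (nat_lit 10169351185) (nat_lit 152) (nat_lit 15873235460) (nat_lit 0) (nat_lit 7930476077) (nat_lit 18) (nat_lit 5) (nat_lit 20) (nat_lit 4) (nat_lit 18) (nat_lit 4) (nat_lit 525) (nat_lit 346) (nat_lit 329))))))))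
noncomputable def xc9 : XT := (XT.nd (nat_lit 60996) (nat_lit 0) (nat_lit 456) (XT.nd (nat_lit 1170) (nat_lit 380) (nat_lit 0) (XT.nd (nat_lit 546) (nat_lit 228) (nat_lit 0) (XT.nd (nat_lit 234) (nat_lit 228) (nat_lit 0) (XT.nd (nat_lit 78) (nat_lit 76) (nat_lit 0) (XT.lf (nat_lit 0) (nat_lit 17349242615) (nat_lit 152) (nat_lit 2421070573) (nat_lit 0) (nat_lit 15010482094) (nat_lit 18) (nat_lit 5) (nat_lit 20) (nat_lit 4) (nat_lit 18) (nat_lit 4) (nat_lit 526) (nat_lit 346) (nat_lit 328)) (XT.nd (nat_lit 78) (nat_lit 0) (nat_lit 0) (XT.lf (nat_lit 0) (nat_lit 11437198243) (nat_lit 76) (nat_lit 13305674876) (nat_lit 76) (nat_lit 10869938228) (nat_lit 17) (nat_lit 4) (nat_lit 18) (nat_lit 5) (nat_lit 18) (nat_lit 4) (nat_lit 527) (nat_lit 346) (nat_lit 327)) (XT.lf (nat_lit 0) (nat_lit 25542365906) (nat_lit 76) (nat_lit 6729945992) (nat_lit 76) (nat_lit 4200057763) (nat_lit 17) (nat_lit 4) (nat_lit 18) (nat_lit 5)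 (nat_lit 18) (nat_lit 4) (nat_lit 528) (nat_lit 346) (nat_lit 326)))) (XT.nd (nat_lit 156) (nat_lit 76) (nat_lit 0) (XT.nd (nat_lit 78) (nat_lit 0) (nat_lit 0) (XT.lf (nat_lit 0) (nat_lit 2522254994) (nat_lit 76) (nat_lit 11514722) (nat_lit 152) (nat_lit 34825698197) (nat_lit 15) (nat_lit 5) (nat_lit 16) (nat_lit 5) (nat_lit 17) (nat_lit 4) (nat_lit 529) (nat_lit 346) (nat_lit 325)) (XT.lf (nat_lit 0) (nat_lit 9454878194) (nat_lit 152) (nat_lit 21991197376) (nat_lit 0) (nat_lit 6823767102) (nat_lit 15) (nat_lit 5) (nat_lit 17) (nat_lit 4) (nat_lit 15) (nat_lit 4) (nat_lit 530) (nat_lit 346) (nat_lit 324))) (XT.nd (nat_lit 78) (nat_lit 76) (nat_lit 0) (XT.lf (nat_lit 0) (nat_lit 16478695436) (nat_lit 152) (nat_lit 8968050643) (nat_lit 0) (nat_lit 13763931883) (nat_lit 15) (nat_lit 5) (nat_lit 17) (nat_lit 4) (nat_lit 15) (nat_lit 4) (nat_lit 531) (nat_lit 346) (nat_lit 323)) (XT.lf (nat_lit 0) (nat_lit 4328175713)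 (nat_lit 76) (nat_lit 19324677429) (nat_lit 76) (nat_lit 16528697896) (nat_lit 14) (nat_lit 4) (nat_lit 15) (nat_lit 5) (nat_lit 15) (nat_lit 4) (nat_lit 532) (nat_lit 346) (nat_lit 322))))) (XT.nd (nat_lit 312) (nat_lit 76) (nat_lit 0) (XT.nd (nat_lit 156) (nat_lit 152) (nat_lit 0) (XT.nd (nat_lit 78) (nat_lit 0) (nat_lit 0) (XT.lf (nat_lit 0) (nat_lit 18007033139) (nat_lit 76) (nat_lit 13024829903) (nat_lit 76) (nat_lit 10149999903) (nat_lit 14) (nat_lit 4) (nat_lit 15) (nat_lit 5) (nat_lit 15) (nat_lit 4) (nat_lit 533) (nat_lit 346) (nat_lit 321)) (XT.lf (nat_lit 0) (nat_lit 31901992241) (nat_lit 76) (nat_lit 6632258507) (nat_lit 76) (nat_lit 3680874656) (nat_lit 14) (nat_lit 4) (nat_lit 15) (nat_lit 5) (nat_lit 15) (nat_lit 4) (nat_lit 534) (nat_lit 346) (nat_lit 320))) (XT.nd (nat_lit 78) (nat_lit 0) (nat_lit 0) (XT.lf (nat_lit 0) (nat_lit 2769265372) (nat_lit 76) (nat_lit 85401302) (nat_lit 152) (nat_lit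 40425944217) (nat_lit 12) (nat_lit 5) (nat_lit 13) (nat_lit 5) (nat_lit 14) (nat_lit 4) (nat_lit 535) (nat_lit 346) (nat_lit 319)) (XT.lf (nat_lit 0) (nat_lit 9585469382) (nat_lit 152) (nat_lit 28211473015) (nat_lit 0) (nat_lit 6577831203) (nat_lit 12) (nat_lit 5) (nat_lit 14) (nat_lit 4) (nat_lit 12) (nat_lit 4) (nat_lit 536) (nat_lit 346) (nat_lit 318)))) (XT.nd (nat_lit 156) (nat_lit 76) (nat_lit 0) (XT.nd (nat_lit 78) (nat_lit 0) (nat_lit 0) (XT.lf (nat_lit 0) (nat_lit 16425841822) (nat_lit 152) (nat_lit 15728504723) (nat_lit 0) (nat_lit 13350186538) (nat_lit 12) (nat_lit 5) (nat_lit 14) (nat_lit 4) (nat_lit 12) (nat_lit 4) (nat_lit 537) (nat_lit 346) (nat_lit 317)) (XT.lf (nat_lit 0) (nat_lit 23380940089) (nat_lit 152) (nat_lit 3050712265) (nat_lit 0) (nat_lit 20239248781) (nat_lit 12) (nat_lit 5) (nat_lit 14) (nat_lit 4) (nat_lit 12) (nat_lit 4) (nat_lit 538) (nat_lit 346) (nat_lit 316))) (XT.nd (nat_lit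 78) (nat_lit 0) (nat_lit 0) (XT.lf (nat_lit 0) (nat_lit 10028677664) (nat_lit 76) (nat_lit 20524565575) (nat_lit 76) (nat_lit 17318761622) (nat_lit 11) (nat_lit 4) (nat_lit 12) (nat_lit 5) (nat_lit 12) (nat_lit 4) (nat_lit 539) (nat_lit 346) (nat_lit 315)) (XT.lf (nat_lit 0) (nat_lit 23390264094) (nat_lit 76) (nat_lit 14494306177) (nat_lit 76) (nat_lit 11226256937) (nat_lit 11) (nat_lit 4) (nat_lit 12) (nat_lit 5) (nat_lit 12) (nat_lit 4) (nat_lit 540) (nat_lit 346) (nat_lit 314)))))) (XT.nd (nat_lit 546) (nat_lit 152) (nat_lit 0) (XT.nd (nat_lit 234) (nat_lit 76) (nat_lit 0) (XT.nd (nat_lit 78) (nat_lit 152) (nat_lit 0) (XT.lf (nat_lit 0) (nat_lit 36985007042) (nat_lit 76) (nat_lit 8366411214) (nat_lit 76) (nat_lit 5037929658) (nat_lit 11) (nat_lit 4) (nat_lit 12) (nat_lit 5) (nat_lit 12) (nat_lit 4) (nat_lit 541) (nat_lit 346) (nat_lit 313)) (XT.nd (nat_lit 78) (nat_lit 76) (nat_lit 0) (XT.lf (nat_lit 0) (nat_lit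 1227203732) (nat_lit 152) (nat_lit 895930131) (nat_lit 76) (nat_lit 49585189325) (nat_lit 10) (nat_lit 5) (nat_lit 12) (nat_lit 5) (nat_lit 11) (nat_lit 4) (nat_lit 542) (nat_lit 346) (nat_lit 312)) (XT.lf (nat_lit 0) (nat_lit 7656425001) (nat_lit 152) (nat_lit 41094003467) (nat_lit 0) (nat_lit 4312622124) (nat_lit 9) (nat_lit 5) (nat_lit 11) (nat_lit 4) (nat_lit 9) (nat_lit 4) (nat_lit 543) (nat_lit 346) (nat_lit 311)))) (XT.nd (nat_lit 156) (nat_lit 76) (nat_lit 0) (XT.nd (nat_lit 78) (nat_lit 0) (nat_lit 0) (XT.lf (nat_lit 0) (nat_lit 14228384715) (nat_lit 152) (nat_lit 29400651740) (nat_lit 0) (nat_lit 10830888507) (nat_lit 9) (nat_lit 5) (nat_lit 11) (nat_lit 4) (nat_lit 9) (nat_lit 4) (nat_lit 544) (nat_lit 346) (nat_lit 310)) (XT.lf (nat_lit 0) (nat_lit 20919545905) (nat_lit 152) (nat_lit 17511579094) (nat_lit 0) (nat_lit 17469920249) (nat_lit 9) (nat_lit 5) (nat_lit 11) (nat_lit 4) (nat_lit 9) (nat_lit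 4) (nat_lit 545) (nat_lit 346) (nat_lit 309))) (XT.nd (nat_lit 78) (nat_lit 76) (nat_lit 0) (XT.lf (nat_lit 0) (nat_lit 27735755216) (nat_lit 152) (nat_lit 5416397020) (nat_lit 0) (nat_lit 24235518447) (nat_lit 9) (nat_lit 5) (nat_lit 11) (nat_lit 4) (nat_lit 9) (nat_lit 4) (nat_lit 546) (nat_lit 346) (nat_lit 308)) (XT.lf (nat_lit 0) (nat_lit 7032696323) (nat_lit 76) (nat_lit 27717874816) (nat_lit 76) (nat_lit 24168501043) (nat_lit 8) (nat_lit 4) (nat_lit 9) (nat_lit 5) (nat_lit 9) (nat_lit 4) (nat_lit 547) (nat_lit 346) (nat_lit 307))))) (XT.nd (nat_lit 312) (nat_lit 152) (nat_lit 0) (XT.nd (nat_lit 156) (nat_lit 0) (nat_lit 0) (XT.nd (nat_lit 78) (nat_lit 0) (nat_lit 0) (XT.lf (nat_lit 0) (nat_lit 19821548980) (nat_lit 76) (nat_lit 22136244192) (nat_lit 76) (nat_lit 18539164590) (nat_lit 8) (nat_lit 4) (nat_lit 9) (nat_lit 5) (nat_lit 9) (nat_lit 4) (nat_lit 548) (nat_lit 346) (nat_lit 306)) (XT.lf (nat_lit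 0) (nat_lit 32853538755) (nat_lit 76) (nat_lit 16457078201) (nat_lit 76) (nat_lit 12813682260) (nat_lit 8) (nat_lit 4) (nat_lit 9) (nat_lit 5) (nat_lit 9) (nat_lit 4) (nat_lit 549) (nat_lit 346) (nat_lit 305))) (XT.nd (nat_lit 78) (nat_lit 0) (nat_lit 0) (XT.lf (nat_lit 0) (nat_lit 46140052823) (nat_lit 76) (nat_lit 10675414465) (nat_lit 76) (nat_lit 6987051205) (nat_lit 8) (nat_lit 4) (nat_lit 9) (nat_lit 5) (nat_lit 9) (nat_lit 4) (nat_lit 550) (nat_lit 346) (nat_lit 304)) (XT.lf (nat_lit 0) (nat_lit 59692700759) (nat_lit 76) (nat_lit 4786201045) (nat_lit 76) (nat_lit 1054180194) (nat_lit 8) (nat_lit 4) (nat_lit 9) (nat_lit 5) (nat_lit 9) (nat_lit 4) (nat_lit 551) (nat_lit 346) (nat_lit 303)))) (XT.nd (nat_lit 156) (nat_lit 0) (nat_lit 0) (XT.nd (nat_lit 78) (nat_lit 0) (nat_lit 0) (XT.lf (nat_lit 0) (nat_lit 4965869640) (nat_lit 152) (nat_lit 61046602336) (nat_lit 0) (nat_lit 1301396958) (nat_lit 6) (nat_lit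 5) (nat_lit 8) (nat_lit 4) (nat_lit 6) (nat_lit 4) (nat_lit 552) (nat_lit 346) (nat_lit 302)) (XT.lf (nat_lit 0) (nat_lit 11187067103) (nat_lit 152) (nat_lit 50476806431) (nat_lit 0) (nat_lit 7482641540) (nat_lit 6) (nat_lit 5) (nat_lit 8) (nat_lit 4) (nat_lit 6) (nat_lit 4) (nat_lit 553) (nat_lit 346) (nat_lit 301))) (XT.nd (nat_lit 58734) (nat_lit 0) (nat_lit 2052) (XT.lf (nat_lit 0) (nat_lit 17531585595) (nat_lit 152) (nat_lit 39716084343) (nat_lit 0) (nat_lit 13788370827) (nat_lit 6) (nat_lit 5) (nat_lit 8) (nat_lit 4) (nat_lit 6) (nat_lit 4) (nat_lit 554) (nat_lit 346) (nat_lit 300)) (XT.lf (nat_lit 0) (nat_lit 3682488037) (nat_lit 152) (nat_lit 3901952448) (nat_lit 0) (nat_lit 3682488037) (nat_lit 33) (nat_lit 5) (nat_lit 35) (nat_lit 4) (nat_lit 33) (nat_lit 4) (nat_lit 506) (nat_lit 347) (nat_lit 347))))))) (XT.nd (nat_lit 1170) (nat_lit 684) (nat_lit 0) (XT.nd (nat_lit 546) (nat_lit 456) (nat_lit 0) (XT.nd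 (nat_lit 234) (nat_lit 228) (nat_lit 0) (XT.nd (nat_lit 78) (nat_lit 152) (nat_lit 0) (XT.lf (nat_lit 0) (nat_lit 6480991252) (nat_lit 76) (nat_lit 8351175818) (nat_lit 76) (nat_lit 8154043316) (nat_lit 32) (nat_lit 4) (nat_lit 33) (nat_lit 5) (nat_lit 33) (nat_lit 4) (nat_lit 507) (nat_lit 347) (nat_lit 346)) (XT.nd (nat_lit 78) (nat_lit 152) (nat_lit 0) (XT.lf (nat_lit 0) (nat_lit 21070775036) (nat_lit 76) (nat_lit 1385942898) (nat_lit 76) (nat_lit 997419619) (nat_lit 32) (nat_lit 4) (nat_lit 33) (nat_lit 5) (nat_lit 33) (nat_lit 4) (nat_lit 508) (nat_lit 347) (nat_lit 345)) (XT.lf (nat_lit 0) (nat_lit 6278899626) (nat_lit 152) (nat_lit 11933198529) (nat_lit 0) (nat_lit 5721288394) (nat_lit 30) (nat_lit 5) (nat_lit 32) (nat_lit 4) (nat_lit 30) (nat_lit 4) (nat_lit 509) (nat_lit 347) (nat_lit 344)))) (XT.nd (nat_lit 156) (nat_lit 152) (nat_lit 0) (XT.nd (nat_lit 78) (nat_lit 0) (nat_lit 0) (XT.lf (nat_lit 0) (nat_lit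 2178046232) (nat_lit 76) (nat_lit 11491969027) (nat_lit 76) (nat_lit 10759208121) (nat_lit 29) (nat_lit 4) (nat_lit 30) (nat_lit 5) (nat_lit 30) (nat_lit 4) (nat_lit 510) (nat_lit 347) (nat_lit 343)) (XT.lf (nat_lit 0) (nat_lit 16681546882) (nat_lit 76) (nat_lit 4580906525) (nat_lit 76) (nat_lit 3678097392) (nat_lit 29) (nat_lit 4) (nat_lit 30) (nat_lit 5) (nat_lit 30) (nat_lit 4) (nat_lit 511) (nat_lit 347) (nat_lit 342))) (XT.nd (nat_lit 78) (nat_lit 0) (nat_lit 0) (XT.lf (nat_lit 0) (nat_lit 3488093366) (nat_lit 152) (nat_lit 19528496237) (nat_lit 0) (nat_lit 2451292881) (nat_lit 27) (nat_lit 5) (nat_lit 29) (nat_lit 4) (nat_lit 27) (nat_lit 4) (nat_lit 512) (nat_lit 347) (nat_lit 341)) (XT.lf (nat_lit 0) (nat_lit 10786949063) (nat_lit 152) (nat_lit 5628716918) (nat_lit 0) (nat_lit 9594530360) (nat_lit 27) (nat_lit 5) (nat_lit 29) (nat_lit 4) (nat_lit 27) (nat_lit 4) (nat_lit 513) (nat_lit 347) (nat_lit 340)))))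 (XT.nd (nat_lit 312) (nat_lit 228) (nat_lit 0) (XT.nd (nat_lit 156) (nat_lit 152) (nat_lit 0) (XT.nd (nat_lit 78) (nat_lit 0) (nat_lit 0) (XT.lf (nat_lit 0) (nat_lit 8593001889) (nat_lit 76) (nat_lit 9660412776) (nat_lit 76) (nat_lit 8316908426) (nat_lit 26) (nat_lit 4) (nat_lit 27) (nat_lit 5) (nat_lit 27) (nat_lit 4) (nat_lit 514) (nat_lit 347) (nat_lit 339)) (XT.lf (nat_lit 0) (nat_lit 23096596958) (nat_lit 76) (nat_lit 2771560181) (nat_lit 76) (nat_lit 1281370736) (nat_lit 26) (nat_lit 4) (nat_lit 27) (nat_lit 5) (nat_lit 27) (nat_lit 4) (nat_lit 515) (nat_lit 347) (nat_lit 338))) (XT.nd (nat_lit 78) (nat_lit 0) (nat_lit 0) (XT.lf (nat_lit 0) (nat_lit 5858565645) (nat_lit 152) (nat_lit 17612018403) (nat_lit 0) (nat_lit 4273515005) (nat_lit 24) (nat_lit 5) (nat_lit 26) (nat_lit 4) (nat_lit 24) (nat_lit 4) (nat_lit 516) (nat_lit 347) (nat_lit 337)) (XT.lf (nat_lit 0) (nat_lit 13125911162) (nat_lit 152) (nat_lit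 3825426245) (nat_lit 0) (nat_lit 11406622882) (nat_lit 24) (nat_lit 5) (nat_lit 26) (nat_lit 4) (nat_lit 24) (nat_lit 4) (nat_lit 517) (nat_lit 347) (nat_lit 336)))) (XT.nd (nat_lit 156) (nat_lit 152) (nat_lit 0) (XT.nd (nat_lit 78) (nat_lit 0) (nat_lit 0) (XT.lf (nat_lit 0) (nat_lit 10328408008) (nat_lit 76) (nat_lit 10256125090) (nat_lit 76) (nat_lit 8406509002) (nat_lit 23) (nat_lit 4) (nat_lit 24) (nat_lit 5) (nat_lit 24) (nat_lit 4) (nat_lit 518) (nat_lit 347) (nat_lit 335)) (XT.lf (nat_lit 0) (nat_lit 24739805061) (nat_lit 76) (nat_lit 3441022093) (nat_lit 76) (nat_lit 1464874154) (nat_lit 23) (nat_lit 4) (nat_lit 24) (nat_lit 5) (nat_lit 24) (nat_lit 4) (nat_lit 519) (nat_lit 347) (nat_lit 334))) (XT.nd (nat_lit 78) (nat_lit 0) (nat_lit 0) (XT.lf (nat_lit 0) (nat_lit 5574385070) (nat_lit 152) (nat_lit 21207442257) (nat_lit 0) (nat_lit 3536526433) (nat_lit 21) (nat_lit 5) (nat_lit 23) (nat_lit 4) (nat_lit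 21) (nat_lit 4) (nat_lit 520) (nat_lit 347) (nat_lit 333)) (XT.lf (nat_lit 0) (nat_lit 12757336819) (nat_lit 152) (nat_lit 7650873671) (nat_lit 0) (nat_lit 10603683613) (nat_lit 21) (nat_lit 5) (nat_lit 23) (nat_lit 4) (nat_lit 21) (nat_lit 4) (nat_lit 521) (nat_lit 347) (nat_lit 332)))))) (XT.nd (nat_lit 624) (nat_lit 304) (nat_lit 0) (XT.nd (nat_lit 312) (nat_lit 152) (nat_lit 0) (XT.nd (nat_lit 156) (nat_lit 152) (nat_lit 0) (XT.nd (nat_lit 78) (nat_lit 0) (nat_lit 0) (XT.lf (nat_lit 0) (nat_lit 6199482804) (nat_lit 76) (nat_lit 13897302406) (nat_lit 76) (nat_lit 11631227289) (nat_lit 20) (nat_lit 4) (nat_lit 21) (nat_lit 5) (nat_lit 21) (nat_lit 4) (nat_lit 522) (nat_lit 347) (nat_lit 331)) (XT.lf (nat_lit 0) (nat_lit 20390594952) (nat_lit 76) (nat_lit 7225723540) (nat_lit 76) (nat_lit 4850500937) (nat_lit 20) (nat_lit 4) (nat_lit 21) (nat_lit 5) (nat_lit 21) (nat_lit 4) (nat_lit 523) (nat_lit 347) (nat_lit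 330))) (XT.nd (nat_lit 78) (nat_lit 0) (nat_lit 0) (XT.lf (nat_lit 0) (nat_lit 1562492743) (nat_lit 76) (nat_lit 429469709) (nat_lit 152) (nat_lit 31238216213) (nat_lit 18) (nat_lit 5) (nat_lit 19) (nat_lit 5) (nat_lit 20) (nat_lit 4) (nat_lit 524) (nat_lit 347) (nat_lit 329)) (XT.lf (nat_lit 0) (nat_lit 9013577388) (nat_lit 152) (nat_lit 18494512724) (nat_lit 0) (nat_lit 6504768640) (nat_lit 18) (nat_lit 5) (nat_lit 20) (nat_lit 4) (nat_lit 18) (nat_lit 4) (nat_lit 525) (nat_lit 347) (nat_lit 328)))) (XT.nd (nat_lit 156) (nat_lit 76) (nat_lit 0) (XT.nd (nat_lit 78) (nat_lit 76) (nat_lit 0) (XT.lf (nat_lit 0) (nat_lit 16138493934) (nat_lit 152) (nat_lit 5151038452) (nat_lit 0) (nat_lit 13532709058) (nat_lit 18) (nat_lit 5) (nat_lit 20) (nat_lit 4) (nat_lit 18) (nat_lit 4) (nat_lit 526) (nat_lit 347) (nat_lit 327)) (XT.lf (nat_lit 0) (nat_lit 8545273630) (nat_lit 76) (nat_lit 14905678188) (nat_lit 76) (nat_lit 12205741731)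 (nat_lit 17) (nat_lit 4) (nat_lit 18) (nat_lit 5) (nat_lit 18) (nat_lit 4) (nat_lit 527) (nat_lit 347) (nat_lit 326))) (XT.nd (nat_lit 78) (nat_lit 76) (nat_lit 0) (XT.lf (nat_lit 0) (nat_lit 22545950981) (nat_lit 76) (nat_lit 8381616090) (nat_lit 76) (nat_lit 5590270332) (nat_lit 17) (nat_lit 4) (nat_lit 18) (nat_lit 5) (nat_lit 18) (nat_lit 4) (nat_lit 528) (nat_lit 347) (nat_lit 325)) (XT.lf (nat_lit 0) (nat_lit 1094646201) (nat_lit 152) (nat_lit 657960863) (nat_lit 76) (nat_lit 35655011455) (nat_lit 16) (nat_lit 5) (nat_lit 18) (nat_lit 5) (nat_lit 17) (nat_lit 4) (nat_lit 529) (nat_lit 347) (nat_lit 324))))) (XT.nd (nat_lit 312) (nat_lit 152) (nat_lit 0) (XT.nd (nat_lit 156) (nat_lit 76) (nat_lit 0) (XT.nd (nat_lit 78) (nat_lit 0) (nat_lit 0) (XT.lf (nat_lit 0) (nat_lit 7940760668) (nat_lit 152) (nat_lit 25318581448) (nat_lit 0) (nat_lit 5060901749) (nat_lit 15) (nat_lit 5) (nat_lit 17) (nat_lit 4) (nat_lit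 15) (nat_lit 4) (nat_lit 530) (nat_lit 347) (nat_lit 323)) (XT.lf (nat_lit 0) (nat_lit 14914341887) (nat_lit 152) (nat_lit 12394978102) (nat_lit 0) (nat_lit 11953266988) (nat_lit 15) (nat_lit 5) (nat_lit 17) (nat_lit 4) (nat_lit 15) (nat_lit 4) (nat_lit 531) (nat_lit 347) (nat_lit 322))) (XT.nd (nat_lit 78) (nat_lit 0) (nat_lit 0) (XT.lf (nat_lit 0) (nat_lit 734478206) (nat_lit 76) (nat_lit 21270703731) (nat_lit 76) (nat_lit 18230778365) (nat_lit 14) (nat_lit 4) (nat_lit 15) (nat_lit 5) (nat_lit 15) (nat_lit 4) (nat_lit 532) (nat_lit 347) (nat_lit 321)) (XT.lf (nat_lit 0) (nat_lit 14317639058) (nat_lit 76) (nat_lit 15018280617) (nat_lit 76) (nat_lit 11901801400) (nat_lit 14) (nat_lit 4) (nat_lit 15) (nat_lit 5) (nat_lit 15) (nat_lit 4) (nat_lit 533) (nat_lit 347) (nat_lit 320)))) (XT.nd (nat_lit 156) (nat_lit 76) (nat_lit 0) (XT.nd (nat_lit 78) (nat_lit 76) (nat_lit 0) (XT.lf (nat_lit 0) (nat_lit 28119688864) (nat_lit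 76) (nat_lit 8671752338) (nat_lit 76) (nat_lit 5480948994) (nat_lit 14) (nat_lit 4) (nat_lit 15) (nat_lit 5) (nat_lit 15) (nat_lit 4) (nat_lit 534) (nat_lit 347) (nat_lit 319)) (XT.lf (nat_lit 0) (nat_lit 1017146101) (nat_lit 152) (nat_lit 1198156104) (nat_lit 76) (nat_lit 41125270387) (nat_lit 13) (nat_lit 5) (nat_lit 15) (nat_lit 5) (nat_lit 14) (nat_lit 4) (nat_lit 535) (nat_lit 347) (nat_lit 318))) (XT.nd (nat_lit 78) (nat_lit 0) (nat_lit 0) (XT.lf (nat_lit 0) (nat_lit 7669700683) (nat_lit 152) (nat_lit 32333624049) (nat_lit 0) (nat_lit 4433758635) (nat_lit 12) (nat_lit 5) (nat_lit 14) (nat_lit 4) (nat_lit 12) (nat_lit 4) (nat_lit 536) (nat_lit 347) (nat_lit 317)) (XT.lf (nat_lit 0) (nat_lit 14465499061) (nat_lit 152) (nat_lit 19939160625) (nat_lit 0) (nat_lit 11163520989) (nat_lit 12) (nat_lit 5) (nat_lit 14) (nat_lit 4) (nat_lit 12) (nat_lit 4) (nat_lit 537) (nat_lit 347) (nat_lit 316))))))))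
noncomputable def xc10 : XT := (XT.nd (nat_lit 60840) (nat_lit 0) (nat_lit 228) (XT.nd (nat_lit 1170) (nat_lit 0) (nat_lit 0) (XT.nd (nat_lit 546) (nat_lit 228) (nat_lit 0) (XT.nd (nat_lit 234) (nat_lit 152) (nat_lit 0) (XT.nd (nat_lit 78) (nat_lit 76) (nat_lit 0) (XT.lf (nat_lit 0) (nat_lit 21377321540) (nat_lit 152) (nat_lit 7347295223) (nat_lit 0) (nat_lit 18011230823) (nat_lit 12) (nat_lit 5) (nat_lit 14) (nat_lit 4) (nat_lit 12) (nat_lit 4) (nat_lit 538) (nat_lit 347) (nat_lit 315)) (XT.nd (nat_lit 78) (nat_lit 0) (nat_lit 0) (XT.lf (nat_lit 0) (nat_lit 5561499646) (nat_lit 76) (nat_lit 22903168468) (nat_lit 76) (nat_lit 19474832464) (nat_lit 11) (nat_lit 4) (nat_lit 12) (nat_lit 5) (nat_lit 12) (nat_lit 4) (nat_lit 539) (nat_lit 347) (nat_lit 314)) (XT.lf (nat_lit 0) (nat_lit 18840479635) (nat_lit 76) (nat_lit 16913929866) (nat_lit 76) (nat_lit 13425161546) (nat_lit 11) (nat_lit 4) (nat_lit 12) (nat_lit 5)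 (nat_lit 12) (nat_lit 4) (nat_lit 540) (nat_lit 347) (nat_lit 313)))) (XT.nd (nat_lit 156) (nat_lit 152) (nat_lit 0) (XT.nd (nat_lit 78) (nat_lit 0) (nat_lit 0) (XT.lf (nat_lit 0) (nat_lit 32355022154) (nat_lit 76) (nat_lit 10825860919) (nat_lit 76) (nat_lit 7278420447) (nat_lit 11) (nat_lit 4) (nat_lit 12) (nat_lit 5) (nat_lit 12) (nat_lit 4) (nat_lit 541) (nat_lit 347) (nat_lit 312)) (XT.lf (nat_lit 0) (nat_lit 46116936027) (nat_lit 76) (nat_lit 4633641956) (nat_lit 76) (nat_lit 1029238229) (nat_lit 11) (nat_lit 4) (nat_lit 12) (nat_lit 5) (nat_lit 12) (nat_lit 4) (nat_lit 542) (nat_lit 347) (nat_lit 311))) (XT.nd (nat_lit 78) (nat_lit 0) (nat_lit 0) (XT.lf (nat_lit 0) (nat_lit 5309182423) (nat_lit 152) (nat_lit 46072917038) (nat_lit 0) (nat_lit 1756067998) (nat_lit 9) (nat_lit 5) (nat_lit 11) (nat_lit 4) (nat_lit 9) (nat_lit 4) (nat_lit 543) (nat_lit 347) (nat_lit 310)) (XT.lf (nat_lit 0) (nat_lit 11842739518)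 (nat_lit 152) (nat_lit 34455959219) (nat_lit 0) (nat_lit 8237495646) (nat_lit 9) (nat_lit 5) (nat_lit 11) (nat_lit 4) (nat_lit 9) (nat_lit 4) (nat_lit 544) (nat_lit 347) (nat_lit 309))))) (XT.nd (nat_lit 312) (nat_lit 152) (nat_lit 0) (XT.nd (nat_lit 156) (nat_lit 76) (nat_lit 0) (XT.nd (nat_lit 78) (nat_lit 0) (nat_lit 0) (XT.lf (nat_lit 0) (nat_lit 18496616612) (nat_lit 152) (nat_lit 22641055416) (nat_lit 0) (nat_lit 14840761626) (nat_lit 9) (nat_lit 5) (nat_lit 11) (nat_lit 4) (nat_lit 9) (nat_lit 4) (nat_lit 545) (nat_lit 347) (nat_lit 308)) (XT.lf (nat_lit 0) (nat_lit 25276627773) (nat_lit 152) (nat_lit 10617881928) (nat_lit 0) (nat_lit 21571635783) (nat_lit 9) (nat_lit 5) (nat_lit 11) (nat_lit 4) (nat_lit 9) (nat_lit 4) (nat_lit 546) (nat_lit 347) (nat_lit 307))) (XT.nd (nat_lit 78) (nat_lit 0) (nat_lit 0) (XT.lf (nat_lit 0) (nat_lit 1656389048) (nat_lit 76) (nat_lit 30548230458) (nat_lit 76) (nat_lit 26795532639)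 (nat_lit 8) (nat_lit 4) (nat_lit 9) (nat_lit 5) (nat_lit 9) (nat_lit 4) (nat_lit 547) (nat_lit 347) (nat_lit 306)) (XT.lf (nat_lit 0) (nat_lit 14376015862) (nat_lit 76) (nat_lit 25001040007) (nat_lit 76) (nat_lit 21202025849) (nat_lit 8) (nat_lit 4) (nat_lit 9) (nat_lit 5) (nat_lit 9) (nat_lit 4) (nat_lit 548) (nat_lit 347) (nat_lit 305)))) (XT.nd (nat_lit 156) (nat_lit 152) (nat_lit 0) (XT.nd (nat_lit 78) (nat_lit 0) (nat_lit 0) (XT.lf (nat_lit 0) (nat_lit 27340796080) (nat_lit 76) (nat_lit 19355311078) (nat_lit 76) (nat_lit 15511329600) (nat_lit 8) (nat_lit 4) (nat_lit 9) (nat_lit 5) (nat_lit 9) (nat_lit 4) (nat_lit 549) (nat_lit 347) (nat_lit 304)) (XT.lf (nat_lit 0) (nat_lit 40562058151) (nat_lit 76) (nat_lit 13606110508) (nat_lit 76) (nat_lit 9718471439) (nat_lit 8) (nat_lit 4) (nat_lit 9) (nat_lit 5) (nat_lit 9) (nat_lit 4) (nat_lit 550) (nat_lit 347) (nat_lit 303))) (XT.nd (nat_lit 78) (nat_lit 152) (nat_lit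 0) (XT.lf (nat_lit 0) (nat_lit 54051354634) (nat_lit 76) (nat_lit 7748414725) (nat_lit 76) (nat_lit 3818389645) (nat_lit 8) (nat_lit 4) (nat_lit 9) (nat_lit 5) (nat_lit 9) (nat_lit 4) (nat_lit 551) (nat_lit 347) (nat_lit 302)) (XT.lf (nat_lit 0) (nat_lit 403753773) (nat_lit 76) (nat_lit 1751384315) (nat_lit 152) (nat_lit 65247619211) (nat_lit 6) (nat_lit 5) (nat_lit 7) (nat_lit 5) (nat_lit 8) (nat_lit 4) (nat_lit 552) (nat_lit 347) (nat_lit 301)))))) (XT.nd (nat_lit 59046) (nat_lit 0) (nat_lit 1368) (XT.nd (nat_lit 58734) (nat_lit 0) (nat_lit 1976) (XT.nd (nat_lit 78) (nat_lit 0) (nat_lit 0) (XT.lf (nat_lit 0) (nat_lit 8328310570) (nat_lit 152) (nat_lit 56474523817) (nat_lit 0) (nat_lit 4434010155) (nat_lit 6) (nat_lit 5) (nat_lit 8) (nat_lit 4) (nat_lit 6) (nat_lit 4) (nat_lit 553) (nat_lit 347) (nat_lit 300)) (XT.nd (nat_lit 58578) (nat_lit 0) (nat_lit 2204) (XT.lf (nat_lit 0) (nat_lit 14642547893) (nat_lit 152)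 (nat_lit 45774143062) (nat_lit 0) (nat_lit 10710588056) (nat_lit 6) (nat_lit 5) (nat_lit 8) (nat_lit 4) (nat_lit 6) (nat_lit 4) (nat_lit 554) (nat_lit 347) (nat_lit 299)) (XT.lf (nat_lit 0) (nat_lit 3947076205) (nat_lit 76) (nat_lit 3443280457) (nat_lit 76) (nat_lit 3443280457) (nat_lit 35) (nat_lit 4) (nat_lit 36) (nat_lit 5) (nat_lit 36) (nat_lit 4) (nat_lit 504) (nat_lit 348) (nat_lit 348)))) (XT.nd (nat_lit 156) (nat_lit 76) (nat_lit 0) (XT.nd (nat_lit 78) (nat_lit 0) (nat_lit 0) (XT.lf (nat_lit 0) (nat_lit 236073708) (nat_lit 152) (nat_lit 21828049117) (nat_lit 0) (nat_lit 33027231) (nat_lit 33) (nat_lit 5) (nat_lit 35) (nat_lit 4) (nat_lit 33) (nat_lit 4) (nat_lit 505) (nat_lit 348) (nat_lit 347)) (XT.lf (nat_lit 0) (nat_lit 7495601090) (nat_lit 152) (nat_lit 7945008286) (nat_lit 0) (nat_lit 7095422112) (nat_lit 33) (nat_lit 5) (nat_lit 35) (nat_lit 4) (nat_lit 33) (nat_lit 4) (nat_lit 506) (nat_lit 348)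 (nat_lit 346))) (XT.nd (nat_lit 78) (nat_lit 0) (nat_lit 0) (XT.lf (nat_lit 0) (nat_lit 6197359604) (nat_lit 76) (nat_lit 8692393944) (nat_lit 76) (nat_lit 8100824188) (nat_lit 32) (nat_lit 4) (nat_lit 33) (nat_lit 5) (nat_lit 33) (nat_lit 4) (nat_lit 507) (nat_lit 348) (nat_lit 345)) (XT.lf (nat_lit 0) (nat_lit 20651492880) (nat_lit 76) (nat_lit 1793243406) (nat_lit 76) (nat_lit 1015857360) (nat_lit 32) (nat_lit 4) (nat_lit 33) (nat_lit 5) (nat_lit 33) (nat_lit 4) (nat_lit 508) (nat_lit 348) (nat_lit 344))))) (XT.nd (nat_lit 312) (nat_lit 228) (nat_lit 0) (XT.nd (nat_lit 156) (nat_lit 152) (nat_lit 0) (XT.nd (nat_lit 78) (nat_lit 76) (nat_lit 0) (XT.lf (nat_lit 0) (nat_lit 6182538244) (nat_lit 152) (nat_lit 12507014980) (nat_lit 0) (nat_lit 5252644836) (nat_lit 30) (nat_lit 5) (nat_lit 32) (nat_lit 4) (nat_lit 30) (nat_lit 4) (nat_lit 509) (nat_lit 348) (nat_lit 343)) (XT.lf (nat_lit 0) (nat_lit 1456996740) (nat_lit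 76) (nat_lit 12041616283) (nat_lit 76) (nat_lit 10941674648) (nat_lit 29) (nat_lit 4) (nat_lit 30) (nat_lit 5) (nat_lit 30) (nat_lit 4) (nat_lit 510) (nat_lit 348) (nat_lit 342))) (XT.nd (nat_lit 78) (nat_lit 152) (nat_lit 0) (XT.lf (nat_lit 0) (nat_lit 15828640139) (nat_lit 76) (nat_lit 5195017631) (nat_lit 76) (nat_lit 3929980630) (nat_lit 29) (nat_lit 4) (nat_lit 30) (nat_lit 5) (nat_lit 30) (nat_lit 4) (nat_lit 511) (nat_lit 348) (nat_lit 341)) (XT.lf (nat_lit 0) (nat_lit 3158679557) (nat_lit 152) (nat_lit 20549967884) (nat_lit 0) (nat_lit 1774870076) (nat_lit 27) (nat_lit 5) (nat_lit 29) (nat_lit 4) (nat_lit 27) (nat_lit 4) (nat_lit 512) (nat_lit 348) (nat_lit 340)))) (XT.nd (nat_lit 156) (nat_lit 152) (nat_lit 0) (XT.nd (nat_lit 78) (nat_lit 76) (nat_lit 0) (XT.lf (nat_lit 0) (nat_lit 10391546605) (nat_lit 152) (nat_lit 6779614333) (nat_lit 0) (nat_lit 8856651476) (nat_lit 27) (nat_lit 5) (nat_lit 29) (nat_lit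 4) (nat_lit 27) (nat_lit 4) (nat_lit 513) (nat_lit 348) (nat_lit 339)) (XT.lf (nat_lit 0) (nat_lit 7291042472) (nat_lit 76) (nat_lit 10490387856) (nat_lit 76) (nat_lit 8808807633) (nat_lit 26) (nat_lit 4) (nat_lit 27) (nat_lit 5) (nat_lit 27) (nat_lit 4) (nat_lit 514) (nat_lit 348) (nat_lit 338))) (XT.nd (nat_lit 78) (nat_lit 152) (nat_lit 0) (XT.lf (nat_lit 0) (nat_lit 21670213379) (nat_lit 76) (nat_lit 3662562752) (nat_lit 76) (nat_lit 1838569815) (nat_lit 26) (nat_lit 4) (nat_lit 27) (nat_lit 5) (nat_lit 27) (nat_lit 4) (nat_lit 515) (nat_lit 348) (nat_lit 337)) (XT.lf (nat_lit 0) (nat_lit 5225391339) (nat_lit 152) (nat_lit 19223006372) (nat_lit 0) (nat_lit 3320286769) (nat_lit 24) (nat_lit 5) (nat_lit 26) (nat_lit 4) (nat_lit 24) (nat_lit 4) (nat_lit 516) (nat_lit 348) (nat_lit 336))))))) (XT.nd (nat_lit 1170) (nat_lit 456) (nat_lit 0) (XT.nd (nat_lit 546) (nat_lit 380) (nat_lit 0) (XT.nd (nat_lit 234) (nat_lit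 228) (nat_lit 0) (XT.nd (nat_lit 78) (nat_lit 76) (nat_lit 0) (XT.lf (nat_lit 0) (nat_lit 12430654628) (nat_lit 152) (nat_lit 5558532495) (nat_lit 0) (nat_lit 10395222251) (nat_lit 24) (nat_lit 5) (nat_lit 26) (nat_lit 4) (nat_lit 24) (nat_lit 4) (nat_lit 517) (nat_lit 348) (nat_lit 335)) (XT.nd (nat_lit 78) (nat_lit 0) (nat_lit 0) (XT.lf (nat_lit 0) (nat_lit 8439888503) (nat_lit 76) (nat_lit 11370960447) (nat_lit 76) (nat_lit 9208996219) (nat_lit 23) (nat_lit 4) (nat_lit 24) (nat_lit 5) (nat_lit 24) (nat_lit 4) (nat_lit 518) (nat_lit 348) (nat_lit 334)) (XT.lf (nat_lit 0) (nat_lit 22733886485) (nat_lit 76) (nat_lit 4613609554) (nat_lit 76) (nat_lit 2328798869) (nat_lit 23) (nat_lit 4) (nat_lit 24) (nat_lit 5) (nat_lit 24) (nat_lit 4) (nat_lit 519) (nat_lit 348) (nat_lit 333)))) (XT.nd (nat_lit 156) (nat_lit 76) (nat_lit 0) (XT.nd (nat_lit 78) (nat_lit 0) (nat_lit 0) (XT.lf (nat_lit 0) (nat_lit 4635714713) (nat_lit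 152) (nat_lit 23414573617) (nat_lit 0) (nat_lit 2301657343) (nat_lit 21) (nat_lit 5) (nat_lit 23) (nat_lit 4) (nat_lit 21) (nat_lit 4) (nat_lit 520) (nat_lit 348) (nat_lit 332)) (XT.lf (nat_lit 0) (nat_lit 11760250141) (nat_lit 152) (nat_lit 9973218532) (nat_lit 0) (nat_lit 9313770860) (nat_lit 21) (nat_lit 5) (nat_lit 23) (nat_lit 4) (nat_lit 21) (nat_lit 4) (nat_lit 521) (nat_lit 348) (nat_lit 331))) (XT.nd (nat_lit 78) (nat_lit 0) (nat_lit 0) (XT.lf (nat_lit 0) (nat_lit 3716834770) (nat_lit 76) (nat_lit 15302284156) (nat_lit 76) (nat_lit 12746657389) (nat_lit 20) (nat_lit 4) (nat_lit 21) (nat_lit 5) (nat_lit 21) (nat_lit 4) (nat_lit 522) (nat_lit 348) (nat_lit 330)) (XT.lf (nat_lit 0) (nat_lit 17797185795) (nat_lit 76) (nat_lit 8685338725) (nat_lit 76) (nat_lit 6023743524) (nat_lit 20) (nat_lit 4) (nat_lit 21) (nat_lit 5) (nat_lit 21) (nat_lit 4) (nat_lit 523) (nat_lit 348) (nat_lit 329))))) (XT.nd (nat_lit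 312) (nat_lit 152) (nat_lit 0) (XT.nd (nat_lit 156) (nat_lit 76) (nat_lit 0) (XT.nd (nat_lit 78) (nat_lit 76) (nat_lit 0) (XT.lf (nat_lit 0) (nat_lit 771561061) (nat_lit 152) (nat_lit 1198208219) (nat_lit 76) (nat_lit 31302298840) (nat_lit 19) (nat_lit 5) (nat_lit 21) (nat_lit 5) (nat_lit 20) (nat_lit 4) (nat_lit 524) (nat_lit 348) (nat_lit 328)) (XT.lf (nat_lit 0) (nat_lit 7711531364) (nat_lit 152) (nat_lit 21415070254) (nat_lit 0) (nat_lit 4930596814) (nat_lit 18) (nat_lit 5) (nat_lit 20) (nat_lit 4) (nat_lit 18) (nat_lit 4) (nat_lit 525) (nat_lit 348) (nat_lit 327))) (XT.nd (nat_lit 78) (nat_lit 76) (nat_lit 0) (XT.lf (nat_lit 0) (nat_lit 14783074237) (nat_lit 152) (nat_lit 8177120852) (nat_lit 0) (nat_lit 11907988106) (nat_lit 18) (nat_lit 5) (nat_lit 20) (nat_lit 4) (nat_lit 18) (nat_lit 4) (nat_lit 526) (nat_lit 348) (nat_lit 326)) (XT.lf (nat_lit 0) (nat_lit 5354475945) (nat_lit 76) (nat_lit 16658565176)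 (nat_lit 76) (nat_lit 13692069744) (nat_lit 17) (nat_lit 4) (nat_lit 18) (nat_lit 5) (nat_lit 18) (nat_lit 4) (nat_lit 527) (nat_lit 348) (nat_lit 325)))) (XT.nd (nat_lit 156) (nat_lit 152) (nat_lit 0) (XT.nd (nat_lit 78) (nat_lit 0) (nat_lit 0) (XT.lf (nat_lit 0) (nat_lit 19253706392) (nat_lit 76) (nat_lit 10184665007) (nat_lit 76) (nat_lit 7129422680) (nat_lit 17) (nat_lit 4) (nat_lit 18) (nat_lit 5) (nat_lit 18) (nat_lit 4) (nat_lit 528) (nat_lit 348) (nat_lit 324)) (XT.lf (nat_lit 0) (nat_lit 33369974708) (nat_lit 76) (nat_lit 3615410664) (nat_lit 76) (nat_lit 474006303) (nat_lit 17) (nat_lit 4) (nat_lit 18) (nat_lit 5) (nat_lit 18) (nat_lit 4) (nat_lit 529) (nat_lit 348) (nat_lit 323))) (XT.nd (nat_lit 78) (nat_lit 0) (nat_lit 0) (XT.lf (nat_lit 0) (nat_lit 6279240491) (nat_lit 152) (nat_lit 28947860118) (nat_lit 0) (nat_lit 3148117364) (nat_lit 15) (nat_lit 5) (nat_lit 17) (nat_lit 4) (nat_lit 15) (nat_lit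 4) (nat_lit 530) (nat_lit 348) (nat_lit 322)) (XT.lf (nat_lit 0) (nat_lit 13204048873) (nat_lit 152) (nat_lit 16120900837) (nat_lit 0) (nat_lit 9994075280) (nat_lit 15) (nat_lit 5) (nat_lit 17) (nat_lit 4) (nat_lit 15) (nat_lit 4) (nat_lit 531) (nat_lit 348) (nat_lit 321)))))) (XT.nd (nat_lit 546) (nat_lit 228) (nat_lit 0) (XT.nd (nat_lit 234) (nat_lit 152) (nat_lit 0) (XT.nd (nat_lit 78) (nat_lit 76) (nat_lit 0) (XT.lf (nat_lit 0) (nat_lit 20240476401) (nat_lit 152) (nat_lit 3099606033) (nat_lit 0) (nat_lit 16953948957) (nat_lit 15) (nat_lit 5) (nat_lit 17) (nat_lit 4) (nat_lit 15) (nat_lit 4) (nat_lit 532) (nat_lit 348) (nat_lit 320)) (XT.nd (nat_lit 78) (nat_lit 0) (nat_lit 0) (XT.lf (nat_lit 0) (nat_lit 10328957284) (nat_lit 76) (nat_lit 17165002382) (nat_lit 76) (nat_lit 13804150810) (nat_lit 14) (nat_lit 4) (nat_lit 15) (nat_lit 5) (nat_lit 15) (nat_lit 4) (nat_lit 533) (nat_lit 348) (nat_lit 319)) (XT.lf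 (nat_lit 0) (nat_lit 24040803891) (nat_lit 76) (nat_lit 10863176160) (nat_lit 76) (nat_lit 7430165242) (nat_lit 14) (nat_lit 4) (nat_lit 15) (nat_lit 5) (nat_lit 15) (nat_lit 4) (nat_lit 534) (nat_lit 348) (nat_lit 318)))) (XT.nd (nat_lit 156) (nat_lit 0) (nat_lit 0) (XT.nd (nat_lit 78) (nat_lit 152) (nat_lit 0) (XT.lf (nat_lit 0) (nat_lit 37986226775) (nat_lit 76) (nat_lit 4460397263) (nat_lit 76) (nat_lit 957328726) (nat_lit 14) (nat_lit 4) (nat_lit 15) (nat_lit 5) (nat_lit 15) (nat_lit 4) (nat_lit 535) (nat_lit 348) (nat_lit 317)) (XT.lf (nat_lit 0) (nat_lit 5605973577) (nat_lit 152) (nat_lit 36759104495) (nat_lit 0) (nat_lit 2138900139) (nat_lit 12) (nat_lit 5) (nat_lit 14) (nat_lit 4) (nat_lit 12) (nat_lit 4) (nat_lit 536) (nat_lit 348) (nat_lit 316))) (XT.nd (nat_lit 78) (nat_lit 0) (nat_lit 0) (XT.lf (nat_lit 0) (nat_lit 12358496167) (nat_lit 152) (nat_lit 24450568128) (nat_lit 0) (nat_lit 8827310084) (nat_lit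 12) (nat_lit 5) (nat_lit 14) (nat_lit 4) (nat_lit 12) (nat_lit 4) (nat_lit 537) (nat_lit 348) (nat_lit 315)) (XT.lf (nat_lit 0) (nat_lit 19228303318) (nat_lit 152) (nat_lit 11942127053) (nat_lit 0) (nat_lit 15634871948) (nat_lit 12) (nat_lit 5) (nat_lit 14) (nat_lit 4) (nat_lit 12) (nat_lit 4) (nat_lit 538) (nat_lit 348) (nat_lit 314))))) (XT.nd (nat_lit 312) (nat_lit 152) (nat_lit 0) (XT.nd (nat_lit 156) (nat_lit 0) (nat_lit 0) (XT.nd (nat_lit 78) (nat_lit 0) (nat_lit 0) (XT.lf (nat_lit 0) (nat_lit 792615211) (nat_lit 76) (nat_lit 25436401664) (nat_lit 76) (nat_lit 21782537978) (nat_lit 11) (nat_lit 4) (nat_lit 12) (nat_lit 5) (nat_lit 12) (nat_lit 4) (nat_lit 539) (nat_lit 348) (nat_lit 313)) (XT.lf (nat_lit 0) (nat_lit 13991394772) (nat_lit 76) (nat_lit 19486989079) (nat_lit 76) (nat_lit 15774453240) (nat_lit 11) (nat_lit 4) (nat_lit 12) (nat_lit 5) (nat_lit 12) (nat_lit 4) (nat_lit 540) (nat_lit 348) (nat_lit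 312))) (XT.nd (nat_lit 78) (nat_lit 0) (nat_lit 0) (XT.lf (nat_lit 0) (nat_lit 27428072798) (nat_lit 76) (nat_lit 13437586167) (nat_lit 76) (nat_lit 9668087074) (nat_lit 11) (nat_lit 4) (nat_lit 12) (nat_lit 5) (nat_lit 12) (nat_lit 4) (nat_lit 541) (nat_lit 348) (nat_lit 311)) (XT.lf (nat_lit 0) (nat_lit 41114390075) (nat_lit 76) (nat_lit 7282907043) (nat_lit 76) (nat_lit 3458103819) (nat_lit 11) (nat_lit 4) (nat_lit 12) (nat_lit 5) (nat_lit 12) (nat_lit 4) (nat_lit 542) (nat_lit 348) (nat_lit 310)))) (XT.nd (nat_lit 156) (nat_lit 0) (nat_lit 0) (XT.nd (nat_lit 78) (nat_lit 0) (nat_lit 0) (XT.lf (nat_lit 0) (nat_lit 1851986885) (nat_lit 76) (nat_lit 970911360) (nat_lit 152) (nat_lit 50394699284) (nat_lit 9) (nat_lit 5) (nat_lit 10) (nat_lit 5) (nat_lit 11) (nat_lit 4) (nat_lit 543) (nat_lit 348) (nat_lit 309)) (XT.lf (nat_lit 0) (nat_lit 9309838252) (nat_lit 152) (nat_lit 39813488674) (nat_lit 0) (nat_lit 5493696502)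 (nat_lit 9) (nat_lit 5) (nat_lit 11) (nat_lit 4) (nat_lit 9) (nat_lit 4) (nat_lit 544) (nat_lit 348) (nat_lit 308))) (XT.nd (nat_lit 78) (nat_lit 0) (nat_lit 0) (XT.lf (nat_lit 0) (nat_lit 15927517195) (nat_lit 152) (nat_lit 28070593457) (nat_lit 0) (nat_lit 12062238441) (nat_lit 9) (nat_lit 5) (nat_lit 11) (nat_lit 4) (nat_lit 9) (nat_lit 4) (nat_lit 545) (nat_lit 348) (nat_lit 307)) (XT.lf (nat_lit 0) (nat_lit 22672384520) (nat_lit 152) (nat_lit 16117331216) (nat_lit 0) (nat_lit 18759399937) (nat_lit 9) (nat_lit 5) (nat_lit 11) (nat_lit 4) (nat_lit 9) (nat_lit 4) (nat_lit 546) (nat_lit 348) (nat_lit 306))))))))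
noncomputable def xc11 : XT := (XT.nd (nat_lit 60684) (nat_lit 0) (nat_lit 0) (XT.nd (nat_lit 59514) (nat_lit 0) (nat_lit 1064) (XT.nd (nat_lit 546) (nat_lit 0) (nat_lit 0) (XT.nd (nat_lit 234) (nat_lit 152) (nat_lit 0) (XT.nd (nat_lit 78) (nat_lit 76) (nat_lit 0) (XT.lf (nat_lit 0) (nat_lit 29550333799) (nat_lit 152) (nat_lit 3943257353) (nat_lit 0) (nat_lit 25591032878) (nat_lit 9) (nat_lit 5) (nat_lit 11) (nat_lit 4) (nat_lit 9) (nat_lit 4) (nat_lit 547) (nat_lit 348) (nat_lit 305)) (XT.nd (nat_lit 78) (nat_lit 0) (nat_lit 0) (XT.lf (nat_lit 0) (nat_lit 8630681350) (nat_lit 76) (nat_lit 28019656931) (nat_lit 76) (nat_lit 24015388690) (nat_lit 8) (nat_lit 4) (nat_lit 9) (nat_lit 5) (nat_lit 9) (nat_lit 4) (nat_lit 548) (nat_lit 348) (nat_lit 304)) (XT.lf (nat_lit 0) (nat_lit 21530209571) (nat_lit 76) (nat_lit 22406391168) (nat_lit 76) (nat_lit 18358465336) (nat_lit 8) (nat_lit 4) (nat_lit 9) (nat_lit 5) (nat_lit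 9) (nat_lit 4) (nat_lit 549) (nat_lit 348) (nat_lit 303)))) (XT.nd (nat_lit 156) (nat_lit 152) (nat_lit 0) (XT.nd (nat_lit 78) (nat_lit 0) (nat_lit 0) (XT.lf (nat_lit 0) (nat_lit 34688120189) (nat_lit 76) (nat_lit 16688708236) (nat_lit 76) (nat_lit 12598396393) (nat_lit 8) (nat_lit 4) (nat_lit 9) (nat_lit 5) (nat_lit 9) (nat_lit 4) (nat_lit 550) (nat_lit 348) (nat_lit 302)) (XT.lf (nat_lit 0) (nat_lit 48115910407) (nat_lit 76) (nat_lit 10861612101) (nat_lit 76) (nat_lit 6730148791) (nat_lit 8) (nat_lit 4) (nat_lit 9) (nat_lit 5) (nat_lit 9) (nat_lit 4) (nat_lit 551) (nat_lit 348) (nat_lit 301))) (XT.nd (nat_lit 78) (nat_lit 152) (nat_lit 0) (XT.lf (nat_lit 0) (nat_lit 61825313245) (nat_lit 76) (nat_lit 4920011126) (nat_lit 76) (nat_lit 748594935) (nat_lit 8) (nat_lit 4) (nat_lit 9) (nat_lit 5) (nat_lit 9) (nat_lit 4) (nat_lit 552) (nat_lit 348) (nat_lit 300)) (XT.lf (nat_lit 0) (nat_lit 5322320569) (nat_lit 152)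 (nat_lit 62774665631) (nat_lit 0) (nat_lit 1234742515) (nat_lit 6) (nat_lit 5) (nat_lit 8) (nat_lit 4) (nat_lit 6) (nat_lit 4) (nat_lit 553) (nat_lit 348) (nat_lit 299))))) (XT.nd (nat_lit 58656) (nat_lit 0) (nat_lit 1976) (XT.nd (nat_lit 58500) (nat_lit 0) (nat_lit 2204) (XT.nd (nat_lit 58422) (nat_lit 0) (nat_lit 2280) (XT.lf (nat_lit 0) (nat_lit 11607158700) (nat_lit 152) (nat_lit 52132868694) (nat_lit 0) (nat_lit 7483018100) (nat_lit 6) (nat_lit 5) (nat_lit 8) (nat_lit 4) (nat_lit 6) (nat_lit 4) (nat_lit 554) (nat_lit 348) (nat_lit 298)) (XT.lf (nat_lit 0) (nat_lit 193504080) (nat_lit 152) (nat_lit 10037517437) (nat_lit 0) (nat_lit 193504080) (nat_lit 36) (nat_lit 5) (nat_lit 38) (nat_lit 4) (nat_lit 36) (nat_lit 4) (nat_lit 502) (nat_lit 349) (nat_lit 349))) (XT.nd (nat_lit 78) (nat_lit 76) (nat_lit 0) (XT.lf (nat_lit 0) (nat_lit 7582000428) (nat_lit 152) (nat_lit 6303575432) (nat_lit 0) (nat_lit 7366588421)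 (nat_lit 36) (nat_lit 5) (nat_lit 38) (nat_lit 4) (nat_lit 36) (nat_lit 4) (nat_lit 503) (nat_lit 349) (nat_lit 348)) (XT.lf (nat_lit 0) (nat_lit 7754615237) (nat_lit 76) (nat_lit 7169682805) (nat_lit 76) (nat_lit 6745132927) (nat_lit 35) (nat_lit 4) (nat_lit 36) (nat_lit 5) (nat_lit 36) (nat_lit 4) (nat_lit 504) (nat_lit 349) (nat_lit 347)))) (XT.nd (nat_lit 156) (nat_lit 76) (nat_lit 0) (XT.nd (nat_lit 78) (nat_lit 76) (nat_lit 0) (XT.lf (nat_lit 0) (nat_lit 301400660) (nat_lit 152) (nat_lit 15753013) (nat_lit 76) (nat_lit 21784314368) (nat_lit 34) (nat_lit 5) (nat_lit 36) (nat_lit 5) (nat_lit 35) (nat_lit 4) (nat_lit 505) (nat_lit 349) (nat_lit 346)) (XT.lf (nat_lit 0) (nat_lit 7487411300) (nat_lit 152) (nat_lit 8368441751) (nat_lit 0) (nat_lit 6686703673) (nat_lit 33) (nat_lit 5) (nat_lit 35) (nat_lit 4) (nat_lit 33) (nat_lit 4) (nat_lit 506) (nat_lit 349) (nat_lit 345))) (XT.nd (nat_lit 78) (nat_lit 0) (nat_lit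 0) (XT.lf (nat_lit 0) (nat_lit 5629848474) (nat_lit 76) (nat_lit 9177995847) (nat_lit 76) (nat_lit 8191471931) (nat_lit 32) (nat_lit 4) (nat_lit 33) (nat_lit 5) (nat_lit 33) (nat_lit 4) (nat_lit 507) (nat_lit 349) (nat_lit 344)) (XT.lf (nat_lit 0) (nat_lit 19952282227) (nat_lit 76) (nat_lit 2343002960) (nat_lit 76) (nat_lit 1176074879) (nat_lit 32) (nat_lit 4) (nat_lit 33) (nat_lit 5) (nat_lit 33) (nat_lit 4) (nat_lit 508) (nat_lit 349) (nat_lit 343)))))) (XT.nd (nat_lit 546) (nat_lit 456) (nat_lit 0) (XT.nd (nat_lit 234) (nat_lit 228) (nat_lit 0) (XT.nd (nat_lit 78) (nat_lit 76) (nat_lit 0) (XT.lf (nat_lit 0) (nat_lit 5945023360) (nat_lit 152) (nat_lit 13368366344) (nat_lit 0) (nat_lit 4642035248) (nat_lit 30) (nat_lit 5) (nat_lit 32) (nat_lit 4) (nat_lit 30) (nat_lit 4) (nat_lit 509) (nat_lit 349) (nat_lit 342)) (XT.nd (nat_lit 78) (nat_lit 0) (nat_lit 0) (XT.lf (nat_lit 0) (nat_lit 446645544) (nat_lit 76) (nat_lit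 12738614572) (nat_lit 76) (nat_lit 11270531094) (nat_lit 29) (nat_lit 4) (nat_lit 30) (nat_lit 5) (nat_lit 30) (nat_lit 4) (nat_lit 510) (nat_lit 349) (nat_lit 341)) (XT.lf (nat_lit 0) (nat_lit 14690272196) (nat_lit 76) (nat_lit 5954602183) (nat_lit 76) (nat_lit 4326231941) (nat_lit 29) (nat_lit 4) (nat_lit 30) (nat_lit 5) (nat_lit 30) (nat_lit 4) (nat_lit 511) (nat_lit 349) (nat_lit 340)))) (XT.nd (nat_lit 156) (nat_lit 76) (nat_lit 0) (XT.nd (nat_lit 78) (nat_lit 0) (nat_lit 0) (XT.lf (nat_lit 0) (nat_lit 2685426377) (nat_lit 152) (nat_lit 21864817988) (nat_lit 0) (nat_lit 953398747) (nat_lit 27) (nat_lit 5) (nat_lit 29) (nat_lit 4) (nat_lit 27) (nat_lit 4) (nat_lit 512) (nat_lit 349) (nat_lit 339)) (XT.lf (nat_lit 0) (nat_lit 9854226776) (nat_lit 152) (nat_lit 8220120522) (nat_lit 0) (nat_lit 7975514051) (nat_lit 27) (nat_lit 5) (nat_lit 29) (nat_lit 4) (nat_lit 27) (nat_lit 4) (nat_lit 513) (nat_lit 349) (nat_lit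 338))) (XT.nd (nat_lit 78) (nat_lit 0) (nat_lit 0) (XT.lf (nat_lit 0) (nat_lit 5697443223) (nat_lit 76) (nat_lit 11469147995) (nat_lit 76) (nat_lit 9448022557) (nat_lit 26) (nat_lit 4) (nat_lit 27) (nat_lit 5) (nat_lit 27) (nat_lit 4) (nat_lit 514) (nat_lit 349) (nat_lit 337)) (XT.lf (nat_lit 0) (nat_lit 19955813973) (nat_lit 76) (nat_lit 4700572882) (nat_lit 76) (nat_lit 2541182674) (nat_lit 26) (nat_lit 4) (nat_lit 27) (nat_lit 5) (nat_lit 27) (nat_lit 4) (nat_lit 515) (nat_lit 349) (nat_lit 336))))) (XT.nd (nat_lit 312) (nat_lit 228) (nat_lit 0) (XT.nd (nat_lit 156) (nat_lit 76) (nat_lit 0) (XT.nd (nat_lit 78) (nat_lit 0) (nat_lit 0) (XT.lf (nat_lit 0) (nat_lit 4447194880) (nat_lit 152) (nat_lit 21130224090) (nat_lit 0) (nat_lit 2220371725) (nat_lit 24) (nat_lit 5) (nat_lit 26) (nat_lit 4) (nat_lit 24) (nat_lit 4) (nat_lit 516) (nat_lit 349) (nat_lit 335)) (XT.lf (nat_lit 0) (nat_lit 11592184161) (nat_lit 152)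 (nat_lit 7584311651) (nat_lit 0) (nat_lit 9238829155) (nat_lit 24) (nat_lit 5) (nat_lit 26) (nat_lit 4) (nat_lit 24) (nat_lit 4) (nat_lit 517) (nat_lit 349) (nat_lit 334))) (XT.nd (nat_lit 78) (nat_lit 0) (nat_lit 0) (XT.lf (nat_lit 0) (nat_lit 6256393300) (nat_lit 76) (nat_lit 12636477637) (nat_lit 76) (nat_lit 10160276173) (nat_lit 23) (nat_lit 4) (nat_lit 24) (nat_lit 5) (nat_lit 24) (nat_lit 4) (nat_lit 518) (nat_lit 349) (nat_lit 333)) (XT.lf (nat_lit 0) (nat_lit 20436411602) (nat_lit 76) (nat_lit 5935196748) (nat_lit 76) (nat_lit 3339726879) (nat_lit 23) (nat_lit 4) (nat_lit 24) (nat_lit 5) (nat_lit 24) (nat_lit 4) (nat_lit 519) (nat_lit 349) (nat_lit 332)))) (XT.nd (nat_lit 156) (nat_lit 76) (nat_lit 0) (XT.nd (nat_lit 78) (nat_lit 0) (nat_lit 0) (XT.lf (nat_lit 0) (nat_lit 3550299114) (nat_lit 152) (nat_lit 25921802325) (nat_lit 0) (nat_lit 918003544) (nat_lit 21) (nat_lit 5) (nat_lit 23) (nat_lit 4) (nat_lit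 21) (nat_lit 4) (nat_lit 520) (nat_lit 349) (nat_lit 331)) (XT.lf (nat_lit 0) (nat_lit 10618119668) (nat_lit 152) (nat_lit 12592305007) (nat_lit 0) (nat_lit 7876676611) (nat_lit 21) (nat_lit 5) (nat_lit 23) (nat_lit 4) (nat_lit 21) (nat_lit 4) (nat_lit 521) (nat_lit 349) (nat_lit 330))) (XT.nd (nat_lit 78) (nat_lit 0) (nat_lit 0) (XT.lf (nat_lit 0) (nat_lit 934862215) (nat_lit 76) (nat_lit 16860321231) (nat_lit 76) (nat_lit 14012909741) (nat_lit 20) (nat_lit 4) (nat_lit 21) (nat_lit 5) (nat_lit 21) (nat_lit 4) (nat_lit 522) (nat_lit 349) (nat_lit 329)) (XT.lf (nat_lit 0) (nat_lit 14907678169) (nat_lit 76) (nat_lit 10296417969) (nat_lit 76) (nat_lit 7346124505) (nat_lit 20) (nat_lit 4) (nat_lit 21) (nat_lit 5) (nat_lit 21) (nat_lit 4) (nat_lit 523) (nat_lit 349) (nat_lit 328))))))) (XT.nd (nat_lit 1170) (nat_lit 456) (nat_lit 0) (XT.nd (nat_lit 546) (nat_lit 228) (nat_lit 0) (XT.nd (nat_lit 234) (nat_lit 228) (nat_lit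 0) (XT.nd (nat_lit 78) (nat_lit 152) (nat_lit 0) (XT.lf (nat_lit 0) (nat_lit 29087740548) (nat_lit 76) (nat_lit 3640137031) (nat_lit 76) (nat_lit 589958155) (nat_lit 20) (nat_lit 4) (nat_lit 21) (nat_lit 5) (nat_lit 21) (nat_lit 4) (nat_lit 524) (nat_lit 349) (nat_lit 327)) (XT.nd (nat_lit 78) (nat_lit 0) (nat_lit 0) (XT.lf (nat_lit 0) (nat_lit 6262075403) (nat_lit 152) (nat_lit 24637459995) (nat_lit 0) (nat_lit 3206585108) (nat_lit 18) (nat_lit 5) (nat_lit 20) (nat_lit 4) (nat_lit 18) (nat_lit 4) (nat_lit 525) (nat_lit 349) (nat_lit 326)) (XT.lf (nat_lit 0) (nat_lit 13281799176) (nat_lit 152) (nat_lit 11501961921) (nat_lit 0) (nat_lit 10134899579) (nat_lit 18) (nat_lit 5) (nat_lit 20) (nat_lit 4) (nat_lit 18) (nat_lit 4) (nat_lit 526) (nat_lit 349) (nat_lit 325)))) (XT.nd (nat_lit 156) (nat_lit 152) (nat_lit 0) (XT.nd (nat_lit 78) (nat_lit 0) (nat_lit 0) (XT.lf (nat_lit 0) (nat_lit 1862017115) (nat_lit 76) (nat_lit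 18565867489) (nat_lit 76) (nat_lit 15330220997) (nat_lit 17) (nat_lit 4) (nat_lit 18) (nat_lit 5) (nat_lit 18) (nat_lit 4) (nat_lit 527) (nat_lit 349) (nat_lit 324)) (XT.lf (nat_lit 0) (nat_lit 15662755422) (nat_lit 76) (nat_lit 12140668222) (nat_lit 76) (nat_lit 8818859697) (nat_lit 17) (nat_lit 4) (nat_lit 18) (nat_lit 5) (nat_lit 18) (nat_lit 4) (nat_lit 528) (nat_lit 349) (nat_lit 323))) (XT.nd (nat_lit 78) (nat_lit 152) (nat_lit 0) (XT.lf (nat_lit 0) (nat_lit 29683400300) (nat_lit 76) (nat_lit 5618696307) (nat_lit 76) (nat_lit 2213235322) (nat_lit 17) (nat_lit 4) (nat_lit 18) (nat_lit 5) (nat_lit 18) (nat_lit 4) (nat_lit 529) (nat_lit 349) (nat_lit 322)) (XT.lf (nat_lit 0) (nat_lit 4468865849) (nat_lit 152) (nat_lit 32882204600) (nat_lit 0) (nat_lit 1083742582) (nat_lit 15) (nat_lit 5) (nat_lit 17) (nat_lit 4) (nat_lit 15) (nat_lit 4) (nat_lit 530) (nat_lit 349) (nat_lit 321))))) (XT.nd (nat_lit 312) (nat_lit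 152) (nat_lit 0) (XT.nd (nat_lit 156) (nat_lit 76) (nat_lit 0) (XT.nd (nat_lit 78) (nat_lit 0) (nat_lit 0) (XT.lf (nat_lit 0) (nat_lit 11346321963) (nat_lit 152) (nat_lit 20149074509) (nat_lit 0) (nat_lit 7884644844) (nat_lit 15) (nat_lit 5) (nat_lit 17) (nat_lit 4) (nat_lit 15) (nat_lit 4) (nat_lit 531) (nat_lit 349) (nat_lit 320)) (XT.lf (nat_lit 0) (nat_lit 18336776415) (nat_lit 152) (nat_lit 7218876006) (nat_lit 0) (nat_lit 14800775169) (nat_lit 15) (nat_lit 5) (nat_lit 17) (nat_lit 4) (nat_lit 15) (nat_lit 4) (nat_lit 532) (nat_lit 349) (nat_lit 319))) (XT.nd (nat_lit 78) (nat_lit 0) (nat_lit 0) (XT.lf (nat_lit 0) (nat_lit 6037502562) (nat_lit 76) (nat_lit 19466870974) (nat_lit 76) (nat_lit 15858710381) (nat_lit 14) (nat_lit 4) (nat_lit 15) (nat_lit 5) (nat_lit 15) (nat_lit 4) (nat_lit 533) (nat_lit 349) (nat_lit 318)) (XT.lf (nat_lit 0) (nat_lit 19661773247) (nat_lit 76) (nat_lit 13208444807) (nat_lit 76)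 (nat_lit 9530226596) (nat_lit 14) (nat_lit 4) (nat_lit 15) (nat_lit 5) (nat_lit 15) (nat_lit 4) (nat_lit 534) (nat_lit 349) (nat_lit 317)))) (XT.nd (nat_lit 156) (nat_lit 0) (nat_lit 0) (XT.nd (nat_lit 78) (nat_lit 152) (nat_lit 0) (XT.lf (nat_lit 0) (nat_lit 33522170963) (nat_lit 76) (nat_lit 6847801886) (nat_lit 76) (nat_lit 3101566570) (nat_lit 14) (nat_lit 4) (nat_lit 15) (nat_lit 5) (nat_lit 15) (nat_lit 4) (nat_lit 535) (nat_lit 349) (nat_lit 316)) (XT.lf (nat_lit 0) (nat_lit 3080617541) (nat_lit 76) (nat_lit 314894222) (nat_lit 152) (nat_lit 41179914014) (nat_lit 12) (nat_lit 5) (nat_lit 13) (nat_lit 5) (nat_lit 14) (nat_lit 4) (nat_lit 536) (nat_lit 349) (nat_lit 315))) (XT.nd (nat_lit 78) (nat_lit 0) (nat_lit 0) (XT.lf (nat_lit 0) (nat_lit 10102992069) (nat_lit 152) (nat_lit 29266669240) (nat_lit 0) (nat_lit 6339512472) (nat_lit 12) (nat_lit 5) (nat_lit 14) (nat_lit 4) (nat_lit 12) (nat_lit 4) (nat_lit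 537) (nat_lit 349) (nat_lit 314)) (XT.lf (nat_lit 0) (nat_lit 16932007639) (nat_lit 152) (nat_lit 16839222657) (nat_lit 0) (nat_lit 13108095725) (nat_lit 12) (nat_lit 5) (nat_lit 14) (nat_lit 4) (nat_lit 12) (nat_lit 4) (nat_lit 538) (nat_lit 349) (nat_lit 313)))))) (XT.nd (nat_lit 624) (nat_lit 228) (nat_lit 0) (XT.nd (nat_lit 312) (nat_lit 152) (nat_lit 0) (XT.nd (nat_lit 156) (nat_lit 0) (nat_lit 0) (XT.nd (nat_lit 78) (nat_lit 76) (nat_lit 0) (XT.lf (nat_lit 0) (nat_lit 23885498619) (nat_lit 152) (nat_lit 4198582598) (nat_lit 0) (nat_lit 20002914552) (nat_lit 12) (nat_lit 5) (nat_lit 14) (nat_lit 4) (nat_lit 12) (nat_lit 4) (nat_lit 539) (nat_lit 349) (nat_lit 312)) (XT.lf (nat_lit 0) (nat_lit 8838772442) (nat_lit 76) (nat_lit 22215732119) (nat_lit 76) (nat_lit 18276184798) (nat_lit 11) (nat_lit 4) (nat_lit 12) (nat_lit 5) (nat_lit 12) (nat_lit 4) (nat_lit 540) (nat_lit 349) (nat_lit 311))) (XT.nd (nat_lit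 78) (nat_lit 0) (nat_lit 0) (XT.lf (nat_lit 0) (nat_lit 22199853872) (nat_lit 76) (nat_lit 16203869047) (nat_lit 76) (nat_lit 12209017596) (nat_lit 11) (nat_lit 4) (nat_lit 12) (nat_lit 5) (nat_lit 12) (nat_lit 4) (nat_lit 541) (nat_lit 349) (nat_lit 310)) (XT.lf (nat_lit 0) (nat_lit 35812776396) (nat_lit 76) (nat_lit 10085636370) (nat_lit 76) (nat_lit 6037091587) (nat_lit 11) (nat_lit 4) (nat_lit 12) (nat_lit 5) (nat_lit 12) (nat_lit 4) (nat_lit 542) (nat_lit 349) (nat_lit 309)))) (XT.nd (nat_lit 156) (nat_lit 0) (nat_lit 0) (XT.nd (nat_lit 78) (nat_lit 76) (nat_lit 0) (XT.lf (nat_lit 0) (nat_lit 240205608) (nat_lit 152) (nat_lit 3613056843) (nat_lit 76) (nat_lit 49446803586) (nat_lit 10) (nat_lit 5) (nat_lit 12) (nat_lit 5) (nat_lit 11) (nat_lit 4) (nat_lit 543) (nat_lit 349) (nat_lit 308)) (XT.lf (nat_lit 0) (nat_lit 6627467701) (nat_lit 152) (nat_lit 45477921441) (nat_lit 0) (nat_lit 2597093581) (nat_lit 9)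 (nat_lit 5) (nat_lit 11) (nat_lit 4) (nat_lit 9) (nat_lit 4) (nat_lit 544) (nat_lit 349) (nat_lit 307))) (XT.nd (nat_lit 78) (nat_lit 0) (nat_lit 0) (XT.lf (nat_lit 0) (nat_lit 13210002809) (nat_lit 152) (nat_lit 33804937471) (nat_lit 0) (nat_lit 9131922859) (nat_lit 9) (nat_lit 5) (nat_lit 11) (nat_lit 4) (nat_lit 9) (nat_lit 4) (nat_lit 545) (nat_lit 349) (nat_lit 306)) (XT.lf (nat_lit 0) (nat_lit 19920749904) (nat_lit 152) (nat_lit 21919550228) (nat_lit 0) (nat_lit 15796353616) (nat_lit 9) (nat_lit 5) (nat_lit 11) (nat_lit 4) (nat_lit 9) (nat_lit 4) (nat_lit 546) (nat_lit 349) (nat_lit 305))))) (XT.nd (nat_lit 312) (nat_lit 152) (nat_lit 0) (XT.nd (nat_lit 156) (nat_lit 0) (nat_lit 0) (XT.nd (nat_lit 78) (nat_lit 76) (nat_lit 0) (XT.lf (nat_lit 0) (nat_lit 26765572748) (nat_lit 152) (nat_lit 9811374422) (nat_lit 0) (nat_lit 22596209141) (nat_lit 9) (nat_lit 5) (nat_lit 11) (nat_lit 4) (nat_lit 9) (nat_lit 4)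 (nat_lit 547) (nat_lit 349) (nat_lit 304)) (XT.lf (nat_lit 0) (nat_lit 2580525249) (nat_lit 76) (nat_lit 31194732591) (nat_lit 76) (nat_lit 26981711392) (nat_lit 8) (nat_lit 4) (nat_lit 9) (nat_lit 5) (nat_lit 9) (nat_lit 4) (nat_lit 548) (nat_lit 349) (nat_lit 303))) (XT.nd (nat_lit 78) (nat_lit 0) (nat_lit 0) (XT.lf (nat_lit 0) (nat_lit 15416702017) (nat_lit 76) (nat_lit 25612984465) (nat_lit 76) (nat_lit 21357577255) (nat_lit 8) (nat_lit 4) (nat_lit 9) (nat_lit 5) (nat_lit 9) (nat_lit 4) (nat_lit 549) (nat_lit 349) (nat_lit 302)) (XT.lf (nat_lit 0) (nat_lit 28513106369) (nat_lit 76) (nat_lit 19925901181) (nat_lit 76) (nat_lit 15629342504) (nat_lit 8) (nat_lit 4) (nat_lit 9) (nat_lit 5) (nat_lit 9) (nat_lit 4) (nat_lit 550) (nat_lit 349) (nat_lit 301)))) (XT.nd (nat_lit 156) (nat_lit 152) (nat_lit 0) (XT.nd (nat_lit 78) (nat_lit 0) (nat_lit 0) (XT.lf (nat_lit 0) (nat_lit 41881181766) (nat_lit 76) (nat_lit 14128513442)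 (nat_lit 76) (nat_lit 9792001884) (nat_lit 8) (nat_lit 4) (nat_lit 9) (nat_lit 5) (nat_lit 9) (nat_lit 4) (nat_lit 551) (nat_lit 349) (nat_lit 300)) (XT.lf (nat_lit 0) (nat_lit 55532609051) (nat_lit 76) (nat_lit 8215755570) (nat_lit 76) (nat_lit 3840454808) (nat_lit 8) (nat_lit 4) (nat_lit 9) (nat_lit 5) (nat_lit 9) (nat_lit 4) (nat_lit 552) (nat_lit 349) (nat_lit 299))) (XT.nd (nat_lit 78) (nat_lit 0) (nat_lit 0) (XT.lf (nat_lit 0) (nat_lit 27126441) (nat_lit 76) (nat_lit 2160108349) (nat_lit 152) (nat_lit 67243392784) (nat_lit 6) (nat_lit 5) (nat_lit 7) (nat_lit 5) (nat_lit 8) (nat_lit 4) (nat_lit 553) (nat_lit 349) (nat_lit 298)) (XT.lf (nat_lit 0) (nat_lit 8422765733) (nat_lit 152) (nat_lit 58797817408) (nat_lit 0) (nat_lit 4102840752) (nat_lit 6) (nat_lit 5) (nat_lit 8) (nat_lit 4) (nat_lit 6) (nat_lit 4) (nat_lit 554) (nat_lit 349) (nat_lit 297))))))))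
noncomputable def xc12 : XT := (XT.nd (nat_lit 2340) (nat_lit 836) (nat_lit 0) (XT.nd (nat_lit 1170) (nat_lit 684) (nat_lit 0) (XT.nd (nat_lit 546) (nat_lit 532) (nat_lit 0) (XT.nd (nat_lit 234) (nat_lit 228) (nat_lit 0) (XT.nd (nat_lit 78) (nat_lit 228) (nat_lit 0) (XT.lf (nat_lit 0) (nat_lit 3378170672) (nat_lit 152) (nat_lit 3279038257) (nat_lit 0) (nat_lit 3378170672) (nat_lit 39) (nat_lit 5) (nat_lit 41) (nat_lit 4) (nat_lit 39) (nat_lit 4) (nat_lit 500) (nat_lit 350) (nat_lit 350)) (XT.nd (nat_lit 78) (nat_lit 152) (nat_lit 0) (XT.lf (nat_lit 0) (nat_lit 7323158727) (nat_lit 76) (nat_lit 6679830273) (nat_lit 76) (nat_lit 6451299675) (nat_lit 38) (nat_lit 4) (nat_lit 39) (nat_lit 5) (nat_lit 39) (nat_lit 4) (nat_lit 501) (nat_lit 350) (nat_lit 349)) (XT.lf (nat_lit 0) (nat_lit 536281975) (nat_lit 152) (nat_lit 20215953605) (nat_lit 0) (nat_lit 98995600) (nat_lit 36) (nat_lit 5) (nat_lit 38) (nat_lit 4) (nat_lit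 36) (nat_lit 4) (nat_lit 502) (nat_lit 350) (nat_lit 348)))) (XT.nd (nat_lit 156) (nat_lit 152) (nat_lit 0) (XT.nd (nat_lit 78) (nat_lit 76) (nat_lit 0) (XT.lf (nat_lit 0) (nat_lit 7660788268) (nat_lit 152) (nat_lit 6581308463) (nat_lit 0) (nat_lit 7014364024) (nat_lit 36) (nat_lit 5) (nat_lit 38) (nat_lit 4) (nat_lit 36) (nat_lit 4) (nat_lit 503) (nat_lit 350) (nat_lit 347)) (XT.lf (nat_lit 0) (nat_lit 7335881789) (nat_lit 76) (nat_lit 7594745987) (nat_lit 76) (nat_lit 6745275266) (nat_lit 35) (nat_lit 4) (nat_lit 36) (nat_lit 5) (nat_lit 36) (nat_lit 4) (nat_lit 504) (nat_lit 350) (nat_lit 346))) (XT.nd (nat_lit 78) (nat_lit 76) (nat_lit 0) (XT.lf (nat_lit 0) (nat_lit 232884885) (nat_lit 152) (nat_lit 573846905) (nat_lit 76) (nat_lit 21303261400) (nat_lit 34) (nat_lit 5) (nat_lit 36) (nat_lit 5) (nat_lit 35) (nat_lit 4) (nat_lit 505) (nat_lit 350) (nat_lit 345)) (XT.lf (nat_lit 0) (nat_lit 7340399546) (nat_lit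 152) (nat_lit 9074575282) (nat_lit 0) (nat_lit 6138463623) (nat_lit 33) (nat_lit 5) (nat_lit 35) (nat_lit 4) (nat_lit 33) (nat_lit 4) (nat_lit 506) (nat_lit 350) (nat_lit 344))))) (XT.nd (nat_lit 312) (nat_lit 304) (nat_lit 0) (XT.nd (nat_lit 156) (nat_lit 152) (nat_lit 0) (XT.nd (nat_lit 78) (nat_lit 0) (nat_lit 0) (XT.lf (nat_lit 0) (nat_lit 4777961979) (nat_lit 76) (nat_lit 9808405839) (nat_lit 76) (nat_lit 8426065751) (nat_lit 32) (nat_lit 4) (nat_lit 33) (nat_lit 5) (nat_lit 33) (nat_lit 4) (nat_lit 507) (nat_lit 350) (nat_lit 343)) (XT.lf (nat_lit 0) (nat_lit 18972532118) (nat_lit 76) (nat_lit 3035701934) (nat_lit 76) (nat_lit 1478212172) (nat_lit 32) (nat_lit 4) (nat_lit 33) (nat_lit 5) (nat_lit 33) (nat_lit 4) (nat_lit 508) (nat_lit 350) (nat_lit 342))) (XT.nd (nat_lit 78) (nat_lit 0) (nat_lit 0) (XT.lf (nat_lit 0) (nat_lit 5566147436) (nat_lit 152) (nat_lit 14518005257) (nat_lit 0) (nat_lit 3888926086)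 (nat_lit 30) (nat_lit 5) (nat_lit 32) (nat_lit 4) (nat_lit 30) (nat_lit 4) (nat_lit 509) (nat_lit 350) (nat_lit 341)) (XT.lf (nat_lit 0) (nat_lit 12737890853) (nat_lit 152) (nat_lit 837227711) (nat_lit 0) (nat_lit 10900382740) (nat_lit 30) (nat_lit 5) (nat_lit 32) (nat_lit 4) (nat_lit 30) (nat_lit 4) (nat_lit 510) (nat_lit 350) (nat_lit 340)))) (XT.nd (nat_lit 156) (nat_lit 76) (nat_lit 0) (XT.nd (nat_lit 78) (nat_lit 152) (nat_lit 0) (XT.lf (nat_lit 0) (nat_lit 13265448361) (nat_lit 76) (nat_lit 6860323894) (nat_lit 76) (nat_lit 4867197564) (nat_lit 29) (nat_lit 4) (nat_lit 30) (nat_lit 5) (nat_lit 30) (nat_lit 4) (nat_lit 511) (nat_lit 350) (nat_lit 339)) (XT.lf (nat_lit 0) (nat_lit 2053941661) (nat_lit 76) (nat_lit 14114318) (nat_lit 152) (nat_lit 23460216805) (nat_lit 27) (nat_lit 5) (nat_lit 28) (nat_lit 5) (nat_lit 29) (nat_lit 4) (nat_lit 512) (nat_lit 350) (nat_lit 338))) (XT.nd (nat_lit 78) (nat_lit 76)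 (nat_lit 0) (XT.lf (nat_lit 0) (nat_lit 9174520073) (nat_lit 152) (nat_lit 9951494180) (nat_lit 0) (nat_lit 6950348159) (nat_lit 27) (nat_lit 5) (nat_lit 29) (nat_lit 4) (nat_lit 27) (nat_lit 4) (nat_lit 513) (nat_lit 350) (nat_lit 337)) (XT.lf (nat_lit 0) (nat_lit 3810811677) (nat_lit 76) (nat_lit 12597548420) (nat_lit 76) (nat_lit 10235111736) (nat_lit 26) (nat_lit 4) (nat_lit 27) (nat_lit 5) (nat_lit 27) (nat_lit 4) (nat_lit 514) (nat_lit 350) (nat_lit 336)))))) (XT.nd (nat_lit 546) (nat_lit 304) (nat_lit 0) (XT.nd (nat_lit 234) (nat_lit 228) (nat_lit 0) (XT.nd (nat_lit 78) (nat_lit 152) (nat_lit 0) (XT.lf (nat_lit 0) (nat_lit 17951900721) (nat_lit 76) (nat_lit 5886497571) (nat_lit 76) (nat_lit 3389823245) (nat_lit 26) (nat_lit 4) (nat_lit 27) (nat_lit 5) (nat_lit 27) (nat_lit 4) (nat_lit 515) (nat_lit 350) (nat_lit 335)) (XT.nd (nat_lit 78) (nat_lit 0) (nat_lit 0) (XT.lf (nat_lit 0) (nat_lit 3523296290) (nat_lit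 152) (nat_lit 23335338058) (nat_lit 0) (nat_lit 972808783) (nat_lit 24) (nat_lit 5) (nat_lit 26) (nat_lit 4) (nat_lit 24) (nat_lit 4) (nat_lit 516) (nat_lit 350) (nat_lit 334)) (XT.lf (nat_lit 0) (nat_lit 10609767116) (nat_lit 152) (nat_lit 9904533810) (nat_lit 0) (nat_lit 7936433151) (nat_lit 24) (nat_lit 5) (nat_lit 26) (nat_lit 4) (nat_lit 24) (nat_lit 4) (nat_lit 517) (nat_lit 350) (nat_lit 333)))) (XT.nd (nat_lit 156) (nat_lit 152) (nat_lit 0) (XT.nd (nat_lit 78) (nat_lit 0) (nat_lit 0) (XT.lf (nat_lit 0) (nat_lit 3776014490) (nat_lit 76) (nat_lit 14053782450) (nat_lit 76) (nat_lit 11261180080) (nat_lit 23) (nat_lit 4) (nat_lit 24) (nat_lit 5) (nat_lit 24) (nat_lit 4) (nat_lit 518) (nat_lit 350) (nat_lit 332)) (XT.lf (nat_lit 0) (nat_lit 17845372908) (nat_lit 76) (nat_lit 7406938458) (nat_lit 76) (nat_lit 4498541519) (nat_lit 23) (nat_lit 4) (nat_lit 24) (nat_lit 5) (nat_lit 24) (nat_lit 4) (nat_lit 519) (nat_lit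 350) (nat_lit 331))) (XT.nd (nat_lit 78) (nat_lit 0) (nat_lit 0) (XT.lf (nat_lit 0) (nat_lit 1695329074) (nat_lit 76) (nat_lit 627896504) (nat_lit 152) (nat_lit 28109458383) (nat_lit 21) (nat_lit 5) (nat_lit 22) (nat_lit 5) (nat_lit 23) (nat_lit 4) (nat_lit 520) (nat_lit 350) (nat_lit 330)) (XT.lf (nat_lit 0) (nat_lit 9329947422) (nat_lit 152) (nat_lit 15510421620) (nat_lit 0) (nat_lit 6291145153) (nat_lit 21) (nat_lit 5) (nat_lit 23) (nat_lit 4) (nat_lit 21) (nat_lit 4) (nat_lit 521) (nat_lit 350) (nat_lit 329))))) (XT.nd (nat_lit 312) (nat_lit 76) (nat_lit 0) (XT.nd (nat_lit 156) (nat_lit 152) (nat_lit 0) (XT.nd (nat_lit 78) (nat_lit 76) (nat_lit 0) (XT.lf (nat_lit 0) (nat_lit 16444565524) (nat_lit 152) (nat_lit 2106933600) (nat_lit 0) (nat_lit 13302881282) (nat_lit 21) (nat_lit 5) (nat_lit 23) (nat_lit 4) (nat_lit 21) (nat_lit 4) (nat_lit 522) (nat_lit 350) (nat_lit 328)) (XT.lf (nat_lit 0) (nat_lit 11719547262)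 (nat_lit 76) (nat_lit 12060369012) (nat_lit 76) (nat_lit 8818799358) (nat_lit 20) (nat_lit 4) (nat_lit 21) (nat_lit 5) (nat_lit 21) (nat_lit 4) (nat_lit 523) (nat_lit 350) (nat_lit 327))) (XT.nd (nat_lit 78) (nat_lit 152) (nat_lit 0) (XT.lf (nat_lit 0) (nat_lit 25798247523) (nat_lit 76) (nat_lit 5454085406) (nat_lit 76) (nat_lit 2115539624) (nat_lit 20) (nat_lit 4) (nat_lit 21) (nat_lit 5) (nat_lit 21) (nat_lit 4) (nat_lit 524) (nat_lit 350) (nat_lit 326)) (XT.lf (nat_lit 0) (nat_lit 4663942990) (nat_lit 152) (nat_lit 28164497625) (nat_lit 0) (nat_lit 1331227104) (nat_lit 18) (nat_lit 5) (nat_lit 20) (nat_lit 4) (nat_lit 18) (nat_lit 4) (nat_lit 525) (nat_lit 350) (nat_lit 325)))) (XT.nd (nat_lit 156) (nat_lit 76) (nat_lit 0) (XT.nd (nat_lit 78) (nat_lit 0) (nat_lit 0) (XT.lf (nat_lit 0) (nat_lit 11633356958) (nat_lit 152) (nat_lit 15128466862) (nat_lit 0) (nat_lit 8211894177) (nat_lit 18) (nat_lit 5) (nat_lit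 20) (nat_lit 4) (nat_lit 18) (nat_lit 4) (nat_lit 526) (nat_lit 350) (nat_lit 324)) (XT.lf (nat_lit 0) (nat_lit 18712699067) (nat_lit 152) (nat_lit 1897392689) (nat_lit 0) (nat_lit 15205074252) (nat_lit 18) (nat_lit 5) (nat_lit 20) (nat_lit 4) (nat_lit 18) (nat_lit 4) (nat_lit 527) (nat_lit 350) (nat_lit 323))) (XT.nd (nat_lit 78) (nat_lit 0) (nat_lit 0) (XT.lf (nat_lit 0) (nat_lit 11769960345) (nat_lit 76) (nat_lit 14251334864) (nat_lit 76) (nat_lit 10660057589) (nat_lit 17) (nat_lit 4) (nat_lit 18) (nat_lit 5) (nat_lit 18) (nat_lit 4) (nat_lit 528) (nat_lit 350) (nat_lit 322)) (XT.lf (nat_lit 0) (nat_lit 25697766935) (nat_lit 76) (nat_lit 7775268220) (nat_lit 76) (nat_lit 4102774965) (nat_lit 17) (nat_lit 4) (nat_lit 18) (nat_lit 5) (nat_lit 18) (nat_lit 4) (nat_lit 529) (nat_lit 350) (nat_lit 321))))))) (XT.nd (nat_lit 1170) (nat_lit 228) (nat_lit 0) (XT.nd (nat_lit 546) (nat_lit 304) (nat_lit 0) (XT.nd (nat_lit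 234) (nat_lit 152) (nat_lit 0) (XT.nd (nat_lit 78) (nat_lit 0) (nat_lit 0) (XT.lf (nat_lit 0) (nat_lit 1362577000) (nat_lit 76) (nat_lit 1156595769) (nat_lit 152) (nat_lit 35979574810) (nat_lit 15) (nat_lit 5) (nat_lit 16) (nat_lit 5) (nat_lit 17) (nat_lit 4) (nat_lit 530) (nat_lit 350) (nat_lit 320)) (XT.nd (nat_lit 78) (nat_lit 0) (nat_lit 0) (XT.lf (nat_lit 0) (nat_lit 9339537900) (nat_lit 152) (nat_lit 24483018882) (nat_lit 0) (nat_lit 5623132490) (nat_lit 15) (nat_lit 5) (nat_lit 17) (nat_lit 4) (nat_lit 15) (nat_lit 4) (nat_lit 531) (nat_lit 350) (nat_lit 319)) (XT.lf (nat_lit 0) (nat_lit 16285358297) (nat_lit 152) (nat_lit 11641263389) (nat_lit 0) (nat_lit 12496793540) (nat_lit 15) (nat_lit 5) (nat_lit 17) (nat_lit 4) (nat_lit 15) (nat_lit 4) (nat_lit 532) (nat_lit 350) (nat_lit 318)))) (XT.nd (nat_lit 156) (nat_lit 76) (nat_lit 0) (XT.nd (nat_lit 78) (nat_lit 0) (nat_lit 0) (XT.lf (nat_lit 0) (nat_lit 1439525076)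 (nat_lit 76) (nat_lit 21925897735) (nat_lit 76) (nat_lit 18067275360) (nat_lit 14) (nat_lit 4) (nat_lit 15) (nat_lit 5) (nat_lit 15) (nat_lit 4) (nat_lit 533) (nat_lit 350) (nat_lit 317)) (XT.lf (nat_lit 0) (nat_lit 14978770594) (nat_lit 76) (nat_lit 15709607544) (nat_lit 76) (nat_lit 11782968064) (nat_lit 14) (nat_lit 4) (nat_lit 15) (nat_lit 5) (nat_lit 15) (nat_lit 4) (nat_lit 534) (nat_lit 350) (nat_lit 316))) (XT.nd (nat_lit 78) (nat_lit 76) (nat_lit 0) (XT.lf (nat_lit 0) (nat_lit 28756619605) (nat_lit 76) (nat_lit 9389873337) (nat_lit 76) (nat_lit 5397197832) (nat_lit 14) (nat_lit 4) (nat_lit 15) (nat_lit 5) (nat_lit 15) (nat_lit 4) (nat_lit 535) (nat_lit 350) (nat_lit 315)) (XT.lf (nat_lit 0) (nat_lit 1074235736) (nat_lit 152) (nat_lit 1876089604) (nat_lit 76) (nat_lit 41700027595) (nat_lit 13) (nat_lit 5) (nat_lit 15) (nat_lit 5) (nat_lit 14) (nat_lit 4) (nat_lit 536) (nat_lit 350) (nat_lit 314))))) (XT.nd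 (nat_lit 312) (nat_lit 152) (nat_lit 0) (XT.nd (nat_lit 156) (nat_lit 76) (nat_lit 0) (XT.nd (nat_lit 78) (nat_lit 0) (nat_lit 0) (XT.lf (nat_lit 0) (nat_lit 7697015940) (nat_lit 152) (nat_lit 34391672204) (nat_lit 0) (nat_lit 3697954351) (nat_lit 12) (nat_lit 5) (nat_lit 14) (nat_lit 4) (nat_lit 12) (nat_lit 4) (nat_lit 537) (nat_lit 350) (nat_lit 313)) (XT.lf (nat_lit 0) (nat_lit 14486428033) (nat_lit 152) (nat_lit 22042861051) (nat_lit 0) (nat_lit 10428694292) (nat_lit 12) (nat_lit 5) (nat_lit 14) (nat_lit 4) (nat_lit 12) (nat_lit 4) (nat_lit 538) (nat_lit 350) (nat_lit 312))) (XT.nd (nat_lit 78) (nat_lit 76) (nat_lit 0) (XT.lf (nat_lit 0) (nat_lit 21401469035) (nat_lit 152) (nat_lit 9478566068) (nat_lit 0) (nat_lit 17286772040) (nat_lit 12) (nat_lit 5) (nat_lit 14) (nat_lit 4) (nat_lit 12) (nat_lit 4) (nat_lit 539) (nat_lit 350) (nat_lit 311)) (XT.lf (nat_lit 0) (nat_lit 3378110352) (nat_lit 76) (nat_lit 25102543325)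 (nat_lit 76) (nat_lit 20932542199) (nat_lit 11) (nat_lit 4) (nat_lit 12) (nat_lit 5) (nat_lit 12) (nat_lit 4) (nat_lit 540) (nat_lit 350) (nat_lit 310)))) (XT.nd (nat_lit 156) (nat_lit 152) (nat_lit 0) (XT.nd (nat_lit 78) (nat_lit 0) (nat_lit 0) (XT.lf (nat_lit 0) (nat_lit 16665797029) (nat_lit 76) (nat_lit 19127126700) (nat_lit 76) (nat_lit 14903432243) (nat_lit 11) (nat_lit 4) (nat_lit 12) (nat_lit 5) (nat_lit 12) (nat_lit 4) (nat_lit 541) (nat_lit 350) (nat_lit 309)) (XT.lf (nat_lit 0) (nat_lit 30207462511) (nat_lit 76) (nat_lit 13044278922) (nat_lit 76) (nat_lit 8768455018) (nat_lit 11) (nat_lit 4) (nat_lit 12) (nat_lit 5) (nat_lit 12) (nat_lit 4) (nat_lit 542) (nat_lit 350) (nat_lit 308))) (XT.nd (nat_lit 78) (nat_lit 152) (nat_lit 0) (XT.lf (nat_lit 0) (nat_lit 44014939322) (nat_lit 76) (nat_lit 6848684882) (nat_lit 76) (nat_lit 2522249863) (nat_lit 11) (nat_lit 4) (nat_lit 12) (nat_lit 5) (nat_lit 12) (nat_lit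 4) (nat_lit 543) (nat_lit 350) (nat_lit 307)) (XT.lf (nat_lit 0) (nat_lit 3333846884) (nat_lit 76) (nat_lit 463896419) (nat_lit 152) (nat_lit 50994769861) (nat_lit 9) (nat_lit 5) (nat_lit 10) (nat_lit 5) (nat_lit 11) (nat_lit 4) (nat_lit 544) (nat_lit 350) (nat_lit 306)))))) (XT.nd (nat_lit 546) (nat_lit 152) (nat_lit 0) (XT.nd (nat_lit 234) (nat_lit 76) (nat_lit 0) (XT.nd (nat_lit 78) (nat_lit 0) (nat_lit 0) (XT.lf (nat_lit 0) (nat_lit 10341698925) (nat_lit 152) (nat_lit 39849098052) (nat_lit 0) (nat_lit 6047254410) (nat_lit 9) (nat_lit 5) (nat_lit 11) (nat_lit 4) (nat_lit 9) (nat_lit 4) (nat_lit 545) (nat_lit 350) (nat_lit 305)) (XT.nd (nat_lit 78) (nat_lit 0) (nat_lit 0) (XT.lf (nat_lit 0) (nat_lit 17019319585) (nat_lit 152) (nat_lit 28029608865) (nat_lit 0) (nat_lit 12679907751) (nat_lit 9) (nat_lit 5) (nat_lit 11) (nat_lit 4) (nat_lit 9) (nat_lit 4) (nat_lit 546) (nat_lit 350) (nat_lit 304)) (XT.lf (nat_lit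 0) (nat_lit 23831980841) (nat_lit 152) (nat_lit 15985411754) (nat_lit 0) (nat_lit 19448911414) (nat_lit 9) (nat_lit 5) (nat_lit 11) (nat_lit 4) (nat_lit 9) (nat_lit 4) (nat_lit 547) (nat_lit 350) (nat_lit 303)))) (XT.nd (nat_lit 156) (nat_lit 0) (nat_lit 0) (XT.nd (nat_lit 78) (nat_lit 76) (nat_lit 0) (XT.lf (nat_lit 0) (nat_lit 30785635502) (nat_lit 152) (nat_lit 3705982663) (nat_lit 0) (nat_lit 26360180065) (nat_lit 9) (nat_lit 5) (nat_lit 11) (nat_lit 4) (nat_lit 9) (nat_lit 4) (nat_lit 548) (nat_lit 350) (nat_lit 302)) (XT.lf (nat_lit 0) (nat_lit 8994931517) (nat_lit 76) (nat_lit 28977892846) (nat_lit 76) (nat_lit 24511285942) (nat_lit 8) (nat_lit 4) (nat_lit 9) (nat_lit 5) (nat_lit 9) (nat_lit 4) (nat_lit 549) (nat_lit 350) (nat_lit 301))) (XT.nd (nat_lit 78) (nat_lit 0) (nat_lit 0) (XT.lf (nat_lit 0) (nat_lit 22031621049) (nat_lit 76) (nat_lit 23320517958) (nat_lit 76) (nat_lit 18813958173) (nat_lit 8) (nat_lit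 4) (nat_lit 9) (nat_lit 5) (nat_lit 9) (nat_lit 4) (nat_lit 550) (nat_lit 350) (nat_lit 300)) (XT.lf (nat_lit 0) (nat_lit 35341720892) (nat_lit 76) (nat_lit 17551973322) (nat_lit 76) (nat_lit 13006624332) (nat_lit 8) (nat_lit 4) (nat_lit 9) (nat_lit 5) (nat_lit 9) (nat_lit 4) (nat_lit 551) (nat_lit 350) (nat_lit 299))))) (XT.nd (nat_lit 58344) (nat_lit 0) (nat_lit 2280) (XT.nd (nat_lit 156) (nat_lit 152) (nat_lit 0) (XT.nd (nat_lit 78) (nat_lit 0) (nat_lit 0) (XT.lf (nat_lit 0) (nat_lit 48936861231) (nat_lit 76) (nat_lit 11667218463) (nat_lit 76) (nat_lit 7084210051) (nat_lit 8) (nat_lit 4) (nat_lit 9) (nat_lit 5) (nat_lit 9) (nat_lit 4) (nat_lit 552) (nat_lit 350) (nat_lit 298)) (XT.lf (nat_lit 0) (nat_lit 62828921314) (nat_lit 76) (nat_lit 5661111361) (nat_lit 76) (nat_lit 1041540403) (nat_lit 8) (nat_lit 4) (nat_lit 9) (nat_lit 5) (nat_lit 9) (nat_lit 4) (nat_lit 553) (nat_lit 350) (nat_lit 297))) (XT.nd (nat_lit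 58110) (nat_lit 0) (nat_lit 2660) (XT.lf (nat_lit 0) (nat_lit 5086586513) (nat_lit 152) (nat_lit 65774812945) (nat_lit 0) (nat_lit 567102460) (nat_lit 6) (nat_lit 5) (nat_lit 8) (nat_lit 4) (nat_lit 6) (nat_lit 4) (nat_lit 554) (nat_lit 350) (nat_lit 296)) (XT.lf (nat_lit 0) (nat_lit 2651939862) (nat_lit 76) (nat_lit 3507779738) (nat_lit 76) (nat_lit 3507779738) (nat_lit 41) (nat_lit 4) (nat_lit 42) (nat_lit 5) (nat_lit 42) (nat_lit 4) (nat_lit 498) (nat_lit 351) (nat_lit 351)))) (XT.nd (nat_lit 156) (nat_lit 228) (nat_lit 0) (XT.nd (nat_lit 78) (nat_lit 152) (nat_lit 0) (XT.lf (nat_lit 0) (nat_lit 19239832824) (nat_lit 76) (nat_lit 351439413) (nat_lit 76) (nat_lit 108991301) (nat_lit 41) (nat_lit 4) (nat_lit 42) (nat_lit 5) (nat_lit 42) (nat_lit 4) (nat_lit 499) (nat_lit 351) (nat_lit 350)) (XT.lf (nat_lit 0) (nat_lit 6921051887) (nat_lit 152) (nat_lit 6694694910) (nat_lit 0) (nat_lit 6457134773) (nat_lit 39)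 (nat_lit 5) (nat_lit 41) (nat_lit 4) (nat_lit 39) (nat_lit 4) (nat_lit 500) (nat_lit 351) (nat_lit 349))) (XT.nd (nat_lit 78) (nat_lit 152) (nat_lit 0) (XT.lf (nat_lit 0) (nat_lit 7048542358) (nat_lit 76) (nat_lit 7047899955) (nat_lit 76) (nat_lit 6362108473) (nat_lit 38) (nat_lit 4) (nat_lit 39) (nat_lit 5) (nat_lit 39) (nat_lit 4) (nat_lit 501) (nat_lit 351) (nat_lit 348)) (XT.lf (nat_lit 0) (nat_lit 215627880) (nat_lit 76) (nat_lit 334535355) (nat_lit 152) (nat_lit 20307513332) (nat_lit 36) (nat_lit 5) (nat_lit 37) (nat_lit 5) (nat_lit 38) (nat_lit 4) (nat_lit 502) (nat_lit 351) (nat_lit 347))))))))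
noncomputable def xc13 : XT := (XT.nd (nat_lit 2340) (nat_lit 608) (nat_lit 0) (XT.nd (nat_lit 1170) (nat_lit 684) (nat_lit 0) (XT.nd (nat_lit 546) (nat_lit 456) (nat_lit 0) (XT.nd (nat_lit 234) (nat_lit 304) (nat_lit 0) (XT.nd (nat_lit 78) (nat_lit 152) (nat_lit 0) (XT.lf (nat_lit 0) (nat_lit 7603020787) (nat_lit 152) (nat_lit 7137017205) (nat_lit 0) (nat_lit 6525019467) (nat_lit 36) (nat_lit 5) (nat_lit 38) (nat_lit 4) (nat_lit 36) (nat_lit 4) (nat_lit 503) (nat_lit 351) (nat_lit 346)) (XT.nd (nat_lit 78) (nat_lit 76) (nat_lit 0) (XT.lf (nat_lit 0) (nat_lit 6637586183) (nat_lit 76) (nat_lit 8162121876) (nat_lit 76) (nat_lit 6886988055) (nat_lit 35) (nat_lit 4) (nat_lit 36) (nat_lit 5) (nat_lit 36) (nat_lit 4) (nat_lit 504) (nat_lit 351) (nat_lit 345)) (XT.lf (nat_lit 0) (nat_lit 27552749) (nat_lit 152) (nat_lit 1410592517) (nat_lit 76) (nat_lit 20684675102) (nat_lit 34) (nat_lit 5) (nat_lit 36) (nat_lit 5) (nat_lit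 35) (nat_lit 4) (nat_lit 505) (nat_lit 351) (nat_lit 344)))) (XT.nd (nat_lit 156) (nat_lit 152) (nat_lit 0) (XT.nd (nat_lit 78) (nat_lit 76) (nat_lit 0) (XT.lf (nat_lit 0) (nat_lit 7054437372) (nat_lit 152) (nat_lit 10064025887) (nat_lit 0) (nat_lit 5450222917) (nat_lit 33) (nat_lit 5) (nat_lit 35) (nat_lit 4) (nat_lit 33) (nat_lit 4) (nat_lit 506) (nat_lit 351) (nat_lit 343)) (XT.lf (nat_lit 0) (nat_lit 3640955752) (nat_lit 76) (nat_lit 10584174764) (nat_lit 76) (nat_lit 8804810635) (nat_lit 32) (nat_lit 4) (nat_lit 33) (nat_lit 5) (nat_lit 33) (nat_lit 4) (nat_lit 507) (nat_lit 351) (nat_lit 342))) (XT.nd (nat_lit 78) (nat_lit 152) (nat_lit 0) (XT.lf (nat_lit 0) (nat_lit 17711386459) (nat_lit 76) (nat_lit 3871945598) (nat_lit 76) (nat_lit 1922533241) (nat_lit 32) (nat_lit 4) (nat_lit 33) (nat_lit 5) (nat_lit 33) (nat_lit 4) (nat_lit 508) (nat_lit 351) (nat_lit 341)) (XT.lf (nat_lit 0) (nat_lit 5045579415) (nat_lit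 152) (nat_lit 15956936258) (nat_lit 0) (nat_lit 2992659296) (nat_lit 30) (nat_lit 5) (nat_lit 32) (nat_lit 4) (nat_lit 30) (nat_lit 4) (nat_lit 509) (nat_lit 351) (nat_lit 340))))) (XT.nd (nat_lit 312) (nat_lit 228) (nat_lit 0) (XT.nd (nat_lit 156) (nat_lit 152) (nat_lit 0) (XT.nd (nat_lit 78) (nat_lit 76) (nat_lit 0) (XT.lf (nat_lit 0) (nat_lit 12154992822) (nat_lit 152) (nat_lit 2398021509) (nat_lit 0) (nat_lit 9946454485) (nat_lit 30) (nat_lit 5) (nat_lit 32) (nat_lit 4) (nat_lit 30) (nat_lit 4) (nat_lit 510) (nat_lit 351) (nat_lit 339)) (XT.lf (nat_lit 0) (nat_lit 11552923643) (nat_lit 76) (nat_lit 7912974173) (nat_lit 76) (nat_lit 5553350189) (nat_lit 29) (nat_lit 4) (nat_lit 30) (nat_lit 5) (nat_lit 30) (nat_lit 4) (nat_lit 511) (nat_lit 351) (nat_lit 338))) (XT.nd (nat_lit 78) (nat_lit 0) (nat_lit 0) (XT.lf (nat_lit 0) (nat_lit 166546317) (nat_lit 76) (nat_lit 1150131217) (nat_lit 152) (nat_lit 24240431061)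 (nat_lit 27) (nat_lit 5) (nat_lit 28) (nat_lit 5) (nat_lit 29) (nat_lit 4) (nat_lit 512) (nat_lit 351) (nat_lit 337)) (XT.lf (nat_lit 0) (nat_lit 8351832578) (nat_lit 152) (nat_lit 11975248157) (nat_lit 0) (nat_lit 5780258023) (nat_lit 27) (nat_lit 5) (nat_lit 29) (nat_lit 4) (nat_lit 27) (nat_lit 4) (nat_lit 513) (nat_lit 351) (nat_lit 336)))) (XT.nd (nat_lit 156) (nat_lit 152) (nat_lit 0) (XT.nd (nat_lit 78) (nat_lit 0) (nat_lit 0) (XT.lf (nat_lit 0) (nat_lit 1629499321) (nat_lit 76) (nat_lit 13876575114) (nat_lit 76) (nat_lit 11170762917) (nat_lit 26) (nat_lit 4) (nat_lit 27) (nat_lit 5) (nat_lit 27) (nat_lit 4) (nat_lit 514) (nat_lit 351) (nat_lit 335)) (XT.lf (nat_lit 0) (nat_lit 15656722630) (nat_lit 76) (nat_lit 7221373064) (nat_lit 76) (nat_lit 4385233060) (nat_lit 26) (nat_lit 4) (nat_lit 27) (nat_lit 5) (nat_lit 27) (nat_lit 4) (nat_lit 515) (nat_lit 351) (nat_lit 334))) (XT.nd (nat_lit 78) (nat_lit 0)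 (nat_lit 0) (XT.lf (nat_lit 0) (nat_lit 2025119678) (nat_lit 76) (nat_lit 431920485) (nat_lit 152) (nat_lit 25412506472) (nat_lit 24) (nat_lit 5) (nat_lit 25) (nat_lit 5) (nat_lit 26) (nat_lit 4) (nat_lit 516) (nat_lit 351) (nat_lit 333)) (XT.lf (nat_lit 0) (nat_lit 9482545072) (nat_lit 152) (nat_lit 12521226352) (nat_lit 0) (nat_lit 6486896225) (nat_lit 24) (nat_lit 5) (nat_lit 26) (nat_lit 4) (nat_lit 24) (nat_lit 4) (nat_lit 517) (nat_lit 351) (nat_lit 332)))))) (XT.nd (nat_lit 546) (nat_lit 380) (nat_lit 0) (XT.nd (nat_lit 234) (nat_lit 152) (nat_lit 0) (XT.nd (nat_lit 78) (nat_lit 76) (nat_lit 0) (XT.lf (nat_lit 0) (nat_lit 996584752) (nat_lit 76) (nat_lit 15624113309) (nat_lit 76) (nat_lit 12512669894) (nat_lit 23) (nat_lit 4) (nat_lit 24) (nat_lit 5) (nat_lit 24) (nat_lit 4) (nat_lit 518) (nat_lit 351) (nat_lit 331)) (XT.nd (nat_lit 78) (nat_lit 76) (nat_lit 0) (XT.lf (nat_lit 0) (nat_lit 14958506390) (nat_lit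 76) (nat_lit 9030120673) (nat_lit 76) (nat_lit 5806255347) (nat_lit 23) (nat_lit 4) (nat_lit 24) (nat_lit 5) (nat_lit 24) (nat_lit 4) (nat_lit 519) (nat_lit 351) (nat_lit 330)) (XT.lf (nat_lit 0) (nat_lit 971212173) (nat_lit 152) (nat_lit 1361452099) (nat_lit 76) (nat_lit 28146521831) (nat_lit 22) (nat_lit 5) (nat_lit 24) (nat_lit 5) (nat_lit 23) (nat_lit 4) (nat_lit 520) (nat_lit 351) (nat_lit 329)))) (XT.nd (nat_lit 156) (nat_lit 76) (nat_lit 0) (XT.nd (nat_lit 78) (nat_lit 0) (nat_lit 0) (XT.lf (nat_lit 0) (nat_lit 7894607814) (nat_lit 152) (nat_lit 18730118179) (nat_lit 0) (nat_lit 4555791070) (nat_lit 21) (nat_lit 5) (nat_lit 23) (nat_lit 4) (nat_lit 21) (nat_lit 4) (nat_lit 521) (nat_lit 351) (nat_lit 328)) (XT.lf (nat_lit 0) (nat_lit 14957323772) (nat_lit 152) (nat_lit 5428995862) (nat_lit 0) (nat_lit 11518621616) (nat_lit 21) (nat_lit 5) (nat_lit 23) (nat_lit 4) (nat_lit 21) (nat_lit 4) (nat_lit 522) (nat_lit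 351) (nat_lit 327))) (XT.nd (nat_lit 78) (nat_lit 0) (nat_lit 0) (XT.lf (nat_lit 0) (nat_lit 8230007328) (nat_lit 76) (nat_lit 13978733170) (nat_lit 76) (nat_lit 10443054887) (nat_lit 20) (nat_lit 4) (nat_lit 21) (nat_lit 5) (nat_lit 21) (nat_lit 4) (nat_lit 523) (nat_lit 351) (nat_lit 326)) (XT.lf (nat_lit 0) (nat_lit 22210297766) (nat_lit 76) (nat_lit 7420990663) (nat_lit 76) (nat_lit 3791160798) (nat_lit 20) (nat_lit 4) (nat_lit 21) (nat_lit 5) (nat_lit 21) (nat_lit 4) (nat_lit 524) (nat_lit 351) (nat_lit 325))))) (XT.nd (nat_lit 312) (nat_lit 152) (nat_lit 0) (XT.nd (nat_lit 156) (nat_lit 76) (nat_lit 0) (XT.nd (nat_lit 78) (nat_lit 0) (nat_lit 0) (XT.lf (nat_lit 0) (nat_lit 2211582337) (nat_lit 76) (nat_lit 710989831) (nat_lit 152) (nat_lit 31295109662) (nat_lit 18) (nat_lit 5) (nat_lit 19) (nat_lit 5) (nat_lit 20) (nat_lit 4) (nat_lit 525) (nat_lit 351) (nat_lit 324)) (XT.lf (nat_lit 0) (nat_lit 9836307195)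 (nat_lit 152) (nat_lit 19059804464) (nat_lit 0) (nat_lit 6137291602) (nat_lit 18) (nat_lit 5) (nat_lit 20) (nat_lit 4) (nat_lit 18) (nat_lit 4) (nat_lit 526) (nat_lit 351) (nat_lit 323))) (XT.nd (nat_lit 78) (nat_lit 76) (nat_lit 0) (XT.lf (nat_lit 0) (nat_lit 16868227487) (nat_lit 152) (nat_lit 5922487771) (nat_lit 0) (nat_lit 13085559434) (nat_lit 18) (nat_lit 5) (nat_lit 20) (nat_lit 4) (nat_lit 18) (nat_lit 4) (nat_lit 527) (nat_lit 351) (nat_lit 322)) (XT.lf (nat_lit 0) (nat_lit 7571919690) (nat_lit 76) (nat_lit 16518509205) (nat_lit 76) (nat_lit 12654625172) (nat_lit 17) (nat_lit 4) (nat_lit 18) (nat_lit 5) (nat_lit 18) (nat_lit 4) (nat_lit 528) (nat_lit 351) (nat_lit 321)))) (XT.nd (nat_lit 156) (nat_lit 76) (nat_lit 0) (XT.nd (nat_lit 78) (nat_lit 76) (nat_lit 0) (XT.lf (nat_lit 0) (nat_lit 21409592020) (nat_lit 76) (nat_lit 10087010785) (nat_lit 76) (nat_lit 6144276285) (nat_lit 17) (nat_lit 4) (nat_lit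 18) (nat_lit 5) (nat_lit 18) (nat_lit 4) (nat_lit 529) (nat_lit 351) (nat_lit 320)) (XT.lf (nat_lit 0) (nat_lit 459733004) (nat_lit 152) (nat_lit 3086030351) (nat_lit 76) (nat_lit 35020375862) (nat_lit 16) (nat_lit 5) (nat_lit 18) (nat_lit 5) (nat_lit 17) (nat_lit 4) (nat_lit 530) (nat_lit 351) (nat_lit 319))) (XT.nd (nat_lit 78) (nat_lit 0) (nat_lit 0) (XT.lf (nat_lit 0) (nat_lit 7181943184) (nat_lit 152) (nat_lit 29126520897) (nat_lit 0) (nat_lit 3207562137) (nat_lit 15) (nat_lit 5) (nat_lit 17) (nat_lit 4) (nat_lit 15) (nat_lit 4) (nat_lit 531) (nat_lit 351) (nat_lit 318)) (XT.lf (nat_lit 0) (nat_lit 14084429547) (nat_lit 152) (nat_lit 16370632404) (nat_lit 0) (nat_lit 10039990882) (nat_lit 15) (nat_lit 5) (nat_lit 17) (nat_lit 4) (nat_lit 15) (nat_lit 4) (nat_lit 532) (nat_lit 351) (nat_lit 317))))))) (XT.nd (nat_lit 1170) (nat_lit 152) (nat_lit 0) (XT.nd (nat_lit 546) (nat_lit 228) (nat_lit 0) (XT.nd (nat_lit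 234) (nat_lit 152) (nat_lit 0) (XT.nd (nat_lit 78) (nat_lit 76) (nat_lit 0) (XT.lf (nat_lit 0) (nat_lit 21108584589) (nat_lit 152) (nat_lit 3401300277) (nat_lit 0) (nat_lit 16996128819) (nat_lit 15) (nat_lit 5) (nat_lit 17) (nat_lit 4) (nat_lit 15) (nat_lit 4) (nat_lit 533) (nat_lit 351) (nat_lit 316)) (XT.nd (nat_lit 78) (nat_lit 0) (nat_lit 0) (XT.lf (nat_lit 0) (nat_lit 9987703990) (nat_lit 76) (nat_lit 18368849853) (nat_lit 76) (nat_lit 14190358059) (nat_lit 14) (nat_lit 4) (nat_lit 15) (nat_lit 5) (nat_lit 15) (nat_lit 4) (nat_lit 534) (nat_lit 351) (nat_lit 315)) (XT.lf (nat_lit 0) (nat_lit 23685408626) (nat_lit 76) (nat_lit 12088832844) (nat_lit 76) (nat_lit 7846228405) (nat_lit 14) (nat_lit 4) (nat_lit 15) (nat_lit 5) (nat_lit 15) (nat_lit 4) (nat_lit 535) (nat_lit 351) (nat_lit 314)))) (XT.nd (nat_lit 156) (nat_lit 0) (nat_lit 0) (XT.nd (nat_lit 78) (nat_lit 152) (nat_lit 0) (XT.lf (nat_lit 0) (nat_lit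 37636089954) (nat_lit 76) (nat_lit 5698692909) (nat_lit 76) (nat_lit 1393843183) (nat_lit 14) (nat_lit 4) (nat_lit 15) (nat_lit 5) (nat_lit 15) (nat_lit 4) (nat_lit 536) (nat_lit 351) (nat_lit 313)) (XT.lf (nat_lit 0) (nat_lit 5138465468) (nat_lit 152) (nat_lit 39830055178) (nat_lit 0) (nat_lit 900327563) (nat_lit 12) (nat_lit 5) (nat_lit 14) (nat_lit 4) (nat_lit 12) (nat_lit 4) (nat_lit 537) (nat_lit 351) (nat_lit 312))) (XT.nd (nat_lit 78) (nat_lit 0) (nat_lit 0) (XT.lf (nat_lit 0) (nat_lit 11889427584) (nat_lit 152) (nat_lit 27557589102) (nat_lit 0) (nat_lit 7594326424) (nat_lit 12) (nat_lit 5) (nat_lit 14) (nat_lit 4) (nat_lit 12) (nat_lit 4) (nat_lit 538) (nat_lit 351) (nat_lit 311)) (XT.lf (nat_lit 0) (nat_lit 18767138511) (nat_lit 152) (nat_lit 15067415553) (nat_lit 0) (nat_lit 14416733221) (nat_lit 12) (nat_lit 5) (nat_lit 14) (nat_lit 4) (nat_lit 12) (nat_lit 4) (nat_lit 539) (nat_lit 351) (nat_lit 310)))))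 (XT.nd (nat_lit 312) (nat_lit 152) (nat_lit 0) (XT.nd (nat_lit 156) (nat_lit 0) (nat_lit 0) (XT.nd (nat_lit 78) (nat_lit 76) (nat_lit 0) (XT.lf (nat_lit 0) (nat_lit 25777607899) (nat_lit 152) (nat_lit 2348620790) (nat_lit 0) (nat_lit 21373509278) (nat_lit 12) (nat_lit 5) (nat_lit 14) (nat_lit 4) (nat_lit 12) (nat_lit 4) (nat_lit 540) (nat_lit 351) (nat_lit 309)) (XT.lf (nat_lit 0) (nat_lit 10821066686) (nat_lit 76) (nat_lit 22209913429) (nat_lit 76) (nat_lit 17753685360) (nat_lit 11) (nat_lit 4) (nat_lit 12) (nat_lit 5) (nat_lit 12) (nat_lit 4) (nat_lit 541) (nat_lit 351) (nat_lit 308))) (XT.nd (nat_lit 78) (nat_lit 0) (nat_lit 0) (XT.lf (nat_lit 0) (nat_lit 24293550574) (nat_lit 76) (nat_lit 16161419922) (nat_lit 76) (nat_lit 11654580739) (nat_lit 11) (nat_lit 4) (nat_lit 12) (nat_lit 5) (nat_lit 12) (nat_lit 4) (nat_lit 542) (nat_lit 351) (nat_lit 307)) (XT.lf (nat_lit 0) (nat_lit 38033860788) (nat_lit 76) (nat_lit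 9999179543) (nat_lit 76) (nat_lit 5443203356) (nat_lit 11) (nat_lit 4) (nat_lit 12) (nat_lit 5) (nat_lit 12) (nat_lit 4) (nat_lit 543) (nat_lit 351) (nat_lit 306)))) (XT.nd (nat_lit 156) (nat_lit 0) (nat_lit 0) (XT.nd (nat_lit 78) (nat_lit 76) (nat_lit 0) (XT.lf (nat_lit 0) (nat_lit 868587608) (nat_lit 152) (nat_lit 2840449169) (nat_lit 76) (nat_lit 51176644785) (nat_lit 10) (nat_lit 5) (nat_lit 12) (nat_lit 5) (nat_lit 11) (nat_lit 4) (nat_lit 544) (nat_lit 351) (nat_lit 305)) (XT.lf (nat_lit 0) (nat_lit 7320099261) (nat_lit 152) (nat_lit 46208356504) (nat_lit 0) (nat_lit 2805537752) (nat_lit 9) (nat_lit 5) (nat_lit 11) (nat_lit 4) (nat_lit 9) (nat_lit 4) (nat_lit 545) (nat_lit 351) (nat_lit 304))) (XT.nd (nat_lit 78) (nat_lit 0) (nat_lit 0) (XT.lf (nat_lit 0) (nat_lit 13965558332) (nat_lit 152) (nat_lit 34452846012) (nat_lit 0) (nat_lit 9407339232) (nat_lit 9) (nat_lit 5) (nat_lit 11) (nat_lit 4) (nat_lit 9)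 (nat_lit 4) (nat_lit 546) (nat_lit 351) (nat_lit 303)) (XT.lf (nat_lit 0) (nat_lit 20746994745) (nat_lit 152) (nat_lit 22470764139) (nat_lit 0) (nat_lit 16146389633) (nat_lit 9) (nat_lit 5) (nat_lit 11) (nat_lit 4) (nat_lit 9) (nat_lit 4) (nat_lit 547) (nat_lit 351) (nat_lit 302)))))) (XT.nd (nat_lit 58500) (nat_lit 0) (nat_lit 2128) (XT.nd (nat_lit 312) (nat_lit 76) (nat_lit 0) (XT.nd (nat_lit 156) (nat_lit 0) (nat_lit 0) (XT.nd (nat_lit 78) (nat_lit 76) (nat_lit 0) (XT.lf (nat_lit 0) (nat_lit 27670334025) (nat_lit 152) (nat_lit 10251641105) (nat_lit 0) (nat_lit 23028577446) (nat_lit 9) (nat_lit 5) (nat_lit 11) (nat_lit 4) (nat_lit 9) (nat_lit 4) (nat_lit 548) (nat_lit 351) (nat_lit 301)) (XT.lf (nat_lit 0) (nat_lit 2259286817) (nat_lit 76) (nat_lit 32504056523) (nat_lit 76) (nat_lit 27822347063) (nat_lit 8) (nat_lit 4) (nat_lit 9) (nat_lit 5) (nat_lit 9) (nat_lit 4) (nat_lit 549) (nat_lit 351) (nat_lit 300)))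 (XT.nd (nat_lit 78) (nat_lit 0) (nat_lit 0) (XT.lf (nat_lit 0) (nat_lit 15238000795) (nat_lit 76) (nat_lit 26875524738) (nat_lit 76) (nat_lit 22155026074) (nat_lit 8) (nat_lit 4) (nat_lit 9) (nat_lit 5) (nat_lit 9) (nat_lit 4) (nat_lit 550) (nat_lit 351) (nat_lit 299)) (XT.lf (nat_lit 0) (nat_lit 28491813692) (nat_lit 76) (nat_lit 21134983114) (nat_lit 76) (nat_lit 16376825028) (nat_lit 8) (nat_lit 4) (nat_lit 9) (nat_lit 5) (nat_lit 9) (nat_lit 4) (nat_lit 551) (nat_lit 351) (nat_lit 298)))) (XT.nd (nat_lit 156) (nat_lit 76) (nat_lit 0) (XT.nd (nat_lit 78) (nat_lit 0) (nat_lit 0) (XT.lf (nat_lit 0) (nat_lit 42032306511) (nat_lit 76) (nat_lit 15277415646) (nat_lit 76) (nat_lit 10482695014) (nat_lit 8) (nat_lit 4) (nat_lit 9) (nat_lit 5) (nat_lit 9) (nat_lit 4) (nat_lit 552) (nat_lit 351) (nat_lit 297)) (XT.lf (nat_lit 0) (nat_lit 55871310749) (nat_lit 76) (nat_lit 9297704069) (nat_lit 76) (nat_lit 4467485820) (nat_lit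 8) (nat_lit 4) (nat_lit 9) (nat_lit 5) (nat_lit 9) (nat_lit 4) (nat_lit 553) (nat_lit 351) (nat_lit 296))) (XT.nd (nat_lit 57954) (nat_lit 0) (nat_lit 2812) (XT.lf (nat_lit 0) (nat_lit 1641391648) (nat_lit 152) (nat_lit 1532656907) (nat_lit 76) (nat_lit 68362952255) (nat_lit 7) (nat_lit 5) (nat_lit 9) (nat_lit 5) (nat_lit 8) (nat_lit 4) (nat_lit 554) (nat_lit 351) (nat_lit 295)) (XT.lf (nat_lit 0) (nat_lit 7857559412) (nat_lit 76) (nat_lit 730794967) (nat_lit 76) (nat_lit 730794967) (nat_lit 44) (nat_lit 4) (nat_lit 45) (nat_lit 5) (nat_lit 45) (nat_lit 4) (nat_lit 496) (nat_lit 352) (nat_lit 352))))) (XT.nd (nat_lit 312) (nat_lit 304) (nat_lit 0) (XT.nd (nat_lit 156) (nat_lit 152) (nat_lit 0) (XT.nd (nat_lit 78) (nat_lit 76) (nat_lit 0) (XT.lf (nat_lit 0) (nat_lit 5452570076) (nat_lit 152) (nat_lit 8326655126) (nat_lit 0) (nat_lit 5202848521) (nat_lit 42) (nat_lit 5) (nat_lit 44) (nat_lit 4) (nat_lit 42) (nat_lit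 4) (nat_lit 497) (nat_lit 352) (nat_lit 351)) (XT.lf (nat_lit 0) (nat_lit 5168812698) (nat_lit 76) (nat_lit 7330230691) (nat_lit 76) (nat_lit 6838061025) (nat_lit 41) (nat_lit 4) (nat_lit 42) (nat_lit 5) (nat_lit 42) (nat_lit 4) (nat_lit 498) (nat_lit 352) (nat_lit 350))) (XT.nd (nat_lit 78) (nat_lit 152) (nat_lit 0) (XT.lf (nat_lit 0) (nat_lit 18973632762) (nat_lit 76) (nat_lit 729168550) (nat_lit 76) (nat_lit 1612367) (nat_lit 41) (nat_lit 4) (nat_lit 42) (nat_lit 5) (nat_lit 42) (nat_lit 4) (nat_lit 499) (nat_lit 352) (nat_lit 349)) (XT.lf (nat_lit 0) (nat_lit 6951410324) (nat_lit 152) (nat_lit 7104669471) (nat_lit 0) (nat_lit 6023170731) (nat_lit 39) (nat_lit 5) (nat_lit 41) (nat_lit 4) (nat_lit 39) (nat_lit 4) (nat_lit 500) (nat_lit 352) (nat_lit 348)))) (XT.nd (nat_lit 156) (nat_lit 152) (nat_lit 0) (XT.nd (nat_lit 78) (nat_lit 76) (nat_lit 0) (XT.lf (nat_lit 0) (nat_lit 6499069665) (nat_lit 76) (nat_lit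 7555830334) (nat_lit 76) (nat_lit 6412178734) (nat_lit 38) (nat_lit 4) (nat_lit 39) (nat_lit 5) (nat_lit 39) (nat_lit 4) (nat_lit 501) (nat_lit 352) (nat_lit 347)) (XT.lf (nat_lit 0) (nat_lit 432438623) (nat_lit 152) (nat_lit 474939065) (nat_lit 76) (nat_lit 19960902063) (nat_lit 37) (nat_lit 5) (nat_lit 39) (nat_lit 5) (nat_lit 38) (nat_lit 4) (nat_lit 502) (nat_lit 352) (nat_lit 346))) (XT.nd (nat_lit 78) (nat_lit 76) (nat_lit 0) (XT.lf (nat_lit 0) (nat_lit 7408647506) (nat_lit 152) (nat_lit 7971187230) (nat_lit 0) (nat_lit 5898127169) (nat_lit 36) (nat_lit 5) (nat_lit 38) (nat_lit 4) (nat_lit 36) (nat_lit 4) (nat_lit 503) (nat_lit 352) (nat_lit 345)) (XT.lf (nat_lit 0) (nat_lit 5659118259) (nat_lit 76) (nat_lit 8872306237) (nat_lit 76) (nat_lit 7170395121) (nat_lit 35) (nat_lit 4) (nat_lit 36) (nat_lit 5) (nat_lit 36) (nat_lit 4) (nat_lit 504) (nat_lit 352) (nat_lit 344))))))))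
noncomputable def xc14 : XT := (XT.nd (nat_lit 2340) (nat_lit 456) (nat_lit 0) (XT.nd (nat_lit 1170) (nat_lit 684) (nat_lit 0) (XT.nd (nat_lit 546) (nat_lit 456) (nat_lit 0) (XT.nd (nat_lit 234) (nat_lit 228) (nat_lit 0) (XT.nd (nat_lit 78) (nat_lit 228) (nat_lit 0) (XT.lf (nat_lit 0) (nat_lit 19610061184) (nat_lit 76) (nat_lit 2208767210) (nat_lit 76) (nat_lit 321039805) (nat_lit 35) (nat_lit 4) (nat_lit 36) (nat_lit 5) (nat_lit 36) (nat_lit 4) (nat_lit 505) (nat_lit 352) (nat_lit 343)) (XT.nd (nat_lit 78) (nat_lit 76) (nat_lit 0) (XT.lf (nat_lit 0) (nat_lit 6629274909) (nat_lit 152) (nat_lit 11337658137) (nat_lit 0) (nat_lit 4621380181) (nat_lit 33) (nat_lit 5) (nat_lit 35) (nat_lit 4) (nat_lit 33) (nat_lit 4) (nat_lit 506) (nat_lit 352) (nat_lit 342)) (XT.lf (nat_lit 0) (nat_lit 2217836292) (nat_lit 76) (nat_lit 11505980478) (nat_lit 76) (nat_lit 9328037523) (nat_lit 32) (nat_lit 4) (nat_lit 33) (nat_lit 5)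 (nat_lit 33) (nat_lit 4) (nat_lit 507) (nat_lit 352) (nat_lit 341)))) (XT.nd (nat_lit 156) (nat_lit 76) (nat_lit 0) (XT.nd (nat_lit 78) (nat_lit 152) (nat_lit 0) (XT.lf (nat_lit 0) (nat_lit 16167743279) (nat_lit 76) (nat_lit 4852464651) (nat_lit 76) (nat_lit 2509426330) (nat_lit 32) (nat_lit 4) (nat_lit 33) (nat_lit 5) (nat_lit 33) (nat_lit 4) (nat_lit 508) (nat_lit 352) (nat_lit 340)) (XT.lf (nat_lit 0) (nat_lit 4382864433) (nat_lit 152) (nat_lit 17686416666) (nat_lit 0) (nat_lit 1952451730) (nat_lit 30) (nat_lit 5) (nat_lit 32) (nat_lit 4) (nat_lit 30) (nat_lit 4) (nat_lit 509) (nat_lit 352) (nat_lit 339))) (XT.nd (nat_lit 78) (nat_lit 76) (nat_lit 0) (XT.lf (nat_lit 0) (nat_lit 11431763267) (nat_lit 152) (nat_lit 4245815311) (nat_lit 0) (nat_lit 8850264915) (nat_lit 30) (nat_lit 5) (nat_lit 32) (nat_lit 4) (nat_lit 30) (nat_lit 4) (nat_lit 510) (nat_lit 352) (nat_lit 338)) (XT.lf (nat_lit 0) (nat_lit 9551201662)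 (nat_lit 76) (nat_lit 9113472810) (nat_lit 76) (nat_lit 6385289364) (nat_lit 29) (nat_lit 4) (nat_lit 30) (nat_lit 5) (nat_lit 30) (nat_lit 4) (nat_lit 511) (nat_lit 352) (nat_lit 337))))) (XT.nd (nat_lit 312) (nat_lit 228) (nat_lit 0) (XT.nd (nat_lit 156) (nat_lit 76) (nat_lit 0) (XT.nd (nat_lit 78) (nat_lit 76) (nat_lit 0) (XT.lf (nat_lit 0) (nat_lit 440660543) (nat_lit 152) (nat_lit 1976055255) (nat_lit 76) (nat_lit 23173159164) (nat_lit 28) (nat_lit 5) (nat_lit 30) (nat_lit 5) (nat_lit 29) (nat_lit 4) (nat_lit 512) (nat_lit 352) (nat_lit 336)) (XT.lf (nat_lit 0) (nat_lit 7385445438) (nat_lit 152) (nat_lit 14293150783) (nat_lit 0) (nat_lit 4464221234) (nat_lit 27) (nat_lit 5) (nat_lit 29) (nat_lit 4) (nat_lit 27) (nat_lit 4) (nat_lit 513) (nat_lit 352) (nat_lit 335))) (XT.nd (nat_lit 78) (nat_lit 76) (nat_lit 0) (XT.lf (nat_lit 0) (nat_lit 14467101163) (nat_lit 152) (nat_lit 831844509) (nat_lit 0) (nat_lit 11415549152)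 (nat_lit 27) (nat_lit 5) (nat_lit 29) (nat_lit 4) (nat_lit 27) (nat_lit 4) (nat_lit 514) (nat_lit 352) (nat_lit 334)) (XT.lf (nat_lit 0) (nat_lit 13068274206) (nat_lit 76) (nat_lit 8706365756) (nat_lit 76) (nat_lit 5528281894) (nat_lit 26) (nat_lit 4) (nat_lit 27) (nat_lit 5) (nat_lit 27) (nat_lit 4) (nat_lit 515) (nat_lit 352) (nat_lit 333)))) (XT.nd (nat_lit 156) (nat_lit 76) (nat_lit 0) (XT.nd (nat_lit 78) (nat_lit 76) (nat_lit 0) (XT.lf (nat_lit 0) (nat_lit 1261600564) (nat_lit 152) (nat_lit 739881174) (nat_lit 76) (nat_lit 25910229593) (nat_lit 25) (nat_lit 5) (nat_lit 27) (nat_lit 5) (nat_lit 26) (nat_lit 4) (nat_lit 516) (nat_lit 352) (nat_lit 332)) (XT.lf (nat_lit 0) (nat_lit 8209533077) (nat_lit 152) (nat_lit 15436675707) (nat_lit 0) (nat_lit 4888951791) (nat_lit 24) (nat_lit 5) (nat_lit 26) (nat_lit 4) (nat_lit 24) (nat_lit 4) (nat_lit 517) (nat_lit 352) (nat_lit 331))) (XT.nd (nat_lit 78) (nat_lit 76)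 (nat_lit 0) (XT.lf (nat_lit 0) (nat_lit 15284553608) (nat_lit 152) (nat_lit 2043651862) (nat_lit 0) (nat_lit 11851550410) (nat_lit 24) (nat_lit 5) (nat_lit 26) (nat_lit 4) (nat_lit 24) (nat_lit 4) (nat_lit 518) (nat_lit 352) (nat_lit 330)) (XT.lf (nat_lit 0) (nat_lit 11773289542) (nat_lit 76) (nat_lit 10806161708) (nat_lit 76) (nat_lit 7264011024) (nat_lit 23) (nat_lit 4) (nat_lit 24) (nat_lit 5) (nat_lit 24) (nat_lit 4) (nat_lit 519) (nat_lit 352) (nat_lit 329)))))) (XT.nd (nat_lit 546) (nat_lit 304) (nat_lit 0) (XT.nd (nat_lit 234) (nat_lit 228) (nat_lit 0) (XT.nd (nat_lit 78) (nat_lit 152) (nat_lit 0) (XT.lf (nat_lit 0) (nat_lit 25841055026) (nat_lit 76) (nat_lit 4168330119) (nat_lit 76) (nat_lit 520211002) (nat_lit 23) (nat_lit 4) (nat_lit 24) (nat_lit 5) (nat_lit 24) (nat_lit 4) (nat_lit 520) (nat_lit 352) (nat_lit 328)) (XT.nd (nat_lit 78) (nat_lit 0) (nat_lit 0) (XT.lf (nat_lit 0) (nat_lit 6310846665) (nat_lit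 152) (nat_lit 22254208013) (nat_lit 0) (nat_lit 2669098033) (nat_lit 21) (nat_lit 5) (nat_lit 23) (nat_lit 4) (nat_lit 21) (nat_lit 4) (nat_lit 521) (nat_lit 352) (nat_lit 327)) (XT.lf (nat_lit 0) (nat_lit 13323172192) (nat_lit 152) (nat_lit 9052469874) (nat_lit 0) (nat_lit 9584447432) (nat_lit 21) (nat_lit 5) (nat_lit 23) (nat_lit 4) (nat_lit 21) (nat_lit 4) (nat_lit 522) (nat_lit 352) (nat_lit 326)))) (XT.nd (nat_lit 156) (nat_lit 152) (nat_lit 0) (XT.nd (nat_lit 78) (nat_lit 0) (nat_lit 0) (XT.lf (nat_lit 0) (nat_lit 4436009255) (nat_lit 76) (nat_lit 16053186684) (nat_lit 76) (nat_lit 12220310343) (nat_lit 20) (nat_lit 4) (nat_lit 21) (nat_lit 5) (nat_lit 21) (nat_lit 4) (nat_lit 523) (nat_lit 352) (nat_lit 325)) (XT.lf (nat_lit 0) (nat_lit 18320756176) (nat_lit 76) (nat_lit 9542571457) (nat_lit 76) (nat_lit 5618285814) (nat_lit 20) (nat_lit 4) (nat_lit 21) (nat_lit 5) (nat_lit 21) (nat_lit 4) (nat_lit 524)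 (nat_lit 352) (nat_lit 324))) (XT.nd (nat_lit 78) (nat_lit 76) (nat_lit 0) (XT.lf (nat_lit 0) (nat_lit 1062369603) (nat_lit 152) (nat_lit 1856422241) (nat_lit 76) (nat_lit 31360643836) (nat_lit 19) (nat_lit 5) (nat_lit 21) (nat_lit 5) (nat_lit 20) (nat_lit 4) (nat_lit 525) (nat_lit 352) (nat_lit 323)) (XT.lf (nat_lit 0) (nat_lit 7889079651) (nat_lit 152) (nat_lit 23299409878) (nat_lit 0) (nat_lit 3909279097) (nat_lit 18) (nat_lit 5) (nat_lit 20) (nat_lit 4) (nat_lit 18) (nat_lit 4) (nat_lit 526) (nat_lit 352) (nat_lit 322))))) (XT.nd (nat_lit 312) (nat_lit 228) (nat_lit 0) (XT.nd (nat_lit 156) (nat_lit 0) (nat_lit 0) (XT.nd (nat_lit 78) (nat_lit 76) (nat_lit 0) (XT.lf (nat_lit 0) (nat_lit 14874959344) (nat_lit 152) (nat_lit 10253119864) (nat_lit 0) (nat_lit 10813942809) (nat_lit 18) (nat_lit 5) (nat_lit 20) (nat_lit 4) (nat_lit 18) (nat_lit 4) (nat_lit 527) (nat_lit 352) (nat_lit 321)) (XT.lf (nat_lit 0) (nat_lit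 3064965267) (nat_lit 76) (nat_lit 18944172271) (nat_lit 76) (nat_lit 14804305270) (nat_lit 17) (nat_lit 4) (nat_lit 18) (nat_lit 5) (nat_lit 18) (nat_lit 4) (nat_lit 528) (nat_lit 352) (nat_lit 320))) (XT.nd (nat_lit 78) (nat_lit 0) (nat_lit 0) (XT.lf (nat_lit 0) (nat_lit 16815128606) (nat_lit 76) (nat_lit 12555943972) (nat_lit 76) (nat_lit 8339523119) (nat_lit 17) (nat_lit 4) (nat_lit 18) (nat_lit 5) (nat_lit 18) (nat_lit 4) (nat_lit 529) (nat_lit 352) (nat_lit 319)) (XT.lf (nat_lit 0) (nat_lit 30805327669) (nat_lit 76) (nat_lit 6061348770) (nat_lit 76) (nat_lit 1770603790) (nat_lit 17) (nat_lit 4) (nat_lit 18) (nat_lit 5) (nat_lit 18) (nat_lit 4) (nat_lit 530) (nat_lit 352) (nat_lit 318)))) (XT.nd (nat_lit 156) (nat_lit 76) (nat_lit 0) (XT.nd (nat_lit 78) (nat_lit 0) (nat_lit 0) (XT.lf (nat_lit 0) (nat_lit 4871652537) (nat_lit 152) (nat_lit 34083637983) (nat_lit 0) (nat_lit 635823095) (nat_lit 15) (nat_lit 5)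 (nat_lit 17) (nat_lit 4) (nat_lit 15) (nat_lit 4) (nat_lit 531) (nat_lit 352) (nat_lit 317)) (XT.lf (nat_lit 0) (nat_lit 11732067023) (nat_lit 152) (nat_lit 21411115510) (nat_lit 0) (nat_lit 7428220475) (nat_lit 15) (nat_lit 5) (nat_lit 17) (nat_lit 4) (nat_lit 15) (nat_lit 4) (nat_lit 532) (nat_lit 352) (nat_lit 316))) (XT.nd (nat_lit 78) (nat_lit 76) (nat_lit 0) (XT.lf (nat_lit 0) (nat_lit 18715375582) (nat_lit 152) (nat_lit 8522721266) (nat_lit 0) (nat_lit 14345493010) (nat_lit 15) (nat_lit 5) (nat_lit 17) (nat_lit 4) (nat_lit 15) (nat_lit 4) (nat_lit 533) (nat_lit 352) (nat_lit 315)) (XT.lf (nat_lit 0) (nat_lit 4684212306) (nat_lit 76) (nat_lit 21188495343) (nat_lit 76) (nat_lit 16754500126) (nat_lit 14) (nat_lit 4) (nat_lit 15) (nat_lit 5) (nat_lit 15) (nat_lit 4) (nat_lit 534) (nat_lit 352) (nat_lit 314))))))) (XT.nd (nat_lit 1170) (nat_lit 76) (nat_lit 0) (XT.nd (nat_lit 546) (nat_lit 152) (nat_lit 0) (XT.nd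 (nat_lit 234) (nat_lit 76) (nat_lit 0) (XT.nd (nat_lit 78) (nat_lit 152) (nat_lit 0) (XT.lf (nat_lit 0) (nat_lit 18304106870) (nat_lit 76) (nat_lit 14947038720) (nat_lit 76) (nat_lit 10450798217) (nat_lit 14) (nat_lit 4) (nat_lit 15) (nat_lit 5) (nat_lit 15) (nat_lit 4) (nat_lit 535) (nat_lit 352) (nat_lit 313)) (XT.nd (nat_lit 78) (nat_lit 152) (nat_lit 0) (XT.lf (nat_lit 0) (nat_lit 32179244438) (nat_lit 76) (nat_lit 8594336054) (nat_lit 76) (nat_lit 4037663234) (nat_lit 14) (nat_lit 4) (nat_lit 15) (nat_lit 5) (nat_lit 15) (nat_lit 4) (nat_lit 536) (nat_lit 352) (nat_lit 312)) (XT.lf (nat_lit 0) (nat_lit 348532934) (nat_lit 76) (nat_lit 2096727118) (nat_lit 152) (nat_lit 43509998054) (nat_lit 12) (nat_lit 5) (nat_lit 13) (nat_lit 5) (nat_lit 14) (nat_lit 4) (nat_lit 537) (nat_lit 352) (nat_lit 311)))) (XT.nd (nat_lit 156) (nat_lit 76) (nat_lit 0) (XT.nd (nat_lit 78) (nat_lit 0) (nat_lit 0) (XT.lf (nat_lit 0)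 (nat_lit 9138737070) (nat_lit 152) (nat_lit 33388225505) (nat_lit 0) (nat_lit 4602515490) (nat_lit 12) (nat_lit 5) (nat_lit 14) (nat_lit 4) (nat_lit 12) (nat_lit 4) (nat_lit 538) (nat_lit 352) (nat_lit 310)) (XT.lf (nat_lit 0) (nat_lit 15980205205) (nat_lit 152) (nat_lit 20970014514) (nat_lit 0) (nat_lit 11390290294) (nat_lit 12) (nat_lit 5) (nat_lit 14) (nat_lit 4) (nat_lit 12) (nat_lit 4) (nat_lit 539) (nat_lit 352) (nat_lit 309))) (XT.nd (nat_lit 78) (nat_lit 76) (nat_lit 0) (XT.lf (nat_lit 0) (nat_lit 22955487417) (nat_lit 152) (nat_lit 8321086310) (nat_lit 0) (nat_lit 18313443059) (nat_lit 12) (nat_lit 5) (nat_lit 14) (nat_lit 4) (nat_lit 12) (nat_lit 4) (nat_lit 540) (nat_lit 352) (nat_lit 308)) (XT.lf (nat_lit 0) (nat_lit 4660555796) (nat_lit 76) (nat_lit 25454922930) (nat_lit 76) (nat_lit 20762267458) (nat_lit 11) (nat_lit 4) (nat_lit 12) (nat_lit 5) (nat_lit 12) (nat_lit 4) (nat_lit 541) (nat_lit 352)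 (nat_lit 307))))) (XT.nd (nat_lit 312) (nat_lit 0) (nat_lit 0) (XT.nd (nat_lit 156) (nat_lit 152) (nat_lit 0) (XT.nd (nat_lit 78) (nat_lit 0) (nat_lit 0) (XT.lf (nat_lit 0) (nat_lit 18065873088) (nat_lit 76) (nat_lit 19439783085) (nat_lit 76) (nat_lit 14697990609) (nat_lit 11) (nat_lit 4) (nat_lit 12) (nat_lit 5) (nat_lit 12) (nat_lit 4) (nat_lit 542) (nat_lit 352) (nat_lit 306)) (XT.lf (nat_lit 0) (nat_lit 31740973015) (nat_lit 76) (nat_lit 13309924901) (nat_lit 76) (nat_lit 8520426596) (nat_lit 11) (nat_lit 4) (nat_lit 12) (nat_lit 5) (nat_lit 12) (nat_lit 4) (nat_lit 543) (nat_lit 352) (nat_lit 305))) (XT.nd (nat_lit 78) (nat_lit 152) (nat_lit 0) (XT.lf (nat_lit 0) (nat_lit 45697804694) (nat_lit 76) (nat_lit 7059992193) (nat_lit 76) (nat_lit 2224177549) (nat_lit 11) (nat_lit 4) (nat_lit 12) (nat_lit 5) (nat_lit 12) (nat_lit 4) (nat_lit 544) (nat_lit 352) (nat_lit 304)) (XT.lf (nat_lit 0) (nat_lit 3540484866)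 (nat_lit 76) (nat_lit 607922438) (nat_lit 152) (nat_lit 52286190745) (nat_lit 9) (nat_lit 5) (nat_lit 10) (nat_lit 5) (nat_lit 11) (nat_lit 4) (nat_lit 545) (nat_lit 352) (nat_lit 303)))) (XT.nd (nat_lit 156) (nat_lit 0) (nat_lit 0) (XT.nd (nat_lit 78) (nat_lit 0) (nat_lit 0) (XT.lf (nat_lit 0) (nat_lit 10756797811) (nat_lit 152) (nat_lit 41194874208) (nat_lit 0) (nat_lit 5975788535) (nat_lit 9) (nat_lit 5) (nat_lit 11) (nat_lit 4) (nat_lit 9) (nat_lit 4) (nat_lit 546) (nat_lit 352) (nat_lit 302)) (XT.lf (nat_lit 0) (nat_lit 17507918842) (nat_lit 152) (nat_lit 29273098391) (nat_lit 0) (nat_lit 12685758098) (nat_lit 9) (nat_lit 5) (nat_lit 11) (nat_lit 4) (nat_lit 9) (nat_lit 4) (nat_lit 547) (nat_lit 352) (nat_lit 301))) (XT.nd (nat_lit 78) (nat_lit 0) (nat_lit 0) (XT.lf (nat_lit 0) (nat_lit 24401825713) (nat_lit 152) (nat_lit 17112524926) (nat_lit 0) (nat_lit 19539712089) (nat_lit 9) (nat_lit 5) (nat_lit 11) (nat_lit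 4) (nat_lit 9) (nat_lit 4) (nat_lit 548) (nat_lit 352) (nat_lit 300)) (XT.lf (nat_lit 0) (nat_lit 31444542226) (nat_lit 152) (nat_lit 4702528069) (nat_lit 0) (nat_lit 26543639398) (nat_lit 9) (nat_lit 5) (nat_lit 11) (nat_lit 4) (nat_lit 9) (nat_lit 4) (nat_lit 549) (nat_lit 352) (nat_lit 299)))))) (XT.nd (nat_lit 58344) (nat_lit 0) (nat_lit 2052) (XT.nd (nat_lit 312) (nat_lit 0) (nat_lit 0) (XT.nd (nat_lit 156) (nat_lit 0) (nat_lit 0) (XT.nd (nat_lit 78) (nat_lit 0) (nat_lit 0) (XT.lf (nat_lit 0) (nat_lit 8126309433) (nat_lit 76) (nat_lit 30594027836) (nat_lit 76) (nat_lit 25655465585) (nat_lit 8) (nat_lit 4) (nat_lit 9) (nat_lit 5) (nat_lit 9) (nat_lit 4) (nat_lit 550) (nat_lit 352) (nat_lit 298)) (XT.lf (nat_lit 0) (nat_lit 21325474810) (nat_lit 76) (nat_lit 24880673603) (nat_lit 76) (nat_lit 19905548807) (nat_lit 8) (nat_lit 4) (nat_lit 9) (nat_lit 5) (nat_lit 9) (nat_lit 4) (nat_lit 551) (nat_lit 352) (nat_lit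 297))) (XT.nd (nat_lit 78) (nat_lit 0) (nat_lit 0) (XT.lf (nat_lit 0) (nat_lit 34812911784) (nat_lit 76) (nat_lit 19049501660) (nat_lit 76) (nat_lit 14038879247) (nat_lit 8) (nat_lit 4) (nat_lit 9) (nat_lit 5) (nat_lit 9) (nat_lit 4) (nat_lit 552) (nat_lit 352) (nat_lit 296)) (XT.lf (nat_lit 0) (nat_lit 48600405494) (nat_lit 76) (nat_lit 13095416806) (nat_lit 76) (nat_lit 8050330687) (nat_lit 8) (nat_lit 4) (nat_lit 9) (nat_lit 5) (nat_lit 9) (nat_lit 4) (nat_lit 553) (nat_lit 352) (nat_lit 295)))) (XT.nd (nat_lit 57876) (nat_lit 0) (nat_lit 2736) (XT.nd (nat_lit 57798) (nat_lit 0) (nat_lit 2812) (XT.lf (nat_lit 0) (nat_lit 62700003264) (nat_lit 76) (nat_lit 7013216444) (nat_lit 76) (nat_lit 1934670417) (nat_lit 8) (nat_lit 4) (nat_lit 9) (nat_lit 5) (nat_lit 9) (nat_lit 4) (nat_lit 554) (nat_lit 352) (nat_lit 294)) (XT.lf (nat_lit 0) (nat_lit 1705288909) (nat_lit 152) (nat_lit 5577129046) (nat_lit 0) (nat_lit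 1705288909) (nat_lit 45) (nat_lit 5) (nat_lit 47) (nat_lit 4) (nat_lit 45) (nat_lit 4) (nat_lit 494) (nat_lit 353) (nat_lit 353))) (XT.nd (nat_lit 78) (nat_lit 0) (nat_lit 0) (XT.lf (nat_lit 0) (nat_lit 2035673414) (nat_lit 76) (nat_lit 8265919086) (nat_lit 76) (nat_lit 8000989489) (nat_lit 44) (nat_lit 4) (nat_lit 45) (nat_lit 5) (nat_lit 45) (nat_lit 4) (nat_lit 495) (nat_lit 353) (nat_lit 352)) (XT.lf (nat_lit 0) (nat_lit 15584210672) (nat_lit 76) (nat_lit 1789140888) (nat_lit 76) (nat_lit 1266998089) (nat_lit 44) (nat_lit 4) (nat_lit 45) (nat_lit 5) (nat_lit 45) (nat_lit 4) (nat_lit 496) (nat_lit 353) (nat_lit 351))))) (XT.nd (nat_lit 312) (nat_lit 304) (nat_lit 0) (XT.nd (nat_lit 156) (nat_lit 152) (nat_lit 0) (XT.nd (nat_lit 78) (nat_lit 76) (nat_lit 0) (XT.lf (nat_lit 0) (nat_lit 5570080667) (nat_lit 152) (nat_lit 8595490833) (nat_lit 0) (nat_lit 4820697799) (nat_lit 42) (nat_lit 5) (nat_lit 44) (nat_lit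 4) (nat_lit 42) (nat_lit 4) (nat_lit 497) (nat_lit 353) (nat_lit 350)) (XT.lf (nat_lit 0) (nat_lit 4763493598) (nat_lit 76) (nat_lit 7782349624) (nat_lit 76) (nat_lit 6797580240) (nat_lit 41) (nat_lit 4) (nat_lit 42) (nat_lit 5) (nat_lit 42) (nat_lit 4) (nat_lit 498) (nat_lit 353) (nat_lit 349))) (XT.nd (nat_lit 78) (nat_lit 152) (nat_lit 0) (XT.lf (nat_lit 0) (nat_lit 18441000036) (nat_lit 76) (nat_lit 1242508766) (nat_lit 76) (nat_lit 29208784) (nat_lit 41) (nat_lit 4) (nat_lit 42) (nat_lit 5) (nat_lit 42) (nat_lit 4) (nat_lit 499) (nat_lit 353) (nat_lit 348)) (XT.lf (nat_lit 0) (nat_lit 6847443181) (nat_lit 152) (nat_lit 7788358429) (nat_lit 0) (nat_lit 5454070026) (nat_lit 39) (nat_lit 5) (nat_lit 41) (nat_lit 4) (nat_lit 39) (nat_lit 4) (nat_lit 500) (nat_lit 353) (nat_lit 347)))) (XT.nd (nat_lit 156) (nat_lit 152) (nat_lit 0) (XT.nd (nat_lit 78) (nat_lit 76) (nat_lit 0) (XT.lf (nat_lit 0) (nat_lit 5674260524)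 (nat_lit 76) (nat_lit 8204065234) (nat_lit 76) (nat_lit 6601554209) (nat_lit 38) (nat_lit 4) (nat_lit 39) (nat_lit 5) (nat_lit 39) (nat_lit 4) (nat_lit 501) (nat_lit 353) (nat_lit 346)) (XT.lf (nat_lit 0) (nat_lit 182138492) (nat_lit 152) (nat_lit 1435816361) (nat_lit 76) (nat_lit 19265121146) (nat_lit 37) (nat_lit 5) (nat_lit 39) (nat_lit 5) (nat_lit 38) (nat_lit 4) (nat_lit 502) (nat_lit 353) (nat_lit 345))) (XT.nd (nat_lit 78) (nat_lit 76) (nat_lit 0) (XT.lf (nat_lit 0) (nat_lit 7077498585) (nat_lit 152) (nat_lit 9084547422) (nat_lit 0) (nat_lit 5133139358) (nat_lit 36) (nat_lit 5) (nat_lit 38) (nat_lit 4) (nat_lit 36) (nat_lit 4) (nat_lit 503) (nat_lit 353) (nat_lit 344)) (XT.lf (nat_lit 0) (nat_lit 4399623044) (nat_lit 76) (nat_lit 9725919618) (nat_lit 76) (nat_lit 7595744101) (nat_lit 35) (nat_lit 4) (nat_lit 36) (nat_lit 5) (nat_lit 36) (nat_lit 4) (nat_lit 504) (nat_lit 353) (nat_lit 343))))))))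
noncomputable def xc15 : XT := (XT.nd (nat_lit 2340) (nat_lit 532) (nat_lit 0) (XT.nd (nat_lit 1170) (nat_lit 608) (nat_lit 0) (XT.nd (nat_lit 546) (nat_lit 456) (nat_lit 0) (XT.nd (nat_lit 234) (nat_lit 228) (nat_lit 0) (XT.nd (nat_lit 78) (nat_lit 228) (nat_lit 0) (XT.lf (nat_lit 0) (nat_lit 18230199977) (nat_lit 76) (nat_lit 3120787732) (nat_lit 76) (nat_lit 810208051) (nat_lit 35) (nat_lit 4) (nat_lit 36) (nat_lit 5) (nat_lit 36) (nat_lit 4) (nat_lit 505) (nat_lit 353) (nat_lit 342)) (XT.nd (nat_lit 78) (nat_lit 76) (nat_lit 0) (XT.lf (nat_lit 0) (nat_lit 6064540655) (nat_lit 152) (nat_lit 12896584912) (nat_lit 0) (nat_lit 3651211183) (nat_lit 33) (nat_lit 5) (nat_lit 35) (nat_lit 4) (nat_lit 33) (nat_lit 4) (nat_lit 506) (nat_lit 353) (nat_lit 341)) (XT.lf (nat_lit 0) (nat_lit 507360097) (nat_lit 76) (nat_lit 12574628442) (nat_lit 76) (nat_lit 9996203604) (nat_lit 32) (nat_lit 4) (nat_lit 33) (nat_lit 5) (nat_lit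 33) (nat_lit 4) (nat_lit 507) (nat_lit 353) (nat_lit 340)))) (XT.nd (nat_lit 156) (nat_lit 76) (nat_lit 0) (XT.nd (nat_lit 78) (nat_lit 152) (nat_lit 0) (XT.lf (nat_lit 0) (nat_lit 14340253764) (nat_lit 76) (nat_lit 5978115857) (nat_lit 76) (nat_lit 3239404256) (nat_lit 32) (nat_lit 4) (nat_lit 33) (nat_lit 5) (nat_lit 33) (nat_lit 4) (nat_lit 508) (nat_lit 353) (nat_lit 339)) (XT.lf (nat_lit 0) (nat_lit 3577423419) (nat_lit 152) (nat_lit 19707957677) (nat_lit 0) (nat_lit 767394469) (nat_lit 30) (nat_lit 5) (nat_lit 32) (nat_lit 4) (nat_lit 30) (nat_lit 4) (nat_lit 509) (nat_lit 353) (nat_lit 338))) (XT.nd (nat_lit 78) (nat_lit 76) (nat_lit 0) (XT.lf (nat_lit 0) (nat_lit 10567570239) (nat_lit 152) (nat_lit 6382223696) (nat_lit 0) (nat_lit 7610856195) (nat_lit 30) (nat_lit 5) (nat_lit 32) (nat_lit 4) (nat_lit 30) (nat_lit 4) (nat_lit 510) (nat_lit 353) (nat_lit 337)) (XT.lf (nat_lit 0) (nat_lit 7258533339) (nat_lit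 76) (nat_lit 10462868786) (nat_lit 76) (nat_lit 7363742028) (nat_lit 29) (nat_lit 4) (nat_lit 30) (nat_lit 5) (nat_lit 30) (nat_lit 4) (nat_lit 511) (nat_lit 353) (nat_lit 336))))) (XT.nd (nat_lit 312) (nat_lit 228) (nat_lit 0) (XT.nd (nat_lit 156) (nat_lit 76) (nat_lit 0) (XT.nd (nat_lit 78) (nat_lit 152) (nat_lit 0) (XT.lf (nat_lit 0) (nat_lit 21215172821) (nat_lit 76) (nat_lit 3824549042) (nat_lit 76) (nat_lit 587157514) (nat_lit 29) (nat_lit 4) (nat_lit 30) (nat_lit 5) (nat_lit 30) (nat_lit 4) (nat_lit 512) (nat_lit 353) (nat_lit 335)) (XT.lf (nat_lit 0) (nat_lit 6274514237) (nat_lit 152) (nat_lit 16907227410) (nat_lit 0) (nat_lit 3001087859) (nat_lit 27) (nat_lit 5) (nat_lit 29) (nat_lit 4) (nat_lit 27) (nat_lit 4) (nat_lit 513) (nat_lit 353) (nat_lit 334))) (XT.nd (nat_lit 78) (nat_lit 76) (nat_lit 0) (XT.lf (nat_lit 0) (nat_lit 13300905507) (nat_lit 152) (nat_lit 3554313178) (nat_lit 0) (nat_lit 9900947278)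 (nat_lit 27) (nat_lit 5) (nat_lit 29) (nat_lit 4) (nat_lit 27) (nat_lit 4) (nat_lit 514) (nat_lit 353) (nat_lit 333)) (XT.lf (nat_lit 0) (nat_lit 10184293698) (nat_lit 76) (nat_lit 10342773215) (nat_lit 76) (nat_lit 6819968528) (nat_lit 26) (nat_lit 4) (nat_lit 27) (nat_lit 5) (nat_lit 27) (nat_lit 4) (nat_lit 515) (nat_lit 353) (nat_lit 332)))) (XT.nd (nat_lit 156) (nat_lit 76) (nat_lit 0) (XT.nd (nat_lit 78) (nat_lit 152) (nat_lit 0) (XT.lf (nat_lit 0) (nat_lit 24196386063) (nat_lit 76) (nat_lit 3701738451) (nat_lit 76) (nat_lit 59665359) (nat_lit 26) (nat_lit 4) (nat_lit 27) (nat_lit 5) (nat_lit 27) (nat_lit 4) (nat_lit 516) (nat_lit 353) (nat_lit 331)) (XT.lf (nat_lit 0) (nat_lit 6789618790) (nat_lit 152) (nat_lit 18653429355) (nat_lit 0) (nat_lit 3141203586) (nat_lit 24) (nat_lit 5) (nat_lit 26) (nat_lit 4) (nat_lit 24) (nat_lit 4) (nat_lit 517) (nat_lit 353) (nat_lit 330))) (XT.nd (nat_lit 78) (nat_lit 76)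 (nat_lit 0) (XT.lf (nat_lit 0) (nat_lit 13812646432) (nat_lit 152) (nat_lit 5362677648) (nat_lit 0) (nat_lit 10055083741) (nat_lit 24) (nat_lit 5) (nat_lit 26) (nat_lit 4) (nat_lit 24) (nat_lit 4) (nat_lit 518) (nat_lit 353) (nat_lit 329)) (XT.lf (nat_lit 0) (nat_lit 8286939166) (nat_lit 76) (nat_lit 12736613443) (nat_lit 76) (nat_lit 8873082319) (nat_lit 23) (nat_lit 4) (nat_lit 24) (nat_lit 5) (nat_lit 24) (nat_lit 4) (nat_lit 519) (nat_lit 353) (nat_lit 328)))))) (XT.nd (nat_lit 546) (nat_lit 228) (nat_lit 0) (XT.nd (nat_lit 234) (nat_lit 228) (nat_lit 0) (XT.nd (nat_lit 78) (nat_lit 152) (nat_lit 0) (XT.lf (nat_lit 0) (nat_lit 22256384777) (nat_lit 76) (nat_lit 6147148331) (nat_lit 76) (nat_lit 2180735233) (nat_lit 23) (nat_lit 4) (nat_lit 24) (nat_lit 5) (nat_lit 24) (nat_lit 4) (nat_lit 520) (nat_lit 353) (nat_lit 327)) (XT.nd (nat_lit 78) (nat_lit 0) (nat_lit 0) (XT.lf (nat_lit 0) (nat_lit 4577280107) (nat_lit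 152) (nat_lit 26085770423) (nat_lit 0) (nat_lit 629417475) (nat_lit 21) (nat_lit 5) (nat_lit 23) (nat_lit 4) (nat_lit 21) (nat_lit 4) (nat_lit 521) (nat_lit 353) (nat_lit 326)) (XT.lf (nat_lit 0) (nat_lit 11540682885) (nat_lit 152) (nat_lit 12980521778) (nat_lit 0) (nat_lit 7498668673) (nat_lit 21) (nat_lit 5) (nat_lit 23) (nat_lit 4) (nat_lit 21) (nat_lit 4) (nat_lit 522) (nat_lit 353) (nat_lit 325)))) (XT.nd (nat_lit 156) (nat_lit 152) (nat_lit 0) (XT.nd (nat_lit 78) (nat_lit 0) (nat_lit 0) (XT.lf (nat_lit 0) (nat_lit 334237899) (nat_lit 76) (nat_lit 18285542182) (nat_lit 76) (nat_lit 14152118669) (nat_lit 20) (nat_lit 4) (nat_lit 21) (nat_lit 5) (nat_lit 21) (nat_lit 4) (nat_lit 523) (nat_lit 353) (nat_lit 324)) (XT.lf (nat_lit 0) (nat_lit 14126224123) (nat_lit 76) (nat_lit 11820681596) (nat_lit 76) (nat_lit 7598511188) (nat_lit 20) (nat_lit 4) (nat_lit 21) (nat_lit 5) (nat_lit 21) (nat_lit 4) (nat_lit 524)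 (nat_lit 353) (nat_lit 323))) (XT.nd (nat_lit 78) (nat_lit 152) (nat_lit 0) (XT.lf (nat_lit 0) (nat_lit 28149150308) (nat_lit 76) (nat_lit 5252051816) (nat_lit 76) (nat_lit 943719374) (nat_lit 20) (nat_lit 4) (nat_lit 21) (nat_lit 5) (nat_lit 21) (nat_lit 4) (nat_lit 525) (nat_lit 353) (nat_lit 322)) (XT.lf (nat_lit 0) (nat_lit 5789972864) (nat_lit 152) (nat_lit 27850987612) (nat_lit 0) (nat_lit 1525909853) (nat_lit 18) (nat_lit 5) (nat_lit 20) (nat_lit 4) (nat_lit 18) (nat_lit 4) (nat_lit 526) (nat_lit 353) (nat_lit 321))))) (XT.nd (nat_lit 312) (nat_lit 152) (nat_lit 0) (XT.nd (nat_lit 156) (nat_lit 76) (nat_lit 0) (XT.nd (nat_lit 78) (nat_lit 0) (nat_lit 0) (XT.lf (nat_lit 0) (nat_lit 12731152946) (nat_lit 152) (nat_lit 14893073014) (nat_lit 0) (nat_lit 8388239468) (nat_lit 18) (nat_lit 5) (nat_lit 20) (nat_lit 4) (nat_lit 18) (nat_lit 4) (nat_lit 527) (nat_lit 353) (nat_lit 320)) (XT.lf (nat_lit 0) (nat_lit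 19792471139) (nat_lit 152) (nat_lit 1720597770) (nat_lit 0) (nat_lit 15373003810) (nat_lit 18) (nat_lit 5) (nat_lit 20) (nat_lit 4) (nat_lit 18) (nat_lit 4) (nat_lit 528) (nat_lit 353) (nat_lit 319))) (XT.nd (nat_lit 78) (nat_lit 0) (nat_lit 0) (XT.lf (nat_lit 0) (nat_lit 11910362113) (nat_lit 76) (nat_lit 15184225100) (nat_lit 76) (nat_lit 10690433644) (nat_lit 17) (nat_lit 4) (nat_lit 18) (nat_lit 5) (nat_lit 18) (nat_lit 4) (nat_lit 529) (nat_lit 353) (nat_lit 318)) (XT.lf (nat_lit 0) (nat_lit 25818075560) (nat_lit 76) (nat_lit 8730416136) (nat_lit 76) (nat_lit 4164465334) (nat_lit 17) (nat_lit 4) (nat_lit 18) (nat_lit 5) (nat_lit 18) (nat_lit 4) (nat_lit 530) (nat_lit 353) (nat_lit 317)))) (XT.nd (nat_lit 156) (nat_lit 0) (nat_lit 0) (XT.nd (nat_lit 78) (nat_lit 0) (nat_lit 0) (XT.lf (nat_lit 0) (nat_lit 291166827) (nat_lit 76) (nat_lit 2136013097) (nat_lit 152) (nat_lit 37243221169) (nat_lit 15) (nat_lit 5)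 (nat_lit 16) (nat_lit 5) (nat_lit 17) (nat_lit 4) (nat_lit 531) (nat_lit 353) (nat_lit 316)) (XT.lf (nat_lit 0) (nat_lit 9226215263) (nat_lit 152) (nat_lit 26767117012) (nat_lit 0) (nat_lit 4659200189) (nat_lit 15) (nat_lit 5) (nat_lit 17) (nat_lit 4) (nat_lit 15) (nat_lit 4) (nat_lit 532) (nat_lit 353) (nat_lit 315))) (XT.nd (nat_lit 78) (nat_lit 0) (nat_lit 0) (XT.lf (nat_lit 0) (nat_lit 16169867042) (nat_lit 152) (nat_lit 13957303237) (nat_lit 0) (nat_lit 11538739324) (nat_lit 15) (nat_lit 5) (nat_lit 17) (nat_lit 4) (nat_lit 15) (nat_lit 4) (nat_lit 533) (nat_lit 353) (nat_lit 314)) (XT.lf (nat_lit 0) (nat_lit 23243669868) (nat_lit 152) (nat_lit 918067236) (nat_lit 0) (nat_lit 18550296863) (nat_lit 15) (nat_lit 5) (nat_lit 17) (nat_lit 4) (nat_lit 15) (nat_lit 4) (nat_lit 534) (nat_lit 353) (nat_lit 313))))))) (XT.nd (nat_lit 1170) (nat_lit 76) (nat_lit 0) (XT.nd (nat_lit 546) (nat_lit 228) (nat_lit 0) (XT.nd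 (nat_lit 234) (nat_lit 152) (nat_lit 0) (XT.nd (nat_lit 78) (nat_lit 0) (nat_lit 0) (XT.lf (nat_lit 0) (nat_lit 12608012229) (nat_lit 76) (nat_lit 17966988429) (nat_lit 76) (nat_lit 13213183107) (nat_lit 14) (nat_lit 4) (nat_lit 15) (nat_lit 5) (nat_lit 15) (nat_lit 4) (nat_lit 535) (nat_lit 353) (nat_lit 312)) (XT.nd (nat_lit 78) (nat_lit 0) (nat_lit 0) (XT.lf (nat_lit 0) (nat_lit 26409806342) (nat_lit 76) (nat_lit 11650632625) (nat_lit 76) (nat_lit 6838155151) (nat_lit 14) (nat_lit 4) (nat_lit 15) (nat_lit 5) (nat_lit 15) (nat_lit 4) (nat_lit 536) (nat_lit 353) (nat_lit 311)) (XT.lf (nat_lit 0) (nat_lit 40481103583) (nat_lit 76) (nat_lit 5216421226) (nat_lit 76) (nat_lit 346980497) (nat_lit 14) (nat_lit 4) (nat_lit 15) (nat_lit 5) (nat_lit 15) (nat_lit 4) (nat_lit 537) (nat_lit 353) (nat_lit 310)))) (XT.nd (nat_lit 156) (nat_lit 0) (nat_lit 0) (XT.nd (nat_lit 78) (nat_lit 0) (nat_lit 0) (XT.lf (nat_lit 0) (nat_lit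 6231952973) (nat_lit 152) (nat_lit 39539864991) (nat_lit 0) (nat_lit 1450647284) (nat_lit 12) (nat_lit 5) (nat_lit 14) (nat_lit 4) (nat_lit 12) (nat_lit 4) (nat_lit 538) (nat_lit 353) (nat_lit 309)) (XT.lf (nat_lit 0) (nat_lit 13038233933) (nat_lit 152) (nat_lit 27191520561) (nat_lit 0) (nat_lit 8204798796) (nat_lit 12) (nat_lit 5) (nat_lit 14) (nat_lit 4) (nat_lit 12) (nat_lit 4) (nat_lit 539) (nat_lit 353) (nat_lit 308))) (XT.nd (nat_lit 78) (nat_lit 0) (nat_lit 0) (XT.lf (nat_lit 0) (nat_lit 19979353838) (nat_lit 152) (nat_lit 14610423969) (nat_lit 0) (nat_lit 15095307588) (nat_lit 12) (nat_lit 5) (nat_lit 14) (nat_lit 4) (nat_lit 12) (nat_lit 4) (nat_lit 540) (nat_lit 353) (nat_lit 307)) (XT.lf (nat_lit 0) (nat_lit 27061377745) (nat_lit 152) (nat_lit 1785582026) (nat_lit 0) (nat_lit 22128194491) (nat_lit 12) (nat_lit 5) (nat_lit 14) (nat_lit 4) (nat_lit 12) (nat_lit 4) (nat_lit 541) (nat_lit 353) (nat_lit 306)))))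 (XT.nd (nat_lit 312) (nat_lit 76) (nat_lit 0) (XT.nd (nat_lit 156) (nat_lit 76) (nat_lit 0) (XT.nd (nat_lit 78) (nat_lit 0) (nat_lit 0) (XT.lf (nat_lit 0) (nat_lit 11518988394) (nat_lit 76) (nat_lit 22882232999) (nat_lit 76) (nat_lit 17901343916) (nat_lit 11) (nat_lit 4) (nat_lit 12) (nat_lit 5) (nat_lit 12) (nat_lit 4) (nat_lit 542) (nat_lit 353) (nat_lit 305)) (XT.lf (nat_lit 0) (nat_lit 25130777363) (nat_lit 76) (nat_lit 16783813841) (nat_lit 76) (nat_lit 11756608419) (nat_lit 11) (nat_lit 4) (nat_lit 12) (nat_lit 5) (nat_lit 12) (nat_lit 4) (nat_lit 543) (nat_lit 353) (nat_lit 304))) (XT.nd (nat_lit 78) (nat_lit 76) (nat_lit 0) (XT.lf (nat_lit 0) (nat_lit 39026142091) (nat_lit 76) (nat_lit 10564404458) (nat_lit 76) (nat_lit 5492231717) (nat_lit 11) (nat_lit 4) (nat_lit 12) (nat_lit 5) (nat_lit 12) (nat_lit 4) (nat_lit 544) (nat_lit 353) (nat_lit 303)) (XT.lf (nat_lit 0) (nat_lit 879751144) (nat_lit 152) (nat_lit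 3329935509) (nat_lit 76) (nat_lit 52328589254) (nat_lit 10) (nat_lit 5) (nat_lit 12) (nat_lit 5) (nat_lit 11) (nat_lit 4) (nat_lit 545) (nat_lit 353) (nat_lit 302)))) (XT.nd (nat_lit 156) (nat_lit 0) (nat_lit 0) (XT.nd (nat_lit 78) (nat_lit 0) (nat_lit 0) (XT.lf (nat_lit 0) (nat_lit 7390234249) (nat_lit 152) (nat_lit 48261584544) (nat_lit 0) (nat_lit 2382257216) (nat_lit 9) (nat_lit 5) (nat_lit 11) (nat_lit 4) (nat_lit 9) (nat_lit 4) (nat_lit 546) (nat_lit 353) (nat_lit 301)) (XT.lf (nat_lit 0) (nat_lit 14111922871) (nat_lit 152) (nat_lit 36398358297) (nat_lit 0) (nat_lit 9063992957) (nat_lit 9) (nat_lit 5) (nat_lit 11) (nat_lit 4) (nat_lit 9) (nat_lit 4) (nat_lit 547) (nat_lit 353) (nat_lit 300))) (XT.nd (nat_lit 78) (nat_lit 0) (nat_lit 0) (XT.lf (nat_lit 0) (nat_lit 20977254587) (nat_lit 152) (nat_lit 24294629074) (nat_lit 0) (nat_lit 15890535469) (nat_lit 9) (nat_lit 5) (nat_lit 11) (nat_lit 4) (nat_lit 9)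 (nat_lit 4) (nat_lit 548) (nat_lit 353) (nat_lit 299)) (XT.lf (nat_lit 0) (nat_lit 27992228232) (nat_lit 152) (nat_lit 11939820801) (nat_lit 0) (nat_lit 22867849692) (nat_lit 9) (nat_lit 5) (nat_lit 11) (nat_lit 4) (nat_lit 9) (nat_lit 4) (nat_lit 549) (nat_lit 353) (nat_lit 298)))))) (XT.nd (nat_lit 58188) (nat_lit 0) (nat_lit 2280) (XT.nd (nat_lit 312) (nat_lit 0) (nat_lit 0) (XT.nd (nat_lit 156) (nat_lit 0) (nat_lit 0) (XT.nd (nat_lit 78) (nat_lit 0) (nat_lit 0) (XT.lf (nat_lit 0) (nat_lit 690332864) (nat_lit 76) (nat_lit 34479276431) (nat_lit 76) (nat_lit 29318335345) (nat_lit 8) (nat_lit 4) (nat_lit 9) (nat_lit 5) (nat_lit 9) (nat_lit 4) (nat_lit 550) (nat_lit 353) (nat_lit 297)) (XT.lf (nat_lit 0) (nat_lit 13836442397) (nat_lit 76) (nat_lit 28792317723) (nat_lit 76) (nat_lit 23595879020) (nat_lit 8) (nat_lit 4) (nat_lit 9) (nat_lit 5) (nat_lit 9) (nat_lit 4) (nat_lit 551) (nat_lit 353) (nat_lit 296))) (XT.nd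 (nat_lit 78) (nat_lit 0) (nat_lit 0) (XT.lf (nat_lit 0) (nat_lit 27272368842) (nat_lit 76) (nat_lit 22986772503) (nat_lit 76) (nat_lit 17755870094) (nat_lit 8) (nat_lit 4) (nat_lit 9) (nat_lit 5) (nat_lit 9) (nat_lit 4) (nat_lit 552) (nat_lit 353) (nat_lit 295)) (XT.lf (nat_lit 0) (nat_lit 41009852330) (nat_lit 76) (nat_lit 17057567963) (nat_lit 76) (nat_lit 11793205646) (nat_lit 8) (nat_lit 4) (nat_lit 9) (nat_lit 5) (nat_lit 9) (nat_lit 4) (nat_lit 553) (nat_lit 353) (nat_lit 294)))) (XT.nd (nat_lit 57720) (nat_lit 0) (nat_lit 2812) (XT.nd (nat_lit 57642) (nat_lit 0) (nat_lit 3116) (XT.lf (nat_lit 0) (nat_lit 55060896486) (nat_lit 76) (nat_lit 10999523246) (nat_lit 76) (nat_lit 5702675581) (nat_lit 8) (nat_lit 4) (nat_lit 9) (nat_lit 5) (nat_lit 9) (nat_lit 4) (nat_lit 554) (nat_lit 353) (nat_lit 293)) (XT.lf (nat_lit 0) (nat_lit 3830457434) (nat_lit 152) (nat_lit 1012301479) (nat_lit 0) (nat_lit 3830457434)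 (nat_lit 49) (nat_lit 5) (nat_lit 51) (nat_lit 4) (nat_lit 49) (nat_lit 4) (nat_lit 492) (nat_lit 354) (nat_lit 354))) (XT.nd (nat_lit 78) (nat_lit 152) (nat_lit 0) (XT.lf (nat_lit 0) (nat_lit 11200723302) (nat_lit 152) (nat_lit 3368926077) (nat_lit 152) (nat_lit 3087862267) (nat_lit 47) (nat_lit 4) (nat_lit 49) (nat_lit 5) (nat_lit 49) (nat_lit 4) (nat_lit 493) (nat_lit 354) (nat_lit 353)) (XT.lf (nat_lit 0) (nat_lit 3614416024) (nat_lit 152) (nat_lit 11286462367) (nat_lit 0) (nat_lit 3076608940) (nat_lit 45) (nat_lit 5) (nat_lit 47) (nat_lit 4) (nat_lit 45) (nat_lit 4) (nat_lit 494) (nat_lit 354) (nat_lit 352))))) (XT.nd (nat_lit 312) (nat_lit 228) (nat_lit 0) (XT.nd (nat_lit 156) (nat_lit 228) (nat_lit 0) (XT.nd (nat_lit 78) (nat_lit 0) (nat_lit 0) (XT.lf (nat_lit 0) (nat_lit 1769929863) (nat_lit 76) (nat_lit 8665917924) (nat_lit 76) (nat_lit 7870897639) (nat_lit 44) (nat_lit 4) (nat_lit 45) (nat_lit 5) (nat_lit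 45) (nat_lit 4) (nat_lit 495) (nat_lit 354) (nat_lit 351)) (XT.lf (nat_lit 0) (nat_lit 15191371825) (nat_lit 76) (nat_lit 2249937158) (nat_lit 76) (nat_lit 1205195319) (nat_lit 44) (nat_lit 4) (nat_lit 45) (nat_lit 5) (nat_lit 45) (nat_lit 4) (nat_lit 496) (nat_lit 354) (nat_lit 350))) (XT.nd (nat_lit 78) (nat_lit 76) (nat_lit 0) (XT.lf (nat_lit 0) (nat_lit 5555482973) (nat_lit 152) (nat_lit 9133397150) (nat_lit 0) (nat_lit 4305783992) (nat_lit 42) (nat_lit 5) (nat_lit 44) (nat_lit 4) (nat_lit 42) (nat_lit 4) (nat_lit 497) (nat_lit 354) (nat_lit 349)) (XT.lf (nat_lit 0) (nat_lit 4087568264) (nat_lit 76) (nat_lit 8372311331) (nat_lit 76) (nat_lit 6894081751) (nat_lit 41) (nat_lit 4) (nat_lit 42) (nat_lit 5) (nat_lit 42) (nat_lit 4) (nat_lit 498) (nat_lit 354) (nat_lit 348)))) (XT.nd (nat_lit 156) (nat_lit 76) (nat_lit 0) (XT.nd (nat_lit 78) (nat_lit 152) (nat_lit 0) (XT.lf (nat_lit 0) (nat_lit 17641469239) (nat_lit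 76) (nat_lit 1891908612) (nat_lit 76) (nat_lit 191804665) (nat_lit 41) (nat_lit 4) (nat_lit 42) (nat_lit 5) (nat_lit 42) (nat_lit 4) (nat_lit 499) (nat_lit 354) (nat_lit 347)) (XT.lf (nat_lit 0) (nat_lit 6609059614) (nat_lit 152) (nat_lit 8746359181) (nat_lit 0) (nat_lit 4749335386) (nat_lit 39) (nat_lit 5) (nat_lit 41) (nat_lit 4) (nat_lit 39) (nat_lit 4) (nat_lit 500) (nat_lit 354) (nat_lit 346))) (XT.nd (nat_lit 78) (nat_lit 0) (nat_lit 0) (XT.lf (nat_lit 0) (nat_lit 4573394231) (nat_lit 76) (nat_lit 8993171074) (nat_lit 76) (nat_lit 6930400370) (nat_lit 38) (nat_lit 4) (nat_lit 39) (nat_lit 5) (nat_lit 39) (nat_lit 4) (nat_lit 501) (nat_lit 354) (nat_lit 345)) (XT.lf (nat_lit 0) (nat_lit 18228038948) (nat_lit 76) (nat_lit 2466972484) (nat_lit 76) (nat_lit 207069279) (nat_lit 38) (nat_lit 4) (nat_lit 39) (nat_lit 5) (nat_lit 39) (nat_lit 4) (nat_lit 502) (nat_lit 354) (nat_lit 344))))))))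
noncomputable def xc16 : XT := (XT.nd (nat_lit 2340) (nat_lit 532) (nat_lit 0) (XT.nd (nat_lit 1170) (nat_lit 684) (nat_lit 0) (XT.nd (nat_lit 546) (nat_lit 456) (nat_lit 0) (XT.nd (nat_lit 234) (nat_lit 380) (nat_lit 0) (XT.nd (nat_lit 78) (nat_lit 76) (nat_lit 0) (XT.lf (nat_lit 0) (nat_lit 6609284672) (nat_lit 152) (nat_lit 10478070621) (nat_lit 0) (nat_lit 4229387600) (nat_lit 36) (nat_lit 5) (nat_lit 38) (nat_lit 4) (nat_lit 36) (nat_lit 4) (nat_lit 503) (nat_lit 354) (nat_lit 343)) (XT.nd (nat_lit 78) (nat_lit 0) (nat_lit 0) (XT.lf (nat_lit 0) (nat_lit 2858000009) (nat_lit 76) (nat_lit 10723707896) (nat_lit 76) (nat_lit 8163406660) (nat_lit 35) (nat_lit 4) (nat_lit 36) (nat_lit 5) (nat_lit 36) (nat_lit 4) (nat_lit 504) (nat_lit 354) (nat_lit 342)) (XT.lf (nat_lit 0) (nat_lit 16571716755) (nat_lit 76) (nat_lit 4175281972) (nat_lit 76) (nat_lit 1439831062) (nat_lit 35) (nat_lit 4) (nat_lit 36) (nat_lit 5) (nat_lit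 36) (nat_lit 4) (nat_lit 505) (nat_lit 354) (nat_lit 341)))) (XT.nd (nat_lit 156) (nat_lit 228) (nat_lit 0) (XT.nd (nat_lit 78) (nat_lit 0) (nat_lit 0) (XT.lf (nat_lit 0) (nat_lit 5359741152) (nat_lit 152) (nat_lit 14742168383) (nat_lit 0) (nat_lit 2538868203) (nat_lit 33) (nat_lit 5) (nat_lit 35) (nat_lit 4) (nat_lit 33) (nat_lit 4) (nat_lit 506) (nat_lit 354) (nat_lit 340)) (XT.lf (nat_lit 0) (nat_lit 12313426707) (nat_lit 152) (nat_lit 1462853765) (nat_lit 0) (nat_lit 9332266994) (nat_lit 33) (nat_lit 5) (nat_lit 35) (nat_lit 4) (nat_lit 33) (nat_lit 4) (nat_lit 507) (nat_lit 354) (nat_lit 339))) (XT.nd (nat_lit 78) (nat_lit 152) (nat_lit 0) (XT.lf (nat_lit 0) (nat_lit 12227321078) (nat_lit 76) (nat_lit 7249882795) (nat_lit 76) (nat_lit 4113104866) (nat_lit 32) (nat_lit 4) (nat_lit 33) (nat_lit 5) (nat_lit 33) (nat_lit 4) (nat_lit 508) (nat_lit 354) (nat_lit 338)) (XT.lf (nat_lit 0) (nat_lit 2059313886) (nat_lit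 76) (nat_lit 574763682) (nat_lit 152) (nat_lit 21454086984) (nat_lit 30) (nat_lit 5) (nat_lit 31) (nat_lit 5) (nat_lit 32) (nat_lit 4) (nat_lit 509) (nat_lit 354) (nat_lit 337))))) (XT.nd (nat_lit 312) (nat_lit 228) (nat_lit 0) (XT.nd (nat_lit 156) (nat_lit 152) (nat_lit 0) (XT.nd (nat_lit 78) (nat_lit 76) (nat_lit 0) (XT.lf (nat_lit 0) (nat_lit 9561658619) (nat_lit 152) (nat_lit 8809113426) (nat_lit 0) (nat_lit 6227145345) (nat_lit 30) (nat_lit 5) (nat_lit 32) (nat_lit 4) (nat_lit 30) (nat_lit 4) (nat_lit 510) (nat_lit 354) (nat_lit 336)) (XT.lf (nat_lit 0) (nat_lit 4672915373) (nat_lit 76) (nat_lit 11962341184) (nat_lit 76) (nat_lit 8489563140) (nat_lit 29) (nat_lit 4) (nat_lit 30) (nat_lit 5) (nat_lit 30) (nat_lit 4) (nat_lit 511) (nat_lit 354) (nat_lit 335))) (XT.nd (nat_lit 78) (nat_lit 152) (nat_lit 0) (XT.lf (nat_lit 0) (nat_lit 18522342843) (nat_lit 76) (nat_lit 5376436449) (nat_lit 76) (nat_lit 1769420763)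 (nat_lit 29) (nat_lit 4) (nat_lit 30) (nat_lit 5) (nat_lit 30) (nat_lit 4) (nat_lit 512) (nat_lit 354) (nat_lit 334)) (XT.lf (nat_lit 0) (nat_lit 5018068257) (nat_lit 152) (nat_lit 19819762181) (nat_lit 0) (nat_lit 1389579430) (nat_lit 27) (nat_lit 5) (nat_lit 29) (nat_lit 4) (nat_lit 27) (nat_lit 4) (nat_lit 513) (nat_lit 354) (nat_lit 333)))) (XT.nd (nat_lit 156) (nat_lit 152) (nat_lit 0) (XT.nd (nat_lit 78) (nat_lit 76) (nat_lit 0) (XT.lf (nat_lit 0) (nat_lit 11990804718) (nat_lit 152) (nat_lit 6572082941) (nat_lit 0) (nat_lit 8239469433) (nat_lit 27) (nat_lit 5) (nat_lit 29) (nat_lit 4) (nat_lit 27) (nat_lit 4) (nat_lit 514) (nat_lit 354) (nat_lit 332)) (XT.lf (nat_lit 0) (nat_lit 7002261121) (nat_lit 76) (nat_lit 12132025310) (nat_lit 76) (nat_lit 8261421619) (nat_lit 26) (nat_lit 4) (nat_lit 27) (nat_lit 5) (nat_lit 27) (nat_lit 4) (nat_lit 515) (nat_lit 354) (nat_lit 331))) (XT.nd (nat_lit 78) (nat_lit 152)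 (nat_lit 0) (XT.lf (nat_lit 0) (nat_lit 20913185257) (nat_lit 76) (nat_lit 5540611481) (nat_lit 76) (nat_lit 1554213223) (nat_lit 26) (nat_lit 4) (nat_lit 27) (nat_lit 5) (nat_lit 27) (nat_lit 4) (nat_lit 516) (nat_lit 354) (nat_lit 330)) (XT.lf (nat_lit 0) (nat_lit 5221561510) (nat_lit 152) (nat_lit 22174298052) (nat_lit 0) (nat_lit 1242124452) (nat_lit 24) (nat_lit 5) (nat_lit 26) (nat_lit 4) (nat_lit 24) (nat_lit 4) (nat_lit 517) (nat_lit 354) (nat_lit 329)))))) (XT.nd (nat_lit 546) (nat_lit 380) (nat_lit 0) (XT.nd (nat_lit 234) (nat_lit 228) (nat_lit 0) (XT.nd (nat_lit 78) (nat_lit 76) (nat_lit 0) (XT.lf (nat_lit 0) (nat_lit 12194110618) (nat_lit 152) (nat_lit 8982839682) (nat_lit 0) (nat_lit 8108705127) (nat_lit 24) (nat_lit 5) (nat_lit 26) (nat_lit 4) (nat_lit 24) (nat_lit 4) (nat_lit 518) (nat_lit 354) (nat_lit 328)) (XT.nd (nat_lit 78) (nat_lit 0) (nat_lit 0) (XT.lf (nat_lit 0) (nat_lit 4496408936) (nat_lit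 76) (nat_lit 14823162680) (nat_lit 76) (nat_lit 10634875214) (nat_lit 23) (nat_lit 4) (nat_lit 24) (nat_lit 5) (nat_lit 24) (nat_lit 4) (nat_lit 519) (nat_lit 354) (nat_lit 327)) (XT.lf (nat_lit 0) (nat_lit 18370398359) (nat_lit 76) (nat_lit 8280655314) (nat_lit 76) (nat_lit 3992482437) (nat_lit 23) (nat_lit 4) (nat_lit 24) (nat_lit 5) (nat_lit 24) (nat_lit 4) (nat_lit 520) (nat_lit 354) (nat_lit 326)))) (XT.nd (nat_lit 156) (nat_lit 76) (nat_lit 0) (XT.nd (nat_lit 78) (nat_lit 0) (nat_lit 0) (XT.lf (nat_lit 0) (nat_lit 1111556760) (nat_lit 76) (nat_lit 1596180069) (nat_lit 152) (nat_lit 28647316767) (nat_lit 21) (nat_lit 5) (nat_lit 22) (nat_lit 5) (nat_lit 23) (nat_lit 4) (nat_lit 521) (nat_lit 354) (nat_lit 325)) (XT.lf (nat_lit 0) (nat_lit 9608298334) (nat_lit 152) (nat_lit 17216583851) (nat_lit 0) (nat_lit 5259462814) (nat_lit 21) (nat_lit 5) (nat_lit 23) (nat_lit 4) (nat_lit 21) (nat_lit 4) (nat_lit 522)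 (nat_lit 354) (nat_lit 324))) (XT.nd (nat_lit 78) (nat_lit 76) (nat_lit 0) (XT.lf (nat_lit 0) (nat_lit 16638068249) (nat_lit 152) (nat_lit 3999296960) (nat_lit 0) (nat_lit 12200485834) (nat_lit 21) (nat_lit 5) (nat_lit 23) (nat_lit 4) (nat_lit 21) (nat_lit 4) (nat_lit 523) (nat_lit 354) (nat_lit 323)) (XT.lf (nat_lit 0) (nat_lit 9623036483) (nat_lit 76) (nat_lit 14257311663) (nat_lit 76) (nat_lit 9733567214) (nat_lit 20) (nat_lit 4) (nat_lit 21) (nat_lit 5) (nat_lit 21) (nat_lit 4) (nat_lit 524) (nat_lit 354) (nat_lit 322))))) (XT.nd (nat_lit 312) (nat_lit 228) (nat_lit 0) (XT.nd (nat_lit 156) (nat_lit 0) (nat_lit 0) (XT.nd (nat_lit 78) (nat_lit 152) (nat_lit 0) (XT.lf (nat_lit 0) (nat_lit 23558526815) (nat_lit 76) (nat_lit 7731810020) (nat_lit 76) (nat_lit 3124413112) (nat_lit 20) (nat_lit 4) (nat_lit 21) (nat_lit 5) (nat_lit 21) (nat_lit 4) (nat_lit 525) (nat_lit 354) (nat_lit 321)) (XT.lf (nat_lit 0) (nat_lit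 2512005492) (nat_lit 76) (nat_lit 1035097158) (nat_lit 152) (nat_lit 31693367603) (nat_lit 18) (nat_lit 5) (nat_lit 19) (nat_lit 5) (nat_lit 20) (nat_lit 4) (nat_lit 526) (nat_lit 354) (nat_lit 320))) (XT.nd (nat_lit 78) (nat_lit 0) (nat_lit 0) (XT.lf (nat_lit 0) (nat_lit 10434935065) (nat_lit 152) (nat_lit 19846401552) (nat_lit 0) (nat_lit 5806329865) (nat_lit 18) (nat_lit 5) (nat_lit 20) (nat_lit 4) (nat_lit 18) (nat_lit 4) (nat_lit 527) (nat_lit 354) (nat_lit 319)) (XT.lf (nat_lit 0) (nat_lit 17454119587) (nat_lit 152) (nat_lit 6757228613) (nat_lit 0) (nat_lit 12751190261) (nat_lit 18) (nat_lit 5) (nat_lit 20) (nat_lit 4) (nat_lit 18) (nat_lit 4) (nat_lit 528) (nat_lit 354) (nat_lit 318)))) (XT.nd (nat_lit 156) (nat_lit 152) (nat_lit 0) (XT.nd (nat_lit 78) (nat_lit 0) (nat_lit 0) (XT.lf (nat_lit 0) (nat_lit 6691006824) (nat_lit 76) (nat_lit 17974150726) (nat_lit 76) (nat_lit 13199062052) (nat_lit 17) (nat_lit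 4) (nat_lit 18) (nat_lit 5) (nat_lit 18) (nat_lit 4) (nat_lit 529) (nat_lit 354) (nat_lit 317)) (XT.lf (nat_lit 0) (nat_lit 20518637147) (nat_lit 76) (nat_lit 11559940052) (nat_lit 76) (nat_lit 6714793761) (nat_lit 17) (nat_lit 4) (nat_lit 18) (nat_lit 5) (nat_lit 18) (nat_lit 4) (nat_lit 530) (nat_lit 354) (nat_lit 316))) (XT.nd (nat_lit 78) (nat_lit 152) (nat_lit 0) (XT.lf (nat_lit 0) (nat_lit 34603262652) (nat_lit 76) (nat_lit 5031346290) (nat_lit 76) (nat_lit 118182893) (nat_lit 17) (nat_lit 4) (nat_lit 18) (nat_lit 5) (nat_lit 18) (nat_lit 4) (nat_lit 531) (nat_lit 354) (nat_lit 315)) (XT.lf (nat_lit 0) (nat_lit 6564684687) (nat_lit 152) (nat_lit 32443316912) (nat_lit 0) (nat_lit 1730510492) (nat_lit 15) (nat_lit 5) (nat_lit 17) (nat_lit 4) (nat_lit 15) (nat_lit 4) (nat_lit 532) (nat_lit 354) (nat_lit 314))))))) (XT.nd (nat_lit 1170) (nat_lit 76) (nat_lit 0) (XT.nd (nat_lit 546) (nat_lit 228) (nat_lit 0) (XT.nd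 (nat_lit 234) (nat_lit 152) (nat_lit 0) (XT.nd (nat_lit 78) (nat_lit 76) (nat_lit 0) (XT.lf (nat_lit 0) (nat_lit 13469834739) (nat_lit 152) (nat_lit 19709794854) (nat_lit 0) (nat_lit 8573415257) (nat_lit 15) (nat_lit 5) (nat_lit 17) (nat_lit 4) (nat_lit 15) (nat_lit 4) (nat_lit 533) (nat_lit 354) (nat_lit 313)) (XT.nd (nat_lit 78) (nat_lit 76) (nat_lit 0) (XT.lf (nat_lit 0) (nat_lit 20506257246) (nat_lit 152) (nat_lit 6744628482) (nat_lit 0) (nat_lit 15549405447) (nat_lit 15) (nat_lit 5) (nat_lit 17) (nat_lit 4) (nat_lit 15) (nat_lit 4) (nat_lit 534) (nat_lit 354) (nat_lit 312)) (XT.lf (nat_lit 0) (nat_lit 6592147534) (nat_lit 76) (nat_lit 21151320759) (nat_lit 76) (nat_lit 16135796809) (nat_lit 14) (nat_lit 4) (nat_lit 15) (nat_lit 5) (nat_lit 15) (nat_lit 4) (nat_lit 535) (nat_lit 354) (nat_lit 311)))) (XT.nd (nat_lit 156) (nat_lit 152) (nat_lit 0) (XT.nd (nat_lit 78) (nat_lit 0) (nat_lit 0) (XT.lf (nat_lit 0)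 (nat_lit 20322734408) (nat_lit 76) (nat_lit 14870253172) (nat_lit 76) (nat_lit 9797765967) (nat_lit 14) (nat_lit 4) (nat_lit 15) (nat_lit 5) (nat_lit 15) (nat_lit 4) (nat_lit 536) (nat_lit 354) (nat_lit 310)) (XT.lf (nat_lit 0) (nat_lit 34324898407) (nat_lit 76) (nat_lit 8470302177) (nat_lit 76) (nat_lit 3342510841) (nat_lit 14) (nat_lit 4) (nat_lit 15) (nat_lit 5) (nat_lit 15) (nat_lit 4) (nat_lit 537) (nat_lit 354) (nat_lit 309))) (XT.nd (nat_lit 78) (nat_lit 0) (nat_lit 0) (XT.lf (nat_lit 0) (nat_lit 1283680065) (nat_lit 76) (nat_lit 1901130147) (nat_lit 152) (nat_lit 44135027458) (nat_lit 12) (nat_lit 5) (nat_lit 13) (nat_lit 5) (nat_lit 14) (nat_lit 4) (nat_lit 538) (nat_lit 354) (nat_lit 308)) (XT.lf (nat_lit 0) (nat_lit 9938654039) (nat_lit 152) (nat_lit 33737369961) (nat_lit 0) (nat_lit 4857475287) (nat_lit 12) (nat_lit 5) (nat_lit 14) (nat_lit 4) (nat_lit 12) (nat_lit 4) (nat_lit 539) (nat_lit 354) (nat_lit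 307))))) (XT.nd (nat_lit 312) (nat_lit 152) (nat_lit 0) (XT.nd (nat_lit 156) (nat_lit 76) (nat_lit 0) (XT.nd (nat_lit 78) (nat_lit 0) (nat_lit 0) (XT.lf (nat_lit 0) (nat_lit 16846606656) (nat_lit 152) (nat_lit 21222129303) (nat_lit 0) (nat_lit 11716290901) (nat_lit 12) (nat_lit 5) (nat_lit 14) (nat_lit 4) (nat_lit 12) (nat_lit 4) (nat_lit 540) (nat_lit 354) (nat_lit 306)) (XT.lf (nat_lit 0) (nat_lit 23896429313) (nat_lit 152) (nat_lit 8461225160) (nat_lit 0) (nat_lit 18718407728) (nat_lit 12) (nat_lit 5) (nat_lit 14) (nat_lit 4) (nat_lit 12) (nat_lit 4) (nat_lit 541) (nat_lit 354) (nat_lit 305))) (XT.nd (nat_lit 78) (nat_lit 0) (nat_lit 0) (XT.lf (nat_lit 0) (nat_lit 4647175913) (nat_lit 76) (nat_lit 26491777632) (nat_lit 76) (nat_lit 21267439709) (nat_lit 11) (nat_lit 4) (nat_lit 12) (nat_lit 5) (nat_lit 12) (nat_lit 4) (nat_lit 542) (nat_lit 354) (nat_lit 304)) (XT.lf (nat_lit 0) (nat_lit 18197497931) (nat_lit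 76) (nat_lit 20423881799) (nat_lit 76) (nat_lit 15154576556) (nat_lit 11) (nat_lit 4) (nat_lit 12) (nat_lit 5) (nat_lit 12) (nat_lit 4) (nat_lit 543) (nat_lit 354) (nat_lit 303)))) (XT.nd (nat_lit 156) (nat_lit 152) (nat_lit 0) (XT.nd (nat_lit 78) (nat_lit 0) (nat_lit 0) (XT.lf (nat_lit 0) (nat_lit 32033186009) (nat_lit 76) (nat_lit 14234106712) (nat_lit 76) (nat_lit 8921143878) (nat_lit 11) (nat_lit 4) (nat_lit 12) (nat_lit 5) (nat_lit 12) (nat_lit 4) (nat_lit 544) (nat_lit 354) (nat_lit 302)) (XT.lf (nat_lit 0) (nat_lit 46166329582) (nat_lit 76) (nat_lit 7917043830) (nat_lit 76) (nat_lit 2561694985) (nat_lit 11) (nat_lit 4) (nat_lit 12) (nat_lit 5) (nat_lit 12) (nat_lit 4) (nat_lit 545) (nat_lit 354) (nat_lit 301))) (XT.nd (nat_lit 78) (nat_lit 0) (nat_lit 0) (XT.lf (nat_lit 0) (nat_lit 2472632401) (nat_lit 76) (nat_lit 1403787654) (nat_lit 152) (nat_lit 54268858226) (nat_lit 9) (nat_lit 5) (nat_lit 10) (nat_lit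 5) (nat_lit 11) (nat_lit 4) (nat_lit 546) (nat_lit 354) (nat_lit 300)) (XT.lf (nat_lit 0) (nat_lit 10556039457) (nat_lit 152) (nat_lit 43852769811) (nat_lit 0) (nat_lit 5277929561) (nat_lit 9) (nat_lit 5) (nat_lit 11) (nat_lit 4) (nat_lit 9) (nat_lit 4) (nat_lit 547) (nat_lit 354) (nat_lit 299)))))) (XT.nd (nat_lit 57954) (nat_lit 0) (nat_lit 2584) (XT.nd (nat_lit 234) (nat_lit 76) (nat_lit 0) (XT.nd (nat_lit 78) (nat_lit 0) (nat_lit 0) (XT.lf (nat_lit 0) (nat_lit 17393628305) (nat_lit 152) (nat_lit 31804229173) (nat_lit 0) (nat_lit 12077858987) (nat_lit 9) (nat_lit 5) (nat_lit 11) (nat_lit 4) (nat_lit 9) (nat_lit 4) (nat_lit 548) (nat_lit 354) (nat_lit 298)) (XT.nd (nat_lit 78) (nat_lit 0) (nat_lit 0) (XT.lf (nat_lit 0) (nat_lit 24381667126) (nat_lit 152) (nat_lit 19503002050) (nat_lit 0) (nat_lit 19029335262) (nat_lit 9) (nat_lit 5) (nat_lit 11) (nat_lit 4) (nat_lit 9) (nat_lit 4) (nat_lit 549) (nat_lit 354)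 (nat_lit 297)) (XT.lf (nat_lit 0) (nat_lit 31526261973) (nat_lit 152) (nat_lit 6938339798) (nat_lit 0) (nat_lit 26138432492) (nat_lit 9) (nat_lit 5) (nat_lit 11) (nat_lit 4) (nat_lit 9) (nat_lit 4) (nat_lit 550) (nat_lit 354) (nat_lit 296)))) (XT.nd (nat_lit 156) (nat_lit 0) (nat_lit 0) (XT.nd (nat_lit 78) (nat_lit 0) (nat_lit 0) (XT.lf (nat_lit 0) (nat_lit 6018172638) (nat_lit 76) (nat_lit 32873333415) (nat_lit 76) (nat_lit 27451040228) (nat_lit 8) (nat_lit 4) (nat_lit 9) (nat_lit 5) (nat_lit 9) (nat_lit 4) (nat_lit 551) (nat_lit 354) (nat_lit 295)) (XT.lf (nat_lit 0) (nat_lit 19404088861) (nat_lit 76) (nat_lit 27092668509) (nat_lit 76) (nat_lit 21636915413) (nat_lit 8) (nat_lit 4) (nat_lit 9) (nat_lit 5) (nat_lit 9) (nat_lit 4) (nat_lit 552) (nat_lit 354) (nat_lit 294))) (XT.nd (nat_lit 78) (nat_lit 0) (nat_lit 0) (XT.lf (nat_lit 0) (nat_lit 33093018735) (nat_lit 76) (nat_lit 21187619614) (nat_lit 76) (nat_lit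 15699381170) (nat_lit 8) (nat_lit 4) (nat_lit 9) (nat_lit 5) (nat_lit 9) (nat_lit 4) (nat_lit 553) (nat_lit 354) (nat_lit 293)) (XT.lf (nat_lit 0) (nat_lit 47096923460) (nat_lit 76) (nat_lit 15153026978) (nat_lit 76) (nat_lit 9633249362) (nat_lit 8) (nat_lit 4) (nat_lit 9) (nat_lit 5) (nat_lit 9) (nat_lit 4) (nat_lit 554) (nat_lit 354) (nat_lit 292))))) (XT.nd (nat_lit 312) (nat_lit 380) (nat_lit 0) (XT.nd (nat_lit 156) (nat_lit 152) (nat_lit 0) (XT.nd (nat_lit 78) (nat_lit 152) (nat_lit 0) (XT.lf (nat_lit 0) (nat_lit 3035420227) (nat_lit 152) (nat_lit 2669447278) (nat_lit 152) (nat_lit 2669447278) (nat_lit 51) (nat_lit 4) (nat_lit 53) (nat_lit 5) (nat_lit 53) (nat_lit 4) (nat_lit 490) (nat_lit 355) (nat_lit 355)) (XT.lf (nat_lit 0) (nat_lit 1214868479) (nat_lit 152) (nat_lit 14905019110) (nat_lit 0) (nat_lit 925372755) (nat_lit 49) (nat_lit 5) (nat_lit 51) (nat_lit 4) (nat_lit 49) (nat_lit 4) (nat_lit 491) (nat_lit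 355) (nat_lit 354))) (XT.nd (nat_lit 78) (nat_lit 152) (nat_lit 0) (XT.lf (nat_lit 0) (nat_lit 7883148489) (nat_lit 152) (nat_lit 2152715682) (nat_lit 0) (nat_lit 7312588955) (nat_lit 49) (nat_lit 5) (nat_lit 51) (nat_lit 4) (nat_lit 49) (nat_lit 4) (nat_lit 492) (nat_lit 355) (nat_lit 353)) (XT.lf (nat_lit 0) (nat_lit 10943204166) (nat_lit 152) (nat_lit 3780900389) (nat_lit 152) (nat_lit 2937463369) (nat_lit 47) (nat_lit 4) (nat_lit 49) (nat_lit 5) (nat_lit 49) (nat_lit 4) (nat_lit 493) (nat_lit 355) (nat_lit 352)))) (XT.nd (nat_lit 156) (nat_lit 152) (nat_lit 0) (XT.nd (nat_lit 78) (nat_lit 76) (nat_lit 0) (XT.lf (nat_lit 0) (nat_lit 3688301664) (nat_lit 152) (nat_lit 11683190707) (nat_lit 0) (nat_lit 2612217569) (nat_lit 45) (nat_lit 5) (nat_lit 47) (nat_lit 4) (nat_lit 45) (nat_lit 4) (nat_lit 494) (nat_lit 355) (nat_lit 351)) (XT.lf (nat_lit 0) (nat_lit 1238210556) (nat_lit 76) (nat_lit 9201335516) (nat_lit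 76) (nat_lit 7875529866) (nat_lit 44) (nat_lit 4) (nat_lit 45) (nat_lit 5) (nat_lit 45) (nat_lit 4) (nat_lit 495) (nat_lit 355) (nat_lit 350))) (XT.nd (nat_lit 78) (nat_lit 152) (nat_lit 0) (XT.lf (nat_lit 0) (nat_lit 14536259029) (nat_lit 76) (nat_lit 2844381384) (nat_lit 76) (nat_lit 1276127622) (nat_lit 44) (nat_lit 4) (nat_lit 45) (nat_lit 5) (nat_lit 45) (nat_lit 4) (nat_lit 496) (nat_lit 355) (nat_lit 349)) (XT.lf (nat_lit 0) (nat_lit 5408764240) (nat_lit 152) (nat_lit 9940844094) (nat_lit 0) (nat_lit 3657657174) (nat_lit 42) (nat_lit 5) (nat_lit 44) (nat_lit 4) (nat_lit 42) (nat_lit 4) (nat_lit 497) (nat_lit 355) (nat_lit 348))))))))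
noncomputable def xc17 : XT := (XT.nd (nat_lit 2340) (nat_lit 760) (nat_lit 0) (XT.nd (nat_lit 1170) (nat_lit 836) (nat_lit 0) (XT.nd (nat_lit 546) (nat_lit 456) (nat_lit 0) (XT.nd (nat_lit 234) (nat_lit 304) (nat_lit 0) (XT.nd (nat_lit 78) (nat_lit 152) (nat_lit 0) (XT.lf (nat_lit 0) (nat_lit 3140446080) (nat_lit 76) (nat_lit 9100631312) (nat_lit 76) (nat_lit 7127649879) (nat_lit 41) (nat_lit 4) (nat_lit 42) (nat_lit 5) (nat_lit 42) (nat_lit 4) (nat_lit 498) (nat_lit 355) (nat_lit 347)) (XT.nd (nat_lit 78) (nat_lit 152) (nat_lit 0) (XT.lf (nat_lit 0) (nat_lit 16574341751) (nat_lit 76) (nat_lit 2677935524) (nat_lit 76) (nat_lit 489542085) (nat_lit 41) (nat_lit 4) (nat_lit 42) (nat_lit 5) (nat_lit 42) (nat_lit 4) (nat_lit 499) (nat_lit 355) (nat_lit 346)) (XT.lf (nat_lit 0) (nat_lit 6236051325) (nat_lit 152) (nat_lit 9979508816) (nat_lit 0) (nat_lit 3908351024) (nat_lit 39) (nat_lit 5) (nat_lit 41) (nat_lit 4) (nat_lit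 39) (nat_lit 4) (nat_lit 500) (nat_lit 355) (nat_lit 345)))) (XT.nd (nat_lit 156) (nat_lit 228) (nat_lit 0) (XT.nd (nat_lit 78) (nat_lit 0) (nat_lit 0) (XT.lf (nat_lit 0) (nat_lit 3195508861) (nat_lit 76) (nat_lit 9923837363) (nat_lit 76) (nat_lit 7399004560) (nat_lit 38) (nat_lit 4) (nat_lit 39) (nat_lit 5) (nat_lit 39) (nat_lit 4) (nat_lit 501) (nat_lit 355) (nat_lit 344)) (XT.lf (nat_lit 0) (nat_lit 16733460725) (nat_lit 76) (nat_lit 3454019888) (nat_lit 76) (nat_lit 737796307) (nat_lit 38) (nat_lit 4) (nat_lit 39) (nat_lit 5) (nat_lit 39) (nat_lit 4) (nat_lit 502) (nat_lit 355) (nat_lit 343))) (XT.nd (nat_lit 78) (nat_lit 76) (nat_lit 0) (XT.lf (nat_lit 0) (nat_lit 6003596646) (nat_lit 152) (nat_lit 12152974469) (nat_lit 0) (nat_lit 3186082209) (nat_lit 36) (nat_lit 5) (nat_lit 38) (nat_lit 4) (nat_lit 36) (nat_lit 4) (nat_lit 503) (nat_lit 355) (nat_lit 342)) (XT.lf (nat_lit 0) (nat_lit 1032902104) (nat_lit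 76) (nat_lit 11866542925) (nat_lit 76) (nat_lit 8873878813) (nat_lit 35) (nat_lit 4) (nat_lit 36) (nat_lit 5) (nat_lit 36) (nat_lit 4) (nat_lit 504) (nat_lit 355) (nat_lit 341))))) (XT.nd (nat_lit 312) (nat_lit 228) (nat_lit 0) (XT.nd (nat_lit 156) (nat_lit 76) (nat_lit 0) (XT.nd (nat_lit 78) (nat_lit 152) (nat_lit 0) (XT.lf (nat_lit 0) (nat_lit 14633162358) (nat_lit 76) (nat_lit 5373171332) (nat_lit 76) (nat_lit 2210458993) (nat_lit 35) (nat_lit 4) (nat_lit 36) (nat_lit 5) (nat_lit 36) (nat_lit 4) (nat_lit 505) (nat_lit 355) (nat_lit 340)) (XT.lf (nat_lit 0) (nat_lit 4514260557) (nat_lit 152) (nat_lit 16876021194) (nat_lit 0) (nat_lit 1283379290) (nat_lit 33) (nat_lit 5) (nat_lit 35) (nat_lit 4) (nat_lit 33) (nat_lit 4) (nat_lit 506) (nat_lit 355) (nat_lit 339))) (XT.nd (nat_lit 78) (nat_lit 76) (nat_lit 0) (XT.lf (nat_lit 0) (nat_lit 11410775942) (nat_lit 152) (nat_lit 3708094895) (nat_lit 0) (nat_lit 8024276458)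 (nat_lit 33) (nat_lit 5) (nat_lit 35) (nat_lit 4) (nat_lit 33) (nat_lit 4) (nat_lit 507) (nat_lit 355) (nat_lit 338)) (XT.lf (nat_lit 0) (nat_lit 9827098969) (nat_lit 76) (nat_lit 8668876718) (nat_lit 76) (nat_lit 5131291586) (nat_lit 32) (nat_lit 4) (nat_lit 33) (nat_lit 5) (nat_lit 33) (nat_lit 4) (nat_lit 508) (nat_lit 355) (nat_lit 337)))) (XT.nd (nat_lit 156) (nat_lit 76) (nat_lit 0) (XT.nd (nat_lit 78) (nat_lit 76) (nat_lit 0) (XT.lf (nat_lit 0) (nat_lit 1560501177) (nat_lit 152) (nat_lit 516452837) (nat_lit 76) (nat_lit 22050721741) (nat_lit 31) (nat_lit 5) (nat_lit 33) (nat_lit 5) (nat_lit 32) (nat_lit 4) (nat_lit 509) (nat_lit 355) (nat_lit 336)) (XT.lf (nat_lit 0) (nat_lit 8413149455) (nat_lit 152) (nat_lit 11528605087) (nat_lit 0) (nat_lit 4697923299) (nat_lit 30) (nat_lit 5) (nat_lit 32) (nat_lit 4) (nat_lit 30) (nat_lit 4) (nat_lit 510) (nat_lit 355) (nat_lit 335))) (XT.nd (nat_lit 78) (nat_lit 0)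 (nat_lit 0) (XT.lf (nat_lit 0) (nat_lit 1792088485) (nat_lit 76) (nat_lit 13613200222) (nat_lit 76) (nat_lit 9763736426) (nat_lit 29) (nat_lit 4) (nat_lit 30) (nat_lit 5) (nat_lit 30) (nat_lit 4) (nat_lit 511) (nat_lit 355) (nat_lit 334)) (XT.lf (nat_lit 0) (nat_lit 15537426624) (nat_lit 76) (nat_lit 7078183846) (nat_lit 76) (nat_lit 3098392242) (nat_lit 29) (nat_lit 4) (nat_lit 30) (nat_lit 5) (nat_lit 30) (nat_lit 4) (nat_lit 512) (nat_lit 355) (nat_lit 333)))))) (XT.nd (nat_lit 546) (nat_lit 380) (nat_lit 0) (XT.nd (nat_lit 234) (nat_lit 228) (nat_lit 0) (XT.nd (nat_lit 78) (nat_lit 76) (nat_lit 0) (XT.lf (nat_lit 0) (nat_lit 3239543905) (nat_lit 76) (nat_lit 379109966) (nat_lit 152) (nat_lit 22657834300) (nat_lit 27) (nat_lit 5) (nat_lit 28) (nat_lit 5) (nat_lit 29) (nat_lit 4) (nat_lit 513) (nat_lit 355) (nat_lit 332)) (XT.nd (nat_lit 78) (nat_lit 76) (nat_lit 0) (XT.lf (nat_lit 0) (nat_lit 10535654047) (nat_lit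 152) (nat_lit 9887790686) (nat_lit 0) (nat_lit 6429663841) (nat_lit 27) (nat_lit 5) (nat_lit 29) (nat_lit 4) (nat_lit 27) (nat_lit 4) (nat_lit 514) (nat_lit 355) (nat_lit 331)) (XT.lf (nat_lit 0) (nat_lit 3519396061) (nat_lit 76) (nat_lit 14075685465) (nat_lit 76) (nat_lit 9853900691) (nat_lit 26) (nat_lit 4) (nat_lit 27) (nat_lit 5) (nat_lit 27) (nat_lit 4) (nat_lit 515) (nat_lit 355) (nat_lit 330)))) (XT.nd (nat_lit 156) (nat_lit 76) (nat_lit 0) (XT.nd (nat_lit 78) (nat_lit 152) (nat_lit 0) (XT.lf (nat_lit 0) (nat_lit 17332098614) (nat_lit 76) (nat_lit 7532447302) (nat_lit 76) (nat_lit 3198240617) (nat_lit 26) (nat_lit 4) (nat_lit 27) (nat_lit 5) (nat_lit 27) (nat_lit 4) (nat_lit 516) (nat_lit 355) (nat_lit 329)) (XT.lf (nat_lit 0) (nat_lit 2685867232) (nat_lit 76) (nat_lit 826064493) (nat_lit 152) (nat_lit 25184234428) (nat_lit 24) (nat_lit 5) (nat_lit 25) (nat_lit 5) (nat_lit 26) (nat_lit 4) (nat_lit 517) (nat_lit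 355) (nat_lit 328))) (XT.nd (nat_lit 78) (nat_lit 76) (nat_lit 0) (XT.lf (nat_lit 0) (nat_lit 10427531913) (nat_lit 152) (nat_lit 12907301213) (nat_lit 0) (nat_lit 6010713849) (nat_lit 24) (nat_lit 5) (nat_lit 26) (nat_lit 4) (nat_lit 24) (nat_lit 4) (nat_lit 518) (nat_lit 355) (nat_lit 327)) (XT.lf (nat_lit 0) (nat_lit 398386737) (nat_lit 76) (nat_lit 17067632617) (nat_lit 76) (nat_lit 12550929142) (nat_lit 23) (nat_lit 4) (nat_lit 24) (nat_lit 5) (nat_lit 24) (nat_lit 4) (nat_lit 519) (nat_lit 355) (nat_lit 326))))) (XT.nd (nat_lit 312) (nat_lit 228) (nat_lit 0) (XT.nd (nat_lit 156) (nat_lit 76) (nat_lit 0) (XT.nd (nat_lit 78) (nat_lit 76) (nat_lit 0) (XT.lf (nat_lit 0) (nat_lit 14179700250) (nat_lit 76) (nat_lit 10570715296) (nat_lit 76) (nat_lit 5957035692) (nat_lit 23) (nat_lit 4) (nat_lit 24) (nat_lit 5) (nat_lit 24) (nat_lit 4) (nat_lit 520) (nat_lit 355) (nat_lit 325)) (XT.lf (nat_lit 0) (nat_lit 724666226)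 (nat_lit 152) (nat_lit 3236758743) (nat_lit 76) (nat_lit 27459816711) (nat_lit 22) (nat_lit 5) (nat_lit 24) (nat_lit 5) (nat_lit 23) (nat_lit 4) (nat_lit 521) (nat_lit 355) (nat_lit 324))) (XT.nd (nat_lit 78) (nat_lit 0) (nat_lit 0) (XT.lf (nat_lit 0) (nat_lit 7524330050) (nat_lit 152) (nat_lit 21764357507) (nat_lit 0) (nat_lit 2864873268) (nat_lit 21) (nat_lit 5) (nat_lit 23) (nat_lit 4) (nat_lit 21) (nat_lit 4) (nat_lit 522) (nat_lit 355) (nat_lit 323)) (XT.lf (nat_lit 0) (nat_lit 14509328720) (nat_lit 152) (nat_lit 8635372171) (nat_lit 0) (nat_lit 9763709904) (nat_lit 21) (nat_lit 5) (nat_lit 23) (nat_lit 4) (nat_lit 21) (nat_lit 4) (nat_lit 523) (nat_lit 355) (nat_lit 322)))) (XT.nd (nat_lit 156) (nat_lit 152) (nat_lit 0) (XT.nd (nat_lit 78) (nat_lit 0) (nat_lit 0) (XT.lf (nat_lit 0) (nat_lit 4807258432) (nat_lit 76) (nat_lit 16854590751) (nat_lit 76) (nat_lit 12025319476) (nat_lit 20) (nat_lit 4) (nat_lit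 21) (nat_lit 5) (nat_lit 21) (nat_lit 4) (nat_lit 524) (nat_lit 355) (nat_lit 321)) (XT.lf (nat_lit 0) (nat_lit 18657859586) (nat_lit 76) (nat_lit 10370961087) (nat_lit 76) (nat_lit 5460473831) (nat_lit 20) (nat_lit 4) (nat_lit 21) (nat_lit 5) (nat_lit 21) (nat_lit 4) (nat_lit 525) (nat_lit 355) (nat_lit 320))) (XT.nd (nat_lit 78) (nat_lit 76) (nat_lit 0) (XT.lf (nat_lit 0) (nat_lit 1190301472) (nat_lit 152) (nat_lit 2573025734) (nat_lit 76) (nat_lit 31554351735) (nat_lit 19) (nat_lit 5) (nat_lit 21) (nat_lit 5) (nat_lit 20) (nat_lit 4) (nat_lit 526) (nat_lit 355) (nat_lit 319)) (XT.lf (nat_lit 0) (nat_lit 7984299297) (nat_lit 152) (nat_lit 25117433626) (nat_lit 0) (nat_lit 3065957963) (nat_lit 18) (nat_lit 5) (nat_lit 20) (nat_lit 4) (nat_lit 18) (nat_lit 4) (nat_lit 527) (nat_lit 355) (nat_lit 318))))))) (XT.nd (nat_lit 1170) (nat_lit 304) (nat_lit 0) (XT.nd (nat_lit 546) (nat_lit 228) (nat_lit 0) (XT.nd (nat_lit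 234) (nat_lit 152) (nat_lit 0) (XT.nd (nat_lit 78) (nat_lit 76) (nat_lit 0) (XT.lf (nat_lit 0) (nat_lit 14962577343) (nat_lit 152) (nat_lit 12109136713) (nat_lit 0) (nat_lit 9972076663) (nat_lit 18) (nat_lit 5) (nat_lit 20) (nat_lit 4) (nat_lit 18) (nat_lit 4) (nat_lit 528) (nat_lit 355) (nat_lit 317)) (XT.nd (nat_lit 78) (nat_lit 0) (nat_lit 0) (XT.lf (nat_lit 0) (nat_lit 1152502136) (nat_lit 76) (nat_lit 20928158649) (nat_lit 76) (nat_lit 15867600351) (nat_lit 17) (nat_lit 4) (nat_lit 18) (nat_lit 5) (nat_lit 18) (nat_lit 4) (nat_lit 529) (nat_lit 355) (nat_lit 316)) (XT.lf (nat_lit 0) (nat_lit 14902381854) (nat_lit 76) (nat_lit 14552392917) (nat_lit 76) (nat_lit 9423817513) (nat_lit 17) (nat_lit 4) (nat_lit 18) (nat_lit 5) (nat_lit 18) (nat_lit 4) (nat_lit 530) (nat_lit 355) (nat_lit 315)))) (XT.nd (nat_lit 156) (nat_lit 0) (nat_lit 0) (XT.nd (nat_lit 78) (nat_lit 152) (nat_lit 0) (XT.lf (nat_lit 0) (nat_lit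 28911521335) (nat_lit 76) (nat_lit 8061124340) (nat_lit 76) (nat_lit 2866512913) (nat_lit 17) (nat_lit 4) (nat_lit 18) (nat_lit 5) (nat_lit 18) (nat_lit 4) (nat_lit 531) (nat_lit 355) (nat_lit 314)) (XT.lf (nat_lit 0) (nat_lit 2371004570) (nat_lit 76) (nat_lit 1387482445) (nat_lit 152) (nat_lit 37070529880) (nat_lit 15) (nat_lit 5) (nat_lit 16) (nat_lit 5) (nat_lit 17) (nat_lit 4) (nat_lit 532) (nat_lit 355) (nat_lit 313))) (XT.nd (nat_lit 78) (nat_lit 0) (nat_lit 0) (XT.lf (nat_lit 0) (nat_lit 10612919420) (nat_lit 152) (nat_lit 25785222567) (nat_lit 0) (nat_lit 5446929751) (nat_lit 15) (nat_lit 5) (nat_lit 17) (nat_lit 4) (nat_lit 15) (nat_lit 4) (nat_lit 533) (nat_lit 355) (nat_lit 312)) (XT.lf (nat_lit 0) (nat_lit 17613050356) (nat_lit 152) (nat_lit 12891968455) (nat_lit 0) (nat_lit 12388388534) (nat_lit 15) (nat_lit 5) (nat_lit 17) (nat_lit 4) (nat_lit 15) (nat_lit 4) (nat_lit 534) (nat_lit 355) (nat_lit 311)))))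 (XT.nd (nat_lit 312) (nat_lit 76) (nat_lit 0) (XT.nd (nat_lit 156) (nat_lit 76) (nat_lit 0) (XT.nd (nat_lit 78) (nat_lit 0) (nat_lit 0) (XT.lf (nat_lit 0) (nat_lit 251256203) (nat_lit 76) (nat_lit 24502818139) (nat_lit 76) (nat_lit 19221193063) (nat_lit 14) (nat_lit 4) (nat_lit 15) (nat_lit 5) (nat_lit 15) (nat_lit 4) (nat_lit 535) (nat_lit 355) (nat_lit 310)) (XT.lf (nat_lit 0) (nat_lit 13912709835) (nat_lit 76) (nat_lit 18256010955) (nat_lit 76) (nat_lit 12919081748) (nat_lit 14) (nat_lit 4) (nat_lit 15) (nat_lit 5) (nat_lit 15) (nat_lit 4) (nat_lit 536) (nat_lit 355) (nat_lit 309))) (XT.nd (nat_lit 78) (nat_lit 76) (nat_lit 0) (XT.lf (nat_lit 0) (nat_lit 27847754183) (nat_lit 76) (nat_lit 11889322488) (nat_lit 76) (nat_lit 6498699951) (nat_lit 14) (nat_lit 4) (nat_lit 15) (nat_lit 5) (nat_lit 15) (nat_lit 4) (nat_lit 537) (nat_lit 355) (nat_lit 308)) (XT.lf (nat_lit 0) (nat_lit 44673286) (nat_lit 152) (nat_lit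 5352065214) (nat_lit 76) (nat_lit 42023441100) (nat_lit 13) (nat_lit 5) (nat_lit 15) (nat_lit 5) (nat_lit 14) (nat_lit 4) (nat_lit 538) (nat_lit 355) (nat_lit 307)))) (XT.nd (nat_lit 156) (nat_lit 0) (nat_lit 0) (XT.nd (nat_lit 78) (nat_lit 0) (nat_lit 0) (XT.lf (nat_lit 0) (nat_lit 6678757153) (nat_lit 152) (nat_lit 40613282389) (nat_lit 0) (nat_lit 1345394921) (nat_lit 12) (nat_lit 5) (nat_lit 14) (nat_lit 4) (nat_lit 12) (nat_lit 4) (nat_lit 539) (nat_lit 355) (nat_lit 306)) (XT.lf (nat_lit 0) (nat_lit 13554508520) (nat_lit 152) (nat_lit 28161979532) (nat_lit 0) (nat_lit 8173440459) (nat_lit 12) (nat_lit 5) (nat_lit 14) (nat_lit 4) (nat_lit 12) (nat_lit 4) (nat_lit 540) (nat_lit 355) (nat_lit 305))) (XT.nd (nat_lit 78) (nat_lit 0) (nat_lit 0) (XT.lf (nat_lit 0) (nat_lit 20573067826) (nat_lit 152) (nat_lit 15463150922) (nat_lit 0) (nat_lit 15145683426) (nat_lit 12) (nat_lit 5) (nat_lit 14) (nat_lit 4) (nat_lit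 12) (nat_lit 4) (nat_lit 541) (nat_lit 355) (nat_lit 304)) (XT.lf (nat_lit 0) (nat_lit 27740567795) (nat_lit 152) (nat_lit 2505700497) (nat_lit 0) (nat_lit 22268216076) (nat_lit 12) (nat_lit 5) (nat_lit 14) (nat_lit 4) (nat_lit 12) (nat_lit 4) (nat_lit 542) (nat_lit 355) (nat_lit 303)))))) (XT.nd (nat_lit 624) (nat_lit 76) (nat_lit 0) (XT.nd (nat_lit 312) (nat_lit 76) (nat_lit 0) (XT.nd (nat_lit 156) (nat_lit 76) (nat_lit 0) (XT.nd (nat_lit 78) (nat_lit 0) (nat_lit 0) (XT.lf (nat_lit 0) (nat_lit 10935076516) (nat_lit 76) (nat_lit 24233309417) (nat_lit 76) (nat_lit 18717300106) (nat_lit 11) (nat_lit 4) (nat_lit 12) (nat_lit 5) (nat_lit 12) (nat_lit 4) (nat_lit 543) (nat_lit 355) (nat_lit 302)) (XT.lf (nat_lit 0) (nat_lit 24712826098) (nat_lit 76) (nat_lit 18072305492) (nat_lit 76) (nat_lit 12513910170) (nat_lit 11) (nat_lit 4) (nat_lit 12) (nat_lit 5) (nat_lit 12) (nat_lit 4) (nat_lit 544) (nat_lit 355) (nat_lit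 301))) (XT.nd (nat_lit 78) (nat_lit 76) (nat_lit 0) (XT.lf (nat_lit 0) (nat_lit 38789718705) (nat_lit 76) (nat_lit 11783175776) (nat_lit 76) (nat_lit 6183628987) (nat_lit 11) (nat_lit 4) (nat_lit 12) (nat_lit 5) (nat_lit 12) (nat_lit 4) (nat_lit 545) (nat_lit 355) (nat_lit 300)) (XT.lf (nat_lit 0) (nat_lit 273629000) (nat_lit 152) (nat_lit 5084032798) (nat_lit 76) (nat_lit 52901662416) (nat_lit 10) (nat_lit 5) (nat_lit 12) (nat_lit 5) (nat_lit 11) (nat_lit 4) (nat_lit 546) (nat_lit 355) (nat_lit 299)))) (XT.nd (nat_lit 156) (nat_lit 0) (nat_lit 0) (XT.nd (nat_lit 78) (nat_lit 0) (nat_lit 0) (XT.lf (nat_lit 0) (nat_lit 6837161517) (nat_lit 152) (nat_lit 51642846497) (nat_lit 0) (nat_lit 1324259698) (nat_lit 9) (nat_lit 5) (nat_lit 11) (nat_lit 4) (nat_lit 9) (nat_lit 4) (nat_lit 547) (nat_lit 355) (nat_lit 298)) (XT.lf (nat_lit 0) (nat_lit 13647815541) (nat_lit 152) (nat_lit 39647887009) (nat_lit 0) (nat_lit 8098351176)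 (nat_lit 9) (nat_lit 5) (nat_lit 11) (nat_lit 4) (nat_lit 9) (nat_lit 4) (nat_lit 548) (nat_lit 355) (nat_lit 297))) (XT.nd (nat_lit 78) (nat_lit 0) (nat_lit 0) (XT.lf (nat_lit 0) (nat_lit 20609704048) (nat_lit 152) (nat_lit 27398680421) (nat_lit 0) (nat_lit 15024742065) (nat_lit 9) (nat_lit 5) (nat_lit 11) (nat_lit 4) (nat_lit 9) (nat_lit 4) (nat_lit 549) (nat_lit 355) (nat_lit 296)) (XT.lf (nat_lit 0) (nat_lit 27728910240) (nat_lit 152) (nat_lit 14884523542) (nat_lit 0) (nat_lit 22109484552) (nat_lit 9) (nat_lit 5) (nat_lit 11) (nat_lit 4) (nat_lit 9) (nat_lit 4) (nat_lit 550) (nat_lit 355) (nat_lit 295))))) (XT.nd (nat_lit 57564) (nat_lit 0) (nat_lit 3116) (XT.nd (nat_lit 156) (nat_lit 0) (nat_lit 0) (XT.nd (nat_lit 78) (nat_lit 76) (nat_lit 0) (XT.lf (nat_lit 0) (nat_lit 35011654784) (nat_lit 152) (nat_lit 2094481672) (nat_lit 0) (nat_lit 29358769188) (nat_lit 9) (nat_lit 5) (nat_lit 11) (nat_lit 4) (nat_lit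 9) (nat_lit 4) (nat_lit 551) (nat_lit 355) (nat_lit 294)) (XT.lf (nat_lit 0) (nat_lit 11201196644) (nat_lit 76) (nat_lit 31370777353) (nat_lit 76) (nat_lit 25685406408) (nat_lit 8) (nat_lit 4) (nat_lit 9) (nat_lit 5) (nat_lit 9) (nat_lit 4) (nat_lit 552) (nat_lit 355) (nat_lit 293))) (XT.nd (nat_lit 78) (nat_lit 0) (nat_lit 0) (XT.lf (nat_lit 0) (nat_lit 24842987087) (nat_lit 76) (nat_lit 25489180540) (nat_lit 76) (nat_lit 19772270422) (nat_lit 8) (nat_lit 4) (nat_lit 9) (nat_lit 5) (nat_lit 9) (nat_lit 4) (nat_lit 553) (nat_lit 355) (nat_lit 292)) (XT.lf (nat_lit 0) (nat_lit 38801125375) (nat_lit 76) (nat_lit 19477356917) (nat_lit 76) (nat_lit 13729826243) (nat_lit 8) (nat_lit 4) (nat_lit 9) (nat_lit 5) (nat_lit 9) (nat_lit 4) (nat_lit 554) (nat_lit 355) (nat_lit 291)))) (XT.nd (nat_lit 156) (nat_lit 304) (nat_lit 0) (XT.nd (nat_lit 78) (nat_lit 152) (nat_lit 0) (XT.lf (nat_lit 0) (nat_lit 6585980954) (nat_lit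 152) (nat_lit 752270399) (nat_lit 152) (nat_lit 752270399) (nat_lit 55) (nat_lit 4) (nat_lit 57) (nat_lit 5) (nat_lit 57) (nat_lit 4) (nat_lit 488) (nat_lit 356) (nat_lit 356)) (XT.lf (nat_lit 0) (nat_lit 5005419449) (nat_lit 152) (nat_lit 6757686691) (nat_lit 0) (nat_lit 4698293435) (nat_lit 53) (nat_lit 5) (nat_lit 55) (nat_lit 4) (nat_lit 53) (nat_lit 4) (nat_lit 489) (nat_lit 356) (nat_lit 355))) (XT.nd (nat_lit 78) (nat_lit 152) (nat_lit 0) (XT.lf (nat_lit 0) (nat_lit 5944244437) (nat_lit 152) (nat_lit 5705848751) (nat_lit 152) (nat_lit 5100542141) (nat_lit 51) (nat_lit 4) (nat_lit 53) (nat_lit 5) (nat_lit 53) (nat_lit 4) (nat_lit 490) (nat_lit 356) (nat_lit 354)) (XT.lf (nat_lit 0) (nat_lit 1376507005) (nat_lit 152) (nat_lit 15165087940) (nat_lit 0) (nat_lit 507766874) (nat_lit 49) (nat_lit 5) (nat_lit 51) (nat_lit 4) (nat_lit 49) (nat_lit 4) (nat_lit 491) (nat_lit 356) (nat_lit 353))))))))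
noncomputable def xc18 : XT := (XT.nd (nat_lit 2340) (nat_lit 1064) (nat_lit 0) (XT.nd (nat_lit 1170) (nat_lit 760) (nat_lit 0) (XT.nd (nat_lit 546) (nat_lit 608) (nat_lit 0) (XT.nd (nat_lit 234) (nat_lit 304) (nat_lit 0) (XT.nd (nat_lit 78) (nat_lit 304) (nat_lit 0) (XT.lf (nat_lit 0) (nat_lit 7979484002) (nat_lit 152) (nat_lit 2537165799) (nat_lit 0) (nat_lit 6837866385) (nat_lit 49) (nat_lit 5) (nat_lit 51) (nat_lit 4) (nat_lit 49) (nat_lit 4) (nat_lit 492) (nat_lit 356) (nat_lit 352)) (XT.nd (nat_lit 78) (nat_lit 152) (nat_lit 0) (XT.lf (nat_lit 0) (nat_lit 10427940877) (nat_lit 152) (nat_lit 4324145181) (nat_lit 152) (nat_lit 2917597967) (nat_lit 47) (nat_lit 4) (nat_lit 49) (nat_lit 5) (nat_lit 49) (nat_lit 4) (nat_lit 493) (nat_lit 356) (nat_lit 351)) (XT.lf (nat_lit 0) (nat_lit 3632299301) (nat_lit 152) (nat_lit 12344789768) (nat_lit 0) (nat_lit 2016997927) (nat_lit 45) (nat_lit 5) (nat_lit 47) (nat_lit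 4) (nat_lit 45) (nat_lit 4) (nat_lit 494) (nat_lit 356) (nat_lit 350)))) (XT.nd (nat_lit 156) (nat_lit 228) (nat_lit 0) (XT.nd (nat_lit 78) (nat_lit 0) (nat_lit 0) (XT.lf (nat_lit 0) (nat_lit 440050886) (nat_lit 76) (nat_lit 9872639702) (nat_lit 76) (nat_lit 8014890216) (nat_lit 44) (nat_lit 4) (nat_lit 45) (nat_lit 5) (nat_lit 45) (nat_lit 4) (nat_lit 495) (nat_lit 356) (nat_lit 349)) (XT.lf (nat_lit 0) (nat_lit 13618299854) (nat_lit 76) (nat_lit 3572992981) (nat_lit 76) (nat_lit 1479856979) (nat_lit 44) (nat_lit 4) (nat_lit 45) (nat_lit 5) (nat_lit 45) (nat_lit 4) (nat_lit 496) (nat_lit 356) (nat_lit 348))) (XT.nd (nat_lit 78) (nat_lit 76) (nat_lit 0) (XT.lf (nat_lit 0) (nat_lit 5129796266) (nat_lit 152) (nat_lit 11018537200) (nat_lit 0) (nat_lit 2875751023) (nat_lit 42) (nat_lit 5) (nat_lit 44) (nat_lit 4) (nat_lit 42) (nat_lit 4) (nat_lit 497) (nat_lit 356) (nat_lit 347)) (XT.lf (nat_lit 0) (nat_lit 1921299464)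 (nat_lit 76) (nat_lit 9967945962) (nat_lit 76) (nat_lit 7498488713) (nat_lit 41) (nat_lit 4) (nat_lit 42) (nat_lit 5) (nat_lit 42) (nat_lit 4) (nat_lit 498) (nat_lit 356) (nat_lit 346))))) (XT.nd (nat_lit 312) (nat_lit 380) (nat_lit 0) (XT.nd (nat_lit 156) (nat_lit 76) (nat_lit 0) (XT.nd (nat_lit 78) (nat_lit 152) (nat_lit 0) (XT.lf (nat_lit 0) (nat_lit 15238685132) (nat_lit 76) (nat_lit 3601276322) (nat_lit 76) (nat_lit 922681202) (nat_lit 41) (nat_lit 4) (nat_lit 42) (nat_lit 5) (nat_lit 42) (nat_lit 4) (nat_lit 499) (nat_lit 356) (nat_lit 345)) (XT.lf (nat_lit 0) (nat_lit 5728092387) (nat_lit 152) (nat_lit 11488884843) (nat_lit 0) (nat_lit 2930382098) (nat_lit 39) (nat_lit 5) (nat_lit 41) (nat_lit 4) (nat_lit 39) (nat_lit 4) (nat_lit 500) (nat_lit 356) (nat_lit 344))) (XT.nd (nat_lit 78) (nat_lit 0) (nat_lit 0) (XT.lf (nat_lit 0) (nat_lit 1539400439) (nat_lit 76) (nat_lit 10996877305) (nat_lit 76) (nat_lit 8007776238)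 (nat_lit 38) (nat_lit 4) (nat_lit 39) (nat_lit 5) (nat_lit 39) (nat_lit 4) (nat_lit 501) (nat_lit 356) (nat_lit 343)) (XT.lf (nat_lit 0) (nat_lit 14964058270) (nat_lit 76) (nat_lit 4581798777) (nat_lit 76) (nat_lit 1406881421) (nat_lit 38) (nat_lit 4) (nat_lit 39) (nat_lit 5) (nat_lit 39) (nat_lit 4) (nat_lit 502) (nat_lit 356) (nat_lit 342)))) (XT.nd (nat_lit 156) (nat_lit 228) (nat_lit 0) (XT.nd (nat_lit 78) (nat_lit 0) (nat_lit 0) (XT.lf (nat_lit 0) (nat_lit 5259905266) (nat_lit 152) (nat_lit 14110722474) (nat_lit 0) (nat_lit 2002311557) (nat_lit 36) (nat_lit 5) (nat_lit 38) (nat_lit 4) (nat_lit 36) (nat_lit 4) (nat_lit 503) (nat_lit 356) (nat_lit 341)) (XT.lf (nat_lit 0) (nat_lit 12088513215) (nat_lit 152) (nat_lit 1056244088) (nat_lit 0) (nat_lit 8660871278) (nat_lit 36) (nat_lit 5) (nat_lit 38) (nat_lit 4) (nat_lit 36) (nat_lit 4) (nat_lit 504) (nat_lit 356) (nat_lit 340))) (XT.nd (nat_lit 78) (nat_lit 152)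 (nat_lit 0) (XT.lf (nat_lit 0) (nat_lit 12412842904) (nat_lit 76) (nat_lit 6715502513) (nat_lit 76) (nat_lit 3122765210) (nat_lit 35) (nat_lit 4) (nat_lit 36) (nat_lit 5) (nat_lit 36) (nat_lit 4) (nat_lit 505) (nat_lit 356) (nat_lit 339)) (XT.lf (nat_lit 0) (nat_lit 3409832583) (nat_lit 76) (nat_lit 118668229) (nat_lit 152) (nat_lit 19182480361) (nat_lit 33) (nat_lit 5) (nat_lit 34) (nat_lit 5) (nat_lit 35) (nat_lit 4) (nat_lit 506) (nat_lit 356) (nat_lit 338)))))) (XT.nd (nat_lit 546) (nat_lit 380) (nat_lit 0) (XT.nd (nat_lit 234) (nat_lit 228) (nat_lit 0) (XT.nd (nat_lit 78) (nat_lit 152) (nat_lit 0) (XT.lf (nat_lit 0) (nat_lit 10368370467) (nat_lit 152) (nat_lit 6240225579) (nat_lit 0) (nat_lit 6573572133) (nat_lit 33) (nat_lit 5) (nat_lit 35) (nat_lit 4) (nat_lit 33) (nat_lit 4) (nat_lit 507) (nat_lit 356) (nat_lit 337)) (XT.nd (nat_lit 78) (nat_lit 76) (nat_lit 0) (XT.lf (nat_lit 0) (nat_lit 7137490156) (nat_lit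 76) (nat_lit 10236337523) (nat_lit 76) (nat_lit 6294854094) (nat_lit 32) (nat_lit 4) (nat_lit 33) (nat_lit 5) (nat_lit 33) (nat_lit 4) (nat_lit 508) (nat_lit 356) (nat_lit 336)) (XT.lf (nat_lit 0) (nat_lit 365796608) (nat_lit 152) (nat_lit 3341329026) (nat_lit 76) (nat_lit 20463916850) (nat_lit 31) (nat_lit 5) (nat_lit 33) (nat_lit 5) (nat_lit 32) (nat_lit 4) (nat_lit 509) (nat_lit 356) (nat_lit 335)))) (XT.nd (nat_lit 156) (nat_lit 152) (nat_lit 0) (XT.nd (nat_lit 78) (nat_lit 0) (nat_lit 0) (XT.lf (nat_lit 0) (nat_lit 7121039194) (nat_lit 152) (nat_lit 14543074932) (nat_lit 0) (nat_lit 3021853842) (nat_lit 30) (nat_lit 5) (nat_lit 32) (nat_lit 4) (nat_lit 30) (nat_lit 4) (nat_lit 510) (nat_lit 356) (nat_lit 334)) (XT.lf (nat_lit 0) (nat_lit 14043751393) (nat_lit 152) (nat_lit 1359409634) (nat_lit 0) (nat_lit 9814238235) (nat_lit 30) (nat_lit 5) (nat_lit 32) (nat_lit 4) (nat_lit 30) (nat_lit 4) (nat_lit 511) (nat_lit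 356) (nat_lit 333))) (XT.nd (nat_lit 78) (nat_lit 76) (nat_lit 0) (XT.lf (nat_lit 0) (nat_lit 12257815984) (nat_lit 76) (nat_lit 8931278196) (nat_lit 76) (nat_lit 4575233186) (nat_lit 29) (nat_lit 4) (nat_lit 30) (nat_lit 5) (nat_lit 30) (nat_lit 4) (nat_lit 512) (nat_lit 356) (nat_lit 332)) (XT.lf (nat_lit 0) (nat_lit 2088846311) (nat_lit 152) (nat_lit 238533455) (nat_lit 76) (nat_lit 24002313592) (nat_lit 28) (nat_lit 5) (nat_lit 30) (nat_lit 5) (nat_lit 29) (nat_lit 4) (nat_lit 513) (nat_lit 356) (nat_lit 331))))) (XT.nd (nat_lit 312) (nat_lit 152) (nat_lit 0) (XT.nd (nat_lit 156) (nat_lit 152) (nat_lit 0) (XT.nd (nat_lit 78) (nat_lit 0) (nat_lit 0) (XT.lf (nat_lit 0) (nat_lit 8934182003) (nat_lit 152) (nat_lit 13504333633) (nat_lit 0) (nat_lit 4469949117) (nat_lit 27) (nat_lit 5) (nat_lit 29) (nat_lit 4) (nat_lit 27) (nat_lit 4) (nat_lit 514) (nat_lit 356) (nat_lit 330)) (XT.lf (nat_lit 0) (nat_lit 15910677143)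 (nat_lit 152) (nat_lit 262127904) (nat_lit 0) (nat_lit 11334022346) (nat_lit 27) (nat_lit 5) (nat_lit 29) (nat_lit 4) (nat_lit 27) (nat_lit 4) (nat_lit 515) (nat_lit 356) (nat_lit 329))) (XT.nd (nat_lit 78) (nat_lit 76) (nat_lit 0) (XT.lf (nat_lit 0) (nat_lit 13449997029) (nat_lit 76) (nat_lit 9678986353) (nat_lit 76) (nat_lit 4993184069) (nat_lit 26) (nat_lit 4) (nat_lit 27) (nat_lit 5) (nat_lit 27) (nat_lit 4) (nat_lit 516) (nat_lit 356) (nat_lit 328)) (XT.lf (nat_lit 0) (nat_lit 1678554799) (nat_lit 152) (nat_lit 1384304473) (nat_lit 76) (nat_lit 25695410141) (nat_lit 25) (nat_lit 5) (nat_lit 27) (nat_lit 5) (nat_lit 26) (nat_lit 4) (nat_lit 517) (nat_lit 356) (nat_lit 327)))) (XT.nd (nat_lit 156) (nat_lit 76) (nat_lit 0) (XT.nd (nat_lit 78) (nat_lit 0) (nat_lit 0) (XT.lf (nat_lit 0) (nat_lit 8511366703) (nat_lit 152) (nat_lit 17139491382) (nat_lit 0) (nat_lit 3759276711) (nat_lit 24) (nat_lit 5) (nat_lit 26)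 (nat_lit 4) (nat_lit 24) (nat_lit 4) (nat_lit 518) (nat_lit 356) (nat_lit 326)) (XT.lf (nat_lit 0) (nat_lit 15499829600) (nat_lit 152) (nat_lit 3932444860) (nat_lit 0) (nat_lit 10650763480) (nat_lit 24) (nat_lit 5) (nat_lit 26) (nat_lit 4) (nat_lit 24) (nat_lit 4) (nat_lit 519) (nat_lit 356) (nat_lit 325))) (XT.nd (nat_lit 78) (nat_lit 0) (nat_lit 0) (XT.lf (nat_lit 0) (nat_lit 9680628676) (nat_lit 76) (nat_lit 13019329301) (nat_lit 76) (nat_lit 8076111600) (nat_lit 23) (nat_lit 4) (nat_lit 24) (nat_lit 5) (nat_lit 24) (nat_lit 4) (nat_lit 520) (nat_lit 356) (nat_lit 324)) (XT.lf (nat_lit 0) (nat_lit 23605373138) (nat_lit 76) (nat_lit 6460329672) (nat_lit 76) (nat_lit 1425702670) (nat_lit 23) (nat_lit 4) (nat_lit 24) (nat_lit 5) (nat_lit 24) (nat_lit 4) (nat_lit 521) (nat_lit 356) (nat_lit 323))))))) (XT.nd (nat_lit 1170) (nat_lit 380) (nat_lit 0) (XT.nd (nat_lit 546) (nat_lit 304) (nat_lit 0) (XT.nd (nat_lit 234)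 (nat_lit 228) (nat_lit 0) (XT.nd (nat_lit 78) (nat_lit 0) (nat_lit 0) (XT.lf (nat_lit 0) (nat_lit 5286957089) (nat_lit 152) (nat_lit 26627816529) (nat_lit 0) (nat_lit 312807675) (nat_lit 21) (nat_lit 5) (nat_lit 23) (nat_lit 4) (nat_lit 21) (nat_lit 4) (nat_lit 522) (nat_lit 356) (nat_lit 322)) (XT.nd (nat_lit 78) (nat_lit 0) (nat_lit 0) (XT.lf (nat_lit 0) (nat_lit 12228488529) (nat_lit 152) (nat_lit 13584560858) (nat_lit 0) (nat_lit 7170686656) (nat_lit 21) (nat_lit 5) (nat_lit 23) (nat_lit 4) (nat_lit 21) (nat_lit 4) (nat_lit 523) (nat_lit 356) (nat_lit 321)) (XT.lf (nat_lit 0) (nat_lit 19292597492) (nat_lit 152) (nat_lit 318969866) (nat_lit 0) (nat_lit 14153579637) (nat_lit 21) (nat_lit 5) (nat_lit 23) (nat_lit 4) (nat_lit 21) (nat_lit 4) (nat_lit 524) (nat_lit 356) (nat_lit 320)))) (XT.nd (nat_lit 156) (nat_lit 152) (nat_lit 0) (XT.nd (nat_lit 78) (nat_lit 0) (nat_lit 0) (XT.lf (nat_lit 0) (nat_lit 13442866484)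 (nat_lit 76) (nat_lit 13171811070) (nat_lit 76) (nat_lit 7953942749) (nat_lit 20) (nat_lit 4) (nat_lit 21) (nat_lit 5) (nat_lit 21) (nat_lit 4) (nat_lit 525) (nat_lit 356) (nat_lit 319)) (XT.lf (nat_lit 0) (nat_lit 27461663624) (nat_lit 76) (nat_lit 6615665255) (nat_lit 76) (nat_lit 1321243084) (nat_lit 20) (nat_lit 4) (nat_lit 21) (nat_lit 5) (nat_lit 21) (nat_lit 4) (nat_lit 526) (nat_lit 356) (nat_lit 318))) (XT.nd (nat_lit 78) (nat_lit 0) (nat_lit 0) (XT.lf (nat_lit 0) (nat_lit 5377104309) (nat_lit 152) (nat_lit 30710774994) (nat_lit 0) (nat_lit 164729262) (nat_lit 18) (nat_lit 5) (nat_lit 20) (nat_lit 4) (nat_lit 18) (nat_lit 4) (nat_lit 527) (nat_lit 356) (nat_lit 317)) (XT.lf (nat_lit 0) (nat_lit 12315667331) (nat_lit 152) (nat_lit 17780998494) (nat_lit 0) (nat_lit 7033234665) (nat_lit 18) (nat_lit 5) (nat_lit 20) (nat_lit 4) (nat_lit 18) (nat_lit 4) (nat_lit 528) (nat_lit 356) (nat_lit 316))))) (XT.nd (nat_lit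 312) (nat_lit 152) (nat_lit 0) (XT.nd (nat_lit 156) (nat_lit 76) (nat_lit 0) (XT.nd (nat_lit 78) (nat_lit 76) (nat_lit 0) (XT.lf (nat_lit 0) (nat_lit 19384113940) (nat_lit 152) (nat_lit 4618082522) (nat_lit 0) (nat_lit 14033664169) (nat_lit 18) (nat_lit 5) (nat_lit 20) (nat_lit 4) (nat_lit 18) (nat_lit 4) (nat_lit 529) (nat_lit 356) (nat_lit 315)) (XT.lf (nat_lit 0) (nat_lit 8964402273) (nat_lit 76) (nat_lit 17710389495) (nat_lit 76) (nat_lit 12293903700) (nat_lit 17) (nat_lit 4) (nat_lit 18) (nat_lit 5) (nat_lit 18) (nat_lit 4) (nat_lit 530) (nat_lit 356) (nat_lit 314))) (XT.nd (nat_lit 78) (nat_lit 76) (nat_lit 0) (XT.lf (nat_lit 0) (nat_lit 22900254352) (nat_lit 76) (nat_lit 11255358964) (nat_lit 76) (nat_lit 5774760524) (nat_lit 17) (nat_lit 4) (nat_lit 18) (nat_lit 5) (nat_lit 18) (nat_lit 4) (nat_lit 531) (nat_lit 356) (nat_lit 313)) (XT.lf (nat_lit 0) (nat_lit 847871296) (nat_lit 152) (nat_lit 3821664994)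 (nat_lit 76) (nat_lit 36253308639) (nat_lit 16) (nat_lit 5) (nat_lit 18) (nat_lit 5) (nat_lit 17) (nat_lit 4) (nat_lit 532) (nat_lit 356) (nat_lit 312)))) (XT.nd (nat_lit 156) (nat_lit 76) (nat_lit 0) (XT.nd (nat_lit 78) (nat_lit 0) (nat_lit 0) (XT.lf (nat_lit 0) (nat_lit 7596624752) (nat_lit 152) (nat_lit 32188895000) (nat_lit 0) (nat_lit 2156550923) (nat_lit 15) (nat_lit 5) (nat_lit 17) (nat_lit 4) (nat_lit 15) (nat_lit 4) (nat_lit 533) (nat_lit 356) (nat_lit 311)) (XT.lf (nat_lit 0) (nat_lit 14561521153) (nat_lit 152) (nat_lit 19365458617) (nat_lit 0) (nat_lit 9064484070) (nat_lit 15) (nat_lit 5) (nat_lit 17) (nat_lit 4) (nat_lit 15) (nat_lit 4) (nat_lit 534) (nat_lit 356) (nat_lit 310))) (XT.nd (nat_lit 78) (nat_lit 76) (nat_lit 0) (XT.lf (nat_lit 0) (nat_lit 21665921624) (nat_lit 152) (nat_lit 6294921075) (nat_lit 0) (nat_lit 16113580411) (nat_lit 15) (nat_lit 5) (nat_lit 17) (nat_lit 4) (nat_lit 15) (nat_lit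 4) (nat_lit 535) (nat_lit 356) (nat_lit 309)) (XT.lf (nat_lit 0) (nat_lit 7174131632) (nat_lit 76) (nat_lit 21810864404) (nat_lit 76) (nat_lit 16204829860) (nat_lit 14) (nat_lit 4) (nat_lit 15) (nat_lit 5) (nat_lit 15) (nat_lit 4) (nat_lit 536) (nat_lit 356) (nat_lit 308)))))) (XT.nd (nat_lit 546) (nat_lit 152) (nat_lit 0) (XT.nd (nat_lit 234) (nat_lit 76) (nat_lit 0) (XT.nd (nat_lit 78) (nat_lit 152) (nat_lit 0) (XT.lf (nat_lit 0) (nat_lit 21044011269) (nat_lit 76) (nat_lit 15476469654) (nat_lit 76) (nat_lit 9818305662) (nat_lit 14) (nat_lit 4) (nat_lit 15) (nat_lit 5) (nat_lit 15) (nat_lit 4) (nat_lit 537) (nat_lit 356) (nat_lit 307)) (XT.nd (nat_lit 78) (nat_lit 152) (nat_lit 0) (XT.lf (nat_lit 0) (nat_lit 35201555875) (nat_lit 76) (nat_lit 9015689901) (nat_lit 76) (nat_lit 3306914795) (nat_lit 14) (nat_lit 4) (nat_lit 15) (nat_lit 5) (nat_lit 15) (nat_lit 4) (nat_lit 538) (nat_lit 356) (nat_lit 306)) (XT.lf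 (nat_lit 0) (nat_lit 897609729) (nat_lit 76) (nat_lit 2380972457) (nat_lit 152) (nat_lit 45467180831) (nat_lit 12) (nat_lit 5) (nat_lit 13) (nat_lit 5) (nat_lit 14) (nat_lit 4) (nat_lit 539) (nat_lit 356) (nat_lit 305)))) (XT.nd (nat_lit 156) (nat_lit 76) (nat_lit 0) (XT.nd (nat_lit 78) (nat_lit 0) (nat_lit 0) (XT.lf (nat_lit 0) (nat_lit 10100182839) (nat_lit 152) (nat_lit 35436038601) (nat_lit 0) (nat_lit 4463660568) (nat_lit 12) (nat_lit 5) (nat_lit 14) (nat_lit 4) (nat_lit 12) (nat_lit 4) (nat_lit 540) (nat_lit 356) (nat_lit 304)) (XT.lf (nat_lit 0) (nat_lit 17088389378) (nat_lit 152) (nat_lit 22797477500) (nat_lit 0) (nat_lit 11406899788) (nat_lit 12) (nat_lit 5) (nat_lit 14) (nat_lit 4) (nat_lit 12) (nat_lit 4) (nat_lit 541) (nat_lit 356) (nat_lit 303))) (XT.nd (nat_lit 78) (nat_lit 76) (nat_lit 0) (XT.lf (nat_lit 0) (nat_lit 24226420640) (nat_lit 152) (nat_lit 9898539219) (nat_lit 0) (nat_lit 18501273459)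 (nat_lit 12) (nat_lit 5) (nat_lit 14) (nat_lit 4) (nat_lit 12) (nat_lit 4) (nat_lit 542) (nat_lit 356) (nat_lit 302)) (XT.lf (nat_lit 0) (nat_lit 3337167312) (nat_lit 76) (nat_lit 28215425321) (nat_lit 76) (nat_lit 22447892129) (nat_lit 11) (nat_lit 4) (nat_lit 12) (nat_lit 5) (nat_lit 12) (nat_lit 4) (nat_lit 543) (nat_lit 356) (nat_lit 301))))) (XT.nd (nat_lit 312) (nat_lit 0) (nat_lit 0) (XT.nd (nat_lit 156) (nat_lit 152) (nat_lit 0) (XT.nd (nat_lit 78) (nat_lit 0) (nat_lit 0) (XT.lf (nat_lit 0) (nat_lit 17058665927) (nat_lit 76) (nat_lit 22082354562) (nat_lit 76) (nat_lit 16273669903) (nat_lit 11) (nat_lit 4) (nat_lit 12) (nat_lit 5) (nat_lit 12) (nat_lit 4) (nat_lit 544) (nat_lit 356) (nat_lit 300)) (XT.lf (nat_lit 0) (nat_lit 31080945944) (nat_lit 76) (nat_lit 15820344426) (nat_lit 76) (nat_lit 9971706886) (nat_lit 11) (nat_lit 4) (nat_lit 12) (nat_lit 5) (nat_lit 12) (nat_lit 4) (nat_lit 545) (nat_lit 356)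 (nat_lit 299))) (XT.nd (nat_lit 78) (nat_lit 152) (nat_lit 0) (XT.lf (nat_lit 0) (nat_lit 45416259842) (nat_lit 76) (nat_lit 9423923253) (nat_lit 76) (nat_lit 3536496508) (nat_lit 11) (nat_lit 4) (nat_lit 12) (nat_lit 5) (nat_lit 12) (nat_lit 4) (nat_lit 546) (nat_lit 356) (nat_lit 298)) (XT.lf (nat_lit 0) (nat_lit 123288984) (nat_lit 76) (nat_lit 2856206164) (nat_lit 152) (nat_lit 56946644656) (nat_lit 9) (nat_lit 5) (nat_lit 10) (nat_lit 5) (nat_lit 11) (nat_lit 4) (nat_lit 547) (nat_lit 356) (nat_lit 297)))) (XT.nd (nat_lit 156) (nat_lit 0) (nat_lit 0) (XT.nd (nat_lit 78) (nat_lit 0) (nat_lit 0) (XT.lf (nat_lit 0) (nat_lit 9736543257) (nat_lit 152) (nat_lit 47832456265) (nat_lit 0) (nat_lit 3948534798) (nat_lit 9) (nat_lit 5) (nat_lit 11) (nat_lit 4) (nat_lit 9) (nat_lit 4) (nat_lit 548) (nat_lit 356) (nat_lit 296)) (XT.lf (nat_lit 0) (nat_lit 16673043108) (nat_lit 152) (nat_lit 35633755049) (nat_lit 0) (nat_lit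 10850570944) (nat_lit 9) (nat_lit 5) (nat_lit 11) (nat_lit 4) (nat_lit 9) (nat_lit 4) (nat_lit 549) (nat_lit 356) (nat_lit 295))) (XT.nd (nat_lit 78) (nat_lit 0) (nat_lit 0) (XT.lf (nat_lit 0) (nat_lit 23767600122) (nat_lit 152) (nat_lit 23168632513) (nat_lit 0) (nat_lit 17911668048) (nat_lit 9) (nat_lit 5) (nat_lit 11) (nat_lit 4) (nat_lit 9) (nat_lit 4) (nat_lit 550) (nat_lit 356) (nat_lit 294)) (XT.lf (nat_lit 0) (nat_lit 31026413424) (nat_lit 152) (nat_lit 10426196801) (nat_lit 0) (nat_lit 25137996002) (nat_lit 9) (nat_lit 5) (nat_lit 11) (nat_lit 4) (nat_lit 9) (nat_lit 4) (nat_lit 551) (nat_lit 356) (nat_lit 293))))))))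
noncomputable def xc19 : XT := (XT.nd (nat_lit 59436) (nat_lit 0) (nat_lit 304) (XT.nd (nat_lit 58266) (nat_lit 0) (nat_lit 1596) (XT.nd (nat_lit 57642) (nat_lit 0) (nat_lit 2584) (XT.nd (nat_lit 57330) (nat_lit 0) (nat_lit 3420) (XT.nd (nat_lit 78) (nat_lit 0) (nat_lit 0) (XT.lf (nat_lit 0) (nat_lit 2656524617) (nat_lit 76) (nat_lit 35824837189) (nat_lit 76) (nat_lit 29904880595) (nat_lit 8) (nat_lit 4) (nat_lit 9) (nat_lit 5) (nat_lit 9) (nat_lit 4) (nat_lit 552) (nat_lit 356) (nat_lit 292)) (XT.nd (nat_lit 78) (nat_lit 0) (nat_lit 0) (XT.lf (nat_lit 0) (nat_lit 16252548622) (nat_lit 76) (nat_lit 29966009388) (nat_lit 76) (nat_lit 24015432238) (nat_lit 8) (nat_lit 4) (nat_lit 9) (nat_lit 5) (nat_lit 9) (nat_lit 4) (nat_lit 553) (nat_lit 356) (nat_lit 291)) (XT.lf (nat_lit 0) (nat_lit 30166253475) (nat_lit 76) (nat_lit 23976291602) (nat_lit 76) (nat_lit 17995985756) (nat_lit 8) (nat_lit 4) (nat_lit 9) (nat_lit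 5) (nat_lit 9) (nat_lit 4) (nat_lit 554) (nat_lit 356) (nat_lit 290)))) (XT.nd (nat_lit 156) (nat_lit 152) (nat_lit 0) (XT.nd (nat_lit 78) (nat_lit 152) (nat_lit 0) (XT.lf (nat_lit 0) (nat_lit 939650686) (nat_lit 152) (nat_lit 5940640547) (nat_lit 0) (nat_lit 939650686) (nat_lit 57) (nat_lit 5) (nat_lit 59) (nat_lit 4) (nat_lit 57) (nat_lit 4) (nat_lit 486) (nat_lit 357) (nat_lit 357)) (XT.lf (nat_lit 0) (nat_lit 402462517) (nat_lit 152) (nat_lit 7915306675) (nat_lit 152) (nat_lit 7589476687) (nat_lit 55) (nat_lit 4) (nat_lit 57) (nat_lit 5) (nat_lit 57) (nat_lit 4) (nat_lit 487) (nat_lit 357) (nat_lit 356))) (XT.nd (nat_lit 78) (nat_lit 152) (nat_lit 0) (XT.lf (nat_lit 0) (nat_lit 13049329730) (nat_lit 152) (nat_lit 1887919477) (nat_lit 152) (nat_lit 1245749694) (nat_lit 55) (nat_lit 4) (nat_lit 57) (nat_lit 5) (nat_lit 57) (nat_lit 4) (nat_lit 488) (nat_lit 357) (nat_lit 355)) (XT.lf (nat_lit 0) (nat_lit 5188690877)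 (nat_lit 152) (nat_lit 7009661808) (nat_lit 0) (nat_lit 4267044472) (nat_lit 53) (nat_lit 5) (nat_lit 55) (nat_lit 4) (nat_lit 53) (nat_lit 4) (nat_lit 489) (nat_lit 357) (nat_lit 354))))) (XT.nd (nat_lit 312) (nat_lit 380) (nat_lit 0) (XT.nd (nat_lit 156) (nat_lit 152) (nat_lit 0) (XT.nd (nat_lit 78) (nat_lit 152) (nat_lit 0) (XT.lf (nat_lit 0) (nat_lit 5564345767) (nat_lit 152) (nat_lit 6201725361) (nat_lit 152) (nat_lit 4990583232) (nat_lit 51) (nat_lit 4) (nat_lit 53) (nat_lit 5) (nat_lit 53) (nat_lit 4) (nat_lit 490) (nat_lit 357) (nat_lit 353)) (XT.lf (nat_lit 0) (nat_lit 1371728611) (nat_lit 76) (nat_lit 39076586) (nat_lit 152) (nat_lit 15646751888) (nat_lit 49) (nat_lit 5) (nat_lit 50) (nat_lit 5) (nat_lit 51) (nat_lit 4) (nat_lit 491) (nat_lit 357) (nat_lit 352))) (XT.nd (nat_lit 78) (nat_lit 152) (nat_lit 0) (XT.lf (nat_lit 0) (nat_lit 7950005582) (nat_lit 152) (nat_lit 3178289234) (nat_lit 0) (nat_lit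 6236332354) (nat_lit 49) (nat_lit 5) (nat_lit 51) (nat_lit 4) (nat_lit 49) (nat_lit 4) (nat_lit 492) (nat_lit 357) (nat_lit 351)) (XT.lf (nat_lit 0) (nat_lit 9654483205) (nat_lit 152) (nat_lit 4999135132) (nat_lit 152) (nat_lit 3028248702) (nat_lit 47) (nat_lit 4) (nat_lit 49) (nat_lit 5) (nat_lit 49) (nat_lit 4) (nat_lit 493) (nat_lit 357) (nat_lit 350)))) (XT.nd (nat_lit 156) (nat_lit 228) (nat_lit 0) (XT.nd (nat_lit 78) (nat_lit 0) (nat_lit 0) (XT.lf (nat_lit 0) (nat_lit 3446360001) (nat_lit 152) (nat_lit 13271837648) (nat_lit 0) (nat_lit 1290429919) (nat_lit 45) (nat_lit 5) (nat_lit 47) (nat_lit 4) (nat_lit 45) (nat_lit 4) (nat_lit 494) (nat_lit 357) (nat_lit 349)) (XT.lf (nat_lit 0) (nat_lit 10061180742) (nat_lit 152) (nat_lit 613045755) (nat_lit 0) (nat_lit 7669864144) (nat_lit 45) (nat_lit 5) (nat_lit 47) (nat_lit 4) (nat_lit 45) (nat_lit 4) (nat_lit 495) (nat_lit 357) (nat_lit 348))) (XT.nd (nat_lit 78)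 (nat_lit 152) (nat_lit 0) (XT.lf (nat_lit 0) (nat_lit 12436692200) (nat_lit 76) (nat_lit 4436408601) (nat_lit 76) (nat_lit 1816561405) (nat_lit 44) (nat_lit 4) (nat_lit 45) (nat_lit 5) (nat_lit 45) (nat_lit 4) (nat_lit 496) (nat_lit 357) (nat_lit 347)) (XT.lf (nat_lit 0) (nat_lit 4718335292) (nat_lit 152) (nat_lit 12367418143) (nat_lit 0) (nat_lit 1959382318) (nat_lit 42) (nat_lit 5) (nat_lit 44) (nat_lit 4) (nat_lit 42) (nat_lit 4) (nat_lit 497) (nat_lit 357) (nat_lit 346)))))) (XT.nd (nat_lit 546) (nat_lit 532) (nat_lit 0) (XT.nd (nat_lit 234) (nat_lit 228) (nat_lit 0) (XT.nd (nat_lit 78) (nat_lit 152) (nat_lit 0) (XT.lf (nat_lit 0) (nat_lit 429063142) (nat_lit 76) (nat_lit 10975013131) (nat_lit 76) (nat_lit 8006922286) (nat_lit 41) (nat_lit 4) (nat_lit 42) (nat_lit 5) (nat_lit 42) (nat_lit 4) (nat_lit 498) (nat_lit 357) (nat_lit 345)) (XT.nd (nat_lit 78) (nat_lit 152) (nat_lit 0) (XT.lf (nat_lit 0) (nat_lit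 13633332301) (nat_lit 76) (nat_lit 4662737809) (nat_lit 76) (nat_lit 1491600487) (nat_lit 41) (nat_lit 4) (nat_lit 42) (nat_lit 5) (nat_lit 42) (nat_lit 4) (nat_lit 499) (nat_lit 357) (nat_lit 344)) (XT.lf (nat_lit 0) (nat_lit 5084738950) (nat_lit 152) (nat_lit 13275806134) (nat_lit 0) (nat_lit 1814574073) (nat_lit 39) (nat_lit 5) (nat_lit 41) (nat_lit 4) (nat_lit 39) (nat_lit 4) (nat_lit 500) (nat_lit 357) (nat_lit 343)))) (XT.nd (nat_lit 156) (nat_lit 152) (nat_lit 0) (XT.nd (nat_lit 78) (nat_lit 76) (nat_lit 0) (XT.lf (nat_lit 0) (nat_lit 11820660614) (nat_lit 152) (nat_lit 388643356) (nat_lit 0) (nat_lit 8364679448) (nat_lit 39) (nat_lit 5) (nat_lit 41) (nat_lit 4) (nat_lit 39) (nat_lit 4) (nat_lit 501) (nat_lit 357) (nat_lit 342)) (XT.lf (nat_lit 0) (nat_lit 12918285503) (nat_lit 76) (nat_lit 5851294588) (nat_lit 76) (nat_lit 2214909258) (nat_lit 38) (nat_lit 4) (nat_lit 39) (nat_lit 5) (nat_lit 39) (nat_lit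 4) (nat_lit 502) (nat_lit 357) (nat_lit 341))) (XT.nd (nat_lit 78) (nat_lit 0) (nat_lit 0) (XT.lf (nat_lit 0) (nat_lit 4377560705) (nat_lit 152) (nat_lit 16353025289) (nat_lit 0) (nat_lit 677041283) (nat_lit 36) (nat_lit 5) (nat_lit 38) (nat_lit 4) (nat_lit 36) (nat_lit 4) (nat_lit 503) (nat_lit 357) (nat_lit 340)) (XT.lf (nat_lit 0) (nat_lit 11150526376) (nat_lit 152) (nat_lit 3406549376) (nat_lit 0) (nat_lit 7284911587) (nat_lit 36) (nat_lit 5) (nat_lit 38) (nat_lit 4) (nat_lit 36) (nat_lit 4) (nat_lit 504) (nat_lit 357) (nat_lit 339))))) (XT.nd (nat_lit 312) (nat_lit 228) (nat_lit 0) (XT.nd (nat_lit 156) (nat_lit 76) (nat_lit 0) (XT.nd (nat_lit 78) (nat_lit 152) (nat_lit 0) (XT.lf (nat_lit 0) (nat_lit 9908818307) (nat_lit 76) (nat_lit 8203448424) (nat_lit 76) (nat_lit 4177546872) (nat_lit 35) (nat_lit 4) (nat_lit 36) (nat_lit 5) (nat_lit 36) (nat_lit 4) (nat_lit 505) (nat_lit 357) (nat_lit 338)) (XT.lf (nat_lit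 0) (nat_lit 719848551) (nat_lit 76) (nat_lit 1694618601) (nat_lit 152) (nat_lit 20337917591) (nat_lit 33) (nat_lit 5) (nat_lit 34) (nat_lit 5) (nat_lit 35) (nat_lit 4) (nat_lit 506) (nat_lit 357) (nat_lit 337))) (XT.nd (nat_lit 78) (nat_lit 76) (nat_lit 0) (XT.lf (nat_lit 0) (nat_lit 9185299441) (nat_lit 152) (nat_lit 9061458356) (nat_lit 0) (nat_lit 4978886414) (nat_lit 33) (nat_lit 5) (nat_lit 35) (nat_lit 4) (nat_lit 33) (nat_lit 4) (nat_lit 507) (nat_lit 357) (nat_lit 336)) (XT.lf (nat_lit 0) (nat_lit 4156144495) (nat_lit 76) (nat_lit 11953634835) (nat_lit 76) (nat_lit 7604809096) (nat_lit 32) (nat_lit 4) (nat_lit 33) (nat_lit 5) (nat_lit 33) (nat_lit 4) (nat_lit 508) (nat_lit 357) (nat_lit 335)))) (XT.nd (nat_lit 156) (nat_lit 76) (nat_lit 0) (XT.nd (nat_lit 78) (nat_lit 152) (nat_lit 0) (XT.lf (nat_lit 0) (nat_lit 17751124909) (nat_lit 76) (nat_lit 5477288273) (nat_lit 76) (nat_lit 990197763) (nat_lit 32)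 (nat_lit 4) (nat_lit 33) (nat_lit 5) (nat_lit 33) (nat_lit 4) (nat_lit 509) (nat_lit 357) (nat_lit 334)) (XT.lf (nat_lit 0) (nat_lit 5684198808) (nat_lit 152) (nat_lit 17855156965) (nat_lit 0) (nat_lit 1197472448) (nat_lit 30) (nat_lit 5) (nat_lit 32) (nat_lit 4) (nat_lit 30) (nat_lit 4) (nat_lit 510) (nat_lit 357) (nat_lit 333))) (XT.nd (nat_lit 78) (nat_lit 76) (nat_lit 0) (XT.lf (nat_lit 0) (nat_lit 12556231006) (nat_lit 152) (nat_lit 4770577272) (nat_lit 0) (nat_lit 7942972794) (nat_lit 30) (nat_lit 5) (nat_lit 32) (nat_lit 4) (nat_lit 30) (nat_lit 4) (nat_lit 511) (nat_lit 357) (nat_lit 332)) (XT.lf (nat_lit 0) (nat_lit 8680645244) (nat_lit 76) (nat_lit 10937338709) (nat_lit 76) (nat_lit 6201234040) (nat_lit 29) (nat_lit 4) (nat_lit 30) (nat_lit 5) (nat_lit 30) (nat_lit 4) (nat_lit 512) (nat_lit 357) (nat_lit 331))))))) (XT.nd (nat_lit 1170) (nat_lit 532) (nat_lit 0) (XT.nd (nat_lit 546) (nat_lit 380) (nat_lit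 0) (XT.nd (nat_lit 234) (nat_lit 228) (nat_lit 0) (XT.nd (nat_lit 78) (nat_lit 76) (nat_lit 0) (XT.lf (nat_lit 0) (nat_lit 445405051) (nat_lit 152) (nat_lit 3951200819) (nat_lit 76) (nat_lit 21989923163) (nat_lit 28) (nat_lit 5) (nat_lit 30) (nat_lit 5) (nat_lit 29) (nat_lit 4) (nat_lit 513) (nat_lit 357) (nat_lit 330)) (XT.nd (nat_lit 78) (nat_lit 0) (nat_lit 0) (XT.lf (nat_lit 0) (nat_lit 7184989242) (nat_lit 152) (nat_lit 17424871867) (nat_lit 0) (nat_lit 2358612890) (nat_lit 27) (nat_lit 5) (nat_lit 29) (nat_lit 4) (nat_lit 27) (nat_lit 4) (nat_lit 514) (nat_lit 357) (nat_lit 329)) (XT.lf (nat_lit 0) (nat_lit 14113812779) (nat_lit 152) (nat_lit 4276166067) (nat_lit 0) (nat_lit 9178288940) (nat_lit 27) (nat_lit 5) (nat_lit 29) (nat_lit 4) (nat_lit 27) (nat_lit 4) (nat_lit 515) (nat_lit 357) (nat_lit 328)))) (XT.nd (nat_lit 156) (nat_lit 152) (nat_lit 0) (XT.nd (nat_lit 78) (nat_lit 0) (nat_lit 0) (XT.lf (nat_lit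 0) (nat_lit 9263488374) (nat_lit 76) (nat_lit 11982104250) (nat_lit 76) (nat_lit 6940611978) (nat_lit 26) (nat_lit 4) (nat_lit 27) (nat_lit 5) (nat_lit 27) (nat_lit 4) (nat_lit 516) (nat_lit 357) (nat_lit 327)) (XT.lf (nat_lit 0) (nat_lit 23114519737) (nat_lit 76) (nat_lit 5427014840) (nat_lit 76) (nat_lit 282640594) (nat_lit 26) (nat_lit 4) (nat_lit 27) (nat_lit 5) (nat_lit 27) (nat_lit 4) (nat_lit 517) (nat_lit 357) (nat_lit 326))) (XT.nd (nat_lit 78) (nat_lit 0) (nat_lit 0) (XT.lf (nat_lit 0) (nat_lit 6443940669) (nat_lit 152) (nat_lit 21683108220) (nat_lit 0) (nat_lit 1352426438) (nat_lit 24) (nat_lit 5) (nat_lit 26) (nat_lit 4) (nat_lit 24) (nat_lit 4) (nat_lit 518) (nat_lit 357) (nat_lit 325)) (XT.lf (nat_lit 0) (nat_lit 13387554043) (nat_lit 152) (nat_lit 8564282542) (nat_lit 0) (nat_lit 8201888231) (nat_lit 24) (nat_lit 5) (nat_lit 26) (nat_lit 4) (nat_lit 24) (nat_lit 4) (nat_lit 519) (nat_lit 357) (nat_lit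 324))))) (XT.nd (nat_lit 312) (nat_lit 152) (nat_lit 0) (XT.nd (nat_lit 156) (nat_lit 152) (nat_lit 0) (XT.nd (nat_lit 78) (nat_lit 0) (nat_lit 0) (XT.lf (nat_lit 0) (nat_lit 4869252408) (nat_lit 76) (nat_lit 15628636894) (nat_lit 76) (nat_lit 10351561780) (nat_lit 23) (nat_lit 4) (nat_lit 24) (nat_lit 5) (nat_lit 24) (nat_lit 4) (nat_lit 520) (nat_lit 357) (nat_lit 323)) (XT.lf (nat_lit 0) (nat_lit 18709185284) (nat_lit 76) (nat_lit 9111358614) (nat_lit 76) (nat_lit 3745536606) (nat_lit 23) (nat_lit 4) (nat_lit 24) (nat_lit 5) (nat_lit 24) (nat_lit 4) (nat_lit 521) (nat_lit 357) (nat_lit 322))) (XT.nd (nat_lit 78) (nat_lit 0) (nat_lit 0) (XT.lf (nat_lit 0) (nat_lit 471035707) (nat_lit 76) (nat_lit 2446708011) (nat_lit 152) (nat_lit 29388021785) (nat_lit 21) (nat_lit 5) (nat_lit 22) (nat_lit 5) (nat_lit 23) (nat_lit 4) (nat_lit 522) (nat_lit 357) (nat_lit 321)) (XT.lf (nat_lit 0) (nat_lit 9793554712) (nat_lit 152)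 (nat_lit 18851187555) (nat_lit 0) (nat_lit 4419150342) (nat_lit 21) (nat_lit 5) (nat_lit 23) (nat_lit 4) (nat_lit 21) (nat_lit 4) (nat_lit 523) (nat_lit 357) (nat_lit 320)))) (XT.nd (nat_lit 156) (nat_lit 76) (nat_lit 0) (XT.nd (nat_lit 78) (nat_lit 76) (nat_lit 0) (XT.lf (nat_lit 0) (nat_lit 16816691642) (nat_lit 152) (nat_lit 5666404994) (nat_lit 0) (nat_lit 11363436805) (nat_lit 21) (nat_lit 5) (nat_lit 23) (nat_lit 4) (nat_lit 21) (nat_lit 4) (nat_lit 524) (nat_lit 357) (nat_lit 319)) (XT.lf (nat_lit 0) (nat_lit 7908990719) (nat_lit 76) (nat_lit 16136807314) (nat_lit 76) (nat_lit 10606998626) (nat_lit 20) (nat_lit 4) (nat_lit 21) (nat_lit 5) (nat_lit 21) (nat_lit 4) (nat_lit 525) (nat_lit 357) (nat_lit 318))) (XT.nd (nat_lit 78) (nat_lit 76) (nat_lit 0) (XT.lf (nat_lit 0) (nat_lit 21850102237) (nat_lit 76) (nat_lit 9618980291) (nat_lit 76) (nat_lit 4014847476) (nat_lit 20) (nat_lit 4) (nat_lit 21) (nat_lit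 5) (nat_lit 21) (nat_lit 4) (nat_lit 526) (nat_lit 357) (nat_lit 317)) (XT.lf (nat_lit 0) (nat_lit 2642560074) (nat_lit 152) (nat_lit 311895210) (nat_lit 76) (nat_lit 33387093792) (nat_lit 19) (nat_lit 5) (nat_lit 21) (nat_lit 5) (nat_lit 20) (nat_lit 4) (nat_lit 527) (nat_lit 357) (nat_lit 316)))))) (XT.nd (nat_lit 624) (nat_lit 228) (nat_lit 0) (XT.nd (nat_lit 312) (nat_lit 152) (nat_lit 0) (XT.nd (nat_lit 156) (nat_lit 76) (nat_lit 0) (XT.nd (nat_lit 78) (nat_lit 0) (nat_lit 0) (XT.lf (nat_lit 0) (nat_lit 9511076715) (nat_lit 152) (nat_lit 23777769952) (nat_lit 0) (nat_lit 3932096346) (nat_lit 18) (nat_lit 5) (nat_lit 20) (nat_lit 4) (nat_lit 18) (nat_lit 4) (nat_lit 528) (nat_lit 357) (nat_lit 315)) (XT.lf (nat_lit 0) (nat_lit 16542088104) (nat_lit 152) (nat_lit 10688867000) (nat_lit 0) (nat_lit 10897071711) (nat_lit 18) (nat_lit 5) (nat_lit 20) (nat_lit 4) (nat_lit 18) (nat_lit 4) (nat_lit 529) (nat_lit 357)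 (nat_lit 314))) (XT.nd (nat_lit 78) (nat_lit 0) (nat_lit 0) (XT.lf (nat_lit 0) (nat_lit 2699509879) (nat_lit 76) (nat_lit 21036689202) (nat_lit 76) (nat_lit 15327560164) (nat_lit 17) (nat_lit 4) (nat_lit 18) (nat_lit 5) (nat_lit 18) (nat_lit 4) (nat_lit 530) (nat_lit 357) (nat_lit 313)) (XT.lf (nat_lit 0) (nat_lit 16564209140) (nat_lit 76) (nat_lit 14616841238) (nat_lit 76) (nat_lit 8845466913) (nat_lit 17) (nat_lit 4) (nat_lit 18) (nat_lit 5) (nat_lit 18) (nat_lit 4) (nat_lit 531) (nat_lit 357) (nat_lit 312)))) (XT.nd (nat_lit 156) (nat_lit 0) (nat_lit 0) (XT.nd (nat_lit 78) (nat_lit 152) (nat_lit 0) (XT.lf (nat_lit 0) (nat_lit 30704616156) (nat_lit 76) (nat_lit 8073738235) (nat_lit 76) (nat_lit 2241931593) (nat_lit 17) (nat_lit 4) (nat_lit 18) (nat_lit 5) (nat_lit 18) (nat_lit 4) (nat_lit 532) (nat_lit 357) (nat_lit 311)) (XT.lf (nat_lit 0) (nat_lit 3104585353) (nat_lit 76) (nat_lit 1326480728) (nat_lit 152)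 (nat_lit 37612677811) (nat_lit 15) (nat_lit 5) (nat_lit 16) (nat_lit 5) (nat_lit 17) (nat_lit 4) (nat_lit 533) (nat_lit 357) (nat_lit 310))) (XT.nd (nat_lit 78) (nat_lit 0) (nat_lit 0) (XT.lf (nat_lit 0) (nat_lit 11349003252) (nat_lit 152) (nat_lit 26170755416) (nat_lit 0) (nat_lit 5574787671) (nat_lit 15) (nat_lit 5) (nat_lit 17) (nat_lit 4) (nat_lit 15) (nat_lit 4) (nat_lit 534) (nat_lit 357) (nat_lit 309)) (XT.lf (nat_lit 0) (nat_lit 18420191795) (nat_lit 152) (nat_lit 13166027780) (nat_lit 0) (nat_lit 12592282883) (nat_lit 15) (nat_lit 5) (nat_lit 17) (nat_lit 4) (nat_lit 15) (nat_lit 4) (nat_lit 535) (nat_lit 357) (nat_lit 308))))) (XT.nd (nat_lit 312) (nat_lit 152) (nat_lit 0) (XT.nd (nat_lit 156) (nat_lit 0) (nat_lit 0) (XT.nd (nat_lit 78) (nat_lit 0) (nat_lit 0) (XT.lf (nat_lit 0) (nat_lit 101111720) (nat_lit 76) (nat_lit 25537919702) (nat_lit 76) (nat_lit 19657881342) (nat_lit 14) (nat_lit 4) (nat_lit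 15) (nat_lit 5) (nat_lit 15) (nat_lit 4) (nat_lit 536) (nat_lit 357) (nat_lit 307)) (XT.lf (nat_lit 0) (nat_lit 13907724648) (nat_lit 76) (nat_lit 19234878075) (nat_lit 76) (nat_lit 13304228601) (nat_lit 14) (nat_lit 4) (nat_lit 15) (nat_lit 5) (nat_lit 15) (nat_lit 4) (nat_lit 537) (nat_lit 357) (nat_lit 306))) (XT.nd (nat_lit 78) (nat_lit 0) (nat_lit 0) (XT.lf (nat_lit 0) (nat_lit 28003845265) (nat_lit 76) (nat_lit 12804538247) (nat_lit 76) (nat_lit 6824751770) (nat_lit 14) (nat_lit 4) (nat_lit 15) (nat_lit 5) (nat_lit 15) (nat_lit 4) (nat_lit 538) (nat_lit 357) (nat_lit 305)) (XT.lf (nat_lit 0) (nat_lit 42401790568) (nat_lit 76) (nat_lit 6241281475) (nat_lit 76) (nat_lit 213789169) (nat_lit 14) (nat_lit 4) (nat_lit 15) (nat_lit 5) (nat_lit 15) (nat_lit 4) (nat_lit 539) (nat_lit 357) (nat_lit 304)))) (XT.nd (nat_lit 156) (nat_lit 0) (nat_lit 0) (XT.nd (nat_lit 78) (nat_lit 0) (nat_lit 0) (XT.lf (nat_lit 0) (nat_lit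 6480611270) (nat_lit 152) (nat_lit 43050662484) (nat_lit 0) (nat_lit 583709673) (nat_lit 12) (nat_lit 5) (nat_lit 14) (nat_lit 4) (nat_lit 12) (nat_lit 4) (nat_lit 540) (nat_lit 357) (nat_lit 303)) (XT.lf (nat_lit 0) (nat_lit 13439349103) (nat_lit 152) (nat_lit 30470613528) (nat_lit 0) (nat_lit 7498789915) (nat_lit 12) (nat_lit 5) (nat_lit 14) (nat_lit 4) (nat_lit 12) (nat_lit 4) (nat_lit 541) (nat_lit 357) (nat_lit 302))) (XT.nd (nat_lit 78) (nat_lit 0) (nat_lit 0) (XT.lf (nat_lit 0) (nat_lit 20548769971) (nat_lit 152) (nat_lit 17628483154) (nat_lit 0) (nat_lit 14565824772) (nat_lit 12) (nat_lit 5) (nat_lit 14) (nat_lit 4) (nat_lit 12) (nat_lit 4) (nat_lit 542) (nat_lit 357) (nat_lit 301)) (XT.lf (nat_lit 0) (nat_lit 27815085989) (nat_lit 152) (nat_lit 4513050084) (nat_lit 0) (nat_lit 21790989323) (nat_lit 12) (nat_lit 5) (nat_lit 14) (nat_lit 4) (nat_lit 12) (nat_lit 4) (nat_lit 543) (nat_lit 357) (nat_lit 300))))))))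
noncomputable def xc20 : XT := (XT.nd (nat_lit 59280) (nat_lit 0) (nat_lit 684) (XT.nd (nat_lit 58110) (nat_lit 0) (nat_lit 2280) (XT.nd (nat_lit 546) (nat_lit 76) (nat_lit 0) (XT.nd (nat_lit 234) (nat_lit 152) (nat_lit 0) (XT.nd (nat_lit 78) (nat_lit 0) (nat_lit 0) (XT.lf (nat_lit 0) (nat_lit 9064017395) (nat_lit 76) (nat_lit 26267757851) (nat_lit 76) (nat_lit 20203708303) (nat_lit 11) (nat_lit 4) (nat_lit 12) (nat_lit 5) (nat_lit 12) (nat_lit 4) (nat_lit 544) (nat_lit 357) (nat_lit 299)) (XT.nd (nat_lit 78) (nat_lit 0) (nat_lit 0) (XT.lf (nat_lit 0) (nat_lit 23033275481) (nat_lit 76) (nat_lit 20032077403) (nat_lit 76) (nat_lit 13929238651) (nat_lit 11) (nat_lit 4) (nat_lit 12) (nat_lit 5) (nat_lit 12) (nat_lit 4) (nat_lit 545) (nat_lit 357) (nat_lit 298)) (XT.lf (nat_lit 0) (nat_lit 37317111775) (nat_lit 76) (nat_lit 13661219034) (nat_lit 76) (nat_lit 7520720860) (nat_lit 11) (nat_lit 4) (nat_lit 12) (nat_lit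 5) (nat_lit 12) (nat_lit 4) (nat_lit 546) (nat_lit 357) (nat_lit 297)))) (XT.nd (nat_lit 156) (nat_lit 0) (nat_lit 0) (XT.nd (nat_lit 78) (nat_lit 152) (nat_lit 0) (XT.lf (nat_lit 0) (nat_lit 51928007299) (nat_lit 76) (nat_lit 7149615976) (nat_lit 76) (nat_lit 972555256) (nat_lit 11) (nat_lit 4) (nat_lit 12) (nat_lit 5) (nat_lit 12) (nat_lit 4) (nat_lit 547) (nat_lit 357) (nat_lit 296)) (XT.lf (nat_lit 0) (nat_lit 5277388686) (nat_lit 76) (nat_lit 382683738) (nat_lit 152) (nat_lit 55986083357) (nat_lit 9) (nat_lit 5) (nat_lit 10) (nat_lit 5) (nat_lit 11) (nat_lit 4) (nat_lit 548) (nat_lit 357) (nat_lit 295))) (XT.nd (nat_lit 78) (nat_lit 0) (nat_lit 0) (XT.lf (nat_lit 0) (nat_lit 12568244507) (nat_lit 152) (nat_lit 44215421632) (nat_lit 0) (nat_lit 6503174563) (nat_lit 9) (nat_lit 5) (nat_lit 11) (nat_lit 4) (nat_lit 9) (nat_lit 4) (nat_lit 549) (nat_lit 357) (nat_lit 294)) (XT.lf (nat_lit 0) (nat_lit 19638870278)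 (nat_lit 152) (nat_lit 31797905254) (nat_lit 0) (nat_lit 13541314985) (nat_lit 9) (nat_lit 5) (nat_lit 11) (nat_lit 4) (nat_lit 9) (nat_lit 4) (nat_lit 550) (nat_lit 357) (nat_lit 293))))) (XT.nd (nat_lit 57252) (nat_lit 0) (nat_lit 3572) (XT.nd (nat_lit 156) (nat_lit 76) (nat_lit 0) (XT.nd (nat_lit 78) (nat_lit 0) (nat_lit 0) (XT.lf (nat_lit 0) (nat_lit 26874449364) (nat_lit 152) (nat_lit 19101689112) (nat_lit 0) (nat_lit 20745354899) (nat_lit 9) (nat_lit 5) (nat_lit 11) (nat_lit 4) (nat_lit 9) (nat_lit 4) (nat_lit 551) (nat_lit 357) (nat_lit 292)) (XT.lf (nat_lit 0) (nat_lit 34281304116) (nat_lit 152) (nat_lit 6115679427) (nat_lit 0) (nat_lit 28121589095) (nat_lit 9) (nat_lit 5) (nat_lit 11) (nat_lit 4) (nat_lit 9) (nat_lit 4) (nat_lit 552) (nat_lit 357) (nat_lit 291))) (XT.nd (nat_lit 78) (nat_lit 0) (nat_lit 0) (XT.lf (nat_lit 0) (nat_lit 7314197130) (nat_lit 76) (nat_lit 34622017951) (nat_lit 76) (nat_lit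 28432574234) (nat_lit 8) (nat_lit 4) (nat_lit 9) (nat_lit 5) (nat_lit 9) (nat_lit 4) (nat_lit 553) (nat_lit 357) (nat_lit 290)) (XT.lf (nat_lit 0) (nat_lit 21184762726) (nat_lit 76) (nat_lit 28653762141) (nat_lit 76) (nat_lit 22435455613) (nat_lit 8) (nat_lit 4) (nat_lit 9) (nat_lit 5) (nat_lit 9) (nat_lit 4) (nat_lit 554) (nat_lit 357) (nat_lit 289)))) (XT.nd (nat_lit 156) (nat_lit 304) (nat_lit 0) (XT.nd (nat_lit 78) (nat_lit 152) (nat_lit 0) (XT.lf (nat_lit 0) (nat_lit 2430873137) (nat_lit 152) (nat_lit 2700285972) (nat_lit 0) (nat_lit 2430873137) (nat_lit 61) (nat_lit 5) (nat_lit 63) (nat_lit 4) (nat_lit 61) (nat_lit 4) (nat_lit 484) (nat_lit 358) (nat_lit 358)) (XT.lf (nat_lit 0) (nat_lit 6804359955) (nat_lit 152) (nat_lit 4460193700) (nat_lit 152) (nat_lit 4114520666) (nat_lit 59) (nat_lit 4) (nat_lit 61) (nat_lit 5) (nat_lit 61) (nat_lit 4) (nat_lit 485) (nat_lit 358) (nat_lit 357))) (XT.nd (nat_lit 78)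 (nat_lit 152) (nat_lit 0) (XT.lf (nat_lit 0) (nat_lit 2149084448) (nat_lit 152) (nat_lit 12005127453) (nat_lit 0) (nat_lit 1487649572) (nat_lit 57) (nat_lit 5) (nat_lit 59) (nat_lit 4) (nat_lit 57) (nat_lit 4) (nat_lit 486) (nat_lit 358) (nat_lit 356)) (XT.lf (nat_lit 0) (nat_lit 153519195) (nat_lit 152) (nat_lit 8367735403) (nat_lit 152) (nat_lit 7389960733) (nat_lit 55) (nat_lit 4) (nat_lit 57) (nat_lit 5) (nat_lit 57) (nat_lit 4) (nat_lit 487) (nat_lit 358) (nat_lit 355)))))) (XT.nd (nat_lit 546) (nat_lit 532) (nat_lit 0) (XT.nd (nat_lit 234) (nat_lit 456) (nat_lit 0) (XT.nd (nat_lit 78) (nat_lit 304) (nat_lit 0) (XT.lf (nat_lit 0) (nat_lit 12681326041) (nat_lit 152) (nat_lit 2396220720) (nat_lit 152) (nat_lit 1111320035) (nat_lit 55) (nat_lit 4) (nat_lit 57) (nat_lit 5) (nat_lit 57) (nat_lit 4) (nat_lit 488) (nat_lit 358) (nat_lit 354)) (XT.nd (nat_lit 78) (nat_lit 152) (nat_lit 0) (XT.lf (nat_lit 0) (nat_lit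 5248267858) (nat_lit 152) (nat_lit 7513832214) (nat_lit 0) (nat_lit 3711295741) (nat_lit 53) (nat_lit 5) (nat_lit 55) (nat_lit 4) (nat_lit 53) (nat_lit 4) (nat_lit 489) (nat_lit 358) (nat_lit 353)) (XT.lf (nat_lit 0) (nat_lit 4930812493) (nat_lit 152) (nat_lit 6826957679) (nat_lit 152) (nat_lit 5008921751) (nat_lit 51) (nat_lit 4) (nat_lit 53) (nat_lit 5) (nat_lit 53) (nat_lit 4) (nat_lit 490) (nat_lit 358) (nat_lit 352)))) (XT.nd (nat_lit 156) (nat_lit 304) (nat_lit 0) (XT.nd (nat_lit 78) (nat_lit 0) (nat_lit 0) (XT.lf (nat_lit 0) (nat_lit 596115195) (nat_lit 76) (nat_lit 727544217) (nat_lit 152) (nat_lit 15746017898) (nat_lit 49) (nat_lit 5) (nat_lit 50) (nat_lit 5) (nat_lit 51) (nat_lit 4) (nat_lit 491) (nat_lit 358) (nat_lit 351)) (XT.lf (nat_lit 0) (nat_lit 7794687472) (nat_lit 152) (nat_lit 4076646195) (nat_lit 0) (nat_lit 5507461248) (nat_lit 49) (nat_lit 5) (nat_lit 51) (nat_lit 4) (nat_lit 49) (nat_lit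 4) (nat_lit 492) (nat_lit 358) (nat_lit 350))) (XT.nd (nat_lit 78) (nat_lit 152) (nat_lit 0) (XT.lf (nat_lit 0) (nat_lit 8622155313) (nat_lit 152) (nat_lit 5806460039) (nat_lit 152) (nat_lit 3269512260) (nat_lit 47) (nat_lit 4) (nat_lit 49) (nat_lit 5) (nat_lit 49) (nat_lit 4) (nat_lit 493) (nat_lit 358) (nat_lit 349)) (XT.lf (nat_lit 0) (nat_lit 3130321292) (nat_lit 152) (nat_lit 14465144387) (nat_lit 0) (nat_lit 431878680) (nat_lit 45) (nat_lit 5) (nat_lit 47) (nat_lit 4) (nat_lit 45) (nat_lit 4) (nat_lit 494) (nat_lit 358) (nat_lit 348))))) (XT.nd (nat_lit 312) (nat_lit 304) (nat_lit 0) (XT.nd (nat_lit 156) (nat_lit 152) (nat_lit 0) (XT.nd (nat_lit 78) (nat_lit 76) (nat_lit 0) (XT.lf (nat_lit 0) (nat_lit 9685588143) (nat_lit 152) (nat_lit 1920393063) (nat_lit 0) (nat_lit 6758614933) (nat_lit 45) (nat_lit 5) (nat_lit 47) (nat_lit 4) (nat_lit 45) (nat_lit 4) (nat_lit 495) (nat_lit 358) (nat_lit 347)) (XT.lf (nat_lit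 0) (nat_lit 10990403595) (nat_lit 76) (nat_lit 5435382685) (nat_lit 76) (nat_lit 2286535107) (nat_lit 44) (nat_lit 4) (nat_lit 45) (nat_lit 5) (nat_lit 45) (nat_lit 4) (nat_lit 496) (nat_lit 358) (nat_lit 346))) (XT.nd (nat_lit 78) (nat_lit 0) (nat_lit 0) (XT.lf (nat_lit 0) (nat_lit 4174021791) (nat_lit 152) (nat_lit 13988665556) (nat_lit 0) (nat_lit 907750350) (nat_lit 42) (nat_lit 5) (nat_lit 44) (nat_lit 4) (nat_lit 42) (nat_lit 4) (nat_lit 497) (nat_lit 358) (nat_lit 345)) (XT.lf (nat_lit 0) (nat_lit 10798003509) (nat_lit 152) (nat_lit 1311466035) (nat_lit 0) (nat_lit 7328685591) (nat_lit 42) (nat_lit 5) (nat_lit 44) (nat_lit 4) (nat_lit 42) (nat_lit 4) (nat_lit 498) (nat_lit 358) (nat_lit 344)))) (XT.nd (nat_lit 156) (nat_lit 76) (nat_lit 0) (XT.nd (nat_lit 78) (nat_lit 152) (nat_lit 0) (XT.lf (nat_lit 0) (nat_lit 11756880525) (nat_lit 76) (nat_lit 5863247474) (nat_lit 76) (nat_lit 2196797055) (nat_lit 41)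 (nat_lit 4) (nat_lit 42) (nat_lit 5) (nat_lit 42) (nat_lit 4) (nat_lit 499) (nat_lit 358) (nat_lit 343)) (XT.lf (nat_lit 0) (nat_lit 4305428861) (nat_lit 152) (nat_lit 15341834077) (nat_lit 0) (nat_lit 559951971) (nat_lit 39) (nat_lit 5) (nat_lit 41) (nat_lit 4) (nat_lit 39) (nat_lit 4) (nat_lit 500) (nat_lit 358) (nat_lit 342))) (XT.nd (nat_lit 78) (nat_lit 76) (nat_lit 0) (XT.lf (nat_lit 0) (nat_lit 10985558260) (nat_lit 152) (nat_lit 2562519122) (nat_lit 0) (nat_lit 7059677205) (nat_lit 39) (nat_lit 5) (nat_lit 41) (nat_lit 4) (nat_lit 39) (nat_lit 4) (nat_lit 501) (nat_lit 358) (nat_lit 341)) (XT.lf (nat_lit 0) (nat_lit 10594354856) (nat_lit 76) (nat_lit 7263616590) (nat_lit 76) (nat_lit 3162585860) (nat_lit 38) (nat_lit 4) (nat_lit 39) (nat_lit 5) (nat_lit 39) (nat_lit 4) (nat_lit 502) (nat_lit 358) (nat_lit 340))))))) (XT.nd (nat_lit 1170) (nat_lit 684) (nat_lit 0) (XT.nd (nat_lit 546) (nat_lit 456) (nat_lit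 0) (XT.nd (nat_lit 234) (nat_lit 228) (nat_lit 0) (XT.nd (nat_lit 78) (nat_lit 76) (nat_lit 0) (XT.lf (nat_lit 0) (nat_lit 2556918961) (nat_lit 76) (nat_lit 806626811) (nat_lit 152) (nat_lit 18082969188) (nat_lit 36) (nat_lit 5) (nat_lit 37) (nat_lit 5) (nat_lit 38) (nat_lit 4) (nat_lit 503) (nat_lit 358) (nat_lit 339)) (XT.nd (nat_lit 78) (nat_lit 76) (nat_lit 0) (XT.lf (nat_lit 0) (nat_lit 10074736023) (nat_lit 152) (nat_lit 6040223065) (nat_lit 0) (nat_lit 5767770660) (nat_lit 36) (nat_lit 5) (nat_lit 38) (nat_lit 4) (nat_lit 36) (nat_lit 4) (nat_lit 504) (nat_lit 358) (nat_lit 338)) (XT.lf (nat_lit 0) (nat_lit 7118900585) (nat_lit 76) (nat_lit 9838309213) (nat_lit 76) (nat_lit 5375725634) (nat_lit 35) (nat_lit 4) (nat_lit 36) (nat_lit 5) (nat_lit 36) (nat_lit 4) (nat_lit 505) (nat_lit 358) (nat_lit 337)))) (XT.nd (nat_lit 156) (nat_lit 76) (nat_lit 0) (XT.nd (nat_lit 78) (nat_lit 76) (nat_lit 0) (XT.lf (nat_lit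 0) (nat_lit 1180344875) (nat_lit 152) (nat_lit 2217569129) (nat_lit 76) (nat_lit 19399719166) (nat_lit 34) (nat_lit 5) (nat_lit 36) (nat_lit 5) (nat_lit 35) (nat_lit 4) (nat_lit 506) (nat_lit 358) (nat_lit 336)) (XT.lf (nat_lit 0) (nat_lit 7860529112) (nat_lit 152) (nat_lit 12174258383) (nat_lit 0) (nat_lit 3238825887) (nat_lit 33) (nat_lit 5) (nat_lit 35) (nat_lit 4) (nat_lit 33) (nat_lit 4) (nat_lit 507) (nat_lit 358) (nat_lit 335))) (XT.nd (nat_lit 78) (nat_lit 0) (nat_lit 0) (XT.lf (nat_lit 0) (nat_lit 880456927) (nat_lit 76) (nat_lit 13822269207) (nat_lit 76) (nat_lit 9062301211) (nat_lit 32) (nat_lit 4) (nat_lit 33) (nat_lit 5) (nat_lit 33) (nat_lit 4) (nat_lit 508) (nat_lit 358) (nat_lit 334)) (XT.lf (nat_lit 0) (nat_lit 14377440527) (nat_lit 76) (nat_lit 7393661963) (nat_lit 76) (nat_lit 2499456326) (nat_lit 32) (nat_lit 4) (nat_lit 33) (nat_lit 5) (nat_lit 33) (nat_lit 4) (nat_lit 509) (nat_lit 358) (nat_lit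 333))))) (XT.nd (nat_lit 312) (nat_lit 228) (nat_lit 0) (XT.nd (nat_lit 156) (nat_lit 76) (nat_lit 0) (XT.nd (nat_lit 78) (nat_lit 0) (nat_lit 0) (XT.lf (nat_lit 0) (nat_lit 3316713496) (nat_lit 76) (nat_lit 792275144) (nat_lit 152) (nat_lit 20683085926) (nat_lit 30) (nat_lit 5) (nat_lit 31) (nat_lit 5) (nat_lit 32) (nat_lit 4) (nat_lit 510) (nat_lit 358) (nat_lit 332)) (XT.lf (nat_lit 0) (nat_lit 10924201118) (nat_lit 152) (nat_lit 8479365161) (nat_lit 0) (nat_lit 5923166851) (nat_lit 30) (nat_lit 5) (nat_lit 32) (nat_lit 4) (nat_lit 30) (nat_lit 4) (nat_lit 511) (nat_lit 358) (nat_lit 331))) (XT.nd (nat_lit 78) (nat_lit 0) (nat_lit 0) (XT.lf (nat_lit 0) (nat_lit 4802788721) (nat_lit 76) (nat_lit 13098118253) (nat_lit 76) (nat_lit 7977815581) (nat_lit 29) (nat_lit 4) (nat_lit 30) (nat_lit 5) (nat_lit 30) (nat_lit 4) (nat_lit 512) (nat_lit 358) (nat_lit 330)) (XT.lf (nat_lit 0) (nat_lit 18469487386) (nat_lit 76)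 (nat_lit 6607096779) (nat_lit 76) (nat_lit 1370999539) (nat_lit 29) (nat_lit 4) (nat_lit 30) (nat_lit 5) (nat_lit 30) (nat_lit 4) (nat_lit 513) (nat_lit 358) (nat_lit 329)))) (XT.nd (nat_lit 156) (nat_lit 76) (nat_lit 0) (XT.nd (nat_lit 78) (nat_lit 0) (nat_lit 0) (XT.lf (nat_lit 0) (nat_lit 5286547343) (nat_lit 152) (nat_lit 21652831103) (nat_lit 0) (nat_lit 93810303) (nat_lit 27) (nat_lit 5) (nat_lit 29) (nat_lit 4) (nat_lit 27) (nat_lit 4) (nat_lit 514) (nat_lit 358) (nat_lit 328)) (XT.lf (nat_lit 0) (nat_lit 12169087770) (nat_lit 152) (nat_lit 8594901931) (nat_lit 0) (nat_lit 6870382296) (nat_lit 27) (nat_lit 5) (nat_lit 29) (nat_lit 4) (nat_lit 27) (nat_lit 4) (nat_lit 515) (nat_lit 358) (nat_lit 327))) (XT.nd (nat_lit 78) (nat_lit 0) (nat_lit 0) (XT.lf (nat_lit 0) (nat_lit 4768914536) (nat_lit 76) (nat_lit 14443813428) (nat_lit 76) (nat_lit 9042225980) (nat_lit 26) (nat_lit 4) (nat_lit 27) (nat_lit 5) (nat_lit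 27) (nat_lit 4) (nat_lit 516) (nat_lit 358) (nat_lit 326)) (XT.lf (nat_lit 0) (nat_lit 18532677295) (nat_lit 76) (nat_lit 7931527472) (nat_lit 76) (nat_lit 2430054612) (nat_lit 26) (nat_lit 4) (nat_lit 27) (nat_lit 5) (nat_lit 27) (nat_lit 4) (nat_lit 517) (nat_lit 358) (nat_lit 325)))))) (XT.nd (nat_lit 546) (nat_lit 304) (nat_lit 0) (XT.nd (nat_lit 234) (nat_lit 228) (nat_lit 0) (XT.nd (nat_lit 78) (nat_lit 0) (nat_lit 0) (XT.lf (nat_lit 0) (nat_lit 2999269062) (nat_lit 76) (nat_lit 1236060026) (nat_lit 152) (nat_lit 25317943615) (nat_lit 24) (nat_lit 5) (nat_lit 25) (nat_lit 5) (nat_lit 26) (nat_lit 4) (nat_lit 518) (nat_lit 358) (nat_lit 324)) (XT.nd (nat_lit 78) (nat_lit 0) (nat_lit 0) (XT.lf (nat_lit 0) (nat_lit 11123517471) (nat_lit 152) (nat_lit 13508947504) (nat_lit 0) (nat_lit 5596720803) (nat_lit 24) (nat_lit 5) (nat_lit 26) (nat_lit 4) (nat_lit 24) (nat_lit 4) (nat_lit 519) (nat_lit 358) (nat_lit 323))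 (XT.lf (nat_lit 0) (nat_lit 18144771521) (nat_lit 152) (nat_lit 253585812) (nat_lit 0) (nat_lit 12529227958) (nat_lit 24) (nat_lit 5) (nat_lit 26) (nat_lit 4) (nat_lit 24) (nat_lit 4) (nat_lit 520) (nat_lit 358) (nat_lit 322)))) (XT.nd (nat_lit 156) (nat_lit 76) (nat_lit 0) (XT.nd (nat_lit 78) (nat_lit 76) (nat_lit 0) (XT.lf (nat_lit 0) (nat_lit 13498958862) (nat_lit 76) (nat_lit 11924145936) (nat_lit 76) (nat_lit 6222440340) (nat_lit 23) (nat_lit 4) (nat_lit 24) (nat_lit 5) (nat_lit 24) (nat_lit 4) (nat_lit 521) (nat_lit 358) (nat_lit 321)) (XT.lf (nat_lit 0) (nat_lit 443625838) (nat_lit 152) (nat_lit 4884797604) (nat_lit 76) (nat_lit 27058888147) (nat_lit 22) (nat_lit 5) (nat_lit 24) (nat_lit 5) (nat_lit 23) (nat_lit 4) (nat_lit 522) (nat_lit 358) (nat_lit 320))) (XT.nd (nat_lit 78) (nat_lit 0) (nat_lit 0) (XT.lf (nat_lit 0) (nat_lit 7202399655) (nat_lit 152) (nat_lit 24439854169) (nat_lit 0) (nat_lit 1506696706)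 (nat_lit 21) (nat_lit 5) (nat_lit 23) (nat_lit 4) (nat_lit 21) (nat_lit 4) (nat_lit 523) (nat_lit 358) (nat_lit 319)) (XT.lf (nat_lit 0) (nat_lit 14185757913) (nat_lit 152) (nat_lit 11333526396) (nat_lit 0) (nat_lit 8413501114) (nat_lit 21) (nat_lit 5) (nat_lit 23) (nat_lit 4) (nat_lit 21) (nat_lit 4) (nat_lit 524) (nat_lit 358) (nat_lit 318))))) (XT.nd (nat_lit 312) (nat_lit 76) (nat_lit 0) (XT.nd (nat_lit 156) (nat_lit 152) (nat_lit 0) (XT.nd (nat_lit 78) (nat_lit 0) (nat_lit 0) (XT.lf (nat_lit 0) (nat_lit 2051396866) (nat_lit 76) (nat_lit 19268540593) (nat_lit 76) (nat_lit 13421959666) (nat_lit 20) (nat_lit 4) (nat_lit 21) (nat_lit 5) (nat_lit 21) (nat_lit 4) (nat_lit 525) (nat_lit 358) (nat_lit 317)) (XT.lf (nat_lit 0) (nat_lit 15917085449) (nat_lit 76) (nat_lit 12787916280) (nat_lit 76) (nat_lit 6869176007) (nat_lit 20) (nat_lit 4) (nat_lit 21) (nat_lit 5) (nat_lit 21) (nat_lit 4) (nat_lit 526) (nat_lit 358)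 (nat_lit 316))) (XT.nd (nat_lit 78) (nat_lit 152) (nat_lit 0) (XT.lf (nat_lit 0) (nat_lit 30050095603) (nat_lit 76) (nat_lit 6186195085) (nat_lit 76) (nat_lit 197397194) (nat_lit 20) (nat_lit 4) (nat_lit 21) (nat_lit 5) (nat_lit 21) (nat_lit 4) (nat_lit 527) (nat_lit 358) (nat_lit 315)) (XT.lf (nat_lit 0) (nat_lit 6546354884) (nat_lit 152) (nat_lit 30104690984) (nat_lit 0) (nat_lit 665951975) (nat_lit 18) (nat_lit 5) (nat_lit 20) (nat_lit 4) (nat_lit 18) (nat_lit 4) (nat_lit 528) (nat_lit 358) (nat_lit 314)))) (XT.nd (nat_lit 156) (nat_lit 76) (nat_lit 0) (XT.nd (nat_lit 78) (nat_lit 0) (nat_lit 0) (XT.lf (nat_lit 0) (nat_lit 13541021399) (nat_lit 152) (nat_lit 17087645333) (nat_lit 0) (nat_lit 7596505845) (nat_lit 18) (nat_lit 5) (nat_lit 20) (nat_lit 4) (nat_lit 18) (nat_lit 4) (nat_lit 529) (nat_lit 358) (nat_lit 313)) (XT.lf (nat_lit 0) (nat_lit 20673896750) (nat_lit 152) (nat_lit 3821709984) (nat_lit 0) (nat_lit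 14667135909) (nat_lit 18) (nat_lit 5) (nat_lit 20) (nat_lit 4) (nat_lit 18) (nat_lit 4) (nat_lit 530) (nat_lit 358) (nat_lit 312))) (XT.nd (nat_lit 78) (nat_lit 0) (nat_lit 0) (XT.lf (nat_lit 0) (nat_lit 9897849348) (nat_lit 76) (nat_lit 18148508380) (nat_lit 76) (nat_lit 12081315223) (nat_lit 17) (nat_lit 4) (nat_lit 18) (nat_lit 5) (nat_lit 18) (nat_lit 4) (nat_lit 531) (nat_lit 358) (nat_lit 311)) (XT.lf (nat_lit 0) (nat_lit 23971188009) (nat_lit 76) (nat_lit 11638568322) (nat_lit 76) (nat_lit 5512703012) (nat_lit 17) (nat_lit 4) (nat_lit 18) (nat_lit 5) (nat_lit 18) (nat_lit 4) (nat_lit 532) (nat_lit 358) (nat_lit 310))))))))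
noncomputable def xc21 : XT := (XT.nd (nat_lit 59124) (nat_lit 0) (nat_lit 1216) (XT.nd (nat_lit 1170) (nat_lit 228) (nat_lit 0) (XT.nd (nat_lit 546) (nat_lit 228) (nat_lit 0) (XT.nd (nat_lit 234) (nat_lit 76) (nat_lit 0) (XT.nd (nat_lit 78) (nat_lit 76) (nat_lit 0) (XT.lf (nat_lit 0) (nat_lit 1161031717) (nat_lit 152) (nat_lit 3825934178) (nat_lit 76) (nat_lit 37161787707) (nat_lit 16) (nat_lit 5) (nat_lit 18) (nat_lit 5) (nat_lit 17) (nat_lit 4) (nat_lit 533) (nat_lit 358) (nat_lit 309)) (XT.nd (nat_lit 78) (nat_lit 0) (nat_lit 0) (XT.lf (nat_lit 0) (nat_lit 7972689599) (nat_lit 152) (nat_lit 33313805228) (nat_lit 0) (nat_lit 1916250090) (nat_lit 15) (nat_lit 5) (nat_lit 17) (nat_lit 4) (nat_lit 15) (nat_lit 4) (nat_lit 534) (nat_lit 358) (nat_lit 308)) (XT.lf (nat_lit 0) (nat_lit 15011633551) (nat_lit 152) (nat_lit 20372970704) (nat_lit 0) (nat_lit 8903064594) (nat_lit 15) (nat_lit 5) (nat_lit 17) (nat_lit 4)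 (nat_lit 15) (nat_lit 4) (nat_lit 535) (nat_lit 358) (nat_lit 307)))) (XT.nd (nat_lit 156) (nat_lit 0) (nat_lit 0) (XT.nd (nat_lit 78) (nat_lit 76) (nat_lit 0) (XT.lf (nat_lit 0) (nat_lit 22198195803) (nat_lit 152) (nat_lit 7169836405) (nat_lit 0) (nat_lit 16039015732) (nat_lit 15) (nat_lit 5) (nat_lit 17) (nat_lit 4) (nat_lit 15) (nat_lit 4) (nat_lit 536) (nat_lit 358) (nat_lit 306)) (XT.lf (nat_lit 0) (nat_lit 6432658729) (nat_lit 76) (nat_lit 23167831796) (nat_lit 76) (nat_lit 16959514721) (nat_lit 14) (nat_lit 4) (nat_lit 15) (nat_lit 5) (nat_lit 15) (nat_lit 4) (nat_lit 537) (nat_lit 358) (nat_lit 305))) (XT.nd (nat_lit 78) (nat_lit 0) (nat_lit 0) (XT.lf (nat_lit 0) (nat_lit 20469144404) (nat_lit 76) (nat_lit 16767045294) (nat_lit 76) (nat_lit 10511022389) (nat_lit 14) (nat_lit 4) (nat_lit 15) (nat_lit 5) (nat_lit 15) (nat_lit 4) (nat_lit 538) (nat_lit 358) (nat_lit 304)) (XT.lf (nat_lit 0) (nat_lit 34809191707)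 (nat_lit 76) (nat_lit 10232481071) (nat_lit 76) (nat_lit 3930141828) (nat_lit 14) (nat_lit 4) (nat_lit 15) (nat_lit 5) (nat_lit 15) (nat_lit 4) (nat_lit 539) (nat_lit 358) (nat_lit 303))))) (XT.nd (nat_lit 312) (nat_lit 76) (nat_lit 0) (XT.nd (nat_lit 156) (nat_lit 0) (nat_lit 0) (XT.nd (nat_lit 78) (nat_lit 76) (nat_lit 0) (XT.lf (nat_lit 0) (nat_lit 2734456207) (nat_lit 152) (nat_lit 796360460) (nat_lit 76) (nat_lit 46703261921) (nat_lit 13) (nat_lit 5) (nat_lit 15) (nat_lit 5) (nat_lit 14) (nat_lit 4) (nat_lit 540) (nat_lit 358) (nat_lit 302)) (XT.lf (nat_lit 0) (nat_lit 9622758519) (nat_lit 152) (nat_lit 38489263688) (nat_lit 0) (nat_lit 3417938953) (nat_lit 12) (nat_lit 5) (nat_lit 14) (nat_lit 4) (nat_lit 12) (nat_lit 4) (nat_lit 541) (nat_lit 358) (nat_lit 301))) (XT.nd (nat_lit 78) (nat_lit 0) (nat_lit 0) (XT.lf (nat_lit 0) (nat_lit 16704402306) (nat_lit 152) (nat_lit 25702286622) (nat_lit 0) (nat_lit 10458431272)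 (nat_lit 12) (nat_lit 5) (nat_lit 14) (nat_lit 4) (nat_lit 12) (nat_lit 4) (nat_lit 542) (nat_lit 358) (nat_lit 300)) (XT.lf (nat_lit 0) (nat_lit 23943750284) (nat_lit 152) (nat_lit 12640400453) (nat_lit 0) (nat_lit 17657826369) (nat_lit 12) (nat_lit 5) (nat_lit 14) (nat_lit 4) (nat_lit 12) (nat_lit 4) (nat_lit 543) (nat_lit 358) (nat_lit 299)))) (XT.nd (nat_lit 156) (nat_lit 0) (nat_lit 0) (XT.nd (nat_lit 78) (nat_lit 0) (nat_lit 0) (XT.lf (nat_lit 0) (nat_lit 721894886) (nat_lit 76) (nat_lit 30632172505) (nat_lit 76) (nat_lit 24307459386) (nat_lit 11) (nat_lit 4) (nat_lit 12) (nat_lit 5) (nat_lit 12) (nat_lit 4) (nat_lit 544) (nat_lit 358) (nat_lit 298)) (XT.lf (nat_lit 0) (nat_lit 14639675369) (nat_lit 76) (nat_lit 24422054862) (nat_lit 76) (nat_lit 18059682321) (nat_lit 11) (nat_lit 4) (nat_lit 12) (nat_lit 5) (nat_lit 12) (nat_lit 4) (nat_lit 545) (nat_lit 358) (nat_lit 297))) (XT.nd (nat_lit 78) (nat_lit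 0) (nat_lit 0) (XT.lf (nat_lit 0) (nat_lit 28873533408) (nat_lit 76) (nat_lit 18076014750) (nat_lit 76) (nat_lit 11677079663) (nat_lit 11) (nat_lit 4) (nat_lit 12) (nat_lit 5) (nat_lit 12) (nat_lit 4) (nat_lit 546) (nat_lit 358) (nat_lit 296)) (XT.lf (nat_lit 0) (nat_lit 43435906354) (nat_lit 76) (nat_lit 11588507086) (nat_lit 76) (nat_lit 5154074382) (nat_lit 11) (nat_lit 4) (nat_lit 12) (nat_lit 5) (nat_lit 12) (nat_lit 4) (nat_lit 547) (nat_lit 358) (nat_lit 295)))))) (XT.nd (nat_lit 57330) (nat_lit 0) (nat_lit 3420) (XT.nd (nat_lit 234) (nat_lit 76) (nat_lit 0) (XT.nd (nat_lit 78) (nat_lit 76) (nat_lit 0) (XT.lf (nat_lit 0) (nat_lit 1485469480) (nat_lit 152) (nat_lit 3453393364) (nat_lit 76) (nat_lit 56839048802) (nat_lit 10) (nat_lit 5) (nat_lit 12) (nat_lit 5) (nat_lit 11) (nat_lit 4) (nat_lit 548) (nat_lit 358) (nat_lit 294)) (XT.nd (nat_lit 78) (nat_lit 0) (nat_lit 0) (XT.lf (nat_lit 0) (nat_lit 8291721525)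 (nat_lit 152) (nat_lit 53151178713) (nat_lit 0) (nat_lit 1978754226) (nat_lit 9) (nat_lit 5) (nat_lit 11) (nat_lit 4) (nat_lit 9) (nat_lit 4) (nat_lit 549) (nat_lit 358) (nat_lit 293)) (XT.lf (nat_lit 0) (nat_lit 15339113081) (nat_lit 152) (nat_lit 40779881905) (nat_lit 0) (nat_lit 8994606609) (nat_lit 9) (nat_lit 5) (nat_lit 11) (nat_lit 4) (nat_lit 9) (nat_lit 4) (nat_lit 550) (nat_lit 358) (nat_lit 292)))) (XT.nd (nat_lit 156) (nat_lit 76) (nat_lit 0) (XT.nd (nat_lit 78) (nat_lit 0) (nat_lit 0) (XT.lf (nat_lit 0) (nat_lit 22552134676) (nat_lit 152) (nat_lit 28128539134) (nat_lit 0) (nat_lit 16177007648) (nat_lit 9) (nat_lit 5) (nat_lit 11) (nat_lit 4) (nat_lit 9) (nat_lit 4) (nat_lit 551) (nat_lit 358) (nat_lit 291)) (XT.lf (nat_lit 0) (nat_lit 29937088952) (nat_lit 152) (nat_lit 15186095827) (nat_lit 0) (nat_lit 23532233228) (nat_lit 9) (nat_lit 5) (nat_lit 11) (nat_lit 4) (nat_lit 9) (nat_lit 4) (nat_lit 552)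 (nat_lit 358) (nat_lit 290))) (XT.nd (nat_lit 78) (nat_lit 76) (nat_lit 0) (XT.lf (nat_lit 0) (nat_lit 37500428781) (nat_lit 152) (nat_lit 1941243054) (nat_lit 0) (nat_lit 31066710246) (nat_lit 9) (nat_lit 5) (nat_lit 11) (nat_lit 4) (nat_lit 9) (nat_lit 4) (nat_lit 553) (nat_lit 358) (nat_lit 289)) (XT.lf (nat_lit 0) (nat_lit 11848805224) (nat_lit 76) (nat_lit 33513855646) (nat_lit 76) (nat_lit 27052114964) (nat_lit 8) (nat_lit 4) (nat_lit 9) (nat_lit 5) (nat_lit 9) (nat_lit 4) (nat_lit 554) (nat_lit 358) (nat_lit 288))))) (XT.nd (nat_lit 312) (nat_lit 456) (nat_lit 0) (XT.nd (nat_lit 156) (nat_lit 304) (nat_lit 0) (XT.nd (nat_lit 78) (nat_lit 0) (nat_lit 0) (XT.lf (nat_lit 0) (nat_lit 165339103) (nat_lit 152) (nat_lit 3575681654) (nat_lit 152) (nat_lit 3575681654) (nat_lit 63) (nat_lit 4) (nat_lit 65) (nat_lit 5) (nat_lit 65) (nat_lit 4) (nat_lit 482) (nat_lit 359) (nat_lit 359)) (XT.lf (nat_lit 0) (nat_lit 12422123133)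 (nat_lit 152) (nat_lit 1410771517) (nat_lit 152) (nat_lit 1044046995) (nat_lit 63) (nat_lit 4) (nat_lit 65) (nat_lit 5) (nat_lit 65) (nat_lit 4) (nat_lit 483) (nat_lit 359) (nat_lit 358))) (XT.nd (nat_lit 78) (nat_lit 152) (nat_lit 0) (XT.lf (nat_lit 0) (nat_lit 5153597435) (nat_lit 152) (nat_lit 5520514803) (nat_lit 0) (nat_lit 4451881175) (nat_lit 61) (nat_lit 5) (nat_lit 63) (nat_lit 4) (nat_lit 61) (nat_lit 4) (nat_lit 484) (nat_lit 359) (nat_lit 357)) (XT.lf (nat_lit 0) (nat_lit 6563263052) (nat_lit 152) (nat_lit 4928501801) (nat_lit 152) (nat_lit 3891180653) (nat_lit 59) (nat_lit 4) (nat_lit 61) (nat_lit 5) (nat_lit 61) (nat_lit 4) (nat_lit 485) (nat_lit 359) (nat_lit 356)))) (XT.nd (nat_lit 156) (nat_lit 304) (nat_lit 0) (XT.nd (nat_lit 78) (nat_lit 0) (nat_lit 0) (XT.lf (nat_lit 0) (nat_lit 2297234529) (nat_lit 152) (nat_lit 12376774743) (nat_lit 0) (nat_lit 973786823) (nat_lit 57) (nat_lit 5) (nat_lit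 59) (nat_lit 4) (nat_lit 57) (nat_lit 4) (nat_lit 486) (nat_lit 359) (nat_lit 355)) (XT.lf (nat_lit 0) (nat_lit 8605885587) (nat_lit 152) (nat_lit 337860877) (nat_lit 0) (nat_lit 6975311868) (nat_lit 57) (nat_lit 5) (nat_lit 59) (nat_lit 4) (nat_lit 57) (nat_lit 4) (nat_lit 487) (nat_lit 359) (nat_lit 354))) (XT.nd (nat_lit 78) (nat_lit 152) (nat_lit 0) (XT.lf (nat_lit 0) (nat_lit 12067629284) (nat_lit 152) (nat_lit 3029888673) (nat_lit 152) (nat_lit 1101134358) (nat_lit 55) (nat_lit 4) (nat_lit 57) (nat_lit 5) (nat_lit 57) (nat_lit 4) (nat_lit 488) (nat_lit 359) (nat_lit 353)) (XT.lf (nat_lit 0) (nat_lit 5184202452) (nat_lit 152) (nat_lit 8270638446) (nat_lit 0) (nat_lit 3030561636) (nat_lit 53) (nat_lit 5) (nat_lit 55) (nat_lit 4) (nat_lit 53) (nat_lit 4) (nat_lit 489) (nat_lit 359) (nat_lit 352))))))) (XT.nd (nat_lit 1170) (nat_lit 912) (nat_lit 0) (XT.nd (nat_lit 546) (nat_lit 608) (nat_lit 0) (XT.nd (nat_lit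 234) (nat_lit 380) (nat_lit 0) (XT.nd (nat_lit 78) (nat_lit 152) (nat_lit 0) (XT.lf (nat_lit 0) (nat_lit 4043091044) (nat_lit 152) (nat_lit 7582092023) (nat_lit 152) (nat_lit 5155573721) (nat_lit 51) (nat_lit 4) (nat_lit 53) (nat_lit 5) (nat_lit 53) (nat_lit 4) (nat_lit 490) (nat_lit 359) (nat_lit 351)) (XT.nd (nat_lit 78) (nat_lit 76) (nat_lit 0) (XT.lf (nat_lit 0) (nat_lit 1114226844) (nat_lit 228) (nat_lit 429567404) (nat_lit 76) (nat_lit 15541961837) (nat_lit 50) (nat_lit 5) (nat_lit 53) (nat_lit 5) (nat_lit 51) (nat_lit 4) (nat_lit 491) (nat_lit 359) (nat_lit 350)) (XT.lf (nat_lit 0) (nat_lit 7513393958) (nat_lit 152) (nat_lit 5233021651) (nat_lit 0) (nat_lit 4650616191) (nat_lit 49) (nat_lit 5) (nat_lit 51) (nat_lit 4) (nat_lit 49) (nat_lit 4) (nat_lit 492) (nat_lit 359) (nat_lit 349)))) (XT.nd (nat_lit 156) (nat_lit 76) (nat_lit 0) (XT.nd (nat_lit 78) (nat_lit 152) (nat_lit 0) (XT.lf (nat_lit 0) (nat_lit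 7330055167) (nat_lit 152) (nat_lit 6746825332) (nat_lit 152) (nat_lit 3641599453) (nat_lit 47) (nat_lit 4) (nat_lit 49) (nat_lit 5) (nat_lit 49) (nat_lit 4) (nat_lit 493) (nat_lit 359) (nat_lit 348)) (XT.lf (nat_lit 0) (nat_lit 2118852140) (nat_lit 76) (nat_lit 570539256) (nat_lit 152) (nat_lit 15360697798) (nat_lit 45) (nat_lit 5) (nat_lit 46) (nat_lit 5) (nat_lit 47) (nat_lit 4) (nat_lit 494) (nat_lit 359) (nat_lit 347))) (XT.nd (nat_lit 78) (nat_lit 76) (nat_lit 0) (XT.lf (nat_lit 0) (nat_lit 9181354564) (nat_lit 152) (nat_lit 3491720355) (nat_lit 0) (nat_lit 5716167192) (nat_lit 45) (nat_lit 5) (nat_lit 47) (nat_lit 4) (nat_lit 45) (nat_lit 4) (nat_lit 495) (nat_lit 359) (nat_lit 346)) (XT.lf (nat_lit 0) (nat_lit 9278170291) (nat_lit 76) (nat_lit 6570788122) (nat_lit 76) (nat_lit 2890188744) (nat_lit 44) (nat_lit 4) (nat_lit 45) (nat_lit 5) (nat_lit 45) (nat_lit 4) (nat_lit 496) (nat_lit 359) (nat_lit 345)))))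 (XT.nd (nat_lit 312) (nat_lit 228) (nat_lit 0) (XT.nd (nat_lit 156) (nat_lit 228) (nat_lit 0) (XT.nd (nat_lit 78) (nat_lit 0) (nat_lit 0) (XT.lf (nat_lit 0) (nat_lit 3213488268) (nat_lit 76) (nat_lit 285637602) (nat_lit 152) (nat_lit 15600804183) (nat_lit 42) (nat_lit 5) (nat_lit 43) (nat_lit 5) (nat_lit 44) (nat_lit 4) (nat_lit 497) (nat_lit 359) (nat_lit 344)) (XT.lf (nat_lit 0) (nat_lit 10064405705) (nat_lit 152) (nat_lit 3314175374) (nat_lit 0) (nat_lit 6090829271) (nat_lit 42) (nat_lit 5) (nat_lit 44) (nat_lit 4) (nat_lit 42) (nat_lit 4) (nat_lit 498) (nat_lit 359) (nat_lit 343))) (XT.nd (nat_lit 78) (nat_lit 152) (nat_lit 0) (XT.lf (nat_lit 0) (nat_lit 9607690185) (nat_lit 76) (nat_lit 7203854308) (nat_lit 76) (nat_lit 3038887097) (nat_lit 41) (nat_lit 4) (nat_lit 42) (nat_lit 5) (nat_lit 42) (nat_lit 4) (nat_lit 499) (nat_lit 359) (nat_lit 342)) (XT.lf (nat_lit 0) (nat_lit 2546473064) (nat_lit 76) (nat_lit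 851190268) (nat_lit 152) (nat_lit 16845765832) (nat_lit 39) (nat_lit 5) (nat_lit 40) (nat_lit 5) (nat_lit 41) (nat_lit 4) (nat_lit 500) (nat_lit 359) (nat_lit 341)))) (XT.nd (nat_lit 156) (nat_lit 152) (nat_lit 0) (XT.nd (nat_lit 78) (nat_lit 76) (nat_lit 0) (XT.lf (nat_lit 0) (nat_lit 10015443321) (nat_lit 152) (nat_lit 5014165608) (nat_lit 0) (nat_lit 5616231996) (nat_lit 39) (nat_lit 5) (nat_lit 41) (nat_lit 4) (nat_lit 39) (nat_lit 4) (nat_lit 501) (nat_lit 359) (nat_lit 340)) (XT.lf (nat_lit 0) (nat_lit 7990235710) (nat_lit 76) (nat_lit 8819998850) (nat_lit 76) (nat_lit 4250739297) (nat_lit 38) (nat_lit 4) (nat_lit 39) (nat_lit 5) (nat_lit 39) (nat_lit 4) (nat_lit 502) (nat_lit 359) (nat_lit 339))) (XT.nd (nat_lit 78) (nat_lit 76) (nat_lit 0) (XT.lf (nat_lit 0) (nat_lit 2219505442) (nat_lit 152) (nat_lit 228758870) (nat_lit 76) (nat_lit 19041296082) (nat_lit 37) (nat_lit 5) (nat_lit 39) (nat_lit 5) (nat_lit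 38) (nat_lit 4) (nat_lit 503) (nat_lit 359) (nat_lit 338)) (XT.lf (nat_lit 0) (nat_lit 8860202146) (nat_lit 152) (nat_lit 8959566424) (nat_lit 0) (nat_lit 4108122842) (nat_lit 36) (nat_lit 5) (nat_lit 38) (nat_lit 4) (nat_lit 36) (nat_lit 4) (nat_lit 504) (nat_lit 359) (nat_lit 337)))))) (XT.nd (nat_lit 624) (nat_lit 380) (nat_lit 0) (XT.nd (nat_lit 312) (nat_lit 304) (nat_lit 0) (XT.nd (nat_lit 156) (nat_lit 152) (nat_lit 0) (XT.nd (nat_lit 78) (nat_lit 0) (nat_lit 0) (XT.lf (nat_lit 0) (nat_lit 4040651946) (nat_lit 76) (nat_lit 11621513399) (nat_lit 76) (nat_lit 6718348448) (nat_lit 35) (nat_lit 4) (nat_lit 36) (nat_lit 5) (nat_lit 36) (nat_lit 4) (nat_lit 505) (nat_lit 359) (nat_lit 336)) (XT.lf (nat_lit 0) (nat_lit 17415866005) (nat_lit 76) (nat_lit 5240527710) (nat_lit 76) (nat_lit 190677663) (nat_lit 35) (nat_lit 4) (nat_lit 36) (nat_lit 5) (nat_lit 36) (nat_lit 4) (nat_lit 506) (nat_lit 359) (nat_lit 335)))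 (XT.nd (nat_lit 78) (nat_lit 0) (nat_lit 0) (XT.lf (nat_lit 0) (nat_lit 6392901914) (nat_lit 152) (nat_lit 15581345580) (nat_lit 0) (nat_lit 1351870109) (nat_lit 33) (nat_lit 5) (nat_lit 35) (nat_lit 4) (nat_lit 33) (nat_lit 4) (nat_lit 507) (nat_lit 359) (nat_lit 334)) (XT.lf (nat_lit 0) (nat_lit 13177319956) (nat_lit 152) (nat_lit 2639895698) (nat_lit 0) (nat_lit 8002050509) (nat_lit 33) (nat_lit 5) (nat_lit 35) (nat_lit 4) (nat_lit 33) (nat_lit 4) (nat_lit 508) (nat_lit 359) (nat_lit 333)))) (XT.nd (nat_lit 156) (nat_lit 152) (nat_lit 0) (XT.nd (nat_lit 78) (nat_lit 76) (nat_lit 0) (XT.lf (nat_lit 0) (nat_lit 10709406263) (nat_lit 76) (nat_lit 9461615033) (nat_lit 76) (nat_lit 4156017779) (nat_lit 32) (nat_lit 4) (nat_lit 33) (nat_lit 5) (nat_lit 33) (nat_lit 4) (nat_lit 509) (nat_lit 359) (nat_lit 332)) (XT.lf (nat_lit 0) (nat_lit 2405027710) (nat_lit 152) (nat_lit 549922853) (nat_lit 76) (nat_lit 21896474850)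 (nat_lit 31) (nat_lit 5) (nat_lit 33) (nat_lit 5) (nat_lit 32) (nat_lit 4) (nat_lit 510) (nat_lit 359) (nat_lit 331))) (XT.nd (nat_lit 78) (nat_lit 76) (nat_lit 0) (XT.lf (nat_lit 0) (nat_lit 9146235685) (nat_lit 152) (nat_lit 12489013989) (nat_lit 0) (nat_lit 3753055528) (nat_lit 30) (nat_lit 5) (nat_lit 32) (nat_lit 4) (nat_lit 30) (nat_lit 4) (nat_lit 511) (nat_lit 359) (nat_lit 330)) (XT.lf (nat_lit 0) (nat_lit 620857996) (nat_lit 76) (nat_lit 15415504887) (nat_lit 76) (nat_lit 9906530161) (nat_lit 29) (nat_lit 4) (nat_lit 30) (nat_lit 5) (nat_lit 30) (nat_lit 4) (nat_lit 512) (nat_lit 359) (nat_lit 329))))) (XT.nd (nat_lit 312) (nat_lit 228) (nat_lit 0) (XT.nd (nat_lit 156) (nat_lit 0) (nat_lit 0) (XT.nd (nat_lit 78) (nat_lit 152) (nat_lit 0) (XT.lf (nat_lit 0) (nat_lit 14197768290) (nat_lit 76) (nat_lit 8968380158) (nat_lit 76) (nat_lit 3346983521) (nat_lit 29) (nat_lit 4) (nat_lit 30) (nat_lit 5) (nat_lit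 30) (nat_lit 4) (nat_lit 513) (nat_lit 359) (nat_lit 328)) (XT.lf (nat_lit 0) (nat_lit 887267418) (nat_lit 76) (nat_lit 2372738267) (nat_lit 152) (nat_lit 23841975616) (nat_lit 27) (nat_lit 5) (nat_lit 28) (nat_lit 5) (nat_lit 29) (nat_lit 4) (nat_lit 514) (nat_lit 359) (nat_lit 327))) (XT.nd (nat_lit 78) (nat_lit 0) (nat_lit 0) (XT.lf (nat_lit 0) (nat_lit 10074802841) (nat_lit 152) (nat_lit 13222109150) (nat_lit 0) (nat_lit 4408285796) (nat_lit 27) (nat_lit 5) (nat_lit 29) (nat_lit 4) (nat_lit 27) (nat_lit 4) (nat_lit 515) (nat_lit 359) (nat_lit 326)) (XT.lf (nat_lit 0) (nat_lit 17028975041) (nat_lit 152) (nat_lit 36917061) (nat_lit 0) (nat_lit 11262572584) (nat_lit 27) (nat_lit 5) (nat_lit 29) (nat_lit 4) (nat_lit 27) (nat_lit 4) (nat_lit 516) (nat_lit 359) (nat_lit 325)))) (XT.nd (nat_lit 156) (nat_lit 76) (nat_lit 0) (XT.nd (nat_lit 78) (nat_lit 76) (nat_lit 0) (XT.lf (nat_lit 0) (nat_lit 13641384176) (nat_lit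 76) (nat_lit 10595535689) (nat_lit 76) (nat_lit 4732157103) (nat_lit 26) (nat_lit 4) (nat_lit 27) (nat_lit 5) (nat_lit 27) (nat_lit 4) (nat_lit 517) (nat_lit 359) (nat_lit 324)) (XT.lf (nat_lit 0) (nat_lit 1906989611) (nat_lit 152) (nat_lit 2086341254) (nat_lit 76) (nat_lit 25637558917) (nat_lit 25) (nat_lit 5) (nat_lit 27) (nat_lit 5) (nat_lit 26) (nat_lit 4) (nat_lit 518) (nat_lit 359) (nat_lit 323))) (XT.nd (nat_lit 78) (nat_lit 0) (nat_lit 0) (XT.lf (nat_lit 0) (nat_lit 8705741599) (nat_lit 152) (nat_lit 18770760326) (nat_lit 0) (nat_lit 2832984834) (nat_lit 24) (nat_lit 5) (nat_lit 26) (nat_lit 4) (nat_lit 24) (nat_lit 4) (nat_lit 519) (nat_lit 359) (nat_lit 322)) (XT.lf (nat_lit 0) (nat_lit 15685951982) (nat_lit 152) (nat_lit 5596133204) (nat_lit 0) (nat_lit 9727033184) (nat_lit 24) (nat_lit 5) (nat_lit 26) (nat_lit 4) (nat_lit 24) (nat_lit 4) (nat_lit 520) (nat_lit 359) (nat_lit 321))))))))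
noncomputable def xc22 : XT := (XT.nd (nat_lit 2340) (nat_lit 76) (nat_lit 0) (XT.nd (nat_lit 1170) (nat_lit 456) (nat_lit 0) (XT.nd (nat_lit 546) (nat_lit 380) (nat_lit 0) (XT.nd (nat_lit 234) (nat_lit 76) (nat_lit 0) (XT.nd (nat_lit 78) (nat_lit 152) (nat_lit 0) (XT.lf (nat_lit 0) (nat_lit 7970141247) (nat_lit 76) (nat_lit 14901149415) (nat_lit 76) (nat_lit 8858578157) (nat_lit 23) (nat_lit 4) (nat_lit 24) (nat_lit 5) (nat_lit 24) (nat_lit 4) (nat_lit 521) (nat_lit 359) (nat_lit 320)) (XT.nd (nat_lit 78) (nat_lit 152) (nat_lit 0) (XT.lf (nat_lit 0) (nat_lit 21900561505) (nat_lit 76) (nat_lit 8348087617) (nat_lit 76) (nat_lit 2224300378) (nat_lit 23) (nat_lit 4) (nat_lit 24) (nat_lit 5) (nat_lit 24) (nat_lit 4) (nat_lit 522) (nat_lit 359) (nat_lit 319)) (XT.lf (nat_lit 0) (nat_lit 2867694095) (nat_lit 76) (nat_lit 1600449648) (nat_lit 152) (nat_lit 28770378853) (nat_lit 21) (nat_lit 5) (nat_lit 22) (nat_lit 5)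 (nat_lit 23) (nat_lit 4) (nat_lit 523) (nat_lit 359) (nat_lit 318)))) (XT.nd (nat_lit 156) (nat_lit 76) (nat_lit 0) (XT.nd (nat_lit 78) (nat_lit 0) (nat_lit 0) (XT.lf (nat_lit 0) (nat_lit 11397497431) (nat_lit 152) (nat_lit 17325285924) (nat_lit 0) (nat_lit 5301194949) (nat_lit 21) (nat_lit 5) (nat_lit 23) (nat_lit 4) (nat_lit 21) (nat_lit 4) (nat_lit 524) (nat_lit 359) (nat_lit 317)) (XT.lf (nat_lit 0) (nat_lit 18474462482) (nat_lit 152) (nat_lit 4054343965) (nat_lit 0) (nat_lit 12306000654) (nat_lit 21) (nat_lit 5) (nat_lit 23) (nat_lit 4) (nat_lit 21) (nat_lit 4) (nat_lit 525) (nat_lit 359) (nat_lit 316))) (XT.nd (nat_lit 78) (nat_lit 0) (nat_lit 0) (XT.lf (nat_lit 0) (nat_lit 9657429072) (nat_lit 76) (nat_lit 16125242196) (nat_lit 76) (nat_lit 9886722749) (nat_lit 20) (nat_lit 4) (nat_lit 21) (nat_lit 5) (nat_lit 21) (nat_lit 4) (nat_lit 526) (nat_lit 359) (nat_lit 315)) (XT.lf (nat_lit 0) (nat_lit 23719345876)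 (nat_lit 76) (nat_lit 9558588123) (nat_lit 76) (nat_lit 3252051572) (nat_lit 20) (nat_lit 4) (nat_lit 21) (nat_lit 5) (nat_lit 21) (nat_lit 4) (nat_lit 527) (nat_lit 359) (nat_lit 314))))) (XT.nd (nat_lit 312) (nat_lit 152) (nat_lit 0) (XT.nd (nat_lit 156) (nat_lit 76) (nat_lit 0) (XT.nd (nat_lit 78) (nat_lit 0) (nat_lit 0) (XT.lf (nat_lit 0) (nat_lit 622907040) (nat_lit 76) (nat_lit 2823142031) (nat_lit 152) (nat_lit 33971285705) (nat_lit 18) (nat_lit 5) (nat_lit 19) (nat_lit 5) (nat_lit 20) (nat_lit 4) (nat_lit 528) (nat_lit 359) (nat_lit 313)) (XT.lf (nat_lit 0) (nat_lit 10378291533) (nat_lit 152) (nat_lit 23820008687) (nat_lit 0) (nat_lit 4129082581) (nat_lit 18) (nat_lit 5) (nat_lit 20) (nat_lit 4) (nat_lit 18) (nat_lit 4) (nat_lit 529) (nat_lit 359) (nat_lit 312))) (XT.nd (nat_lit 78) (nat_lit 76) (nat_lit 0) (XT.lf (nat_lit 0) (nat_lit 17476908354) (nat_lit 152) (nat_lit 10621805736) (nat_lit 0) (nat_lit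 11167267085) (nat_lit 18) (nat_lit 5) (nat_lit 20) (nat_lit 4) (nat_lit 18) (nat_lit 4) (nat_lit 530) (nat_lit 359) (nat_lit 311)) (XT.lf (nat_lit 0) (nat_lit 2895350003) (nat_lit 76) (nat_lit 21853446314) (nat_lit 76) (nat_lit 15485132892) (nat_lit 17) (nat_lit 4) (nat_lit 18) (nat_lit 5) (nat_lit 18) (nat_lit 4) (nat_lit 531) (nat_lit 359) (nat_lit 310)))) (XT.nd (nat_lit 156) (nat_lit 152) (nat_lit 0) (XT.nd (nat_lit 78) (nat_lit 0) (nat_lit 0) (XT.lf (nat_lit 0) (nat_lit 16903573756) (nat_lit 76) (nat_lit 15375703289) (nat_lit 76) (nat_lit 8950426613) (nat_lit 17) (nat_lit 4) (nat_lit 18) (nat_lit 5) (nat_lit 18) (nat_lit 4) (nat_lit 532) (nat_lit 359) (nat_lit 309)) (XT.lf (nat_lit 0) (nat_lit 31203710958) (nat_lit 76) (nat_lit 8767084262) (nat_lit 76) (nat_lit 2286503455) (nat_lit 17) (nat_lit 4) (nat_lit 18) (nat_lit 5) (nat_lit 18) (nat_lit 4) (nat_lit 533) (nat_lit 359) (nat_lit 308))) (XT.nd (nat_lit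 78) (nat_lit 0) (nat_lit 0) (XT.lf (nat_lit 0) (nat_lit 2495973629) (nat_lit 76) (nat_lit 1952424285) (nat_lit 152) (nat_lit 38867193164) (nat_lit 15) (nat_lit 5) (nat_lit 16) (nat_lit 5) (nat_lit 17) (nat_lit 4) (nat_lit 534) (nat_lit 359) (nat_lit 307)) (XT.lf (nat_lit 0) (nat_lit 11437268541) (nat_lit 152) (nat_lit 27922047177) (nat_lit 0) (nat_lit 5042701954) (nat_lit 15) (nat_lit 5) (nat_lit 17) (nat_lit 4) (nat_lit 15) (nat_lit 4) (nat_lit 535) (nat_lit 359) (nat_lit 306)))))) (XT.nd (nat_lit 546) (nat_lit 228) (nat_lit 0) (XT.nd (nat_lit 234) (nat_lit 152) (nat_lit 0) (XT.nd (nat_lit 78) (nat_lit 76) (nat_lit 0) (XT.lf (nat_lit 0) (nat_lit 18593437174) (nat_lit 152) (nat_lit 14779138264) (nat_lit 0) (nat_lit 12149733582) (nat_lit 15) (nat_lit 5) (nat_lit 17) (nat_lit 4) (nat_lit 15) (nat_lit 4) (nat_lit 536) (nat_lit 359) (nat_lit 305)) (XT.nd (nat_lit 78) (nat_lit 76) (nat_lit 0) (XT.lf (nat_lit 0) (nat_lit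 25904388877) (nat_lit 152) (nat_lit 1360638719) (nat_lit 0) (nat_lit 19412979456) (nat_lit 15) (nat_lit 5) (nat_lit 17) (nat_lit 4) (nat_lit 15) (nat_lit 4) (nat_lit 537) (nat_lit 359) (nat_lit 304)) (XT.lf (nat_lit 0) (nat_lit 12590869575) (nat_lit 76) (nat_lit 20906673426) (nat_lit 76) (nat_lit 14368947667) (nat_lit 14) (nat_lit 4) (nat_lit 15) (nat_lit 5) (nat_lit 15) (nat_lit 4) (nat_lit 538) (nat_lit 359) (nat_lit 303)))) (XT.nd (nat_lit 156) (nat_lit 152) (nat_lit 0) (XT.nd (nat_lit 78) (nat_lit 0) (nat_lit 0) (XT.lf (nat_lit 0) (nat_lit 26874705226) (nat_lit 76) (nat_lit 14399966047) (nat_lit 76) (nat_lit 7817272969) (nat_lit 14) (nat_lit 4) (nat_lit 15) (nat_lit 5) (nat_lit 15) (nat_lit 4) (nat_lit 539) (nat_lit 359) (nat_lit 302)) (XT.lf (nat_lit 0) (nat_lit 41476269875) (nat_lit 76) (nat_lit 7752959769) (nat_lit 76) (nat_lit 1126609100) (nat_lit 14) (nat_lit 4) (nat_lit 15) (nat_lit 5) (nat_lit 15) (nat_lit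 4) (nat_lit 540) (nat_lit 359) (nat_lit 301))) (XT.nd (nat_lit 78) (nat_lit 0) (nat_lit 0) (XT.lf (nat_lit 0) (nat_lit 4787589388) (nat_lit 76) (nat_lit 855920990) (nat_lit 152) (nat_lit 46012741214) (nat_lit 12) (nat_lit 5) (nat_lit 13) (nat_lit 5) (nat_lit 14) (nat_lit 4) (nat_lit 541) (nat_lit 359) (nat_lit 300)) (XT.lf (nat_lit 0) (nat_lit 12689958489) (nat_lit 152) (nat_lit 34127004403) (nat_lit 0) (nat_lit 6175503976) (nat_lit 12) (nat_lit 5) (nat_lit 14) (nat_lit 4) (nat_lit 12) (nat_lit 4) (nat_lit 542) (nat_lit 359) (nat_lit 299))))) (XT.nd (nat_lit 312) (nat_lit 152) (nat_lit 0) (XT.nd (nat_lit 156) (nat_lit 76) (nat_lit 0) (XT.nd (nat_lit 78) (nat_lit 0) (nat_lit 0) (XT.lf (nat_lit 0) (nat_lit 19903123903) (nat_lit 152) (nat_lit 21117105516) (nat_lit 0) (nat_lit 13349880185) (nat_lit 12) (nat_lit 5) (nat_lit 14) (nat_lit 4) (nat_lit 12) (nat_lit 4) (nat_lit 543) (nat_lit 359) (nat_lit 298)) (XT.lf (nat_lit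 0) (nat_lit 27281081751) (nat_lit 152) (nat_lit 7819370035) (nat_lit 0) (nat_lit 20690178612) (nat_lit 12) (nat_lit 5) (nat_lit 14) (nat_lit 4) (nat_lit 12) (nat_lit 4) (nat_lit 544) (nat_lit 359) (nat_lit 297))) (XT.nd (nat_lit 78) (nat_lit 0) (nat_lit 0) (XT.lf (nat_lit 0) (nat_lit 5892811395) (nat_lit 76) (nat_lit 28994112705) (nat_lit 76) (nat_lit 22366647020) (nat_lit 11) (nat_lit 4) (nat_lit 12) (nat_lit 5) (nat_lit 12) (nat_lit 4) (nat_lit 545) (nat_lit 359) (nat_lit 296)) (XT.lf (nat_lit 0) (nat_lit 20078146856) (nat_lit 76) (nat_lit 22672167988) (nat_lit 76) (nat_lit 16009204686) (nat_lit 11) (nat_lit 4) (nat_lit 12) (nat_lit 5) (nat_lit 12) (nat_lit 4) (nat_lit 546) (nat_lit 359) (nat_lit 295)))) (XT.nd (nat_lit 156) (nat_lit 152) (nat_lit 0) (XT.nd (nat_lit 78) (nat_lit 0) (nat_lit 0) (XT.lf (nat_lit 0) (nat_lit 34593410503) (nat_lit 76) (nat_lit 16208053911) (nat_lit 76) (nat_lit 9510626903) (nat_lit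 11) (nat_lit 4) (nat_lit 12) (nat_lit 5) (nat_lit 12) (nat_lit 4) (nat_lit 547) (nat_lit 359) (nat_lit 294)) (XT.lf (nat_lit 0) (nat_lit 49451285577) (nat_lit 76) (nat_lit 9596122219) (nat_lit 76) (nat_lit 2865235303) (nat_lit 11) (nat_lit 4) (nat_lit 12) (nat_lit 5) (nat_lit 12) (nat_lit 4) (nat_lit 548) (nat_lit 359) (nat_lit 293))) (XT.nd (nat_lit 78) (nat_lit 0) (nat_lit 0) (XT.lf (nat_lit 0) (nat_lit 1085560203) (nat_lit 76) (nat_lit 2780908992) (nat_lit 152) (nat_lit 59694657041) (nat_lit 9) (nat_lit 5) (nat_lit 10) (nat_lit 5) (nat_lit 11) (nat_lit 4) (nat_lit 549) (nat_lit 359) (nat_lit 292)) (XT.lf (nat_lit 0) (nat_lit 10864571461) (nat_lit 152) (nat_lit 50122410797) (nat_lit 0) (nat_lit 4267570066) (nat_lit 9) (nat_lit 5) (nat_lit 11) (nat_lit 4) (nat_lit 9) (nat_lit 4) (nat_lit 550) (nat_lit 359) (nat_lit 291))))))) (XT.nd (nat_lit 57798) (nat_lit 0) (nat_lit 2052) (XT.nd (nat_lit 57174) (nat_lit 0)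 (nat_lit 3268) (XT.nd (nat_lit 234) (nat_lit 76) (nat_lit 0) (XT.nd (nat_lit 78) (nat_lit 0) (nat_lit 0) (XT.lf (nat_lit 0) (nat_lit 18055692580) (nat_lit 152) (nat_lit 37514634404) (nat_lit 0) (nat_lit 11428962489) (nat_lit 9) (nat_lit 5) (nat_lit 11) (nat_lit 4) (nat_lit 9) (nat_lit 4) (nat_lit 551) (nat_lit 359) (nat_lit 290)) (XT.nd (nat_lit 78) (nat_lit 0) (nat_lit 0) (XT.lf (nat_lit 0) (nat_lit 25419384257) (nat_lit 152) (nat_lit 24614488552) (nat_lit 0) (nat_lit 18763791355) (nat_lit 9) (nat_lit 5) (nat_lit 11) (nat_lit 4) (nat_lit 9) (nat_lit 4) (nat_lit 552) (nat_lit 359) (nat_lit 289)) (XT.lf (nat_lit 0) (nat_lit 32962080786) (nat_lit 152) (nat_lit 11410701269) (nat_lit 0) (nat_lit 26278465737) (nat_lit 9) (nat_lit 5) (nat_lit 11) (nat_lit 4) (nat_lit 9) (nat_lit 4) (nat_lit 553) (nat_lit 359) (nat_lit 288)))) (XT.nd (nat_lit 56784) (nat_lit 0) (nat_lit 4180) (XT.nd (nat_lit 56706) (nat_lit 0) (nat_lit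 4484) (XT.lf (nat_lit 0) (nat_lit 2150223336) (nat_lit 76) (nat_lit 38560818799) (nat_lit 76) (nat_lit 31849997782) (nat_lit 8) (nat_lit 4) (nat_lit 9) (nat_lit 5) (nat_lit 9) (nat_lit 4) (nat_lit 554) (nat_lit 359) (nat_lit 287)) (XT.lf (nat_lit 0) (nat_lit 2746338259) (nat_lit 152) (nat_lit 2168066897) (nat_lit 152) (nat_lit 2168066897) (nat_lit 67) (nat_lit 4) (nat_lit 69) (nat_lit 5) (nat_lit 69) (nat_lit 4) (nat_lit 480) (nat_lit 360) (nat_lit 360))) (XT.nd (nat_lit 78) (nat_lit 152) (nat_lit 0) (XT.lf (nat_lit 0) (nat_lit 1680126803) (nat_lit 152) (nat_lit 11414853491) (nat_lit 0) (nat_lit 1302400545) (nat_lit 65) (nat_lit 5) (nat_lit 67) (nat_lit 4) (nat_lit 65) (nat_lit 4) (nat_lit 481) (nat_lit 360) (nat_lit 359)) (XT.lf (nat_lit 0) (nat_lit 212231887) (nat_lit 152) (nat_lit 7583770022) (nat_lit 152) (nat_lit 6839319242) (nat_lit 63) (nat_lit 4) (nat_lit 65) (nat_lit 5) (nat_lit 65) (nat_lit 4) (nat_lit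 482) (nat_lit 360) (nat_lit 358))))) (XT.nd (nat_lit 312) (nat_lit 456) (nat_lit 0) (XT.nd (nat_lit 156) (nat_lit 304) (nat_lit 0) (XT.nd (nat_lit 78) (nat_lit 152) (nat_lit 0) (XT.lf (nat_lit 0) (nat_lit 12188680387) (nat_lit 152) (nat_lit 1896266051) (nat_lit 152) (nat_lit 795772045) (nat_lit 63) (nat_lit 4) (nat_lit 65) (nat_lit 5) (nat_lit 65) (nat_lit 4) (nat_lit 483) (nat_lit 360) (nat_lit 357)) (XT.lf (nat_lit 0) (nat_lit 5327689675) (nat_lit 152) (nat_lit 5880448181) (nat_lit 0) (nat_lit 3923644004) (nat_lit 61) (nat_lit 5) (nat_lit 63) (nat_lit 4) (nat_lit 61) (nat_lit 4) (nat_lit 484) (nat_lit 360) (nat_lit 356))) (XT.nd (nat_lit 78) (nat_lit 152) (nat_lit 0) (XT.lf (nat_lit 0) (nat_lit 6080858578) (nat_lit 152) (nat_lit 5519854170) (nat_lit 152) (nat_lit 3789978512) (nat_lit 59) (nat_lit 4) (nat_lit 61) (nat_lit 5) (nat_lit 61) (nat_lit 4) (nat_lit 485) (nat_lit 360) (nat_lit 355)) (XT.lf (nat_lit 0)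 (nat_lit 2323881067) (nat_lit 152) (nat_lit 12996547706) (nat_lit 0) (nat_lit 337264122) (nat_lit 57) (nat_lit 5) (nat_lit 59) (nat_lit 4) (nat_lit 57) (nat_lit 4) (nat_lit 486) (nat_lit 360) (nat_lit 354)))) (XT.nd (nat_lit 156) (nat_lit 304) (nat_lit 0) (XT.nd (nat_lit 78) (nat_lit 152) (nat_lit 0) (XT.lf (nat_lit 0) (nat_lit 8572295842) (nat_lit 152) (nat_lit 1070970802) (nat_lit 0) (nat_lit 6287498301) (nat_lit 57) (nat_lit 5) (nat_lit 59) (nat_lit 4) (nat_lit 57) (nat_lit 4) (nat_lit 487) (nat_lit 360) (nat_lit 353)) (XT.lf (nat_lit 0) (nat_lit 11207703219) (nat_lit 152) (nat_lit 3789477029) (nat_lit 152) (nat_lit 1215183763) (nat_lit 55) (nat_lit 4) (nat_lit 57) (nat_lit 5) (nat_lit 57) (nat_lit 4) (nat_lit 488) (nat_lit 360) (nat_lit 352))) (XT.nd (nat_lit 78) (nat_lit 152) (nat_lit 0) (XT.lf (nat_lit 0) (nat_lit 4996438677) (nat_lit 152) (nat_lit 9280741791) (nat_lit 0) (nat_lit 2224247341) (nat_lit 53)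 (nat_lit 5) (nat_lit 55) (nat_lit 4) (nat_lit 53) (nat_lit 4) (nat_lit 489) (nat_lit 360) (nat_lit 351)) (XT.lf (nat_lit 0) (nat_lit 2900405740) (nat_lit 152) (nat_lit 8467788219) (nat_lit 152) (nat_lit 5430667286) (nat_lit 51) (nat_lit 4) (nat_lit 53) (nat_lit 5) (nat_lit 53) (nat_lit 4) (nat_lit 490) (nat_lit 360) (nat_lit 350)))))) (XT.nd (nat_lit 624) (nat_lit 532) (nat_lit 0) (XT.nd (nat_lit 312) (nat_lit 228) (nat_lit 0) (XT.nd (nat_lit 156) (nat_lit 304) (nat_lit 0) (XT.nd (nat_lit 78) (nat_lit 76) (nat_lit 0) (XT.lf (nat_lit 0) (nat_lit 786334275) (nat_lit 228) (nat_lit 1698075554) (nat_lit 76) (nat_lit 14621277336) (nat_lit 50) (nat_lit 5) (nat_lit 53) (nat_lit 5) (nat_lit 51) (nat_lit 4) (nat_lit 491) (nat_lit 360) (nat_lit 349)) (XT.lf (nat_lit 0) (nat_lit 7105879249) (nat_lit 152) (nat_lit 6648426029) (nat_lit 0) (nat_lit 3665048482) (nat_lit 49) (nat_lit 5) (nat_lit 51) (nat_lit 4) (nat_lit 49) (nat_lit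 4) (nat_lit 492) (nat_lit 360) (nat_lit 348))) (XT.nd (nat_lit 78) (nat_lit 152) (nat_lit 0) (XT.lf (nat_lit 0) (nat_lit 5777053748) (nat_lit 152) (nat_lit 7821052690) (nat_lit 152) (nat_lit 4144835407) (nat_lit 47) (nat_lit 4) (nat_lit 49) (nat_lit 5) (nat_lit 49) (nat_lit 4) (nat_lit 493) (nat_lit 360) (nat_lit 347)) (XT.lf (nat_lit 0) (nat_lit 405428863) (nat_lit 76) (nat_lit 1717810912) (nat_lit 152) (nat_lit 15953640529) (nat_lit 45) (nat_lit 5) (nat_lit 46) (nat_lit 5) (nat_lit 47) (nat_lit 4) (nat_lit 494) (nat_lit 360) (nat_lit 346)))) (XT.nd (nat_lit 156) (nat_lit 152) (nat_lit 0) (XT.nd (nat_lit 78) (nat_lit 76) (nat_lit 0) (XT.lf (nat_lit 0) (nat_lit 8548039412) (nat_lit 152) (nat_lit 5328400637) (nat_lit 0) (nat_lit 4541610045) (nat_lit 45) (nat_lit 5) (nat_lit 47) (nat_lit 4) (nat_lit 45) (nat_lit 4) (nat_lit 495) (nat_lit 360) (nat_lit 345)) (XT.lf (nat_lit 0) (nat_lit 7298496161) (nat_lit 76) (nat_lit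 7843617016) (nat_lit 76) (nat_lit 3628049777) (nat_lit 44) (nat_lit 4) (nat_lit 45) (nat_lit 5) (nat_lit 45) (nat_lit 4) (nat_lit 496) (nat_lit 360) (nat_lit 344))) (XT.nd (nat_lit 78) (nat_lit 0) (nat_lit 0) (XT.lf (nat_lit 0) (nat_lit 1063511926) (nat_lit 76) (nat_lit 1637042576) (nat_lit 152) (nat_lit 16432859193) (nat_lit 42) (nat_lit 5) (nat_lit 43) (nat_lit 5) (nat_lit 44) (nat_lit 4) (nat_lit 497) (nat_lit 360) (nat_lit 343)) (XT.lf (nat_lit 0) (nat_lit 9198517435) (nat_lit 152) (nat_lit 5589187383) (nat_lit 0) (nat_lit 4717210429) (nat_lit 42) (nat_lit 5) (nat_lit 44) (nat_lit 4) (nat_lit 42) (nat_lit 4) (nat_lit 498) (nat_lit 360) (nat_lit 342))))) (XT.nd (nat_lit 312) (nat_lit 228) (nat_lit 0) (XT.nd (nat_lit 156) (nat_lit 152) (nat_lit 0) (XT.nd (nat_lit 78) (nat_lit 76) (nat_lit 0) (XT.lf (nat_lit 0) (nat_lit 7183883347) (nat_lit 76) (nat_lit 8685729714) (nat_lit 76) (nat_lit 4018606418) (nat_lit 41)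 (nat_lit 4) (nat_lit 42) (nat_lit 5) (nat_lit 42) (nat_lit 4) (nat_lit 499) (nat_lit 360) (nat_lit 341)) (XT.lf (nat_lit 0) (nat_lit 2359891511) (nat_lit 152) (nat_lit 56947691) (nat_lit 76) (nat_lit 17866977093) (nat_lit 40) (nat_lit 5) (nat_lit 42) (nat_lit 5) (nat_lit 41) (nat_lit 4) (nat_lit 500) (nat_lit 360) (nat_lit 340))) (XT.nd (nat_lit 78) (nat_lit 76) (nat_lit 0) (XT.lf (nat_lit 0) (nat_lit 8909468124) (nat_lit 152) (nat_lit 7745725029) (nat_lit 0) (nat_lit 4033082557) (nat_lit 39) (nat_lit 5) (nat_lit 41) (nat_lit 4) (nat_lit 39) (nat_lit 4) (nat_lit 501) (nat_lit 360) (nat_lit 339)) (XT.lf (nat_lit 0) (nat_lit 5103652620) (nat_lit 76) (nat_lit 10521801314) (nat_lit 76) (nat_lit 5480320380) (nat_lit 38) (nat_lit 4) (nat_lit 39) (nat_lit 5) (nat_lit 39) (nat_lit 4) (nat_lit 502) (nat_lit 360) (nat_lit 338)))) (XT.nd (nat_lit 156) (nat_lit 76) (nat_lit 0) (XT.nd (nat_lit 78) (nat_lit 76) (nat_lit 0) (XT.lf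 (nat_lit 0) (nat_lit 962906247) (nat_lit 152) (nat_lit 3247068013) (nat_lit 76) (nat_lit 17326272947) (nat_lit 37) (nat_lit 5) (nat_lit 39) (nat_lit 5) (nat_lit 38) (nat_lit 4) (nat_lit 503) (nat_lit 360) (nat_lit 337)) (XT.lf (nat_lit 0) (nat_lit 7505863501) (nat_lit 152) (nat_lit 12167130334) (nat_lit 0) (nat_lit 2304517953) (nat_lit 36) (nat_lit 5) (nat_lit 38) (nat_lit 4) (nat_lit 36) (nat_lit 4) (nat_lit 504) (nat_lit 360) (nat_lit 336))) (XT.nd (nat_lit 78) (nat_lit 0) (nat_lit 0) (XT.lf (nat_lit 0) (nat_lit 671382657) (nat_lit 76) (nat_lit 13554619122) (nat_lit 76) (nat_lit 8206588479) (nat_lit 35) (nat_lit 4) (nat_lit 36) (nat_lit 5) (nat_lit 36) (nat_lit 4) (nat_lit 505) (nat_lit 360) (nat_lit 335)) (XT.lf (nat_lit 0) (nat_lit 13951578691) (nat_lit 76) (nat_lit 7219740568) (nat_lit 76) (nat_lit 1729297212) (nat_lit 35) (nat_lit 4) (nat_lit 36) (nat_lit 5) (nat_lit 36) (nat_lit 4) (nat_lit 506) (nat_lit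 360) (nat_lit 334))))))))
noncomputable def xc23 : XT := (XT.nd (nat_lit 2340) (nat_lit 456) (nat_lit 0) (XT.nd (nat_lit 1170) (nat_lit 608) (nat_lit 0) (XT.nd (nat_lit 546) (nat_lit 456) (nat_lit 0) (XT.nd (nat_lit 234) (nat_lit 228) (nat_lit 0) (XT.nd (nat_lit 78) (nat_lit 76) (nat_lit 0) (XT.lf (nat_lit 0) (nat_lit 4090602421) (nat_lit 76) (nat_lit 697235286) (nat_lit 152) (nat_lit 18595163981) (nat_lit 33) (nat_lit 5) (nat_lit 34) (nat_lit 5) (nat_lit 35) (nat_lit 4) (nat_lit 507) (nat_lit 360) (nat_lit 333)) (XT.nd (nat_lit 78) (nat_lit 76) (nat_lit 0) (XT.lf (nat_lit 0) (nat_lit 11517674380) (nat_lit 152) (nat_lit 6437533097) (nat_lit 0) (nat_lit 5922581403) (nat_lit 33) (nat_lit 5) (nat_lit 35) (nat_lit 4) (nat_lit 33) (nat_lit 4) (nat_lit 508) (nat_lit 360) (nat_lit 332)) (XT.lf (nat_lit 0) (nat_lit 6743817038) (nat_lit 76) (nat_lit 11682954433) (nat_lit 76) (nat_lit 5961329604) (nat_lit 32) (nat_lit 4)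 (nat_lit 33) (nat_lit 5) (nat_lit 33) (nat_lit 4) (nat_lit 509) (nat_lit 360) (nat_lit 331)))) (XT.nd (nat_lit 156) (nat_lit 76) (nat_lit 0) (XT.nd (nat_lit 78) (nat_lit 76) (nat_lit 0) (XT.lf (nat_lit 0) (nat_lit 588494819) (nat_lit 152) (nat_lit 4649826803) (nat_lit 76) (nat_lit 19676080969) (nat_lit 31) (nat_lit 5) (nat_lit 33) (nat_lit 5) (nat_lit 32) (nat_lit 4) (nat_lit 510) (nat_lit 360) (nat_lit 330)) (XT.lf (nat_lit 0) (nat_lit 7220781146) (nat_lit 152) (nat_lit 16803027334) (nat_lit 0) (nat_lit 1430742609) (nat_lit 30) (nat_lit 5) (nat_lit 32) (nat_lit 4) (nat_lit 30) (nat_lit 4) (nat_lit 511) (nat_lit 360) (nat_lit 329))) (XT.nd (nat_lit 78) (nat_lit 76) (nat_lit 0) (XT.lf (nat_lit 0) (nat_lit 14059911751) (nat_lit 152) (nat_lit 3793306800) (nat_lit 0) (nat_lit 8157451304) (nat_lit 30) (nat_lit 5) (nat_lit 32) (nat_lit 4) (nat_lit 30) (nat_lit 4) (nat_lit 512) (nat_lit 360) (nat_lit 328)) (XT.lf (nat_lit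 0) (nat_lit 9620936074) (nat_lit 76) (nat_lit 11487016983) (nat_lit 76) (nat_lit 5475409050) (nat_lit 29) (nat_lit 4) (nat_lit 30) (nat_lit 5) (nat_lit 30) (nat_lit 4) (nat_lit 513) (nat_lit 360) (nat_lit 327))))) (XT.nd (nat_lit 312) (nat_lit 228) (nat_lit 0) (XT.nd (nat_lit 156) (nat_lit 76) (nat_lit 0) (XT.nd (nat_lit 78) (nat_lit 76) (nat_lit 0) (XT.lf (nat_lit 0) (nat_lit 1120897950) (nat_lit 152) (nat_lit 3842153527) (nat_lit 76) (nat_lit 22211341156) (nat_lit 28) (nat_lit 5) (nat_lit 30) (nat_lit 5) (nat_lit 29) (nat_lit 4) (nat_lit 514) (nat_lit 360) (nat_lit 326)) (XT.lf (nat_lit 0) (nat_lit 7829128036) (nat_lit 152) (nat_lit 18161830914) (nat_lit 0) (nat_lit 1789848093) (nat_lit 27) (nat_lit 5) (nat_lit 29) (nat_lit 4) (nat_lit 27) (nat_lit 4) (nat_lit 515) (nat_lit 360) (nat_lit 325))) (XT.nd (nat_lit 78) (nat_lit 76) (nat_lit 0) (XT.lf (nat_lit 0) (nat_lit 14740944634) (nat_lit 152) (nat_lit 5059712300)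 (nat_lit 0) (nat_lit 8604688563) (nat_lit 27) (nat_lit 5) (nat_lit 29) (nat_lit 4) (nat_lit 27) (nat_lit 4) (nat_lit 516) (nat_lit 360) (nat_lit 324)) (XT.lf (nat_lit 0) (nat_lit 8436366433) (nat_lit 76) (nat_lit 13421367265) (nat_lit 76) (nat_lit 7190959613) (nat_lit 26) (nat_lit 4) (nat_lit 27) (nat_lit 5) (nat_lit 27) (nat_lit 4) (nat_lit 517) (nat_lit 360) (nat_lit 323)))) (XT.nd (nat_lit 156) (nat_lit 76) (nat_lit 0) (XT.nd (nat_lit 78) (nat_lit 152) (nat_lit 0) (XT.lf (nat_lit 0) (nat_lit 22278924507) (nat_lit 76) (nat_lit 6877590522) (nat_lit 76) (nat_lit 555773569) (nat_lit 26) (nat_lit 4) (nat_lit 27) (nat_lit 5) (nat_lit 27) (nat_lit 4) (nat_lit 518) (nat_lit 360) (nat_lit 322)) (XT.lf (nat_lit 0) (nat_lit 6039452880) (nat_lit 76) (nat_lit 93560286) (nat_lit 152) (nat_lit 24261657782) (nat_lit 24) (nat_lit 5) (nat_lit 25) (nat_lit 5) (nat_lit 26) (nat_lit 4) (nat_lit 519) (nat_lit 360) (nat_lit 321)))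 (XT.nd (nat_lit 78) (nat_lit 76) (nat_lit 0) (XT.lf (nat_lit 0) (nat_lit 13072475970) (nat_lit 152) (nat_lit 11258074665) (nat_lit 0) (nat_lit 6764975114) (nat_lit 24) (nat_lit 5) (nat_lit 26) (nat_lit 4) (nat_lit 24) (nat_lit 4) (nat_lit 520) (nat_lit 360) (nat_lit 320)) (XT.lf (nat_lit 0) (nat_lit 2117901433) (nat_lit 76) (nat_lit 18044970316) (nat_lit 76) (nat_lit 11656253479) (nat_lit 23) (nat_lit 4) (nat_lit 24) (nat_lit 5) (nat_lit 24) (nat_lit 4) (nat_lit 521) (nat_lit 360) (nat_lit 319)))))) (XT.nd (nat_lit 546) (nat_lit 304) (nat_lit 0) (XT.nd (nat_lit 234) (nat_lit 152) (nat_lit 0) (XT.nd (nat_lit 78) (nat_lit 152) (nat_lit 0) (XT.lf (nat_lit 0) (nat_lit 15972967696) (nat_lit 76) (nat_lit 11528977395) (nat_lit 76) (nat_lit 5061410093) (nat_lit 23) (nat_lit 4) (nat_lit 24) (nat_lit 5) (nat_lit 24) (nat_lit 4) (nat_lit 522) (nat_lit 360) (nat_lit 318)) (XT.nd (nat_lit 78) (nat_lit 76) (nat_lit 0) (XT.lf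 (nat_lit 0) (nat_lit 1621291505) (nat_lit 152) (nat_lit 3252899396) (nat_lit 76) (nat_lit 28457509360) (nat_lit 22) (nat_lit 5) (nat_lit 24) (nat_lit 5) (nat_lit 23) (nat_lit 4) (nat_lit 523) (nat_lit 360) (nat_lit 317)) (XT.lf (nat_lit 0) (nat_lit 8449473851) (nat_lit 152) (nat_lit 23646919097) (nat_lit 0) (nat_lit 2023798821) (nat_lit 21) (nat_lit 5) (nat_lit 23) (nat_lit 4) (nat_lit 21) (nat_lit 4) (nat_lit 524) (nat_lit 360) (nat_lit 316)))) (XT.nd (nat_lit 156) (nat_lit 76) (nat_lit 0) (XT.nd (nat_lit 78) (nat_lit 76) (nat_lit 0) (XT.lf (nat_lit 0) (nat_lit 15490035783) (nat_lit 152) (nat_lit 10447774382) (nat_lit 0) (nat_lit 8994303134) (nat_lit 21) (nat_lit 5) (nat_lit 23) (nat_lit 4) (nat_lit 21) (nat_lit 4) (nat_lit 525) (nat_lit 360) (nat_lit 315)) (XT.lf (nat_lit 0) (nat_lit 3065663502) (nat_lit 76) (nat_lit 19633874147) (nat_lit 76) (nat_lit 13070124394) (nat_lit 20) (nat_lit 4) (nat_lit 21) (nat_lit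 5) (nat_lit 21) (nat_lit 4) (nat_lit 526) (nat_lit 360) (nat_lit 314))) (XT.nd (nat_lit 78) (nat_lit 76) (nat_lit 0) (XT.lf (nat_lit 0) (nat_lit 17058557636) (nat_lit 76) (nat_lit 13101265825) (nat_lit 76) (nat_lit 6471480048) (nat_lit 20) (nat_lit 4) (nat_lit 21) (nat_lit 5) (nat_lit 21) (nat_lit 4) (nat_lit 527) (nat_lit 360) (nat_lit 313)) (XT.lf (nat_lit 0) (nat_lit 249160509) (nat_lit 152) (nat_lit 6188102588) (nat_lit 76) (nat_lit 31083527082) (nat_lit 19) (nat_lit 5) (nat_lit 21) (nat_lit 5) (nat_lit 20) (nat_lit 4) (nat_lit 528) (nat_lit 360) (nat_lit 312))))) (XT.nd (nat_lit 312) (nat_lit 152) (nat_lit 0) (XT.nd (nat_lit 156) (nat_lit 76) (nat_lit 0) (XT.nd (nat_lit 78) (nat_lit 0) (nat_lit 0) (XT.lf (nat_lit 0) (nat_lit 7051134955) (nat_lit 152) (nat_lit 30891839709) (nat_lit 0) (nat_lit 491772131) (nat_lit 18) (nat_lit 5) (nat_lit 20) (nat_lit 4) (nat_lit 18) (nat_lit 4) (nat_lit 529) (nat_lit 360) (nat_lit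 311)) (XT.lf (nat_lit 0) (nat_lit 14116491068) (nat_lit 152) (nat_lit 17759396368) (nat_lit 0) (nat_lit 7498456092) (nat_lit 18) (nat_lit 5) (nat_lit 20) (nat_lit 4) (nat_lit 18) (nat_lit 4) (nat_lit 530) (nat_lit 360) (nat_lit 310))) (XT.nd (nat_lit 78) (nat_lit 76) (nat_lit 0) (XT.lf (nat_lit 0) (nat_lit 21328255206) (nat_lit 152) (nat_lit 4362583616) (nat_lit 0) (nat_lit 14653256975) (nat_lit 18) (nat_lit 5) (nat_lit 20) (nat_lit 4) (nat_lit 18) (nat_lit 4) (nat_lit 531) (nat_lit 360) (nat_lit 309)) (XT.lf (nat_lit 0) (nat_lit 9495597811) (nat_lit 76) (nat_lit 19288408594) (nat_lit 76) (nat_lit 12558106232) (nat_lit 17) (nat_lit 4) (nat_lit 18) (nat_lit 5) (nat_lit 18) (nat_lit 4) (nat_lit 532) (nat_lit 360) (nat_lit 308)))) (XT.nd (nat_lit 156) (nat_lit 76) (nat_lit 0) (XT.nd (nat_lit 78) (nat_lit 76) (nat_lit 0) (XT.lf (nat_lit 0) (nat_lit 23734357967) (nat_lit 76) (nat_lit 12710138359) (nat_lit 76) (nat_lit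 5926142666) (nat_lit 17) (nat_lit 4) (nat_lit 18) (nat_lit 5) (nat_lit 18) (nat_lit 4) (nat_lit 533) (nat_lit 360) (nat_lit 307)) (XT.lf (nat_lit 0) (nat_lit 825365100) (nat_lit 152) (nat_lit 5160633985) (nat_lit 76) (nat_lit 37445614848) (nat_lit 16) (nat_lit 5) (nat_lit 18) (nat_lit 5) (nat_lit 17) (nat_lit 4) (nat_lit 534) (nat_lit 360) (nat_lit 306))) (XT.nd (nat_lit 78) (nat_lit 0) (nat_lit 0) (XT.lf (nat_lit 0) (nat_lit 7693973534) (nat_lit 152) (nat_lit 35819853478) (nat_lit 0) (nat_lit 1007821831) (nat_lit 15) (nat_lit 5) (nat_lit 17) (nat_lit 4) (nat_lit 15) (nat_lit 4) (nat_lit 535) (nat_lit 360) (nat_lit 305)) (XT.lf (nat_lit 0) (nat_lit 14820633797) (nat_lit 152) (nat_lit 22735415814) (nat_lit 0) (nat_lit 8086776265) (nat_lit 15) (nat_lit 5) (nat_lit 17) (nat_lit 4) (nat_lit 15) (nat_lit 4) (nat_lit 536) (nat_lit 360) (nat_lit 304))))))) (XT.nd (nat_lit 1170) (nat_lit 0) (nat_lit 0) (XT.nd (nat_lit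 546) (nat_lit 228) (nat_lit 0) (XT.nd (nat_lit 234) (nat_lit 152) (nat_lit 0) (XT.nd (nat_lit 78) (nat_lit 76) (nat_lit 0) (XT.lf (nat_lit 0) (nat_lit 22102936599) (nat_lit 152) (nat_lit 9373684472) (nat_lit 0) (nat_lit 15322762728) (nat_lit 15) (nat_lit 5) (nat_lit 17) (nat_lit 4) (nat_lit 15) (nat_lit 4) (nat_lit 537) (nat_lit 360) (nat_lit 303)) (XT.nd (nat_lit 78) (nat_lit 0) (nat_lit 0) (XT.lf (nat_lit 0) (nat_lit 4362136848) (nat_lit 76) (nat_lit 25227039795) (nat_lit 76) (nat_lit 18401898605) (nat_lit 14) (nat_lit 4) (nat_lit 15) (nat_lit 5) (nat_lit 15) (nat_lit 4) (nat_lit 538) (nat_lit 360) (nat_lit 302)) (XT.lf (nat_lit 0) (nat_lit 18591398079) (nat_lit 76) (nat_lit 18747377896) (nat_lit 76) (nat_lit 11878579114) (nat_lit 14) (nat_lit 4) (nat_lit 15) (nat_lit 5) (nat_lit 15) (nat_lit 4) (nat_lit 539) (nat_lit 360) (nat_lit 301)))) (XT.nd (nat_lit 156) (nat_lit 76) (nat_lit 0) (XT.nd (nat_lit 78) (nat_lit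 76) (nat_lit 0) (XT.lf (nat_lit 0) (nat_lit 33139977855) (nat_lit 76) (nat_lit 12126629365) (nat_lit 76) (nat_lit 5215444572) (nat_lit 14) (nat_lit 4) (nat_lit 15) (nat_lit 5) (nat_lit 15) (nat_lit 4) (nat_lit 540) (nat_lit 360) (nat_lit 300)) (XT.lf (nat_lit 0) (nat_lit 1562235623) (nat_lit 152) (nat_lit 3780997943) (nat_lit 76) (nat_lit 46442577387) (nat_lit 13) (nat_lit 5) (nat_lit 15) (nat_lit 5) (nat_lit 14) (nat_lit 4) (nat_lit 541) (nat_lit 360) (nat_lit 299))) (XT.nd (nat_lit 78) (nat_lit 0) (nat_lit 0) (XT.lf (nat_lit 0) (nat_lit 8501930752) (nat_lit 152) (nat_lit 42909997901) (nat_lit 0) (nat_lit 1713300519) (nat_lit 12) (nat_lit 5) (nat_lit 14) (nat_lit 4) (nat_lit 12) (nat_lit 4) (nat_lit 542) (nat_lit 360) (nat_lit 298)) (XT.lf (nat_lit 0) (nat_lit 15689676202) (nat_lit 152) (nat_lit 29950572104) (nat_lit 0) (nat_lit 8863386547) (nat_lit 12) (nat_lit 5) (nat_lit 14) (nat_lit 4) (nat_lit 12) (nat_lit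 4) (nat_lit 543) (nat_lit 360) (nat_lit 297))))) (XT.nd (nat_lit 312) (nat_lit 152) (nat_lit 0) (XT.nd (nat_lit 156) (nat_lit 76) (nat_lit 0) (XT.nd (nat_lit 78) (nat_lit 0) (nat_lit 0) (XT.lf (nat_lit 0) (nat_lit 23042954473) (nat_lit 152) (nat_lit 16701839622) (nat_lit 0) (nat_lit 16180102272) (nat_lit 12) (nat_lit 5) (nat_lit 14) (nat_lit 4) (nat_lit 12) (nat_lit 4) (nat_lit 544) (nat_lit 360) (nat_lit 296)) (XT.lf (nat_lit 0) (nat_lit 30568190760) (nat_lit 152) (nat_lit 3152223894) (nat_lit 0) (nat_lit 23669840942) (nat_lit 12) (nat_lit 5) (nat_lit 14) (nat_lit 4) (nat_lit 12) (nat_lit 4) (nat_lit 545) (nat_lit 360) (nat_lit 295))) (XT.nd (nat_lit 78) (nat_lit 0) (nat_lit 0) (XT.lf (nat_lit 0) (nat_lit 10923266830) (nat_lit 76) (nat_lit 27453694805) (nat_lit 76) (nat_lit 20520881281) (nat_lit 11) (nat_lit 4) (nat_lit 12) (nat_lit 5) (nat_lit 12) (nat_lit 4) (nat_lit 546) (nat_lit 360) (nat_lit 294)) (XT.lf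 (nat_lit 0) (nat_lit 25392793294) (nat_lit 76) (nat_lit 21012292948) (nat_lit 76) (nat_lit 14046019516) (nat_lit 11) (nat_lit 4) (nat_lit 12) (nat_lit 5) (nat_lit 12) (nat_lit 4) (nat_lit 547) (nat_lit 360) (nat_lit 293)))) (XT.nd (nat_lit 156) (nat_lit 152) (nat_lit 0) (XT.nd (nat_lit 78) (nat_lit 0) (nat_lit 0) (XT.lf (nat_lit 0) (nat_lit 40206263335) (nat_lit 76) (nat_lit 14422411956) (nat_lit 76) (nat_lit 7423653176) (nat_lit 11) (nat_lit 4) (nat_lit 12) (nat_lit 5) (nat_lit 12) (nat_lit 4) (nat_lit 548) (nat_lit 360) (nat_lit 292)) (XT.lf (nat_lit 0) (nat_lit 55376620762) (nat_lit 76) (nat_lit 7678293680) (nat_lit 76) (nat_lit 647995727) (nat_lit 11) (nat_lit 4) (nat_lit 12) (nat_lit 5) (nat_lit 12) (nat_lit 4) (nat_lit 549) (nat_lit 360) (nat_lit 291))) (XT.nd (nat_lit 78) (nat_lit 0) (nat_lit 0) (XT.lf (nat_lit 0) (nat_lit 5560908182) (nat_lit 76) (nat_lit 656740434) (nat_lit 152) (nat_lit 59183227860) (nat_lit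 9) (nat_lit 5) (nat_lit 10) (nat_lit 5) (nat_lit 11) (nat_lit 4) (nat_lit 550) (nat_lit 360) (nat_lit 290)) (XT.lf (nat_lit 0) (nat_lit 13381194146) (nat_lit 152) (nat_lit 47268176365) (nat_lit 0) (nat_lit 6497070646) (nat_lit 9) (nat_lit 5) (nat_lit 11) (nat_lit 4) (nat_lit 9) (nat_lit 4) (nat_lit 551) (nat_lit 360) (nat_lit 289)))))) (XT.nd (nat_lit 57174) (nat_lit 0) (nat_lit 3116) (XT.nd (nat_lit 56862) (nat_lit 0) (nat_lit 4104) (XT.nd (nat_lit 56706) (nat_lit 0) (nat_lit 4560) (XT.nd (nat_lit 78) (nat_lit 0) (nat_lit 0) (XT.lf (nat_lit 0) (nat_lit 20724242523) (nat_lit 152) (nat_lit 34409096003) (nat_lit 0) (nat_lit 13812096876) (nat_lit 9) (nat_lit 5) (nat_lit 11) (nat_lit 4) (nat_lit 9) (nat_lit 4) (nat_lit 552) (nat_lit 360) (nat_lit 288)) (XT.lf (nat_lit 0) (nat_lit 28246897014) (nat_lit 152) (nat_lit 21245178128) (nat_lit 0) (nat_lit 21307545399) (nat_lit 9) (nat_lit 5) (nat_lit 11) (nat_lit 4) (nat_lit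 9) (nat_lit 4) (nat_lit 553) (nat_lit 360) (nat_lit 287))) (XT.nd (nat_lit 78) (nat_lit 228) (nat_lit 0) (XT.lf (nat_lit 0) (nat_lit 5030929052) (nat_lit 152) (nat_lit 914222610) (nat_lit 152) (nat_lit 914222610) (nat_lit 72) (nat_lit 4) (nat_lit 74) (nat_lit 5) (nat_lit 74) (nat_lit 4) (nat_lit 478) (nat_lit 361) (nat_lit 361)) (XT.lf (nat_lit 0) (nat_lit 4107269205) (nat_lit 228) (nat_lit 6125674924) (nat_lit 0) (nat_lit 3706539417) (nat_lit 69) (nat_lit 5) (nat_lit 72) (nat_lit 4) (nat_lit 69) (nat_lit 4) (nat_lit 479) (nat_lit 361) (nat_lit 360)))) (XT.nd (nat_lit 156) (nat_lit 152) (nat_lit 0) (XT.nd (nat_lit 78) (nat_lit 152) (nat_lit 0) (XT.lf (nat_lit 0) (nat_lit 5378020245) (nat_lit 152) (nat_lit 4789291057) (nat_lit 152) (nat_lit 3999503224) (nat_lit 67) (nat_lit 4) (nat_lit 69) (nat_lit 5) (nat_lit 69) (nat_lit 4) (nat_lit 480) (nat_lit 361) (nat_lit 359)) (XT.lf (nat_lit 0) (nat_lit 1942051458) (nat_lit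 152) (nat_lit 11650607551) (nat_lit 0) (nat_lit 808542632) (nat_lit 65) (nat_lit 5) (nat_lit 67) (nat_lit 4) (nat_lit 65) (nat_lit 4) (nat_lit 481) (nat_lit 361) (nat_lit 358))) (XT.nd (nat_lit 78) (nat_lit 152) (nat_lit 0) (XT.lf (nat_lit 0) (nat_lit 7995083273) (nat_lit 152) (nat_lit 140416013) (nat_lit 0) (nat_lit 6505531221) (nat_lit 65) (nat_lit 5) (nat_lit 67) (nat_lit 4) (nat_lit 65) (nat_lit 4) (nat_lit 482) (nat_lit 361) (nat_lit 357)) (XT.lf (nat_lit 0) (nat_lit 11721590916) (nat_lit 152) (nat_lit 2500954815) (nat_lit 152) (nat_lit 665729729) (nat_lit 63) (nat_lit 4) (nat_lit 65) (nat_lit 5) (nat_lit 65) (nat_lit 4) (nat_lit 483) (nat_lit 361) (nat_lit 356))))) (XT.nd (nat_lit 312) (nat_lit 532) (nat_lit 0) (XT.nd (nat_lit 156) (nat_lit 152) (nat_lit 0) (XT.nd (nat_lit 78) (nat_lit 152) (nat_lit 0) (XT.lf (nat_lit 0) (nat_lit 5384175112) (nat_lit 152) (nat_lit 6480686583) (nat_lit 0) (nat_lit 3276573195)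 (nat_lit 61) (nat_lit 5) (nat_lit 63) (nat_lit 4) (nat_lit 61) (nat_lit 4) (nat_lit 484) (nat_lit 361) (nat_lit 355)) (XT.lf (nat_lit 0) (nat_lit 5356725016) (nat_lit 152) (nat_lit 6234767523) (nat_lit 152) (nat_lit 3810825812) (nat_lit 59) (nat_lit 4) (nat_lit 61) (nat_lit 5) (nat_lit 61) (nat_lit 4) (nat_lit 485) (nat_lit 361) (nat_lit 354))) (XT.nd (nat_lit 78) (nat_lit 0) (nat_lit 0) (XT.lf (nat_lit 0) (nat_lit 1802306462) (nat_lit 76) (nat_lit 430882792) (nat_lit 152) (nat_lit 13438247006) (nat_lit 57) (nat_lit 5) (nat_lit 58) (nat_lit 5) (nat_lit 59) (nat_lit 4) (nat_lit 486) (nat_lit 361) (nat_lit 353)) (XT.lf (nat_lit 0) (nat_lit 8418980293) (nat_lit 152) (nat_lit 2049446871) (nat_lit 0) (nat_lit 5477962505) (nat_lit 57) (nat_lit 5) (nat_lit 59) (nat_lit 4) (nat_lit 57) (nat_lit 4) (nat_lit 487) (nat_lit 361) (nat_lit 352)))) (XT.nd (nat_lit 156) (nat_lit 228) (nat_lit 0) (XT.nd (nat_lit 78) (nat_lit 152)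 (nat_lit 0) (XT.lf (nat_lit 0) (nat_lit 10100796455) (nat_lit 152) (nat_lit 4675649504) (nat_lit 152) (nat_lit 1453567906) (nat_lit 55) (nat_lit 4) (nat_lit 57) (nat_lit 5) (nat_lit 57) (nat_lit 4) (nat_lit 488) (nat_lit 361) (nat_lit 351)) (XT.lf (nat_lit 0) (nat_lit 4684812468) (nat_lit 152) (nat_lit 10545024864) (nat_lit 0) (nat_lit 1291648310) (nat_lit 53) (nat_lit 5) (nat_lit 55) (nat_lit 4) (nat_lit 53) (nat_lit 4) (nat_lit 489) (nat_lit 361) (nat_lit 350))) (XT.nd (nat_lit 78) (nat_lit 76) (nat_lit 0) (XT.lf (nat_lit 0) (nat_lit 1501758118) (nat_lit 152) (nat_lit 9484820177) (nat_lit 152) (nat_lit 5834442817) (nat_lit 51) (nat_lit 4) (nat_lit 53) (nat_lit 5) (nat_lit 53) (nat_lit 4) (nat_lit 490) (nat_lit 361) (nat_lit 349)) (XT.lf (nat_lit 0) (nat_lit 333964975) (nat_lit 228) (nat_lit 3222150014) (nat_lit 76) (nat_lit 13573544886) (nat_lit 50) (nat_lit 5) (nat_lit 53) (nat_lit 5) (nat_lit 51) (nat_lit 4)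 (nat_lit 491) (nat_lit 361) (nat_lit 348))))))))
noncomputable def xc24 : XT := (XT.nd (nat_lit 2340) (nat_lit 1140) (nat_lit 0) (XT.nd (nat_lit 1170) (nat_lit 836) (nat_lit 0) (XT.nd (nat_lit 546) (nat_lit 532) (nat_lit 0) (XT.nd (nat_lit 234) (nat_lit 304) (nat_lit 0) (XT.nd (nat_lit 78) (nat_lit 228) (nat_lit 0) (XT.lf (nat_lit 0) (nat_lit 6571787264) (nat_lit 152) (nat_lit 8324096090) (nat_lit 0) (nat_lit 2549896947) (nat_lit 49) (nat_lit 5) (nat_lit 51) (nat_lit 4) (nat_lit 49) (nat_lit 4) (nat_lit 492) (nat_lit 361) (nat_lit 347)) (XT.nd (nat_lit 78) (nat_lit 76) (nat_lit 0) (XT.lf (nat_lit 0) (nat_lit 3961794063) (nat_lit 152) (nat_lit 9030080757) (nat_lit 152) (nat_lit 4779659841) (nat_lit 47) (nat_lit 4) (nat_lit 49) (nat_lit 5) (nat_lit 49) (nat_lit 4) (nat_lit 493) (nat_lit 361) (nat_lit 346)) (XT.lf (nat_lit 0) (nat_lit 1442279472) (nat_lit 228) (nat_lit 1544467954) (nat_lit 76) (nat_lit 15120666441)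 (nat_lit 46) (nat_lit 5) (nat_lit 49) (nat_lit 5) (nat_lit 47) (nat_lit 4) (nat_lit 494) (nat_lit 361) (nat_lit 345)))) (XT.nd (nat_lit 156) (nat_lit 152) (nat_lit 0) (XT.nd (nat_lit 78) (nat_lit 76) (nat_lit 0) (XT.lf (nat_lit 0) (nat_lit 7785089306) (nat_lit 152) (nat_lit 7432038776) (nat_lit 0) (nat_lit 3233917180) (nat_lit 45) (nat_lit 5) (nat_lit 47) (nat_lit 4) (nat_lit 45) (nat_lit 4) (nat_lit 495) (nat_lit 361) (nat_lit 344)) (XT.lf (nat_lit 0) (nat_lit 5049651394) (nat_lit 76) (nat_lit 9254981545) (nat_lit 76) (nat_lit 4500762942) (nat_lit 44) (nat_lit 4) (nat_lit 45) (nat_lit 5) (nat_lit 45) (nat_lit 4) (nat_lit 496) (nat_lit 361) (nat_lit 343))) (XT.nd (nat_lit 78) (nat_lit 76) (nat_lit 0) (XT.lf (nat_lit 0) (nat_lit 1781791898) (nat_lit 152) (nat_lit 1334313550) (nat_lit 76) (nat_lit 16054686971) (nat_lit 43) (nat_lit 5) (nat_lit 45) (nat_lit 5) (nat_lit 44) (nat_lit 4) (nat_lit 497) (nat_lit 361) (nat_lit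 342)) (XT.lf (nat_lit 0) (nat_lit 8199582100) (nat_lit 152) (nat_lit 8138489936) (nat_lit 0) (nat_lit 3206628816) (nat_lit 42) (nat_lit 5) (nat_lit 44) (nat_lit 4) (nat_lit 42) (nat_lit 4) (nat_lit 498) (nat_lit 361) (nat_lit 341))))) (XT.nd (nat_lit 312) (nat_lit 228) (nat_lit 0) (XT.nd (nat_lit 156) (nat_lit 152) (nat_lit 0) (XT.nd (nat_lit 78) (nat_lit 76) (nat_lit 0) (XT.lf (nat_lit 0) (nat_lit 4483342123) (nat_lit 76) (nat_lit 10310168534) (nat_lit 76) (nat_lit 5136811086) (nat_lit 41) (nat_lit 4) (nat_lit 42) (nat_lit 5) (nat_lit 42) (nat_lit 4) (nat_lit 499) (nat_lit 361) (nat_lit 340)) (XT.lf (nat_lit 0) (nat_lit 1212349670) (nat_lit 152) (nat_lit 2887437292) (nat_lit 76) (nat_lit 16227990338) (nat_lit 40) (nat_lit 5) (nat_lit 42) (nat_lit 5) (nat_lit 41) (nat_lit 4) (nat_lit 500) (nat_lit 361) (nat_lit 339))) (XT.nd (nat_lit 78) (nat_lit 76) (nat_lit 0) (XT.lf (nat_lit 0) (nat_lit 7666666283) (nat_lit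 152) (nat_lit 10759584185) (nat_lit 0) (nat_lit 2308845555) (nat_lit 39) (nat_lit 5) (nat_lit 41) (nat_lit 4) (nat_lit 39) (nat_lit 4) (nat_lit 501) (nat_lit 361) (nat_lit 338)) (XT.lf (nat_lit 0) (nat_lit 1932083329) (nat_lit 76) (nat_lit 12370510993) (nat_lit 76) (nat_lit 6852403502) (nat_lit 38) (nat_lit 4) (nat_lit 39) (nat_lit 5) (nat_lit 39) (nat_lit 4) (nat_lit 502) (nat_lit 361) (nat_lit 337)))) (XT.nd (nat_lit 156) (nat_lit 76) (nat_lit 0) (XT.nd (nat_lit 78) (nat_lit 152) (nat_lit 0) (XT.lf (nat_lit 0) (nat_lit 15032451401) (nat_lit 76) (nat_lit 6114250412) (nat_lit 76) (nat_lit 440524704) (nat_lit 38) (nat_lit 4) (nat_lit 39) (nat_lit 5) (nat_lit 39) (nat_lit 4) (nat_lit 503) (nat_lit 361) (nat_lit 336)) (XT.lf (nat_lit 0) (nat_lit 6010536686) (nat_lit 152) (nat_lit 15665717523) (nat_lit 0) (nat_lit 355380030) (nat_lit 36) (nat_lit 5) (nat_lit 38) (nat_lit 4) (nat_lit 36) (nat_lit 4) (nat_lit 504) (nat_lit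 361) (nat_lit 335))) (XT.nd (nat_lit 78) (nat_lit 76) (nat_lit 0) (XT.lf (nat_lit 0) (nat_lit 12676223706) (nat_lit 152) (nat_lit 2933469506) (nat_lit 0) (nat_lit 6878654336) (nat_lit 36) (nat_lit 5) (nat_lit 38) (nat_lit 4) (nat_lit 36) (nat_lit 4) (nat_lit 505) (nat_lit 361) (nat_lit 334)) (XT.lf (nat_lit 0) (nat_lit 10196094221) (nat_lit 76) (nat_lit 9349201159) (nat_lit 76) (nat_lit 3413367018) (nat_lit 35) (nat_lit 4) (nat_lit 36) (nat_lit 5) (nat_lit 36) (nat_lit 4) (nat_lit 506) (nat_lit 361) (nat_lit 333)))))) (XT.nd (nat_lit 546) (nat_lit 380) (nat_lit 0) (XT.nd (nat_lit 234) (nat_lit 228) (nat_lit 0) (XT.nd (nat_lit 78) (nat_lit 76) (nat_lit 0) (XT.lf (nat_lit 0) (nat_lit 125393378) (nat_lit 76) (nat_lit 2926559902) (nat_lit 152) (nat_lit 20392121482) (nat_lit 33) (nat_lit 5) (nat_lit 34) (nat_lit 5) (nat_lit 35) (nat_lit 4) (nat_lit 507) (nat_lit 361) (nat_lit 332)) (XT.nd (nat_lit 78) (nat_lit 76) (nat_lit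 0) (XT.lf (nat_lit 0) (nat_lit 9713875741) (nat_lit 152) (nat_lit 10532954479) (nat_lit 0) (nat_lit 3694070316) (nat_lit 33) (nat_lit 5) (nat_lit 35) (nat_lit 4) (nat_lit 33) (nat_lit 4) (nat_lit 508) (nat_lit 361) (nat_lit 331)) (XT.lf (nat_lit 0) (nat_lit 2477207774) (nat_lit 76) (nat_lit 14059621140) (nat_lit 76) (nat_lit 7916969257) (nat_lit 32) (nat_lit 4) (nat_lit 33) (nat_lit 5) (nat_lit 33) (nat_lit 4) (nat_lit 509) (nat_lit 361) (nat_lit 330)))) (XT.nd (nat_lit 156) (nat_lit 76) (nat_lit 0) (XT.nd (nat_lit 78) (nat_lit 152) (nat_lit 0) (XT.lf (nat_lit 0) (nat_lit 15916840269) (nat_lit 76) (nat_lit 7663346738) (nat_lit 76) (nat_lit 1401426450) (nat_lit 32) (nat_lit 4) (nat_lit 33) (nat_lit 5) (nat_lit 33) (nat_lit 4) (nat_lit 510) (nat_lit 361) (nat_lit 329)) (XT.lf (nat_lit 0) (nat_lit 4089793413) (nat_lit 76) (nat_lit 1066614601) (nat_lit 152) (nat_lit 20368813071) (nat_lit 30) (nat_lit 5) (nat_lit 31)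 (nat_lit 5) (nat_lit 32) (nat_lit 4) (nat_lit 511) (nat_lit 361) (nat_lit 328))) (XT.nd (nat_lit 78) (nat_lit 76) (nat_lit 0) (XT.lf (nat_lit 0) (nat_lit 11941568653) (nat_lit 152) (nat_lit 8500926301) (nat_lit 0) (nat_lit 5640464995) (nat_lit 30) (nat_lit 5) (nat_lit 32) (nat_lit 4) (nat_lit 30) (nat_lit 4) (nat_lit 512) (nat_lit 361) (nat_lit 327)) (XT.lf (nat_lit 0) (nat_lit 4734991563) (nat_lit 76) (nat_lit 14165208004) (nat_lit 76) (nat_lit 7758135913) (nat_lit 29) (nat_lit 4) (nat_lit 30) (nat_lit 5) (nat_lit 30) (nat_lit 4) (nat_lit 513) (nat_lit 361) (nat_lit 326))))) (XT.nd (nat_lit 312) (nat_lit 152) (nat_lit 0) (XT.nd (nat_lit 156) (nat_lit 76) (nat_lit 0) (XT.nd (nat_lit 78) (nat_lit 152) (nat_lit 0) (XT.lf (nat_lit 0) (nat_lit 18375444387) (nat_lit 76) (nat_lit 7692733110) (nat_lit 76) (nat_lit 1182779045) (nat_lit 29) (nat_lit 4) (nat_lit 30) (nat_lit 5) (nat_lit 30) (nat_lit 4) (nat_lit 514) (nat_lit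 361) (nat_lit 325)) (XT.lf (nat_lit 0) (nat_lit 4432913374) (nat_lit 76) (nat_lit 1006866355) (nat_lit 152) (nat_lit 22421195745) (nat_lit 27) (nat_lit 5) (nat_lit 28) (nat_lit 5) (nat_lit 29) (nat_lit 4) (nat_lit 515) (nat_lit 361) (nat_lit 324))) (XT.nd (nat_lit 78) (nat_lit 76) (nat_lit 0) (XT.lf (nat_lit 0) (nat_lit 12300795768) (nat_lit 152) (nat_lit 10396918730) (nat_lit 0) (nat_lit 5789324307) (nat_lit 27) (nat_lit 5) (nat_lit 29) (nat_lit 4) (nat_lit 27) (nat_lit 4) (nat_lit 516) (nat_lit 361) (nat_lit 323)) (XT.lf (nat_lit 0) (nat_lit 2913075995) (nat_lit 76) (nat_lit 16411491373) (nat_lit 76) (nat_lit 9808610610) (nat_lit 26) (nat_lit 4) (nat_lit 27) (nat_lit 5) (nat_lit 27) (nat_lit 4) (nat_lit 517) (nat_lit 361) (nat_lit 322)))) (XT.nd (nat_lit 156) (nat_lit 0) (nat_lit 0) (XT.nd (nat_lit 78) (nat_lit 152) (nat_lit 0) (XT.lf (nat_lit 0) (nat_lit 16678097044) (nat_lit 76) (nat_lit 9905744945) (nat_lit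 76) (nat_lit 3214117287) (nat_lit 26) (nat_lit 4) (nat_lit 27) (nat_lit 5) (nat_lit 27) (nat_lit 4) (nat_lit 518) (nat_lit 361) (nat_lit 321)) (XT.lf (nat_lit 0) (nat_lit 188280554) (nat_lit 76) (nat_lit 3243281143) (nat_lit 152) (nat_lit 27052396751) (nat_lit 24) (nat_lit 5) (nat_lit 25) (nat_lit 5) (nat_lit 26) (nat_lit 4) (nat_lit 519) (nat_lit 361) (nat_lit 320))) (XT.nd (nat_lit 78) (nat_lit 0) (nat_lit 0) (XT.lf (nat_lit 0) (nat_lit 10302059865) (nat_lit 152) (nat_lit 17244357522) (nat_lit 0) (nat_lit 3640465543) (nat_lit 24) (nat_lit 5) (nat_lit 26) (nat_lit 4) (nat_lit 24) (nat_lit 4) (nat_lit 520) (nat_lit 361) (nat_lit 319)) (XT.lf (nat_lit 0) (nat_lit 17334536311) (nat_lit 152) (nat_lit 3983592877) (nat_lit 0) (nat_lit 10594091522) (nat_lit 24) (nat_lit 5) (nat_lit 26) (nat_lit 4) (nat_lit 24) (nat_lit 4) (nat_lit 521) (nat_lit 361) (nat_lit 318))))))) (XT.nd (nat_lit 1170) (nat_lit 456) (nat_lit 0)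 (XT.nd (nat_lit 546) (nat_lit 380) (nat_lit 0) (XT.nd (nat_lit 234) (nat_lit 76) (nat_lit 0) (XT.nd (nat_lit 78) (nat_lit 152) (nat_lit 0) (XT.lf (nat_lit 0) (nat_lit 9719032856) (nat_lit 76) (nat_lit 14878351947) (nat_lit 76) (nat_lit 8061353308) (nat_lit 23) (nat_lit 4) (nat_lit 24) (nat_lit 5) (nat_lit 24) (nat_lit 4) (nat_lit 522) (nat_lit 361) (nat_lit 317)) (XT.nd (nat_lit 78) (nat_lit 152) (nat_lit 0) (XT.lf (nat_lit 0) (nat_lit 23770209523) (nat_lit 76) (nat_lit 8274878292) (nat_lit 76) (nat_lit 1383555525) (nat_lit 23) (nat_lit 4) (nat_lit 24) (nat_lit 5) (nat_lit 24) (nat_lit 4) (nat_lit 523) (nat_lit 361) (nat_lit 316)) (XT.lf (nat_lit 0) (nat_lit 3903205339) (nat_lit 76) (nat_lit 1449842666) (nat_lit 152) (nat_lit 28868043780) (nat_lit 21) (nat_lit 5) (nat_lit 22) (nat_lit 5) (nat_lit 23) (nat_lit 4) (nat_lit 524) (nat_lit 361) (nat_lit 315)))) (XT.nd (nat_lit 156) (nat_lit 76) (nat_lit 0) (XT.nd (nat_lit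 78) (nat_lit 0) (nat_lit 0) (XT.lf (nat_lit 0) (nat_lit 12344330327) (nat_lit 152) (nat_lit 17174511020) (nat_lit 0) (nat_lit 5515650977) (nat_lit 21) (nat_lit 5) (nat_lit 23) (nat_lit 4) (nat_lit 21) (nat_lit 4) (nat_lit 525) (nat_lit 361) (nat_lit 314)) (XT.lf (nat_lit 0) (nat_lit 19490049731) (nat_lit 152) (nat_lit 3788571060) (nat_lit 0) (nat_lit 12595334355) (nat_lit 21) (nat_lit 5) (nat_lit 23) (nat_lit 4) (nat_lit 21) (nat_lit 4) (nat_lit 526) (nat_lit 361) (nat_lit 313))) (XT.nd (nat_lit 78) (nat_lit 0) (nat_lit 0) (XT.lf (nat_lit 0) (nat_lit 10061910779) (nat_lit 76) (nat_lit 16817323735) (nat_lit 76) (nat_lit 9858495715) (nat_lit 20) (nat_lit 4) (nat_lit 21) (nat_lit 5) (nat_lit 21) (nat_lit 4) (nat_lit 527) (nat_lit 361) (nat_lit 312)) (XT.lf (nat_lit 0) (nat_lit 24273496280) (nat_lit 76) (nat_lit 10187928424) (nat_lit 76) (nat_lit 3166855118) (nat_lit 20) (nat_lit 4) (nat_lit 21) (nat_lit 5) (nat_lit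 21) (nat_lit 4) (nat_lit 528) (nat_lit 361) (nat_lit 311))))) (XT.nd (nat_lit 312) (nat_lit 152) (nat_lit 0) (XT.nd (nat_lit 156) (nat_lit 76) (nat_lit 0) (XT.nd (nat_lit 78) (nat_lit 0) (nat_lit 0) (XT.lf (nat_lit 0) (nat_lit 204529317) (nat_lit 76) (nat_lit 3384650456) (nat_lit 152) (nat_lit 34957202544) (nat_lit 18) (nat_lit 5) (nat_lit 19) (nat_lit 5) (nat_lit 20) (nat_lit 4) (nat_lit 529) (nat_lit 361) (nat_lit 310)) (XT.lf (nat_lit 0) (nat_lit 10589708605) (nat_lit 152) (nat_lit 25240718609) (nat_lit 0) (nat_lit 3657497173) (nat_lit 18) (nat_lit 5) (nat_lit 20) (nat_lit 4) (nat_lit 18) (nat_lit 4) (nat_lit 530) (nat_lit 361) (nat_lit 309))) (XT.nd (nat_lit 78) (nat_lit 76) (nat_lit 0) (XT.lf (nat_lit 0) (nat_lit 17770121335) (nat_lit 152) (nat_lit 11905890597) (nat_lit 0) (nat_lit 10782605772) (nat_lit 18) (nat_lit 5) (nat_lit 20) (nat_lit 4) (nat_lit 18) (nat_lit 4) (nat_lit 531) (nat_lit 361) (nat_lit 308))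 (XT.lf (nat_lit 0) (nat_lit 1740787185) (nat_lit 76) (nat_lit 23380103105) (nat_lit 76) (nat_lit 16338894211) (nat_lit 17) (nat_lit 4) (nat_lit 18) (nat_lit 5) (nat_lit 18) (nat_lit 4) (nat_lit 532) (nat_lit 361) (nat_lit 307)))) (XT.nd (nat_lit 156) (nat_lit 152) (nat_lit 0) (XT.nd (nat_lit 78) (nat_lit 0) (nat_lit 0) (XT.lf (nat_lit 0) (nat_lit 15919957977) (nat_lit 76) (nat_lit 16831297717) (nat_lit 76) (nat_lit 9737959375) (nat_lit 17) (nat_lit 4) (nat_lit 18) (nat_lit 5) (nat_lit 18) (nat_lit 4) (nat_lit 533) (nat_lit 361) (nat_lit 306)) (XT.lf (nat_lit 0) (nat_lit 30407060775) (nat_lit 76) (nat_lit 10144099660) (nat_lit 76) (nat_lit 3000150205) (nat_lit 17) (nat_lit 4) (nat_lit 18) (nat_lit 5) (nat_lit 18) (nat_lit 4) (nat_lit 534) (nat_lit 361) (nat_lit 305))) (XT.nd (nat_lit 78) (nat_lit 0) (nat_lit 0) (XT.lf (nat_lit 0) (nat_lit 541011049) (nat_lit 76) (nat_lit 3268889200) (nat_lit 152) (nat_lit 40835823965)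 (nat_lit 15) (nat_lit 5) (nat_lit 16) (nat_lit 5) (nat_lit 17) (nat_lit 4) (nat_lit 535) (nat_lit 361) (nat_lit 304)) (XT.lf (nat_lit 0) (nat_lit 10876489050) (nat_lit 152) (nat_lit 31045621142) (nat_lit 0) (nat_lit 3846593624) (nat_lit 15) (nat_lit 5) (nat_lit 17) (nat_lit 4) (nat_lit 15) (nat_lit 4) (nat_lit 536) (nat_lit 361) (nat_lit 303)))))) (XT.nd (nat_lit 546) (nat_lit 228) (nat_lit 0) (XT.nd (nat_lit 234) (nat_lit 152) (nat_lit 0) (XT.nd (nat_lit 78) (nat_lit 76) (nat_lit 0) (XT.lf (nat_lit 0) (nat_lit 18130977384) (nat_lit 152) (nat_lit 17739004561) (nat_lit 0) (nat_lit 11056114639) (nat_lit 15) (nat_lit 5) (nat_lit 17) (nat_lit 4) (nat_lit 15) (nat_lit 4) (nat_lit 537) (nat_lit 361) (nat_lit 302)) (XT.nd (nat_lit 78) (nat_lit 76) (nat_lit 0) (XT.lf (nat_lit 0) (nat_lit 25548281564) (nat_lit 152) (nat_lit 4141813717) (nat_lit 0) (nat_lit 18429761228) (nat_lit 15) (nat_lit 5) (nat_lit 17) (nat_lit 4) (nat_lit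 15) (nat_lit 4) (nat_lit 538) (nat_lit 361) (nat_lit 301)) (XT.lf (nat_lit 0) (nat_lit 9952032426) (nat_lit 76) (nat_lit 23278515326) (nat_lit 76) (nat_lit 16117608978) (nat_lit 14) (nat_lit 4) (nat_lit 15) (nat_lit 5) (nat_lit 15) (nat_lit 4) (nat_lit 539) (nat_lit 361) (nat_lit 300)))) (XT.nd (nat_lit 156) (nat_lit 152) (nat_lit 0) (XT.nd (nat_lit 78) (nat_lit 0) (nat_lit 0) (XT.lf (nat_lit 0) (nat_lit 24449170578) (nat_lit 76) (nat_lit 16683259753) (nat_lit 76) (nat_lit 9481201939) (nat_lit 14) (nat_lit 4) (nat_lit 15) (nat_lit 5) (nat_lit 15) (nat_lit 4) (nat_lit 540) (nat_lit 361) (nat_lit 299)) (XT.lf (nat_lit 0) (nat_lit 39279837925) (nat_lit 76) (nat_lit 9940389917) (nat_lit 76) (nat_lit 2698379221) (nat_lit 14) (nat_lit 4) (nat_lit 15) (nat_lit 5) (nat_lit 15) (nat_lit 4) (nat_lit 541) (nat_lit 361) (nat_lit 298))) (XT.nd (nat_lit 78) (nat_lit 0) (nat_lit 0) (XT.lf (nat_lit 0) (nat_lit 1174973306) (nat_lit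 76) (nat_lit 2990432213) (nat_lit 152) (nat_lit 49097255225) (nat_lit 12) (nat_lit 5) (nat_lit 13) (nat_lit 5) (nat_lit 14) (nat_lit 4) (nat_lit 542) (nat_lit 361) (nat_lit 297)) (XT.lf (nat_lit 0) (nat_lit 11299725528) (nat_lit 152) (nat_lit 39148518778) (nat_lit 0) (nat_lit 4194425216) (nat_lit 12) (nat_lit 5) (nat_lit 14) (nat_lit 4) (nat_lit 12) (nat_lit 4) (nat_lit 543) (nat_lit 361) (nat_lit 296))))) (XT.nd (nat_lit 312) (nat_lit 152) (nat_lit 0) (XT.nd (nat_lit 156) (nat_lit 76) (nat_lit 0) (XT.nd (nat_lit 78) (nat_lit 0) (nat_lit 0) (XT.lf (nat_lit 0) (nat_lit 18629043045) (nat_lit 152) (nat_lit 25947362024) (nat_lit 0) (nat_lit 11488245115) (nat_lit 12) (nat_lit 5) (nat_lit 14) (nat_lit 4) (nat_lit 12) (nat_lit 4) (nat_lit 544) (nat_lit 361) (nat_lit 295)) (XT.lf (nat_lit 0) (nat_lit 26131016463) (nat_lit 152) (nat_lit 12443936323) (nat_lit 0) (nat_lit 18955754828) (nat_lit 12) (nat_lit 5) (nat_lit 14)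 (nat_lit 4) (nat_lit 12) (nat_lit 4) (nat_lit 545) (nat_lit 361) (nat_lit 294))) (XT.nd (nat_lit 78) (nat_lit 0) (nat_lit 0) (XT.lf (nat_lit 0) (nat_lit 1400893921) (nat_lit 76) (nat_lit 32424773234) (nat_lit 76) (nat_lit 25216051690) (nat_lit 11) (nat_lit 4) (nat_lit 12) (nat_lit 5) (nat_lit 12) (nat_lit 4) (nat_lit 546) (nat_lit 361) (nat_lit 293)) (XT.lf (nat_lit 0) (nat_lit 15826015352) (nat_lit 76) (nat_lit 26005422077) (nat_lit 76) (nat_lit 18764215185) (nat_lit 11) (nat_lit 4) (nat_lit 12) (nat_lit 5) (nat_lit 12) (nat_lit 4) (nat_lit 547) (nat_lit 361) (nat_lit 292)))) (XT.nd (nat_lit 156) (nat_lit 152) (nat_lit 0) (XT.nd (nat_lit 78) (nat_lit 0) (nat_lit 0) (XT.lf (nat_lit 0) (nat_lit 30596373711) (nat_lit 76) (nat_lit 19436949531) (nat_lit 76) (nat_lit 12164203466) (nat_lit 11) (nat_lit 4) (nat_lit 12) (nat_lit 5) (nat_lit 12) (nat_lit 4) (nat_lit 548) (nat_lit 361) (nat_lit 291)) (XT.lf (nat_lit 0) (nat_lit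 45724875136) (nat_lit 76) (nat_lit 12713616154) (nat_lit 76) (nat_lit 5410249533) (nat_lit 11) (nat_lit 4) (nat_lit 12) (nat_lit 5) (nat_lit 12) (nat_lit 4) (nat_lit 549) (nat_lit 361) (nat_lit 290))) (XT.nd (nat_lit 78) (nat_lit 76) (nat_lit 0) (XT.lf (nat_lit 0) (nat_lit 1474208488) (nat_lit 152) (nat_lit 4340452086) (nat_lit 76) (nat_lit 59735643603) (nat_lit 10) (nat_lit 5) (nat_lit 12) (nat_lit 5) (nat_lit 11) (nat_lit 4) (nat_lit 550) (nat_lit 361) (nat_lit 289)) (XT.lf (nat_lit 0) (nat_lit 8524554860) (nat_lit 152) (nat_lit 57397687530) (nat_lit 0) (nat_lit 1377022697) (nat_lit 9) (nat_lit 5) (nat_lit 11) (nat_lit 4) (nat_lit 9) (nat_lit 4) (nat_lit 551) (nat_lit 361) (nat_lit 288))))))))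
noncomputable def xc25 : XT := (XT.nd (nat_lit 58734) (nat_lit 0) (nat_lit 608) (XT.nd (nat_lit 57564) (nat_lit 0) (nat_lit 2204) (XT.nd (nat_lit 56940) (nat_lit 0) (nat_lit 3496) (XT.nd (nat_lit 56628) (nat_lit 0) (nat_lit 4408) (XT.nd (nat_lit 78) (nat_lit 0) (nat_lit 0) (XT.lf (nat_lit 0) (nat_lit 15847561199) (nat_lit 152) (nat_lit 44578476575) (nat_lit 0) (nat_lit 8672823068) (nat_lit 9) (nat_lit 5) (nat_lit 11) (nat_lit 4) (nat_lit 9) (nat_lit 4) (nat_lit 552) (nat_lit 361) (nat_lit 287)) (XT.nd (nat_lit 56472) (nat_lit 0) (nat_lit 4940) (XT.lf (nat_lit 0) (nat_lit 23350757400) (nat_lit 152) (nat_lit 31453266863) (nat_lit 0) (nat_lit 16149605708) (nat_lit 9) (nat_lit 5) (nat_lit 11) (nat_lit 4) (nat_lit 9) (nat_lit 4) (nat_lit 553) (nat_lit 361) (nat_lit 286)) (XT.lf (nat_lit 0) (nat_lit 206918329) (nat_lit 228) (nat_lit 6232646669) (nat_lit 0) (nat_lit 206918329) (nat_lit 74) (nat_lit 5) (nat_lit 77) (nat_lit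 4) (nat_lit 74) (nat_lit 4) (nat_lit 476) (nat_lit 362) (nat_lit 362)))) (XT.nd (nat_lit 156) (nat_lit 380) (nat_lit 0) (XT.nd (nat_lit 78) (nat_lit 152) (nat_lit 0) (XT.lf (nat_lit 0) (nat_lit 6259334327) (nat_lit 228) (nat_lit 1409695888) (nat_lit 0) (nat_lit 5834200096) (nat_lit 74) (nat_lit 5) (nat_lit 77) (nat_lit 4) (nat_lit 74) (nat_lit 4) (nat_lit 477) (nat_lit 362) (nat_lit 361)) (XT.lf (nat_lit 0) (nat_lit 9950902205) (nat_lit 152) (nat_lit 2303779352) (nat_lit 152) (nat_lit 1465893440) (nat_lit 72) (nat_lit 4) (nat_lit 74) (nat_lit 5) (nat_lit 74) (nat_lit 4) (nat_lit 478) (nat_lit 362) (nat_lit 360))) (XT.nd (nat_lit 78) (nat_lit 152) (nat_lit 0) (XT.lf (nat_lit 0) (nat_lit 4395933783) (nat_lit 228) (nat_lit 6353885323) (nat_lit 0) (nat_lit 3193394270) (nat_lit 69) (nat_lit 5) (nat_lit 72) (nat_lit 4) (nat_lit 69) (nat_lit 4) (nat_lit 479) (nat_lit 362) (nat_lit 359)) (XT.lf (nat_lit 0) (nat_lit 5033951243)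 (nat_lit 152) (nat_lit 5359370973) (nat_lit 152) (nat_lit 3779105201) (nat_lit 67) (nat_lit 4) (nat_lit 69) (nat_lit 5) (nat_lit 69) (nat_lit 4) (nat_lit 480) (nat_lit 362) (nat_lit 358))))) (XT.nd (nat_lit 312) (nat_lit 456) (nat_lit 0) (XT.nd (nat_lit 156) (nat_lit 304) (nat_lit 0) (XT.nd (nat_lit 78) (nat_lit 0) (nat_lit 0) (XT.lf (nat_lit 0) (nat_lit 2088403378) (nat_lit 152) (nat_lit 12122321670) (nat_lit 0) (nat_lit 198121539) (nat_lit 65) (nat_lit 5) (nat_lit 67) (nat_lit 4) (nat_lit 65) (nat_lit 4) (nat_lit 481) (nat_lit 362) (nat_lit 357)) (XT.lf (nat_lit 0) (nat_lit 8082402970) (nat_lit 152) (nat_lit 721598513) (nat_lit 0) (nat_lit 5846448096) (nat_lit 65) (nat_lit 5) (nat_lit 67) (nat_lit 4) (nat_lit 65) (nat_lit 4) (nat_lit 482) (nat_lit 362) (nat_lit 356))) (XT.nd (nat_lit 78) (nat_lit 152) (nat_lit 0) (XT.lf (nat_lit 0) (nat_lit 11020446583) (nat_lit 152) (nat_lit 3225366178) (nat_lit 152) (nat_lit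 653806416) (nat_lit 63) (nat_lit 4) (nat_lit 65) (nat_lit 5) (nat_lit 65) (nat_lit 4) (nat_lit 483) (nat_lit 362) (nat_lit 355)) (XT.lf (nat_lit 0) (nat_lit 5323103103) (nat_lit 152) (nat_lit 7321754490) (nat_lit 0) (nat_lit 2510103346) (nat_lit 61) (nat_lit 5) (nat_lit 63) (nat_lit 4) (nat_lit 61) (nat_lit 4) (nat_lit 484) (nat_lit 362) (nat_lit 354)))) (XT.nd (nat_lit 156) (nat_lit 152) (nat_lit 0) (XT.nd (nat_lit 78) (nat_lit 152) (nat_lit 0) (XT.lf (nat_lit 0) (nat_lit 4390229627) (nat_lit 152) (nat_lit 7073866541) (nat_lit 152) (nat_lit 3953740769) (nat_lit 59) (nat_lit 4) (nat_lit 61) (nat_lit 5) (nat_lit 61) (nat_lit 4) (nat_lit 485) (nat_lit 362) (nat_lit 353)) (XT.lf (nat_lit 0) (nat_lit 693367973) (nat_lit 76) (nat_lit 1332087366) (nat_lit 152) (nat_lit 13663571598) (nat_lit 57) (nat_lit 5) (nat_lit 58) (nat_lit 5) (nat_lit 59) (nat_lit 4) (nat_lit 486) (nat_lit 362) (nat_lit 352))) (XT.nd (nat_lit 78)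 (nat_lit 152) (nat_lit 0) (XT.lf (nat_lit 0) (nat_lit 8145804974) (nat_lit 152) (nat_lit 3274144065) (nat_lit 0) (nat_lit 4545997118) (nat_lit 57) (nat_lit 5) (nat_lit 59) (nat_lit 4) (nat_lit 57) (nat_lit 4) (nat_lit 487) (nat_lit 362) (nat_lit 351)) (XT.lf (nat_lit 0) (nat_lit 8745941792) (nat_lit 152) (nat_lit 5689180425) (nat_lit 152) (nat_lit 1816495083) (nat_lit 55) (nat_lit 4) (nat_lit 57) (nat_lit 5) (nat_lit 57) (nat_lit 4) (nat_lit 488) (nat_lit 362) (nat_lit 350)))))) (XT.nd (nat_lit 546) (nat_lit 532) (nat_lit 0) (XT.nd (nat_lit 234) (nat_lit 456) (nat_lit 0) (XT.nd (nat_lit 78) (nat_lit 152) (nat_lit 0) (XT.lf (nat_lit 0) (nat_lit 4249051532) (nat_lit 152) (nat_lit 12064592379) (nat_lit 0) (nat_lit 231949649) (nat_lit 53) (nat_lit 5) (nat_lit 55) (nat_lit 4) (nat_lit 53) (nat_lit 4) (nat_lit 489) (nat_lit 362) (nat_lit 349)) (XT.nd (nat_lit 78) (nat_lit 152) (nat_lit 0) (XT.lf (nat_lit 0) (nat_lit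 10481483678) (nat_lit 152) (nat_lit 151067403) (nat_lit 0) (nat_lit 6214660240) (nat_lit 53) (nat_lit 5) (nat_lit 55) (nat_lit 4) (nat_lit 53) (nat_lit 4) (nat_lit 490) (nat_lit 362) (nat_lit 348)) (XT.lf (nat_lit 0) (nat_lit 12152116047) (nat_lit 152) (nat_lit 4757389555) (nat_lit 152) (nat_lit 248118006) (nat_lit 51) (nat_lit 4) (nat_lit 53) (nat_lit 5) (nat_lit 53) (nat_lit 4) (nat_lit 491) (nat_lit 362) (nat_lit 347)))) (XT.nd (nat_lit 156) (nat_lit 152) (nat_lit 0) (XT.nd (nat_lit 78) (nat_lit 152) (nat_lit 0) (XT.lf (nat_lit 0) (nat_lit 5910651321) (nat_lit 152) (nat_lit 10261496011) (nat_lit 0) (nat_lit 1304187180) (nat_lit 49) (nat_lit 5) (nat_lit 51) (nat_lit 4) (nat_lit 49) (nat_lit 4) (nat_lit 492) (nat_lit 362) (nat_lit 346)) (XT.lf (nat_lit 0) (nat_lit 1882689965) (nat_lit 152) (nat_lit 10374965966) (nat_lit 152) (nat_lit 5546627458) (nat_lit 47) (nat_lit 4) (nat_lit 49) (nat_lit 5) (nat_lit 49) (nat_lit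 4) (nat_lit 493) (nat_lit 362) (nat_lit 345))) (XT.nd (nat_lit 78) (nat_lit 76) (nat_lit 0) (XT.lf (nat_lit 0) (nat_lit 637242865) (nat_lit 228) (nat_lit 3750147499) (nat_lit 76) (nat_lit 13754586376) (nat_lit 46) (nat_lit 5) (nat_lit 49) (nat_lit 5) (nat_lit 47) (nat_lit 4) (nat_lit 494) (nat_lit 362) (nat_lit 344)) (XT.lf (nat_lit 0) (nat_lit 6891837591) (nat_lit 152) (nat_lit 9804472900) (nat_lit 0) (nat_lit 1791945954) (nat_lit 45) (nat_lit 5) (nat_lit 47) (nat_lit 4) (nat_lit 45) (nat_lit 4) (nat_lit 495) (nat_lit 362) (nat_lit 343))))) (XT.nd (nat_lit 312) (nat_lit 228) (nat_lit 0) (XT.nd (nat_lit 156) (nat_lit 152) (nat_lit 0) (XT.nd (nat_lit 78) (nat_lit 76) (nat_lit 0) (XT.lf (nat_lit 0) (nat_lit 2529670979) (nat_lit 76) (nat_lit 10806114941) (nat_lit 76) (nat_lit 5509090803) (nat_lit 44) (nat_lit 4) (nat_lit 45) (nat_lit 5) (nat_lit 45) (nat_lit 4) (nat_lit 496) (nat_lit 362) (nat_lit 342)) (XT.lf (nat_lit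 0) (nat_lit 741823553) (nat_lit 152) (nat_lit 3982513102) (nat_lit 76) (nat_lit 14487768581) (nat_lit 43) (nat_lit 5) (nat_lit 45) (nat_lit 5) (nat_lit 44) (nat_lit 4) (nat_lit 497) (nat_lit 362) (nat_lit 341))) (XT.nd (nat_lit 78) (nat_lit 76) (nat_lit 0) (XT.lf (nat_lit 0) (nat_lit 7066726842) (nat_lit 152) (nat_lit 10964310578) (nat_lit 0) (nat_lit 1557764506) (nat_lit 42) (nat_lit 5) (nat_lit 44) (nat_lit 4) (nat_lit 42) (nat_lit 4) (nat_lit 498) (nat_lit 362) (nat_lit 340)) (XT.lf (nat_lit 0) (nat_lit 1503706816) (nat_lit 76) (nat_lit 12078590182) (nat_lit 76) (nat_lit 6394478172) (nat_lit 41) (nat_lit 4) (nat_lit 42) (nat_lit 5) (nat_lit 42) (nat_lit 4) (nat_lit 499) (nat_lit 362) (nat_lit 339)))) (XT.nd (nat_lit 156) (nat_lit 76) (nat_lit 0) (XT.nd (nat_lit 78) (nat_lit 152) (nat_lit 0) (XT.lf (nat_lit 0) (nat_lit 14378213760) (nat_lit 76) (nat_lit 5926005349) (nat_lit 76) (nat_lit 71845111) (nat_lit 41)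 (nat_lit 4) (nat_lit 42) (nat_lit 5) (nat_lit 42) (nat_lit 4) (nat_lit 500) (nat_lit 362) (nat_lit 338)) (XT.lf (nat_lit 0) (nat_lit 6285951855) (nat_lit 152) (nat_lit 14058376545) (nat_lit 0) (nat_lit 442014375) (nat_lit 39) (nat_lit 5) (nat_lit 41) (nat_lit 4) (nat_lit 39) (nat_lit 4) (nat_lit 501) (nat_lit 362) (nat_lit 337))) (XT.nd (nat_lit 78) (nat_lit 76) (nat_lit 0) (XT.lf (nat_lit 0) (nat_lit 12855180629) (nat_lit 152) (nat_lit 1497441414) (nat_lit 0) (nat_lit 6855624932) (nat_lit 39) (nat_lit 5) (nat_lit 41) (nat_lit 4) (nat_lit 39) (nat_lit 4) (nat_lit 502) (nat_lit 362) (nat_lit 336)) (XT.lf (nat_lit 0) (nat_lit 11481006221) (nat_lit 76) (nat_lit 8155990458) (nat_lit 76) (nat_lit 2005349114) (nat_lit 38) (nat_lit 4) (nat_lit 39) (nat_lit 5) (nat_lit 39) (nat_lit 4) (nat_lit 503) (nat_lit 362) (nat_lit 335))))))) (XT.nd (nat_lit 1170) (nat_lit 684) (nat_lit 0) (XT.nd (nat_lit 546) (nat_lit 456) (nat_lit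 0) (XT.nd (nat_lit 234) (nat_lit 228) (nat_lit 0) (XT.nd (nat_lit 78) (nat_lit 76) (nat_lit 0) (XT.lf (nat_lit 0) (nat_lit 2614340420) (nat_lit 76) (nat_lit 1775643254) (nat_lit 152) (nat_lit 17699810322) (nat_lit 36) (nat_lit 5) (nat_lit 37) (nat_lit 5) (nat_lit 38) (nat_lit 4) (nat_lit 504) (nat_lit 362) (nat_lit 334)) (XT.nd (nat_lit 78) (nat_lit 76) (nat_lit 0) (XT.lf (nat_lit 0) (nat_lit 10992002592) (nat_lit 152) (nat_lit 6816587360) (nat_lit 0) (nat_lit 4739828658) (nat_lit 36) (nat_lit 5) (nat_lit 38) (nat_lit 4) (nat_lit 36) (nat_lit 4) (nat_lit 505) (nat_lit 362) (nat_lit 333)) (XT.lf (nat_lit 0) (nat_lit 6146131105) (nat_lit 76) (nat_lit 11630770174) (nat_lit 76) (nat_lit 5244358598) (nat_lit 35) (nat_lit 4) (nat_lit 36) (nat_lit 5) (nat_lit 36) (nat_lit 4) (nat_lit 506) (nat_lit 362) (nat_lit 332)))) (XT.nd (nat_lit 156) (nat_lit 76) (nat_lit 0) (XT.nd (nat_lit 78) (nat_lit 76) (nat_lit 0) (XT.lf (nat_lit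 0) (nat_lit 1210280851) (nat_lit 152) (nat_lit 4059869255) (nat_lit 76) (nat_lit 18238443613) (nat_lit 34) (nat_lit 5) (nat_lit 36) (nat_lit 5) (nat_lit 35) (nat_lit 4) (nat_lit 507) (nat_lit 362) (nat_lit 331)) (XT.lf (nat_lit 0) (nat_lit 7764347904) (nat_lit 152) (nat_lit 14929738366) (nat_lit 0) (nat_lit 1314570007) (nat_lit 33) (nat_lit 5) (nat_lit 35) (nat_lit 4) (nat_lit 33) (nat_lit 4) (nat_lit 508) (nat_lit 362) (nat_lit 330))) (XT.nd (nat_lit 78) (nat_lit 76) (nat_lit 0) (XT.lf (nat_lit 0) (nat_lit 14519672466) (nat_lit 152) (nat_lit 2053285231) (nat_lit 0) (nat_lit 7950626164) (nat_lit 33) (nat_lit 5) (nat_lit 35) (nat_lit 4) (nat_lit 33) (nat_lit 4) (nat_lit 509) (nat_lit 362) (nat_lit 329)) (XT.lf (nat_lit 0) (nat_lit 11260949949) (nat_lit 76) (nat_lit 10238597805) (nat_lit 76) (nat_lit 3553756934) (nat_lit 32) (nat_lit 4) (nat_lit 33) (nat_lit 5) (nat_lit 33) (nat_lit 4) (nat_lit 510) (nat_lit 362)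 (nat_lit 328))))) (XT.nd (nat_lit 312) (nat_lit 228) (nat_lit 0) (XT.nd (nat_lit 156) (nat_lit 76) (nat_lit 0) (XT.nd (nat_lit 78) (nat_lit 76) (nat_lit 0) (XT.lf (nat_lit 0) (nat_lit 2964256054) (nat_lit 152) (nat_lit 779822991) (nat_lit 76) (nat_lit 21855909591) (nat_lit 31) (nat_lit 5) (nat_lit 33) (nat_lit 5) (nat_lit 32) (nat_lit 4) (nat_lit 511) (nat_lit 362) (nat_lit 327)) (XT.lf (nat_lit 0) (nat_lit 9673514542) (nat_lit 152) (nat_lit 13518229134) (nat_lit 0) (nat_lit 2968261855) (nat_lit 30) (nat_lit 5) (nat_lit 32) (nat_lit 4) (nat_lit 30) (nat_lit 4) (nat_lit 512) (nat_lit 362) (nat_lit 326))) (XT.nd (nat_lit 78) (nat_lit 76) (nat_lit 0) (XT.lf (nat_lit 0) (nat_lit 16545422342) (nat_lit 152) (nat_lit 455273674) (nat_lit 0) (nat_lit 9737287680) (nat_lit 30) (nat_lit 5) (nat_lit 32) (nat_lit 4) (nat_lit 30) (nat_lit 4) (nat_lit 513) (nat_lit 362) (nat_lit 325)) (XT.lf (nat_lit 0) (nat_lit 13096342506) (nat_lit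 76) (nat_lit 10571820183) (nat_lit 76) (nat_lit 3663800110) (nat_lit 29) (nat_lit 4) (nat_lit 30) (nat_lit 5) (nat_lit 30) (nat_lit 4) (nat_lit 514) (nat_lit 362) (nat_lit 324)))) (XT.nd (nat_lit 156) (nat_lit 76) (nat_lit 0) (XT.nd (nat_lit 78) (nat_lit 76) (nat_lit 0) (XT.lf (nat_lit 0) (nat_lit 2924581112) (nat_lit 152) (nat_lit 1068096543) (nat_lit 76) (nat_lit 23952498145) (nat_lit 28) (nat_lit 5) (nat_lit 30) (nat_lit 5) (nat_lit 29) (nat_lit 4) (nat_lit 515) (nat_lit 362) (nat_lit 323)) (XT.lf (nat_lit 0) (nat_lit 9706396275) (nat_lit 152) (nat_lit 16053199930) (nat_lit 0) (nat_lit 2814019787) (nat_lit 27) (nat_lit 5) (nat_lit 29) (nat_lit 4) (nat_lit 27) (nat_lit 4) (nat_lit 516) (nat_lit 362) (nat_lit 322))) (XT.nd (nat_lit 78) (nat_lit 76) (nat_lit 0) (XT.lf (nat_lit 0) (nat_lit 16663404230) (nat_lit 152) (nat_lit 2876073807) (nat_lit 0) (nat_lit 9682280848) (nat_lit 27) (nat_lit 5) (nat_lit 29) (nat_lit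 4) (nat_lit 27) (nat_lit 4) (nat_lit 517) (nat_lit 362) (nat_lit 321)) (XT.lf (nat_lit 0) (nat_lit 10756429069) (nat_lit 76) (nat_lit 13099696952) (nat_lit 76) (nat_lit 6032411536) (nat_lit 26) (nat_lit 4) (nat_lit 27) (nat_lit 5) (nat_lit 27) (nat_lit 4) (nat_lit 518) (nat_lit 362) (nat_lit 320)))))) (XT.nd (nat_lit 624) (nat_lit 304) (nat_lit 0) (XT.nd (nat_lit 312) (nat_lit 152) (nat_lit 0) (XT.nd (nat_lit 156) (nat_lit 76) (nat_lit 0) (XT.nd (nat_lit 78) (nat_lit 76) (nat_lit 0) (XT.lf (nat_lit 0) (nat_lit 628844339) (nat_lit 152) (nat_lit 5874383867) (nat_lit 76) (nat_lit 24073304545) (nat_lit 25) (nat_lit 5) (nat_lit 27) (nat_lit 5) (nat_lit 26) (nat_lit 4) (nat_lit 519) (nat_lit 362) (nat_lit 319)) (XT.lf (nat_lit 0) (nat_lit 7372282915) (nat_lit 152) (nat_lit 23560212509) (nat_lit 0) (nat_lit 350774317) (nat_lit 24) (nat_lit 5) (nat_lit 26) (nat_lit 4) (nat_lit 24) (nat_lit 4) (nat_lit 520) (nat_lit 362)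 (nat_lit 318))) (XT.nd (nat_lit 78) (nat_lit 76) (nat_lit 0) (XT.lf (nat_lit 0) (nat_lit 14368292595) (nat_lit 152) (nat_lit 10371179483) (nat_lit 0) (nat_lit 7270230145) (nat_lit 24) (nat_lit 5) (nat_lit 26) (nat_lit 4) (nat_lit 24) (nat_lit 4) (nat_lit 521) (nat_lit 362) (nat_lit 317)) (XT.lf (nat_lit 0) (nat_lit 3133292383) (nat_lit 76) (nat_lit 18399137910) (nat_lit 76) (nat_lit 11226751333) (nat_lit 23) (nat_lit 4) (nat_lit 24) (nat_lit 5) (nat_lit 24) (nat_lit 4) (nat_lit 522) (nat_lit 362) (nat_lit 316)))) (XT.nd (nat_lit 156) (nat_lit 76) (nat_lit 0) (XT.nd (nat_lit 78) (nat_lit 76) (nat_lit 0) (XT.lf (nat_lit 0) (nat_lit 17115509469) (nat_lit 76) (nat_lit 11829587529) (nat_lit 76) (nat_lit 4585041606) (nat_lit 23) (nat_lit 4) (nat_lit 24) (nat_lit 5) (nat_lit 24) (nat_lit 4) (nat_lit 523) (nat_lit 362) (nat_lit 315)) (XT.lf (nat_lit 0) (nat_lit 2142161203) (nat_lit 152) (nat_lit 2966016299) (nat_lit 76)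 (nat_lit 29217489606) (nat_lit 22) (nat_lit 5) (nat_lit 24) (nat_lit 5) (nat_lit 23) (nat_lit 4) (nat_lit 524) (nat_lit 362) (nat_lit 314))) (XT.nd (nat_lit 78) (nat_lit 0) (nat_lit 0) (XT.lf (nat_lit 0) (nat_lit 9034597442) (nat_lit 152) (nat_lit 24240431609) (nat_lit 0) (nat_lit 1867004582) (nat_lit 21) (nat_lit 5) (nat_lit 23) (nat_lit 4) (nat_lit 21) (nat_lit 4) (nat_lit 525) (nat_lit 362) (nat_lit 313)) (XT.lf (nat_lit 0) (nat_lit 16147002834) (nat_lit 152) (nat_lit 10920196299) (nat_lit 0) (nat_lit 8915297328) (nat_lit 21) (nat_lit 5) (nat_lit 23) (nat_lit 4) (nat_lit 21) (nat_lit 4) (nat_lit 526) (nat_lit 362) (nat_lit 312))))) (XT.nd (nat_lit 312) (nat_lit 76) (nat_lit 0) (XT.nd (nat_lit 156) (nat_lit 152) (nat_lit 0) (XT.nd (nat_lit 78) (nat_lit 0) (nat_lit 0) (XT.lf (nat_lit 0) (nat_lit 2723291728) (nat_lit 76) (nat_lit 20710008893) (nat_lit 76) (nat_lit 13416058101) (nat_lit 20) (nat_lit 4) (nat_lit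 21) (nat_lit 5) (nat_lit 21) (nat_lit 4) (nat_lit 527) (nat_lit 362) (nat_lit 311)) (XT.lf (nat_lit 0) (nat_lit 16871711708) (nat_lit 76) (nat_lit 14111770266) (nat_lit 76) (nat_lit 6757387158) (nat_lit 20) (nat_lit 4) (nat_lit 21) (nat_lit 5) (nat_lit 21) (nat_lit 4) (nat_lit 528) (nat_lit 362) (nat_lit 310))) (XT.nd (nat_lit 78) (nat_lit 76) (nat_lit 0) (XT.lf (nat_lit 0) (nat_lit 35361131) (nat_lit 152) (nat_lit 7341272164) (nat_lit 76) (nat_lit 31284374809) (nat_lit 19) (nat_lit 5) (nat_lit 21) (nat_lit 5) (nat_lit 20) (nat_lit 4) (nat_lit 529) (nat_lit 362) (nat_lit 309)) (XT.lf (nat_lit 0) (nat_lit 6530888610) (nat_lit 76) (nat_lit 366109973) (nat_lit 152) (nat_lit 32709718838) (nat_lit 18) (nat_lit 5) (nat_lit 19) (nat_lit 5) (nat_lit 20) (nat_lit 4) (nat_lit 530) (nat_lit 362) (nat_lit 308)))) (XT.nd (nat_lit 156) (nat_lit 76) (nat_lit 0) (XT.nd (nat_lit 78) (nat_lit 0) (nat_lit 0) (XT.lf (nat_lit 0) (nat_lit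 14043453781) (nat_lit 152) (nat_lit 19797660885) (nat_lit 0) (nat_lit 6737315289) (nat_lit 18) (nat_lit 5) (nat_lit 20) (nat_lit 4) (nat_lit 18) (nat_lit 4) (nat_lit 531) (nat_lit 362) (nat_lit 307)) (XT.lf (nat_lit 0) (nat_lit 21347937517) (nat_lit 152) (nat_lit 6243378691) (nat_lit 0) (nat_lit 13989669578) (nat_lit 18) (nat_lit 5) (nat_lit 20) (nat_lit 4) (nat_lit 18) (nat_lit 4) (nat_lit 532) (nat_lit 362) (nat_lit 306))) (XT.nd (nat_lit 78) (nat_lit 0) (nat_lit 0) (XT.lf (nat_lit 0) (nat_lit 7753682870) (nat_lit 76) (nat_lit 21134163349) (nat_lit 76) (nat_lit 13725284296) (nat_lit 17) (nat_lit 4) (nat_lit 18) (nat_lit 5) (nat_lit 18) (nat_lit 4) (nat_lit 533) (nat_lit 362) (nat_lit 305)) (XT.lf (nat_lit 0) (nat_lit 22184616977) (nat_lit 76) (nat_lit 14474738736) (nat_lit 76) (nat_lit 7016722679) (nat_lit 17) (nat_lit 4) (nat_lit 18) (nat_lit 5) (nat_lit 18) (nat_lit 4) (nat_lit 534) (nat_lit 362) (nat_lit 304))))))))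
noncomputable def xc26 : XT := (XT.nd (nat_lit 58578) (nat_lit 0) (nat_lit 1444) (XT.nd (nat_lit 1170) (nat_lit 152) (nat_lit 0) (XT.nd (nat_lit 546) (nat_lit 228) (nat_lit 0) (XT.nd (nat_lit 234) (nat_lit 76) (nat_lit 0) (XT.nd (nat_lit 78) (nat_lit 152) (nat_lit 0) (XT.lf (nat_lit 0) (nat_lit 36937777707) (nat_lit 76) (nat_lit 7670269337) (nat_lit 76) (nat_lit 164547451) (nat_lit 17) (nat_lit 4) (nat_lit 18) (nat_lit 5) (nat_lit 18) (nat_lit 4) (nat_lit 535) (nat_lit 362) (nat_lit 303)) (XT.nd (nat_lit 78) (nat_lit 0) (nat_lit 0) (XT.lf (nat_lit 0) (nat_lit 6177235718) (nat_lit 76) (nat_lit 585953416) (nat_lit 152) (nat_lit 39136694720) (nat_lit 15) (nat_lit 5) (nat_lit 16) (nat_lit 5) (nat_lit 17) (nat_lit 4) (nat_lit 536) (nat_lit 362) (nat_lit 302)) (XT.lf (nat_lit 0) (nat_lit 13985040588) (nat_lit 152) (nat_lit 26463908487) (nat_lit 0) (nat_lit 6609307050) (nat_lit 15) (nat_lit 5) (nat_lit 17) (nat_lit 4)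 (nat_lit 15) (nat_lit 4) (nat_lit 537) (nat_lit 362) (nat_lit 301)))) (XT.nd (nat_lit 156) (nat_lit 0) (nat_lit 0) (XT.nd (nat_lit 78) (nat_lit 76) (nat_lit 0) (XT.lf (nat_lit 0) (nat_lit 21376126965) (nat_lit 152) (nat_lit 12918668591) (nat_lit 0) (nat_lit 13958007416) (nat_lit 15) (nat_lit 5) (nat_lit 17) (nat_lit 4) (nat_lit 15) (nat_lit 4) (nat_lit 538) (nat_lit 362) (nat_lit 300)) (XT.lf (nat_lit 0) (nat_lit 949059306) (nat_lit 76) (nat_lit 27997337584) (nat_lit 76) (nat_lit 20538066568) (nat_lit 14) (nat_lit 4) (nat_lit 15) (nat_lit 5) (nat_lit 15) (nat_lit 4) (nat_lit 539) (nat_lit 362) (nat_lit 299))) (XT.nd (nat_lit 78) (nat_lit 0) (nat_lit 0) (XT.lf (nat_lit 0) (nat_lit 15396254133) (nat_lit 76) (nat_lit 21426832456) (nat_lit 76) (nat_lit 13927608559) (nat_lit 14) (nat_lit 4) (nat_lit 15) (nat_lit 5) (nat_lit 15) (nat_lit 4) (nat_lit 540) (nat_lit 362) (nat_lit 298)) (XT.lf (nat_lit 0) (nat_lit 30178432816)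 (nat_lit 76) (nat_lit 14707992178) (nat_lit 76) (nat_lit 7169979076) (nat_lit 14) (nat_lit 4) (nat_lit 15) (nat_lit 5) (nat_lit 15) (nat_lit 4) (nat_lit 541) (nat_lit 362) (nat_lit 297))))) (XT.nd (nat_lit 312) (nat_lit 76) (nat_lit 0) (XT.nd (nat_lit 156) (nat_lit 0) (nat_lit 0) (XT.nd (nat_lit 78) (nat_lit 152) (nat_lit 0) (XT.lf (nat_lit 0) (nat_lit 45308511821) (nat_lit 76) (nat_lit 7834945917) (nat_lit 76) (nat_lit 259273393) (nat_lit 14) (nat_lit 4) (nat_lit 15) (nat_lit 5) (nat_lit 15) (nat_lit 4) (nat_lit 542) (nat_lit 362) (nat_lit 296)) (XT.lf (nat_lit 0) (nat_lit 6061676874) (nat_lit 76) (nat_lit 674240339) (nat_lit 152) (nat_lit 48051223452) (nat_lit 12) (nat_lit 5) (nat_lit 13) (nat_lit 5) (nat_lit 14) (nat_lit 4) (nat_lit 543) (nat_lit 362) (nat_lit 295))) (XT.nd (nat_lit 78) (nat_lit 0) (nat_lit 0) (XT.lf (nat_lit 0) (nat_lit 14035490650) (nat_lit 152) (nat_lit 35564015854) (nat_lit 0) (nat_lit 6610507460)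 (nat_lit 12) (nat_lit 5) (nat_lit 14) (nat_lit 4) (nat_lit 12) (nat_lit 4) (nat_lit 544) (nat_lit 362) (nat_lit 294)) (XT.lf (nat_lit 0) (nat_lit 21514878759) (nat_lit 152) (nat_lit 22105434839) (nat_lit 0) (nat_lit 14056435660) (nat_lit 12) (nat_lit 5) (nat_lit 14) (nat_lit 4) (nat_lit 12) (nat_lit 4) (nat_lit 545) (nat_lit 362) (nat_lit 293)))) (XT.nd (nat_lit 156) (nat_lit 0) (nat_lit 0) (XT.nd (nat_lit 78) (nat_lit 76) (nat_lit 0) (XT.lf (nat_lit 0) (nat_lit 29174135717) (nat_lit 152) (nat_lit 8331479610) (nat_lit 0) (nat_lit 21683207270) (nat_lit 12) (nat_lit 5) (nat_lit 14) (nat_lit 4) (nat_lit 12) (nat_lit 4) (nat_lit 546) (nat_lit 362) (nat_lit 292)) (XT.lf (nat_lit 0) (nat_lit 5884717357) (nat_lit 76) (nat_lit 31191804226) (nat_lit 76) (nat_lit 23669336605) (nat_lit 11) (nat_lit 4) (nat_lit 12) (nat_lit 5) (nat_lit 12) (nat_lit 4) (nat_lit 547) (nat_lit 362) (nat_lit 291))) (XT.nd (nat_lit 78) (nat_lit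 0) (nat_lit 0) (XT.lf (nat_lit 0) (nat_lit 20613219713) (nat_lit 76) (nat_lit 24644116579) (nat_lit 76) (nat_lit 17091028402) (nat_lit 11) (nat_lit 4) (nat_lit 12) (nat_lit 5) (nat_lit 12) (nat_lit 4) (nat_lit 548) (nat_lit 362) (nat_lit 290)) (XT.lf (nat_lit 0) (nat_lit 35701084243) (nat_lit 76) (nat_lit 17940962715) (nat_lit 76) (nat_lit 10358145844) (nat_lit 11) (nat_lit 4) (nat_lit 12) (nat_lit 5) (nat_lit 12) (nat_lit 4) (nat_lit 549) (nat_lit 362) (nat_lit 289)))))) (XT.nd (nat_lit 56784) (nat_lit 0) (nat_lit 3952) (XT.nd (nat_lit 234) (nat_lit 0) (nat_lit 0) (XT.nd (nat_lit 78) (nat_lit 152) (nat_lit 0) (XT.lf (nat_lit 0) (nat_lit 51161494517) (nat_lit 76) (nat_lit 11076485511) (nat_lit 76) (nat_lit 3464805828) (nat_lit 11) (nat_lit 4) (nat_lit 12) (nat_lit 5) (nat_lit 12) (nat_lit 4) (nat_lit 550) (nat_lit 362) (nat_lit 288)) (XT.nd (nat_lit 78) (nat_lit 76) (nat_lit 0) (XT.lf (nat_lit 0) (nat_lit 3524863260)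 (nat_lit 152) (nat_lit 484229411) (nat_lit 76) (nat_lit 63447502164) (nat_lit 10) (nat_lit 5) (nat_lit 12) (nat_lit 5) (nat_lit 11) (nat_lit 4) (nat_lit 551) (nat_lit 362) (nat_lit 287)) (XT.lf (nat_lit 0) (nat_lit 10785079107) (nat_lit 152) (nat_lit 55131516136) (nat_lit 0) (nat_lit 3341479304) (nat_lit 9) (nat_lit 5) (nat_lit 11) (nat_lit 4) (nat_lit 9) (nat_lit 4) (nat_lit 552) (nat_lit 362) (nat_lit 286)))) (XT.nd (nat_lit 56394) (nat_lit 0) (nat_lit 4940) (XT.nd (nat_lit 56316) (nat_lit 0) (nat_lit 5320) (XT.lf (nat_lit 0) (nat_lit 18269383764) (nat_lit 152) (nat_lit 42043887164) (nat_lit 0) (nat_lit 10800139727) (nat_lit 9) (nat_lit 5) (nat_lit 11) (nat_lit 4) (nat_lit 9) (nat_lit 4) (nat_lit 553) (nat_lit 362) (nat_lit 285)) (XT.lf (nat_lit 0) (nat_lit 1218194399) (nat_lit 228) (nat_lit 4006099479) (nat_lit 0) (nat_lit 1218194399) (nat_lit 79) (nat_lit 5) (nat_lit 82) (nat_lit 4) (nat_lit 79) (nat_lit 4)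 (nat_lit 474) (nat_lit 363) (nat_lit 363))) (XT.nd (nat_lit 78) (nat_lit 228) (nat_lit 0) (XT.lf (nat_lit 0) (nat_lit 2860472768) (nat_lit 152) (nat_lit 5338517835) (nat_lit 152) (nat_lit 4887492929) (nat_lit 77) (nat_lit 4) (nat_lit 79) (nat_lit 5) (nat_lit 79) (nat_lit 4) (nat_lit 475) (nat_lit 363) (nat_lit 362)) (XT.lf (nat_lit 0) (nat_lit 716732219) (nat_lit 152) (nat_lit 74226097) (nat_lit 228) (nat_lit 12503835220) (nat_lit 74) (nat_lit 5) (nat_lit 76) (nat_lit 5) (nat_lit 77) (nat_lit 4) (nat_lit 476) (nat_lit 363) (nat_lit 361))))) (XT.nd (nat_lit 312) (nat_lit 456) (nat_lit 0) (XT.nd (nat_lit 156) (nat_lit 380) (nat_lit 0) (XT.nd (nat_lit 78) (nat_lit 152) (nat_lit 0) (XT.lf (nat_lit 0) (nat_lit 6576053056) (nat_lit 228) (nat_lit 1630541111) (nat_lit 0) (nat_lit 5300278886) (nat_lit 74) (nat_lit 5) (nat_lit 77) (nat_lit 4) (nat_lit 74) (nat_lit 4) (nat_lit 477) (nat_lit 363) (nat_lit 360)) (XT.lf (nat_lit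 0) (nat_lit 9617937553) (nat_lit 152) (nat_lit 2892311175) (nat_lit 152) (nat_lit 1215807218) (nat_lit 72) (nat_lit 4) (nat_lit 74) (nat_lit 5) (nat_lit 74) (nat_lit 4) (nat_lit 478) (nat_lit 363) (nat_lit 359))) (XT.nd (nat_lit 78) (nat_lit 152) (nat_lit 0) (XT.lf (nat_lit 0) (nat_lit 4572785385) (nat_lit 228) (nat_lit 6810505527) (nat_lit 0) (nat_lit 2567385382) (nat_lit 69) (nat_lit 5) (nat_lit 72) (nat_lit 4) (nat_lit 69) (nat_lit 4) (nat_lit 479) (nat_lit 363) (nat_lit 358)) (XT.lf (nat_lit 0) (nat_lit 4460168868) (nat_lit 152) (nat_lit 6046871671) (nat_lit 152) (nat_lit 3674747145) (nat_lit 67) (nat_lit 4) (nat_lit 69) (nat_lit 5) (nat_lit 69) (nat_lit 4) (nat_lit 480) (nat_lit 363) (nat_lit 357)))) (XT.nd (nat_lit 156) (nat_lit 304) (nat_lit 0) (XT.nd (nat_lit 78) (nat_lit 0) (nat_lit 0) (XT.lf (nat_lit 0) (nat_lit 1584568468) (nat_lit 76) (nat_lit 539932132) (nat_lit 152) (nat_lit 12295666052) (nat_lit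 65) (nat_lit 5) (nat_lit 66) (nat_lit 5) (nat_lit 67) (nat_lit 4) (nat_lit 481) (nat_lit 363) (nat_lit 356)) (XT.lf (nat_lit 0) (nat_lit 8055997196) (nat_lit 152) (nat_lit 1535964850) (nat_lit 0) (nat_lit 5071685753) (nat_lit 65) (nat_lit 5) (nat_lit 67) (nat_lit 4) (nat_lit 65) (nat_lit 4) (nat_lit 482) (nat_lit 363) (nat_lit 355))) (XT.nd (nat_lit 78) (nat_lit 152) (nat_lit 0) (XT.lf (nat_lit 0) (nat_lit 10084634739) (nat_lit 152) (nat_lit 4070133120) (nat_lit 152) (nat_lit 759991690) (nat_lit 63) (nat_lit 4) (nat_lit 65) (nat_lit 5) (nat_lit 65) (nat_lit 4) (nat_lit 483) (nat_lit 363) (nat_lit 354)) (XT.lf (nat_lit 0) (nat_lit 5144420284) (nat_lit 152) (nat_lit 8404386816) (nat_lit 0) (nat_lit 1623564726) (nat_lit 61) (nat_lit 5) (nat_lit 63) (nat_lit 4) (nat_lit 61) (nat_lit 4) (nat_lit 484) (nat_lit 363) (nat_lit 353))))))) (XT.nd (nat_lit 1170) (nat_lit 1064) (nat_lit 0) (XT.nd (nat_lit 546) (nat_lit 684)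 (nat_lit 0) (XT.nd (nat_lit 234) (nat_lit 456) (nat_lit 0) (XT.nd (nat_lit 78) (nat_lit 152) (nat_lit 0) (XT.lf (nat_lit 0) (nat_lit 3180527900) (nat_lit 152) (nat_lit 8037884417) (nat_lit 152) (nat_lit 4218848262) (nat_lit 59) (nat_lit 4) (nat_lit 61) (nat_lit 5) (nat_lit 61) (nat_lit 4) (nat_lit 485) (nat_lit 363) (nat_lit 352)) (XT.nd (nat_lit 78) (nat_lit 76) (nat_lit 0) (XT.lf (nat_lit 0) (nat_lit 1703566703) (nat_lit 228) (nat_lit 650291471) (nat_lit 76) (nat_lit 13356530056) (nat_lit 58) (nat_lit 5) (nat_lit 61) (nat_lit 5) (nat_lit 59) (nat_lit 4) (nat_lit 486) (nat_lit 363) (nat_lit 351)) (XT.lf (nat_lit 0) (nat_lit 7752531189) (nat_lit 152) (nat_lit 4746132506) (nat_lit 0) (nat_lit 3490787801) (nat_lit 57) (nat_lit 5) (nat_lit 59) (nat_lit 4) (nat_lit 57) (nat_lit 4) (nat_lit 487) (nat_lit 363) (nat_lit 350)))) (XT.nd (nat_lit 156) (nat_lit 152) (nat_lit 0) (XT.nd (nat_lit 78) (nat_lit 152) (nat_lit 0)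 (XT.lf (nat_lit 0) (nat_lit 7141955375) (nat_lit 152) (nat_lit 6830955400) (nat_lit 152) (nat_lit 2304282414) (nat_lit 55) (nat_lit 4) (nat_lit 57) (nat_lit 5) (nat_lit 57) (nat_lit 4) (nat_lit 488) (nat_lit 363) (nat_lit 349)) (XT.lf (nat_lit 0) (nat_lit 2723349066) (nat_lit 76) (nat_lit 974796378) (nat_lit 152) (nat_lit 12875346072) (nat_lit 53) (nat_lit 5) (nat_lit 54) (nat_lit 5) (nat_lit 55) (nat_lit 4) (nat_lit 489) (nat_lit 363) (nat_lit 348))) (XT.nd (nat_lit 78) (nat_lit 152) (nat_lit 0) (XT.lf (nat_lit 0) (nat_lit 9867908355) (nat_lit 152) (nat_lit 2028172667) (nat_lit 0) (nat_lit 4980910547) (nat_lit 53) (nat_lit 5) (nat_lit 55) (nat_lit 4) (nat_lit 53) (nat_lit 4) (nat_lit 490) (nat_lit 363) (nat_lit 347)) (XT.lf (nat_lit 0) (nat_lit 10137716642) (nat_lit 152) (nat_lit 6087103497) (nat_lit 152) (nat_lit 964719173) (nat_lit 51) (nat_lit 4) (nat_lit 53) (nat_lit 5) (nat_lit 53) (nat_lit 4) (nat_lit 491)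 (nat_lit 363) (nat_lit 346))))) (XT.nd (nat_lit 312) (nat_lit 228) (nat_lit 0) (XT.nd (nat_lit 156) (nat_lit 304) (nat_lit 0) (XT.nd (nat_lit 78) (nat_lit 0) (nat_lit 0) (XT.lf (nat_lit 0) (nat_lit 5047985560) (nat_lit 76) (nat_lit 74625514) (nat_lit 152) (nat_lit 12388410499) (nat_lit 49) (nat_lit 5) (nat_lit 50) (nat_lit 5) (nat_lit 51) (nat_lit 4) (nat_lit 492) (nat_lit 363) (nat_lit 345)) (XT.lf (nat_lit 0) (nat_lit 11399249969) (nat_lit 152) (nat_lit 453058488) (nat_lit 0) (nat_lit 5988774931) (nat_lit 49) (nat_lit 5) (nat_lit 51) (nat_lit 4) (nat_lit 49) (nat_lit 4) (nat_lit 493) (nat_lit 363) (nat_lit 344))) (XT.nd (nat_lit 78) (nat_lit 152) (nat_lit 0) (XT.lf (nat_lit 0) (nat_lit 11956273829) (nat_lit 152) (nat_lit 5921983962) (nat_lit 152) (nat_lit 302371054) (nat_lit 47) (nat_lit 4) (nat_lit 49) (nat_lit 5) (nat_lit 49) (nat_lit 4) (nat_lit 494) (nat_lit 363) (nat_lit 343)) (XT.lf (nat_lit 0) (nat_lit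 5867503754) (nat_lit 152) (nat_lit 12447776011) (nat_lit 0) (nat_lit 214436390) (nat_lit 45) (nat_lit 5) (nat_lit 47) (nat_lit 4) (nat_lit 45) (nat_lit 4) (nat_lit 495) (nat_lit 363) (nat_lit 342)))) (XT.nd (nat_lit 156) (nat_lit 152) (nat_lit 0) (XT.nd (nat_lit 78) (nat_lit 76) (nat_lit 0) (XT.lf (nat_lit 0) (nat_lit 12237259894) (nat_lit 152) (nat_lit 258502303) (nat_lit 0) (nat_lit 6392801751) (nat_lit 45) (nat_lit 5) (nat_lit 47) (nat_lit 4) (nat_lit 45) (nat_lit 4) (nat_lit 496) (nat_lit 363) (nat_lit 341)) (XT.lf (nat_lit 0) (nat_lit 12349194277) (nat_lit 76) (nat_lit 6469324242) (nat_lit 76) (nat_lit 439049810) (nat_lit 44) (nat_lit 4) (nat_lit 45) (nat_lit 5) (nat_lit 45) (nat_lit 4) (nat_lit 497) (nat_lit 363) (nat_lit 340))) (XT.nd (nat_lit 78) (nat_lit 0) (nat_lit 0) (XT.lf (nat_lit 0) (nat_lit 5565807669) (nat_lit 76) (nat_lit 235417092) (nat_lit 152) (nat_lit 13835964354) (nat_lit 42) (nat_lit 5) (nat_lit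 43) (nat_lit 5) (nat_lit 44) (nat_lit 4) (nat_lit 498) (nat_lit 363) (nat_lit 339)) (XT.lf (nat_lit 0) (nat_lit 12251809119) (nat_lit 152) (nat_lit 1723328522) (nat_lit 0) (nat_lit 6051975846) (nat_lit 42) (nat_lit 5) (nat_lit 44) (nat_lit 4) (nat_lit 42) (nat_lit 4) (nat_lit 499) (nat_lit 363) (nat_lit 338)))))) (XT.nd (nat_lit 624) (nat_lit 532) (nat_lit 0) (XT.nd (nat_lit 312) (nat_lit 228) (nat_lit 0) (XT.nd (nat_lit 156) (nat_lit 76) (nat_lit 0) (XT.nd (nat_lit 78) (nat_lit 152) (nat_lit 0) (XT.lf (nat_lit 0) (nat_lit 11024906732) (nat_lit 76) (nat_lit 7884182605) (nat_lit 76) (nat_lit 1519253966) (nat_lit 41) (nat_lit 4) (nat_lit 42) (nat_lit 5) (nat_lit 42) (nat_lit 4) (nat_lit 500) (nat_lit 363) (nat_lit 337)) (XT.lf (nat_lit 0) (nat_lit 3181231946) (nat_lit 76) (nat_lit 1600269210) (nat_lit 152) (nat_lit 16060098105) (nat_lit 39) (nat_lit 5) (nat_lit 40) (nat_lit 5) (nat_lit 41) (nat_lit 4) (nat_lit 501)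 (nat_lit 363) (nat_lit 336))) (XT.nd (nat_lit 78) (nat_lit 76) (nat_lit 0) (XT.lf (nat_lit 0) (nat_lit 11288622020) (nat_lit 152) (nat_lit 5174370272) (nat_lit 0) (nat_lit 4802375787) (nat_lit 39) (nat_lit 5) (nat_lit 41) (nat_lit 4) (nat_lit 39) (nat_lit 4) (nat_lit 502) (nat_lit 363) (nat_lit 335)) (XT.lf (nat_lit 0) (nat_lit 7641463913) (nat_lit 76) (nat_lit 10346701909) (nat_lit 76) (nat_lit 3713770582) (nat_lit 38) (nat_lit 4) (nat_lit 39) (nat_lit 5) (nat_lit 39) (nat_lit 4) (nat_lit 503) (nat_lit 363) (nat_lit 334)))) (XT.nd (nat_lit 156) (nat_lit 76) (nat_lit 0) (XT.nd (nat_lit 78) (nat_lit 76) (nat_lit 0) (XT.lf (nat_lit 0) (nat_lit 2644445818) (nat_lit 152) (nat_lit 1407119030) (nat_lit 76) (nat_lit 18100427310) (nat_lit 37) (nat_lit 5) (nat_lit 39) (nat_lit 5) (nat_lit 38) (nat_lit 4) (nat_lit 504) (nat_lit 363) (nat_lit 333)) (XT.lf (nat_lit 0) (nat_lit 9165413049) (nat_lit 152) (nat_lit 10994465015)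 (nat_lit 0) (nat_lit 2453171485) (nat_lit 36) (nat_lit 5) (nat_lit 38) (nat_lit 4) (nat_lit 36) (nat_lit 4) (nat_lit 505) (nat_lit 363) (nat_lit 332))) (XT.nd (nat_lit 78) (nat_lit 0) (nat_lit 0) (XT.lf (nat_lit 0) (nat_lit 1798150539) (nat_lit 76) (nat_lit 14066441219) (nat_lit 76) (nat_lit 7223871848) (nat_lit 35) (nat_lit 4) (nat_lit 36) (nat_lit 5) (nat_lit 36) (nat_lit 4) (nat_lit 506) (nat_lit 363) (nat_lit 331)) (XT.lf (nat_lit 0) (nat_lit 15028543077) (nat_lit 76) (nat_lit 7759008207) (nat_lit 76) (nat_lit 789906985) (nat_lit 35) (nat_lit 4) (nat_lit 36) (nat_lit 5) (nat_lit 36) (nat_lit 4) (nat_lit 507) (nat_lit 363) (nat_lit 330))))) (XT.nd (nat_lit 312) (nat_lit 228) (nat_lit 0) (XT.nd (nat_lit 156) (nat_lit 152) (nat_lit 0) (XT.nd (nat_lit 78) (nat_lit 0) (nat_lit 0) (XT.lf (nat_lit 0) (nat_lit 4437089300) (nat_lit 76) (nat_lit 1242239261) (nat_lit 152) (nat_lit 18401428513) (nat_lit 33) (nat_lit 5)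 (nat_lit 34) (nat_lit 5) (nat_lit 35) (nat_lit 4) (nat_lit 508) (nat_lit 363) (nat_lit 329)) (XT.lf (nat_lit 0) (nat_lit 12380171984) (nat_lit 152) (nat_lit 6838156845) (nat_lit 0) (nat_lit 5378991319) (nat_lit 33) (nat_lit 5) (nat_lit 35) (nat_lit 4) (nat_lit 33) (nat_lit 4) (nat_lit 509) (nat_lit 363) (nat_lit 328))) (XT.nd (nat_lit 78) (nat_lit 76) (nat_lit 0) (XT.lf (nat_lit 0) (nat_lit 6298779219) (nat_lit 76) (nat_lit 12972267686) (nat_lit 76) (nat_lit 5858665110) (nat_lit 32) (nat_lit 4) (nat_lit 33) (nat_lit 5) (nat_lit 33) (nat_lit 4) (nat_lit 510) (nat_lit 363) (nat_lit 327)) (XT.lf (nat_lit 0) (nat_lit 663055424) (nat_lit 152) (nat_lit 5876747550) (nat_lit 76) (nat_lit 19138496727) (nat_lit 31) (nat_lit 5) (nat_lit 33) (nat_lit 5) (nat_lit 32) (nat_lit 4) (nat_lit 511) (nat_lit 363) (nat_lit 326)))) (XT.nd (nat_lit 156) (nat_lit 152) (nat_lit 0) (XT.nd (nat_lit 78) (nat_lit 0) (nat_lit 0) (XT.lf (nat_lit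 0) (nat_lit 7253767625) (nat_lit 152) (nat_lit 18849599352) (nat_lit 0) (nat_lit 138506949) (nat_lit 30) (nat_lit 5) (nat_lit 32) (nat_lit 4) (nat_lit 30) (nat_lit 4) (nat_lit 512) (nat_lit 363) (nat_lit 325)) (XT.lf (nat_lit 0) (nat_lit 14085668163) (nat_lit 152) (nat_lit 5864862983) (nat_lit 0) (nat_lit 6870522075) (nat_lit 30) (nat_lit 5) (nat_lit 32) (nat_lit 4) (nat_lit 30) (nat_lit 4) (nat_lit 513) (nat_lit 363) (nat_lit 324))) (XT.nd (nat_lit 78) (nat_lit 76) (nat_lit 0) (XT.lf (nat_lit 0) (nat_lit 7501639524) (nat_lit 76) (nat_lit 13614147276) (nat_lit 76) (nat_lit 6302025061) (nat_lit 29) (nat_lit 4) (nat_lit 30) (nat_lit 5) (nat_lit 30) (nat_lit 4) (nat_lit 514) (nat_lit 363) (nat_lit 323)) (XT.lf (nat_lit 0) (nat_lit 299022545) (nat_lit 152) (nat_lit 6799258029) (nat_lit 76) (nat_lit 20934670377) (nat_lit 28) (nat_lit 5) (nat_lit 30) (nat_lit 5) (nat_lit 29) (nat_lit 4) (nat_lit 515) (nat_lit 363) (nat_lit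 322))))))))
noncomputable def xc27 : XT := (XT.nd (nat_lit 2340) (nat_lit 228) (nat_lit 0) (XT.nd (nat_lit 1170) (nat_lit 532) (nat_lit 0) (XT.nd (nat_lit 546) (nat_lit 380) (nat_lit 0) (XT.nd (nat_lit 234) (nat_lit 152) (nat_lit 0) (XT.nd (nat_lit 78) (nat_lit 76) (nat_lit 0) (XT.lf (nat_lit 0) (nat_lit 6628384433) (nat_lit 76) (nat_lit 330269523) (nat_lit 152) (nat_lit 21706403511) (nat_lit 27) (nat_lit 5) (nat_lit 28) (nat_lit 5) (nat_lit 29) (nat_lit 4) (nat_lit 516) (nat_lit 363) (nat_lit 321)) (XT.nd (nat_lit 78) (nat_lit 76) (nat_lit 0) (XT.lf (nat_lit 0) (nat_lit 13874854755) (nat_lit 152) (nat_lit 8930181865) (nat_lit 0) (nat_lit 6509388742) (nat_lit 27) (nat_lit 5) (nat_lit 29) (nat_lit 4) (nat_lit 27) (nat_lit 4) (nat_lit 517) (nat_lit 363) (nat_lit 320)) (XT.lf (nat_lit 0) (nat_lit 4508746307) (nat_lit 76) (nat_lit 16462237374) (nat_lit 76) (nat_lit 9013118902) (nat_lit 26) (nat_lit 4) (nat_lit 27)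 (nat_lit 5) (nat_lit 27) (nat_lit 4) (nat_lit 518) (nat_lit 363) (nat_lit 319)))) (XT.nd (nat_lit 156) (nat_lit 0) (nat_lit 0) (XT.nd (nat_lit 78) (nat_lit 152) (nat_lit 0) (XT.lf (nat_lit 0) (nat_lit 18389858856) (nat_lit 76) (nat_lit 9906921848) (nat_lit 76) (nat_lit 2376587396) (nat_lit 26) (nat_lit 4) (nat_lit 27) (nat_lit 5) (nat_lit 27) (nat_lit 4) (nat_lit 519) (nat_lit 363) (nat_lit 318)) (XT.lf (nat_lit 0) (nat_lit 1142237734) (nat_lit 76) (nat_lit 3168807907) (nat_lit 152) (nat_lit 27072810945) (nat_lit 24) (nat_lit 5) (nat_lit 25) (nat_lit 5) (nat_lit 26) (nat_lit 4) (nat_lit 520) (nat_lit 363) (nat_lit 317))) (XT.nd (nat_lit 78) (nat_lit 0) (nat_lit 0) (XT.lf (nat_lit 0) (nat_lit 11241190173) (nat_lit 152) (nat_lit 17091767656) (nat_lit 0) (nat_lit 3779307872) (nat_lit 24) (nat_lit 5) (nat_lit 26) (nat_lit 4) (nat_lit 24) (nat_lit 4) (nat_lit 521) (nat_lit 363) (nat_lit 316)) (XT.lf (nat_lit 0) (nat_lit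 18340835324) (nat_lit 152) (nat_lit 3716051540) (nat_lit 0) (nat_lit 10806793677) (nat_lit 24) (nat_lit 5) (nat_lit 26) (nat_lit 4) (nat_lit 24) (nat_lit 4) (nat_lit 522) (nat_lit 363) (nat_lit 315))))) (XT.nd (nat_lit 312) (nat_lit 152) (nat_lit 0) (XT.nd (nat_lit 156) (nat_lit 152) (nat_lit 0) (XT.nd (nat_lit 78) (nat_lit 0) (nat_lit 0) (XT.lf (nat_lit 0) (nat_lit 10125257783) (nat_lit 76) (nat_lit 15557796536) (nat_lit 76) (nat_lit 7953697271) (nat_lit 23) (nat_lit 4) (nat_lit 24) (nat_lit 5) (nat_lit 24) (nat_lit 4) (nat_lit 523) (nat_lit 363) (nat_lit 314)) (XT.lf (nat_lit 0) (nat_lit 24326029732) (nat_lit 76) (nat_lit 8889994077) (nat_lit 76) (nat_lit 1217877706) (nat_lit 23) (nat_lit 4) (nat_lit 24) (nat_lit 5) (nat_lit 24) (nat_lit 4) (nat_lit 524) (nat_lit 363) (nat_lit 313))) (XT.nd (nat_lit 78) (nat_lit 0) (nat_lit 0) (XT.lf (nat_lit 0) (nat_lit 3583381048) (nat_lit 76) (nat_lit 1993729022) (nat_lit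 152) (nat_lit 29677146175) (nat_lit 21) (nat_lit 5) (nat_lit 22) (nat_lit 5) (nat_lit 23) (nat_lit 4) (nat_lit 525) (nat_lit 363) (nat_lit 312)) (XT.lf (nat_lit 0) (nat_lit 12638006819) (nat_lit 152) (nat_lit 18395265866) (nat_lit 0) (nat_lit 5062992216) (nat_lit 21) (nat_lit 5) (nat_lit 23) (nat_lit 4) (nat_lit 21) (nat_lit 4) (nat_lit 526) (nat_lit 363) (nat_lit 311)))) (XT.nd (nat_lit 156) (nat_lit 76) (nat_lit 0) (XT.nd (nat_lit 78) (nat_lit 76) (nat_lit 0) (XT.lf (nat_lit 0) (nat_lit 19866725009) (nat_lit 152) (nat_lit 4866852002) (nat_lit 0) (nat_lit 12231278090) (nat_lit 21) (nat_lit 5) (nat_lit 23) (nat_lit 4) (nat_lit 21) (nat_lit 4) (nat_lit 527) (nat_lit 363) (nat_lit 310)) (XT.lf (nat_lit 0) (nat_lit 9123382331) (nat_lit 76) (nat_lit 18214733256) (nat_lit 76) (nat_lit 10520614185) (nat_lit 20) (nat_lit 4) (nat_lit 21) (nat_lit 5) (nat_lit 21) (nat_lit 4) (nat_lit 528) (nat_lit 363) (nat_lit 309))) (XT.nd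 (nat_lit 78) (nat_lit 76) (nat_lit 0) (XT.lf (nat_lit 0) (nat_lit 23512224079) (nat_lit 76) (nat_lit 11509321526) (nat_lit 76) (nat_lit 3758239201) (nat_lit 20) (nat_lit 4) (nat_lit 21) (nat_lit 5) (nat_lit 21) (nat_lit 4) (nat_lit 529) (nat_lit 363) (nat_lit 308)) (XT.lf (nat_lit 0) (nat_lit 3084372997) (nat_lit 152) (nat_lit 1545109270) (nat_lit 76) (nat_lit 35099867002) (nat_lit 19) (nat_lit 5) (nat_lit 21) (nat_lit 5) (nat_lit 20) (nat_lit 4) (nat_lit 530) (nat_lit 363) (nat_lit 307)))))) (XT.nd (nat_lit 546) (nat_lit 228) (nat_lit 0) (XT.nd (nat_lit 234) (nat_lit 228) (nat_lit 0) (XT.nd (nat_lit 78) (nat_lit 0) (nat_lit 0) (XT.lf (nat_lit 0) (nat_lit 10144996232) (nat_lit 152) (nat_lit 28044790200) (nat_lit 0) (nat_lit 2513850807) (nat_lit 18) (nat_lit 5) (nat_lit 20) (nat_lit 4) (nat_lit 18) (nat_lit 4) (nat_lit 531) (nat_lit 363) (nat_lit 306)) (XT.nd (nat_lit 78) (nat_lit 0) (nat_lit 0) (XT.lf (nat_lit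 0) (nat_lit 17420788988) (nat_lit 152) (nat_lit 14547232823) (nat_lit 0) (nat_lit 9739032449) (nat_lit 18) (nat_lit 5) (nat_lit 20) (nat_lit 4) (nat_lit 18) (nat_lit 4) (nat_lit 532) (nat_lit 363) (nat_lit 305)) (XT.lf (nat_lit 0) (nat_lit 24858309228) (nat_lit 152) (nat_lit 756546180) (nat_lit 0) (nat_lit 17127415686) (nat_lit 18) (nat_lit 5) (nat_lit 20) (nat_lit 4) (nat_lit 18) (nat_lit 4) (nat_lit 533) (nat_lit 363) (nat_lit 304)))) (XT.nd (nat_lit 156) (nat_lit 152) (nat_lit 0) (XT.nd (nat_lit 78) (nat_lit 0) (nat_lit 0) (XT.lf (nat_lit 0) (nat_lit 13604798464) (nat_lit 76) (nat_lit 18990034937) (nat_lit 76) (nat_lit 11211435566) (nat_lit 17) (nat_lit 4) (nat_lit 18) (nat_lit 5) (nat_lit 18) (nat_lit 4) (nat_lit 534) (nat_lit 363) (nat_lit 303)) (XT.lf (nat_lit 0) (nat_lit 28305014815) (nat_lit 76) (nat_lit 12211744673) (nat_lit 76) (nat_lit 4386828962) (nat_lit 17) (nat_lit 4) (nat_lit 18) (nat_lit 5) (nat_lit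 18) (nat_lit 4) (nat_lit 535) (nat_lit 363) (nat_lit 302))) (XT.nd (nat_lit 78) (nat_lit 76) (nat_lit 0) (XT.lf (nat_lit 0) (nat_lit 2537676814) (nat_lit 152) (nat_lit 2718399096) (nat_lit 76) (nat_lit 40778588594) (nat_lit 16) (nat_lit 5) (nat_lit 18) (nat_lit 5) (nat_lit 17) (nat_lit 4) (nat_lit 536) (nat_lit 363) (nat_lit 301)) (XT.lf (nat_lit 0) (nat_lit 9661503548) (nat_lit 152) (nat_lit 35556019955) (nat_lit 0) (nat_lit 1978454402) (nat_lit 15) (nat_lit 5) (nat_lit 17) (nat_lit 4) (nat_lit 15) (nat_lit 4) (nat_lit 537) (nat_lit 363) (nat_lit 300))))) (XT.nd (nat_lit 312) (nat_lit 152) (nat_lit 0) (XT.nd (nat_lit 156) (nat_lit 76) (nat_lit 0) (XT.nd (nat_lit 78) (nat_lit 0) (nat_lit 0) (XT.lf (nat_lit 0) (nat_lit 17027135747) (nat_lit 152) (nat_lit 22061217872) (nat_lit 0) (nat_lit 9302935133) (nat_lit 15) (nat_lit 5) (nat_lit 17) (nat_lit 4) (nat_lit 15) (nat_lit 4) (nat_lit 538) (nat_lit 363) (nat_lit 299))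 (XT.lf (nat_lit 0) (nat_lit 24563569940) (nat_lit 152) (nat_lit 8260978290) (nat_lit 0) (nat_lit 16799416445) (nat_lit 15) (nat_lit 5) (nat_lit 17) (nat_lit 4) (nat_lit 15) (nat_lit 4) (nat_lit 539) (nat_lit 363) (nat_lit 298))) (XT.nd (nat_lit 78) (nat_lit 0) (nat_lit 0) (XT.lf (nat_lit 0) (nat_lit 5973318206) (nat_lit 76) (nat_lit 26361492343) (nat_lit 76) (nat_lit 18558549644) (nat_lit 14) (nat_lit 4) (nat_lit 15) (nat_lit 5) (nat_lit 15) (nat_lit 4) (nat_lit 540) (nat_lit 363) (nat_lit 297)) (XT.lf (nat_lit 0) (nat_lit 20708420515) (nat_lit 76) (nat_lit 19665981733) (nat_lit 76) (nat_lit 11825379612) (nat_lit 14) (nat_lit 4) (nat_lit 15) (nat_lit 5) (nat_lit 15) (nat_lit 4) (nat_lit 541) (nat_lit 363) (nat_lit 296)))) (XT.nd (nat_lit 156) (nat_lit 76) (nat_lit 0) (XT.nd (nat_lit 78) (nat_lit 76) (nat_lit 0) (XT.lf (nat_lit 0) (nat_lit 35792794303) (nat_lit 76) (nat_lit 12815585635) (nat_lit 76) (nat_lit 4938420968)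 (nat_lit 14) (nat_lit 4) (nat_lit 15) (nat_lit 5) (nat_lit 15) (nat_lit 4) (nat_lit 542) (nat_lit 363) (nat_lit 295)) (XT.lf (nat_lit 0) (nat_lit 2067202630) (nat_lit 152) (nat_lit 3716240944) (nat_lit 76) (nat_lit 49151542767) (nat_lit 13) (nat_lit 5) (nat_lit 15) (nat_lit 5) (nat_lit 14) (nat_lit 4) (nat_lit 543) (nat_lit 363) (nat_lit 294))) (XT.nd (nat_lit 78) (nat_lit 0) (nat_lit 0) (XT.lf (nat_lit 0) (nat_lit 9258283506) (nat_lit 152) (nat_lit 45560204011) (nat_lit 0) (nat_lit 1542627205) (nat_lit 12) (nat_lit 5) (nat_lit 14) (nat_lit 4) (nat_lit 12) (nat_lit 4) (nat_lit 544) (nat_lit 363) (nat_lit 293)) (XT.lf (nat_lit 0) (nat_lit 16715744130) (nat_lit 152) (nat_lit 32145161527) (nat_lit 0) (nat_lit 8967602481) (nat_lit 12) (nat_lit 5) (nat_lit 14) (nat_lit 4) (nat_lit 12) (nat_lit 4) (nat_lit 545) (nat_lit 363) (nat_lit 292))))))) (XT.nd (nat_lit 57252) (nat_lit 0) (nat_lit 2888) (XT.nd (nat_lit 546) (nat_lit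 0) (nat_lit 0) (XT.nd (nat_lit 234) (nat_lit 152) (nat_lit 0) (XT.nd (nat_lit 78) (nat_lit 76) (nat_lit 0) (XT.lf (nat_lit 0) (nat_lit 24353712268) (nat_lit 152) (nat_lit 18413476717) (nat_lit 0) (nat_lit 16574031446) (nat_lit 12) (nat_lit 5) (nat_lit 14) (nat_lit 4) (nat_lit 12) (nat_lit 4) (nat_lit 546) (nat_lit 363) (nat_lit 291)) (XT.nd (nat_lit 78) (nat_lit 76) (nat_lit 0) (XT.lf (nat_lit 0) (nat_lit 32178861873) (nat_lit 152) (nat_lit 4353151021) (nat_lit 0) (nat_lit 24368560494) (nat_lit 12) (nat_lit 5) (nat_lit 14) (nat_lit 4) (nat_lit 12) (nat_lit 4) (nat_lit 547) (nat_lit 363) (nat_lit 290)) (XT.lf (nat_lit 0) (nat_lit 10248078199) (nat_lit 76) (nat_lit 30048463051) (nat_lit 76) (nat_lit 22208432977) (nat_lit 11) (nat_lit 4) (nat_lit 12) (nat_lit 5) (nat_lit 12) (nat_lit 4) (nat_lit 548) (nat_lit 363) (nat_lit 289)))) (XT.nd (nat_lit 156) (nat_lit 152) (nat_lit 0) (XT.nd (nat_lit 78) (nat_lit 0) (nat_lit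 0) (XT.lf (nat_lit 0) (nat_lit 25296489432) (nat_lit 76) (nat_lit 23364900948) (nat_lit 76) (nat_lit 15496008064) (nat_lit 11) (nat_lit 4) (nat_lit 12) (nat_lit 5) (nat_lit 12) (nat_lit 4) (nat_lit 549) (nat_lit 363) (nat_lit 288)) (XT.lf (nat_lit 0) (nat_lit 40718595535) (nat_lit 76) (nat_lit 16519444871) (nat_lit 76) (nat_lit 8622529840) (nat_lit 11) (nat_lit 4) (nat_lit 12) (nat_lit 5) (nat_lit 12) (nat_lit 4) (nat_lit 550) (nat_lit 363) (nat_lit 287))) (XT.nd (nat_lit 78) (nat_lit 152) (nat_lit 0) (XT.lf (nat_lit 0) (nat_lit 56527872134) (nat_lit 76) (nat_lit 9506113352) (nat_lit 76) (nat_lit 1581992353) (nat_lit 11) (nat_lit 4) (nat_lit 12) (nat_lit 5) (nat_lit 12) (nat_lit 4) (nat_lit 551) (nat_lit 363) (nat_lit 286)) (XT.lf (nat_lit 0) (nat_lit 3323699545) (nat_lit 76) (nat_lit 2230110358) (nat_lit 152) (nat_lit 63868762613) (nat_lit 9) (nat_lit 5) (nat_lit 10) (nat_lit 5) (nat_lit 11) (nat_lit 4) (nat_lit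 552) (nat_lit 363) (nat_lit 285))))) (XT.nd (nat_lit 56394) (nat_lit 0) (nat_lit 4788) (XT.nd (nat_lit 56238) (nat_lit 0) (nat_lit 5320) (XT.nd (nat_lit 56160) (nat_lit 0) (nat_lit 5700) (XT.lf (nat_lit 0) (nat_lit 12998336072) (nat_lit 152) (nat_lit 53026292971) (nat_lit 0) (nat_lit 5254473165) (nat_lit 9) (nat_lit 5) (nat_lit 11) (nat_lit 4) (nat_lit 9) (nat_lit 4) (nat_lit 553) (nat_lit 363) (nat_lit 284)) (XT.lf (nat_lit 0) (nat_lit 2125862781) (nat_lit 228) (nat_lit 1996158615) (nat_lit 0) (nat_lit 2125862781) (nat_lit 84) (nat_lit 5) (nat_lit 87) (nat_lit 4) (nat_lit 84) (nat_lit 4) (nat_lit 472) (nat_lit 364) (nat_lit 364))) (XT.nd (nat_lit 78) (nat_lit 228) (nat_lit 0) (XT.lf (nat_lit 0) (nat_lit 6712218751) (nat_lit 152) (nat_lit 3227436147) (nat_lit 152) (nat_lit 2748943825) (nat_lit 82) (nat_lit 4) (nat_lit 84) (nat_lit 5) (nat_lit 84) (nat_lit 4) (nat_lit 473) (nat_lit 364) (nat_lit 363)) (XT.lf (nat_lit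 0) (nat_lit 2840880047) (nat_lit 228) (nat_lit 8120603072) (nat_lit 0) (nat_lit 1925299488) (nat_lit 79) (nat_lit 5) (nat_lit 82) (nat_lit 4) (nat_lit 79) (nat_lit 4) (nat_lit 474) (nat_lit 364) (nat_lit 362)))) (XT.nd (nat_lit 156) (nat_lit 152) (nat_lit 0) (XT.nd (nat_lit 78) (nat_lit 228) (nat_lit 0) (XT.lf (nat_lit 0) (nat_lit 2642569872) (nat_lit 152) (nat_lit 5900502409) (nat_lit 152) (nat_lit 4547033592) (nat_lit 77) (nat_lit 4) (nat_lit 79) (nat_lit 5) (nat_lit 79) (nat_lit 4) (nat_lit 475) (nat_lit 364) (nat_lit 361)) (XT.lf (nat_lit 0) (nat_lit 379986355) (nat_lit 152) (nat_lit 683358178) (nat_lit 228) (nat_lit 12236819820) (nat_lit 74) (nat_lit 5) (nat_lit 76) (nat_lit 5) (nat_lit 77) (nat_lit 4) (nat_lit 476) (nat_lit 364) (nat_lit 360))) (XT.nd (nat_lit 78) (nat_lit 152) (nat_lit 0) (XT.lf (nat_lit 0) (nat_lit 6784633026) (nat_lit 228) (nat_lit 2072424530) (nat_lit 0) (nat_lit 4657104163) (nat_lit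 74) (nat_lit 5) (nat_lit 77) (nat_lit 4) (nat_lit 74) (nat_lit 4) (nat_lit 477) (nat_lit 364) (nat_lit 359)) (XT.lf (nat_lit 0) (nat_lit 9062673211) (nat_lit 152) (nat_lit 3594554941) (nat_lit 152) (nat_lit 1077968032) (nat_lit 72) (nat_lit 4) (nat_lit 74) (nat_lit 5) (nat_lit 74) (nat_lit 4) (nat_lit 478) (nat_lit 364) (nat_lit 358)))))) (XT.nd (nat_lit 624) (nat_lit 836) (nat_lit 0) (XT.nd (nat_lit 312) (nat_lit 532) (nat_lit 0) (XT.nd (nat_lit 156) (nat_lit 152) (nat_lit 0) (XT.nd (nat_lit 78) (nat_lit 152) (nat_lit 0) (XT.lf (nat_lit 0) (nat_lit 4637978539) (nat_lit 228) (nat_lit 7495934526) (nat_lit 0) (nat_lit 1827965756) (nat_lit 69) (nat_lit 5) (nat_lit 72) (nat_lit 4) (nat_lit 69) (nat_lit 4) (nat_lit 479) (nat_lit 364) (nat_lit 357)) (XT.lf (nat_lit 0) (nat_lit 3656171756) (nat_lit 152) (nat_lit 6852393879) (nat_lit 152) (nat_lit 3686337870) (nat_lit 67) (nat_lit 4) (nat_lit 69) (nat_lit 5) (nat_lit 69)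 (nat_lit 4) (nat_lit 480) (nat_lit 364) (nat_lit 356))) (XT.nd (nat_lit 78) (nat_lit 0) (nat_lit 0) (XT.lf (nat_lit 0) (nat_lit 646272411) (nat_lit 76) (nat_lit 1402004167) (nat_lit 152) (nat_lit 12386958089) (nat_lit 65) (nat_lit 5) (nat_lit 66) (nat_lit 5) (nat_lit 67) (nat_lit 4) (nat_lit 481) (nat_lit 364) (nat_lit 355)) (XT.lf (nat_lit 0) (nat_lit 7915842878) (nat_lit 152) (nat_lit 2584226606) (nat_lit 0) (nat_lit 4180567216) (nat_lit 65) (nat_lit 5) (nat_lit 67) (nat_lit 4) (nat_lit 65) (nat_lit 4) (nat_lit 482) (nat_lit 364) (nat_lit 354)))) (XT.nd (nat_lit 156) (nat_lit 228) (nat_lit 0) (XT.nd (nat_lit 78) (nat_lit 152) (nat_lit 0) (XT.lf (nat_lit 0) (nat_lit 8913337682) (nat_lit 152) (nat_lit 5035993788) (nat_lit 152) (nat_lit 984378332) (nat_lit 63) (nat_lit 4) (nat_lit 65) (nat_lit 5) (nat_lit 65) (nat_lit 4) (nat_lit 483) (nat_lit 364) (nat_lit 353)) (XT.lf (nat_lit 0) (nat_lit 4847970525) (nat_lit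 152) (nat_lit 9729529550) (nat_lit 0) (nat_lit 616182689) (nat_lit 61) (nat_lit 5) (nat_lit 63) (nat_lit 4) (nat_lit 61) (nat_lit 4) (nat_lit 484) (nat_lit 364) (nat_lit 352))) (XT.nd (nat_lit 78) (nat_lit 76) (nat_lit 0) (XT.lf (nat_lit 0) (nat_lit 1726562815) (nat_lit 152) (nat_lit 9127663497) (nat_lit 152) (nat_lit 4606379937) (nat_lit 59) (nat_lit 4) (nat_lit 61) (nat_lit 5) (nat_lit 61) (nat_lit 4) (nat_lit 485) (nat_lit 364) (nat_lit 351)) (XT.lf (nat_lit 0) (nat_lit 1269918264) (nat_lit 228) (nat_lit 2224413292) (nat_lit 76) (nat_lit 12241126960) (nat_lit 58) (nat_lit 5) (nat_lit 61) (nat_lit 5) (nat_lit 59) (nat_lit 4) (nat_lit 486) (nat_lit 364) (nat_lit 350))))) (XT.nd (nat_lit 312) (nat_lit 456) (nat_lit 0) (XT.nd (nat_lit 156) (nat_lit 152) (nat_lit 0) (XT.nd (nat_lit 78) (nat_lit 152) (nat_lit 0) (XT.lf (nat_lit 0) (nat_lit 7238815300) (nat_lit 152) (nat_lit 6466698399) (nat_lit 0) (nat_lit 2311412528)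 (nat_lit 57) (nat_lit 5) (nat_lit 59) (nat_lit 4) (nat_lit 57) (nat_lit 4) (nat_lit 487) (nat_lit 364) (nat_lit 349)) (XT.lf (nat_lit 0) (nat_lit 5287435664) (nat_lit 152) (nat_lit 8101972097) (nat_lit 152) (nat_lit 2917356123) (nat_lit 55) (nat_lit 4) (nat_lit 57) (nat_lit 5) (nat_lit 57) (nat_lit 4) (nat_lit 488) (nat_lit 364) (nat_lit 348))) (XT.nd (nat_lit 78) (nat_lit 0) (nat_lit 0) (XT.lf (nat_lit 0) (nat_lit 707982978) (nat_lit 76) (nat_lit 2317790670) (nat_lit 152) (nat_lit 13579605416) (nat_lit 53) (nat_lit 5) (nat_lit 54) (nat_lit 5) (nat_lit 55) (nat_lit 4) (nat_lit 489) (nat_lit 364) (nat_lit 347)) (XT.lf (nat_lit 0) (nat_lit 9130880375) (nat_lit 152) (nat_lit 4160502573) (nat_lit 0) (nat_lit 3619438006) (nat_lit 53) (nat_lit 5) (nat_lit 55) (nat_lit 4) (nat_lit 53) (nat_lit 4) (nat_lit 490) (nat_lit 364) (nat_lit 346)))) (XT.nd (nat_lit 156) (nat_lit 152) (nat_lit 0) (XT.nd (nat_lit 78) (nat_lit 152)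 (nat_lit 0) (XT.lf (nat_lit 0) (nat_lit 7865923883) (nat_lit 152) (nat_lit 7549791092) (nat_lit 152) (nat_lit 1809818124) (nat_lit 51) (nat_lit 4) (nat_lit 53) (nat_lit 5) (nat_lit 53) (nat_lit 4) (nat_lit 491) (nat_lit 364) (nat_lit 345)) (XT.lf (nat_lit 0) (nat_lit 2605460272) (nat_lit 76) (nat_lit 1614888302) (nat_lit 152) (nat_lit 13329122097) (nat_lit 49) (nat_lit 5) (nat_lit 50) (nat_lit 5) (nat_lit 51) (nat_lit 4) (nat_lit 492) (nat_lit 364) (nat_lit 344))) (XT.nd (nat_lit 78) (nat_lit 152) (nat_lit 0) (XT.lf (nat_lit 0) (nat_lit 10432132199) (nat_lit 152) (nat_lit 3014554825) (nat_lit 0) (nat_lit 4434793032) (nat_lit 49) (nat_lit 5) (nat_lit 51) (nat_lit 4) (nat_lit 49) (nat_lit 4) (nat_lit 493) (nat_lit 364) (nat_lit 343)) (XT.lf (nat_lit 0) (nat_lit 9249405380) (nat_lit 152) (nat_lit 7587122990) (nat_lit 152) (nat_lit 1386737347) (nat_lit 47) (nat_lit 4) (nat_lit 49) (nat_lit 5) (nat_lit 49) (nat_lit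 4) (nat_lit 494) (nat_lit 364) (nat_lit 342))))))))
noncomputable def xc28 : XT := (XT.nd (nat_lit 2340) (nat_lit 1064) (nat_lit 0) (XT.nd (nat_lit 1170) (nat_lit 760) (nat_lit 0) (XT.nd (nat_lit 546) (nat_lit 532) (nat_lit 0) (XT.nd (nat_lit 234) (nat_lit 304) (nat_lit 0) (XT.nd (nat_lit 78) (nat_lit 76) (nat_lit 0) (XT.lf (nat_lit 0) (nat_lit 3196055874) (nat_lit 76) (nat_lit 1529842657) (nat_lit 152) (nat_lit 13849120918) (nat_lit 45) (nat_lit 5) (nat_lit 46) (nat_lit 5) (nat_lit 47) (nat_lit 4) (nat_lit 495) (nat_lit 364) (nat_lit 341)) (XT.nd (nat_lit 78) (nat_lit 76) (nat_lit 0) (XT.lf (nat_lit 0) (nat_lit 11032526124) (nat_lit 152) (nat_lit 3267709502) (nat_lit 0) (nat_lit 4635527170) (nat_lit 45) (nat_lit 5) (nat_lit 47) (nat_lit 4) (nat_lit 45) (nat_lit 4) (nat_lit 496) (nat_lit 364) (nat_lit 340)) (XT.lf (nat_lit 0) (nat_lit 9188281610) (nat_lit 76) (nat_lit 8348106122) (nat_lit 76) (nat_lit 1770703003)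 (nat_lit 44) (nat_lit 4) (nat_lit 45) (nat_lit 5) (nat_lit 45) (nat_lit 4) (nat_lit 497) (nat_lit 364) (nat_lit 339)))) (XT.nd (nat_lit 156) (nat_lit 152) (nat_lit 0) (XT.nd (nat_lit 78) (nat_lit 0) (nat_lit 0) (XT.lf (nat_lit 0) (nat_lit 2212663060) (nat_lit 76) (nat_lit 2203699428) (nat_lit 152) (nat_lit 15273110439) (nat_lit 42) (nat_lit 5) (nat_lit 43) (nat_lit 5) (nat_lit 44) (nat_lit 4) (nat_lit 498) (nat_lit 364) (nat_lit 338)) (XT.lf (nat_lit 0) (nat_lit 10801164109) (nat_lit 152) (nat_lit 5200015937) (nat_lit 0) (nat_lit 4080192244) (nat_lit 42) (nat_lit 5) (nat_lit 44) (nat_lit 4) (nat_lit 42) (nat_lit 4) (nat_lit 499) (nat_lit 364) (nat_lit 337))) (XT.nd (nat_lit 78) (nat_lit 76) (nat_lit 0) (XT.lf (nat_lit 0) (nat_lit 7389731204) (nat_lit 76) (nat_lit 9988272112) (nat_lit 76) (nat_lit 3107013484) (nat_lit 41) (nat_lit 4) (nat_lit 42) (nat_lit 5) (nat_lit 42) (nat_lit 4) (nat_lit 500) (nat_lit 364) (nat_lit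 336)) (XT.lf (nat_lit 0) (nat_lit 3148691933) (nat_lit 152) (nat_lit 645032220) (nat_lit 76) (nat_lit 17107288841) (nat_lit 40) (nat_lit 5) (nat_lit 42) (nat_lit 5) (nat_lit 41) (nat_lit 4) (nat_lit 501) (nat_lit 364) (nat_lit 335))))) (XT.nd (nat_lit 312) (nat_lit 228) (nat_lit 0) (XT.nd (nat_lit 156) (nat_lit 152) (nat_lit 0) (XT.nd (nat_lit 78) (nat_lit 76) (nat_lit 0) (XT.lf (nat_lit 0) (nat_lit 9582977290) (nat_lit 152) (nat_lit 9139617999) (nat_lit 0) (nat_lit 2604372928) (nat_lit 39) (nat_lit 5) (nat_lit 41) (nat_lit 4) (nat_lit 39) (nat_lit 4) (nat_lit 502) (nat_lit 364) (nat_lit 334)) (XT.lf (nat_lit 0) (nat_lit 3510469539) (nat_lit 76) (nat_lit 12688298978) (nat_lit 76) (nat_lit 5567281903) (nat_lit 38) (nat_lit 4) (nat_lit 39) (nat_lit 5) (nat_lit 39) (nat_lit 4) (nat_lit 503) (nat_lit 364) (nat_lit 333))) (XT.nd (nat_lit 78) (nat_lit 76) (nat_lit 0) (XT.lf (nat_lit 0) (nat_lit 783100066) (nat_lit 152)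 (nat_lit 5669588710) (nat_lit 76) (nat_lit 15765273230) (nat_lit 37) (nat_lit 5) (nat_lit 39) (nat_lit 5) (nat_lit 38) (nat_lit 4) (nat_lit 504) (nat_lit 364) (nat_lit 332)) (XT.lf (nat_lit 0) (nat_lit 7194859027) (nat_lit 152) (nat_lit 15470753043) (nat_lit 0) (nat_lit 16684768) (nat_lit 36) (nat_lit 5) (nat_lit 38) (nat_lit 4) (nat_lit 36) (nat_lit 4) (nat_lit 505) (nat_lit 364) (nat_lit 331)))) (XT.nd (nat_lit 156) (nat_lit 152) (nat_lit 0) (XT.nd (nat_lit 78) (nat_lit 76) (nat_lit 0) (XT.lf (nat_lit 0) (nat_lit 13834107640) (nat_lit 152) (nat_lit 2796000783) (nat_lit 0) (nat_lit 6529401530) (nat_lit 36) (nat_lit 5) (nat_lit 38) (nat_lit 4) (nat_lit 36) (nat_lit 4) (nat_lit 506) (nat_lit 364) (nat_lit 330)) (XT.lf (nat_lit 0) (nat_lit 10296782472) (nat_lit 76) (nat_lit 10390681959) (nat_lit 76) (nat_lit 2963129391) (nat_lit 35) (nat_lit 4) (nat_lit 36) (nat_lit 5) (nat_lit 36) (nat_lit 4) (nat_lit 507) (nat_lit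 364) (nat_lit 329))) (XT.nd (nat_lit 78) (nat_lit 76) (nat_lit 0) (XT.lf (nat_lit 0) (nat_lit 3464492801) (nat_lit 152) (nat_lit 513900585) (nat_lit 76) (nat_lit 20178647630) (nat_lit 34) (nat_lit 5) (nat_lit 36) (nat_lit 5) (nat_lit 35) (nat_lit 4) (nat_lit 508) (nat_lit 364) (nat_lit 328)) (XT.lf (nat_lit 0) (nat_lit 10092645566) (nat_lit 152) (nat_lit 11929927271) (nat_lit 0) (nat_lit 2653213001) (nat_lit 33) (nat_lit 5) (nat_lit 35) (nat_lit 4) (nat_lit 33) (nat_lit 4) (nat_lit 509) (nat_lit 364) (nat_lit 327)))))) (XT.nd (nat_lit 546) (nat_lit 304) (nat_lit 0) (XT.nd (nat_lit 234) (nat_lit 228) (nat_lit 0) (XT.nd (nat_lit 78) (nat_lit 152) (nat_lit 0) (XT.lf (nat_lit 0) (nat_lit 1025992201) (nat_lit 76) (nat_lit 15866745025) (nat_lit 76) (nat_lit 8318164974) (nat_lit 32) (nat_lit 4) (nat_lit 33) (nat_lit 5) (nat_lit 33) (nat_lit 4) (nat_lit 510) (nat_lit 364) (nat_lit 326)) (XT.nd (nat_lit 78) (nat_lit 152)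 (nat_lit 0) (XT.lf (nat_lit 0) (nat_lit 14458101104) (nat_lit 76) (nat_lit 9478661731) (nat_lit 76) (nat_lit 1824113247) (nat_lit 32) (nat_lit 4) (nat_lit 33) (nat_lit 5) (nat_lit 33) (nat_lit 4) (nat_lit 511) (nat_lit 364) (nat_lit 325)) (XT.lf (nat_lit 0) (nat_lit 1800148976) (nat_lit 76) (nat_lit 2908018233) (nat_lit 152) (nat_lit 21619630849) (nat_lit 30) (nat_lit 5) (nat_lit 31) (nat_lit 5) (nat_lit 32) (nat_lit 4) (nat_lit 512) (nat_lit 364) (nat_lit 324)))) (XT.nd (nat_lit 156) (nat_lit 152) (nat_lit 0) (XT.nd (nat_lit 78) (nat_lit 76) (nat_lit 0) (XT.lf (nat_lit 0) (nat_lit 11473272094) (nat_lit 152) (nat_lit 11590899930) (nat_lit 0) (nat_lit 3844810084) (nat_lit 30) (nat_lit 5) (nat_lit 32) (nat_lit 4) (nat_lit 30) (nat_lit 4) (nat_lit 513) (nat_lit 364) (nat_lit 323)) (XT.lf (nat_lit 0) (nat_lit 1586446868) (nat_lit 76) (nat_lit 16822372733) (nat_lit 76) (nat_lit 9099759142) (nat_lit 29) (nat_lit 4) (nat_lit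 30) (nat_lit 5) (nat_lit 30) (nat_lit 4) (nat_lit 514) (nat_lit 364) (nat_lit 322))) (XT.nd (nat_lit 78) (nat_lit 152) (nat_lit 0) (XT.lf (nat_lit 0) (nat_lit 15248513645) (nat_lit 76) (nat_lit 10345217643) (nat_lit 76) (nat_lit 2531194751) (nat_lit 29) (nat_lit 4) (nat_lit 30) (nat_lit 5) (nat_lit 30) (nat_lit 4) (nat_lit 515) (nat_lit 364) (nat_lit 321)) (XT.lf (nat_lit 0) (nat_lit 382064556) (nat_lit 76) (nat_lit 3699134627) (nat_lit 152) (nat_lit 24679463006) (nat_lit 27) (nat_lit 5) (nat_lit 28) (nat_lit 5) (nat_lit 29) (nat_lit 4) (nat_lit 516) (nat_lit 364) (nat_lit 320))))) (XT.nd (nat_lit 312) (nat_lit 152) (nat_lit 0) (XT.nd (nat_lit 156) (nat_lit 152) (nat_lit 0) (XT.nd (nat_lit 78) (nat_lit 0) (nat_lit 0) (XT.lf (nat_lit 0) (nat_lit 10928480076) (nat_lit 152) (nat_lit 15311382781) (nat_lit 0) (nat_lit 3172235590) (nat_lit 27) (nat_lit 5) (nat_lit 29) (nat_lit 4) (nat_lit 27) (nat_lit 4) (nat_lit 517)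 (nat_lit 364) (nat_lit 319)) (XT.lf (nat_lit 0) (nat_lit 17945796025) (nat_lit 152) (nat_lit 2030009215) (nat_lit 0) (nat_lit 10108335558) (nat_lit 27) (nat_lit 5) (nat_lit 29) (nat_lit 4) (nat_lit 27) (nat_lit 4) (nat_lit 518) (nat_lit 364) (nat_lit 318))) (XT.nd (nat_lit 78) (nat_lit 76) (nat_lit 0) (XT.lf (nat_lit 0) (nat_lit 11741811527) (nat_lit 76) (nat_lit 13474778269) (nat_lit 76) (nat_lit 5558467336) (nat_lit 26) (nat_lit 4) (nat_lit 27) (nat_lit 5) (nat_lit 27) (nat_lit 4) (nat_lit 519) (nat_lit 364) (nat_lit 317)) (XT.lf (nat_lit 0) (nat_lit 1145858817) (nat_lit 152) (nat_lit 5666771385) (nat_lit 76) (nat_lit 24675195587) (nat_lit 25) (nat_lit 5) (nat_lit 27) (nat_lit 5) (nat_lit 26) (nat_lit 4) (nat_lit 520) (nat_lit 364) (nat_lit 316)))) (XT.nd (nat_lit 156) (nat_lit 76) (nat_lit 0) (XT.nd (nat_lit 78) (nat_lit 0) (nat_lit 0) (XT.lf (nat_lit 0) (nat_lit 7950496627) (nat_lit 152) (nat_lit 24151229755)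 (nat_lit 0) (nat_lit 118274383) (nat_lit 24) (nat_lit 5) (nat_lit 26) (nat_lit 4) (nat_lit 24) (nat_lit 4) (nat_lit 521) (nat_lit 364) (nat_lit 315)) (XT.lf (nat_lit 0) (nat_lit 15016769521) (nat_lit 152) (nat_lit 10841158232) (nat_lit 0) (nat_lit 7114489659) (nat_lit 24) (nat_lit 5) (nat_lit 26) (nat_lit 4) (nat_lit 24) (nat_lit 4) (nat_lit 522) (nat_lit 364) (nat_lit 314))) (XT.nd (nat_lit 78) (nat_lit 0) (nat_lit 0) (XT.lf (nat_lit 0) (nat_lit 2793346479) (nat_lit 76) (nat_lit 19462762972) (nat_lit 76) (nat_lit 11492466005) (nat_lit 23) (nat_lit 4) (nat_lit 24) (nat_lit 5) (nat_lit 24) (nat_lit 4) (nat_lit 523) (nat_lit 364) (nat_lit 313)) (XT.lf (nat_lit 0) (nat_lit 16931010642) (nat_lit 76) (nat_lit 12826005114) (nat_lit 76) (nat_lit 4789672122) (nat_lit 23) (nat_lit 4) (nat_lit 24) (nat_lit 5) (nat_lit 24) (nat_lit 4) (nat_lit 524) (nat_lit 364) (nat_lit 312))))))) (XT.nd (nat_lit 1170) (nat_lit 456) (nat_lit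 0) (XT.nd (nat_lit 546) (nat_lit 228) (nat_lit 0) (XT.nd (nat_lit 234) (nat_lit 228) (nat_lit 0) (XT.nd (nat_lit 78) (nat_lit 76) (nat_lit 0) (XT.lf (nat_lit 0) (nat_lit 2009130487) (nat_lit 152) (nat_lit 4021910745) (nat_lit 76) (nat_lit 29339008485) (nat_lit 22) (nat_lit 5) (nat_lit 24) (nat_lit 5) (nat_lit 23) (nat_lit 4) (nat_lit 525) (nat_lit 364) (nat_lit 311)) (XT.nd (nat_lit 78) (nat_lit 0) (nat_lit 0) (XT.lf (nat_lit 0) (nat_lit 8959995572) (nat_lit 152) (nat_lit 26220311376) (nat_lit 0) (nat_lit 1035052928) (nat_lit 21) (nat_lit 5) (nat_lit 23) (nat_lit 4) (nat_lit 21) (nat_lit 4) (nat_lit 526) (nat_lit 364) (nat_lit 310)) (XT.lf (nat_lit 0) (nat_lit 16158226723) (nat_lit 152) (nat_lit 12752026574) (nat_lit 0) (nat_lit 8174611927) (nat_lit 21) (nat_lit 5) (nat_lit 23) (nat_lit 4) (nat_lit 21) (nat_lit 4) (nat_lit 527) (nat_lit 364) (nat_lit 309)))) (XT.nd (nat_lit 156) (nat_lit 152) (nat_lit 0) (XT.nd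 (nat_lit 78) (nat_lit 0) (nat_lit 0) (XT.lf (nat_lit 0) (nat_lit 1021737762) (nat_lit 76) (nat_lit 22500402507) (nat_lit 76) (nat_lit 14459824456) (nat_lit 20) (nat_lit 4) (nat_lit 21) (nat_lit 5) (nat_lit 21) (nat_lit 4) (nat_lit 528) (nat_lit 364) (nat_lit 308)) (XT.lf (nat_lit 0) (nat_lit 15352774111) (nat_lit 76) (nat_lit 15823503557) (nat_lit 76) (nat_lit 7727621376) (nat_lit 20) (nat_lit 4) (nat_lit 21) (nat_lit 5) (nat_lit 21) (nat_lit 4) (nat_lit 529) (nat_lit 364) (nat_lit 307))) (XT.nd (nat_lit 78) (nat_lit 152) (nat_lit 0) (XT.lf (nat_lit 0) (nat_lit 29999814404) (nat_lit 76) (nat_lit 9002492729) (nat_lit 76) (nat_lit 852917217) (nat_lit 20) (nat_lit 4) (nat_lit 21) (nat_lit 5) (nat_lit 21) (nat_lit 4) (nat_lit 530) (nat_lit 364) (nat_lit 306)) (XT.lf (nat_lit 0) (nat_lit 4160763968) (nat_lit 76) (nat_lit 1929122203) (nat_lit 152) (nat_lit 34743906474) (nat_lit 18) (nat_lit 5) (nat_lit 19) (nat_lit 5)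 (nat_lit 20) (nat_lit 4) (nat_lit 531) (nat_lit 364) (nat_lit 305))))) (XT.nd (nat_lit 312) (nat_lit 152) (nat_lit 0) (XT.nd (nat_lit 156) (nat_lit 76) (nat_lit 0) (XT.nd (nat_lit 78) (nat_lit 0) (nat_lit 0) (XT.lf (nat_lit 0) (nat_lit 13319279705) (nat_lit 152) (nat_lit 23212000035) (nat_lit 0) (nat_lit 5307322352) (nat_lit 18) (nat_lit 5) (nat_lit 20) (nat_lit 4) (nat_lit 18) (nat_lit 4) (nat_lit 532) (nat_lit 364) (nat_lit 304)) (XT.lf (nat_lit 0) (nat_lit 20729755945) (nat_lit 152) (nat_lit 9474781972) (nat_lit 0) (nat_lit 12670092764) (nat_lit 18) (nat_lit 5) (nat_lit 20) (nat_lit 4) (nat_lit 18) (nat_lit 4) (nat_lit 533) (nat_lit 364) (nat_lit 303))) (XT.nd (nat_lit 78) (nat_lit 0) (nat_lit 0) (XT.lf (nat_lit 0) (nat_lit 4660108307) (nat_lit 76) (nat_lit 23693933667) (nat_lit 76) (nat_lit 15587954147) (nat_lit 17) (nat_lit 4) (nat_lit 18) (nat_lit 5) (nat_lit 18) (nat_lit 4) (nat_lit 534) (nat_lit 364) (nat_lit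 302)) (XT.lf (nat_lit 0) (nat_lit 19308922348) (nat_lit 76) (nat_lit 16941060038) (nat_lit 76) (nat_lit 8790113198) (nat_lit 17) (nat_lit 4) (nat_lit 18) (nat_lit 5) (nat_lit 18) (nat_lit 4) (nat_lit 535) (nat_lit 364) (nat_lit 301)))) (XT.nd (nat_lit 156) (nat_lit 0) (nat_lit 0) (XT.nd (nat_lit 78) (nat_lit 152) (nat_lit 0) (XT.lf (nat_lit 0) (nat_lit 34295893347) (nat_lit 76) (nat_lit 10035693181) (nat_lit 76) (nat_lit 1841088749) (nat_lit 17) (nat_lit 4) (nat_lit 18) (nat_lit 5) (nat_lit 18) (nat_lit 4) (nat_lit 536) (nat_lit 364) (nat_lit 300)) (XT.lf (nat_lit 0) (nat_lit 2287415357) (nat_lit 76) (nat_lit 2897020997) (nat_lit 152) (nat_lit 42154110468) (nat_lit 15) (nat_lit 5) (nat_lit 16) (nat_lit 5) (nat_lit 17) (nat_lit 4) (nat_lit 537) (nat_lit 364) (nat_lit 299))) (XT.nd (nat_lit 78) (nat_lit 0) (nat_lit 0) (XT.lf (nat_lit 0) (nat_lit 12497507821) (nat_lit 152) (nat_lit 31577450195) (nat_lit 0) (nat_lit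 4460476841) (nat_lit 15) (nat_lit 5) (nat_lit 17) (nat_lit 4) (nat_lit 15) (nat_lit 4) (nat_lit 538) (nat_lit 364) (nat_lit 298)) (XT.lf (nat_lit 0) (nat_lit 20009949010) (nat_lit 152) (nat_lit 17824753089) (nat_lit 0) (nat_lit 11934128825) (nat_lit 15) (nat_lit 5) (nat_lit 17) (nat_lit 4) (nat_lit 15) (nat_lit 4) (nat_lit 539) (nat_lit 364) (nat_lit 297)))))) (XT.nd (nat_lit 546) (nat_lit 228) (nat_lit 0) (XT.nd (nat_lit 234) (nat_lit 152) (nat_lit 0) (XT.nd (nat_lit 78) (nat_lit 76) (nat_lit 0) (XT.lf (nat_lit 0) (nat_lit 27700476252) (nat_lit 152) (nat_lit 3753175289) (nat_lit 0) (nat_lit 19586996645) (nat_lit 15) (nat_lit 5) (nat_lit 17) (nat_lit 4) (nat_lit 15) (nat_lit 4) (nat_lit 540) (nat_lit 364) (nat_lit 296)) (XT.nd (nat_lit 78) (nat_lit 0) (nat_lit 0) (XT.lf (nat_lit 0) (nat_lit 10861526255) (nat_lit 76) (nat_lit 24818690806) (nat_lit 76) (nat_lit 16668648653) (nat_lit 14) (nat_lit 4) (nat_lit 15) (nat_lit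 5) (nat_lit 15) (nat_lit 4) (nat_lit 541) (nat_lit 364) (nat_lit 295)) (XT.lf (nat_lit 0) (nat_lit 25901526045) (nat_lit 76) (nat_lit 17990285158) (nat_lit 76) (nat_lit 9804745388) (nat_lit 14) (nat_lit 4) (nat_lit 15) (nat_lit 5) (nat_lit 15) (nat_lit 4) (nat_lit 542) (nat_lit 364) (nat_lit 294)))) (XT.nd (nat_lit 156) (nat_lit 0) (nat_lit 0) (XT.nd (nat_lit 78) (nat_lit 152) (nat_lit 0) (XT.lf (nat_lit 0) (nat_lit 41305270283) (nat_lit 76) (nat_lit 11000367741) (nat_lit 76) (nat_lit 2780364266) (nat_lit 14) (nat_lit 4) (nat_lit 15) (nat_lit 5) (nat_lit 15) (nat_lit 4) (nat_lit 543) (nat_lit 364) (nat_lit 293)) (XT.lf (nat_lit 0) (nat_lit 535860532) (nat_lit 76) (nat_lit 3793855682) (nat_lit 152) (nat_lit 52187274210) (nat_lit 12) (nat_lit 5) (nat_lit 13) (nat_lit 5) (nat_lit 14) (nat_lit 4) (nat_lit 544) (nat_lit 364) (nat_lit 292))) (XT.nd (nat_lit 78) (nat_lit 0) (nat_lit 0) (XT.lf (nat_lit 0) (nat_lit 11729419157)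 (nat_lit 152) (nat_lit 42571888964) (nat_lit 0) (nat_lit 3684808738) (nat_lit 12) (nat_lit 5) (nat_lit 14) (nat_lit 4) (nat_lit 12) (nat_lit 4) (nat_lit 545) (nat_lit 364) (nat_lit 291)) (XT.lf (nat_lit 0) (nat_lit 19346718537) (nat_lit 152) (nat_lit 28881243395) (nat_lit 0) (nat_lit 11271487562) (nat_lit 12) (nat_lit 5) (nat_lit 14) (nat_lit 4) (nat_lit 12) (nat_lit 4) (nat_lit 546) (nat_lit 364) (nat_lit 290))))) (XT.nd (nat_lit 312) (nat_lit 152) (nat_lit 0) (XT.nd (nat_lit 156) (nat_lit 76) (nat_lit 0) (XT.nd (nat_lit 78) (nat_lit 0) (nat_lit 0) (XT.lf (nat_lit 0) (nat_lit 27151801387) (nat_lit 152) (nat_lit 14860761622) (nat_lit 0) (nat_lit 19046841716) (nat_lit 12) (nat_lit 5) (nat_lit 14) (nat_lit 4) (nat_lit 12) (nat_lit 4) (nat_lit 547) (nat_lit 364) (nat_lit 289)) (XT.lf (nat_lit 0) (nat_lit 35151487681) (nat_lit 152) (nat_lit 498192740) (nat_lit 0) (nat_lit 27017665199) (nat_lit 12) (nat_lit 5) (nat_lit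 14) (nat_lit 4) (nat_lit 12) (nat_lit 4) (nat_lit 548) (nat_lit 364) (nat_lit 288))) (XT.nd (nat_lit 78) (nat_lit 0) (nat_lit 0) (XT.lf (nat_lit 0) (nat_lit 14501999309) (nat_lit 76) (nat_lit 28990170216) (nat_lit 76) (nat_lit 20828325587) (nat_lit 11) (nat_lit 4) (nat_lit 12) (nat_lit 5) (nat_lit 12) (nat_lit 4) (nat_lit 549) (nat_lit 364) (nat_lit 287)) (XT.lf (nat_lit 0) (nat_lit 29886916896) (nat_lit 76) (nat_lit 22163181252) (nat_lit 76) (nat_lit 13974130656) (nat_lit 11) (nat_lit 4) (nat_lit 12) (nat_lit 5) (nat_lit 12) (nat_lit 4) (nat_lit 550) (nat_lit 364) (nat_lit 286)))) (XT.nd (nat_lit 156) (nat_lit 76) (nat_lit 0) (XT.nd (nat_lit 78) (nat_lit 76) (nat_lit 0) (XT.lf (nat_lit 0) (nat_lit 45660088140) (nat_lit 76) (nat_lit 15167778970) (nat_lit 76) (nat_lit 6952314813) (nat_lit 11) (nat_lit 4) (nat_lit 12) (nat_lit 5) (nat_lit 12) (nat_lit 4) (nat_lit 551) (nat_lit 364) (nat_lit 285)) (XT.lf (nat_lit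 0) (nat_lit 238510678) (nat_lit 152) (nat_lit 7756931712) (nat_lit 76) (nat_lit 61594376254) (nat_lit 10) (nat_lit 5) (nat_lit 12) (nat_lit 5) (nat_lit 11) (nat_lit 4) (nat_lit 552) (nat_lit 364) (nat_lit 284))) (XT.nd (nat_lit 56004) (nat_lit 0) (nat_lit 6080) (XT.lf (nat_lit 0) (nat_lit 7035798191) (nat_lit 76) (nat_lit 502036240) (nat_lit 152) (nat_lit 63912870198) (nat_lit 9) (nat_lit 5) (nat_lit 10) (nat_lit 5) (nat_lit 11) (nat_lit 4) (nat_lit 553) (nat_lit 364) (nat_lit 283)) (XT.lf (nat_lit 0) (nat_lit 2943602925) (nat_lit 228) (nat_lit 174946391) (nat_lit 0) (nat_lit 2943602925) (nat_lit 89) (nat_lit 5) (nat_lit 92) (nat_lit 4) (nat_lit 89) (nat_lit 4) (nat_lit 470) (nat_lit 365) (nat_lit 365))))))))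
noncomputable def xc29 : XT := (XT.nd (nat_lit 2340) (nat_lit 1672) (nat_lit 0) (XT.nd (nat_lit 1170) (nat_lit 1368) (nat_lit 0) (XT.nd (nat_lit 546) (nat_lit 1140) (nat_lit 0) (XT.nd (nat_lit 234) (nat_lit 608) (nat_lit 0) (XT.nd (nat_lit 78) (nat_lit 380) (nat_lit 0) (XT.lf (nat_lit 0) (nat_lit 10175657326) (nat_lit 152) (nat_lit 1320440784) (nat_lit 152) (nat_lit 812808279) (nat_lit 87) (nat_lit 4) (nat_lit 89) (nat_lit 5) (nat_lit 89) (nat_lit 4) (nat_lit 471) (nat_lit 365) (nat_lit 364)) (XT.nd (nat_lit 78) (nat_lit 152) (nat_lit 0) (XT.lf (nat_lit 0) (nat_lit 4685859884) (nat_lit 228) (nat_lit 4097153759) (nat_lit 0) (nat_lit 3714520469) (nat_lit 84) (nat_lit 5) (nat_lit 87) (nat_lit 4) (nat_lit 84) (nat_lit 4) (nat_lit 472) (nat_lit 365) (nat_lit 363)) (XT.lf (nat_lit 0) (nat_lit 6501487050) (nat_lit 152) (nat_lit 3813273796) (nat_lit 152) (nat_lit 2377378728) (nat_lit 82) (nat_lit 4) (nat_lit 84) (nat_lit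 5) (nat_lit 84) (nat_lit 4) (nat_lit 473) (nat_lit 365) (nat_lit 362)))) (XT.nd (nat_lit 156) (nat_lit 228) (nat_lit 0) (XT.nd (nat_lit 78) (nat_lit 152) (nat_lit 0) (XT.lf (nat_lit 0) (nat_lit 3139126675) (nat_lit 228) (nat_lit 8445910135) (nat_lit 0) (nat_lit 1307165535) (nat_lit 79) (nat_lit 5) (nat_lit 82) (nat_lit 4) (nat_lit 79) (nat_lit 4) (nat_lit 474) (nat_lit 365) (nat_lit 361)) (XT.lf (nat_lit 0) (nat_lit 2206573680) (nat_lit 152) (nat_lit 6573937706) (nat_lit 152) (nat_lit 4316842335) (nat_lit 77) (nat_lit 4) (nat_lit 79) (nat_lit 5) (nat_lit 79) (nat_lit 4) (nat_lit 475) (nat_lit 365) (nat_lit 360))) (XT.nd (nat_lit 78) (nat_lit 152) (nat_lit 0) (XT.lf (nat_lit 0) (nat_lit 1228893672) (nat_lit 228) (nat_lit 175192896) (nat_lit 76) (nat_lit 11905067420) (nat_lit 76) (nat_lit 5) (nat_lit 79) (nat_lit 5) (nat_lit 77) (nat_lit 4) (nat_lit 476) (nat_lit 365) (nat_lit 359)) (XT.lf (nat_lit 0) (nat_lit 6885256493)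 (nat_lit 228) (nat_lit 2735732256) (nat_lit 0) (nat_lit 3904113931) (nat_lit 74) (nat_lit 5) (nat_lit 77) (nat_lit 4) (nat_lit 74) (nat_lit 4) (nat_lit 477) (nat_lit 365) (nat_lit 358))))) (XT.nd (nat_lit 312) (nat_lit 532) (nat_lit 0) (XT.nd (nat_lit 156) (nat_lit 228) (nat_lit 0) (XT.nd (nat_lit 78) (nat_lit 228) (nat_lit 0) (XT.lf (nat_lit 0) (nat_lit 8284623995) (nat_lit 152) (nat_lit 4411124261) (nat_lit 152) (nat_lit 1052255440) (nat_lit 72) (nat_lit 4) (nat_lit 74) (nat_lit 5) (nat_lit 74) (nat_lit 4) (nat_lit 478) (nat_lit 365) (nat_lit 357)) (XT.lf (nat_lit 0) (nat_lit 4591570212) (nat_lit 228) (nat_lit 8410771238) (nat_lit 0) (nat_lit 974489297) (nat_lit 69) (nat_lit 5) (nat_lit 72) (nat_lit 4) (nat_lit 69) (nat_lit 4) (nat_lit 479) (nat_lit 365) (nat_lit 356))) (XT.nd (nat_lit 78) (nat_lit 76) (nat_lit 0) (XT.lf (nat_lit 0) (nat_lit 2621257387) (nat_lit 152) (nat_lit 7776641453) (nat_lit 152) (nat_lit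 3813887503) (nat_lit 67) (nat_lit 4) (nat_lit 69) (nat_lit 5) (nat_lit 69) (nat_lit 4) (nat_lit 480) (nat_lit 365) (nat_lit 355)) (XT.lf (nat_lit 0) (nat_lit 1862789942) (nat_lit 228) (nat_lit 516895254) (nat_lit 76) (nat_lit 12074284847) (nat_lit 66) (nat_lit 5) (nat_lit 69) (nat_lit 5) (nat_lit 67) (nat_lit 4) (nat_lit 481) (nat_lit 365) (nat_lit 354)))) (XT.nd (nat_lit 156) (nat_lit 304) (nat_lit 0) (XT.nd (nat_lit 78) (nat_lit 152) (nat_lit 0) (XT.lf (nat_lit 0) (nat_lit 7661817552) (nat_lit 152) (nat_lit 3867299739) (nat_lit 0) (nat_lit 3172313837) (nat_lit 65) (nat_lit 5) (nat_lit 67) (nat_lit 4) (nat_lit 65) (nat_lit 4) (nat_lit 482) (nat_lit 365) (nat_lit 353)) (XT.lf (nat_lit 0) (nat_lit 7505531951) (nat_lit 152) (nat_lit 6123792138) (nat_lit 152) (nat_lit 1327162409) (nat_lit 63) (nat_lit 4) (nat_lit 65) (nat_lit 5) (nat_lit 65) (nat_lit 4) (nat_lit 483) (nat_lit 365) (nat_lit 352))) (XT.nd (nat_lit 78)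 (nat_lit 152) (nat_lit 0) (XT.lf (nat_lit 0) (nat_lit 3915392274) (nat_lit 76) (nat_lit 523131173) (nat_lit 152) (nat_lit 10780238068) (nat_lit 61) (nat_lit 5) (nat_lit 62) (nat_lit 5) (nat_lit 63) (nat_lit 4) (nat_lit 484) (nat_lit 365) (nat_lit 351)) (XT.lf (nat_lit 0) (nat_lit 27063917) (nat_lit 152) (nat_lit 10344156016) (nat_lit 152) (nat_lit 5116674415) (nat_lit 59) (nat_lit 4) (nat_lit 61) (nat_lit 5) (nat_lit 61) (nat_lit 4) (nat_lit 485) (nat_lit 365) (nat_lit 350)))))) (XT.nd (nat_lit 546) (nat_lit 684) (nat_lit 0) (XT.nd (nat_lit 234) (nat_lit 380) (nat_lit 0) (XT.nd (nat_lit 78) (nat_lit 228) (nat_lit 0) (XT.lf (nat_lit 0) (nat_lit 717466031) (nat_lit 228) (nat_lit 4043903042) (nat_lit 76) (nat_lit 11003090583) (nat_lit 58) (nat_lit 5) (nat_lit 61) (nat_lit 5) (nat_lit 59) (nat_lit 4) (nat_lit 486) (nat_lit 365) (nat_lit 349)) (XT.nd (nat_lit 78) (nat_lit 152) (nat_lit 0) (XT.lf (nat_lit 0) (nat_lit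 6604208430) (nat_lit 152) (nat_lit 8437345150) (nat_lit 0) (nat_lit 1006840775) (nat_lit 57) (nat_lit 5) (nat_lit 59) (nat_lit 4) (nat_lit 57) (nat_lit 4) (nat_lit 487) (nat_lit 365) (nat_lit 348)) (XT.lf (nat_lit 0) (nat_lit 3180762205) (nat_lit 152) (nat_lit 9503341113) (nat_lit 152) (nat_lit 3656251903) (nat_lit 55) (nat_lit 4) (nat_lit 57) (nat_lit 5) (nat_lit 57) (nat_lit 4) (nat_lit 488) (nat_lit 365) (nat_lit 347)))) (XT.nd (nat_lit 156) (nat_lit 228) (nat_lit 0) (XT.nd (nat_lit 78) (nat_lit 76) (nat_lit 0) (XT.lf (nat_lit 0) (nat_lit 2244113702) (nat_lit 228) (nat_lit 1533986506) (nat_lit 76) (nat_lit 12862800908) (nat_lit 54) (nat_lit 5) (nat_lit 57) (nat_lit 5) (nat_lit 55) (nat_lit 4) (nat_lit 489) (nat_lit 365) (nat_lit 346)) (XT.lf (nat_lit 0) (nat_lit 8269755733) (nat_lit 152) (nat_lit 6549920322) (nat_lit 0) (nat_lit 2129052978) (nat_lit 53) (nat_lit 5) (nat_lit 55) (nat_lit 4) (nat_lit 53) (nat_lit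 4) (nat_lit 490) (nat_lit 365) (nat_lit 345))) (XT.nd (nat_lit 78) (nat_lit 76) (nat_lit 0) (XT.lf (nat_lit 0) (nat_lit 5334752710) (nat_lit 152) (nat_lit 9146730417) (nat_lit 152) (nat_lit 2784153295) (nat_lit 51) (nat_lit 4) (nat_lit 53) (nat_lit 5) (nat_lit 53) (nat_lit 4) (nat_lit 491) (nat_lit 365) (nat_lit 344)) (XT.lf (nat_lit 0) (nat_lit 3191266909) (nat_lit 228) (nat_lit 99717303) (nat_lit 76) (nat_lit 14301085449) (nat_lit 50) (nat_lit 5) (nat_lit 53) (nat_lit 5) (nat_lit 51) (nat_lit 4) (nat_lit 492) (nat_lit 365) (nat_lit 343))))) (XT.nd (nat_lit 312) (nat_lit 304) (nat_lit 0) (XT.nd (nat_lit 156) (nat_lit 152) (nat_lit 0) (XT.nd (nat_lit 78) (nat_lit 152) (nat_lit 0) (XT.lf (nat_lit 0) (nat_lit 9337359999) (nat_lit 152) (nat_lit 5840775309) (nat_lit 0) (nat_lit 2747916309) (nat_lit 49) (nat_lit 5) (nat_lit 51) (nat_lit 4) (nat_lit 49) (nat_lit 4) (nat_lit 493) (nat_lit 365) (nat_lit 342)) (XT.lf (nat_lit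 0) (nat_lit 6275293576) (nat_lit 152) (nat_lit 9390697326) (nat_lit 152) (nat_lit 2604121135) (nat_lit 47) (nat_lit 4) (nat_lit 49) (nat_lit 5) (nat_lit 49) (nat_lit 4) (nat_lit 494) (nat_lit 365) (nat_lit 341))) (XT.nd (nat_lit 78) (nat_lit 0) (nat_lit 0) (XT.lf (nat_lit 0) (nat_lit 35206174) (nat_lit 76) (nat_lit 3419558920) (nat_lit 152) (nat_lit 15169778595) (nat_lit 45) (nat_lit 5) (nat_lit 46) (nat_lit 5) (nat_lit 47) (nat_lit 4) (nat_lit 495) (nat_lit 365) (nat_lit 340)) (XT.lf (nat_lit 0) (nat_lit 9696215188) (nat_lit 152) (nat_lit 6549943011) (nat_lit 0) (nat_lit 2741085811) (nat_lit 45) (nat_lit 5) (nat_lit 47) (nat_lit 4) (nat_lit 45) (nat_lit 4) (nat_lit 496) (nat_lit 365) (nat_lit 339)))) (XT.nd (nat_lit 156) (nat_lit 152) (nat_lit 0) (XT.nd (nat_lit 78) (nat_lit 76) (nat_lit 0) (XT.lf (nat_lit 0) (nat_lit 5751583135) (nat_lit 76) (nat_lit 10369814914) (nat_lit 76) (nat_lit 3239535863) (nat_lit 44)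 (nat_lit 4) (nat_lit 45) (nat_lit 5) (nat_lit 45) (nat_lit 4) (nat_lit 497) (nat_lit 365) (nat_lit 338)) (XT.lf (nat_lit 0) (nat_lit 2909328251) (nat_lit 152) (nat_lit 1394390928) (nat_lit 76) (nat_lit 15442027922) (nat_lit 43) (nat_lit 5) (nat_lit 45) (nat_lit 5) (nat_lit 44) (nat_lit 4) (nat_lit 498) (nat_lit 365) (nat_lit 337))) (XT.nd (nat_lit 78) (nat_lit 76) (nat_lit 0) (XT.lf (nat_lit 0) (nat_lit 9214639866) (nat_lit 152) (nat_lit 8958736047) (nat_lit 0) (nat_lit 1966656715) (nat_lit 42) (nat_lit 5) (nat_lit 44) (nat_lit 4) (nat_lit 42) (nat_lit 4) (nat_lit 499) (nat_lit 365) (nat_lit 336)) (XT.lf (nat_lit 0) (nat_lit 3469510810) (nat_lit 76) (nat_lit 12240112397) (nat_lit 76) (nat_lit 4836511030) (nat_lit 41) (nat_lit 4) (nat_lit 42) (nat_lit 5) (nat_lit 42) (nat_lit 4) (nat_lit 500) (nat_lit 365) (nat_lit 335))))))) (XT.nd (nat_lit 1170) (nat_lit 760) (nat_lit 0) (XT.nd (nat_lit 546) (nat_lit 456) (nat_lit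 0) (XT.nd (nat_lit 234) (nat_lit 304) (nat_lit 0) (XT.nd (nat_lit 78) (nat_lit 76) (nat_lit 0) (XT.lf (nat_lit 0) (nat_lit 1408814314) (nat_lit 152) (nat_lit 4694793957) (nat_lit 76) (nat_lit 14860346113) (nat_lit 40) (nat_lit 5) (nat_lit 42) (nat_lit 5) (nat_lit 41) (nat_lit 4) (nat_lit 501) (nat_lit 365) (nat_lit 334)) (XT.nd (nat_lit 78) (nat_lit 0) (nat_lit 0) (XT.lf (nat_lit 0) (nat_lit 7736756071) (nat_lit 152) (nat_lit 13396649375) (nat_lit 0) (nat_lit 259695770) (nat_lit 39) (nat_lit 5) (nat_lit 41) (nat_lit 4) (nat_lit 39) (nat_lit 4) (nat_lit 502) (nat_lit 365) (nat_lit 333)) (XT.lf (nat_lit 0) (nat_lit 14276042393) (nat_lit 152) (nat_lit 897720116) (nat_lit 0) (nat_lit 6660717321) (nat_lit 39) (nat_lit 5) (nat_lit 41) (nat_lit 4) (nat_lit 39) (nat_lit 4) (nat_lit 503) (nat_lit 365) (nat_lit 332)))) (XT.nd (nat_lit 156) (nat_lit 76) (nat_lit 0) (XT.nd (nat_lit 78) (nat_lit 152) (nat_lit 0) (XT.lf (nat_lit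 0) (nat_lit 12048379006) (nat_lit 76) (nat_lit 8994669875) (nat_lit 76) (nat_lit 1245107163) (nat_lit 38) (nat_lit 4) (nat_lit 39) (nat_lit 5) (nat_lit 39) (nat_lit 4) (nat_lit 504) (nat_lit 365) (nat_lit 331)) (XT.lf (nat_lit 0) (nat_lit 2480888482) (nat_lit 76) (nat_lit 2622943537) (nat_lit 152) (nat_lit 17651632563) (nat_lit 36) (nat_lit 5) (nat_lit 37) (nat_lit 5) (nat_lit 38) (nat_lit 4) (nat_lit 505) (nat_lit 365) (nat_lit 330))) (XT.nd (nat_lit 78) (nat_lit 76) (nat_lit 0) (XT.lf (nat_lit 0) (nat_lit 11676464215) (nat_lit 152) (nat_lit 7654974486) (nat_lit 0) (nat_lit 3903238613) (nat_lit 36) (nat_lit 5) (nat_lit 38) (nat_lit 4) (nat_lit 36) (nat_lit 4) (nat_lit 506) (nat_lit 365) (nat_lit 329)) (XT.lf (nat_lit 0) (nat_lit 5261529564) (nat_lit 76) (nat_lit 13179692344) (nat_lit 76) (nat_lit 5287198336) (nat_lit 35) (nat_lit 4) (nat_lit 36) (nat_lit 5) (nat_lit 36) (nat_lit 4) (nat_lit 507) (nat_lit 365)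 (nat_lit 328))))) (XT.nd (nat_lit 312) (nat_lit 228) (nat_lit 0) (XT.nd (nat_lit 156) (nat_lit 76) (nat_lit 0) (XT.nd (nat_lit 78) (nat_lit 76) (nat_lit 0) (XT.lf (nat_lit 0) (nat_lit 1145610993) (nat_lit 152) (nat_lit 5682698258) (nat_lit 76) (nat_lit 17408434340) (nat_lit 34) (nat_lit 5) (nat_lit 36) (nat_lit 5) (nat_lit 35) (nat_lit 4) (nat_lit 508) (nat_lit 365) (nat_lit 327)) (XT.lf (nat_lit 0) (nat_lit 7423690500) (nat_lit 76) (nat_lit 233649887) (nat_lit 152) (nat_lit 17101641725) (nat_lit 33) (nat_lit 5) (nat_lit 34) (nat_lit 5) (nat_lit 35) (nat_lit 4) (nat_lit 509) (nat_lit 365) (nat_lit 326))) (XT.nd (nat_lit 78) (nat_lit 76) (nat_lit 0) (XT.lf (nat_lit 0) (nat_lit 14406393494) (nat_lit 152) (nat_lit 4472996983) (nat_lit 0) (nat_lit 6416240122) (nat_lit 33) (nat_lit 5) (nat_lit 35) (nat_lit 4) (nat_lit 33) (nat_lit 4) (nat_lit 510) (nat_lit 365) (nat_lit 325)) (XT.lf (nat_lit 0) (nat_lit 8794984111)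 (nat_lit 76) (nat_lit 12573063895) (nat_lit 76) (nat_lit 4480028548) (nat_lit 32) (nat_lit 4) (nat_lit 33) (nat_lit 5) (nat_lit 33) (nat_lit 4) (nat_lit 511) (nat_lit 365) (nat_lit 324)))) (XT.nd (nat_lit 156) (nat_lit 76) (nat_lit 0) (XT.nd (nat_lit 78) (nat_lit 76) (nat_lit 0) (XT.lf (nat_lit 0) (nat_lit 2049006796) (nat_lit 152) (nat_lit 4033436961) (nat_lit 76) (nat_lit 20334973714) (nat_lit 31) (nat_lit 5) (nat_lit 33) (nat_lit 5) (nat_lit 32) (nat_lit 4) (nat_lit 512) (nat_lit 365) (nat_lit 323)) (XT.lf (nat_lit 0) (nat_lit 8705951461) (nat_lit 152) (nat_lit 17638387846) (nat_lit 0) (nat_lit 657507882) (nat_lit 30) (nat_lit 5) (nat_lit 32) (nat_lit 4) (nat_lit 30) (nat_lit 4) (nat_lit 513) (nat_lit 365) (nat_lit 322))) (XT.nd (nat_lit 78) (nat_lit 76) (nat_lit 0) (XT.lf (nat_lit 0) (nat_lit 15589636758) (nat_lit 152) (nat_lit 4563579889) (nat_lit 0) (nat_lit 7449783877) (nat_lit 30) (nat_lit 5) (nat_lit 32)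 (nat_lit 4) (nat_lit 30) (nat_lit 4) (nat_lit 514) (nat_lit 365) (nat_lit 321)) (XT.lf (nat_lit 0) (nat_lit 8936782929) (nat_lit 76) (nat_lit 13756797263) (nat_lit 76) (nat_lit 5528197487) (nat_lit 29) (nat_lit 4) (nat_lit 30) (nat_lit 5) (nat_lit 30) (nat_lit 4) (nat_lit 515) (nat_lit 365) (nat_lit 320)))))) (XT.nd (nat_lit 624) (nat_lit 380) (nat_lit 0) (XT.nd (nat_lit 312) (nat_lit 152) (nat_lit 0) (XT.nd (nat_lit 156) (nat_lit 76) (nat_lit 0) (XT.nd (nat_lit 78) (nat_lit 76) (nat_lit 0) (XT.lf (nat_lit 0) (nat_lit 1103485006) (nat_lit 152) (nat_lit 6074687245) (nat_lit 76) (nat_lit 21681382426) (nat_lit 28) (nat_lit 5) (nat_lit 30) (nat_lit 5) (nat_lit 29) (nat_lit 4) (nat_lit 516) (nat_lit 365) (nat_lit 319)) (XT.lf (nat_lit 0) (nat_lit 7486257619) (nat_lit 76) (nat_lit 338703902) (nat_lit 152) (nat_lit 21689804287) (nat_lit 27) (nat_lit 5) (nat_lit 28) (nat_lit 5) (nat_lit 29) (nat_lit 4) (nat_lit 517) (nat_lit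 365) (nat_lit 318))) (XT.nd (nat_lit 78) (nat_lit 76) (nat_lit 0) (XT.lf (nat_lit 0) (nat_lit 14804582660) (nat_lit 152) (nat_lit 8811425132) (nat_lit 0) (nat_lit 6571931933) (nat_lit 27) (nat_lit 5) (nat_lit 29) (nat_lit 4) (nat_lit 27) (nat_lit 4) (nat_lit 518) (nat_lit 365) (nat_lit 317)) (XT.lf (nat_lit 0) (nat_lit 4758548018) (nat_lit 76) (nat_lit 17216265109) (nat_lit 76) (nat_lit 8907060531) (nat_lit 26) (nat_lit 4) (nat_lit 27) (nat_lit 5) (nat_lit 27) (nat_lit 4) (nat_lit 519) (nat_lit 365) (nat_lit 316)))) (XT.nd (nat_lit 156) (nat_lit 0) (nat_lit 0) (XT.nd (nat_lit 78) (nat_lit 152) (nat_lit 0) (XT.lf (nat_lit 0) (nat_lit 18784425785) (nat_lit 76) (nat_lit 10597537759) (nat_lit 76) (nat_lit 2214009053) (nat_lit 26) (nat_lit 4) (nat_lit 27) (nat_lit 5) (nat_lit 27) (nat_lit 4) (nat_lit 520) (nat_lit 365) (nat_lit 315)) (XT.lf (nat_lit 0) (nat_lit 739742297) (nat_lit 76) (nat_lit 3790026347) (nat_lit 152)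 (nat_lit 27802139945) (nat_lit 24) (nat_lit 5) (nat_lit 25) (nat_lit 5) (nat_lit 26) (nat_lit 4) (nat_lit 521) (nat_lit 365) (nat_lit 314))) (XT.nd (nat_lit 78) (nat_lit 0) (nat_lit 0) (XT.lf (nat_lit 0) (nat_lit 11527209237) (nat_lit 152) (nat_lit 18309395333) (nat_lit 0) (nat_lit 3249786256) (nat_lit 24) (nat_lit 5) (nat_lit 26) (nat_lit 4) (nat_lit 24) (nat_lit 4) (nat_lit 522) (nat_lit 365) (nat_lit 313)) (XT.lf (nat_lit 0) (nat_lit 18708241259) (nat_lit 152) (nat_lit 4791275197) (nat_lit 0) (nat_lit 10364782253) (nat_lit 24) (nat_lit 5) (nat_lit 26) (nat_lit 4) (nat_lit 24) (nat_lit 4) (nat_lit 523) (nat_lit 365) (nat_lit 312))))) (XT.nd (nat_lit 312) (nat_lit 152) (nat_lit 0) (XT.nd (nat_lit 156) (nat_lit 152) (nat_lit 0) (XT.nd (nat_lit 78) (nat_lit 0) (nat_lit 0) (XT.lf (nat_lit 0) (nat_lit 9189763500) (nat_lit 76) (nat_lit 16941281474) (nat_lit 76) (nat_lit 8533709823) (nat_lit 23) (nat_lit 4) (nat_lit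 24) (nat_lit 5) (nat_lit 24) (nat_lit 4) (nat_lit 524) (nat_lit 365) (nat_lit 311)) (XT.lf (nat_lit 0) (nat_lit 23567694968) (nat_lit 76) (nat_lit 10195868386) (nat_lit 76) (nat_lit 1726051449) (nat_lit 23) (nat_lit 4) (nat_lit 24) (nat_lit 5) (nat_lit 24) (nat_lit 4) (nat_lit 525) (nat_lit 365) (nat_lit 310))) (XT.nd (nat_lit 78) (nat_lit 0) (nat_lit 0) (XT.lf (nat_lit 0) (nat_lit 1905683816) (nat_lit 76) (nat_lit 3235169912) (nat_lit 152) (nat_lit 31198098767) (nat_lit 21) (nat_lit 5) (nat_lit 22) (nat_lit 5) (nat_lit 23) (nat_lit 4) (nat_lit 526) (nat_lit 365) (nat_lit 309)) (XT.lf (nat_lit 0) (nat_lit 12278387380) (nat_lit 152) (nat_lit 20992263176) (nat_lit 0) (nat_lit 3939628733) (nat_lit 21) (nat_lit 5) (nat_lit 23) (nat_lit 4) (nat_lit 21) (nat_lit 4) (nat_lit 527) (nat_lit 365) (nat_lit 308)))) (XT.nd (nat_lit 156) (nat_lit 76) (nat_lit 0) (XT.nd (nat_lit 78) (nat_lit 76) (nat_lit 0) (XT.lf (nat_lit 0)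 (nat_lit 19603742399) (nat_lit 152) (nat_lit 7295114031) (nat_lit 0) (nat_lit 11209679622) (nat_lit 21) (nat_lit 5) (nat_lit 23) (nat_lit 4) (nat_lit 21) (nat_lit 4) (nat_lit 528) (nat_lit 365) (nat_lit 307)) (XT.lf (nat_lit 0) (nat_lit 6834613497) (nat_lit 76) (nat_lit 20323306138) (nat_lit 76) (nat_lit 11875550030) (nat_lit 20) (nat_lit 4) (nat_lit 21) (nat_lit 5) (nat_lit 21) (nat_lit 4) (nat_lit 529) (nat_lit 365) (nat_lit 306))) (XT.nd (nat_lit 78) (nat_lit 76) (nat_lit 0) (XT.lf (nat_lit 0) (nat_lit 21427166657) (nat_lit 76) (nat_lit 13529171340) (nat_lit 76) (nat_lit 5029285784) (nat_lit 20) (nat_lit 4) (nat_lit 21) (nat_lit 5) (nat_lit 21) (nat_lit 4) (nat_lit 530) (nat_lit 365) (nat_lit 305)) (XT.lf (nat_lit 0) (nat_lit 1927945023) (nat_lit 152) (nat_lit 4636768271) (nat_lit 76) (nat_lit 34402695661) (nat_lit 19) (nat_lit 5) (nat_lit 21) (nat_lit 5) (nat_lit 20) (nat_lit 4) (nat_lit 531) (nat_lit 365)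 (nat_lit 304))))))))
noncomputable def xc30 : XT := (XT.nd (nat_lit 58110) (nat_lit 0) (nat_lit 1976) (XT.nd (nat_lit 1170) (nat_lit 152) (nat_lit 0) (XT.nd (nat_lit 546) (nat_lit 228) (nat_lit 0) (XT.nd (nat_lit 234) (nat_lit 228) (nat_lit 0) (XT.nd (nat_lit 78) (nat_lit 0) (nat_lit 0) (XT.lf (nat_lit 0) (nat_lit 9039825823) (nat_lit 152) (nat_lit 32245251481) (nat_lit 0) (nat_lit 690666917) (nat_lit 18) (nat_lit 5) (nat_lit 20) (nat_lit 4) (nat_lit 18) (nat_lit 4) (nat_lit 532) (nat_lit 365) (nat_lit 303)) (XT.nd (nat_lit 78) (nat_lit 0) (nat_lit 0) (XT.lf (nat_lit 0) (nat_lit 16424045754) (nat_lit 152) (nat_lit 18559944661) (nat_lit 0) (nat_lit 8028570509) (nat_lit 18) (nat_lit 5) (nat_lit 20) (nat_lit 4) (nat_lit 18) (nat_lit 4) (nat_lit 533) (nat_lit 365) (nat_lit 302)) (XT.lf (nat_lit 0) (nat_lit 23978044408) (nat_lit 152) (nat_lit 4566389144) (nat_lit 0) (nat_lit 15537601844) (nat_lit 18) (nat_lit 5) (nat_lit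 20) (nat_lit 4) (nat_lit 18) (nat_lit 4) (nat_lit 534) (nat_lit 365) (nat_lit 301)))) (XT.nd (nat_lit 156) (nat_lit 152) (nat_lit 0) (XT.nd (nat_lit 78) (nat_lit 0) (nat_lit 0) (XT.lf (nat_lit 0) (nat_lit 9941639644) (nat_lit 76) (nat_lit 21862347845) (nat_lit 76) (nat_lit 13378247689) (nat_lit 17) (nat_lit 4) (nat_lit 18) (nat_lit 5) (nat_lit 18) (nat_lit 4) (nat_lit 535) (nat_lit 365) (nat_lit 300)) (XT.lf (nat_lit 0) (nat_lit 24880159036) (nat_lit 76) (nat_lit 14980938604) (nat_lit 76) (nat_lit 6454452437) (nat_lit 17) (nat_lit 4) (nat_lit 18) (nat_lit 5) (nat_lit 18) (nat_lit 4) (nat_lit 536) (nat_lit 365) (nat_lit 299))) (XT.nd (nat_lit 78) (nat_lit 76) (nat_lit 0) (XT.lf (nat_lit 0) (nat_lit 615091580) (nat_lit 152) (nat_lit 7319001725) (nat_lit 76) (nat_lit 39550039209) (nat_lit 16) (nat_lit 5) (nat_lit 18) (nat_lit 5) (nat_lit 17) (nat_lit 4) (nat_lit 537) (nat_lit 365) (nat_lit 298)) (XT.lf (nat_lit 0)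 (nat_lit 7203894301) (nat_lit 76) (nat_lit 585014475) (nat_lit 152) (nat_lit 40896289756) (nat_lit 15) (nat_lit 5) (nat_lit 16) (nat_lit 5) (nat_lit 17) (nat_lit 4) (nat_lit 538) (nat_lit 365) (nat_lit 297))))) (XT.nd (nat_lit 312) (nat_lit 152) (nat_lit 0) (XT.nd (nat_lit 156) (nat_lit 76) (nat_lit 0) (XT.nd (nat_lit 78) (nat_lit 0) (nat_lit 0) (XT.lf (nat_lit 0) (nat_lit 15272432269) (nat_lit 152) (nat_lit 27769141351) (nat_lit 0) (nat_lit 6877888853) (nat_lit 15) (nat_lit 5) (nat_lit 17) (nat_lit 4) (nat_lit 15) (nat_lit 4) (nat_lit 539) (nat_lit 365) (nat_lit 296)) (XT.lf (nat_lit 0) (nat_lit 22940343804) (nat_lit 152) (nat_lit 13742376896) (nat_lit 0) (nat_lit 14509237842) (nat_lit 15) (nat_lit 5) (nat_lit 17) (nat_lit 4) (nat_lit 15) (nat_lit 4) (nat_lit 540) (nat_lit 365) (nat_lit 295))) (XT.nd (nat_lit 78) (nat_lit 0) (nat_lit 0) (XT.lf (nat_lit 0) (nat_lit 629145952) (nat_lit 76) (nat_lit 30170621763)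 (nat_lit 76) (nat_lit 21704018184) (nat_lit 14) (nat_lit 4) (nat_lit 15) (nat_lit 5) (nat_lit 15) (nat_lit 4) (nat_lit 541) (nat_lit 365) (nat_lit 294)) (XT.lf (nat_lit 0) (nat_lit 15626064193) (nat_lit 76) (nat_lit 23363566066) (nat_lit 76) (nat_lit 14862498781) (nat_lit 14) (nat_lit 4) (nat_lit 15) (nat_lit 5) (nat_lit 15) (nat_lit 4) (nat_lit 542) (nat_lit 365) (nat_lit 293)))) (XT.nd (nat_lit 156) (nat_lit 152) (nat_lit 0) (XT.nd (nat_lit 78) (nat_lit 0) (nat_lit 0) (XT.lf (nat_lit 0) (nat_lit 30987981682) (nat_lit 76) (nat_lit 16394376758) (nat_lit 76) (nat_lit 7859849564) (nat_lit 14) (nat_lit 4) (nat_lit 15) (nat_lit 5) (nat_lit 15) (nat_lit 4) (nat_lit 543) (nat_lit 365) (nat_lit 292)) (XT.lf (nat_lit 0) (nat_lit 46728321454) (nat_lit 76) (nat_lit 9256964254) (nat_lit 76) (nat_lit 689951712) (nat_lit 14) (nat_lit 4) (nat_lit 15) (nat_lit 5) (nat_lit 15) (nat_lit 4) (nat_lit 544) (nat_lit 365) (nat_lit 291)))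 (XT.nd (nat_lit 78) (nat_lit 0) (nat_lit 0) (XT.lf (nat_lit 0) (nat_lit 4736843504) (nat_lit 76) (nat_lit 1832316702) (nat_lit 152) (nat_lit 51580024530) (nat_lit 12) (nat_lit 5) (nat_lit 13) (nat_lit 5) (nat_lit 14) (nat_lit 4) (nat_lit 545) (nat_lit 365) (nat_lit 290)) (XT.lf (nat_lit 0) (nat_lit 14148779483) (nat_lit 152) (nat_lit 39743926237) (nat_lit 0) (nat_lit 5770942326) (nat_lit 12) (nat_lit 5) (nat_lit 14) (nat_lit 4) (nat_lit 12) (nat_lit 4) (nat_lit 546) (nat_lit 365) (nat_lit 289)))))) (XT.nd (nat_lit 56316) (nat_lit 0) (nat_lit 5092) (XT.nd (nat_lit 234) (nat_lit 76) (nat_lit 0) (XT.nd (nat_lit 78) (nat_lit 76) (nat_lit 0) (XT.lf (nat_lit 0) (nat_lit 21934380046) (nat_lit 152) (nat_lit 25762127885) (nat_lit 0) (nat_lit 13527680078) (nat_lit 12) (nat_lit 5) (nat_lit 14) (nat_lit 4) (nat_lit 12) (nat_lit 4) (nat_lit 547) (nat_lit 365) (nat_lit 288)) (XT.nd (nat_lit 78) (nat_lit 76) (nat_lit 0) (XT.lf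 (nat_lit 0) (nat_lit 29915151499) (nat_lit 152) (nat_lit 11437115722) (nat_lit 0) (nat_lit 21480429385) (nat_lit 12) (nat_lit 5) (nat_lit 14) (nat_lit 4) (nat_lit 12) (nat_lit 4) (nat_lit 548) (nat_lit 365) (nat_lit 287)) (XT.lf (nat_lit 0) (nat_lit 3308181795) (nat_lit 76) (nat_lit 34821685803) (nat_lit 76) (nat_lit 26359757720) (nat_lit 11) (nat_lit 4) (nat_lit 12) (nat_lit 5) (nat_lit 12) (nat_lit 4) (nat_lit 549) (nat_lit 365) (nat_lit 286)))) (XT.nd (nat_lit 156) (nat_lit 76) (nat_lit 0) (XT.nd (nat_lit 78) (nat_lit 0) (nat_lit 0) (XT.lf (nat_lit 0) (nat_lit 18656994027) (nat_lit 76) (nat_lit 28012626075) (nat_lit 76) (nat_lit 19524284432) (nat_lit 11) (nat_lit 4) (nat_lit 12) (nat_lit 5) (nat_lit 12) (nat_lit 4) (nat_lit 550) (nat_lit 365) (nat_lit 285)) (XT.lf (nat_lit 0) (nat_lit 34395111528) (nat_lit 76) (nat_lit 21034630819) (nat_lit 76) (nat_lit 12520644942) (nat_lit 11) (nat_lit 4) (nat_lit 12) (nat_lit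 5) (nat_lit 12) (nat_lit 4) (nat_lit 551) (nat_lit 365) (nat_lit 284))) (XT.nd (nat_lit 78) (nat_lit 76) (nat_lit 0) (XT.lf (nat_lit 0) (nat_lit 50536286052) (nat_lit 76) (nat_lit 13881602756) (nat_lit 76) (nat_lit 5342719565) (nat_lit 11) (nat_lit 4) (nat_lit 12) (nat_lit 5) (nat_lit 12) (nat_lit 4) (nat_lit 552) (nat_lit 365) (nat_lit 283)) (XT.lf (nat_lit 0) (nat_lit 1976428863) (nat_lit 152) (nat_lit 4550904747) (nat_lit 76) (nat_lit 65098234616) (nat_lit 10) (nat_lit 5) (nat_lit 12) (nat_lit 5) (nat_lit 11) (nat_lit 4) (nat_lit 553) (nat_lit 365) (nat_lit 282))))) (XT.nd (nat_lit 312) (nat_lit 760) (nat_lit 0) (XT.nd (nat_lit 156) (nat_lit 152) (nat_lit 0) (XT.nd (nat_lit 78) (nat_lit 228) (nat_lit 0) (XT.lf (nat_lit 0) (nat_lit 1511984927) (nat_lit 228) (nat_lit 2186201839) (nat_lit 228) (nat_lit 2186201839) (nat_lit 92) (nat_lit 4) (nat_lit 95) (nat_lit 5) (nat_lit 95) (nat_lit 4) (nat_lit 468) (nat_lit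 366) (nat_lit 366)) (XT.lf (nat_lit 0) (nat_lit 946329635) (nat_lit 228) (nat_lit 10575837024) (nat_lit 0) (nat_lit 423468154) (nat_lit 89) (nat_lit 5) (nat_lit 92) (nat_lit 4) (nat_lit 89) (nat_lit 4) (nat_lit 469) (nat_lit 366) (nat_lit 365))) (XT.nd (nat_lit 78) (nat_lit 152) (nat_lit 0) (XT.lf (nat_lit 0) (nat_lit 6352642597) (nat_lit 228) (nat_lit 451240656) (nat_lit 0) (nat_lit 5322148611) (nat_lit 89) (nat_lit 5) (nat_lit 92) (nat_lit 4) (nat_lit 89) (nat_lit 4) (nat_lit 470) (nat_lit 366) (nat_lit 364)) (XT.lf (nat_lit 0) (nat_lit 9971938163) (nat_lit 152) (nat_lit 1931886250) (nat_lit 152) (nat_lit 408545172) (nat_lit 87) (nat_lit 4) (nat_lit 89) (nat_lit 5) (nat_lit 89) (nat_lit 4) (nat_lit 471) (nat_lit 366) (nat_lit 363)))) (XT.nd (nat_lit 156) (nat_lit 380) (nat_lit 0) (XT.nd (nat_lit 78) (nat_lit 152) (nat_lit 0) (XT.lf (nat_lit 0) (nat_lit 5017302772) (nat_lit 228) (nat_lit 4411754951) (nat_lit 0)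 (nat_lit 3073775198) (nat_lit 84) (nat_lit 5) (nat_lit 87) (nat_lit 4) (nat_lit 84) (nat_lit 4) (nat_lit 472) (nat_lit 366) (nat_lit 362)) (XT.lf (nat_lit 0) (nat_lit 6079839513) (nat_lit 152) (nat_lit 4506968668) (nat_lit 152) (nat_lit 2112416189) (nat_lit 82) (nat_lit 4) (nat_lit 84) (nat_lit 5) (nat_lit 84) (nat_lit 4) (nat_lit 473) (nat_lit 366) (nat_lit 361))) (XT.nd (nat_lit 78) (nat_lit 152) (nat_lit 0) (XT.lf (nat_lit 0) (nat_lit 3331389286) (nat_lit 228) (nat_lit 8988404395) (nat_lit 0) (nat_lit 581446822) (nat_lit 79) (nat_lit 5) (nat_lit 82) (nat_lit 4) (nat_lit 79) (nat_lit 4) (nat_lit 474) (nat_lit 366) (nat_lit 360)) (XT.lf (nat_lit 0) (nat_lit 1552103223) (nat_lit 152) (nat_lit 7359412164) (nat_lit 152) (nat_lit 4196718020) (nat_lit 77) (nat_lit 4) (nat_lit 79) (nat_lit 5) (nat_lit 79) (nat_lit 4) (nat_lit 475) (nat_lit 366) (nat_lit 359))))))) (XT.nd (nat_lit 1170) (nat_lit 1292) (nat_lit 0) (XT.nd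 (nat_lit 546) (nat_lit 912) (nat_lit 0) (XT.nd (nat_lit 234) (nat_lit 532) (nat_lit 0) (XT.nd (nat_lit 78) (nat_lit 304) (nat_lit 0) (XT.lf (nat_lit 0) (nat_lit 1291821893) (nat_lit 228) (nat_lit 941025487) (nat_lit 76) (nat_lit 11088800770) (nat_lit 76) (nat_lit 5) (nat_lit 79) (nat_lit 5) (nat_lit 77) (nat_lit 4) (nat_lit 476) (nat_lit 366) (nat_lit 358)) (XT.nd (nat_lit 78) (nat_lit 152) (nat_lit 0) (XT.lf (nat_lit 0) (nat_lit 6878011379) (nat_lit 228) (nat_lit 3621043877) (nat_lit 0) (nat_lit 3040650236) (nat_lit 74) (nat_lit 5) (nat_lit 77) (nat_lit 4) (nat_lit 74) (nat_lit 4) (nat_lit 477) (nat_lit 366) (nat_lit 357)) (XT.lf (nat_lit 0) (nat_lit 7283110056) (nat_lit 152) (nat_lit 5342732641) (nat_lit 152) (nat_lit 1138646976) (nat_lit 72) (nat_lit 4) (nat_lit 74) (nat_lit 5) (nat_lit 74) (nat_lit 4) (nat_lit 478) (nat_lit 366) (nat_lit 356)))) (XT.nd (nat_lit 156) (nat_lit 152) (nat_lit 0) (XT.nd (nat_lit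 78) (nat_lit 152) (nat_lit 0) (XT.lf (nat_lit 0) (nat_lit 4433519852) (nat_lit 228) (nat_lit 9555815034) (nat_lit 0) (nat_lit 6210249) (nat_lit 69) (nat_lit 5) (nat_lit 72) (nat_lit 4) (nat_lit 69) (nat_lit 4) (nat_lit 479) (nat_lit 366) (nat_lit 355)) (XT.lf (nat_lit 0) (nat_lit 1354521467) (nat_lit 152) (nat_lit 8820421987) (nat_lit 152) (nat_lit 4057507496) (nat_lit 67) (nat_lit 4) (nat_lit 69) (nat_lit 5) (nat_lit 69) (nat_lit 4) (nat_lit 480) (nat_lit 366) (nat_lit 354))) (XT.nd (nat_lit 78) (nat_lit 76) (nat_lit 0) (XT.lf (nat_lit 0) (nat_lit 1571289299) (nat_lit 228) (nat_lit 1899027200) (nat_lit 76) (nat_lit 11005970331) (nat_lit 66) (nat_lit 5) (nat_lit 69) (nat_lit 5) (nat_lit 67) (nat_lit 4) (nat_lit 481) (nat_lit 366) (nat_lit 353)) (XT.lf (nat_lit 0) (nat_lit 7293699253) (nat_lit 152) (nat_lit 5386305379) (nat_lit 0) (nat_lit 2046044618) (nat_lit 65) (nat_lit 5) (nat_lit 67) (nat_lit 4) (nat_lit 65)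 (nat_lit 4) (nat_lit 482) (nat_lit 366) (nat_lit 352))))) (XT.nd (nat_lit 312) (nat_lit 380) (nat_lit 0) (XT.nd (nat_lit 156) (nat_lit 228) (nat_lit 0) (XT.nd (nat_lit 78) (nat_lit 152) (nat_lit 0) (XT.lf (nat_lit 0) (nat_lit 5859987423) (nat_lit 152) (nat_lit 7334478672) (nat_lit 152) (nat_lit 1788643441) (nat_lit 63) (nat_lit 4) (nat_lit 65) (nat_lit 5) (nat_lit 65) (nat_lit 4) (nat_lit 483) (nat_lit 366) (nat_lit 351)) (XT.lf (nat_lit 0) (nat_lit 2118071576) (nat_lit 76) (nat_lit 1799860705) (nat_lit 152) (nat_lit 11329631381) (nat_lit 61) (nat_lit 5) (nat_lit 62) (nat_lit 5) (nat_lit 63) (nat_lit 4) (nat_lit 484) (nat_lit 366) (nat_lit 350))) (XT.nd (nat_lit 78) (nat_lit 228) (nat_lit 0) (XT.lf (nat_lit 0) (nat_lit 9787422099) (nat_lit 152) (nat_lit 1881998335) (nat_lit 0) (nat_lit 3849174753) (nat_lit 61) (nat_lit 5) (nat_lit 63) (nat_lit 4) (nat_lit 61) (nat_lit 4) (nat_lit 485) (nat_lit 366) (nat_lit 349))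 (XT.lf (nat_lit 0) (nat_lit 45727278) (nat_lit 228) (nat_lit 6110350566) (nat_lit 76) (nat_lit 9641339144) (nat_lit 58) (nat_lit 5) (nat_lit 61) (nat_lit 5) (nat_lit 59) (nat_lit 4) (nat_lit 486) (nat_lit 366) (nat_lit 348)))) (XT.nd (nat_lit 156) (nat_lit 152) (nat_lit 0) (XT.nd (nat_lit 78) (nat_lit 152) (nat_lit 0) (XT.lf (nat_lit 0) (nat_lit 5419806446) (nat_lit 76) (nat_lit 432507144) (nat_lit 152) (nat_lit 10231445062) (nat_lit 57) (nat_lit 5) (nat_lit 58) (nat_lit 5) (nat_lit 59) (nat_lit 4) (nat_lit 487) (nat_lit 366) (nat_lit 347)) (XT.lf (nat_lit 0) (nat_lit 820094214) (nat_lit 152) (nat_lit 11036286946) (nat_lit 152) (nat_lit 4521615393) (nat_lit 55) (nat_lit 4) (nat_lit 57) (nat_lit 5) (nat_lit 57) (nat_lit 4) (nat_lit 488) (nat_lit 366) (nat_lit 346))) (XT.nd (nat_lit 78) (nat_lit 76) (nat_lit 0) (XT.lf (nat_lit 0) (nat_lit 1346726746) (nat_lit 228) (nat_lit 4016202772) (nat_lit 76) (nat_lit 11317331863)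 (nat_lit 54) (nat_lit 5) (nat_lit 57) (nat_lit 5) (nat_lit 55) (nat_lit 4) (nat_lit 489) (nat_lit 366) (nat_lit 345)) (XT.lf (nat_lit 0) (nat_lit 7283781990) (nat_lit 152) (nat_lit 9198513755) (nat_lit 0) (nat_lit 508453187) (nat_lit 53) (nat_lit 5) (nat_lit 55) (nat_lit 4) (nat_lit 53) (nat_lit 4) (nat_lit 490) (nat_lit 366) (nat_lit 344)))))) (XT.nd (nat_lit 624) (nat_lit 532) (nat_lit 0) (XT.nd (nat_lit 312) (nat_lit 304) (nat_lit 0) (XT.nd (nat_lit 156) (nat_lit 228) (nat_lit 0) (XT.nd (nat_lit 78) (nat_lit 76) (nat_lit 0) (XT.lf (nat_lit 0) (nat_lit 2541991418) (nat_lit 152) (nat_lit 10879316856) (nat_lit 152) (nat_lit 3888576047) (nat_lit 51) (nat_lit 4) (nat_lit 53) (nat_lit 5) (nat_lit 53) (nat_lit 4) (nat_lit 491) (nat_lit 366) (nat_lit 343)) (XT.lf (nat_lit 0) (nat_lit 2061100271) (nat_lit 228) (nat_lit 3015845128) (nat_lit 76) (nat_lit 12561111362) (nat_lit 50) (nat_lit 5) (nat_lit 53) (nat_lit 5) (nat_lit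 51) (nat_lit 4) (nat_lit 492) (nat_lit 366) (nat_lit 342))) (XT.nd (nat_lit 78) (nat_lit 152) (nat_lit 0) (XT.lf (nat_lit 0) (nat_lit 8113976771) (nat_lit 152) (nat_lit 8934189452) (nat_lit 0) (nat_lit 926670793) (nat_lit 49) (nat_lit 5) (nat_lit 51) (nat_lit 4) (nat_lit 49) (nat_lit 4) (nat_lit 493) (nat_lit 366) (nat_lit 341)) (XT.lf (nat_lit 0) (nat_lit 3031339676) (nat_lit 152) (nat_lit 11334282909) (nat_lit 152) (nat_lit 3955586153) (nat_lit 47) (nat_lit 4) (nat_lit 49) (nat_lit 5) (nat_lit 49) (nat_lit 4) (nat_lit 494) (nat_lit 366) (nat_lit 340)))) (XT.nd (nat_lit 156) (nat_lit 152) (nat_lit 0) (XT.nd (nat_lit 78) (nat_lit 76) (nat_lit 0) (XT.lf (nat_lit 0) (nat_lit 2083584895) (nat_lit 228) (nat_lit 3334835706) (nat_lit 76) (nat_lit 13258993785) (nat_lit 46) (nat_lit 5) (nat_lit 49) (nat_lit 5) (nat_lit 47) (nat_lit 4) (nat_lit 495) (nat_lit 366) (nat_lit 339)) (XT.lf (nat_lit 0) (nat_lit 8227159434) (nat_lit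 152) (nat_lit 10108070803) (nat_lit 0) (nat_lit 707822337) (nat_lit 45) (nat_lit 5) (nat_lit 47) (nat_lit 4) (nat_lit 45) (nat_lit 4) (nat_lit 496) (nat_lit 366) (nat_lit 338))) (XT.nd (nat_lit 78) (nat_lit 76) (nat_lit 0) (XT.lf (nat_lit 0) (nat_lit 2036095913) (nat_lit 76) (nat_lit 12536217159) (nat_lit 76) (nat_lit 4846831835) (nat_lit 44) (nat_lit 4) (nat_lit 45) (nat_lit 5) (nat_lit 45) (nat_lit 4) (nat_lit 497) (nat_lit 366) (nat_lit 337)) (XT.lf (nat_lit 0) (nat_lit 1289130269) (nat_lit 152) (nat_lit 5237546243) (nat_lit 76) (nat_lit 13279074541) (nat_lit 43) (nat_lit 5) (nat_lit 45) (nat_lit 5) (nat_lit 44) (nat_lit 4) (nat_lit 498) (nat_lit 366) (nat_lit 336))))) (XT.nd (nat_lit 312) (nat_lit 228) (nat_lit 0) (XT.nd (nat_lit 156) (nat_lit 228) (nat_lit 0) (XT.nd (nat_lit 78) (nat_lit 0) (nat_lit 0) (XT.lf (nat_lit 0) (nat_lit 7197439333) (nat_lit 76) (nat_lit 296258591) (nat_lit 152) (nat_lit 12709362397)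 (nat_lit 42) (nat_lit 5) (nat_lit 43) (nat_lit 5) (nat_lit 44) (nat_lit 4) (nat_lit 499) (nat_lit 366) (nat_lit 335)) (XT.lf (nat_lit 0) (nat_lit 13909596649) (nat_lit 152) (nat_lit 724755824) (nat_lit 0) (nat_lit 5977183376) (nat_lit 42) (nat_lit 5) (nat_lit 44) (nat_lit 4) (nat_lit 42) (nat_lit 4) (nat_lit 500) (nat_lit 366) (nat_lit 334))) (XT.nd (nat_lit 78) (nat_lit 152) (nat_lit 0) (XT.lf (nat_lit 0) (nat_lit 11992978220) (nat_lit 76) (nat_lit 8558688835) (nat_lit 76) (nat_lit 479590467) (nat_lit 41) (nat_lit 4) (nat_lit 42) (nat_lit 5) (nat_lit 42) (nat_lit 4) (nat_lit 501) (nat_lit 366) (nat_lit 333)) (XT.lf (nat_lit 0) (nat_lit 3492084692) (nat_lit 76) (nat_lit 2278159531) (nat_lit 152) (nat_lit 15692923667) (nat_lit 39) (nat_lit 5) (nat_lit 40) (nat_lit 5) (nat_lit 41) (nat_lit 4) (nat_lit 502) (nat_lit 366) (nat_lit 332)))) (XT.nd (nat_lit 156) (nat_lit 152) (nat_lit 0) (XT.nd (nat_lit 78) (nat_lit 76)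 (nat_lit 0) (XT.lf (nat_lit 0) (nat_lit 12246116796) (nat_lit 152) (nat_lit 5530503785) (nat_lit 0) (nat_lit 4129829561) (nat_lit 39) (nat_lit 5) (nat_lit 41) (nat_lit 4) (nat_lit 39) (nat_lit 4) (nat_lit 503) (nat_lit 366) (nat_lit 331)) (XT.lf (nat_lit 0) (nat_lit 7243931703) (nat_lit 76) (nat_lit 11682702775) (nat_lit 76) (nat_lit 3436087733) (nat_lit 38) (nat_lit 4) (nat_lit 39) (nat_lit 5) (nat_lit 39) (nat_lit 4) (nat_lit 504) (nat_lit 366) (nat_lit 330))) (XT.nd (nat_lit 78) (nat_lit 76) (nat_lit 0) (XT.lf (nat_lit 0) (nat_lit 2891488473) (nat_lit 152) (nat_lit 2503425290) (nat_lit 76) (nat_lit 17437673446) (nat_lit 37) (nat_lit 5) (nat_lit 39) (nat_lit 5) (nat_lit 38) (nat_lit 4) (nat_lit 505) (nat_lit 366) (nat_lit 329)) (XT.lf (nat_lit 0) (nat_lit 9372491240) (nat_lit 152) (nat_lit 12818104667) (nat_lit 0) (nat_lit 1123954007) (nat_lit 36) (nat_lit 5) (nat_lit 38) (nat_lit 4) (nat_lit 36) (nat_lit 4)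 (nat_lit 506) (nat_lit 366) (nat_lit 328))))))))
noncomputable def xc31 : XT := (XT.nd (nat_lit 2340) (nat_lit 456) (nat_lit 0) (XT.nd (nat_lit 1170) (nat_lit 608) (nat_lit 0) (XT.nd (nat_lit 546) (nat_lit 380) (nat_lit 0) (XT.nd (nat_lit 234) (nat_lit 228) (nat_lit 0) (XT.nd (nat_lit 78) (nat_lit 228) (nat_lit 0) (XT.lf (nat_lit 0) (nat_lit 16047645518) (nat_lit 152) (nat_lit 80022771) (nat_lit 0) (nat_lit 7683313716) (nat_lit 36) (nat_lit 5) (nat_lit 38) (nat_lit 4) (nat_lit 36) (nat_lit 4) (nat_lit 507) (nat_lit 366) (nat_lit 327)) (XT.nd (nat_lit 78) (nat_lit 152) (nat_lit 0) (XT.lf (nat_lit 0) (nat_lit 13147460705) (nat_lit 76) (nat_lit 9825059094) (nat_lit 76) (nat_lit 1348305381) (nat_lit 35) (nat_lit 4) (nat_lit 36) (nat_lit 5) (nat_lit 36) (nat_lit 4) (nat_lit 508) (nat_lit 366) (nat_lit 326)) (XT.lf (nat_lit 0) (nat_lit 1761925769) (nat_lit 76) (nat_lit 3335525938) (nat_lit 152) (nat_lit 19748770262)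 (nat_lit 33) (nat_lit 5) (nat_lit 34) (nat_lit 5) (nat_lit 35) (nat_lit 4) (nat_lit 509) (nat_lit 366) (nat_lit 325)))) (XT.nd (nat_lit 156) (nat_lit 152) (nat_lit 0) (XT.nd (nat_lit 78) (nat_lit 76) (nat_lit 0) (XT.lf (nat_lit 0) (nat_lit 11778891468) (nat_lit 152) (nat_lit 10265825242) (nat_lit 0) (nat_lit 3340183087) (nat_lit 33) (nat_lit 5) (nat_lit 35) (nat_lit 4) (nat_lit 33) (nat_lit 4) (nat_lit 510) (nat_lit 366) (nat_lit 324)) (XT.lf (nat_lit 0) (nat_lit 2813948379) (nat_lit 76) (nat_lit 15832408871) (nat_lit 76) (nat_lit 7293815078) (nat_lit 32) (nat_lit 4) (nat_lit 33) (nat_lit 5) (nat_lit 33) (nat_lit 4) (nat_lit 511) (nat_lit 366) (nat_lit 323))) (XT.nd (nat_lit 78) (nat_lit 152) (nat_lit 0) (XT.lf (nat_lit 0) (nat_lit 16352840746) (nat_lit 76) (nat_lit 9396967583) (nat_lit 76) (nat_lit 761397662) (nat_lit 32) (nat_lit 4) (nat_lit 33) (nat_lit 5) (nat_lit 33) (nat_lit 4) (nat_lit 512) (nat_lit 366)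 (nat_lit 322)) (XT.lf (nat_lit 0) (nat_lit 3059912833) (nat_lit 76) (nat_lit 2747788809) (nat_lit 152) (nat_lit 21291235562) (nat_lit 30) (nat_lit 5) (nat_lit 31) (nat_lit 5) (nat_lit 32) (nat_lit 4) (nat_lit 513) (nat_lit 366) (nat_lit 321))))) (XT.nd (nat_lit 312) (nat_lit 152) (nat_lit 0) (XT.nd (nat_lit 156) (nat_lit 152) (nat_lit 0) (XT.nd (nat_lit 78) (nat_lit 76) (nat_lit 0) (XT.lf (nat_lit 0) (nat_lit 12629427578) (nat_lit 152) (nat_lit 11007299638) (nat_lit 0) (nat_lit 4065222915) (nat_lit 30) (nat_lit 5) (nat_lit 32) (nat_lit 4) (nat_lit 30) (nat_lit 4) (nat_lit 514) (nat_lit 366) (nat_lit 320)) (XT.lf (nat_lit 0) (nat_lit 2296005212) (nat_lit 76) (nat_lit 17339019967) (nat_lit 76) (nat_lit 8688653270) (nat_lit 29) (nat_lit 4) (nat_lit 30) (nat_lit 5) (nat_lit 30) (nat_lit 4) (nat_lit 515) (nat_lit 366) (nat_lit 319))) (XT.nd (nat_lit 78) (nat_lit 152) (nat_lit 0) (XT.lf (nat_lit 0) (nat_lit 16088421769)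 (nat_lit 76) (nat_lit 10804201292) (nat_lit 76) (nat_lit 2070182135) (nat_lit 29) (nat_lit 4) (nat_lit 30) (nat_lit 5) (nat_lit 30) (nat_lit 4) (nat_lit 516) (nat_lit 366) (nat_lit 318)) (XT.lf (nat_lit 0) (nat_lit 504693727) (nat_lit 76) (nat_lit 4086404235) (nat_lit 152) (nat_lit 25030533874) (nat_lit 27) (nat_lit 5) (nat_lit 28) (nat_lit 5) (nat_lit 29) (nat_lit 4) (nat_lit 517) (nat_lit 366) (nat_lit 317)))) (XT.nd (nat_lit 156) (nat_lit 152) (nat_lit 0) (XT.nd (nat_lit 78) (nat_lit 0) (nat_lit 0) (XT.lf (nat_lit 0) (nat_lit 11501258010) (nat_lit 152) (nat_lit 15929408832) (nat_lit 0) (nat_lit 2866223443) (nat_lit 27) (nat_lit 5) (nat_lit 29) (nat_lit 4) (nat_lit 27) (nat_lit 4) (nat_lit 518) (nat_lit 366) (nat_lit 316)) (XT.lf (nat_lit 0) (nat_lit 18593284361) (nat_lit 152) (nat_lit 2515960993) (nat_lit 0) (nat_lit 9883925667) (nat_lit 27) (nat_lit 5) (nat_lit 29) (nat_lit 4) (nat_lit 27) (nat_lit 4) (nat_lit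 519) (nat_lit 366) (nat_lit 315))) (XT.nd (nat_lit 78) (nat_lit 76) (nat_lit 0) (XT.lf (nat_lit 0) (nat_lit 11396799519) (nat_lit 76) (nat_lit 14546846404) (nat_lit 76) (nat_lit 5765328363) (nat_lit 26) (nat_lit 4) (nat_lit 27) (nat_lit 5) (nat_lit 27) (nat_lit 4) (nat_lit 520) (nat_lit 366) (nat_lit 314)) (XT.lf (nat_lit 0) (nat_lit 1009141140) (nat_lit 152) (nat_lit 6803019144) (nat_lit 76) (nat_lit 24634932956) (nat_lit 25) (nat_lit 5) (nat_lit 27) (nat_lit 5) (nat_lit 26) (nat_lit 4) (nat_lit 521) (nat_lit 366) (nat_lit 313)))))) (XT.nd (nat_lit 546) (nat_lit 304) (nat_lit 0) (XT.nd (nat_lit 234) (nat_lit 152) (nat_lit 0) (XT.nd (nat_lit 78) (nat_lit 76) (nat_lit 0) (XT.lf (nat_lit 0) (nat_lit 7070427432) (nat_lit 76) (nat_lit 806429807) (nat_lit 152) (nat_lit 25328610576) (nat_lit 24) (nat_lit 5) (nat_lit 25) (nat_lit 5) (nat_lit 26) (nat_lit 4) (nat_lit 522) (nat_lit 366) (nat_lit 312)) (XT.nd (nat_lit 78)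 (nat_lit 76) (nat_lit 0) (XT.lf (nat_lit 0) (nat_lit 15019597021) (nat_lit 152) (nat_lit 12669242454) (nat_lit 0) (nat_lit 6295685576) (nat_lit 24) (nat_lit 5) (nat_lit 26) (nat_lit 4) (nat_lit 24) (nat_lit 4) (nat_lit 523) (nat_lit 366) (nat_lit 311)) (XT.lf (nat_lit 0) (nat_lit 1095524108) (nat_lit 76) (nat_lit 21239419029) (nat_lit 76) (nat_lit 12453262298) (nat_lit 23) (nat_lit 4) (nat_lit 24) (nat_lit 5) (nat_lit 24) (nat_lit 4) (nat_lit 524) (nat_lit 366) (nat_lit 310)))) (XT.nd (nat_lit 156) (nat_lit 76) (nat_lit 0) (XT.nd (nat_lit 78) (nat_lit 76) (nat_lit 0) (XT.lf (nat_lit 0) (nat_lit 15415703013) (nat_lit 76) (nat_lit 14522416150) (nat_lit 76) (nat_lit 5675827102) (nat_lit 23) (nat_lit 4) (nat_lit 24) (nat_lit 5) (nat_lit 24) (nat_lit 4) (nat_lit 525) (nat_lit 366) (nat_lit 309)) (XT.lf (nat_lit 0) (nat_lit 1221063522) (nat_lit 152) (nat_lit 6426502250) (nat_lit 76) (nat_lit 28818270402) (nat_lit 22)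 (nat_lit 5) (nat_lit 24) (nat_lit 5) (nat_lit 23) (nat_lit 4) (nat_lit 526) (nat_lit 366) (nat_lit 308))) (XT.nd (nat_lit 78) (nat_lit 0) (nat_lit 0) (XT.lf (nat_lit 0) (nat_lit 7741624349) (nat_lit 76) (nat_lit 486872598) (nat_lit 152) (nat_lit 29112569533) (nat_lit 21) (nat_lit 5) (nat_lit 22) (nat_lit 5) (nat_lit 23) (nat_lit 4) (nat_lit 527) (nat_lit 366) (nat_lit 307)) (XT.lf (nat_lit 0) (nat_lit 15521271889) (nat_lit 152) (nat_lit 15952639478) (nat_lit 0) (nat_lit 6766389767) (nat_lit 21) (nat_lit 5) (nat_lit 23) (nat_lit 4) (nat_lit 21) (nat_lit 4) (nat_lit 528) (nat_lit 366) (nat_lit 306))))) (XT.nd (nat_lit 312) (nat_lit 76) (nat_lit 0) (XT.nd (nat_lit 156) (nat_lit 152) (nat_lit 0) (XT.nd (nat_lit 78) (nat_lit 76) (nat_lit 0) (XT.lf (nat_lit 0) (nat_lit 22982663300) (nat_lit 152) (nat_lit 2009703769) (nat_lit 0) (nat_lit 14175651731) (nat_lit 21) (nat_lit 5) (nat_lit 23) (nat_lit 4) (nat_lit 21) (nat_lit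 4) (nat_lit 529) (nat_lit 366) (nat_lit 305)) (XT.lf (nat_lit 0) (nat_lit 12489952215) (nat_lit 76) (nat_lit 18244619571) (nat_lit 76) (nat_lit 9386996888) (nat_lit 20) (nat_lit 4) (nat_lit 21) (nat_lit 5) (nat_lit 21) (nat_lit 4) (nat_lit 530) (nat_lit 366) (nat_lit 304))) (XT.nd (nat_lit 78) (nat_lit 152) (nat_lit 0) (XT.lf (nat_lit 0) (nat_lit 27361535359) (nat_lit 76) (nat_lit 11324963226) (nat_lit 76) (nat_lit 2418203539) (nat_lit 20) (nat_lit 4) (nat_lit 21) (nat_lit 5) (nat_lit 21) (nat_lit 4) (nat_lit 531) (nat_lit 366) (nat_lit 303)) (XT.lf (nat_lit 0) (nat_lit 422167084) (nat_lit 76) (nat_lit 4196863753) (nat_lit 152) (nat_lit 37498359362) (nat_lit 18) (nat_lit 5) (nat_lit 19) (nat_lit 5) (nat_lit 20) (nat_lit 4) (nat_lit 532) (nat_lit 366) (nat_lit 302)))) (XT.nd (nat_lit 156) (nat_lit 76) (nat_lit 0) (XT.nd (nat_lit 78) (nat_lit 0) (nat_lit 0) (XT.lf (nat_lit 0) (nat_lit 11937416382) (nat_lit 152) (nat_lit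 28019972738) (nat_lit 0) (nat_lit 3198793222) (nat_lit 18) (nat_lit 5) (nat_lit 20) (nat_lit 4) (nat_lit 18) (nat_lit 4) (nat_lit 533) (nat_lit 366) (nat_lit 301)) (XT.lf (nat_lit 0) (nat_lit 19466665946) (nat_lit 152) (nat_lit 14075348547) (nat_lit 0) (nat_lit 10684385194) (nat_lit 18) (nat_lit 5) (nat_lit 20) (nat_lit 4) (nat_lit 18) (nat_lit 4) (nat_lit 534) (nat_lit 366) (nat_lit 300))) (XT.nd (nat_lit 78) (nat_lit 0) (nat_lit 0) (XT.lf (nat_lit 0) (nat_lit 194981697) (nat_lit 76) (nat_lit 26979908248) (nat_lit 76) (nat_lit 18155241485) (nat_lit 17) (nat_lit 4) (nat_lit 18) (nat_lit 5) (nat_lit 18) (nat_lit 4) (nat_lit 535) (nat_lit 366) (nat_lit 299)) (XT.lf (nat_lit 0) (nat_lit 15086460695) (nat_lit 76) (nat_lit 20121758829) (nat_lit 76) (nat_lit 11255940598) (nat_lit 17) (nat_lit 4) (nat_lit 18) (nat_lit 5) (nat_lit 18) (nat_lit 4) (nat_lit 536) (nat_lit 366) (nat_lit 298))))))) (XT.nd (nat_lit 1170) (nat_lit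 0) (nat_lit 0) (XT.nd (nat_lit 546) (nat_lit 228) (nat_lit 0) (XT.nd (nat_lit 234) (nat_lit 76) (nat_lit 0) (XT.nd (nat_lit 78) (nat_lit 152) (nat_lit 0) (XT.lf (nat_lit 0) (nat_lit 30331973381) (nat_lit 76) (nat_lit 13103707100) (nat_lit 76) (nat_lit 4197935989) (nat_lit 17) (nat_lit 4) (nat_lit 18) (nat_lit 5) (nat_lit 18) (nat_lit 4) (nat_lit 537) (nat_lit 366) (nat_lit 297)) (XT.nd (nat_lit 78) (nat_lit 76) (nat_lit 0) (XT.lf (nat_lit 0) (nat_lit 2965912064) (nat_lit 152) (nat_lit 2923758823) (nat_lit 76) (nat_lit 42948979118) (nat_lit 16) (nat_lit 5) (nat_lit 18) (nat_lit 5) (nat_lit 17) (nat_lit 4) (nat_lit 538) (nat_lit 366) (nat_lit 296)) (XT.lf (nat_lit 0) (nat_lit 10346880141) (nat_lit 152) (nat_lit 38102832349) (nat_lit 0) (nat_lit 1626278454) (nat_lit 15) (nat_lit 5) (nat_lit 17) (nat_lit 4) (nat_lit 15) (nat_lit 4) (nat_lit 539) (nat_lit 366) (nat_lit 295)))) (XT.nd (nat_lit 156) (nat_lit 76) (nat_lit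 0) (XT.nd (nat_lit 78) (nat_lit 0) (nat_lit 0) (XT.lf (nat_lit 0) (nat_lit 17992834678) (nat_lit 152) (nat_lit 24119575994) (nat_lit 0) (nat_lit 9236735375) (nat_lit 15) (nat_lit 5) (nat_lit 17) (nat_lit 4) (nat_lit 15) (nat_lit 4) (nat_lit 540) (nat_lit 366) (nat_lit 294)) (XT.lf (nat_lit 0) (nat_lit 25824893381) (nat_lit 152) (nat_lit 9802570923) (nat_lit 0) (nat_lit 17034330372) (nat_lit 15) (nat_lit 5) (nat_lit 17) (nat_lit 4) (nat_lit 15) (nat_lit 4) (nat_lit 541) (nat_lit 366) (nat_lit 293))) (XT.nd (nat_lit 78) (nat_lit 0) (nat_lit 0) (XT.lf (nat_lit 0) (nat_lit 4957430186) (nat_lit 76) (nat_lit 28940123462) (nat_lit 76) (nat_lit 20116100543) (nat_lit 14) (nat_lit 4) (nat_lit 15) (nat_lit 5) (nat_lit 15) (nat_lit 4) (nat_lit 542) (nat_lit 366) (nat_lit 292)) (XT.lf (nat_lit 0) (nat_lit 20278739182) (nat_lit 76) (nat_lit 21991058529) (nat_lit 76) (nat_lit 13134550263) (nat_lit 14) (nat_lit 4) (nat_lit 15)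 (nat_lit 5) (nat_lit 15) (nat_lit 4) (nat_lit 543) (nat_lit 366) (nat_lit 291))))) (XT.nd (nat_lit 312) (nat_lit 76) (nat_lit 0) (XT.nd (nat_lit 156) (nat_lit 76) (nat_lit 0) (XT.nd (nat_lit 78) (nat_lit 76) (nat_lit 0) (XT.lf (nat_lit 0) (nat_lit 35979653232) (nat_lit 76) (nat_lit 14873184255) (nat_lit 76) (nat_lit 5985136816) (nat_lit 14) (nat_lit 4) (nat_lit 15) (nat_lit 5) (nat_lit 15) (nat_lit 4) (nat_lit 544) (nat_lit 366) (nat_lit 290)) (XT.lf (nat_lit 0) (nat_lit 1312270109) (nat_lit 152) (nat_lit 6254759674) (nat_lit 76) (nat_lit 50748370119) (nat_lit 13) (nat_lit 5) (nat_lit 15) (nat_lit 5) (nat_lit 14) (nat_lit 4) (nat_lit 545) (nat_lit 366) (nat_lit 289))) (XT.nd (nat_lit 78) (nat_lit 0) (nat_lit 0) (XT.lf (nat_lit 0) (nat_lit 8755353215) (nat_lit 152) (nat_lit 51011016908) (nat_lit 0) (nat_lit 67589437) (nat_lit 12) (nat_lit 5) (nat_lit 14) (nat_lit 4) (nat_lit 12) (nat_lit 4) (nat_lit 546) (nat_lit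 366) (nat_lit 288)) (XT.lf (nat_lit 0) (nat_lit 16522038937) (nat_lit 152) (nat_lit 37066775275) (nat_lit 0) (nat_lit 7806253013) (nat_lit 12) (nat_lit 5) (nat_lit 14) (nat_lit 4) (nat_lit 12) (nat_lit 4) (nat_lit 547) (nat_lit 366) (nat_lit 287)))) (XT.nd (nat_lit 156) (nat_lit 76) (nat_lit 0) (XT.nd (nat_lit 78) (nat_lit 0) (nat_lit 0) (XT.lf (nat_lit 0) (nat_lit 24484446467) (nat_lit 152) (nat_lit 22778225946) (nat_lit 0) (nat_lit 15741454575) (nat_lit 12) (nat_lit 5) (nat_lit 14) (nat_lit 4) (nat_lit 12) (nat_lit 4) (nat_lit 548) (nat_lit 366) (nat_lit 286)) (XT.lf (nat_lit 0) (nat_lit 32649533248) (nat_lit 152) (nat_lit 8132883780) (nat_lit 0) (nat_lit 23880127794) (nat_lit 12) (nat_lit 5) (nat_lit 14) (nat_lit 4) (nat_lit 12) (nat_lit 4) (nat_lit 549) (nat_lit 366) (nat_lit 285))) (XT.nd (nat_lit 78) (nat_lit 0) (nat_lit 0) (XT.lf (nat_lit 0) (nat_lit 7019014375) (nat_lit 76) (nat_lit 34072890506) (nat_lit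 76) (nat_lit 25277840819) (nat_lit 11) (nat_lit 4) (nat_lit 12) (nat_lit 5) (nat_lit 12) (nat_lit 4) (nat_lit 550) (nat_lit 366) (nat_lit 284)) (XT.lf (nat_lit 0) (nat_lit 22723099115) (nat_lit 76) (nat_lit 27111795274) (nat_lit 76) (nat_lit 18291848273) (nat_lit 11) (nat_lit 4) (nat_lit 12) (nat_lit 5) (nat_lit 12) (nat_lit 4) (nat_lit 551) (nat_lit 366) (nat_lit 283)))))) (XT.nd (nat_lit 56238) (nat_lit 0) (nat_lit 4408) (XT.nd (nat_lit 55926) (nat_lit 0) (nat_lit 5776) (XT.nd (nat_lit 55770) (nat_lit 0) (nat_lit 6384) (XT.nd (nat_lit 78) (nat_lit 0) (nat_lit 0) (XT.lf (nat_lit 0) (nat_lit 38831232124) (nat_lit 76) (nat_lit 19975175002) (nat_lit 76) (nat_lit 11131055851) (nat_lit 11) (nat_lit 4) (nat_lit 12) (nat_lit 5) (nat_lit 12) (nat_lit 4) (nat_lit 552) (nat_lit 366) (nat_lit 282)) (XT.lf (nat_lit 0) (nat_lit 55357488468) (nat_lit 76) (nat_lit 12656793808) (nat_lit 76) (nat_lit 3789206550) (nat_lit 11) (nat_lit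 4) (nat_lit 12) (nat_lit 5) (nat_lit 12) (nat_lit 4) (nat_lit 553) (nat_lit 366) (nat_lit 281))) (XT.nd (nat_lit 78) (nat_lit 228) (nat_lit 0) (XT.lf (nat_lit 0) (nat_lit 3058146573) (nat_lit 228) (nat_lit 1328225505) (nat_lit 228) (nat_lit 1328225505) (nat_lit 98) (nat_lit 4) (nat_lit 101) (nat_lit 5) (nat_lit 101) (nat_lit 4) (nat_lit 466) (nat_lit 367) (nat_lit 367)) (XT.lf (nat_lit 0) (nat_lit 2569783182) (nat_lit 228) (nat_lit 7012764059) (nat_lit 0) (nat_lit 2015079438) (nat_lit 95) (nat_lit 5) (nat_lit 98) (nat_lit 4) (nat_lit 95) (nat_lit 4) (nat_lit 467) (nat_lit 367) (nat_lit 366)))) (XT.nd (nat_lit 156) (nat_lit 152) (nat_lit 0) (XT.nd (nat_lit 78) (nat_lit 228) (nat_lit 0) (XT.lf (nat_lit 0) (nat_lit 2924086440) (nat_lit 228) (nat_lit 4969830782) (nat_lit 228) (nat_lit 3876579713) (nat_lit 92) (nat_lit 4) (nat_lit 95) (nat_lit 5) (nat_lit 95) (nat_lit 4) (nat_lit 468) (nat_lit 367) (nat_lit 365)) (XT.lf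 (nat_lit 0) (nat_lit 1165541142) (nat_lit 152) (nat_lit 204731612) (nat_lit 228) (nat_lit 10578809601) (nat_lit 89) (nat_lit 5) (nat_lit 91) (nat_lit 5) (nat_lit 92) (nat_lit 4) (nat_lit 469) (nat_lit 367) (nat_lit 364))) (XT.nd (nat_lit 78) (nat_lit 152) (nat_lit 0) (XT.lf (nat_lit 0) (nat_lit 6718865541) (nat_lit 228) (nat_lit 755372835) (nat_lit 0) (nat_lit 4656977139) (nat_lit 89) (nat_lit 5) (nat_lit 92) (nat_lit 4) (nat_lit 89) (nat_lit 4) (nat_lit 470) (nat_lit 367) (nat_lit 363)) (XT.lf (nat_lit 0) (nat_lit 9564321830) (nat_lit 152) (nat_lit 2647678950) (nat_lit 152) (nat_lit 107298225) (nat_lit 87) (nat_lit 4) (nat_lit 89) (nat_lit 5) (nat_lit 89) (nat_lit 4) (nat_lit 471) (nat_lit 367) (nat_lit 362))))) (XT.nd (nat_lit 312) (nat_lit 608) (nat_lit 0) (XT.nd (nat_lit 156) (nat_lit 380) (nat_lit 0) (XT.nd (nat_lit 78) (nat_lit 152) (nat_lit 0) (XT.lf (nat_lit 0) (nat_lit 5246343837) (nat_lit 228) (nat_lit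 4936395698) (nat_lit 0) (nat_lit 2328929877) (nat_lit 84) (nat_lit 5) (nat_lit 87) (nat_lit 4) (nat_lit 84) (nat_lit 4) (nat_lit 472) (nat_lit 367) (nat_lit 361)) (XT.lf (nat_lit 0) (nat_lit 5446907712) (nat_lit 152) (nat_lit 5309126904) (nat_lit 152) (nat_lit 1953824686) (nat_lit 82) (nat_lit 4) (nat_lit 84) (nat_lit 5) (nat_lit 84) (nat_lit 4) (nat_lit 473) (nat_lit 367) (nat_lit 360))) (XT.nd (nat_lit 78) (nat_lit 152) (nat_lit 0) (XT.lf (nat_lit 0) (nat_lit 3162795440) (nat_lit 152) (nat_lit 257515834) (nat_lit 228) (nat_lit 9493519442) (nat_lit 79) (nat_lit 5) (nat_lit 81) (nat_lit 5) (nat_lit 82) (nat_lit 4) (nat_lit 474) (nat_lit 367) (nat_lit 359)) (XT.lf (nat_lit 0) (nat_lit 678586636) (nat_lit 152) (nat_lit 8257612121) (nat_lit 152) (nat_lit 4186555685) (nat_lit 77) (nat_lit 4) (nat_lit 79) (nat_lit 5) (nat_lit 79) (nat_lit 4) (nat_lit 475) (nat_lit 367) (nat_lit 358)))) (XT.nd (nat_lit 156) (nat_lit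 380) (nat_lit 0) (XT.nd (nat_lit 78) (nat_lit 152) (nat_lit 0) (XT.lf (nat_lit 0) (nat_lit 1248531521) (nat_lit 228) (nat_lit 1925595493) (nat_lit 76) (nat_lit 10163640322) (nat_lit 76) (nat_lit 5) (nat_lit 79) (nat_lit 5) (nat_lit 77) (nat_lit 4) (nat_lit 476) (nat_lit 367) (nat_lit 357)) (XT.lf (nat_lit 0) (nat_lit 6762891354) (nat_lit 228) (nat_lit 4729132968) (nat_lit 0) (nat_lit 2065958597) (nat_lit 74) (nat_lit 5) (nat_lit 77) (nat_lit 4) (nat_lit 74) (nat_lit 4) (nat_lit 477) (nat_lit 367) (nat_lit 356))) (XT.nd (nat_lit 78) (nat_lit 228) (nat_lit 0) (XT.lf (nat_lit 0) (nat_lit 6057256286) (nat_lit 152) (nat_lit 6390194109) (nat_lit 152) (nat_lit 1337218126) (nat_lit 72) (nat_lit 4) (nat_lit 74) (nat_lit 5) (nat_lit 74) (nat_lit 4) (nat_lit 478) (nat_lit 367) (nat_lit 355)) (XT.lf (nat_lit 0) (nat_lit 3075089067) (nat_lit 152) (nat_lit 1099166146) (nat_lit 228) (nat_lit 9843466149) (nat_lit 69) (nat_lit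 5) (nat_lit 71) (nat_lit 5) (nat_lit 72) (nat_lit 4) (nat_lit 479) (nat_lit 367) (nat_lit 354))))))))
noncomputable def xc32 : XT := (XT.nd (nat_lit 2340) (nat_lit 1444) (nat_lit 0) (XT.nd (nat_lit 1170) (nat_lit 1140) (nat_lit 0) (XT.nd (nat_lit 546) (nat_lit 760) (nat_lit 0) (XT.nd (nat_lit 234) (nat_lit 456) (nat_lit 0) (XT.nd (nat_lit 78) (nat_lit 304) (nat_lit 0) (XT.lf (nat_lit 0) (nat_lit 9840899862) (nat_lit 228) (nat_lit 142310602) (nat_lit 0) (nat_lit 4273663060) (nat_lit 69) (nat_lit 5) (nat_lit 72) (nat_lit 4) (nat_lit 69) (nat_lit 4) (nat_lit 480) (nat_lit 367) (nat_lit 353)) (XT.nd (nat_lit 78) (nat_lit 76) (nat_lit 0) (XT.lf (nat_lit 0) (nat_lit 1167307575) (nat_lit 228) (nat_lit 3513942217) (nat_lit 76) (nat_lit 9821141108) (nat_lit 66) (nat_lit 5) (nat_lit 69) (nat_lit 5) (nat_lit 67) (nat_lit 4) (nat_lit 481) (nat_lit 367) (nat_lit 352)) (XT.lf (nat_lit 0) (nat_lit 6811166325) (nat_lit 152) (nat_lit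 7142570814) (nat_lit 0) (nat_lit 800775441) (nat_lit 65) (nat_lit 5) (nat_lit 67) (nat_lit 4) (nat_lit 65) (nat_lit 4) (nat_lit 482) (nat_lit 367) (nat_lit 351)))) (XT.nd (nat_lit 156) (nat_lit 152) (nat_lit 0) (XT.nd (nat_lit 78) (nat_lit 152) (nat_lit 0) (XT.lf (nat_lit 0) (nat_lit 3975266244) (nat_lit 152) (nat_lit 8669111273) (nat_lit 152) (nat_lit 2369224664) (nat_lit 63) (nat_lit 4) (nat_lit 65) (nat_lit 5) (nat_lit 65) (nat_lit 4) (nat_lit 483) (nat_lit 367) (nat_lit 350)) (XT.lf (nat_lit 0) (nat_lit 76842882) (nat_lit 76) (nat_lit 3202858250) (nat_lit 152) (nat_lit 12000594468) (nat_lit 61) (nat_lit 5) (nat_lit 62) (nat_lit 5) (nat_lit 63) (nat_lit 4) (nat_lit 484) (nat_lit 367) (nat_lit 349))) (XT.nd (nat_lit 78) (nat_lit 152) (nat_lit 0) (XT.lf (nat_lit 0) (nat_lit 9086506608) (nat_lit 152) (nat_lit 4034398711) (nat_lit 0) (nat_lit 2432304759) (nat_lit 61) (nat_lit 5) (nat_lit 63) (nat_lit 4) (nat_lit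 61) (nat_lit 4) (nat_lit 485) (nat_lit 367) (nat_lit 348)) (XT.lf (nat_lit 0) (nat_lit 7401265840) (nat_lit 152) (nat_lit 7672144573) (nat_lit 152) (nat_lit 760729523) (nat_lit 59) (nat_lit 4) (nat_lit 61) (nat_lit 5) (nat_lit 61) (nat_lit 4) (nat_lit 486) (nat_lit 367) (nat_lit 347))))) (XT.nd (nat_lit 312) (nat_lit 304) (nat_lit 0) (XT.nd (nat_lit 156) (nat_lit 304) (nat_lit 0) (XT.nd (nat_lit 78) (nat_lit 0) (nat_lit 0) (XT.lf (nat_lit 0) (nat_lit 2967415369) (nat_lit 76) (nat_lit 2022019100) (nat_lit 152) (nat_lit 11133406730) (nat_lit 57) (nat_lit 5) (nat_lit 58) (nat_lit 5) (nat_lit 59) (nat_lit 4) (nat_lit 487) (nat_lit 367) (nat_lit 346)) (XT.lf (nat_lit 0) (nat_lit 10922788352) (nat_lit 152) (nat_lit 1761572284) (nat_lit 0) (nat_lit 3734842025) (nat_lit 57) (nat_lit 5) (nat_lit 59) (nat_lit 4) (nat_lit 57) (nat_lit 4) (nat_lit 488) (nat_lit 367) (nat_lit 345))) (XT.nd (nat_lit 78) (nat_lit 76) (nat_lit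 0) (XT.lf (nat_lit 0) (nat_lit 326023092) (nat_lit 228) (nat_lit 6754650046) (nat_lit 76) (nat_lit 9643025286) (nat_lit 54) (nat_lit 5) (nat_lit 57) (nat_lit 5) (nat_lit 55) (nat_lit 4) (nat_lit 489) (nat_lit 367) (nat_lit 344)) (XT.lf (nat_lit 0) (nat_lit 4915760476) (nat_lit 76) (nat_lit 1268531035) (nat_lit 152) (nat_lit 10852260037) (nat_lit 53) (nat_lit 5) (nat_lit 54) (nat_lit 5) (nat_lit 55) (nat_lit 4) (nat_lit 490) (nat_lit 367) (nat_lit 343)))) (XT.nd (nat_lit 156) (nat_lit 76) (nat_lit 0) (XT.nd (nat_lit 78) (nat_lit 228) (nat_lit 0) (XT.lf (nat_lit 0) (nat_lit 12239212628) (nat_lit 152) (nat_lit 504754659) (nat_lit 0) (nat_lit 4614199716) (nat_lit 53) (nat_lit 5) (nat_lit 55) (nat_lit 4) (nat_lit 53) (nat_lit 4) (nat_lit 491) (nat_lit 367) (nat_lit 342)) (XT.lf (nat_lit 0) (nat_lit 803815861) (nat_lit 228) (nat_lit 6196313188) (nat_lit 76) (nat_lit 10688094465) (nat_lit 50) (nat_lit 5) (nat_lit 53)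 (nat_lit 5) (nat_lit 51) (nat_lit 4) (nat_lit 492) (nat_lit 367) (nat_lit 341))) (XT.nd (nat_lit 78) (nat_lit 0) (nat_lit 0) (XT.lf (nat_lit 0) (nat_lit 5719972263) (nat_lit 76) (nat_lit 1051044560) (nat_lit 152) (nat_lit 11256558961) (nat_lit 49) (nat_lit 5) (nat_lit 50) (nat_lit 5) (nat_lit 51) (nat_lit 4) (nat_lit 493) (nat_lit 367) (nat_lit 340)) (XT.lf (nat_lit 0) (nat_lit 12938952089) (nat_lit 152) (nat_lit 475821069) (nat_lit 0) (nat_lit 4961687363) (nat_lit 49) (nat_lit 5) (nat_lit 51) (nat_lit 4) (nat_lit 49) (nat_lit 4) (nat_lit 494) (nat_lit 367) (nat_lit 339)))))) (XT.nd (nat_lit 546) (nat_lit 532) (nat_lit 0) (XT.nd (nat_lit 234) (nat_lit 304) (nat_lit 0) (XT.nd (nat_lit 78) (nat_lit 76) (nat_lit 0) (XT.lf (nat_lit 0) (nat_lit 581452937) (nat_lit 228) (nat_lit 6977319428) (nat_lit 76) (nat_lit 11175796579) (nat_lit 46) (nat_lit 5) (nat_lit 49) (nat_lit 5) (nat_lit 47) (nat_lit 4) (nat_lit 495) (nat_lit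 367) (nat_lit 338)) (XT.nd (nat_lit 78) (nat_lit 0) (nat_lit 0) (XT.lf (nat_lit 0) (nat_lit 5143231204) (nat_lit 76) (nat_lit 1495216957) (nat_lit 152) (nat_lit 12464357903) (nat_lit 45) (nat_lit 5) (nat_lit 46) (nat_lit 5) (nat_lit 47) (nat_lit 4) (nat_lit 496) (nat_lit 367) (nat_lit 337)) (XT.lf (nat_lit 0) (nat_lit 12906633663) (nat_lit 152) (nat_lit 1923152101) (nat_lit 0) (nat_lit 4651423185) (nat_lit 45) (nat_lit 5) (nat_lit 47) (nat_lit 4) (nat_lit 45) (nat_lit 4) (nat_lit 497) (nat_lit 367) (nat_lit 336)))) (XT.nd (nat_lit 156) (nat_lit 76) (nat_lit 0) (XT.nd (nat_lit 78) (nat_lit 152) (nat_lit 0) (XT.lf (nat_lit 0) (nat_lit 10502122353) (nat_lit 76) (nat_lit 8891706430) (nat_lit 76) (nat_lit 476209189) (nat_lit 44) (nat_lit 4) (nat_lit 45) (nat_lit 5) (nat_lit 45) (nat_lit 4) (nat_lit 498) (nat_lit 367) (nat_lit 335)) (XT.lf (nat_lit 0) (nat_lit 2907910026) (nat_lit 76) (nat_lit 2746782330) (nat_lit 152)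 (nat_lit 14615282352) (nat_lit 42) (nat_lit 5) (nat_lit 43) (nat_lit 5) (nat_lit 44) (nat_lit 4) (nat_lit 499) (nat_lit 367) (nat_lit 334))) (XT.nd (nat_lit 78) (nat_lit 76) (nat_lit 0) (XT.lf (nat_lit 0) (nat_lit 12005398509) (nat_lit 152) (nat_lit 5137766749) (nat_lit 0) (nat_lit 3537242095) (nat_lit 42) (nat_lit 5) (nat_lit 44) (nat_lit 4) (nat_lit 42) (nat_lit 4) (nat_lit 500) (nat_lit 367) (nat_lit 333)) (XT.lf (nat_lit 0) (nat_lit 7412802082) (nat_lit 76) (nat_lit 11150215457) (nat_lit 76) (nat_lit 2539646330) (nat_lit 41) (nat_lit 4) (nat_lit 42) (nat_lit 5) (nat_lit 42) (nat_lit 4) (nat_lit 501) (nat_lit 367) (nat_lit 332))))) (XT.nd (nat_lit 312) (nat_lit 228) (nat_lit 0) (XT.nd (nat_lit 156) (nat_lit 152) (nat_lit 0) (XT.nd (nat_lit 78) (nat_lit 76) (nat_lit 0) (XT.lf (nat_lit 0) (nat_lit 3676435312) (nat_lit 152) (nat_lit 1285670214) (nat_lit 76) (nat_lit 16575282578) (nat_lit 40) (nat_lit 5) (nat_lit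 42) (nat_lit 5) (nat_lit 41) (nat_lit 4) (nat_lit 502) (nat_lit 367) (nat_lit 331)) (XT.lf (nat_lit 0) (nat_lit 10073473226) (nat_lit 152) (nat_lit 10460431435) (nat_lit 0) (nat_lit 1449131926) (nat_lit 39) (nat_lit 5) (nat_lit 41) (nat_lit 4) (nat_lit 39) (nat_lit 4) (nat_lit 503) (nat_lit 367) (nat_lit 330))) (XT.nd (nat_lit 78) (nat_lit 76) (nat_lit 0) (XT.lf (nat_lit 0) (nat_lit 2138741103) (nat_lit 76) (nat_lit 14527044016) (nat_lit 76) (nat_lit 5776170866) (nat_lit 38) (nat_lit 4) (nat_lit 39) (nat_lit 5) (nat_lit 39) (nat_lit 4) (nat_lit 504) (nat_lit 367) (nat_lit 329)) (XT.lf (nat_lit 0) (nat_lit 557972596) (nat_lit 152) (nat_lit 7741035236) (nat_lit 76) (nat_lit 14614661957) (nat_lit 37) (nat_lit 5) (nat_lit 39) (nat_lit 5) (nat_lit 38) (nat_lit 4) (nat_lit 505) (nat_lit 367) (nat_lit 328)))) (XT.nd (nat_lit 156) (nat_lit 152) (nat_lit 0) (XT.nd (nat_lit 78) (nat_lit 0) (nat_lit 0) (XT.lf (nat_lit 0)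 (nat_lit 5091008402) (nat_lit 76) (nat_lit 1846920866) (nat_lit 152) (nat_lit 16460735666) (nat_lit 36) (nat_lit 5) (nat_lit 37) (nat_lit 5) (nat_lit 38) (nat_lit 4) (nat_lit 506) (nat_lit 367) (nat_lit 327)) (XT.lf (nat_lit 0) (nat_lit 13557440129) (nat_lit 152) (nat_lit 5625365331) (nat_lit 0) (nat_lit 4713961894) (nat_lit 36) (nat_lit 5) (nat_lit 38) (nat_lit 4) (nat_lit 36) (nat_lit 4) (nat_lit 507) (nat_lit 367) (nat_lit 326))) (XT.nd (nat_lit 78) (nat_lit 76) (nat_lit 0) (XT.lf (nat_lit 0) (nat_lit 7418931550) (nat_lit 76) (nat_lit 12971530633) (nat_lit 76) (nat_lit 4018904912) (nat_lit 35) (nat_lit 4) (nat_lit 36) (nat_lit 5) (nat_lit 36) (nat_lit 4) (nat_lit 508) (nat_lit 367) (nat_lit 325)) (XT.lf (nat_lit 0) (nat_lit 2425272901) (nat_lit 152) (nat_lit 4135290164) (nat_lit 76) (nat_lit 18376582670) (nat_lit 34) (nat_lit 5) (nat_lit 36) (nat_lit 5) (nat_lit 35) (nat_lit 4) (nat_lit 509) (nat_lit 367) (nat_lit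 324))))))) (XT.nd (nat_lit 1170) (nat_lit 684) (nat_lit 0) (XT.nd (nat_lit 546) (nat_lit 380) (nat_lit 0) (XT.nd (nat_lit 234) (nat_lit 228) (nat_lit 0) (XT.nd (nat_lit 78) (nat_lit 76) (nat_lit 0) (XT.lf (nat_lit 0) (nat_lit 8998072808) (nat_lit 152) (nat_lit 16377575074) (nat_lit 0) (nat_lit 103435789) (nat_lit 33) (nat_lit 5) (nat_lit 35) (nat_lit 4) (nat_lit 33) (nat_lit 4) (nat_lit 510) (nat_lit 367) (nat_lit 323)) (XT.nd (nat_lit 78) (nat_lit 76) (nat_lit 0) (XT.lf (nat_lit 0) (nat_lit 15802862637) (nat_lit 152) (nat_lit 3422125239) (nat_lit 0) (nat_lit 6811249490) (nat_lit 33) (nat_lit 5) (nat_lit 35) (nat_lit 4) (nat_lit 33) (nat_lit 4) (nat_lit 511) (nat_lit 367) (nat_lit 322)) (XT.lf (nat_lit 0) (nat_lit 9979927132) (nat_lit 76) (nat_lit 12857586741) (nat_lit 76) (nat_lit 3771822013) (nat_lit 32) (nat_lit 4) (nat_lit 33) (nat_lit 5) (nat_lit 33) (nat_lit 4) (nat_lit 512) (nat_lit 367) (nat_lit 321))))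 (XT.nd (nat_lit 156) (nat_lit 76) (nat_lit 0) (XT.nd (nat_lit 78) (nat_lit 76) (nat_lit 0) (XT.lf (nat_lit 0) (nat_lit 2792045191) (nat_lit 152) (nat_lit 3509322290) (nat_lit 76) (nat_lit 20898487860) (nat_lit 31) (nat_lit 5) (nat_lit 33) (nat_lit 5) (nat_lit 32) (nat_lit 4) (nat_lit 513) (nat_lit 367) (nat_lit 320)) (XT.lf (nat_lit 0) (nat_lit 9510355574) (nat_lit 152) (nat_lit 17781300105) (nat_lit 0) (nat_lit 514315842) (nat_lit 30) (nat_lit 5) (nat_lit 32) (nat_lit 4) (nat_lit 30) (nat_lit 4) (nat_lit 514) (nat_lit 367) (nat_lit 319))) (XT.nd (nat_lit 78) (nat_lit 76) (nat_lit 0) (XT.lf (nat_lit 0) (nat_lit 16460377116) (nat_lit 152) (nat_lit 4588305843) (nat_lit 0) (nat_lit 7380684925) (nat_lit 30) (nat_lit 5) (nat_lit 32) (nat_lit 4) (nat_lit 30) (nat_lit 4) (nat_lit 515) (nat_lit 367) (nat_lit 318)) (XT.lf (nat_lit 0) (nat_lit 9047929400) (nat_lit 76) (nat_lit 14591909120) (nat_lit 76) (nat_lit 5431000948)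 (nat_lit 29) (nat_lit 4) (nat_lit 30) (nat_lit 5) (nat_lit 30) (nat_lit 4) (nat_lit 516) (nat_lit 367) (nat_lit 317))))) (XT.nd (nat_lit 312) (nat_lit 152) (nat_lit 0) (XT.nd (nat_lit 156) (nat_lit 76) (nat_lit 0) (XT.nd (nat_lit 78) (nat_lit 76) (nat_lit 0) (XT.lf (nat_lit 0) (nat_lit 1258502547) (nat_lit 152) (nat_lit 6684998467) (nat_lit 76) (nat_lit 21788255731) (nat_lit 28) (nat_lit 5) (nat_lit 30) (nat_lit 5) (nat_lit 29) (nat_lit 4) (nat_lit 517) (nat_lit 367) (nat_lit 316)) (XT.lf (nat_lit 0) (nat_lit 7010688271) (nat_lit 76) (nat_lit 1032169246) (nat_lit 152) (nat_lit 22367932508) (nat_lit 27) (nat_lit 5) (nat_lit 28) (nat_lit 5) (nat_lit 29) (nat_lit 4) (nat_lit 518) (nat_lit 367) (nat_lit 315))) (XT.nd (nat_lit 78) (nat_lit 76) (nat_lit 0) (XT.lf (nat_lit 0) (nat_lit 15093445480) (nat_lit 152) (nat_lit 10038546541) (nat_lit 0) (nat_lit 5976322551) (nat_lit 27) (nat_lit 5) (nat_lit 29) (nat_lit 4) (nat_lit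 27) (nat_lit 4) (nat_lit 519) (nat_lit 367) (nat_lit 314)) (XT.lf (nat_lit 0) (nat_lit 3663291326) (nat_lit 76) (nat_lit 18675577916) (nat_lit 76) (nat_lit 9488397369) (nat_lit 26) (nat_lit 4) (nat_lit 27) (nat_lit 5) (nat_lit 27) (nat_lit 4) (nat_lit 520) (nat_lit 367) (nat_lit 313)))) (XT.nd (nat_lit 156) (nat_lit 76) (nat_lit 0) (XT.nd (nat_lit 78) (nat_lit 76) (nat_lit 0) (XT.lf (nat_lit 0) (nat_lit 17861330576) (nat_lit 76) (nat_lit 11980229212) (nat_lit 76) (nat_lit 2725031560) (nat_lit 26) (nat_lit 4) (nat_lit 27) (nat_lit 5) (nat_lit 27) (nat_lit 4) (nat_lit 521) (nat_lit 367) (nat_lit 312)) (XT.lf (nat_lit 0) (nat_lit 4098206095) (nat_lit 152) (nat_lit 1001875302) (nat_lit 76) (nat_lit 28228600563) (nat_lit 25) (nat_lit 5) (nat_lit 27) (nat_lit 5) (nat_lit 26) (nat_lit 4) (nat_lit 522) (nat_lit 367) (nat_lit 311))) (XT.nd (nat_lit 78) (nat_lit 0) (nat_lit 0) (XT.lf (nat_lit 0) (nat_lit 11160102296) (nat_lit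 152) (nat_lit 20901947200) (nat_lit 0) (nat_lit 2048115576) (nat_lit 24) (nat_lit 5) (nat_lit 26) (nat_lit 4) (nat_lit 24) (nat_lit 4) (nat_lit 523) (nat_lit 367) (nat_lit 310)) (XT.lf (nat_lit 0) (nat_lit 18436130362) (nat_lit 152) (nat_lit 7215183862) (nat_lit 0) (nat_lit 9263711325) (nat_lit 24) (nat_lit 5) (nat_lit 26) (nat_lit 4) (nat_lit 24) (nat_lit 4) (nat_lit 524) (nat_lit 367) (nat_lit 309)))))) (XT.nd (nat_lit 546) (nat_lit 380) (nat_lit 0) (XT.nd (nat_lit 234) (nat_lit 152) (nat_lit 0) (XT.nd (nat_lit 78) (nat_lit 76) (nat_lit 0) (XT.lf (nat_lit 0) (nat_lit 6905328286) (nat_lit 76) (nat_lit 19034753282) (nat_lit 76) (nat_lit 9803662093) (nat_lit 23) (nat_lit 4) (nat_lit 24) (nat_lit 5) (nat_lit 24) (nat_lit 4) (nat_lit 525) (nat_lit 367) (nat_lit 308)) (XT.nd (nat_lit 78) (nat_lit 76) (nat_lit 0) (XT.lf (nat_lit 0) (nat_lit 21486852214) (nat_lit 76) (nat_lit 12199012597) (nat_lit 76) (nat_lit 2910958154)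 (nat_lit 23) (nat_lit 4) (nat_lit 24) (nat_lit 5) (nat_lit 24) (nat_lit 4) (nat_lit 526) (nat_lit 367) (nat_lit 307)) (XT.lf (nat_lit 0) (nat_lit 4051742548) (nat_lit 152) (nat_lit 1118321200) (nat_lit 76) (nat_lit 32305875551) (nat_lit 22) (nat_lit 5) (nat_lit 24) (nat_lit 5) (nat_lit 23) (nat_lit 4) (nat_lit 527) (nat_lit 367) (nat_lit 306)))) (XT.nd (nat_lit 156) (nat_lit 76) (nat_lit 0) (XT.nd (nat_lit 78) (nat_lit 0) (nat_lit 0) (XT.lf (nat_lit 0) (nat_lit 11261339964) (nat_lit 152) (nat_lit 24978341192) (nat_lit 0) (nat_lit 2137988600) (nat_lit 21) (nat_lit 5) (nat_lit 23) (nat_lit 4) (nat_lit 21) (nat_lit 4) (nat_lit 528) (nat_lit 367) (nat_lit 305)) (XT.lf (nat_lit 0) (nat_lit 18696432987) (nat_lit 152) (nat_lit 11087273339) (nat_lit 0) (nat_lit 9522470509) (nat_lit 21) (nat_lit 5) (nat_lit 23) (nat_lit 4) (nat_lit 21) (nat_lit 4) (nat_lit 529) (nat_lit 367) (nat_lit 304))) (XT.nd (nat_lit 78) (nat_lit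 0) (nat_lit 0) (XT.lf (nat_lit 0) (nat_lit 3180361862) (nat_lit 76) (nat_lit 23152957717) (nat_lit 76) (nat_lit 13929858236) (nat_lit 20) (nat_lit 4) (nat_lit 21) (nat_lit 5) (nat_lit 21) (nat_lit 4) (nat_lit 530) (nat_lit 367) (nat_lit 303)) (XT.lf (nat_lit 0) (nat_lit 18002081561) (nat_lit 76) (nat_lit 16257896747) (nat_lit 76) (nat_lit 6987091436) (nat_lit 20) (nat_lit 4) (nat_lit 21) (nat_lit 5) (nat_lit 21) (nat_lit 4) (nat_lit 531) (nat_lit 367) (nat_lit 302))))) (XT.nd (nat_lit 312) (nat_lit 228) (nat_lit 0) (XT.nd (nat_lit 156) (nat_lit 0) (nat_lit 0) (XT.nd (nat_lit 78) (nat_lit 76) (nat_lit 0) (XT.lf (nat_lit 0) (nat_lit 110464856) (nat_lit 152) (nat_lit 9092877990) (nat_lit 76) (nat_lit 33058597957) (nat_lit 19) (nat_lit 5) (nat_lit 21) (nat_lit 5) (nat_lit 20) (nat_lit 4) (nat_lit 532) (nat_lit 367) (nat_lit 301)) (XT.lf (nat_lit 0) (nat_lit 5424074822) (nat_lit 76) (nat_lit 1859749705) (nat_lit 152)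 (nat_lit 36021259596) (nat_lit 18) (nat_lit 5) (nat_lit 19) (nat_lit 5) (nat_lit 20) (nat_lit 4) (nat_lit 533) (nat_lit 367) (nat_lit 300))) (XT.nd (nat_lit 78) (nat_lit 0) (nat_lit 0) (XT.lf (nat_lit 0) (nat_lit 14771168796) (nat_lit 152) (nat_lit 23966014199) (nat_lit 0) (nat_lit 5639376019) (nat_lit 18) (nat_lit 5) (nat_lit 20) (nat_lit 4) (nat_lit 18) (nat_lit 4) (nat_lit 534) (nat_lit 367) (nat_lit 299)) (XT.lf (nat_lit 0) (nat_lit 22454190120) (nat_lit 152) (nat_lit 9745611216) (nat_lit 0) (nat_lit 13281245876) (nat_lit 18) (nat_lit 5) (nat_lit 20) (nat_lit 4) (nat_lit 18) (nat_lit 4) (nat_lit 535) (nat_lit 367) (nat_lit 298)))) (XT.nd (nat_lit 156) (nat_lit 152) (nat_lit 0) (XT.nd (nat_lit 78) (nat_lit 0) (nat_lit 0) (XT.lf (nat_lit 0) (nat_lit 4906240722) (nat_lit 76) (nat_lit 25462645833) (nat_lit 76) (nat_lit 16249748708) (nat_lit 17) (nat_lit 4) (nat_lit 18) (nat_lit 5) (nat_lit 18) (nat_lit 4) (nat_lit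 536) (nat_lit 367) (nat_lit 297)) (XT.lf (nat_lit 0) (nat_lit 20107413325) (nat_lit 76) (nat_lit 18466518718) (nat_lit 76) (nat_lit 9214832388) (nat_lit 17) (nat_lit 4) (nat_lit 18) (nat_lit 5) (nat_lit 18) (nat_lit 4) (nat_lit 537) (nat_lit 367) (nat_lit 296))) (XT.nd (nat_lit 78) (nat_lit 152) (nat_lit 0) (XT.lf (nat_lit 0) (nat_lit 35677232398) (nat_lit 76) (nat_lit 11303718434) (nat_lit 76) (nat_lit 2014372683) (nat_lit 17) (nat_lit 4) (nat_lit 18) (nat_lit 5) (nat_lit 18) (nat_lit 4) (nat_lit 538) (nat_lit 367) (nat_lit 295)) (XT.lf (nat_lit 0) (nat_lit 1365069648) (nat_lit 76) (nat_lit 3901421950) (nat_lit 152) (nat_lit 44970936426) (nat_lit 15) (nat_lit 5) (nat_lit 16) (nat_lit 5) (nat_lit 17) (nat_lit 4) (nat_lit 539) (nat_lit 367) (nat_lit 294))))))))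
noncomputable def xc33 : XT := (XT.nd (nat_lit 57798) (nat_lit 0) (nat_lit 1672) (XT.nd (nat_lit 56628) (nat_lit 0) (nat_lit 4408) (XT.nd (nat_lit 546) (nat_lit 152) (nat_lit 0) (XT.nd (nat_lit 234) (nat_lit 152) (nat_lit 0) (XT.nd (nat_lit 78) (nat_lit 0) (nat_lit 0) (XT.lf (nat_lit 0) (nat_lit 12853625808) (nat_lit 152) (nat_lit 34893840041) (nat_lit 0) (nat_lit 3764882202) (nat_lit 15) (nat_lit 5) (nat_lit 17) (nat_lit 4) (nat_lit 15) (nat_lit 4) (nat_lit 540) (nat_lit 367) (nat_lit 293)) (XT.nd (nat_lit 78) (nat_lit 0) (nat_lit 0) (XT.lf (nat_lit 0) (nat_lit 20664987935) (nat_lit 152) (nat_lit 20617845527) (nat_lit 0) (nat_lit 11542784421) (nat_lit 15) (nat_lit 5) (nat_lit 17) (nat_lit 4) (nat_lit 15) (nat_lit 4) (nat_lit 541) (nat_lit 367) (nat_lit 292)) (XT.lf (nat_lit 0) (nat_lit 28669900587) (nat_lit 152) (nat_lit 5994397811) (nat_lit 0) (nat_lit 19515211725) (nat_lit 15) (nat_lit 5) (nat_lit 17) (nat_lit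 4) (nat_lit 15) (nat_lit 4) (nat_lit 542) (nat_lit 367) (nat_lit 291)))) (XT.nd (nat_lit 156) (nat_lit 76) (nat_lit 0) (XT.nd (nat_lit 78) (nat_lit 0) (nat_lit 0) (XT.lf (nat_lit 0) (nat_lit 9168185192) (nat_lit 76) (nat_lit 27795303361) (nat_lit 76) (nat_lit 18609075325) (nat_lit 14) (nat_lit 4) (nat_lit 15) (nat_lit 5) (nat_lit 15) (nat_lit 4) (nat_lit 543) (nat_lit 367) (nat_lit 290)) (XT.lf (nat_lit 0) (nat_lit 24830821843) (nat_lit 76) (nat_lit 20696398242) (nat_lit 76) (nat_lit 11479549650) (nat_lit 14) (nat_lit 4) (nat_lit 15) (nat_lit 5) (nat_lit 15) (nat_lit 4) (nat_lit 544) (nat_lit 367) (nat_lit 289))) (XT.nd (nat_lit 78) (nat_lit 76) (nat_lit 0) (XT.lf (nat_lit 0) (nat_lit 40887897670) (nat_lit 76) (nat_lit 13421911780) (nat_lit 76) (nat_lit 4175334492) (nat_lit 14) (nat_lit 4) (nat_lit 15) (nat_lit 5) (nat_lit 15) (nat_lit 4) (nat_lit 545) (nat_lit 367) (nat_lit 288)) (XT.lf (nat_lit 0) (nat_lit 3245363376)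 (nat_lit 152) (nat_lit 2687352444) (nat_lit 76) (nat_lit 54075307944) (nat_lit 13) (nat_lit 5) (nat_lit 15) (nat_lit 5) (nat_lit 14) (nat_lit 4) (nat_lit 546) (nat_lit 367) (nat_lit 287))))) (XT.nd (nat_lit 312) (nat_lit 76) (nat_lit 0) (XT.nd (nat_lit 156) (nat_lit 0) (nat_lit 0) (XT.nd (nat_lit 78) (nat_lit 0) (nat_lit 0) (XT.lf (nat_lit 0) (nat_lit 10910048831) (nat_lit 152) (nat_lit 48784581640) (nat_lit 0) (nat_lit 1877561214) (nat_lit 12) (nat_lit 5) (nat_lit 14) (nat_lit 4) (nat_lit 12) (nat_lit 4) (nat_lit 547) (nat_lit 367) (nat_lit 286)) (XT.lf (nat_lit 0) (nat_lit 18854627309) (nat_lit 152) (nat_lit 34531433120) (nat_lit 0) (nat_lit 9795726132) (nat_lit 12) (nat_lit 5) (nat_lit 14) (nat_lit 4) (nat_lit 12) (nat_lit 4) (nat_lit 548) (nat_lit 367) (nat_lit 285))) (XT.nd (nat_lit 78) (nat_lit 0) (nat_lit 0) (XT.lf (nat_lit 0) (nat_lit 27002404331) (nat_lit 152) (nat_lit 19920460672) (nat_lit 0) (nat_lit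 17917858919) (nat_lit 12) (nat_lit 5) (nat_lit 14) (nat_lit 4) (nat_lit 12) (nat_lit 4) (nat_lit 549) (nat_lit 367) (nat_lit 284)) (XT.lf (nat_lit 0) (nat_lit 35360499313) (nat_lit 152) (nat_lit 4938897427) (nat_lit 0) (nat_lit 26251056587) (nat_lit 12) (nat_lit 5) (nat_lit 14) (nat_lit 4) (nat_lit 12) (nat_lit 4) (nat_lit 550) (nat_lit 367) (nat_lit 283)))) (XT.nd (nat_lit 156) (nat_lit 0) (nat_lit 0) (XT.nd (nat_lit 78) (nat_lit 0) (nat_lit 0) (XT.lf (nat_lit 0) (nat_lit 10633852055) (nat_lit 76) (nat_lit 33404582480) (nat_lit 76) (nat_lit 24270967604) (nat_lit 11) (nat_lit 4) (nat_lit 12) (nat_lit 5) (nat_lit 12) (nat_lit 4) (nat_lit 551) (nat_lit 367) (nat_lit 282)) (XT.lf (nat_lit 0) (nat_lit 26709905924) (nat_lit 76) (nat_lit 26283892102) (nat_lit 76) (nat_lit 17126809120) (nat_lit 11) (nat_lit 4) (nat_lit 12) (nat_lit 5) (nat_lit 12) (nat_lit 4) (nat_lit 552) (nat_lit 367) (nat_lit 281))) (XT.nd (nat_lit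 55536) (nat_lit 0) (nat_lit 7068) (XT.lf (nat_lit 0) (nat_lit 43205017471) (nat_lit 76) (nat_lit 18980976825) (nat_lit 76) (nat_lit 9801109273) (nat_lit 11) (nat_lit 4) (nat_lit 12) (nat_lit 5) (nat_lit 12) (nat_lit 4) (nat_lit 553) (nat_lit 367) (nat_lit 280)) (XT.lf (nat_lit 0) (nat_lit 4480511850) (nat_lit 228) (nat_lit 535966307) (nat_lit 228) (nat_lit 535966307) (nat_lit 104) (nat_lit 4) (nat_lit 107) (nat_lit 5) (nat_lit 107) (nat_lit 4) (nat_lit 464) (nat_lit 368) (nat_lit 368)))))) (XT.nd (nat_lit 546) (nat_lit 1292) (nat_lit 0) (XT.nd (nat_lit 234) (nat_lit 684) (nat_lit 0) (XT.nd (nat_lit 78) (nat_lit 456) (nat_lit 0) (XT.lf (nat_lit 0) (nat_lit 4061134386) (nat_lit 228) (nat_lit 3731527371) (nat_lit 0) (nat_lit 3472649184) (nat_lit 101) (nat_lit 5) (nat_lit 104) (nat_lit 4) (nat_lit 101) (nat_lit 4) (nat_lit 465) (nat_lit 368) (nat_lit 367)) (XT.nd (nat_lit 78) (nat_lit 228) (nat_lit 0) (XT.lf (nat_lit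 0) (nat_lit 6019818485) (nat_lit 228) (nat_lit 3285445463) (nat_lit 228) (nat_lit 2125615404) (nat_lit 98) (nat_lit 4) (nat_lit 101) (nat_lit 5) (nat_lit 101) (nat_lit 4) (nat_lit 466) (nat_lit 368) (nat_lit 366)) (XT.lf (nat_lit 0) (nat_lit 3027042211) (nat_lit 228) (nat_lit 7211570748) (nat_lit 0) (nat_lit 1362446285) (nat_lit 95) (nat_lit 5) (nat_lit 98) (nat_lit 4) (nat_lit 95) (nat_lit 4) (nat_lit 467) (nat_lit 368) (nat_lit 365)))) (XT.nd (nat_lit 156) (nat_lit 228) (nat_lit 0) (XT.nd (nat_lit 78) (nat_lit 228) (nat_lit 0) (XT.lf (nat_lit 0) (nat_lit 2624348919) (nat_lit 228) (nat_lit 5669383046) (nat_lit 228) (nat_lit 3481925639) (nat_lit 92) (nat_lit 4) (nat_lit 95) (nat_lit 5) (nat_lit 95) (nat_lit 4) (nat_lit 468) (nat_lit 368) (nat_lit 364)) (XT.lf (nat_lit 0) (nat_lit 753573111) (nat_lit 152) (nat_lit 945275667) (nat_lit 228) (nat_lit 10257036247) (nat_lit 89) (nat_lit 5) (nat_lit 91) (nat_lit 5) (nat_lit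 92) (nat_lit 4) (nat_lit 469) (nat_lit 368) (nat_lit 363))) (XT.nd (nat_lit 78) (nat_lit 228) (nat_lit 0) (XT.lf (nat_lit 0) (nat_lit 6986194684) (nat_lit 228) (nat_lit 1262555066) (nat_lit 0) (nat_lit 3891110215) (nat_lit 89) (nat_lit 5) (nat_lit 92) (nat_lit 4) (nat_lit 89) (nat_lit 4) (nat_lit 470) (nat_lit 368) (nat_lit 362)) (XT.lf (nat_lit 0) (nat_lit 89416229) (nat_lit 228) (nat_lit 3378125176) (nat_lit 76) (nat_lit 8862132998) (nat_lit 86) (nat_lit 5) (nat_lit 89) (nat_lit 5) (nat_lit 87) (nat_lit 4) (nat_lit 471) (nat_lit 368) (nat_lit 361))))) (XT.nd (nat_lit 312) (nat_lit 760) (nat_lit 0) (XT.nd (nat_lit 156) (nat_lit 228) (nat_lit 0) (XT.nd (nat_lit 78) (nat_lit 152) (nat_lit 0) (XT.lf (nat_lit 0) (nat_lit 5373183212) (nat_lit 228) (nat_lit 5671534426) (nat_lit 0) (nat_lit 1479333670) (nat_lit 84) (nat_lit 5) (nat_lit 87) (nat_lit 4) (nat_lit 84) (nat_lit 4) (nat_lit 472) (nat_lit 368) (nat_lit 360))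 (XT.lf (nat_lit 0) (nat_lit 4602138597) (nat_lit 152) (nat_lit 6220449419) (nat_lit 152) (nat_lit 1901465645) (nat_lit 82) (nat_lit 4) (nat_lit 84) (nat_lit 5) (nat_lit 84) (nat_lit 4) (nat_lit 473) (nat_lit 368) (nat_lit 359))) (XT.nd (nat_lit 78) (nat_lit 0) (nat_lit 0) (XT.lf (nat_lit 0) (nat_lit 2191095090) (nat_lit 152) (nat_lit 1219166261) (nat_lit 228) (nat_lit 9519593905) (nat_lit 79) (nat_lit 5) (nat_lit 81) (nat_lit 5) (nat_lit 82) (nat_lit 4) (nat_lit 474) (nat_lit 368) (nat_lit 358)) (XT.lf (nat_lit 0) (nat_lit 8858569789) (nat_lit 228) (nat_lit 406646291) (nat_lit 0) (nat_lit 3875593827) (nat_lit 79) (nat_lit 5) (nat_lit 82) (nat_lit 4) (nat_lit 79) (nat_lit 4) (nat_lit 475) (nat_lit 368) (nat_lit 357)))) (XT.nd (nat_lit 156) (nat_lit 380) (nat_lit 0) (XT.nd (nat_lit 78) (nat_lit 152) (nat_lit 0) (XT.lf (nat_lit 0) (nat_lit 1098984730) (nat_lit 228) (nat_lit 3129763217) (nat_lit 76) (nat_lit 9128777684)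 (nat_lit 76) (nat_lit 5) (nat_lit 79) (nat_lit 5) (nat_lit 77) (nat_lit 4) (nat_lit 476) (nat_lit 368) (nat_lit 356)) (XT.lf (nat_lit 0) (nat_lit 6539795828) (nat_lit 228) (nat_lit 6060967762) (nat_lit 0) (nat_lit 979187340) (nat_lit 74) (nat_lit 5) (nat_lit 77) (nat_lit 4) (nat_lit 74) (nat_lit 4) (nat_lit 477) (nat_lit 368) (nat_lit 355))) (XT.nd (nat_lit 78) (nat_lit 228) (nat_lit 0) (XT.lf (nat_lit 0) (nat_lit 4605991549) (nat_lit 152) (nat_lit 7554423923) (nat_lit 152) (nat_lit 1648142400) (nat_lit 72) (nat_lit 4) (nat_lit 74) (nat_lit 5) (nat_lit 74) (nat_lit 4) (nat_lit 478) (nat_lit 368) (nat_lit 354)) (XT.lf (nat_lit 0) (nat_lit 1480596244) (nat_lit 152) (nat_lit 2323582403) (nat_lit 228) (nat_lit 10239481293) (nat_lit 69) (nat_lit 5) (nat_lit 71) (nat_lit 5) (nat_lit 72) (nat_lit 4) (nat_lit 479) (nat_lit 368) (nat_lit 353))))))) (XT.nd (nat_lit 1170) (nat_lit 1216) (nat_lit 0) (XT.nd (nat_lit 546) (nat_lit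 760) (nat_lit 0) (XT.nd (nat_lit 234) (nat_lit 456) (nat_lit 0) (XT.nd (nat_lit 78) (nat_lit 304) (nat_lit 0) (XT.lf (nat_lit 0) (nat_lit 9409351896) (nat_lit 228) (nat_lit 1842379030) (nat_lit 0) (nat_lit 3032928207) (nat_lit 69) (nat_lit 5) (nat_lit 72) (nat_lit 4) (nat_lit 69) (nat_lit 4) (nat_lit 480) (nat_lit 368) (nat_lit 352)) (XT.nd (nat_lit 78) (nat_lit 76) (nat_lit 0) (XT.lf (nat_lit 0) (nat_lit 650491776) (nat_lit 228) (nat_lit 5363051396) (nat_lit 76) (nat_lit 8518761889) (nat_lit 66) (nat_lit 5) (nat_lit 69) (nat_lit 5) (nat_lit 67) (nat_lit 4) (nat_lit 481) (nat_lit 368) (nat_lit 351)) (XT.lf (nat_lit 0) (nat_lit 5643514176) (nat_lit 76) (nat_lit 575818077) (nat_lit 152) (nat_lit 8567347682) (nat_lit 65) (nat_lit 5) (nat_lit 66) (nat_lit 5) (nat_lit 67) (nat_lit 4) (nat_lit 482) (nat_lit 368) (nat_lit 350)))) (XT.nd (nat_lit 156) (nat_lit 228) (nat_lit 0) (XT.nd (nat_lit 78) (nat_lit 76) (nat_lit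 0) (XT.lf (nat_lit 0) (nat_lit 1849721570) (nat_lit 152) (nat_lit 10128856123) (nat_lit 152) (nat_lit 3069413382) (nat_lit 63) (nat_lit 4) (nat_lit 65) (nat_lit 5) (nat_lit 65) (nat_lit 4) (nat_lit 483) (nat_lit 368) (nat_lit 349)) (XT.lf (nat_lit 0) (nat_lit 2544516942) (nat_lit 228) (nat_lit 2166950833) (nat_lit 76) (nat_lit 10604880821) (nat_lit 62) (nat_lit 5) (nat_lit 65) (nat_lit 5) (nat_lit 63) (nat_lit 4) (nat_lit 484) (nat_lit 368) (nat_lit 348))) (XT.nd (nat_lit 78) (nat_lit 152) (nat_lit 0) (XT.lf (nat_lit 0) (nat_lit 8267600856) (nat_lit 152) (nat_lit 6432546061) (nat_lit 0) (nat_lit 891630153) (nat_lit 61) (nat_lit 5) (nat_lit 63) (nat_lit 4) (nat_lit 61) (nat_lit 4) (nat_lit 485) (nat_lit 368) (nat_lit 347)) (XT.lf (nat_lit 0) (nat_lit 4867016892) (nat_lit 152) (nat_lit 9316753305) (nat_lit 152) (nat_lit 1691061046) (nat_lit 59) (nat_lit 4) (nat_lit 61) (nat_lit 5) (nat_lit 61) (nat_lit 4) (nat_lit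 486) (nat_lit 368) (nat_lit 346))))) (XT.nd (nat_lit 312) (nat_lit 304) (nat_lit 0) (XT.nd (nat_lit 156) (nat_lit 304) (nat_lit 0) (XT.nd (nat_lit 78) (nat_lit 0) (nat_lit 0) (XT.lf (nat_lit 0) (nat_lit 261900225) (nat_lit 76) (nat_lit 3743045880) (nat_lit 152) (nat_lit 12161026169) (nat_lit 57) (nat_lit 5) (nat_lit 58) (nat_lit 5) (nat_lit 59) (nat_lit 4) (nat_lit 487) (nat_lit 368) (nat_lit 345)) (XT.lf (nat_lit 0) (nat_lit 9875590330) (nat_lit 152) (nat_lit 4580538284) (nat_lit 0) (nat_lit 2008088499) (nat_lit 57) (nat_lit 5) (nat_lit 59) (nat_lit 4) (nat_lit 57) (nat_lit 4) (nat_lit 488) (nat_lit 368) (nat_lit 344))) (XT.nd (nat_lit 78) (nat_lit 152) (nat_lit 0) (XT.lf (nat_lit 0) (nat_lit 7011259879) (nat_lit 152) (nat_lit 8924562834) (nat_lit 152) (nat_lit 835186636) (nat_lit 55) (nat_lit 4) (nat_lit 57) (nat_lit 5) (nat_lit 57) (nat_lit 4) (nat_lit 489) (nat_lit 368) (nat_lit 343)) (XT.lf (nat_lit 0) (nat_lit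 1772962818) (nat_lit 76) (nat_lit 3191446552) (nat_lit 152) (nat_lit 12121944960) (nat_lit 53) (nat_lit 5) (nat_lit 54) (nat_lit 5) (nat_lit 55) (nat_lit 4) (nat_lit 490) (nat_lit 368) (nat_lit 342)))) (XT.nd (nat_lit 156) (nat_lit 152) (nat_lit 0) (XT.nd (nat_lit 78) (nat_lit 152) (nat_lit 0) (XT.lf (nat_lit 0) (nat_lit 10956209260) (nat_lit 152) (nat_lit 3763394403) (nat_lit 0) (nat_lit 2690261614) (nat_lit 53) (nat_lit 5) (nat_lit 55) (nat_lit 4) (nat_lit 53) (nat_lit 4) (nat_lit 491) (nat_lit 368) (nat_lit 341)) (XT.lf (nat_lit 0) (nat_lit 8092839346) (nat_lit 152) (nat_lit 9056341738) (nat_lit 152) (nat_lit 593261590) (nat_lit 51) (nat_lit 4) (nat_lit 53) (nat_lit 5) (nat_lit 53) (nat_lit 4) (nat_lit 492) (nat_lit 368) (nat_lit 340))) (XT.nd (nat_lit 78) (nat_lit 0) (nat_lit 0) (XT.lf (nat_lit 0) (nat_lit 2120016559) (nat_lit 76) (nat_lit 3187612743) (nat_lit 152) (nat_lit 12776675024) (nat_lit 49) (nat_lit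 5) (nat_lit 50) (nat_lit 5) (nat_lit 51) (nat_lit 4) (nat_lit 493) (nat_lit 368) (nat_lit 339)) (XT.lf (nat_lit 0) (nat_lit 11411853583) (nat_lit 152) (nat_lit 4194197996) (nat_lit 0) (nat_lit 2829050461) (nat_lit 49) (nat_lit 5) (nat_lit 51) (nat_lit 4) (nat_lit 49) (nat_lit 4) (nat_lit 494) (nat_lit 368) (nat_lit 338)))))) (XT.nd (nat_lit 624) (nat_lit 532) (nat_lit 0) (XT.nd (nat_lit 312) (nat_lit 304) (nat_lit 0) (XT.nd (nat_lit 156) (nat_lit 76) (nat_lit 0) (XT.nd (nat_lit 78) (nat_lit 152) (nat_lit 0) (XT.lf (nat_lit 0) (nat_lit 7889316631) (nat_lit 152) (nat_lit 9832196915) (nat_lit 152) (nat_lit 1074244119) (nat_lit 47) (nat_lit 4) (nat_lit 49) (nat_lit 5) (nat_lit 49) (nat_lit 4) (nat_lit 495) (nat_lit 368) (nat_lit 337)) (XT.lf (nat_lit 0) (nat_lit 1064966611) (nat_lit 76) (nat_lit 3857677543) (nat_lit 152) (nat_lit 14244094009) (nat_lit 45) (nat_lit 5) (nat_lit 46) (nat_lit 5) (nat_lit 47) (nat_lit 4)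 (nat_lit 496) (nat_lit 368) (nat_lit 336))) (XT.nd (nat_lit 78) (nat_lit 76) (nat_lit 0) (XT.lf (nat_lit 0) (nat_lit 11126350338) (nat_lit 152) (nat_lit 6122625138) (nat_lit 0) (nat_lit 2298101416) (nat_lit 45) (nat_lit 5) (nat_lit 47) (nat_lit 4) (nat_lit 45) (nat_lit 4) (nat_lit 497) (nat_lit 368) (nat_lit 335)) (XT.lf (nat_lit 0) (nat_lit 6139869983) (nat_lit 76) (nat_lit 11391189535) (nat_lit 76) (nat_lit 2407322396) (nat_lit 44) (nat_lit 4) (nat_lit 45) (nat_lit 5) (nat_lit 45) (nat_lit 4) (nat_lit 498) (nat_lit 368) (nat_lit 334)))) (XT.nd (nat_lit 156) (nat_lit 152) (nat_lit 0) (XT.nd (nat_lit 78) (nat_lit 76) (nat_lit 0) (XT.lf (nat_lit 0) (nat_lit 3692799722) (nat_lit 152) (nat_lit 1638569350) (nat_lit 76) (nat_lit 15009561683) (nat_lit 43) (nat_lit 5) (nat_lit 45) (nat_lit 5) (nat_lit 44) (nat_lit 4) (nat_lit 499) (nat_lit 368) (nat_lit 333)) (XT.lf (nat_lit 0) (nat_lit 9962013865) (nat_lit 152) (nat_lit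 9841080646) (nat_lit 0) (nat_lit 950714951) (nat_lit 42) (nat_lit 5) (nat_lit 44) (nat_lit 4) (nat_lit 42) (nat_lit 4) (nat_lit 500) (nat_lit 368) (nat_lit 332))) (XT.nd (nat_lit 78) (nat_lit 76) (nat_lit 0) (XT.lf (nat_lit 0) (nat_lit 2538856178) (nat_lit 76) (nat_lit 13894678842) (nat_lit 76) (nat_lit 4745115157) (nat_lit 41) (nat_lit 4) (nat_lit 42) (nat_lit 5) (nat_lit 42) (nat_lit 4) (nat_lit 501) (nat_lit 368) (nat_lit 331)) (XT.lf (nat_lit 0) (nat_lit 1474795257) (nat_lit 152) (nat_lit 6289966952) (nat_lit 76) (nat_lit 13850425638) (nat_lit 40) (nat_lit 5) (nat_lit 42) (nat_lit 5) (nat_lit 41) (nat_lit 4) (nat_lit 502) (nat_lit 368) (nat_lit 330))))) (XT.nd (nat_lit 312) (nat_lit 304) (nat_lit 0) (XT.nd (nat_lit 156) (nat_lit 152) (nat_lit 0) (XT.nd (nat_lit 78) (nat_lit 0) (nat_lit 0) (XT.lf (nat_lit 0) (nat_lit 6358522477) (nat_lit 76) (nat_lit 1411256640) (nat_lit 152) (nat_lit 14294119991) (nat_lit 39)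 (nat_lit 5) (nat_lit 40) (nat_lit 5) (nat_lit 41) (nat_lit 4) (nat_lit 503) (nat_lit 368) (nat_lit 329)) (XT.lf (nat_lit 0) (nat_lit 14289974445) (nat_lit 152) (nat_lit 3207811892) (nat_lit 0) (nat_lit 5027196790) (nat_lit 39) (nat_lit 5) (nat_lit 41) (nat_lit 4) (nat_lit 39) (nat_lit 4) (nat_lit 504) (nat_lit 368) (nat_lit 328))) (XT.nd (nat_lit 78) (nat_lit 76) (nat_lit 0) (XT.lf (nat_lit 0) (nat_lit 9695155112) (nat_lit 76) (nat_lit 11342912040) (nat_lit 76) (nat_lit 1960865980) (nat_lit 38) (nat_lit 4) (nat_lit 39) (nat_lit 5) (nat_lit 39) (nat_lit 4) (nat_lit 505) (nat_lit 368) (nat_lit 327)) (XT.lf (nat_lit 0) (nat_lit 4371564448) (nat_lit 152) (nat_lit 623564797) (nat_lit 76) (nat_lit 18491939225) (nat_lit 37) (nat_lit 5) (nat_lit 39) (nat_lit 5) (nat_lit 38) (nat_lit 4) (nat_lit 506) (nat_lit 368) (nat_lit 326)))) (XT.nd (nat_lit 156) (nat_lit 152) (nat_lit 0) (XT.nd (nat_lit 78) (nat_lit 76) (nat_lit 0)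 (XT.lf (nat_lit 0) (nat_lit 10917852793) (nat_lit 152) (nat_lit 11482014955) (nat_lit 0) (nat_lit 1587500814) (nat_lit 36) (nat_lit 5) (nat_lit 38) (nat_lit 4) (nat_lit 36) (nat_lit 4) (nat_lit 507) (nat_lit 368) (nat_lit 325)) (XT.lf (nat_lit 0) (nat_lit 1375020780) (nat_lit 76) (nat_lit 16282041639) (nat_lit 76) (nat_lit 6845721226) (nat_lit 35) (nat_lit 4) (nat_lit 36) (nat_lit 5) (nat_lit 36) (nat_lit 4) (nat_lit 508) (nat_lit 368) (nat_lit 324))) (XT.nd (nat_lit 78) (nat_lit 152) (nat_lit 0) (XT.lf (nat_lit 0) (nat_lit 14713792260) (nat_lit 76) (nat_lit 9928873348) (nat_lit 76) (nat_lit 389670961) (nat_lit 35) (nat_lit 4) (nat_lit 36) (nat_lit 5) (nat_lit 36) (nat_lit 4) (nat_lit 509) (nat_lit 368) (nat_lit 323)) (XT.lf (nat_lit 0) (nat_lit 2731386157) (nat_lit 76) (nat_lit 3362443377) (nat_lit 152) (nat_lit 19483465327) (nat_lit 33) (nat_lit 5) (nat_lit 34) (nat_lit 5) (nat_lit 35) (nat_lit 4) (nat_lit 510)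 (nat_lit 368) (nat_lit 322))))))))
noncomputable def xc34 : XT := (XT.nd (nat_lit 2340) (nat_lit 304) (nat_lit 0) (XT.nd (nat_lit 1170) (nat_lit 684) (nat_lit 0) (XT.nd (nat_lit 546) (nat_lit 380) (nat_lit 0) (XT.nd (nat_lit 234) (nat_lit 228) (nat_lit 0) (XT.nd (nat_lit 78) (nat_lit 76) (nat_lit 0) (XT.lf (nat_lit 0) (nat_lit 12831708608) (nat_lit 152) (nat_lit 9925528772) (nat_lit 0) (nat_lit 3379219359) (nat_lit 33) (nat_lit 5) (nat_lit 35) (nat_lit 4) (nat_lit 33) (nat_lit 4) (nat_lit 511) (nat_lit 368) (nat_lit 321)) (XT.nd (nat_lit 78) (nat_lit 0) (nat_lit 0) (XT.lf (nat_lit 0) (nat_lit 3280362055) (nat_lit 76) (nat_lit 16488016022) (nat_lit 76) (nat_lit 6944117471) (nat_lit 32) (nat_lit 4) (nat_lit 33) (nat_lit 5) (nat_lit 33) (nat_lit 4) (nat_lit 512) (nat_lit 368) (nat_lit 320)) (XT.lf (nat_lit 0) (nat_lit 16954374717) (nat_lit 76) (nat_lit 9991552258) (nat_lit 76) (nat_lit 358906812) (nat_lit 32) (nat_lit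 4) (nat_lit 33) (nat_lit 5) (nat_lit 33) (nat_lit 4) (nat_lit 513) (nat_lit 368) (nat_lit 319)))) (XT.nd (nat_lit 156) (nat_lit 76) (nat_lit 0) (XT.nd (nat_lit 78) (nat_lit 0) (nat_lit 0) (XT.lf (nat_lit 0) (nat_lit 2991280549) (nat_lit 76) (nat_lit 3269846558) (nat_lit 152) (nat_lit 21653085527) (nat_lit 30) (nat_lit 5) (nat_lit 31) (nat_lit 5) (nat_lit 32) (nat_lit 4) (nat_lit 514) (nat_lit 368) (nat_lit 318)) (XT.lf (nat_lit 0) (nat_lit 13147187320) (nat_lit 152) (nat_lit 11762105337) (nat_lit 0) (nat_lit 3630235922) (nat_lit 30) (nat_lit 5) (nat_lit 32) (nat_lit 4) (nat_lit 30) (nat_lit 4) (nat_lit 515) (nat_lit 368) (nat_lit 317))) (XT.nd (nat_lit 78) (nat_lit 0) (nat_lit 0) (XT.lf (nat_lit 0) (nat_lit 1668381473) (nat_lit 76) (nat_lit 18555748420) (nat_lit 76) (nat_lit 8959946556) (nat_lit 29) (nat_lit 4) (nat_lit 30) (nat_lit 5) (nat_lit 30) (nat_lit 4) (nat_lit 516) (nat_lit 368) (nat_lit 316)) (XT.lf (nat_lit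 0) (nat_lit 15618777247) (nat_lit 76) (nat_lit 11949940269) (nat_lit 76) (nat_lit 2277584554) (nat_lit 29) (nat_lit 4) (nat_lit 30) (nat_lit 5) (nat_lit 30) (nat_lit 4) (nat_lit 517) (nat_lit 368) (nat_lit 315))))) (XT.nd (nat_lit 312) (nat_lit 152) (nat_lit 0) (XT.nd (nat_lit 156) (nat_lit 76) (nat_lit 0) (XT.nd (nat_lit 78) (nat_lit 76) (nat_lit 0) (XT.lf (nat_lit 0) (nat_lit 4453182438) (nat_lit 152) (nat_lit 706719492) (nat_lit 76) (nat_lit 25369031842) (nat_lit 28) (nat_lit 5) (nat_lit 30) (nat_lit 5) (nat_lit 29) (nat_lit 4) (nat_lit 518) (nat_lit 368) (nat_lit 314)) (XT.lf (nat_lit 0) (nat_lit 11426496298) (nat_lit 152) (nat_lit 17908638168) (nat_lit 0) (nat_lit 1893642716) (nat_lit 27) (nat_lit 5) (nat_lit 29) (nat_lit 4) (nat_lit 27) (nat_lit 4) (nat_lit 519) (nat_lit 368) (nat_lit 313))) (XT.nd (nat_lit 78) (nat_lit 76) (nat_lit 0) (XT.lf (nat_lit 0) (nat_lit 18606998896) (nat_lit 152) (nat_lit 4336550373)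 (nat_lit 0) (nat_lit 9006128209) (nat_lit 27) (nat_lit 5) (nat_lit 29) (nat_lit 4) (nat_lit 27) (nat_lit 4) (nat_lit 520) (nat_lit 368) (nat_lit 312)) (XT.lf (nat_lit 0) (nat_lit 9717488194) (nat_lit 76) (nat_lit 16320289347) (nat_lit 76) (nat_lit 6653382636) (nat_lit 26) (nat_lit 4) (nat_lit 27) (nat_lit 5) (nat_lit 27) (nat_lit 4) (nat_lit 521) (nat_lit 368) (nat_lit 311)))) (XT.nd (nat_lit 156) (nat_lit 0) (nat_lit 0) (XT.nd (nat_lit 78) (nat_lit 76) (nat_lit 0) (XT.lf (nat_lit 0) (nat_lit 217687657) (nat_lit 152) (nat_lit 9289113410) (nat_lit 76) (nat_lit 23948447849) (nat_lit 25) (nat_lit 5) (nat_lit 27) (nat_lit 5) (nat_lit 26) (nat_lit 4) (nat_lit 522) (nat_lit 368) (nat_lit 310)) (XT.lf (nat_lit 0) (nat_lit 4720695606) (nat_lit 76) (nat_lit 2429038506) (nat_lit 152) (nat_lit 27090893961) (nat_lit 24) (nat_lit 5) (nat_lit 25) (nat_lit 5) (nat_lit 26) (nat_lit 4) (nat_lit 523) (nat_lit 368) (nat_lit 309)))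 (XT.nd (nat_lit 78) (nat_lit 0) (nat_lit 0) (XT.lf (nat_lit 0) (nat_lit 14374464034) (nat_lit 152) (nat_lit 15864796039) (nat_lit 0) (nat_lit 4807767958) (nat_lit 24) (nat_lit 5) (nat_lit 26) (nat_lit 4) (nat_lit 24) (nat_lit 4) (nat_lit 524) (nat_lit 368) (nat_lit 308)) (XT.lf (nat_lit 0) (nat_lit 21784902302) (nat_lit 152) (nat_lit 1932406778) (nat_lit 0) (nat_lit 12161242970) (nat_lit 24) (nat_lit 5) (nat_lit 26) (nat_lit 4) (nat_lit 24) (nat_lit 4) (nat_lit 525) (nat_lit 368) (nat_lit 307)))))) (XT.nd (nat_lit 546) (nat_lit 380) (nat_lit 0) (XT.nd (nat_lit 234) (nat_lit 76) (nat_lit 0) (XT.nd (nat_lit 78) (nat_lit 152) (nat_lit 0) (XT.lf (nat_lit 0) (nat_lit 12557806689) (nat_lit 76) (nat_lit 16927081281) (nat_lit 76) (nat_lit 7248117819) (nat_lit 23) (nat_lit 4) (nat_lit 24) (nat_lit 5) (nat_lit 24) (nat_lit 4) (nat_lit 526) (nat_lit 368) (nat_lit 306)) (XT.nd (nat_lit 78) (nat_lit 152) (nat_lit 0) (XT.lf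 (nat_lit 0) (nat_lit 27418174824) (nat_lit 76) (nat_lit 9964289190) (nat_lit 76) (nat_lit 231632397) (nat_lit 23) (nat_lit 4) (nat_lit 24) (nat_lit 5) (nat_lit 24) (nat_lit 4) (nat_lit 527) (nat_lit 368) (nat_lit 305)) (XT.lf (nat_lit 0) (nat_lit 4113597858) (nat_lit 76) (nat_lit 2732896771) (nat_lit 152) (nat_lit 31673479210) (nat_lit 21) (nat_lit 5) (nat_lit 22) (nat_lit 5) (nat_lit 23) (nat_lit 4) (nat_lit 528) (nat_lit 368) (nat_lit 304)))) (XT.nd (nat_lit 156) (nat_lit 76) (nat_lit 0) (XT.nd (nat_lit 78) (nat_lit 0) (nat_lit 0) (XT.lf (nat_lit 0) (nat_lit 14229784961) (nat_lit 152) (nat_lit 20539394997) (nat_lit 0) (nat_lit 4680855490) (nat_lit 21) (nat_lit 5) (nat_lit 23) (nat_lit 4) (nat_lit 21) (nat_lit 4) (nat_lit 529) (nat_lit 368) (nat_lit 303)) (XT.lf (nat_lit 0) (nat_lit 21811311217) (nat_lit 152) (nat_lit 6382710539) (nat_lit 0) (nat_lit 12214675918) (nat_lit 21) (nat_lit 5) (nat_lit 23) (nat_lit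 4) (nat_lit 21) (nat_lit 4) (nat_lit 530) (nat_lit 368) (nat_lit 302))) (XT.nd (nat_lit 78) (nat_lit 0) (nat_lit 0) (XT.lf (nat_lit 0) (nat_lit 8263569591) (nat_lit 76) (nat_lit 21387292651) (nat_lit 76) (nat_lit 11744341014) (nat_lit 20) (nat_lit 4) (nat_lit 21) (nat_lit 5) (nat_lit 21) (nat_lit 4) (nat_lit 531) (nat_lit 368) (nat_lit 301)) (XT.lf (nat_lit 0) (nat_lit 23384665243) (nat_lit 76) (nat_lit 14357037729) (nat_lit 76) (nat_lit 4669118772) (nat_lit 20) (nat_lit 4) (nat_lit 21) (nat_lit 5) (nat_lit 21) (nat_lit 4) (nat_lit 532) (nat_lit 368) (nat_lit 300))))) (XT.nd (nat_lit 312) (nat_lit 228) (nat_lit 0) (XT.nd (nat_lit 156) (nat_lit 0) (nat_lit 0) (XT.nd (nat_lit 78) (nat_lit 76) (nat_lit 0) (XT.lf (nat_lit 0) (nat_lit 2519859493) (nat_lit 152) (nat_lit 4616261777) (nat_lit 76) (nat_lit 36321455436) (nat_lit 19) (nat_lit 5) (nat_lit 21) (nat_lit 5) (nat_lit 20) (nat_lit 4) (nat_lit 533) (nat_lit 368)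 (nat_lit 299)) (XT.lf (nat_lit 0) (nat_lit 9887450096) (nat_lit 152) (nat_lit 34247028429) (nat_lit 0) (nat_lit 398166057) (nat_lit 18) (nat_lit 5) (nat_lit 20) (nat_lit 4) (nat_lit 18) (nat_lit 4) (nat_lit 534) (nat_lit 368) (nat_lit 298))) (XT.nd (nat_lit 78) (nat_lit 0) (nat_lit 0) (XT.lf (nat_lit 0) (nat_lit 17547822496) (nat_lit 152) (nat_lit 20071404540) (nat_lit 0) (nat_lit 8018585577) (nat_lit 18) (nat_lit 5) (nat_lit 20) (nat_lit 4) (nat_lit 18) (nat_lit 4) (nat_lit 535) (nat_lit 368) (nat_lit 297)) (XT.lf (nat_lit 0) (nat_lit 25393367898) (nat_lit 152) (nat_lit 5558765878) (nat_lit 0) (nat_lit 15825341774) (nat_lit 18) (nat_lit 5) (nat_lit 20) (nat_lit 4) (nat_lit 18) (nat_lit 4) (nat_lit 536) (nat_lit 368) (nat_lit 296)))) (XT.nd (nat_lit 156) (nat_lit 152) (nat_lit 0) (XT.nd (nat_lit 78) (nat_lit 0) (nat_lit 0) (XT.lf (nat_lit 0) (nat_lit 9488727759) (nat_lit 76) (nat_lit 24033425329) (nat_lit 76) (nat_lit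 14427739783) (nat_lit 17) (nat_lit 4) (nat_lit 18) (nat_lit 5) (nat_lit 18) (nat_lit 4) (nat_lit 537) (nat_lit 368) (nat_lit 295)) (XT.lf (nat_lit 0) (nat_lit 25016752051) (nat_lit 76) (nat_lit 16891291096) (nat_lit 76) (nat_lit 7249043004) (nat_lit 17) (nat_lit 4) (nat_lit 18) (nat_lit 5) (nat_lit 18) (nat_lit 4) (nat_lit 538) (nat_lit 368) (nat_lit 294))) (XT.nd (nat_lit 78) (nat_lit 76) (nat_lit 0) (XT.lf (nat_lit 0) (nat_lit 100129913) (nat_lit 152) (nat_lit 9474481983) (nat_lit 76) (nat_lit 40827103802) (nat_lit 16) (nat_lit 5) (nat_lit 18) (nat_lit 5) (nat_lit 17) (nat_lit 4) (nat_lit 539) (nat_lit 368) (nat_lit 293)) (XT.lf (nat_lit 0) (nat_lit 5587825325) (nat_lit 76) (nat_lit 1949137600) (nat_lit 152) (nat_lit 44144182143) (nat_lit 15) (nat_lit 5) (nat_lit 16) (nat_lit 5) (nat_lit 17) (nat_lit 4) (nat_lit 540) (nat_lit 368) (nat_lit 292))))))) (XT.nd (nat_lit 56472) (nat_lit 0) (nat_lit 4636) (XT.nd (nat_lit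 546) (nat_lit 76) (nat_lit 0) (XT.nd (nat_lit 234) (nat_lit 228) (nat_lit 0) (XT.nd (nat_lit 78) (nat_lit 0) (nat_lit 0) (XT.lf (nat_lit 0) (nat_lit 15309494987) (nat_lit 152) (nat_lit 31838405002) (nat_lit 0) (nat_lit 5847680110) (nat_lit 15) (nat_lit 5) (nat_lit 17) (nat_lit 4) (nat_lit 15) (nat_lit 4) (nat_lit 541) (nat_lit 368) (nat_lit 291)) (XT.nd (nat_lit 78) (nat_lit 0) (nat_lit 0) (XT.lf (nat_lit 0) (nat_lit 23294899131) (nat_lit 152) (nat_lit 17253613670) (nat_lit 0) (nat_lit 13801545081) (nat_lit 15) (nat_lit 5) (nat_lit 17) (nat_lit 4) (nat_lit 15) (nat_lit 4) (nat_lit 542) (nat_lit 368) (nat_lit 290)) (XT.lf (nat_lit 0) (nat_lit 31481416593) (nat_lit 152) (nat_lit 2307465451) (nat_lit 0) (nat_lit 21957441987) (nat_lit 15) (nat_lit 5) (nat_lit 17) (nat_lit 4) (nat_lit 15) (nat_lit 4) (nat_lit 543) (nat_lit 368) (nat_lit 289)))) (XT.nd (nat_lit 156) (nat_lit 152) (nat_lit 0) (XT.nd (nat_lit 78) (nat_lit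 0) (nat_lit 0) (XT.lf (nat_lit 0) (nat_lit 13272085588) (nat_lit 76) (nat_lit 26731694458) (nat_lit 76) (nat_lit 17177991156) (nat_lit 14) (nat_lit 4) (nat_lit 15) (nat_lit 5) (nat_lit 15) (nat_lit 4) (nat_lit 544) (nat_lit 368) (nat_lit 288)) (XT.lf (nat_lit 0) (nat_lit 29293081295) (nat_lit 76) (nat_lit 19475088244) (nat_lit 76) (nat_lit 9892522131) (nat_lit 14) (nat_lit 4) (nat_lit 15) (nat_lit 5) (nat_lit 15) (nat_lit 4) (nat_lit 545) (nat_lit 368) (nat_lit 287))) (XT.nd (nat_lit 78) (nat_lit 152) (nat_lit 0) (XT.lf (nat_lit 0) (nat_lit 45723597509) (nat_lit 76) (nat_lit 12036023555) (nat_lit 76) (nat_lit 2425435296) (nat_lit 14) (nat_lit 4) (nat_lit 15) (nat_lit 5) (nat_lit 15) (nat_lit 4) (nat_lit 546) (nat_lit 368) (nat_lit 286)) (XT.lf (nat_lit 0) (nat_lit 786876565) (nat_lit 76) (nat_lit 4348429243) (nat_lit 152) (nat_lit 56619156357) (nat_lit 12) (nat_lit 5) (nat_lit 13) (nat_lit 5) (nat_lit 14) (nat_lit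 4) (nat_lit 547) (nat_lit 368) (nat_lit 285))))) (XT.nd (nat_lit 312) (nat_lit 76) (nat_lit 0) (XT.nd (nat_lit 156) (nat_lit 0) (nat_lit 0) (XT.nd (nat_lit 78) (nat_lit 0) (nat_lit 0) (XT.lf (nat_lit 0) (nat_lit 13020774766) (nat_lit 152) (nat_lit 46707007037) (nat_lit 0) (nat_lit 3638048758) (nat_lit 12) (nat_lit 5) (nat_lit 14) (nat_lit 4) (nat_lit 12) (nat_lit 4) (nat_lit 548) (nat_lit 368) (nat_lit 284)) (XT.lf (nat_lit 0) (nat_lit 21151746196) (nat_lit 152) (nat_lit 32129403247) (nat_lit 0) (nat_lit 11744122874) (nat_lit 12) (nat_lit 5) (nat_lit 14) (nat_lit 4) (nat_lit 12) (nat_lit 4) (nat_lit 549) (nat_lit 368) (nat_lit 283))) (XT.nd (nat_lit 78) (nat_lit 0) (nat_lit 0) (XT.lf (nat_lit 0) (nat_lit 29493525070) (nat_lit 152) (nat_lit 17180236758) (nat_lit 0) (nat_lit 20061729598) (nat_lit 12) (nat_lit 5) (nat_lit 14) (nat_lit 4) (nat_lit 12) (nat_lit 4) (nat_lit 550) (nat_lit 368) (nat_lit 282)) (XT.lf (nat_lit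 0) (nat_lit 38053400320) (nat_lit 152) (nat_lit 1846445191) (nat_lit 0) (nat_lit 28598136742) (nat_lit 12) (nat_lit 5) (nat_lit 14) (nat_lit 4) (nat_lit 12) (nat_lit 4) (nat_lit 551) (nat_lit 368) (nat_lit 281)))) (XT.nd (nat_lit 55458) (nat_lit 0) (nat_lit 7296) (XT.nd (nat_lit 78) (nat_lit 0) (nat_lit 0) (XT.lf (nat_lit 0) (nat_lit 14161716000) (nat_lit 76) (nat_lit 32813266527) (nat_lit 76) (nat_lit 23335218379) (nat_lit 11) (nat_lit 4) (nat_lit 12) (nat_lit 5) (nat_lit 12) (nat_lit 4) (nat_lit 552) (nat_lit 368) (nat_lit 280)) (XT.lf (nat_lit 0) (nat_lit 30626589881) (nat_lit 76) (nat_lit 25525366703) (nat_lit 76) (nat_lit 16025197613) (nat_lit 11) (nat_lit 4) (nat_lit 12) (nat_lit 5) (nat_lit 12) (nat_lit 4) (nat_lit 553) (nat_lit 368) (nat_lit 279))) (XT.nd (nat_lit 78) (nat_lit 0) (nat_lit 0) (XT.lf (nat_lit 0) (nat_lit 201925049) (nat_lit 228) (nat_lit 4993497172) (nat_lit 0) (nat_lit 201925049) (nat_lit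 107) (nat_lit 5) (nat_lit 110) (nat_lit 4) (nat_lit 107) (nat_lit 4) (nat_lit 462) (nat_lit 369) (nat_lit 369)) (XT.lf (nat_lit 0) (nat_lit 5439736023) (nat_lit 228) (nat_lit 692800701) (nat_lit 0) (nat_lit 4815412071) (nat_lit 107) (nat_lit 5) (nat_lit 110) (nat_lit 4) (nat_lit 107) (nat_lit 4) (nat_lit 463) (nat_lit 369) (nat_lit 368)))))) (XT.nd (nat_lit 546) (nat_lit 1292) (nat_lit 0) (XT.nd (nat_lit 234) (nat_lit 684) (nat_lit 0) (XT.nd (nat_lit 78) (nat_lit 456) (nat_lit 0) (XT.lf (nat_lit 0) (nat_lit 8867888931) (nat_lit 228) (nat_lit 1734557138) (nat_lit 228) (nat_lit 504093428) (nat_lit 104) (nat_lit 4) (nat_lit 107) (nat_lit 5) (nat_lit 107) (nat_lit 4) (nat_lit 464) (nat_lit 369) (nat_lit 367)) (XT.nd (nat_lit 78) (nat_lit 228) (nat_lit 0) (XT.lf (nat_lit 0) (nat_lit 4555546926) (nat_lit 228) (nat_lit 3923549320) (nat_lit 0) (nat_lit 2789577109) (nat_lit 101) (nat_lit 5) (nat_lit 104) (nat_lit 4) (nat_lit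 101) (nat_lit 4) (nat_lit 465) (nat_lit 369) (nat_lit 366)) (XT.lf (nat_lit 0) (nat_lit 5730310203) (nat_lit 228) (nat_lit 4013148365) (nat_lit 228) (nat_lit 1692474803) (nat_lit 98) (nat_lit 4) (nat_lit 101) (nat_lit 5) (nat_lit 101) (nat_lit 4) (nat_lit 466) (nat_lit 369) (nat_lit 365)))) (XT.nd (nat_lit 156) (nat_lit 228) (nat_lit 0) (XT.nd (nat_lit 78) (nat_lit 228) (nat_lit 0) (XT.lf (nat_lit 0) (nat_lit 3387256070) (nat_lit 228) (nat_lit 7609357840) (nat_lit 0) (nat_lit 611313461) (nat_lit 95) (nat_lit 5) (nat_lit 98) (nat_lit 4) (nat_lit 95) (nat_lit 4) (nat_lit 467) (nat_lit 369) (nat_lit 364)) (XT.lf (nat_lit 0) (nat_lit 2124495386) (nat_lit 228) (nat_lit 6471671729) (nat_lit 228) (nat_lit 3188096616) (nat_lit 92) (nat_lit 4) (nat_lit 95) (nat_lit 5) (nat_lit 95) (nat_lit 4) (nat_lit 468) (nat_lit 369) (nat_lit 363))) (XT.nd (nat_lit 78) (nat_lit 0) (nat_lit 0) (XT.lf (nat_lit 0) (nat_lit 137809926) (nat_lit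 152) (nat_lit 1790383242) (nat_lit 228) (nat_lit 10037980152) (nat_lit 89) (nat_lit 5) (nat_lit 91) (nat_lit 5) (nat_lit 92) (nat_lit 4) (nat_lit 469) (nat_lit 369) (nat_lit 362)) (XT.lf (nat_lit 0) (nat_lit 7154863615) (nat_lit 228) (nat_lit 1973230516) (nat_lit 0) (nat_lit 3023878636) (nat_lit 89) (nat_lit 5) (nat_lit 92) (nat_lit 4) (nat_lit 89) (nat_lit 4) (nat_lit 470) (nat_lit 369) (nat_lit 361))))) (XT.nd (nat_lit 312) (nat_lit 532) (nat_lit 0) (XT.nd (nat_lit 156) (nat_lit 380) (nat_lit 0) (XT.nd (nat_lit 78) (nat_lit 152) (nat_lit 0) (XT.lf (nat_lit 0) (nat_lit 183459112) (nat_lit 228) (nat_lit 4209587886) (nat_lit 76) (nat_lit 7950482810) (nat_lit 86) (nat_lit 5) (nat_lit 89) (nat_lit 5) (nat_lit 87) (nat_lit 4) (nat_lit 471) (nat_lit 369) (nat_lit 360)) (XT.lf (nat_lit 0) (nat_lit 5397931729) (nat_lit 228) (nat_lit 6617813489) (nat_lit 0) (nat_lit 524244210) (nat_lit 84) (nat_lit 5) (nat_lit 87) (nat_lit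 4) (nat_lit 84) (nat_lit 4) (nat_lit 472) (nat_lit 369) (nat_lit 359))) (XT.nd (nat_lit 78) (nat_lit 228) (nat_lit 0) (XT.lf (nat_lit 0) (nat_lit 3544794023) (nat_lit 152) (nat_lit 7241732514) (nat_lit 152) (nat_lit 1955293315) (nat_lit 82) (nat_lit 4) (nat_lit 84) (nat_lit 5) (nat_lit 84) (nat_lit 4) (nat_lit 473) (nat_lit 369) (nat_lit 358)) (XT.lf (nat_lit 0) (nat_lit 1002757473) (nat_lit 152) (nat_lit 2292772802) (nat_lit 228) (nat_lit 9653968863) (nat_lit 79) (nat_lit 5) (nat_lit 81) (nat_lit 5) (nat_lit 82) (nat_lit 4) (nat_lit 474) (nat_lit 369) (nat_lit 357)))) (XT.nd (nat_lit 156) (nat_lit 304) (nat_lit 0) (XT.nd (nat_lit 78) (nat_lit 228) (nat_lit 0) (XT.lf (nat_lit 0) (nat_lit 8683215557) (nat_lit 228) (nat_lit 1695094365) (nat_lit 0) (nat_lit 2783966012) (nat_lit 79) (nat_lit 5) (nat_lit 82) (nat_lit 4) (nat_lit 79) (nat_lit 4) (nat_lit 475) (nat_lit 369) (nat_lit 356)) (XT.lf (nat_lit 0) (nat_lit 843050848)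 (nat_lit 228) (nat_lit 4554580845) (nat_lit 76) (nat_lit 7983308607) (nat_lit 76) (nat_lit 5) (nat_lit 79) (nat_lit 5) (nat_lit 77) (nat_lit 4) (nat_lit 476) (nat_lit 369) (nat_lit 355))) (XT.nd (nat_lit 78) (nat_lit 152) (nat_lit 0) (XT.lf (nat_lit 0) (nat_lit 5985688962) (nat_lit 152) (nat_lit 225003774) (nat_lit 228) (nat_lit 7394871097) (nat_lit 74) (nat_lit 5) (nat_lit 76) (nat_lit 5) (nat_lit 77) (nat_lit 4) (nat_lit 477) (nat_lit 369) (nat_lit 354)) (XT.lf (nat_lit 0) (nat_lit 2928047751) (nat_lit 152) (nat_lit 8836439370) (nat_lit 152) (nat_lit 2071691478) (nat_lit 72) (nat_lit 4) (nat_lit 74) (nat_lit 5) (nat_lit 74) (nat_lit 4) (nat_lit 478) (nat_lit 369) (nat_lit 353))))))))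
noncomputable def xc35 : XT := (XT.nd (nat_lit 2340) (nat_lit 1444) (nat_lit 0) (XT.nd (nat_lit 1170) (nat_lit 1064) (nat_lit 0) (XT.nd (nat_lit 546) (nat_lit 836) (nat_lit 0) (XT.nd (nat_lit 234) (nat_lit 380) (nat_lit 0) (XT.nd (nat_lit 78) (nat_lit 380) (nat_lit 0) (XT.lf (nat_lit 0) (nat_lit 3326223009) (nat_lit 228) (nat_lit 338345169) (nat_lit 76) (nat_lit 10408717668) (nat_lit 71) (nat_lit 5) (nat_lit 74) (nat_lit 5) (nat_lit 72) (nat_lit 4) (nat_lit 479) (nat_lit 369) (nat_lit 352)) (XT.nd (nat_lit 78) (nat_lit 228) (nat_lit 0) (XT.lf (nat_lit 0) (nat_lit 8866901987) (nat_lit 228) (nat_lit 3773600908) (nat_lit 0) (nat_lit 1675719779) (nat_lit 69) (nat_lit 5) (nat_lit 72) (nat_lit 4) (nat_lit 69) (nat_lit 4) (nat_lit 480) (nat_lit 369) (nat_lit 351)) (XT.lf (nat_lit 0) (nat_lit 20390315) (nat_lit 228) (nat_lit 7447970464) (nat_lit 76) (nat_lit 7097694674) (nat_lit 66) (nat_lit 5) (nat_lit 69) (nat_lit 5)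 (nat_lit 67) (nat_lit 4) (nat_lit 481) (nat_lit 369) (nat_lit 350)))) (XT.nd (nat_lit 156) (nat_lit 304) (nat_lit 0) (XT.nd (nat_lit 78) (nat_lit 0) (nat_lit 0) (XT.lf (nat_lit 0) (nat_lit 3429136300) (nat_lit 76) (nat_lit 2092043418) (nat_lit 152) (nat_lit 9301294709) (nat_lit 65) (nat_lit 5) (nat_lit 66) (nat_lit 5) (nat_lit 67) (nat_lit 4) (nat_lit 482) (nat_lit 369) (nat_lit 349)) (XT.lf (nat_lit 0) (nat_lit 11201469036) (nat_lit 152) (nat_lit 508385991) (nat_lit 0) (nat_lit 3376301717) (nat_lit 65) (nat_lit 5) (nat_lit 67) (nat_lit 4) (nat_lit 65) (nat_lit 4) (nat_lit 483) (nat_lit 369) (nat_lit 348))) (XT.nd (nat_lit 78) (nat_lit 76) (nat_lit 0) (XT.lf (nat_lit 0) (nat_lit 1693593742) (nat_lit 228) (nat_lit 4652101619) (nat_lit 76) (nat_lit 9010603095) (nat_lit 62) (nat_lit 5) (nat_lit 65) (nat_lit 5) (nat_lit 63) (nat_lit 4) (nat_lit 484) (nat_lit 369) (nat_lit 347)) (XT.lf (nat_lit 0) (nat_lit 6547976154)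 (nat_lit 76) (nat_lit 789603290) (nat_lit 152) (nat_lit 8296522715) (nat_lit 61) (nat_lit 5) (nat_lit 62) (nat_lit 5) (nat_lit 63) (nat_lit 4) (nat_lit 485) (nat_lit 369) (nat_lit 346))))) (XT.nd (nat_lit 312) (nat_lit 380) (nat_lit 0) (XT.nd (nat_lit 156) (nat_lit 228) (nat_lit 0) (XT.nd (nat_lit 78) (nat_lit 76) (nat_lit 0) (XT.lf (nat_lit 0) (nat_lit 2082566943) (nat_lit 152) (nat_lit 11091802833) (nat_lit 152) (nat_lit 2745170141) (nat_lit 59) (nat_lit 4) (nat_lit 61) (nat_lit 5) (nat_lit 61) (nat_lit 4) (nat_lit 486) (nat_lit 369) (nat_lit 345)) (XT.lf (nat_lit 0) (nat_lit 2923933696) (nat_lit 228) (nat_lit 2646433805) (nat_lit 76) (nat_lit 10642043701) (nat_lit 58) (nat_lit 5) (nat_lit 61) (nat_lit 5) (nat_lit 59) (nat_lit 4) (nat_lit 487) (nat_lit 369) (nat_lit 344))) (XT.nd (nat_lit 78) (nat_lit 152) (nat_lit 0) (XT.lf (nat_lit 0) (nat_lit 8705988820) (nat_lit 152) (nat_lit 7655269952) (nat_lit 0) (nat_lit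 152056969) (nat_lit 57) (nat_lit 5) (nat_lit 59) (nat_lit 4) (nat_lit 57) (nat_lit 4) (nat_lit 488) (nat_lit 369) (nat_lit 343)) (XT.lf (nat_lit 0) (nat_lit 3791828476) (nat_lit 152) (nat_lit 10899929610) (nat_lit 152) (nat_lit 2130585752) (nat_lit 55) (nat_lit 4) (nat_lit 57) (nat_lit 5) (nat_lit 57) (nat_lit 4) (nat_lit 489) (nat_lit 369) (nat_lit 342)))) (XT.nd (nat_lit 156) (nat_lit 228) (nat_lit 0) (XT.nd (nat_lit 78) (nat_lit 76) (nat_lit 0) (XT.lf (nat_lit 0) (nat_lit 3633789608) (nat_lit 228) (nat_lit 1601888823) (nat_lit 76) (nat_lit 11904200765) (nat_lit 54) (nat_lit 5) (nat_lit 57) (nat_lit 5) (nat_lit 55) (nat_lit 4) (nat_lit 490) (nat_lit 369) (nat_lit 341)) (XT.lf (nat_lit 0) (nat_lit 9546741925) (nat_lit 152) (nat_lit 7286378576) (nat_lit 0) (nat_lit 632636871) (nat_lit 53) (nat_lit 5) (nat_lit 55) (nat_lit 4) (nat_lit 53) (nat_lit 4) (nat_lit 491) (nat_lit 369) (nat_lit 340))) (XT.nd (nat_lit 78)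 (nat_lit 76) (nat_lit 0) (XT.lf (nat_lit 0) (nat_lit 4418483714) (nat_lit 152) (nat_lit 11243835239) (nat_lit 152) (nat_lit 2138339407) (nat_lit 51) (nat_lit 4) (nat_lit 53) (nat_lit 5) (nat_lit 53) (nat_lit 4) (nat_lit 492) (nat_lit 369) (nat_lit 339)) (XT.lf (nat_lit 0) (nat_lit 3730301493) (nat_lit 228) (nat_lit 1718800089) (nat_lit 76) (nat_lit 12695737648) (nat_lit 50) (nat_lit 5) (nat_lit 53) (nat_lit 5) (nat_lit 51) (nat_lit 4) (nat_lit 493) (nat_lit 369) (nat_lit 338)))))) (XT.nd (nat_lit 546) (nat_lit 456) (nat_lit 0) (XT.nd (nat_lit 234) (nat_lit 304) (nat_lit 0) (XT.nd (nat_lit 78) (nat_lit 228) (nat_lit 0) (XT.lf (nat_lit 0) (nat_lit 9753853617) (nat_lit 152) (nat_lit 8186192529) (nat_lit 0) (nat_lit 558012562) (nat_lit 49) (nat_lit 5) (nat_lit 51) (nat_lit 4) (nat_lit 49) (nat_lit 4) (nat_lit 494) (nat_lit 369) (nat_lit 337)) (XT.nd (nat_lit 78) (nat_lit 76) (nat_lit 0) (XT.lf (nat_lit 0) (nat_lit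 3738820667) (nat_lit 152) (nat_lit 12244101128) (nat_lit 152) (nat_lit 2878211846) (nat_lit 47) (nat_lit 4) (nat_lit 49) (nat_lit 5) (nat_lit 49) (nat_lit 4) (nat_lit 495) (nat_lit 369) (nat_lit 336)) (XT.lf (nat_lit 0) (nat_lit 3102994090) (nat_lit 228) (nat_lit 3231906643) (nat_lit 76) (nat_lit 12899261623) (nat_lit 46) (nat_lit 5) (nat_lit 49) (nat_lit 5) (nat_lit 47) (nat_lit 4) (nat_lit 496) (nat_lit 369) (nat_lit 335)))) (XT.nd (nat_lit 156) (nat_lit 152) (nat_lit 0) (XT.nd (nat_lit 78) (nat_lit 76) (nat_lit 0) (XT.lf (nat_lit 0) (nat_lit 9009663116) (nat_lit 76) (nat_lit 202619902) (nat_lit 152) (nat_lit 10405052006) (nat_lit 45) (nat_lit 5) (nat_lit 46) (nat_lit 5) (nat_lit 47) (nat_lit 4) (nat_lit 497) (nat_lit 369) (nat_lit 334)) (XT.lf (nat_lit 0) (nat_lit 1490653713) (nat_lit 76) (nat_lit 14040327531) (nat_lit 76) (nat_lit 4480240512) (nat_lit 44) (nat_lit 4) (nat_lit 45) (nat_lit 5) (nat_lit 45) (nat_lit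 4) (nat_lit 498) (nat_lit 369) (nat_lit 333))) (XT.nd (nat_lit 78) (nat_lit 76) (nat_lit 0) (XT.lf (nat_lit 0) (nat_lit 1621001809) (nat_lit 152) (nat_lit 6416138439) (nat_lit 76) (nat_lit 12378409331) (nat_lit 43) (nat_lit 5) (nat_lit 45) (nat_lit 5) (nat_lit 44) (nat_lit 4) (nat_lit 499) (nat_lit 369) (nat_lit 332)) (XT.lf (nat_lit 0) (nat_lit 5974977557) (nat_lit 76) (nat_lit 1820176326) (nat_lit 152) (nat_lit 13036127529) (nat_lit 42) (nat_lit 5) (nat_lit 43) (nat_lit 5) (nat_lit 44) (nat_lit 4) (nat_lit 500) (nat_lit 369) (nat_lit 331))))) (XT.nd (nat_lit 312) (nat_lit 228) (nat_lit 0) (XT.nd (nat_lit 156) (nat_lit 152) (nat_lit 0) (XT.nd (nat_lit 78) (nat_lit 76) (nat_lit 0) (XT.lf (nat_lit 0) (nat_lit 14186669928) (nat_lit 152) (nat_lit 2581736656) (nat_lit 0) (nat_lit 4490116922) (nat_lit 42) (nat_lit 5) (nat_lit 44) (nat_lit 4) (nat_lit 42) (nat_lit 4) (nat_lit 501) (nat_lit 369) (nat_lit 330)) (XT.lf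 (nat_lit 0) (nat_lit 10095533798) (nat_lit 76) (nat_lit 10714366614) (nat_lit 76) (nat_lit 887485800) (nat_lit 41) (nat_lit 4) (nat_lit 42) (nat_lit 5) (nat_lit 42) (nat_lit 4) (nat_lit 502) (nat_lit 369) (nat_lit 329))) (XT.nd (nat_lit 78) (nat_lit 0) (nat_lit 0) (XT.lf (nat_lit 0) (nat_lit 876976249) (nat_lit 76) (nat_lit 4458190703) (nat_lit 152) (nat_lit 16813877049) (nat_lit 39) (nat_lit 5) (nat_lit 40) (nat_lit 5) (nat_lit 41) (nat_lit 4) (nat_lit 503) (nat_lit 369) (nat_lit 328)) (XT.lf (nat_lit 0) (nat_lit 11789188025) (nat_lit 152) (nat_lit 8816514135) (nat_lit 0) (nat_lit 2006412178) (nat_lit 39) (nat_lit 5) (nat_lit 41) (nat_lit 4) (nat_lit 39) (nat_lit 4) (nat_lit 504) (nat_lit 369) (nat_lit 327)))) (XT.nd (nat_lit 156) (nat_lit 76) (nat_lit 0) (XT.nd (nat_lit 78) (nat_lit 76) (nat_lit 0) (XT.lf (nat_lit 0) (nat_lit 3904227602) (nat_lit 76) (nat_lit 14541576260) (nat_lit 76) (nat_lit 4643005845) (nat_lit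 38) (nat_lit 4) (nat_lit 39) (nat_lit 5) (nat_lit 39) (nat_lit 4) (nat_lit 505) (nat_lit 369) (nat_lit 326)) (XT.lf (nat_lit 0) (nat_lit 1705984236) (nat_lit 152) (nat_lit 6547844327) (nat_lit 76) (nat_lit 15324964307) (nat_lit 37) (nat_lit 5) (nat_lit 39) (nat_lit 5) (nat_lit 38) (nat_lit 4) (nat_lit 506) (nat_lit 369) (nat_lit 325))) (XT.nd (nat_lit 78) (nat_lit 0) (nat_lit 0) (XT.lf (nat_lit 0) (nat_lit 6410621129) (nat_lit 76) (nat_lit 1732610861) (nat_lit 152) (nat_lit 15939133158) (nat_lit 36) (nat_lit 5) (nat_lit 37) (nat_lit 5) (nat_lit 38) (nat_lit 4) (nat_lit 507) (nat_lit 369) (nat_lit 324)) (XT.lf (nat_lit 0) (nat_lit 14817894732) (nat_lit 152) (nat_lit 4892188546) (nat_lit 0) (nat_lit 4889634299) (nat_lit 36) (nat_lit 5) (nat_lit 38) (nat_lit 4) (nat_lit 36) (nat_lit 4) (nat_lit 508) (nat_lit 369) (nat_lit 323))))))) (XT.nd (nat_lit 1170) (nat_lit 608) (nat_lit 0) (XT.nd (nat_lit 546) (nat_lit 380)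 (nat_lit 0) (XT.nd (nat_lit 234) (nat_lit 228) (nat_lit 0) (XT.nd (nat_lit 78) (nat_lit 152) (nat_lit 0) (XT.lf (nat_lit 0) (nat_lit 8282575057) (nat_lit 76) (nat_lit 13438655117) (nat_lit 76) (nat_lit 3410509272) (nat_lit 35) (nat_lit 4) (nat_lit 36) (nat_lit 5) (nat_lit 36) (nat_lit 4) (nat_lit 509) (nat_lit 369) (nat_lit 322)) (XT.nd (nat_lit 78) (nat_lit 76) (nat_lit 0) (XT.lf (nat_lit 0) (nat_lit 3072046339) (nat_lit 152) (nat_lit 3888867904) (nat_lit 76) (nat_lit 18718452271) (nat_lit 34) (nat_lit 5) (nat_lit 36) (nat_lit 5) (nat_lit 35) (nat_lit 4) (nat_lit 510) (nat_lit 369) (nat_lit 321)) (XT.lf (nat_lit 0) (nat_lit 9482669264) (nat_lit 76) (nat_lit 222721286) (nat_lit 152) (nat_lit 16536274722) (nat_lit 33) (nat_lit 5) (nat_lit 34) (nat_lit 5) (nat_lit 35) (nat_lit 4) (nat_lit 511) (nat_lit 369) (nat_lit 320)))) (XT.nd (nat_lit 156) (nat_lit 152) (nat_lit 0) (XT.nd (nat_lit 78) (nat_lit 76) (nat_lit 0)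 (XT.lf (nat_lit 0) (nat_lit 16575782891) (nat_lit 152) (nat_lit 3678499128) (nat_lit 0) (nat_lit 6565411187) (nat_lit 33) (nat_lit 5) (nat_lit 35) (nat_lit 4) (nat_lit 33) (nat_lit 4) (nat_lit 512) (nat_lit 369) (nat_lit 319)) (XT.lf (nat_lit 0) (nat_lit 9859403763) (nat_lit 76) (nat_lit 13825605935) (nat_lit 76) (nat_lit 3729072197) (nat_lit 32) (nat_lit 4) (nat_lit 33) (nat_lit 5) (nat_lit 33) (nat_lit 4) (nat_lit 513) (nat_lit 369) (nat_lit 318))) (XT.nd (nat_lit 78) (nat_lit 76) (nat_lit 0) (XT.lf (nat_lit 0) (nat_lit 2896342123) (nat_lit 152) (nat_lit 4300611687) (nat_lit 76) (nat_lit 20829291067) (nat_lit 31) (nat_lit 5) (nat_lit 33) (nat_lit 5) (nat_lit 32) (nat_lit 4) (nat_lit 514) (nat_lit 369) (nat_lit 317)) (XT.lf (nat_lit 0) (nat_lit 9375504945) (nat_lit 76) (nat_lit 297848317) (nat_lit 152) (nat_lit 18981479752) (nat_lit 30) (nat_lit 5) (nat_lit 31) (nat_lit 5) (nat_lit 32) (nat_lit 4) (nat_lit 515)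 (nat_lit 369) (nat_lit 316))))) (XT.nd (nat_lit 312) (nat_lit 152) (nat_lit 0) (XT.nd (nat_lit 156) (nat_lit 152) (nat_lit 0) (XT.nd (nat_lit 78) (nat_lit 76) (nat_lit 0) (XT.lf (nat_lit 0) (nat_lit 16700732997) (nat_lit 152) (nat_lit 5938482711) (nat_lit 0) (nat_lit 6661652760) (nat_lit 30) (nat_lit 5) (nat_lit 32) (nat_lit 4) (nat_lit 30) (nat_lit 4) (nat_lit 516) (nat_lit 369) (nat_lit 315)) (XT.lf (nat_lit 0) (nat_lit 7834364921) (nat_lit 76) (nat_lit 16122395509) (nat_lit 76) (nat_lit 6008991144) (nat_lit 29) (nat_lit 4) (nat_lit 30) (nat_lit 5) (nat_lit 30) (nat_lit 4) (nat_lit 517) (nat_lit 369) (nat_lit 314))) (XT.nd (nat_lit 78) (nat_lit 76) (nat_lit 0) (XT.lf (nat_lit 0) (nat_lit 764840651) (nat_lit 152) (nat_lit 8632937189) (nat_lit 76) (nat_lit 21252574585) (nat_lit 28) (nat_lit 5) (nat_lit 30) (nat_lit 5) (nat_lit 29) (nat_lit 4) (nat_lit 518) (nat_lit 369) (nat_lit 313)) (XT.lf (nat_lit 0) (nat_lit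 5197642520) (nat_lit 76) (nat_lit 2414802725) (nat_lit 152) (nat_lit 23741522489) (nat_lit 27) (nat_lit 5) (nat_lit 28) (nat_lit 5) (nat_lit 29) (nat_lit 4) (nat_lit 519) (nat_lit 369) (nat_lit 312)))) (XT.nd (nat_lit 156) (nat_lit 76) (nat_lit 0) (XT.nd (nat_lit 78) (nat_lit 76) (nat_lit 0) (XT.lf (nat_lit 0) (nat_lit 14740893178) (nat_lit 152) (nat_lit 12617593852) (nat_lit 0) (nat_lit 4717943242) (nat_lit 27) (nat_lit 5) (nat_lit 29) (nat_lit 4) (nat_lit 27) (nat_lit 4) (nat_lit 520) (nat_lit 369) (nat_lit 311)) (XT.lf (nat_lit 0) (nat_lit 1215621315) (nat_lit 76) (nat_lit 20846323320) (nat_lit 76) (nat_lit 10759260738) (nat_lit 26) (nat_lit 4) (nat_lit 27) (nat_lit 5) (nat_lit 27) (nat_lit 4) (nat_lit 521) (nat_lit 369) (nat_lit 310))) (XT.nd (nat_lit 78) (nat_lit 76) (nat_lit 0) (XT.lf (nat_lit 0) (nat_lit 15612083937) (nat_lit 76) (nat_lit 14061706957) (nat_lit 76) (nat_lit 3912399089) (nat_lit 26) (nat_lit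 4) (nat_lit 27) (nat_lit 5) (nat_lit 27) (nat_lit 4) (nat_lit 522) (nat_lit 369) (nat_lit 309)) (XT.lf (nat_lit 0) (nat_lit 3023445103) (nat_lit 152) (nat_lit 4072146625) (nat_lit 76) (nat_lit 27279282618) (nat_lit 25) (nat_lit 5) (nat_lit 27) (nat_lit 5) (nat_lit 26) (nat_lit 4) (nat_lit 523) (nat_lit 369) (nat_lit 308)))))) (XT.nd (nat_lit 624) (nat_lit 304) (nat_lit 0) (XT.nd (nat_lit 312) (nat_lit 152) (nat_lit 0) (XT.nd (nat_lit 156) (nat_lit 76) (nat_lit 0) (XT.nd (nat_lit 78) (nat_lit 0) (nat_lit 0) (XT.lf (nat_lit 0) (nat_lit 10135864278) (nat_lit 152) (nat_lit 24882247956) (nat_lit 0) (nat_lit 166531912) (nat_lit 24) (nat_lit 5) (nat_lit 26) (nat_lit 4) (nat_lit 24) (nat_lit 4) (nat_lit 524) (nat_lit 369) (nat_lit 307)) (XT.lf (nat_lit 0) (nat_lit 17519958178) (nat_lit 152) (nat_lit 11001679144) (nat_lit 0) (nat_lit 7495321681) (nat_lit 24) (nat_lit 5) (nat_lit 26) (nat_lit 4) (nat_lit 24) (nat_lit 4)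 (nat_lit 525) (nat_lit 369) (nat_lit 306))) (XT.nd (nat_lit 78) (nat_lit 0) (nat_lit 0) (XT.lf (nat_lit 0) (nat_lit 3256725616) (nat_lit 76) (nat_lit 21848233492) (nat_lit 76) (nat_lit 11769903665) (nat_lit 23) (nat_lit 4) (nat_lit 24) (nat_lit 5) (nat_lit 24) (nat_lit 4) (nat_lit 526) (nat_lit 369) (nat_lit 305)) (XT.lf (nat_lit 0) (nat_lit 18067275883) (nat_lit 76) (nat_lit 14909948296) (nat_lit 76) (nat_lit 4779489021) (nat_lit 23) (nat_lit 4) (nat_lit 24) (nat_lit 5) (nat_lit 24) (nat_lit 4) (nat_lit 527) (nat_lit 369) (nat_lit 304)))) (XT.nd (nat_lit 156) (nat_lit 0) (nat_lit 0) (XT.nd (nat_lit 78) (nat_lit 76) (nat_lit 0) (XT.lf (nat_lit 0) (nat_lit 2323023131) (nat_lit 152) (nat_lit 5465333432) (nat_lit 76) (nat_lit 30877476817) (nat_lit 22) (nat_lit 5) (nat_lit 24) (nat_lit 5) (nat_lit 23) (nat_lit 4) (nat_lit 528) (nat_lit 369) (nat_lit 303)) (XT.lf (nat_lit 0) (nat_lit 9221823574) (nat_lit 76) (nat_lit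 360457690) (nat_lit 152) (nat_lit 30017335127) (nat_lit 21) (nat_lit 5) (nat_lit 22) (nat_lit 5) (nat_lit 23) (nat_lit 4) (nat_lit 529) (nat_lit 369) (nat_lit 302))) (XT.nd (nat_lit 78) (nat_lit 0) (nat_lit 0) (XT.lf (nat_lit 0) (nat_lit 17136275830) (nat_lit 152) (nat_lit 16265109857) (nat_lit 0) (nat_lit 7157719304) (nat_lit 21) (nat_lit 5) (nat_lit 23) (nat_lit 4) (nat_lit 21) (nat_lit 4) (nat_lit 530) (nat_lit 369) (nat_lit 301)) (XT.lf (nat_lit 0) (nat_lit 24873026592) (nat_lit 152) (nat_lit 1826165651) (nat_lit 0) (nat_lit 14849502747) (nat_lit 21) (nat_lit 5) (nat_lit 23) (nat_lit 4) (nat_lit 21) (nat_lit 4) (nat_lit 531) (nat_lit 369) (nat_lit 300))))) (XT.nd (nat_lit 312) (nat_lit 76) (nat_lit 0) (XT.nd (nat_lit 156) (nat_lit 152) (nat_lit 0) (XT.nd (nat_lit 78) (nat_lit 0) (nat_lit 0) (XT.lf (nat_lit 0) (nat_lit 13212953607) (nat_lit 76) (nat_lit 19709886266) (nat_lit 76) (nat_lit 9642704829) (nat_lit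 20) (nat_lit 4) (nat_lit 21) (nat_lit 5) (nat_lit 21) (nat_lit 4) (nat_lit 532) (nat_lit 369) (nat_lit 299)) (XT.lf (nat_lit 0) (nat_lit 28650745907) (nat_lit 76) (nat_lit 12536268118) (nat_lit 76) (nat_lit 2426700671) (nat_lit 20) (nat_lit 4) (nat_lit 21) (nat_lit 5) (nat_lit 21) (nat_lit 4) (nat_lit 533) (nat_lit 369) (nat_lit 298))) (XT.nd (nat_lit 78) (nat_lit 76) (nat_lit 0) (XT.lf (nat_lit 0) (nat_lit 4863417094) (nat_lit 152) (nat_lit 277982213) (nat_lit 76) (nat_lit 39551828234) (nat_lit 19) (nat_lit 5) (nat_lit 21) (nat_lit 5) (nat_lit 20) (nat_lit 4) (nat_lit 534) (nat_lit 369) (nat_lit 297)) (XT.lf (nat_lit 0) (nat_lit 12449625673) (nat_lit 152) (nat_lit 30795225607) (nat_lit 0) (nat_lit 2555769561) (nat_lit 18) (nat_lit 5) (nat_lit 20) (nat_lit 4) (nat_lit 18) (nat_lit 4) (nat_lit 535) (nat_lit 369) (nat_lit 296)))) (XT.nd (nat_lit 156) (nat_lit 76) (nat_lit 0) (XT.nd (nat_lit 78) (nat_lit 0) (nat_lit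 0) (XT.lf (nat_lit 0) (nat_lit 20273822292) (nat_lit 152) (nat_lit 16324795535) (nat_lit 0) (nat_lit 10342306758) (nat_lit 18) (nat_lit 5) (nat_lit 20) (nat_lit 4) (nat_lit 18) (nat_lit 4) (nat_lit 536) (nat_lit 369) (nat_lit 295)) (XT.lf (nat_lit 0) (nat_lit 28290669053) (nat_lit 152) (nat_lit 1503440368) (nat_lit 0) (nat_lit 18322590973) (nat_lit 18) (nat_lit 5) (nat_lit 20) (nat_lit 4) (nat_lit 18) (nat_lit 4) (nat_lit 537) (nat_lit 369) (nat_lit 294))) (XT.nd (nat_lit 78) (nat_lit 0) (nat_lit 0) (XT.lf (nat_lit 0) (nat_lit 13954085054) (nat_lit 76) (nat_lit 22687221114) (nat_lit 76) (nat_lit 12683645418) (nat_lit 17) (nat_lit 4) (nat_lit 18) (nat_lit 5) (nat_lit 18) (nat_lit 4) (nat_lit 538) (nat_lit 369) (nat_lit 293)) (XT.lf (nat_lit 0) (nat_lit 29826182245) (nat_lit 76) (nat_lit 15391032766) (nat_lit 76) (nat_lit 5352993363) (nat_lit 17) (nat_lit 4) (nat_lit 18) (nat_lit 5) (nat_lit 18) (nat_lit 4) (nat_lit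 539) (nat_lit 369) (nat_lit 292))))))))
noncomputable def xc36 : XT := (XT.nd (nat_lit 57486) (nat_lit 0) (nat_lit 2128) (XT.nd (nat_lit 56316) (nat_lit 0) (nat_lit 5168) (XT.nd (nat_lit 546) (nat_lit 228) (nat_lit 0) (XT.nd (nat_lit 234) (nat_lit 76) (nat_lit 0) (XT.nd (nat_lit 78) (nat_lit 76) (nat_lit 0) (XT.lf (nat_lit 0) (nat_lit 2115054709) (nat_lit 152) (nat_lit 5777938251) (nat_lit 76) (nat_lit 43960386002) (nat_lit 16) (nat_lit 5) (nat_lit 18) (nat_lit 5) (nat_lit 17) (nat_lit 4) (nat_lit 540) (nat_lit 369) (nat_lit 291)) (XT.nd (nat_lit 78) (nat_lit 0) (nat_lit 0) (XT.lf (nat_lit 0) (nat_lit 9697211039) (nat_lit 76) (nat_lit 57072555) (nat_lit 152) (nat_lit 43417529781) (nat_lit 15) (nat_lit 5) (nat_lit 16) (nat_lit 5) (nat_lit 17) (nat_lit 4) (nat_lit 541) (nat_lit 369) (nat_lit 290)) (XT.lf (nat_lit 0) (nat_lit 17720198824) (nat_lit 152) (nat_lit 28926792858) (nat_lit 0) (nat_lit 7879884424) (nat_lit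 15) (nat_lit 5) (nat_lit 17) (nat_lit 4) (nat_lit 15) (nat_lit 4) (nat_lit 542) (nat_lit 369) (nat_lit 289)))) (XT.nd (nat_lit 156) (nat_lit 0) (nat_lit 0) (XT.nd (nat_lit 78) (nat_lit 76) (nat_lit 0) (XT.lf (nat_lit 0) (nat_lit 25888327647) (nat_lit 152) (nat_lit 14017081989) (nat_lit 0) (nat_lit 16018284551) (nat_lit 15) (nat_lit 5) (nat_lit 17) (nat_lit 4) (nat_lit 15) (nat_lit 4) (nat_lit 543) (nat_lit 369) (nat_lit 288)) (XT.lf (nat_lit 0) (nat_lit 1293344601) (nat_lit 76) (nat_lit 32984346464) (nat_lit 76) (nat_lit 23085440557) (nat_lit 14) (nat_lit 4) (nat_lit 15) (nat_lit 5) (nat_lit 15) (nat_lit 4) (nat_lit 544) (nat_lit 369) (nat_lit 287))) (XT.nd (nat_lit 78) (nat_lit 0) (nat_lit 0) (XT.lf (nat_lit 0) (nat_lit 17279311065) (nat_lit 76) (nat_lit 25745099714) (nat_lit 76) (nat_lit 15818171660) (nat_lit 14) (nat_lit 4) (nat_lit 15) (nat_lit 5) (nat_lit 15) (nat_lit 4) (nat_lit 545) (nat_lit 369) (nat_lit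 286)) (XT.lf (nat_lit 0) (nat_lit 33675818305) (nat_lit 76) (nat_lit 18322888874) (nat_lit 76) (nat_lit 8368754852) (nat_lit 14) (nat_lit 4) (nat_lit 15) (nat_lit 5) (nat_lit 15) (nat_lit 4) (nat_lit 546) (nat_lit 369) (nat_lit 285))))) (XT.nd (nat_lit 312) (nat_lit 76) (nat_lit 0) (XT.nd (nat_lit 156) (nat_lit 0) (nat_lit 0) (XT.nd (nat_lit 78) (nat_lit 152) (nat_lit 0) (XT.lf (nat_lit 0) (nat_lit 50497193368) (nat_lit 76) (nat_lit 10711228517) (nat_lit 76) (nat_lit 730680935) (nat_lit 14) (nat_lit 4) (nat_lit 15) (nat_lit 5) (nat_lit 15) (nat_lit 4) (nat_lit 547) (nat_lit 369) (nat_lit 284)) (XT.lf (nat_lit 0) (nat_lit 4213195346) (nat_lit 76) (nat_lit 2791428871) (nat_lit 152) (nat_lit 56550990598) (nat_lit 12) (nat_lit 5) (nat_lit 13) (nat_lit 5) (nat_lit 14) (nat_lit 4) (nat_lit 548) (nat_lit 369) (nat_lit 283))) (XT.nd (nat_lit 78) (nat_lit 0) (nat_lit 0) (XT.lf (nat_lit 0) (nat_lit 15092446618) (nat_lit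 152) (nat_lit 44770379514) (nat_lit 0) (nat_lit 5353525132) (nat_lit 12) (nat_lit 5) (nat_lit 14) (nat_lit 4) (nat_lit 12) (nat_lit 4) (nat_lit 549) (nat_lit 369) (nat_lit 282)) (XT.lf (nat_lit 0) (nat_lit 23418384610) (nat_lit 152) (nat_lit 29852666186) (nat_lit 0) (nat_lit 13655995018) (nat_lit 12) (nat_lit 5) (nat_lit 14) (nat_lit 4) (nat_lit 12) (nat_lit 4) (nat_lit 550) (nat_lit 369) (nat_lit 281)))) (XT.nd (nat_lit 156) (nat_lit 0) (nat_lit 0) (XT.nd (nat_lit 78) (nat_lit 76) (nat_lit 0) (XT.lf (nat_lit 0) (nat_lit 31962880364) (nat_lit 152) (nat_lit 14549411667) (nat_lit 0) (nat_lit 22177706202) (nat_lit 12) (nat_lit 5) (nat_lit 14) (nat_lit 4) (nat_lit 12) (nat_lit 4) (nat_lit 551) (nat_lit 369) (nat_lit 280)) (XT.lf (nat_lit 0) (nat_lit 1175697916) (nat_lit 76) (nat_lit 39569003554) (nat_lit 76) (nat_lit 29761708451) (nat_lit 11) (nat_lit 4) (nat_lit 12) (nat_lit 5) (nat_lit 12) (nat_lit 4) (nat_lit 552)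 (nat_lit 369) (nat_lit 279))) (XT.nd (nat_lit 55224) (nat_lit 0) (nat_lit 7752) (XT.lf (nat_lit 0) (nat_lit 17611214839) (nat_lit 76) (nat_lit 32295681841) (nat_lit 76) (nat_lit 22466910095) (nat_lit 11) (nat_lit 4) (nat_lit 12) (nat_lit 5) (nat_lit 12) (nat_lit 4) (nat_lit 553) (nat_lit 369) (nat_lit 278)) (XT.lf (nat_lit 0) (nat_lit 896744002) (nat_lit 304) (nat_lit 3455167543) (nat_lit 0) (nat_lit 896744002) (nat_lit 113) (nat_lit 5) (nat_lit 117) (nat_lit 4) (nat_lit 113) (nat_lit 4) (nat_lit 460) (nat_lit 370) (nat_lit 370)))))) (XT.nd (nat_lit 546) (nat_lit 1216) (nat_lit 0) (XT.nd (nat_lit 234) (nat_lit 912) (nat_lit 0) (XT.nd (nat_lit 78) (nat_lit 228) (nat_lit 0) (XT.lf (nat_lit 0) (nat_lit 2181379188) (nat_lit 228) (nat_lit 4562605992) (nat_lit 228) (nat_lit 3900260712) (nat_lit 110) (nat_lit 4) (nat_lit 113) (nat_lit 5) (nat_lit 113) (nat_lit 4) (nat_lit 461) (nat_lit 370) (nat_lit 369)) (XT.nd (nat_lit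 78) (nat_lit 0) (nat_lit 0) (XT.lf (nat_lit 0) (nat_lit 712528345) (nat_lit 152) (nat_lit 281524509) (nat_lit 228) (nat_lit 9802232917) (nat_lit 107) (nat_lit 5) (nat_lit 109) (nat_lit 5) (nat_lit 110) (nat_lit 4) (nat_lit 462) (nat_lit 370) (nat_lit 368)) (XT.lf (nat_lit 0) (nat_lit 5973293663) (nat_lit 228) (nat_lit 878174974) (nat_lit 0) (nat_lit 4099776283) (nat_lit 107) (nat_lit 5) (nat_lit 110) (nat_lit 4) (nat_lit 107) (nat_lit 4) (nat_lit 463) (nat_lit 370) (nat_lit 367)))) (XT.nd (nat_lit 156) (nat_lit 456) (nat_lit 0) (XT.nd (nat_lit 78) (nat_lit 228) (nat_lit 0) (XT.lf (nat_lit 0) (nat_lit 8588403240) (nat_lit 228) (nat_lit 2492545987) (nat_lit 228) (nat_lit 30543405) (nat_lit 104) (nat_lit 4) (nat_lit 107) (nat_lit 5) (nat_lit 107) (nat_lit 4) (nat_lit 464) (nat_lit 370) (nat_lit 366)) (XT.lf (nat_lit 0) (nat_lit 4956318815) (nat_lit 228) (nat_lit 4307761003) (nat_lit 0) (nat_lit 2011321302) (nat_lit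 101) (nat_lit 5) (nat_lit 104) (nat_lit 4) (nat_lit 101) (nat_lit 4) (nat_lit 465) (nat_lit 370) (nat_lit 365))) (XT.nd (nat_lit 78) (nat_lit 228) (nat_lit 0) (XT.lf (nat_lit 0) (nat_lit 5247515333) (nat_lit 228) (nat_lit 4840195575) (nat_lit 228) (nat_lit 1356650737) (nat_lit 98) (nat_lit 4) (nat_lit 101) (nat_lit 5) (nat_lit 101) (nat_lit 4) (nat_lit 466) (nat_lit 370) (nat_lit 364)) (XT.lf (nat_lit 0) (nat_lit 3409350964) (nat_lit 152) (nat_lit 243731441) (nat_lit 228) (nat_lit 7965084371) (nat_lit 95) (nat_lit 5) (nat_lit 97) (nat_lit 5) (nat_lit 98) (nat_lit 4) (nat_lit 467) (nat_lit 370) (nat_lit 363))))) (XT.nd (nat_lit 312) (nat_lit 532) (nat_lit 0) (XT.nd (nat_lit 156) (nat_lit 380) (nat_lit 0) (XT.nd (nat_lit 78) (nat_lit 76) (nat_lit 0) (XT.lf (nat_lit 0) (nat_lit 1424089075) (nat_lit 228) (nat_lit 7377397862) (nat_lit 228) (nat_lit 2994835897) (nat_lit 92) (nat_lit 4) (nat_lit 95) (nat_lit 5) (nat_lit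 95) (nat_lit 4) (nat_lit 468) (nat_lit 370) (nat_lit 362)) (XT.lf (nat_lit 0) (nat_lit 2065064873) (nat_lit 304) (nat_lit 668972594) (nat_lit 76) (nat_lit 9245722003) (nat_lit 91) (nat_lit 5) (nat_lit 95) (nat_lit 5) (nat_lit 92) (nat_lit 4) (nat_lit 469) (nat_lit 370) (nat_lit 361))) (XT.nd (nat_lit 78) (nat_lit 228) (nat_lit 0) (XT.lf (nat_lit 0) (nat_lit 7225019714) (nat_lit 228) (nat_lit 2888020166) (nat_lit 0) (nat_lit 2054524626) (nat_lit 89) (nat_lit 5) (nat_lit 92) (nat_lit 4) (nat_lit 89) (nat_lit 4) (nat_lit 470) (nat_lit 370) (nat_lit 360)) (XT.lf (nat_lit 0) (nat_lit 177006372) (nat_lit 228) (nat_lit 5249060409) (nat_lit 76) (nat_lit 6934841486) (nat_lit 86) (nat_lit 5) (nat_lit 89) (nat_lit 5) (nat_lit 87) (nat_lit 4) (nat_lit 471) (nat_lit 370) (nat_lit 359)))) (XT.nd (nat_lit 156) (nat_lit 228) (nat_lit 0) (XT.nd (nat_lit 78) (nat_lit 152) (nat_lit 0) (XT.lf (nat_lit 0) (nat_lit 4778013571) (nat_lit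 152) (nat_lit 547863841) (nat_lit 228) (nat_lit 7233462293) (nat_lit 84) (nat_lit 5) (nat_lit 86) (nat_lit 5) (nat_lit 87) (nat_lit 4) (nat_lit 472) (nat_lit 370) (nat_lit 358)) (XT.lf (nat_lit 0) (nat_lit 2273950095) (nat_lit 152) (nat_lit 8373868573) (nat_lit 152) (nat_lit 2115354730) (nat_lit 82) (nat_lit 4) (nat_lit 84) (nat_lit 5) (nat_lit 84) (nat_lit 4) (nat_lit 473) (nat_lit 370) (nat_lit 357))) (XT.nd (nat_lit 78) (nat_lit 152) (nat_lit 0) (XT.lf (nat_lit 0) (nat_lit 3079894136) (nat_lit 228) (nat_lit 395386791) (nat_lit 76) (nat_lit 9497382309) (nat_lit 81) (nat_lit 5) (nat_lit 84) (nat_lit 5) (nat_lit 82) (nat_lit 4) (nat_lit 474) (nat_lit 370) (nat_lit 356)) (XT.lf (nat_lit 0) (nat_lit 8403459849) (nat_lit 228) (nat_lit 3201125085) (nat_lit 0) (nat_lit 1582782037) (nat_lit 79) (nat_lit 5) (nat_lit 82) (nat_lit 4) (nat_lit 79) (nat_lit 4) (nat_lit 475) (nat_lit 370) (nat_lit 355))))))) (XT.nd (nat_lit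 1170) (nat_lit 1140) (nat_lit 0) (XT.nd (nat_lit 546) (nat_lit 836) (nat_lit 0) (XT.nd (nat_lit 234) (nat_lit 532) (nat_lit 0) (XT.nd (nat_lit 78) (nat_lit 304) (nat_lit 0) (XT.lf (nat_lit 0) (nat_lit 480506243) (nat_lit 228) (nat_lit 6201293363) (nat_lit 76) (nat_lit 6726232195) (nat_lit 76) (nat_lit 5) (nat_lit 79) (nat_lit 5) (nat_lit 77) (nat_lit 4) (nat_lit 476) (nat_lit 370) (nat_lit 354)) (XT.nd (nat_lit 78) (nat_lit 152) (nat_lit 0) (XT.lf (nat_lit 0) (nat_lit 4218817436) (nat_lit 152) (nat_lit 1565030597) (nat_lit 228) (nat_lit 7850739370) (nat_lit 74) (nat_lit 5) (nat_lit 76) (nat_lit 5) (nat_lit 77) (nat_lit 4) (nat_lit 477) (nat_lit 370) (nat_lit 353)) (XT.lf (nat_lit 0) (nat_lit 1021958727) (nat_lit 152) (nat_lit 10237360658) (nat_lit 152) (nat_lit 2608235454) (nat_lit 72) (nat_lit 4) (nat_lit 74) (nat_lit 5) (nat_lit 74) (nat_lit 4) (nat_lit 478) (nat_lit 370) (nat_lit 352)))) (XT.nd (nat_lit 156)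 (nat_lit 304) (nat_lit 0) (XT.nd (nat_lit 78) (nat_lit 152) (nat_lit 0) (XT.lf (nat_lit 0) (nat_lit 2753120657) (nat_lit 228) (nat_lit 2356630063) (nat_lit 76) (nat_lit 8996479747) (nat_lit 71) (nat_lit 5) (nat_lit 74) (nat_lit 5) (nat_lit 72) (nat_lit 4) (nat_lit 479) (nat_lit 370) (nat_lit 351)) (XT.lf (nat_lit 0) (nat_lit 8213076149) (nat_lit 228) (nat_lit 5937663710) (nat_lit 0) (nat_lit 200851865) (nat_lit 69) (nat_lit 5) (nat_lit 72) (nat_lit 4) (nat_lit 69) (nat_lit 4) (nat_lit 480) (nat_lit 370) (nat_lit 350))) (XT.nd (nat_lit 78) (nat_lit 152) (nat_lit 0) (XT.lf (nat_lit 0) (nat_lit 4825843961) (nat_lit 152) (nat_lit 9039667402) (nat_lit 152) (nat_lit 737947393) (nat_lit 67) (nat_lit 4) (nat_lit 69) (nat_lit 5) (nat_lit 69) (nat_lit 4) (nat_lit 481) (nat_lit 370) (nat_lit 349)) (XT.lf (nat_lit 0) (nat_lit 974959509) (nat_lit 76) (nat_lit 3733288435) (nat_lit 152) (nat_lit 10153914910) (nat_lit 65) (nat_lit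 5) (nat_lit 66) (nat_lit 5) (nat_lit 67) (nat_lit 4) (nat_lit 482) (nat_lit 370) (nat_lit 348))))) (XT.nd (nat_lit 312) (nat_lit 532) (nat_lit 0) (XT.nd (nat_lit 156) (nat_lit 76) (nat_lit 0) (XT.nd (nat_lit 78) (nat_lit 228) (nat_lit 0) (XT.lf (nat_lit 0) (nat_lit 10327517327) (nat_lit 152) (nat_lit 3070372957) (nat_lit 0) (nat_lit 1729787905) (nat_lit 65) (nat_lit 5) (nat_lit 67) (nat_lit 4) (nat_lit 65) (nat_lit 4) (nat_lit 483) (nat_lit 370) (nat_lit 347)) (XT.lf (nat_lit 0) (nat_lit 725449347) (nat_lit 228) (nat_lit 7382280448) (nat_lit 76) (nat_lit 7292472455) (nat_lit 62) (nat_lit 5) (nat_lit 65) (nat_lit 5) (nat_lit 63) (nat_lit 4) (nat_lit 484) (nat_lit 370) (nat_lit 346))) (XT.nd (nat_lit 78) (nat_lit 0) (nat_lit 0) (XT.lf (nat_lit 0) (nat_lit 3680307615) (nat_lit 76) (nat_lit 2617708046) (nat_lit 152) (nat_lit 9382135087) (nat_lit 61) (nat_lit 5) (nat_lit 62) (nat_lit 5) (nat_lit 63) (nat_lit 4) (nat_lit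 485) (nat_lit 370) (nat_lit 345)) (XT.lf (nat_lit 0) (nat_lit 12053502553) (nat_lit 152) (nat_lit 935890955) (nat_lit 0) (nat_lit 2978636252) (nat_lit 61) (nat_lit 5) (nat_lit 63) (nat_lit 4) (nat_lit 61) (nat_lit 4) (nat_lit 486) (nat_lit 370) (nat_lit 344)))) (XT.nd (nat_lit 156) (nat_lit 228) (nat_lit 0) (XT.nd (nat_lit 78) (nat_lit 76) (nat_lit 0) (XT.lf (nat_lit 0) (nat_lit 1724482890) (nat_lit 228) (nat_lit 5802696632) (nat_lit 76) (nat_lit 8735648132) (nat_lit 58) (nat_lit 5) (nat_lit 61) (nat_lit 5) (nat_lit 59) (nat_lit 4) (nat_lit 487) (nat_lit 370) (nat_lit 343)) (XT.lf (nat_lit 0) (nat_lit 5559558867) (nat_lit 76) (nat_lit 1871391937) (nat_lit 152) (nat_lit 9135050974) (nat_lit 57) (nat_lit 5) (nat_lit 58) (nat_lit 5) (nat_lit 59) (nat_lit 4) (nat_lit 488) (nat_lit 370) (nat_lit 342))) (XT.nd (nat_lit 78) (nat_lit 76) (nat_lit 0) (XT.lf (nat_lit 0) (nat_lit 311233268) (nat_lit 152) (nat_lit 13011791711)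 (nat_lit 152) (nat_lit 3554817660) (nat_lit 55) (nat_lit 4) (nat_lit 57) (nat_lit 5) (nat_lit 57) (nat_lit 4) (nat_lit 489) (nat_lit 370) (nat_lit 341)) (XT.lf (nat_lit 0) (nat_lit 2195159552) (nat_lit 228) (nat_lit 5203846637) (nat_lit 76) (nat_lit 9798050027) (nat_lit 54) (nat_lit 5) (nat_lit 57) (nat_lit 5) (nat_lit 55) (nat_lit 4) (nat_lit 490) (nat_lit 370) (nat_lit 340)))))) (XT.nd (nat_lit 546) (nat_lit 456) (nat_lit 0) (XT.nd (nat_lit 234) (nat_lit 380) (nat_lit 0) (XT.nd (nat_lit 78) (nat_lit 228) (nat_lit 0) (XT.lf (nat_lit 0) (nat_lit 6433348902) (nat_lit 76) (nat_lit 1591528896) (nat_lit 152) (nat_lit 9500555365) (nat_lit 53) (nat_lit 5) (nat_lit 54) (nat_lit 5) (nat_lit 55) (nat_lit 4) (nat_lit 491) (nat_lit 370) (nat_lit 339)) (XT.nd (nat_lit 78) (nat_lit 76) (nat_lit 0) (XT.lf (nat_lit 0) (nat_lit 473749794) (nat_lit 152) (nat_lit 13572637921) (nat_lit 152) (nat_lit 3816770147) (nat_lit 51) (nat_lit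 4) (nat_lit 53) (nat_lit 5) (nat_lit 53) (nat_lit 4) (nat_lit 492) (nat_lit 370) (nat_lit 338)) (XT.lf (nat_lit 0) (nat_lit 2043825770) (nat_lit 228) (nat_lit 5787305625) (nat_lit 76) (nat_lit 10377916877) (nat_lit 50) (nat_lit 5) (nat_lit 53) (nat_lit 5) (nat_lit 51) (nat_lit 4) (nat_lit 493) (nat_lit 370) (nat_lit 337)))) (XT.nd (nat_lit 156) (nat_lit 304) (nat_lit 0) (XT.nd (nat_lit 78) (nat_lit 0) (nat_lit 0) (XT.lf (nat_lit 0) (nat_lit 6091376906) (nat_lit 76) (nat_lit 1890297241) (nat_lit 152) (nat_lit 10583166270) (nat_lit 49) (nat_lit 5) (nat_lit 50) (nat_lit 5) (nat_lit 51) (nat_lit 4) (nat_lit 494) (nat_lit 370) (nat_lit 336)) (XT.lf (nat_lit 0) (nat_lit 14117122404) (nat_lit 152) (nat_lit 678490201) (nat_lit 0) (nat_lit 4135112850) (nat_lit 49) (nat_lit 5) (nat_lit 51) (nat_lit 4) (nat_lit 49) (nat_lit 4) (nat_lit 495) (nat_lit 370) (nat_lit 335))) (XT.nd (nat_lit 78) (nat_lit 76) (nat_lit 0) (XT.lf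 (nat_lit 0) (nat_lit 1159188376) (nat_lit 228) (nat_lit 7789143914) (nat_lit 76) (nat_lit 10357366857) (nat_lit 46) (nat_lit 5) (nat_lit 49) (nat_lit 5) (nat_lit 47) (nat_lit 4) (nat_lit 496) (nat_lit 370) (nat_lit 334)) (XT.lf (nat_lit 0) (nat_lit 4287164372) (nat_lit 76) (nat_lit 2897603562) (nat_lit 152) (nat_lit 12506616542) (nat_lit 45) (nat_lit 5) (nat_lit 46) (nat_lit 5) (nat_lit 47) (nat_lit 4) (nat_lit 497) (nat_lit 370) (nat_lit 333))))) (XT.nd (nat_lit 312) (nat_lit 228) (nat_lit 0) (XT.nd (nat_lit 156) (nat_lit 152) (nat_lit 0) (XT.nd (nat_lit 78) (nat_lit 76) (nat_lit 0) (XT.lf (nat_lit 0) (nat_lit 13425005877) (nat_lit 152) (nat_lit 3382274974) (nat_lit 0) (nat_lit 3280345505) (nat_lit 45) (nat_lit 5) (nat_lit 47) (nat_lit 4) (nat_lit 45) (nat_lit 4) (nat_lit 498) (nat_lit 370) (nat_lit 332)) (XT.lf (nat_lit 0) (nat_lit 9003056818) (nat_lit 76) (nat_lit 10889288781) (nat_lit 76) (nat_lit 602215696)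 (nat_lit 44) (nat_lit 4) (nat_lit 45) (nat_lit 5) (nat_lit 45) (nat_lit 4) (nat_lit 499) (nat_lit 370) (nat_lit 331))) (XT.nd (nat_lit 78) (nat_lit 0) (nat_lit 0) (XT.lf (nat_lit 0) (nat_lit 731982038) (nat_lit 76) (nat_lit 4764234657) (nat_lit 152) (nat_lit 15416875457) (nat_lit 42) (nat_lit 5) (nat_lit 43) (nat_lit 5) (nat_lit 44) (nat_lit 4) (nat_lit 500) (nat_lit 370) (nat_lit 330)) (XT.lf (nat_lit 0) (nat_lit 11822439037) (nat_lit 152) (nat_lit 7949431220) (nat_lit 0) (nat_lit 1570423992) (nat_lit 42) (nat_lit 5) (nat_lit 44) (nat_lit 4) (nat_lit 42) (nat_lit 4) (nat_lit 501) (nat_lit 370) (nat_lit 329)))) (XT.nd (nat_lit 156) (nat_lit 76) (nat_lit 0) (XT.nd (nat_lit 78) (nat_lit 76) (nat_lit 0) (XT.lf (nat_lit 0) (nat_lit 4550521119) (nat_lit 76) (nat_lit 13805930216) (nat_lit 76) (nat_lit 3427383320) (nat_lit 41) (nat_lit 4) (nat_lit 42) (nat_lit 5) (nat_lit 42) (nat_lit 4) (nat_lit 502) (nat_lit 370) (nat_lit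 328)) (XT.lf (nat_lit 0) (nat_lit 2800521196) (nat_lit 152) (nat_lit 4816335324) (nat_lit 76) (nat_lit 14620698790) (nat_lit 40) (nat_lit 5) (nat_lit 42) (nat_lit 5) (nat_lit 41) (nat_lit 4) (nat_lit 503) (nat_lit 370) (nat_lit 327))) (XT.nd (nat_lit 78) (nat_lit 0) (nat_lit 0) (XT.lf (nat_lit 0) (nat_lit 7958220372) (nat_lit 76) (nat_lit 1193938312) (nat_lit 152) (nat_lit 13551539527) (nat_lit 39) (nat_lit 5) (nat_lit 40) (nat_lit 5) (nat_lit 41) (nat_lit 4) (nat_lit 504) (nat_lit 370) (nat_lit 326)) (XT.lf (nat_lit 0) (nat_lit 15724999938) (nat_lit 152) (nat_lit 2156651978) (nat_lit 0) (nat_lit 5301255931) (nat_lit 39) (nat_lit 5) (nat_lit 41) (nat_lit 4) (nat_lit 39) (nat_lit 4) (nat_lit 505) (nat_lit 370) (nat_lit 325))))))))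
noncomputable def xc37 : XT := (XT.nd (nat_lit 2340) (nat_lit 532) (nat_lit 0) (XT.nd (nat_lit 1170) (nat_lit 684) (nat_lit 0) (XT.nd (nat_lit 546) (nat_lit 456) (nat_lit 0) (XT.nd (nat_lit 234) (nat_lit 228) (nat_lit 0) (XT.nd (nat_lit 78) (nat_lit 152) (nat_lit 0) (XT.lf (nat_lit 0) (nat_lit 10877826152) (nat_lit 76) (nat_lit 11665062633) (nat_lit 76) (nat_lit 1132171139) (nat_lit 38) (nat_lit 4) (nat_lit 39) (nat_lit 5) (nat_lit 39) (nat_lit 4) (nat_lit 506) (nat_lit 370) (nat_lit 324)) (XT.nd (nat_lit 78) (nat_lit 76) (nat_lit 0) (XT.lf (nat_lit 0) (nat_lit 5231821819) (nat_lit 152) (nat_lit 18261634) (nat_lit 76) (nat_lit 18931736610) (nat_lit 37) (nat_lit 5) (nat_lit 39) (nat_lit 5) (nat_lit 38) (nat_lit 4) (nat_lit 507) (nat_lit 370) (nat_lit 323)) (XT.lf (nat_lit 0) (nat_lit 11838827159) (nat_lit 152) (nat_lit 11452424438) (nat_lit 0) (nat_lit 1409951527) (nat_lit 36) (nat_lit 5) (nat_lit 38) (nat_lit 4)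 (nat_lit 36) (nat_lit 4) (nat_lit 508) (nat_lit 370) (nat_lit 322)))) (XT.nd (nat_lit 156) (nat_lit 152) (nat_lit 0) (XT.nd (nat_lit 78) (nat_lit 0) (nat_lit 0) (XT.lf (nat_lit 0) (nat_lit 1527074955) (nat_lit 76) (nat_lit 17117465672) (nat_lit 76) (nat_lit 6591613912) (nat_lit 35) (nat_lit 4) (nat_lit 36) (nat_lit 5) (nat_lit 36) (nat_lit 4) (nat_lit 509) (nat_lit 370) (nat_lit 321)) (XT.lf (nat_lit 0) (nat_lit 15003202044) (nat_lit 76) (nat_lit 10701228692) (nat_lit 76) (nat_lit 81225351) (nat_lit 35) (nat_lit 4) (nat_lit 36) (nat_lit 5) (nat_lit 36) (nat_lit 4) (nat_lit 510) (nat_lit 370) (nat_lit 320))) (XT.nd (nat_lit 78) (nat_lit 0) (nat_lit 0) (XT.lf (nat_lit 0) (nat_lit 2389836936) (nat_lit 76) (nat_lit 4063980590) (nat_lit 152) (nat_lit 19897158144) (nat_lit 33) (nat_lit 5) (nat_lit 34) (nat_lit 5) (nat_lit 35) (nat_lit 4) (nat_lit 511) (nat_lit 370) (nat_lit 319)) (XT.lf (nat_lit 0) (nat_lit 13255631595)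 (nat_lit 152) (nat_lit 10905390331) (nat_lit 0) (nat_lit 2770039812) (nat_lit 33) (nat_lit 5) (nat_lit 35) (nat_lit 4) (nat_lit 33) (nat_lit 4) (nat_lit 512) (nat_lit 370) (nat_lit 318))))) (XT.nd (nat_lit 312) (nat_lit 228) (nat_lit 0) (XT.nd (nat_lit 156) (nat_lit 152) (nat_lit 0) (XT.nd (nat_lit 78) (nat_lit 0) (nat_lit 0) (XT.lf (nat_lit 0) (nat_lit 2427614879) (nat_lit 76) (nat_lit 17835072838) (nat_lit 76) (nat_lit 7265828594) (nat_lit 32) (nat_lit 4) (nat_lit 33) (nat_lit 5) (nat_lit 33) (nat_lit 4) (nat_lit 513) (nat_lit 370) (nat_lit 317)) (XT.lf (nat_lit 0) (nat_lit 16263801999) (nat_lit 76) (nat_lit 11264551162) (nat_lit 76) (nat_lit 614090938) (nat_lit 32) (nat_lit 4) (nat_lit 33) (nat_lit 5) (nat_lit 33) (nat_lit 4) (nat_lit 514) (nat_lit 370) (nat_lit 316))) (XT.nd (nat_lit 78) (nat_lit 0) (nat_lit 0) (XT.lf (nat_lit 0) (nat_lit 1593363075) (nat_lit 76) (nat_lit 4476919568) (nat_lit 152) (nat_lit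 22704066006) (nat_lit 30) (nat_lit 5) (nat_lit 31) (nat_lit 5) (nat_lit 32) (nat_lit 4) (nat_lit 515) (nat_lit 370) (nat_lit 315)) (XT.lf (nat_lit 0) (nat_lit 13027721428) (nat_lit 152) (nat_lit 13858170776) (nat_lit 0) (nat_lit 2536590805) (nat_lit 30) (nat_lit 5) (nat_lit 32) (nat_lit 4) (nat_lit 30) (nat_lit 4) (nat_lit 516) (nat_lit 370) (nat_lit 314)))) (XT.nd (nat_lit 156) (nat_lit 152) (nat_lit 0) (XT.nd (nat_lit 78) (nat_lit 76) (nat_lit 0) (XT.lf (nat_lit 0) (nat_lit 20179538056) (nat_lit 152) (nat_lit 294706957) (nat_lit 0) (nat_lit 9616248087) (nat_lit 30) (nat_lit 5) (nat_lit 32) (nat_lit 4) (nat_lit 30) (nat_lit 4) (nat_lit 517) (nat_lit 370) (nat_lit 313)) (XT.lf (nat_lit 0) (nat_lit 13834248357) (nat_lit 76) (nat_lit 13787681698) (nat_lit 76) (nat_lit 3154334111) (nat_lit 29) (nat_lit 4) (nat_lit 30) (nat_lit 5) (nat_lit 30) (nat_lit 4) (nat_lit 518) (nat_lit 370) (nat_lit 312))) (XT.nd (nat_lit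 78) (nat_lit 76) (nat_lit 0) (XT.lf (nat_lit 0) (nat_lit 3676819283) (nat_lit 152) (nat_lit 3237421546) (nat_lit 76) (nat_lit 24568889000) (nat_lit 28) (nat_lit 5) (nat_lit 30) (nat_lit 5) (nat_lit 29) (nat_lit 4) (nat_lit 519) (nat_lit 370) (nat_lit 311)) (XT.lf (nat_lit 0) (nat_lit 10701960142) (nat_lit 152) (nat_lit 21258558984) (nat_lit 0) (nat_lit 248173039) (nat_lit 27) (nat_lit 5) (nat_lit 29) (nat_lit 4) (nat_lit 27) (nat_lit 4) (nat_lit 520) (nat_lit 370) (nat_lit 310)))))) (XT.nd (nat_lit 546) (nat_lit 380) (nat_lit 0) (XT.nd (nat_lit 234) (nat_lit 228) (nat_lit 0) (XT.nd (nat_lit 78) (nat_lit 76) (nat_lit 0) (XT.lf (nat_lit 0) (nat_lit 17984139854) (nat_lit 152) (nat_lit 7502386669) (nat_lit 0) (nat_lit 7468107464) (nat_lit 27) (nat_lit 5) (nat_lit 29) (nat_lit 4) (nat_lit 27) (nat_lit 4) (nat_lit 521) (nat_lit 370) (nat_lit 309)) (XT.nd (nat_lit 78) (nat_lit 0) (nat_lit 0) (XT.lf (nat_lit 0) (nat_lit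 6691964807) (nat_lit 76) (nat_lit 18803566349) (nat_lit 76) (nat_lit 8227101642) (nat_lit 26) (nat_lit 4) (nat_lit 27) (nat_lit 5) (nat_lit 27) (nat_lit 4) (nat_lit 522) (nat_lit 370) (nat_lit 308)) (XT.lf (nat_lit 0) (nat_lit 21361878351) (nat_lit 76) (nat_lit 11893124506) (nat_lit 76) (nat_lit 1257987646) (nat_lit 26) (nat_lit 4) (nat_lit 27) (nat_lit 5) (nat_lit 27) (nat_lit 4) (nat_lit 523) (nat_lit 370) (nat_lit 307)))) (XT.nd (nat_lit 156) (nat_lit 76) (nat_lit 0) (XT.nd (nat_lit 78) (nat_lit 0) (nat_lit 0) (XT.lf (nat_lit 0) (nat_lit 1005477421) (nat_lit 76) (nat_lit 4756876044) (nat_lit 152) (nat_lit 29564268898) (nat_lit 24) (nat_lit 5) (nat_lit 25) (nat_lit 5) (nat_lit 26) (nat_lit 4) (nat_lit 524) (nat_lit 370) (nat_lit 306)) (XT.lf (nat_lit 0) (nat_lit 13075144306) (nat_lit 152) (nat_lit 20445161243) (nat_lit 0) (nat_lit 2640771253) (nat_lit 24) (nat_lit 5) (nat_lit 26) (nat_lit 4) (nat_lit 24) (nat_lit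 4) (nat_lit 525) (nat_lit 370) (nat_lit 305))) (XT.nd (nat_lit 78) (nat_lit 76) (nat_lit 0) (XT.lf (nat_lit 0) (nat_lit 20604007505) (nat_lit 152) (nat_lit 6299152671) (nat_lit 0) (nat_lit 10117505004) (nat_lit 24) (nat_lit 5) (nat_lit 26) (nat_lit 4) (nat_lit 24) (nat_lit 4) (nat_lit 526) (nat_lit 370) (nat_lit 304)) (XT.lf (nat_lit 0) (nat_lit 8337665242) (nat_lit 76) (nat_lit 20052277174) (nat_lit 76) (nat_lit 9515163559) (nat_lit 23) (nat_lit 4) (nat_lit 24) (nat_lit 5) (nat_lit 24) (nat_lit 4) (nat_lit 527) (nat_lit 370) (nat_lit 303))))) (XT.nd (nat_lit 312) (nat_lit 228) (nat_lit 0) (XT.nd (nat_lit 156) (nat_lit 76) (nat_lit 0) (XT.nd (nat_lit 78) (nat_lit 76) (nat_lit 0) (XT.lf (nat_lit 0) (nat_lit 23447389167) (nat_lit 76) (nat_lit 12977243519) (nat_lit 76) (nat_lit 2390992900) (nat_lit 23) (nat_lit 4) (nat_lit 24) (nat_lit 5) (nat_lit 24) (nat_lit 4) (nat_lit 528) (nat_lit 370) (nat_lit 302)) (XT.lf (nat_lit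 0) (nat_lit 4802883415) (nat_lit 152) (nat_lit 884103114) (nat_lit 76) (nat_lit 34066473163) (nat_lit 22) (nat_lit 5) (nat_lit 24) (nat_lit 5) (nat_lit 23) (nat_lit 4) (nat_lit 529) (nat_lit 370) (nat_lit 301))) (XT.nd (nat_lit 78) (nat_lit 0) (nat_lit 0) (XT.lf (nat_lit 0) (nat_lit 12273556853) (nat_lit 152) (nat_lit 26537531510) (nat_lit 0) (nat_lit 1904359973) (nat_lit 21) (nat_lit 5) (nat_lit 23) (nat_lit 4) (nat_lit 21) (nat_lit 4) (nat_lit 530) (nat_lit 370) (nat_lit 300)) (XT.lf (nat_lit 0) (nat_lit 19987622395) (nat_lit 152) (nat_lit 12143328973) (nat_lit 0) (nat_lit 9574767924) (nat_lit 21) (nat_lit 5) (nat_lit 23) (nat_lit 4) (nat_lit 21) (nat_lit 4) (nat_lit 531) (nat_lit 370) (nat_lit 299)))) (XT.nd (nat_lit 156) (nat_lit 152) (nat_lit 0) (XT.nd (nat_lit 78) (nat_lit 0) (nat_lit 0) (XT.lf (nat_lit 0) (nat_lit 2646155479) (nat_lit 76) (nat_lit 25267681182) (nat_lit 76) (nat_lit 14812440700) (nat_lit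 20) (nat_lit 4) (nat_lit 21) (nat_lit 5) (nat_lit 21) (nat_lit 4) (nat_lit 532) (nat_lit 370) (nat_lit 298)) (XT.lf (nat_lit 0) (nat_lit 18040935134) (nat_lit 76) (nat_lit 18115279220) (nat_lit 76) (nat_lit 7618887271) (nat_lit 20) (nat_lit 4) (nat_lit 21) (nat_lit 5) (nat_lit 21) (nat_lit 4) (nat_lit 533) (nat_lit 370) (nat_lit 297))) (XT.nd (nat_lit 78) (nat_lit 152) (nat_lit 0) (XT.lf (nat_lit 0) (nat_lit 33812785681) (nat_lit 76) (nat_lit 10790119624) (nat_lit 76) (nat_lit 253774794) (nat_lit 20) (nat_lit 4) (nat_lit 21) (nat_lit 5) (nat_lit 21) (nat_lit 4) (nat_lit 534) (nat_lit 370) (nat_lit 296)) (XT.lf (nat_lit 0) (nat_lit 4011744560) (nat_lit 76) (nat_lit 3173909920) (nat_lit 152) (nat_lit 38783044389) (nat_lit 18) (nat_lit 5) (nat_lit 19) (nat_lit 5) (nat_lit 20) (nat_lit 4) (nat_lit 535) (nat_lit 370) (nat_lit 295))))))) (XT.nd (nat_lit 1170) (nat_lit 76) (nat_lit 0) (XT.nd (nat_lit 546) (nat_lit 228)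 (nat_lit 0) (XT.nd (nat_lit 234) (nat_lit 152) (nat_lit 0) (XT.nd (nat_lit 78) (nat_lit 76) (nat_lit 0) (XT.lf (nat_lit 0) (nat_lit 14958614561) (nat_lit 152) (nat_lit 27496993889) (nat_lit 0) (nat_lit 4654931593) (nat_lit 18) (nat_lit 5) (nat_lit 20) (nat_lit 4) (nat_lit 18) (nat_lit 4) (nat_lit 536) (nat_lit 370) (nat_lit 294)) (XT.nd (nat_lit 78) (nat_lit 76) (nat_lit 0) (XT.lf (nat_lit 0) (nat_lit 22955338046) (nat_lit 152) (nat_lit 12715424366) (nat_lit 0) (nat_lit 12616157461) (nat_lit 18) (nat_lit 5) (nat_lit 20) (nat_lit 4) (nat_lit 18) (nat_lit 4) (nat_lit 537) (nat_lit 370) (nat_lit 293)) (XT.lf (nat_lit 0) (nat_lit 2479564999) (nat_lit 76) (nat_lit 28696572895) (nat_lit 76) (nat_lit 18322928604) (nat_lit 17) (nat_lit 4) (nat_lit 18) (nat_lit 5) (nat_lit 18) (nat_lit 4) (nat_lit 538) (nat_lit 370) (nat_lit 292)))) (XT.nd (nat_lit 156) (nat_lit 152) (nat_lit 0) (XT.nd (nat_lit 78) (nat_lit 0) (nat_lit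 0) (XT.lf (nat_lit 0) (nat_lit 18313414045) (nat_lit 76) (nat_lit 21419296910) (nat_lit 76) (nat_lit 11012192711) (nat_lit 17) (nat_lit 4) (nat_lit 18) (nat_lit 5) (nat_lit 18) (nat_lit 4) (nat_lit 539) (nat_lit 370) (nat_lit 291)) (XT.lf (nat_lit 0) (nat_lit 34546896295) (nat_lit 76) (nat_lit 13960976528) (nat_lit 76) (nat_lit 3521386981) (nat_lit 17) (nat_lit 4) (nat_lit 18) (nat_lit 5) (nat_lit 18) (nat_lit 4) (nat_lit 540) (nat_lit 370) (nat_lit 290))) (XT.nd (nat_lit 78) (nat_lit 76) (nat_lit 0) (XT.lf (nat_lit 0) (nat_lit 4074934758) (nat_lit 152) (nat_lit 2199011160) (nat_lit 76) (nat_lit 47078112734) (nat_lit 16) (nat_lit 5) (nat_lit 18) (nat_lit 5) (nat_lit 17) (nat_lit 4) (nat_lit 541) (nat_lit 370) (nat_lit 289)) (XT.lf (nat_lit 0) (nat_lit 11940928570) (nat_lit 152) (nat_lit 41024135241) (nat_lit 0) (nat_lit 1745055486) (nat_lit 15) (nat_lit 5) (nat_lit 17) (nat_lit 4) (nat_lit 15) (nat_lit 4) (nat_lit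 542) (nat_lit 370) (nat_lit 288))))) (XT.nd (nat_lit 312) (nat_lit 152) (nat_lit 0) (XT.nd (nat_lit 156) (nat_lit 76) (nat_lit 0) (XT.nd (nat_lit 78) (nat_lit 0) (nat_lit 0) (XT.lf (nat_lit 0) (nat_lit 20091204344) (nat_lit 152) (nat_lit 26149800439) (nat_lit 0) (nat_lit 9866468449) (nat_lit 15) (nat_lit 5) (nat_lit 17) (nat_lit 4) (nat_lit 15) (nat_lit 4) (nat_lit 543) (nat_lit 370) (nat_lit 287)) (XT.lf (nat_lit 0) (nat_lit 28450802287) (nat_lit 152) (nat_lit 10898957356) (nat_lit 0) (nat_lit 18198044245) (nat_lit 15) (nat_lit 5) (nat_lit 17) (nat_lit 4) (nat_lit 15) (nat_lit 4) (nat_lit 544) (nat_lit 370) (nat_lit 286))) (XT.nd (nat_lit 78) (nat_lit 0) (nat_lit 0) (XT.lf (nat_lit 0) (nat_lit 4836089511) (nat_lit 76) (nat_lit 32237424841) (nat_lit 76) (nat_lit 21957460831) (nat_lit 14) (nat_lit 4) (nat_lit 15) (nat_lit 5) (nat_lit 15) (nat_lit 4) (nat_lit 545) (nat_lit 370) (nat_lit 285)) (XT.lf (nat_lit 0) (nat_lit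 21199578331) (nat_lit 76) (nat_lit 24831576960) (nat_lit 76) (nat_lit 14525199390) (nat_lit 14) (nat_lit 4) (nat_lit 15) (nat_lit 5) (nat_lit 15) (nat_lit 4) (nat_lit 546) (nat_lit 370) (nat_lit 284)))) (XT.nd (nat_lit 156) (nat_lit 76) (nat_lit 0) (XT.nd (nat_lit 78) (nat_lit 76) (nat_lit 0) (XT.lf (nat_lit 0) (nat_lit 37988896674) (nat_lit 76) (nat_lit 17235802972) (nat_lit 76) (nat_lit 6903781168) (nat_lit 14) (nat_lit 4) (nat_lit 15) (nat_lit 5) (nat_lit 15) (nat_lit 4) (nat_lit 547) (nat_lit 370) (nat_lit 283)) (XT.lf (nat_lit 0) (nat_lit 895628561) (nat_lit 152) (nat_lit 8538793138) (nat_lit 76) (nat_lit 54314042165) (nat_lit 13) (nat_lit 5) (nat_lit 15) (nat_lit 5) (nat_lit 14) (nat_lit 4) (nat_lit 548) (nat_lit 370) (nat_lit 282))) (XT.nd (nat_lit 78) (nat_lit 0) (nat_lit 0) (XT.lf (nat_lit 0) (nat_lit 7546974074) (nat_lit 76) (nat_lit 1284585207) (nat_lit 152) (nat_lit 56582197996) (nat_lit 12) (nat_lit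 5) (nat_lit 13) (nat_lit 5) (nat_lit 14) (nat_lit 4) (nat_lit 549) (nat_lit 370) (nat_lit 281)) (XT.lf (nat_lit 0) (nat_lit 17129769559) (nat_lit 152) (nat_lit 42967258706) (nat_lit 0) (nat_lit 7028255602) (nat_lit 12) (nat_lit 5) (nat_lit 14) (nat_lit 4) (nat_lit 12) (nat_lit 4) (nat_lit 550) (nat_lit 370) (nat_lit 280)))))) (XT.nd (nat_lit 55614) (nat_lit 0) (nat_lit 5928) (XT.nd (nat_lit 55302) (nat_lit 0) (nat_lit 7296) (XT.nd (nat_lit 156) (nat_lit 76) (nat_lit 0) (XT.nd (nat_lit 78) (nat_lit 0) (nat_lit 0) (XT.lf (nat_lit 0) (nat_lit 25659333762) (nat_lit 152) (nat_lit 27693651809) (nat_lit 0) (nat_lit 15535698864) (nat_lit 12) (nat_lit 5) (nat_lit 14) (nat_lit 4) (nat_lit 12) (nat_lit 4) (nat_lit 551) (nat_lit 370) (nat_lit 279)) (XT.lf (nat_lit 0) (nat_lit 34415356691) (nat_lit 152) (nat_lit 12020268423) (nat_lit 0) (nat_lit 24270245151) (nat_lit 12) (nat_lit 5) (nat_lit 14) (nat_lit 4) (nat_lit 12) (nat_lit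 4) (nat_lit 552) (nat_lit 370) (nat_lit 278))) (XT.nd (nat_lit 55068) (nat_lit 0) (nat_lit 8284) (XT.lf (nat_lit 0) (nat_lit 4147519688) (nat_lit 76) (nat_lit 39297838047) (nat_lit 76) (nat_lit 29131875398) (nat_lit 11) (nat_lit 4) (nat_lit 12) (nat_lit 5) (nat_lit 12) (nat_lit 4) (nat_lit 553) (nat_lit 370) (nat_lit 277)) (XT.lf (nat_lit 0) (nat_lit 1550886158) (nat_lit 304) (nat_lit 2004934113) (nat_lit 0) (nat_lit 1550886158) (nat_lit 120) (nat_lit 5) (nat_lit 124) (nat_lit 4) (nat_lit 120) (nat_lit 4) (nat_lit 458) (nat_lit 371) (nat_lit 371)))) (XT.nd (nat_lit 156) (nat_lit 456) (nat_lit 0) (XT.nd (nat_lit 78) (nat_lit 304) (nat_lit 0) (XT.lf (nat_lit 0) (nat_lit 4890681193) (nat_lit 228) (nat_lit 3083040752) (nat_lit 228) (nat_lit 2380358644) (nat_lit 117) (nat_lit 4) (nat_lit 120) (nat_lit 5) (nat_lit 120) (nat_lit 4) (nat_lit 459) (nat_lit 371) (nat_lit 370)) (XT.lf (nat_lit 0) (nat_lit 2421214041) (nat_lit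 304) (nat_lit 7001084673) (nat_lit 0) (nat_lit 1076653123) (nat_lit 113) (nat_lit 5) (nat_lit 117) (nat_lit 4) (nat_lit 113) (nat_lit 4) (nat_lit 460) (nat_lit 371) (nat_lit 369))) (XT.nd (nat_lit 78) (nat_lit 228) (nat_lit 0) (XT.lf (nat_lit 0) (nat_lit 1998963623) (nat_lit 228) (nat_lit 5318091577) (nat_lit 228) (nat_lit 3330476989) (nat_lit 110) (nat_lit 4) (nat_lit 113) (nat_lit 5) (nat_lit 113) (nat_lit 4) (nat_lit 461) (nat_lit 371) (nat_lit 368)) (XT.lf (nat_lit 0) (nat_lit 427489817) (nat_lit 152) (nat_lit 1069765530) (nat_lit 228) (nat_lit 9303821826) (nat_lit 107) (nat_lit 5) (nat_lit 109) (nat_lit 5) (nat_lit 110) (nat_lit 4) (nat_lit 462) (nat_lit 371) (nat_lit 367))))) (XT.nd (nat_lit 312) (nat_lit 684) (nat_lit 0) (XT.nd (nat_lit 156) (nat_lit 380) (nat_lit 0) (XT.nd (nat_lit 78) (nat_lit 304) (nat_lit 0) (XT.lf (nat_lit 0) (nat_lit 6416551207) (nat_lit 228) (nat_lit 1249085496) (nat_lit 0) (nat_lit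 3292203344) (nat_lit 107) (nat_lit 5) (nat_lit 110) (nat_lit 4) (nat_lit 107) (nat_lit 4) (nat_lit 463) (nat_lit 371) (nat_lit 366)) (XT.lf (nat_lit 0) (nat_lit 342318427) (nat_lit 304) (nat_lit 3000786311) (nat_lit 76) (nat_lit 7776547245) (nat_lit 103) (nat_lit 5) (nat_lit 107) (nat_lit 5) (nat_lit 104) (nat_lit 4) (nat_lit 464) (nat_lit 371) (nat_lit 365))) (XT.nd (nat_lit 78) (nat_lit 228) (nat_lit 0) (XT.lf (nat_lit 0) (nat_lit 5263800242) (nat_lit 228) (nat_lit 4884498140) (nat_lit 0) (nat_lit 1137201734) (nat_lit 101) (nat_lit 5) (nat_lit 104) (nat_lit 4) (nat_lit 101) (nat_lit 4) (nat_lit 465) (nat_lit 371) (nat_lit 364)) (XT.lf (nat_lit 0) (nat_lit 4571012014) (nat_lit 228) (nat_lit 5767309755) (nat_lit 228) (nat_lit 1117849766) (nat_lit 98) (nat_lit 4) (nat_lit 101) (nat_lit 5) (nat_lit 101) (nat_lit 4) (nat_lit 466) (nat_lit 371) (nat_lit 363)))) (XT.nd (nat_lit 156) (nat_lit 228) (nat_lit 0) (XT.nd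 (nat_lit 78) (nat_lit 228) (nat_lit 0) (XT.lf (nat_lit 0) (nat_lit 2616551383) (nat_lit 152) (nat_lit 1212829836) (nat_lit 228) (nat_lit 7802266354) (nat_lit 95) (nat_lit 5) (nat_lit 97) (nat_lit 5) (nat_lit 98) (nat_lit 4) (nat_lit 467) (nat_lit 371) (nat_lit 362)) (XT.lf (nat_lit 0) (nat_lit 522517980) (nat_lit 228) (nat_lit 8387352855) (nat_lit 228) (nat_lit 2901974616) (nat_lit 92) (nat_lit 4) (nat_lit 95) (nat_lit 5) (nat_lit 95) (nat_lit 4) (nat_lit 468) (nat_lit 371) (nat_lit 361))) (XT.nd (nat_lit 78) (nat_lit 152) (nat_lit 0) (XT.lf (nat_lit 0) (nat_lit 2106314982) (nat_lit 304) (nat_lit 1674114477) (nat_lit 76) (nat_lit 8216323943) (nat_lit 91) (nat_lit 5) (nat_lit 95) (nat_lit 5) (nat_lit 92) (nat_lit 4) (nat_lit 469) (nat_lit 371) (nat_lit 360)) (XT.lf (nat_lit 0) (nat_lit 7196724283) (nat_lit 228) (nat_lit 4007723345) (nat_lit 0) (nat_lit 982201178) (nat_lit 89) (nat_lit 5) (nat_lit 92) (nat_lit 4)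 (nat_lit 89) (nat_lit 4) (nat_lit 470) (nat_lit 371) (nat_lit 359))))))))
noncomputable def xc38 : XT := (XT.nd (nat_lit 2340) (nat_lit 1672) (nat_lit 0) (XT.nd (nat_lit 1170) (nat_lit 1368) (nat_lit 0) (XT.nd (nat_lit 546) (nat_lit 988) (nat_lit 0) (XT.nd (nat_lit 234) (nat_lit 608) (nat_lit 0) (XT.nd (nat_lit 78) (nat_lit 304) (nat_lit 0) (XT.lf (nat_lit 0) (nat_lit 70052370) (nat_lit 228) (nat_lit 6497451023) (nat_lit 76) (nat_lit 5814321573) (nat_lit 86) (nat_lit 5) (nat_lit 89) (nat_lit 5) (nat_lit 87) (nat_lit 4) (nat_lit 471) (nat_lit 371) (nat_lit 358)) (XT.nd (nat_lit 78) (nat_lit 152) (nat_lit 0) (XT.lf (nat_lit 0) (nat_lit 3418082253) (nat_lit 152) (nat_lit 1739795219) (nat_lit 228) (nat_lit 7424213972) (nat_lit 84) (nat_lit 5) (nat_lit 86) (nat_lit 5) (nat_lit 87) (nat_lit 4) (nat_lit 472) (nat_lit 371) (nat_lit 357)) (XT.lf (nat_lit 0) (nat_lit 788496367) (nat_lit 152) (nat_lit 9617846840) (nat_lit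 152) (nat_lit 2381789749) (nat_lit 82) (nat_lit 4) (nat_lit 84) (nat_lit 5) (nat_lit 84) (nat_lit 4) (nat_lit 473) (nat_lit 371) (nat_lit 356)))) (XT.nd (nat_lit 156) (nat_lit 380) (nat_lit 0) (XT.nd (nat_lit 78) (nat_lit 152) (nat_lit 0) (XT.lf (nat_lit 0) (nat_lit 2771028145) (nat_lit 228) (nat_lit 1988596213) (nat_lit 76) (nat_lit 8239507524) (nat_lit 81) (nat_lit 5) (nat_lit 84) (nat_lit 5) (nat_lit 82) (nat_lit 4) (nat_lit 474) (nat_lit 371) (nat_lit 355)) (XT.lf (nat_lit 0) (nat_lit 8019058218) (nat_lit 228) (nat_lit 4926054399) (nat_lit 0) (nat_lit 270992323) (nat_lit 79) (nat_lit 5) (nat_lit 82) (nat_lit 4) (nat_lit 79) (nat_lit 4) (nat_lit 475) (nat_lit 371) (nat_lit 354))) (XT.nd (nat_lit 78) (nat_lit 152) (nat_lit 0) (XT.lf (nat_lit 0) (nat_lit 11034129) (nat_lit 228) (nat_lit 8071339646) (nat_lit 76) (nat_lit 5356450032) (nat_lit 76) (nat_lit 5) (nat_lit 79) (nat_lit 5) (nat_lit 77) (nat_lit 4) (nat_lit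 476) (nat_lit 371) (nat_lit 353)) (XT.lf (nat_lit 0) (nat_lit 2226712595) (nat_lit 152) (nat_lit 3022576278) (nat_lit 228) (nat_lit 8418046126) (nat_lit 74) (nat_lit 5) (nat_lit 76) (nat_lit 5) (nat_lit 77) (nat_lit 4) (nat_lit 477) (nat_lit 371) (nat_lit 352))))) (XT.nd (nat_lit 312) (nat_lit 456) (nat_lit 0) (XT.nd (nat_lit 156) (nat_lit 304) (nat_lit 0) (XT.nd (nat_lit 78) (nat_lit 228) (nat_lit 0) (XT.lf (nat_lit 0) (nat_lit 10655178738) (nat_lit 228) (nat_lit 1092204035) (nat_lit 0) (nat_lit 2155009995) (nat_lit 74) (nat_lit 5) (nat_lit 77) (nat_lit 4) (nat_lit 74) (nat_lit 4) (nat_lit 478) (nat_lit 371) (nat_lit 351)) (XT.lf (nat_lit 0) (nat_lit 2070138426) (nat_lit 228) (nat_lit 4604913751) (nat_lit 76) (nat_lit 7467897385) (nat_lit 71) (nat_lit 5) (nat_lit 74) (nat_lit 5) (nat_lit 72) (nat_lit 4) (nat_lit 479) (nat_lit 371) (nat_lit 350))) (XT.nd (nat_lit 78) (nat_lit 152) (nat_lit 0) (XT.lf (nat_lit 0)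 (nat_lit 6040272616) (nat_lit 152) (nat_lit 1420686974) (nat_lit 228) (nat_lit 6929427903) (nat_lit 69) (nat_lit 5) (nat_lit 71) (nat_lit 5) (nat_lit 72) (nat_lit 4) (nat_lit 480) (nat_lit 371) (nat_lit 349)) (XT.lf (nat_lit 0) (nat_lit 2296478458) (nat_lit 152) (nat_lit 10734786832) (nat_lit 152) (nat_lit 1613455689) (nat_lit 67) (nat_lit 4) (nat_lit 69) (nat_lit 5) (nat_lit 69) (nat_lit 4) (nat_lit 481) (nat_lit 371) (nat_lit 348)))) (XT.nd (nat_lit 156) (nat_lit 304) (nat_lit 0) (XT.nd (nat_lit 78) (nat_lit 76) (nat_lit 0) (XT.lf (nat_lit 0) (nat_lit 3796371452) (nat_lit 228) (nat_lit 1687574581) (nat_lit 76) (nat_lit 9421337518) (nat_lit 66) (nat_lit 5) (nat_lit 69) (nat_lit 5) (nat_lit 67) (nat_lit 4) (nat_lit 482) (nat_lit 371) (nat_lit 347)) (XT.lf (nat_lit 0) (nat_lit 9298152284) (nat_lit 76) (nat_lit 40414469) (nat_lit 152) (nat_lit 5834546706) (nat_lit 65) (nat_lit 5) (nat_lit 66) (nat_lit 5) (nat_lit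 67) (nat_lit 4) (nat_lit 483) (nat_lit 371) (nat_lit 346))) (XT.nd (nat_lit 78) (nat_lit 152) (nat_lit 0) (XT.lf (nat_lit 0) (nat_lit 5084582435) (nat_lit 152) (nat_lit 9995467728) (nat_lit 152) (nat_lit 367942069) (nat_lit 63) (nat_lit 4) (nat_lit 65) (nat_lit 5) (nat_lit 65) (nat_lit 4) (nat_lit 484) (nat_lit 371) (nat_lit 345)) (XT.lf (nat_lit 0) (nat_lit 562723379) (nat_lit 76) (nat_lit 4576536300) (nat_lit 152) (nat_lit 10590965642) (nat_lit 61) (nat_lit 5) (nat_lit 62) (nat_lit 5) (nat_lit 63) (nat_lit 4) (nat_lit 485) (nat_lit 371) (nat_lit 344)))))) (XT.nd (nat_lit 546) (nat_lit 760) (nat_lit 0) (XT.nd (nat_lit 234) (nat_lit 304) (nat_lit 0) (XT.nd (nat_lit 78) (nat_lit 304) (nat_lit 0) (XT.lf (nat_lit 0) (nat_lit 10833478599) (nat_lit 152) (nat_lit 4164016666) (nat_lit 0) (nat_lit 1022449195) (nat_lit 61) (nat_lit 5) (nat_lit 63) (nat_lit 4) (nat_lit 61) (nat_lit 4) (nat_lit 486) (nat_lit 371) (nat_lit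 343)) (XT.nd (nat_lit 78) (nat_lit 76) (nat_lit 0) (XT.lf (nat_lit 0) (nat_lit 403028079) (nat_lit 228) (nat_lit 9214756771) (nat_lit 76) (nat_lit 6699556359) (nat_lit 58) (nat_lit 5) (nat_lit 61) (nat_lit 5) (nat_lit 59) (nat_lit 4) (nat_lit 487) (nat_lit 371) (nat_lit 342)) (XT.lf (nat_lit 0) (nat_lit 2001005872) (nat_lit 76) (nat_lit 4033142723) (nat_lit 152) (nat_lit 10588629070) (nat_lit 57) (nat_lit 5) (nat_lit 58) (nat_lit 5) (nat_lit 59) (nat_lit 4) (nat_lit 488) (nat_lit 371) (nat_lit 341)))) (XT.nd (nat_lit 156) (nat_lit 76) (nat_lit 0) (XT.nd (nat_lit 78) (nat_lit 228) (nat_lit 0) (XT.lf (nat_lit 0) (nat_lit 11861432958) (nat_lit 152) (nat_lit 3366565781) (nat_lit 0) (nat_lit 1708565337) (nat_lit 57) (nat_lit 5) (nat_lit 59) (nat_lit 4) (nat_lit 57) (nat_lit 4) (nat_lit 489) (nat_lit 371) (nat_lit 340)) (XT.lf (nat_lit 0) (nat_lit 630219342) (nat_lit 228) (nat_lit 9070654857) (nat_lit 76) (nat_lit 7557572436)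 (nat_lit 54) (nat_lit 5) (nat_lit 57) (nat_lit 5) (nat_lit 55) (nat_lit 4) (nat_lit 490) (nat_lit 371) (nat_lit 339))) (XT.nd (nat_lit 78) (nat_lit 0) (nat_lit 0) (XT.lf (nat_lit 0) (nat_lit 2413103568) (nat_lit 76) (nat_lit 3968420800) (nat_lit 152) (nat_lit 11207653308) (nat_lit 53) (nat_lit 5) (nat_lit 54) (nat_lit 5) (nat_lit 55) (nat_lit 4) (nat_lit 491) (nat_lit 371) (nat_lit 338)) (XT.lf (nat_lit 0) (nat_lit 12335972790) (nat_lit 152) (nat_lit 3671734550) (nat_lit 0) (nat_lit 1921208528) (nat_lit 53) (nat_lit 5) (nat_lit 55) (nat_lit 4) (nat_lit 53) (nat_lit 4) (nat_lit 492) (nat_lit 371) (nat_lit 337))))) (XT.nd (nat_lit 312) (nat_lit 304) (nat_lit 0) (XT.nd (nat_lit 156) (nat_lit 152) (nat_lit 0) (XT.nd (nat_lit 78) (nat_lit 76) (nat_lit 0) (XT.lf (nat_lit 0) (nat_lit 226349617) (nat_lit 228) (nat_lit 10130424212) (nat_lit 76) (nat_lit 7920825094) (nat_lit 50) (nat_lit 5) (nat_lit 53) (nat_lit 5) (nat_lit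 51) (nat_lit 4) (nat_lit 493) (nat_lit 371) (nat_lit 336)) (XT.lf (nat_lit 0) (nat_lit 1587406857) (nat_lit 76) (nat_lit 4495040936) (nat_lit 152) (nat_lit 12553397290) (nat_lit 49) (nat_lit 5) (nat_lit 50) (nat_lit 5) (nat_lit 51) (nat_lit 4) (nat_lit 494) (nat_lit 371) (nat_lit 335))) (XT.nd (nat_lit 78) (nat_lit 152) (nat_lit 0) (XT.lf (nat_lit 0) (nat_lit 12154499022) (nat_lit 152) (nat_lit 5301487424) (nat_lit 0) (nat_lit 1547647051) (nat_lit 49) (nat_lit 5) (nat_lit 51) (nat_lit 4) (nat_lit 49) (nat_lit 4) (nat_lit 495) (nat_lit 371) (nat_lit 334)) (XT.lf (nat_lit 0) (nat_lit 6740912218) (nat_lit 152) (nat_lit 11701502664) (nat_lit 152) (nat_lit 939032476) (nat_lit 47) (nat_lit 4) (nat_lit 49) (nat_lit 5) (nat_lit 49) (nat_lit 4) (nat_lit 496) (nat_lit 371) (nat_lit 333)))) (XT.nd (nat_lit 156) (nat_lit 152) (nat_lit 0) (XT.nd (nat_lit 78) (nat_lit 76) (nat_lit 0) (XT.lf (nat_lit 0) (nat_lit 5026462254) (nat_lit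 228) (nat_lit 709837457) (nat_lit 76) (nat_lit 14033457374) (nat_lit 46) (nat_lit 5) (nat_lit 49) (nat_lit 5) (nat_lit 47) (nat_lit 4) (nat_lit 497) (nat_lit 371) (nat_lit 332)) (XT.lf (nat_lit 0) (nat_lit 11195272804) (nat_lit 152) (nat_lit 8515695472) (nat_lit 0) (nat_lit 457174813) (nat_lit 45) (nat_lit 5) (nat_lit 47) (nat_lit 4) (nat_lit 45) (nat_lit 4) (nat_lit 498) (nat_lit 371) (nat_lit 331))) (XT.nd (nat_lit 78) (nat_lit 76) (nat_lit 0) (XT.lf (nat_lit 0) (nat_lit 3697101604) (nat_lit 76) (nat_lit 13878475752) (nat_lit 76) (nat_lit 3002112991) (nat_lit 44) (nat_lit 4) (nat_lit 45) (nat_lit 5) (nat_lit 45) (nat_lit 4) (nat_lit 499) (nat_lit 371) (nat_lit 330)) (XT.lf (nat_lit 0) (nat_lit 3100121357) (nat_lit 152) (nat_lit 4717354046) (nat_lit 76) (nat_lit 13180729930) (nat_lit 43) (nat_lit 5) (nat_lit 45) (nat_lit 5) (nat_lit 44) (nat_lit 4) (nat_lit 500) (nat_lit 371) (nat_lit 329))))))) (XT.nd (nat_lit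 1170) (nat_lit 760) (nat_lit 0) (XT.nd (nat_lit 546) (nat_lit 456) (nat_lit 0) (XT.nd (nat_lit 234) (nat_lit 228) (nat_lit 0) (XT.nd (nat_lit 78) (nat_lit 152) (nat_lit 0) (XT.lf (nat_lit 0) (nat_lit 7797139896) (nat_lit 76) (nat_lit 1531957692) (nat_lit 152) (nat_lit 12101228381) (nat_lit 42) (nat_lit 5) (nat_lit 43) (nat_lit 5) (nat_lit 44) (nat_lit 4) (nat_lit 501) (nat_lit 371) (nat_lit 328)) (XT.nd (nat_lit 78) (nat_lit 152) (nat_lit 0) (XT.lf (nat_lit 0) (nat_lit 15769771351) (nat_lit 152) (nat_lit 1274406565) (nat_lit 0) (nat_lit 4830489739) (nat_lit 42) (nat_lit 5) (nat_lit 44) (nat_lit 4) (nat_lit 42) (nat_lit 4) (nat_lit 502) (nat_lit 371) (nat_lit 327)) (XT.lf (nat_lit 0) (nat_lit 127802565) (nat_lit 152) (nat_lit 10799110809) (nat_lit 76) (nat_lit 11403671737) (nat_lit 40) (nat_lit 5) (nat_lit 42) (nat_lit 5) (nat_lit 41) (nat_lit 4) (nat_lit 503) (nat_lit 371) (nat_lit 326)))) (XT.nd (nat_lit 156)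 (nat_lit 152) (nat_lit 0) (XT.nd (nat_lit 78) (nat_lit 0) (nat_lit 0) (XT.lf (nat_lit 0) (nat_lit 1789895759) (nat_lit 76) (nat_lit 4596429533) (nat_lit 152) (nat_lit 16413197190) (nat_lit 39) (nat_lit 5) (nat_lit 40) (nat_lit 5) (nat_lit 41) (nat_lit 4) (nat_lit 504) (nat_lit 371) (nat_lit 325)) (XT.lf (nat_lit 0) (nat_lit 12892704480) (nat_lit 152) (nat_lit 8453343741) (nat_lit 0) (nat_lit 1934678755) (nat_lit 39) (nat_lit 5) (nat_lit 41) (nat_lit 4) (nat_lit 39) (nat_lit 4) (nat_lit 505) (nat_lit 371) (nat_lit 324))) (XT.nd (nat_lit 78) (nat_lit 76) (nat_lit 0) (XT.lf (nat_lit 0) (nat_lit 4391207873) (nat_lit 76) (nat_lit 15224260035) (nat_lit 76) (nat_lit 4160265877) (nat_lit 38) (nat_lit 4) (nat_lit 39) (nat_lit 5) (nat_lit 39) (nat_lit 4) (nat_lit 506) (nat_lit 371) (nat_lit 323)) (XT.lf (nat_lit 0) (nat_lit 2230073668) (nat_lit 152) (nat_lit 6639826585) (nat_lit 76) (nat_lit 15414450093) (nat_lit 37) (nat_lit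 5) (nat_lit 39) (nat_lit 5) (nat_lit 38) (nat_lit 4) (nat_lit 507) (nat_lit 371) (nat_lit 322))))) (XT.nd (nat_lit 312) (nat_lit 228) (nat_lit 0) (XT.nd (nat_lit 156) (nat_lit 152) (nat_lit 0) (XT.nd (nat_lit 78) (nat_lit 0) (nat_lit 0) (XT.lf (nat_lit 0) (nat_lit 6446910025) (nat_lit 76) (nat_lit 2279036560) (nat_lit 152) (nat_lit 16081121683) (nat_lit 36) (nat_lit 5) (nat_lit 37) (nat_lit 5) (nat_lit 38) (nat_lit 4) (nat_lit 508) (nat_lit 371) (nat_lit 321)) (XT.lf (nat_lit 0) (nat_lit 15463341368) (nat_lit 152) (nat_lit 5450142390) (nat_lit 0) (nat_lit 4430586346) (nat_lit 36) (nat_lit 5) (nat_lit 38) (nat_lit 4) (nat_lit 36) (nat_lit 4) (nat_lit 509) (nat_lit 371) (nat_lit 320))) (XT.nd (nat_lit 78) (nat_lit 76) (nat_lit 0) (XT.lf (nat_lit 0) (nat_lit 7856527723) (nat_lit 76) (nat_lit 14581876945) (nat_lit 76) (nat_lit 3457712622) (nat_lit 35) (nat_lit 4) (nat_lit 36) (nat_lit 5) (nat_lit 36) (nat_lit 4) (nat_lit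 510) (nat_lit 371) (nat_lit 319)) (XT.lf (nat_lit 0) (nat_lit 3089462885) (nat_lit 152) (nat_lit 4941301559) (nat_lit 76) (nat_lit 18433259565) (nat_lit 34) (nat_lit 5) (nat_lit 36) (nat_lit 5) (nat_lit 35) (nat_lit 4) (nat_lit 511) (nat_lit 371) (nat_lit 318)))) (XT.nd (nat_lit 156) (nat_lit 152) (nat_lit 0) (XT.nd (nat_lit 78) (nat_lit 0) (nat_lit 0) (XT.lf (nat_lit 0) (nat_lit 8564924311) (nat_lit 76) (nat_lit 1220296162) (nat_lit 152) (nat_lit 17262072064) (nat_lit 33) (nat_lit 5) (nat_lit 34) (nat_lit 5) (nat_lit 35) (nat_lit 4) (nat_lit 512) (nat_lit 371) (nat_lit 317)) (XT.lf (nat_lit 0) (nat_lit 16727373961) (nat_lit 152) (nat_lit 5243137020) (nat_lit 0) (nat_lit 5676183950) (nat_lit 33) (nat_lit 5) (nat_lit 35) (nat_lit 4) (nat_lit 33) (nat_lit 4) (nat_lit 513) (nat_lit 371) (nat_lit 316))) (XT.nd (nat_lit 78) (nat_lit 76) (nat_lit 0) (XT.lf (nat_lit 0) (nat_lit 8431138592) (nat_lit 76) (nat_lit 15480976527)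 (nat_lit 76) (nat_lit 4350936050) (nat_lit 32) (nat_lit 4) (nat_lit 33) (nat_lit 5) (nat_lit 33) (nat_lit 4) (nat_lit 514) (nat_lit 371) (nat_lit 315)) (XT.lf (nat_lit 0) (nat_lit 2362094851) (nat_lit 152) (nat_lit 6411541780) (nat_lit 76) (nat_lit 20123725250) (nat_lit 31) (nat_lit 5) (nat_lit 33) (nat_lit 5) (nat_lit 32) (nat_lit 4) (nat_lit 515) (nat_lit 371) (nat_lit 314)))))) (XT.nd (nat_lit 624) (nat_lit 380) (nat_lit 0) (XT.nd (nat_lit 312) (nat_lit 228) (nat_lit 0) (XT.nd (nat_lit 156) (nat_lit 76) (nat_lit 0) (XT.nd (nat_lit 78) (nat_lit 0) (nat_lit 0) (XT.lf (nat_lit 0) (nat_lit 7401510310) (nat_lit 76) (nat_lit 1801656569) (nat_lit 152) (nat_lit 20345821025) (nat_lit 30) (nat_lit 5) (nat_lit 31) (nat_lit 5) (nat_lit 32) (nat_lit 4) (nat_lit 516) (nat_lit 371) (nat_lit 313)) (XT.lf (nat_lit 0) (nat_lit 16309604594) (nat_lit 152) (nat_lit 8621556447) (nat_lit 0) (nat_lit 5287198961) (nat_lit 30) (nat_lit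 5) (nat_lit 32) (nat_lit 4) (nat_lit 30) (nat_lit 4) (nat_lit 517) (nat_lit 371) (nat_lit 312))) (XT.nd (nat_lit 78) (nat_lit 0) (nat_lit 0) (XT.lf (nat_lit 0) (nat_lit 5287354793) (nat_lit 76) (nat_lit 18355240832) (nat_lit 76) (nat_lit 7264818094) (nat_lit 29) (nat_lit 4) (nat_lit 30) (nat_lit 5) (nat_lit 30) (nat_lit 4) (nat_lit 518) (nat_lit 371) (nat_lit 311)) (XT.lf (nat_lit 0) (nat_lit 19683202179) (nat_lit 76) (nat_lit 11544713341) (nat_lit 76) (nat_lit 388254578) (nat_lit 29) (nat_lit 4) (nat_lit 30) (nat_lit 5) (nat_lit 30) (nat_lit 4) (nat_lit 519) (nat_lit 371) (nat_lit 310)))) (XT.nd (nat_lit 156) (nat_lit 76) (nat_lit 0) (XT.nd (nat_lit 78) (nat_lit 0) (nat_lit 0) (XT.lf (nat_lit 0) (nat_lit 2035079651) (nat_lit 76) (nat_lit 4494797717) (nat_lit 152) (nat_lit 25815405154) (nat_lit 27) (nat_lit 5) (nat_lit 28) (nat_lit 5) (nat_lit 29) (nat_lit 4) (nat_lit 520) (nat_lit 371) (nat_lit 309)) (XT.lf (nat_lit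 0) (nat_lit 13742455724) (nat_lit 152) (nat_lit 16562592453) (nat_lit 0) (nat_lit 2788264759) (nat_lit 27) (nat_lit 5) (nat_lit 29) (nat_lit 4) (nat_lit 27) (nat_lit 4) (nat_lit 521) (nat_lit 371) (nat_lit 308))) (XT.nd (nat_lit 78) (nat_lit 76) (nat_lit 0) (XT.lf (nat_lit 0) (nat_lit 21163893931) (nat_lit 152) (nat_lit 2549086132) (nat_lit 0) (nat_lit 10151030814) (nat_lit 27) (nat_lit 5) (nat_lit 29) (nat_lit 4) (nat_lit 27) (nat_lit 4) (nat_lit 522) (nat_lit 371) (nat_lit 307)) (XT.lf (nat_lit 0) (nat_lit 12020327533) (nat_lit 76) (nat_lit 16852689204) (nat_lit 76) (nat_lit 5782862832) (nat_lit 26) (nat_lit 4) (nat_lit 27) (nat_lit 5) (nat_lit 27) (nat_lit 4) (nat_lit 523) (nat_lit 371) (nat_lit 306))))) (XT.nd (nat_lit 312) (nat_lit 228) (nat_lit 0) (XT.nd (nat_lit 156) (nat_lit 0) (nat_lit 0) (XT.nd (nat_lit 78) (nat_lit 76) (nat_lit 0) (XT.lf (nat_lit 0) (nat_lit 1291246103) (nat_lit 152) (nat_lit 8503900913)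 (nat_lit 76) (nat_lit 25676705644) (nat_lit 25) (nat_lit 5) (nat_lit 27) (nat_lit 5) (nat_lit 26) (nat_lit 4) (nat_lit 524) (nat_lit 371) (nat_lit 305)) (XT.lf (nat_lit 0) (nat_lit 6015624267) (nat_lit 76) (nat_lit 2454547210) (nat_lit 152) (nat_lit 27840152060) (nat_lit 24) (nat_lit 5) (nat_lit 25) (nat_lit 5) (nat_lit 26) (nat_lit 4) (nat_lit 525) (nat_lit 371) (nat_lit 304))) (XT.nd (nat_lit 78) (nat_lit 0) (nat_lit 0) (XT.lf (nat_lit 0) (nat_lit 15951331239) (nat_lit 152) (nat_lit 16172519142) (nat_lit 0) (nat_lit 5047493102) (nat_lit 24) (nat_lit 5) (nat_lit 26) (nat_lit 4) (nat_lit 24) (nat_lit 4) (nat_lit 526) (nat_lit 371) (nat_lit 303)) (XT.lf (nat_lit 0) (nat_lit 23633712782) (nat_lit 152) (nat_lit 1744440904) (nat_lit 0) (nat_lit 12680737641) (nat_lit 24) (nat_lit 5) (nat_lit 26) (nat_lit 4) (nat_lit 24) (nat_lit 4) (nat_lit 527) (nat_lit 371) (nat_lit 302)))) (XT.nd (nat_lit 156) (nat_lit 152) (nat_lit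 0) (XT.nd (nat_lit 78) (nat_lit 0) (nat_lit 0) (XT.lf (nat_lit 0) (nat_lit 13284974819) (nat_lit 76) (nat_lit 18343162745) (nat_lit 76) (nat_lit 7342481775) (nat_lit 23) (nat_lit 4) (nat_lit 24) (nat_lit 5) (nat_lit 24) (nat_lit 4) (nat_lit 528) (nat_lit 371) (nat_lit 301)) (XT.lf (nat_lit 0) (nat_lit 28711179404) (nat_lit 76) (nat_lit 11123179519) (nat_lit 76) (nat_lit 76182211) (nat_lit 23) (nat_lit 4) (nat_lit 24) (nat_lit 5) (nat_lit 24) (nat_lit 4) (nat_lit 529) (nat_lit 371) (nat_lit 300))) (XT.nd (nat_lit 78) (nat_lit 0) (nat_lit 0) (XT.lf (nat_lit 0) (nat_lit 3633064960) (nat_lit 76) (nat_lit 3620644196) (nat_lit 152) (nat_lit 33623111051) (nat_lit 21) (nat_lit 5) (nat_lit 22) (nat_lit 5) (nat_lit 23) (nat_lit 4) (nat_lit 530) (nat_lit 371) (nat_lit 299)) (XT.lf (nat_lit 0) (nat_lit 14910946365) (nat_lit 152) (nat_lit 22858187378) (nat_lit 0) (nat_lit 4099662657) (nat_lit 21) (nat_lit 5) (nat_lit 23) (nat_lit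 4) (nat_lit 21) (nat_lit 4) (nat_lit 531) (nat_lit 371) (nat_lit 298))))))))
noncomputable def xc39 : XT := (XT.nd (nat_lit 57174) (nat_lit 0) (nat_lit 2888) (XT.nd (nat_lit 1170) (nat_lit 152) (nat_lit 0) (XT.nd (nat_lit 546) (nat_lit 304) (nat_lit 0) (XT.nd (nat_lit 234) (nat_lit 152) (nat_lit 0) (XT.nd (nat_lit 78) (nat_lit 76) (nat_lit 0) (XT.lf (nat_lit 0) (nat_lit 22790341170) (nat_lit 152) (nat_lit 8162512263) (nat_lit 0) (nat_lit 11937905995) (nat_lit 21) (nat_lit 5) (nat_lit 23) (nat_lit 4) (nat_lit 21) (nat_lit 4) (nat_lit 532) (nat_lit 371) (nat_lit 297)) (XT.nd (nat_lit 78) (nat_lit 0) (nat_lit 0) (XT.lf (nat_lit 0) (nat_lit 7028057541) (nat_lit 76) (nat_lit 23903475080) (nat_lit 76) (nat_lit 13011087024) (nat_lit 20) (nat_lit 4) (nat_lit 21) (nat_lit 5) (nat_lit 21) (nat_lit 4) (nat_lit 533) (nat_lit 371) (nat_lit 296)) (XT.lf (nat_lit 0) (nat_lit 22759364544) (nat_lit 76) (nat_lit 16598313774) (nat_lit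 76) (nat_lit 5667136514) (nat_lit 20) (nat_lit 4) (nat_lit 21) (nat_lit 5) (nat_lit 21) (nat_lit 4) (nat_lit 534) (nat_lit 371) (nat_lit 295)))) (XT.nd (nat_lit 156) (nat_lit 0) (nat_lit 0) (XT.nd (nat_lit 78) (nat_lit 76) (nat_lit 0) (XT.lf (nat_lit 0) (nat_lit 1819218923) (nat_lit 152) (nat_lit 7275822267) (nat_lit 76) (nat_lit 37045115082) (nat_lit 19) (nat_lit 5) (nat_lit 21) (nat_lit 5) (nat_lit 20) (nat_lit 4) (nat_lit 535) (nat_lit 371) (nat_lit 294)) (XT.lf (nat_lit 0) (nat_lit 8188807805) (nat_lit 76) (nat_lit 1266466595) (nat_lit 152) (nat_lit 37830830509) (nat_lit 18) (nat_lit 5) (nat_lit 19) (nat_lit 5) (nat_lit 20) (nat_lit 4) (nat_lit 536) (nat_lit 371) (nat_lit 293))) (XT.nd (nat_lit 78) (nat_lit 0) (nat_lit 0) (XT.lf (nat_lit 0) (nat_lit 17420286673) (nat_lit 152) (nat_lit 24342180370) (nat_lit 0) (nat_lit 6700969348) (nat_lit 18) (nat_lit 5) (nat_lit 20) (nat_lit 4) (nat_lit 18) (nat_lit 4) (nat_lit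 537) (nat_lit 371) (nat_lit 292)) (XT.lf (nat_lit 0) (nat_lit 25598283309) (nat_lit 152) (nat_lit 9233078034) (nat_lit 0) (nat_lit 14845506075) (nat_lit 18) (nat_lit 5) (nat_lit 20) (nat_lit 4) (nat_lit 18) (nat_lit 4) (nat_lit 538) (nat_lit 371) (nat_lit 291))))) (XT.nd (nat_lit 312) (nat_lit 76) (nat_lit 0) (XT.nd (nat_lit 156) (nat_lit 152) (nat_lit 0) (XT.nd (nat_lit 78) (nat_lit 0) (nat_lit 0) (XT.lf (nat_lit 0) (nat_lit 6379880531) (nat_lit 76) (nat_lit 27665682861) (nat_lit 76) (nat_lit 16880420279) (nat_lit 17) (nat_lit 4) (nat_lit 18) (nat_lit 5) (nat_lit 18) (nat_lit 4) (nat_lit 539) (nat_lit 371) (nat_lit 290)) (XT.lf (nat_lit 0) (nat_lit 22577310235) (nat_lit 76) (nat_lit 20225189196) (nat_lit 76) (nat_lit 9408387440) (nat_lit 17) (nat_lit 4) (nat_lit 18) (nat_lit 5) (nat_lit 18) (nat_lit 4) (nat_lit 540) (nat_lit 371) (nat_lit 289))) (XT.nd (nat_lit 78) (nat_lit 152) (nat_lit 0) (XT.lf (nat_lit 0)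 (nat_lit 39189607814) (nat_lit 76) (nat_lit 12596614929) (nat_lit 76) (nat_lit 1749192617) (nat_lit 17) (nat_lit 4) (nat_lit 18) (nat_lit 5) (nat_lit 18) (nat_lit 4) (nat_lit 541) (nat_lit 371) (nat_lit 288)) (XT.lf (nat_lit 0) (nat_lit 1297201441) (nat_lit 76) (nat_lit 4700016513) (nat_lit 152) (nat_lit 48901374232) (nat_lit 15) (nat_lit 5) (nat_lit 16) (nat_lit 5) (nat_lit 17) (nat_lit 4) (nat_lit 542) (nat_lit 371) (nat_lit 287)))) (XT.nd (nat_lit 156) (nat_lit 76) (nat_lit 0) (XT.nd (nat_lit 78) (nat_lit 0) (nat_lit 0) (XT.lf (nat_lit 0) (nat_lit 14084981238) (nat_lit 152) (nat_lit 38716222205) (nat_lit 0) (nat_lit 3496618308) (nat_lit 15) (nat_lit 5) (nat_lit 17) (nat_lit 4) (nat_lit 15) (nat_lit 4) (nat_lit 543) (nat_lit 371) (nat_lit 286)) (XT.lf (nat_lit 0) (nat_lit 22427750971) (nat_lit 152) (nat_lit 23498724459) (nat_lit 0) (nat_lit 11812182073) (nat_lit 15) (nat_lit 5) (nat_lit 17) (nat_lit 4) (nat_lit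 15) (nat_lit 4) (nat_lit 544) (nat_lit 371) (nat_lit 285))) (XT.nd (nat_lit 78) (nat_lit 76) (nat_lit 0) (XT.lf (nat_lit 0) (nat_lit 30987637517) (nat_lit 152) (nat_lit 7890421229) (nat_lit 0) (nat_lit 20345655058) (nat_lit 15) (nat_lit 5) (nat_lit 17) (nat_lit 4) (nat_lit 15) (nat_lit 4) (nat_lit 545) (nat_lit 371) (nat_lit 284)) (XT.lf (nat_lit 0) (nat_lit 8283976016) (nat_lit 76) (nat_lit 31567775018) (nat_lit 76) (nat_lit 20900148325) (nat_lit 14) (nat_lit 4) (nat_lit 15) (nat_lit 5) (nat_lit 15) (nat_lit 4) (nat_lit 546) (nat_lit 371) (nat_lit 283)))))) (XT.nd (nat_lit 55380) (nat_lit 0) (nat_lit 7220) (XT.nd (nat_lit 234) (nat_lit 76) (nat_lit 0) (XT.nd (nat_lit 78) (nat_lit 76) (nat_lit 0) (XT.lf (nat_lit 0) (nat_lit 25042171331) (nat_lit 76) (nat_lit 23987424689) (nat_lit 76) (nat_lit 13294900682) (nat_lit 14) (nat_lit 4) (nat_lit 15) (nat_lit 5) (nat_lit 15) (nat_lit 4) (nat_lit 547) (nat_lit 371) (nat_lit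 282)) (XT.nd (nat_lit 78) (nat_lit 76) (nat_lit 0) (XT.lf (nat_lit 0) (nat_lit 42241772943) (nat_lit 76) (nat_lit 16210061935) (nat_lit 76) (nat_lit 5493365778) (nat_lit 14) (nat_lit 4) (nat_lit 15) (nat_lit 5) (nat_lit 15) (nat_lit 4) (nat_lit 548) (nat_lit 371) (nat_lit 281)) (XT.lf (nat_lit 0) (nat_lit 2462269274) (nat_lit 152) (nat_lit 5741757636) (nat_lit 76) (nat_lit 57410676266) (nat_lit 13) (nat_lit 5) (nat_lit 15) (nat_lit 5) (nat_lit 14) (nat_lit 4) (nat_lit 549) (nat_lit 371) (nat_lit 280)))) (XT.nd (nat_lit 156) (nat_lit 0) (nat_lit 0) (XT.nd (nat_lit 78) (nat_lit 0) (nat_lit 0) (XT.lf (nat_lit 0) (nat_lit 10622185008) (nat_lit 152) (nat_lit 56535473672) (nat_lit 0) (nat_lit 172720122) (nat_lit 12) (nat_lit 5) (nat_lit 14) (nat_lit 4) (nat_lit 12) (nat_lit 4) (nat_lit 550) (nat_lit 371) (nat_lit 279)) (XT.lf (nat_lit 0) (nat_lit 19137252561) (nat_lit 152) (nat_lit 41290650872) (nat_lit 0) (nat_lit 8666311033)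 (nat_lit 12) (nat_lit 5) (nat_lit 14) (nat_lit 4) (nat_lit 12) (nat_lit 4) (nat_lit 551) (nat_lit 371) (nat_lit 278))) (XT.nd (nat_lit 78) (nat_lit 0) (nat_lit 0) (XT.lf (nat_lit 0) (nat_lit 27879201072) (nat_lit 152) (nat_lit 25645213213) (nat_lit 0) (nat_lit 17387408435) (nat_lit 12) (nat_lit 5) (nat_lit 14) (nat_lit 4) (nat_lit 12) (nat_lit 4) (nat_lit 552) (nat_lit 371) (nat_lit 277)) (XT.lf (nat_lit 0) (nat_lit 36855669137) (nat_lit 152) (nat_lit 9585489922) (nat_lit 0) (nat_lit 26343632704) (nat_lit 12) (nat_lit 5) (nat_lit 14) (nat_lit 4) (nat_lit 12) (nat_lit 4) (nat_lit 553) (nat_lit 371) (nat_lit 276))))) (XT.nd (nat_lit 312) (nat_lit 760) (nat_lit 0) (XT.nd (nat_lit 156) (nat_lit 532) (nat_lit 0) (XT.nd (nat_lit 78) (nat_lit 304) (nat_lit 0) (XT.lf (nat_lit 0) (nat_lit 2171329325) (nat_lit 304) (nat_lit 628580619) (nat_lit 0) (nat_lit 2171329325) (nat_lit 128) (nat_lit 5) (nat_lit 132) (nat_lit 4) (nat_lit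 128) (nat_lit 4) (nat_lit 456) (nat_lit 372) (nat_lit 372)) (XT.lf (nat_lit 0) (nat_lit 7450779386) (nat_lit 304) (nat_lit 1685903335) (nat_lit 304) (nat_lit 940427887) (nat_lit 124) (nat_lit 4) (nat_lit 128) (nat_lit 5) (nat_lit 128) (nat_lit 4) (nat_lit 457) (nat_lit 372) (nat_lit 371))) (XT.nd (nat_lit 78) (nat_lit 228) (nat_lit 0) (XT.lf (nat_lit 0) (nat_lit 3772048153) (nat_lit 304) (nat_lit 4097372254) (nat_lit 0) (nat_lit 2345603475) (nat_lit 120) (nat_lit 5) (nat_lit 124) (nat_lit 4) (nat_lit 120) (nat_lit 4) (nat_lit 458) (nat_lit 372) (nat_lit 370)) (XT.lf (nat_lit 0) (nat_lit 4714789521) (nat_lit 228) (nat_lit 3875588615) (nat_lit 228) (nat_lit 1766928298) (nat_lit 117) (nat_lit 4) (nat_lit 120) (nat_lit 5) (nat_lit 120) (nat_lit 4) (nat_lit 459) (nat_lit 372) (nat_lit 369)))) (XT.nd (nat_lit 156) (nat_lit 228) (nat_lit 0) (XT.nd (nat_lit 78) (nat_lit 228) (nat_lit 0) (XT.lf (nat_lit 0) (nat_lit 2960379730)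 (nat_lit 304) (nat_lit 7273412726) (nat_lit 0) (nat_lit 270083034) (nat_lit 113) (nat_lit 5) (nat_lit 117) (nat_lit 4) (nat_lit 113) (nat_lit 4) (nat_lit 460) (nat_lit 372) (nat_lit 368)) (XT.lf (nat_lit 0) (nat_lit 1633973102) (nat_lit 228) (nat_lit 6167377599) (nat_lit 228) (nat_lit 2852756952) (nat_lit 110) (nat_lit 4) (nat_lit 113) (nat_lit 5) (nat_lit 113) (nat_lit 4) (nat_lit 461) (nat_lit 372) (nat_lit 367))) (XT.nd (nat_lit 78) (nat_lit 152) (nat_lit 0) (XT.lf (nat_lit 0) (nat_lit 1910356932) (nat_lit 304) (nat_lit 42735831) (nat_lit 76) (nat_lit 8856086379) (nat_lit 109) (nat_lit 5) (nat_lit 113) (nat_lit 5) (nat_lit 110) (nat_lit 4) (nat_lit 462) (nat_lit 372) (nat_lit 366)) (XT.lf (nat_lit 0) (nat_lit 6769895967) (nat_lit 228) (nat_lit 1805856364) (nat_lit 0) (nat_lit 2391987610) (nat_lit 107) (nat_lit 5) (nat_lit 110) (nat_lit 4) (nat_lit 107) (nat_lit 4) (nat_lit 463) (nat_lit 372) (nat_lit 365)))))))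 (XT.nd (nat_lit 1170) (nat_lit 1824) (nat_lit 0) (XT.nd (nat_lit 546) (nat_lit 1140) (nat_lit 0) (XT.nd (nat_lit 234) (nat_lit 684) (nat_lit 0) (XT.nd (nat_lit 78) (nat_lit 380) (nat_lit 0) (XT.lf (nat_lit 0) (nat_lit 622865992) (nat_lit 304) (nat_lit 3668194137) (nat_lit 76) (nat_lit 6840083491) (nat_lit 103) (nat_lit 5) (nat_lit 107) (nat_lit 5) (nat_lit 104) (nat_lit 4) (nat_lit 464) (nat_lit 372) (nat_lit 364)) (XT.nd (nat_lit 78) (nat_lit 228) (nat_lit 0) (XT.lf (nat_lit 0) (nat_lit 5478259880) (nat_lit 228) (nat_lit 5654264677) (nat_lit 0) (nat_lit 166454612) (nat_lit 101) (nat_lit 5) (nat_lit 104) (nat_lit 4) (nat_lit 101) (nat_lit 4) (nat_lit 465) (nat_lit 372) (nat_lit 363)) (XT.lf (nat_lit 0) (nat_lit 3700209128) (nat_lit 228) (nat_lit 6795301005) (nat_lit 228) (nat_lit 975863231) (nat_lit 98) (nat_lit 4) (nat_lit 101) (nat_lit 5) (nat_lit 101) (nat_lit 4) (nat_lit 466) (nat_lit 372) (nat_lit 362))))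 (XT.nd (nat_lit 156) (nat_lit 456) (nat_lit 0) (XT.nd (nat_lit 78) (nat_lit 0) (nat_lit 0) (XT.lf (nat_lit 0) (nat_lit 1625651119) (nat_lit 152) (nat_lit 2284662173) (nat_lit 228) (nat_lit 7738248049) (nat_lit 95) (nat_lit 5) (nat_lit 97) (nat_lit 5) (nat_lit 98) (nat_lit 4) (nat_lit 467) (nat_lit 372) (nat_lit 361)) (XT.lf (nat_lit 0) (nat_lit 8926998498) (nat_lit 228) (nat_lit 569668163) (nat_lit 0) (nat_lit 2334010936) (nat_lit 95) (nat_lit 5) (nat_lit 98) (nat_lit 4) (nat_lit 95) (nat_lit 4) (nat_lit 468) (nat_lit 372) (nat_lit 360))) (XT.nd (nat_lit 78) (nat_lit 152) (nat_lit 0) (XT.lf (nat_lit 0) (nat_lit 2050654826) (nat_lit 304) (nat_lit 2881183170) (nat_lit 76) (nat_lit 7085371712) (nat_lit 91) (nat_lit 5) (nat_lit 95) (nat_lit 5) (nat_lit 92) (nat_lit 4) (nat_lit 469) (nat_lit 372) (nat_lit 359)) (XT.lf (nat_lit 0) (nat_lit 6873964599) (nat_lit 152) (nat_lit 197890240) (nat_lit 228) (nat_lit 5137330436)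 (nat_lit 89) (nat_lit 5) (nat_lit 91) (nat_lit 5) (nat_lit 92) (nat_lit 4) (nat_lit 470) (nat_lit 372) (nat_lit 358))))) (XT.nd (nat_lit 312) (nat_lit 532) (nat_lit 0) (XT.nd (nat_lit 156) (nat_lit 228) (nat_lit 0) (XT.nd (nat_lit 78) (nat_lit 228) (nat_lit 0) (XT.lf (nat_lit 0) (nat_lit 4449059185) (nat_lit 152) (nat_lit 7816965762) (nat_lit 152) (nat_lit 140232794) (nat_lit 87) (nat_lit 4) (nat_lit 89) (nat_lit 5) (nat_lit 89) (nat_lit 4) (nat_lit 471) (nat_lit 372) (nat_lit 357)) (XT.lf (nat_lit 0) (nat_lit 1846487533) (nat_lit 152) (nat_lit 3042157928) (nat_lit 228) (nat_lit 7719773252) (nat_lit 84) (nat_lit 5) (nat_lit 86) (nat_lit 5) (nat_lit 87) (nat_lit 4) (nat_lit 472) (nat_lit 372) (nat_lit 356))) (XT.nd (nat_lit 78) (nat_lit 228) (nat_lit 0) (XT.lf (nat_lit 0) (nat_lit 10070664177) (nat_lit 228) (nat_lit 895051842) (nat_lit 0) (nat_lit 1850741069) (nat_lit 84) (nat_lit 5) (nat_lit 87) (nat_lit 4) (nat_lit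 84) (nat_lit 4) (nat_lit 473) (nat_lit 372) (nat_lit 355)) (XT.lf (nat_lit 0) (nat_lit 2359023301) (nat_lit 228) (nat_lit 3797830327) (nat_lit 76) (nat_lit 6872363750) (nat_lit 81) (nat_lit 5) (nat_lit 84) (nat_lit 5) (nat_lit 82) (nat_lit 4) (nat_lit 474) (nat_lit 372) (nat_lit 354)))) (XT.nd (nat_lit 156) (nat_lit 228) (nat_lit 0) (XT.nd (nat_lit 78) (nat_lit 152) (nat_lit 0) (XT.lf (nat_lit 0) (nat_lit 6365486937) (nat_lit 152) (nat_lit 1175487344) (nat_lit 228) (nat_lit 5707201685) (nat_lit 79) (nat_lit 5) (nat_lit 81) (nat_lit 5) (nat_lit 82) (nat_lit 4) (nat_lit 475) (nat_lit 372) (nat_lit 353)) (XT.lf (nat_lit 0) (nat_lit 3301276283) (nat_lit 152) (nat_lit 9594864778) (nat_lit 152) (nat_lit 577035758) (nat_lit 77) (nat_lit 4) (nat_lit 79) (nat_lit 5) (nat_lit 79) (nat_lit 4) (nat_lit 476) (nat_lit 372) (nat_lit 352))) (XT.nd (nat_lit 78) (nat_lit 0) (nat_lit 0) (XT.lf (nat_lit 0) (nat_lit 7633763) (nat_lit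 152) (nat_lit 4598914400) (nat_lit 228) (nat_lit 9097287069) (nat_lit 74) (nat_lit 5) (nat_lit 76) (nat_lit 5) (nat_lit 77) (nat_lit 4) (nat_lit 477) (nat_lit 372) (nat_lit 351)) (XT.lf (nat_lit 0) (nat_lit 9952870765) (nat_lit 228) (nat_lit 3413580910) (nat_lit 0) (nat_lit 574231151) (nat_lit 74) (nat_lit 5) (nat_lit 77) (nat_lit 4) (nat_lit 74) (nat_lit 4) (nat_lit 478) (nat_lit 372) (nat_lit 350)))))) (XT.nd (nat_lit 624) (nat_lit 836) (nat_lit 0) (XT.nd (nat_lit 312) (nat_lit 380) (nat_lit 0) (XT.nd (nat_lit 156) (nat_lit 228) (nat_lit 0) (XT.nd (nat_lit 78) (nat_lit 152) (nat_lit 0) (XT.lf (nat_lit 0) (nat_lit 1276679534) (nat_lit 228) (nat_lit 7085160754) (nat_lit 76) (nat_lit 5821634927) (nat_lit 71) (nat_lit 5) (nat_lit 74) (nat_lit 5) (nat_lit 72) (nat_lit 4) (nat_lit 479) (nat_lit 372) (nat_lit 349)) (XT.lf (nat_lit 0) (nat_lit 3430416587) (nat_lit 152) (nat_lit 3168959039) (nat_lit 228) (nat_lit 7833583841)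 (nat_lit 69) (nat_lit 5) (nat_lit 71) (nat_lit 5) (nat_lit 72) (nat_lit 4) (nat_lit 480) (nat_lit 372) (nat_lit 348))) (XT.nd (nat_lit 78) (nat_lit 228) (nat_lit 0) (XT.lf (nat_lit 0) (nat_lit 12087927707) (nat_lit 228) (nat_lit 462805015) (nat_lit 0) (nat_lit 2139015333) (nat_lit 69) (nat_lit 5) (nat_lit 72) (nat_lit 4) (nat_lit 69) (nat_lit 4) (nat_lit 481) (nat_lit 372) (nat_lit 347)) (XT.lf (nat_lit 0) (nat_lit 2779914410) (nat_lit 228) (nat_lit 4570615718) (nat_lit 76) (nat_lit 7601489239) (nat_lit 66) (nat_lit 5) (nat_lit 69) (nat_lit 5) (nat_lit 67) (nat_lit 4) (nat_lit 482) (nat_lit 372) (nat_lit 346)))) (XT.nd (nat_lit 156) (nat_lit 152) (nat_lit 0) (XT.nd (nat_lit 78) (nat_lit 152) (nat_lit 0) (XT.lf (nat_lit 0) (nat_lit 6279577363) (nat_lit 76) (nat_lit 1971965758) (nat_lit 152) (nat_lit 6970425436) (nat_lit 65) (nat_lit 5) (nat_lit 66) (nat_lit 5) (nat_lit 67) (nat_lit 4) (nat_lit 483) (nat_lit 372)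 (nat_lit 345)) (XT.lf (nat_lit 0) (nat_lit 1896734352) (nat_lit 152) (nat_lit 12005677365) (nat_lit 152) (nat_lit 1597156270) (nat_lit 63) (nat_lit 4) (nat_lit 65) (nat_lit 5) (nat_lit 65) (nat_lit 4) (nat_lit 484) (nat_lit 372) (nat_lit 344))) (XT.nd (nat_lit 78) (nat_lit 76) (nat_lit 0) (XT.lf (nat_lit 0) (nat_lit 3887286406) (nat_lit 228) (nat_lit 2752716205) (nat_lit 76) (nat_lit 9143557396) (nat_lit 62) (nat_lit 5) (nat_lit 65) (nat_lit 5) (nat_lit 63) (nat_lit 4) (nat_lit 485) (nat_lit 372) (nat_lit 343)) (XT.lf (nat_lit 0) (nat_lit 8419930986) (nat_lit 76) (nat_lit 1083699158) (nat_lit 152) (nat_lit 6571987285) (nat_lit 61) (nat_lit 5) (nat_lit 62) (nat_lit 5) (nat_lit 63) (nat_lit 4) (nat_lit 486) (nat_lit 372) (nat_lit 342))))) (XT.nd (nat_lit 312) (nat_lit 380) (nat_lit 0) (XT.nd (nat_lit 156) (nat_lit 228) (nat_lit 0) (XT.nd (nat_lit 78) (nat_lit 76) (nat_lit 0) (XT.lf (nat_lit 0) (nat_lit 3479885897)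 (nat_lit 152) (nat_lit 11833492257) (nat_lit 152) (nat_lit 1062314998) (nat_lit 59) (nat_lit 4) (nat_lit 61) (nat_lit 5) (nat_lit 61) (nat_lit 4) (nat_lit 487) (nat_lit 372) (nat_lit 341)) (XT.lf (nat_lit 0) (nat_lit 4530358074) (nat_lit 228) (nat_lit 1783688238) (nat_lit 76) (nat_lit 10369166812) (nat_lit 58) (nat_lit 5) (nat_lit 61) (nat_lit 5) (nat_lit 59) (nat_lit 4) (nat_lit 488) (nat_lit 372) (nat_lit 340))) (XT.nd (nat_lit 78) (nat_lit 152) (nat_lit 0) (XT.lf (nat_lit 0) (nat_lit 9692983448) (nat_lit 76) (nat_lit 590930371) (nat_lit 152) (nat_lit 6715299375) (nat_lit 57) (nat_lit 5) (nat_lit 58) (nat_lit 5) (nat_lit 59) (nat_lit 4) (nat_lit 489) (nat_lit 372) (nat_lit 339)) (XT.lf (nat_lit 0) (nat_lit 4107683705) (nat_lit 152) (nat_lit 12132565661) (nat_lit 152) (nat_lit 1083542256) (nat_lit 55) (nat_lit 4) (nat_lit 57) (nat_lit 5) (nat_lit 57) (nat_lit 4) (nat_lit 490) (nat_lit 372) (nat_lit 338)))) (XT.nd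 (nat_lit 156) (nat_lit 228) (nat_lit 0) (XT.nd (nat_lit 78) (nat_lit 76) (nat_lit 0) (XT.lf (nat_lit 0) (nat_lit 4627100488) (nat_lit 228) (nat_lit 1841825703) (nat_lit 76) (nat_lit 11187764774) (nat_lit 54) (nat_lit 5) (nat_lit 57) (nat_lit 5) (nat_lit 55) (nat_lit 4) (nat_lit 491) (nat_lit 372) (nat_lit 337)) (XT.lf (nat_lit 0) (nat_lit 9912906761) (nat_lit 76) (nat_lit 593571376) (nat_lit 152) (nat_lit 7492204743) (nat_lit 53) (nat_lit 5) (nat_lit 54) (nat_lit 5) (nat_lit 55) (nat_lit 4) (nat_lit 492) (nat_lit 372) (nat_lit 336))) (XT.nd (nat_lit 78) (nat_lit 76) (nat_lit 0) (XT.lf (nat_lit 0) (nat_lit 3581194134) (nat_lit 152) (nat_lit 13010829615) (nat_lit 152) (nat_lit 1758020359) (nat_lit 51) (nat_lit 4) (nat_lit 53) (nat_lit 5) (nat_lit 53) (nat_lit 4) (nat_lit 493) (nat_lit 372) (nat_lit 335)) (XT.lf (nat_lit 0) (nat_lit 4079788770) (nat_lit 228) (nat_lit 3135933418) (nat_lit 76) (nat_lit 11494654351)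 (nat_lit 50) (nat_lit 5) (nat_lit 53) (nat_lit 5) (nat_lit 51) (nat_lit 4) (nat_lit 494) (nat_lit 372) (nat_lit 334))))))))
noncomputable def xc40 : XT := (XT.nd (nat_lit 2340) (nat_lit 1064) (nat_lit 0) (XT.nd (nat_lit 1170) (nat_lit 760) (nat_lit 0) (XT.nd (nat_lit 546) (nat_lit 456) (nat_lit 0) (XT.nd (nat_lit 234) (nat_lit 304) (nat_lit 0) (XT.nd (nat_lit 78) (nat_lit 228) (nat_lit 0) (XT.lf (nat_lit 0) (nat_lit 8861879607) (nat_lit 76) (nat_lit 1207120881) (nat_lit 152) (nat_lit 9011651071) (nat_lit 49) (nat_lit 5) (nat_lit 50) (nat_lit 5) (nat_lit 51) (nat_lit 4) (nat_lit 495) (nat_lit 372) (nat_lit 333)) (XT.nd (nat_lit 78) (nat_lit 76) (nat_lit 0) (XT.lf (nat_lit 0) (nat_lit 1667361114) (nat_lit 152) (nat_lit 14593024878) (nat_lit 152) (nat_lit 3200976719) (nat_lit 47) (nat_lit 4) (nat_lit 49) (nat_lit 5) (nat_lit 49) (nat_lit 4) (nat_lit 496) (nat_lit 372) (nat_lit 332)) (XT.lf (nat_lit 0) (nat_lit 2772542238)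 (nat_lit 228) (nat_lit 5910472509) (nat_lit 76) (nat_lit 11168394724) (nat_lit 46) (nat_lit 5) (nat_lit 49) (nat_lit 5) (nat_lit 47) (nat_lit 4) (nat_lit 497) (nat_lit 372) (nat_lit 331)))) (XT.nd (nat_lit 156) (nat_lit 228) (nat_lit 0) (XT.nd (nat_lit 78) (nat_lit 0) (nat_lit 0) (XT.lf (nat_lit 0) (nat_lit 6284690119) (nat_lit 76) (nat_lit 2565475439) (nat_lit 152) (nat_lit 11402366795) (nat_lit 45) (nat_lit 5) (nat_lit 46) (nat_lit 5) (nat_lit 47) (nat_lit 4) (nat_lit 498) (nat_lit 372) (nat_lit 330)) (XT.lf (nat_lit 0) (nat_lit 15135288756) (nat_lit 152) (nat_lit 1869514822) (nat_lit 0) (nat_lit 3660132701) (nat_lit 45) (nat_lit 5) (nat_lit 47) (nat_lit 4) (nat_lit 45) (nat_lit 4) (nat_lit 499) (nat_lit 372) (nat_lit 329))) (XT.nd (nat_lit 78) (nat_lit 76) (nat_lit 0) (XT.lf (nat_lit 0) (nat_lit 568453977) (nat_lit 152) (nat_lit 10451522287) (nat_lit 76) (nat_lit 10067808668) (nat_lit 43) (nat_lit 5) (nat_lit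 45) (nat_lit 5) (nat_lit 44) (nat_lit 4) (nat_lit 500) (nat_lit 372) (nat_lit 328)) (XT.lf (nat_lit 0) (nat_lit 1882480894) (nat_lit 76) (nat_lit 4824167680) (nat_lit 152) (nat_lit 14815981565) (nat_lit 42) (nat_lit 5) (nat_lit 43) (nat_lit 5) (nat_lit 44) (nat_lit 4) (nat_lit 501) (nat_lit 372) (nat_lit 327))))) (XT.nd (nat_lit 312) (nat_lit 228) (nat_lit 0) (XT.nd (nat_lit 156) (nat_lit 152) (nat_lit 0) (XT.nd (nat_lit 78) (nat_lit 76) (nat_lit 0) (XT.lf (nat_lit 0) (nat_lit 13081821203) (nat_lit 152) (nat_lit 7314870466) (nat_lit 0) (nat_lit 1572246280) (nat_lit 42) (nat_lit 5) (nat_lit 44) (nat_lit 4) (nat_lit 42) (nat_lit 4) (nat_lit 502) (nat_lit 372) (nat_lit 326)) (XT.lf (nat_lit 0) (nat_lit 5307575117) (nat_lit 76) (nat_lit 14372734843) (nat_lit 76) (nat_lit 2747365352) (nat_lit 41) (nat_lit 4) (nat_lit 42) (nat_lit 5) (nat_lit 42) (nat_lit 4) (nat_lit 503) (nat_lit 372) (nat_lit 325))) (XT.nd (nat_lit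 78) (nat_lit 76) (nat_lit 0) (XT.lf (nat_lit 0) (nat_lit 3514726824) (nat_lit 152) (nat_lit 4602895948) (nat_lit 76) (nat_lit 14781284436) (nat_lit 40) (nat_lit 5) (nat_lit 42) (nat_lit 5) (nat_lit 41) (nat_lit 4) (nat_lit 504) (nat_lit 372) (nat_lit 324)) (XT.lf (nat_lit 0) (nat_lit 8299857404) (nat_lit 76) (nat_lit 1624672789) (nat_lit 152) (nat_lit 13458479753) (nat_lit 39) (nat_lit 5) (nat_lit 40) (nat_lit 5) (nat_lit 41) (nat_lit 4) (nat_lit 505) (nat_lit 372) (nat_lit 323)))) (XT.nd (nat_lit 156) (nat_lit 152) (nat_lit 0) (XT.nd (nat_lit 78) (nat_lit 76) (nat_lit 0) (XT.lf (nat_lit 0) (nat_lit 16557647747) (nat_lit 152) (nat_lit 2370175967) (nat_lit 0) (nat_lit 4952883356) (nat_lit 39) (nat_lit 5) (nat_lit 41) (nat_lit 4) (nat_lit 39) (nat_lit 4) (nat_lit 506) (nat_lit 372) (nat_lit 322)) (XT.lf (nat_lit 0) (nat_lit 10797587018) (nat_lit 76) (nat_lit 12649342315) (nat_lit 76) (nat_lit 944692513) (nat_lit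 38) (nat_lit 4) (nat_lit 39) (nat_lit 5) (nat_lit 39) (nat_lit 4) (nat_lit 507) (nat_lit 372) (nat_lit 321))) (XT.nd (nat_lit 78) (nat_lit 76) (nat_lit 0) (XT.lf (nat_lit 0) (nat_lit 5476780217) (nat_lit 152) (nat_lit 683762089) (nat_lit 76) (nat_lit 18756855787) (nat_lit 37) (nat_lit 5) (nat_lit 39) (nat_lit 5) (nat_lit 38) (nat_lit 4) (nat_lit 508) (nat_lit 372) (nat_lit 320)) (XT.lf (nat_lit 0) (nat_lit 12139285889) (nat_lit 152) (nat_lit 12727374213) (nat_lit 0) (nat_lit 589987335) (nat_lit 36) (nat_lit 5) (nat_lit 38) (nat_lit 4) (nat_lit 36) (nat_lit 4) (nat_lit 509) (nat_lit 372) (nat_lit 319)))))) (XT.nd (nat_lit 546) (nat_lit 380) (nat_lit 0) (XT.nd (nat_lit 234) (nat_lit 152) (nat_lit 0) (XT.nd (nat_lit 78) (nat_lit 152) (nat_lit 0) (XT.lf (nat_lit 0) (nat_lit 375252626) (nat_lit 76) (nat_lit 18637271505) (nat_lit 76) (nat_lit 6999226055) (nat_lit 35) (nat_lit 4) (nat_lit 36) (nat_lit 5) (nat_lit 36)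 (nat_lit 4) (nat_lit 510) (nat_lit 372) (nat_lit 318)) (XT.nd (nat_lit 78) (nat_lit 152) (nat_lit 0) (XT.lf (nat_lit 0) (nat_lit 14015157403) (nat_lit 76) (nat_lit 12145252098) (nat_lit 76) (nat_lit 421044615) (nat_lit 35) (nat_lit 4) (nat_lit 36) (nat_lit 5) (nat_lit 36) (nat_lit 4) (nat_lit 511) (nat_lit 372) (nat_lit 317)) (XT.lf (nat_lit 0) (nat_lit 734791117) (nat_lit 76) (nat_lit 5443854725) (nat_lit 152) (nat_lit 20989327461) (nat_lit 33) (nat_lit 5) (nat_lit 34) (nat_lit 5) (nat_lit 35) (nat_lit 4) (nat_lit 512) (nat_lit 372) (nat_lit 316)))) (XT.nd (nat_lit 156) (nat_lit 76) (nat_lit 0) (XT.nd (nat_lit 78) (nat_lit 76) (nat_lit 0) (XT.lf (nat_lit 0) (nat_lit 13051232247) (nat_lit 152) (nat_lit 13209791093) (nat_lit 0) (nat_lit 1508440089) (nat_lit 33) (nat_lit 5) (nat_lit 35) (nat_lit 4) (nat_lit 33) (nat_lit 4) (nat_lit 513) (nat_lit 372) (nat_lit 315)) (XT.lf (nat_lit 0) (nat_lit 250046268) (nat_lit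 76) (nat_lit 19879161537) (nat_lit 76) (nat_lit 8259815528) (nat_lit 32) (nat_lit 4) (nat_lit 33) (nat_lit 5) (nat_lit 33) (nat_lit 4) (nat_lit 514) (nat_lit 372) (nat_lit 314))) (XT.nd (nat_lit 78) (nat_lit 76) (nat_lit 0) (XT.lf (nat_lit 0) (nat_lit 14274321845) (nat_lit 76) (nat_lit 13222106270) (nat_lit 76) (nat_lit 1528436134) (nat_lit 32) (nat_lit 4) (nat_lit 33) (nat_lit 5) (nat_lit 33) (nat_lit 4) (nat_lit 515) (nat_lit 372) (nat_lit 313)) (XT.lf (nat_lit 0) (nat_lit 5244029332) (nat_lit 152) (nat_lit 1120449937) (nat_lit 76) (nat_lit 23315405367) (nat_lit 31) (nat_lit 5) (nat_lit 33) (nat_lit 5) (nat_lit 32) (nat_lit 4) (nat_lit 516) (nat_lit 372) (nat_lit 312))))) (XT.nd (nat_lit 312) (nat_lit 152) (nat_lit 0) (XT.nd (nat_lit 156) (nat_lit 152) (nat_lit 0) (XT.nd (nat_lit 78) (nat_lit 0) (nat_lit 0) (XT.lf (nat_lit 0) (nat_lit 12268269841) (nat_lit 152) (nat_lit 17306336115) (nat_lit 0) (nat_lit 777117316)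 (nat_lit 30) (nat_lit 5) (nat_lit 32) (nat_lit 4) (nat_lit 30) (nat_lit 4) (nat_lit 517) (nat_lit 372) (nat_lit 311)) (XT.lf (nat_lit 0) (nat_lit 19523986071) (nat_lit 152) (nat_lit 3552312245) (nat_lit 0) (nat_lit 7966797521) (nat_lit 30) (nat_lit 5) (nat_lit 32) (nat_lit 4) (nat_lit 30) (nat_lit 4) (nat_lit 518) (nat_lit 372) (nat_lit 310))) (XT.nd (nat_lit 78) (nat_lit 76) (nat_lit 0) (XT.lf (nat_lit 0) (nat_lit 10721632108) (nat_lit 76) (nat_lit 16326675913) (nat_lit 76) (nat_lit 4705374718) (nat_lit 29) (nat_lit 4) (nat_lit 30) (nat_lit 5) (nat_lit 30) (nat_lit 4) (nat_lit 519) (nat_lit 372) (nat_lit 309)) (XT.lf (nat_lit 0) (nat_lit 2251776148) (nat_lit 152) (nat_lit 7112440900) (nat_lit 76) (nat_lit 23121180341) (nat_lit 28) (nat_lit 5) (nat_lit 30) (nat_lit 5) (nat_lit 29) (nat_lit 4) (nat_lit 520) (nat_lit 372) (nat_lit 308)))) (XT.nd (nat_lit 156) (nat_lit 76) (nat_lit 0) (XT.nd (nat_lit 78) (nat_lit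 0) (nat_lit 0) (XT.lf (nat_lit 0) (nat_lit 7220071915) (nat_lit 76) (nat_lit 2121824987) (nat_lit 152) (nat_lit 23895205165) (nat_lit 27) (nat_lit 5) (nat_lit 28) (nat_lit 5) (nat_lit 29) (nat_lit 4) (nat_lit 521) (nat_lit 372) (nat_lit 307)) (XT.lf (nat_lit 0) (nat_lit 16718059377) (nat_lit 152) (nat_lit 12031924464) (nat_lit 0) (nat_lit 5259174960) (nat_lit 27) (nat_lit 5) (nat_lit 29) (nat_lit 4) (nat_lit 27) (nat_lit 4) (nat_lit 522) (nat_lit 372) (nat_lit 306))) (XT.nd (nat_lit 78) (nat_lit 0) (nat_lit 0) (XT.lf (nat_lit 0) (nat_lit 2300443615) (nat_lit 76) (nat_lit 22009150290) (nat_lit 76) (nat_lit 10494961741) (nat_lit 26) (nat_lit 4) (nat_lit 27) (nat_lit 5) (nat_lit 27) (nat_lit 4) (nat_lit 523) (nat_lit 372) (nat_lit 305)) (XT.lf (nat_lit 0) (nat_lit 17214195708) (nat_lit 76) (nat_lit 14987656122) (nat_lit 76) (nat_lit 3419774242) (nat_lit 26) (nat_lit 4) (nat_lit 27) (nat_lit 5) (nat_lit 27) (nat_lit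 4) (nat_lit 524) (nat_lit 372) (nat_lit 304))))))) (XT.nd (nat_lit 1170) (nat_lit 456) (nat_lit 0) (XT.nd (nat_lit 546) (nat_lit 228) (nat_lit 0) (XT.nd (nat_lit 234) (nat_lit 228) (nat_lit 0) (XT.nd (nat_lit 78) (nat_lit 76) (nat_lit 0) (XT.lf (nat_lit 0) (nat_lit 3744621127) (nat_lit 152) (nat_lit 4018430438) (nat_lit 76) (nat_lit 28700469900) (nat_lit 25) (nat_lit 5) (nat_lit 27) (nat_lit 5) (nat_lit 26) (nat_lit 4) (nat_lit 525) (nat_lit 372) (nat_lit 303)) (XT.nd (nat_lit 78) (nat_lit 0) (nat_lit 0) (XT.lf (nat_lit 0) (nat_lit 10890204149) (nat_lit 76) (nat_lit 223503530) (nat_lit 152) (nat_lit 26214196376) (nat_lit 24) (nat_lit 5) (nat_lit 25) (nat_lit 5) (nat_lit 26) (nat_lit 4) (nat_lit 526) (nat_lit 372) (nat_lit 302)) (XT.lf (nat_lit 0) (nat_lit 18771215887) (nat_lit 152) (nat_lit 12052173990) (nat_lit 0) (nat_lit 7392808659) (nat_lit 24) (nat_lit 5) (nat_lit 26) (nat_lit 4) (nat_lit 24) (nat_lit 4) (nat_lit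 527) (nat_lit 372) (nat_lit 301)))) (XT.nd (nat_lit 156) (nat_lit 152) (nat_lit 0) (XT.nd (nat_lit 78) (nat_lit 0) (nat_lit 0) (XT.lf (nat_lit 0) (nat_lit 2727835102) (nat_lit 76) (nat_lit 23914260888) (nat_lit 76) (nat_lit 12489537321) (nat_lit 23) (nat_lit 4) (nat_lit 24) (nat_lit 5) (nat_lit 24) (nat_lit 4) (nat_lit 528) (nat_lit 372) (nat_lit 300)) (XT.lf (nat_lit 0) (nat_lit 18111066357) (nat_lit 76) (nat_lit 16715417525) (nat_lit 76) (nat_lit 5245726639) (nat_lit 23) (nat_lit 4) (nat_lit 24) (nat_lit 5) (nat_lit 24) (nat_lit 4) (nat_lit 529) (nat_lit 372) (nat_lit 299))) (XT.nd (nat_lit 78) (nat_lit 76) (nat_lit 0) (XT.lf (nat_lit 0) (nat_lit 2128710107) (nat_lit 152) (nat_lit 7192066959) (nat_lit 76) (nat_lit 31720893631) (nat_lit 22) (nat_lit 5) (nat_lit 24) (nat_lit 5) (nat_lit 23) (nat_lit 4) (nat_lit 530) (nat_lit 372) (nat_lit 298)) (XT.lf (nat_lit 0) (nat_lit 8042004515) (nat_lit 76) (nat_lit 1612054107)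 (nat_lit 152) (nat_lit 32383545306) (nat_lit 21) (nat_lit 5) (nat_lit 22) (nat_lit 5) (nat_lit 23) (nat_lit 4) (nat_lit 531) (nat_lit 372) (nat_lit 297))))) (XT.nd (nat_lit 312) (nat_lit 152) (nat_lit 0) (XT.nd (nat_lit 156) (nat_lit 76) (nat_lit 0) (XT.nd (nat_lit 78) (nat_lit 0) (nat_lit 0) (XT.lf (nat_lit 0) (nat_lit 17497197186) (nat_lit 152) (nat_lit 19325373214) (nat_lit 0) (nat_lit 6238084608) (nat_lit 21) (nat_lit 5) (nat_lit 23) (nat_lit 4) (nat_lit 21) (nat_lit 4) (nat_lit 532) (nat_lit 372) (nat_lit 296)) (XT.lf (nat_lit 0) (nat_lit 25550675124) (nat_lit 152) (nat_lit 4311698519) (nat_lit 0) (nat_lit 14252773341) (nat_lit 21) (nat_lit 5) (nat_lit 23) (nat_lit 4) (nat_lit 21) (nat_lit 4) (nat_lit 533) (nat_lit 372) (nat_lit 295))) (XT.nd (nat_lit 78) (nat_lit 0) (nat_lit 0) (XT.lf (nat_lit 0) (nat_lit 11294434564) (nat_lit 76) (nat_lit 22620167854) (nat_lit 76) (nat_lit 11284606649) (nat_lit 20) (nat_lit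 4) (nat_lit 21) (nat_lit 5) (nat_lit 21) (nat_lit 4) (nat_lit 534) (nat_lit 372) (nat_lit 294)) (XT.lf (nat_lit 0) (nat_lit 27379558391) (nat_lit 76) (nat_lit 15154116121) (nat_lit 76) (nat_lit 3781992370) (nat_lit 20) (nat_lit 4) (nat_lit 21) (nat_lit 5) (nat_lit 21) (nat_lit 4) (nat_lit 535) (nat_lit 372) (nat_lit 293)))) (XT.nd (nat_lit 156) (nat_lit 0) (nat_lit 0) (XT.nd (nat_lit 78) (nat_lit 76) (nat_lit 0) (XT.lf (nat_lit 0) (nat_lit 3830159276) (nat_lit 152) (nat_lit 3632398035) (nat_lit 76) (nat_lit 40003080291) (nat_lit 19) (nat_lit 5) (nat_lit 21) (nat_lit 5) (nat_lit 20) (nat_lit 4) (nat_lit 536) (nat_lit 372) (nat_lit 292)) (XT.lf (nat_lit 0) (nat_lit 11680678480) (nat_lit 152) (nat_lit 36393867681) (nat_lit 0) (nat_lit 571858021) (nat_lit 18) (nat_lit 5) (nat_lit 20) (nat_lit 4) (nat_lit 18) (nat_lit 4) (nat_lit 537) (nat_lit 372) (nat_lit 291))) (XT.nd (nat_lit 78) (nat_lit 0) (nat_lit 0) (XT.lf (nat_lit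 0) (nat_lit 19840259468) (nat_lit 152) (nat_lit 21321174846) (nat_lit 0) (nat_lit 8698953661) (nat_lit 18) (nat_lit 5) (nat_lit 20) (nat_lit 4) (nat_lit 18) (nat_lit 4) (nat_lit 538) (nat_lit 372) (nat_lit 290)) (XT.lf (nat_lit 0) (nat_lit 28208332968) (nat_lit 152) (nat_lit 5868059759) (nat_lit 0) (nat_lit 17035487988) (nat_lit 18) (nat_lit 5) (nat_lit 20) (nat_lit 4) (nat_lit 18) (nat_lit 4) (nat_lit 539) (nat_lit 372) (nat_lit 289)))))) (XT.nd (nat_lit 546) (nat_lit 228) (nat_lit 0) (XT.nd (nat_lit 234) (nat_lit 152) (nat_lit 0) (XT.nd (nat_lit 78) (nat_lit 0) (nat_lit 0) (XT.lf (nat_lit 0) (nat_lit 10177581578) (nat_lit 76) (nat_lit 26712462452) (nat_lit 76) (nat_lit 15508996915) (nat_lit 17) (nat_lit 4) (nat_lit 18) (nat_lit 5) (nat_lit 18) (nat_lit 4) (nat_lit 540) (nat_lit 372) (nat_lit 288)) (XT.nd (nat_lit 78) (nat_lit 0) (nat_lit 0) (XT.lf (nat_lit 0) (nat_lit 26755896174) (nat_lit 76) (nat_lit 19100691575)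 (nat_lit 76) (nat_lit 7867497343) (nat_lit 17) (nat_lit 4) (nat_lit 18) (nat_lit 5) (nat_lit 18) (nat_lit 4) (nat_lit 541) (nat_lit 372) (nat_lit 287)) (XT.lf (nat_lit 0) (nat_lit 43764584039) (nat_lit 76) (nat_lit 11293684933) (nat_lit 76) (nat_lit 31627890) (nat_lit 17) (nat_lit 4) (nat_lit 18) (nat_lit 5) (nat_lit 18) (nat_lit 4) (nat_lit 542) (nat_lit 372) (nat_lit 286)))) (XT.nd (nat_lit 156) (nat_lit 0) (nat_lit 0) (XT.nd (nat_lit 78) (nat_lit 0) (nat_lit 0) (XT.lf (nat_lit 0) (nat_lit 4736306484) (nat_lit 76) (nat_lit 3158464783) (nat_lit 152) (nat_lit 48599223970) (nat_lit 15) (nat_lit 5) (nat_lit 16) (nat_lit 5) (nat_lit 17) (nat_lit 4) (nat_lit 543) (nat_lit 372) (nat_lit 285)) (XT.lf (nat_lit 0) (nat_lit 16190841836) (nat_lit 152) (nat_lit 36542204024) (nat_lit 0) (nat_lit 5203186343) (nat_lit 15) (nat_lit 5) (nat_lit 17) (nat_lit 4) (nat_lit 15) (nat_lit 4) (nat_lit 544) (nat_lit 372) (nat_lit 284)))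 (XT.nd (nat_lit 78) (nat_lit 0) (nat_lit 0) (XT.lf (nat_lit 0) (nat_lit 24734866180) (nat_lit 152) (nat_lit 20965331972) (nat_lit 0) (nat_lit 13721566454) (nat_lit 15) (nat_lit 5) (nat_lit 17) (nat_lit 4) (nat_lit 15) (nat_lit 4) (nat_lit 545) (nat_lit 372) (nat_lit 283)) (XT.lf (nat_lit 0) (nat_lit 33503948857) (nat_lit 152) (nat_lit 4983100642) (nat_lit 0) (nat_lit 22465751815) (nat_lit 15) (nat_lit 5) (nat_lit 17) (nat_lit 4) (nat_lit 15) (nat_lit 4) (nat_lit 546) (nat_lit 372) (nat_lit 282))))) (XT.nd (nat_lit 312) (nat_lit 76) (nat_lit 0) (XT.nd (nat_lit 156) (nat_lit 76) (nat_lit 0) (XT.nd (nat_lit 78) (nat_lit 0) (nat_lit 0) (XT.lf (nat_lit 0) (nat_lit 11645704665) (nat_lit 76) (nat_lit 30971993142) (nat_lit 76) (nat_lit 19909623950) (nat_lit 14) (nat_lit 4) (nat_lit 15) (nat_lit 5) (nat_lit 15) (nat_lit 4) (nat_lit 547) (nat_lit 372) (nat_lit 281)) (XT.lf (nat_lit 0) (nat_lit 28815969838) (nat_lit 76) (nat_lit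 23209168665) (nat_lit 76) (nat_lit 12123331368) (nat_lit 14) (nat_lit 4) (nat_lit 15) (nat_lit 5) (nat_lit 15) (nat_lit 4) (nat_lit 548) (nat_lit 372) (nat_lit 280))) (XT.nd (nat_lit 78) (nat_lit 76) (nat_lit 0) (XT.lf (nat_lit 0) (nat_lit 46443524547) (nat_lit 76) (nat_lit 15242112566) (nat_lit 76) (nat_lit 4133490698) (nat_lit 14) (nat_lit 4) (nat_lit 15) (nat_lit 5) (nat_lit 15) (nat_lit 4) (nat_lit 549) (nat_lit 372) (nat_lit 279)) (XT.lf (nat_lit 0) (nat_lit 3987520004) (nat_lit 152) (nat_lit 3036077199) (nat_lit 76) (nat_lit 60515985370) (nat_lit 13) (nat_lit 5) (nat_lit 15) (nat_lit 5) (nat_lit 14) (nat_lit 4) (nat_lit 550) (nat_lit 372) (nat_lit 278)))) (XT.nd (nat_lit 156) (nat_lit 0) (nat_lit 0) (XT.nd (nat_lit 78) (nat_lit 0) (nat_lit 0) (XT.lf (nat_lit 0) (nat_lit 12390937856) (nat_lit 152) (nat_lit 55352289732) (nat_lit 0) (nat_lit 1563540331) (nat_lit 12) (nat_lit 5) (nat_lit 14) (nat_lit 4) (nat_lit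 12) (nat_lit 4) (nat_lit 551) (nat_lit 372) (nat_lit 277)) (XT.lf (nat_lit 0) (nat_lit 21119221883) (nat_lit 152) (nat_lit 39733983845) (nat_lit 0) (nat_lit 10271580563) (nat_lit 12) (nat_lit 5) (nat_lit 14) (nat_lit 4) (nat_lit 12) (nat_lit 4) (nat_lit 552) (nat_lit 372) (nat_lit 276))) (XT.nd (nat_lit 54756) (nat_lit 0) (nat_lit 9120) (XT.lf (nat_lit 0) (nat_lit 30082423459) (nat_lit 152) (nat_lit 23700602081) (nat_lit 0) (nat_lit 19215127969) (nat_lit 12) (nat_lit 5) (nat_lit 14) (nat_lit 4) (nat_lit 12) (nat_lit 4) (nat_lit 553) (nat_lit 372) (nat_lit 275)) (XT.lf (nat_lit 0) (nat_lit 700480381) (nat_lit 304) (nat_lit 2070669131) (nat_lit 304) (nat_lit 2070669131) (nat_lit 132) (nat_lit 4) (nat_lit 136) (nat_lit 5) (nat_lit 136) (nat_lit 4) (nat_lit 454) (nat_lit 373) (nat_lit 373))))))))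
noncomputable def xc41 : XT := (XT.nd (nat_lit 2340) (nat_lit 2508) (nat_lit 0) (XT.nd (nat_lit 1170) (nat_lit 1976) (nat_lit 0) (XT.nd (nat_lit 546) (nat_lit 1444) (nat_lit 0) (XT.nd (nat_lit 234) (nat_lit 1064) (nat_lit 0) (XT.nd (nat_lit 78) (nat_lit 304) (nat_lit 0) (XT.lf (nat_lit 0) (nat_lit 72818112) (nat_lit 228) (nat_lit 352646426) (nat_lit 304) (nat_lit 9387235926) (nat_lit 128) (nat_lit 5) (nat_lit 131) (nat_lit 5) (nat_lit 132) (nat_lit 4) (nat_lit 455) (nat_lit 373) (nat_lit 372)) (XT.nd (nat_lit 78) (nat_lit 304) (nat_lit 0) (XT.lf (nat_lit 0) (nat_lit 5057949709) (nat_lit 304) (nat_lit 1341477552) (nat_lit 0) (nat_lit 3544634550) (nat_lit 128) (nat_lit 5) (nat_lit 132) (nat_lit 4) (nat_lit 128) (nat_lit 4) (nat_lit 456) (nat_lit 373) (nat_lit 371)) (XT.lf (nat_lit 0) (nat_lit 7281295330) (nat_lit 304) (nat_lit 2518031155) (nat_lit 304) (nat_lit 280953425) (nat_lit 124) (nat_lit 4) (nat_lit 128) (nat_lit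 5) (nat_lit 128) (nat_lit 4) (nat_lit 457) (nat_lit 373) (nat_lit 370)))) (XT.nd (nat_lit 156) (nat_lit 532) (nat_lit 0) (XT.nd (nat_lit 78) (nat_lit 228) (nat_lit 0) (XT.lf (nat_lit 0) (nat_lit 4357016665) (nat_lit 304) (nat_lit 4359960792) (nat_lit 0) (nat_lit 1502880900) (nat_lit 120) (nat_lit 5) (nat_lit 124) (nat_lit 4) (nat_lit 120) (nat_lit 4) (nat_lit 458) (nat_lit 373) (nat_lit 369)) (XT.lf (nat_lit 0) (nat_lit 4362852487) (nat_lit 228) (nat_lit 4758694750) (nat_lit 228) (nat_lit 1242213706) (nat_lit 117) (nat_lit 4) (nat_lit 120) (nat_lit 5) (nat_lit 120) (nat_lit 4) (nat_lit 459) (nat_lit 373) (nat_lit 368))) (XT.nd (nat_lit 78) (nat_lit 228) (nat_lit 0) (XT.lf (nat_lit 0) (nat_lit 2778198423) (nat_lit 228) (nat_lit 639404107) (nat_lit 304) (nat_lit 7094299440) (nat_lit 113) (nat_lit 5) (nat_lit 116) (nat_lit 5) (nat_lit 117) (nat_lit 4) (nat_lit 460) (nat_lit 373) (nat_lit 367)) (XT.lf (nat_lit 0) (nat_lit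 1086088699) (nat_lit 228) (nat_lit 7111206153) (nat_lit 228) (nat_lit 2466683177) (nat_lit 110) (nat_lit 4) (nat_lit 113) (nat_lit 5) (nat_lit 113) (nat_lit 4) (nat_lit 461) (nat_lit 373) (nat_lit 366))))) (XT.nd (nat_lit 312) (nat_lit 760) (nat_lit 0) (XT.nd (nat_lit 156) (nat_lit 456) (nat_lit 0) (XT.nd (nat_lit 78) (nat_lit 152) (nat_lit 0) (XT.lf (nat_lit 0) (nat_lit 2239200785) (nat_lit 304) (nat_lit 687430584) (nat_lit 76) (nat_lit 7893802922) (nat_lit 109) (nat_lit 5) (nat_lit 113) (nat_lit 5) (nat_lit 110) (nat_lit 4) (nat_lit 462) (nat_lit 373) (nat_lit 365)) (XT.lf (nat_lit 0) (nat_lit 7033636691) (nat_lit 228) (nat_lit 2548974078) (nat_lit 0) (nat_lit 1398342482) (nat_lit 107) (nat_lit 5) (nat_lit 110) (nat_lit 4) (nat_lit 107) (nat_lit 4) (nat_lit 463) (nat_lit 373) (nat_lit 364))) (XT.nd (nat_lit 78) (nat_lit 152) (nat_lit 0) (XT.lf (nat_lit 0) (nat_lit 811940440) (nat_lit 304) (nat_lit 4525602439)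 (nat_lit 76) (nat_lit 5808443511) (nat_lit 103) (nat_lit 5) (nat_lit 107) (nat_lit 5) (nat_lit 104) (nat_lit 4) (nat_lit 464) (nat_lit 373) (nat_lit 363)) (XT.lf (nat_lit 0) (nat_lit 4689010739) (nat_lit 152) (nat_lit 919715247) (nat_lit 228) (nat_lit 5706858841) (nat_lit 101) (nat_lit 5) (nat_lit 103) (nat_lit 5) (nat_lit 104) (nat_lit 4) (nat_lit 465) (nat_lit 373) (nat_lit 362)))) (XT.nd (nat_lit 156) (nat_lit 304) (nat_lit 0) (XT.nd (nat_lit 78) (nat_lit 228) (nat_lit 0) (XT.lf (nat_lit 0) (nat_lit 2634345778) (nat_lit 228) (nat_lit 7925067569) (nat_lit 228) (nat_lit 930567065) (nat_lit 98) (nat_lit 4) (nat_lit 101) (nat_lit 5) (nat_lit 101) (nat_lit 4) (nat_lit 466) (nat_lit 373) (nat_lit 361)) (XT.lf (nat_lit 0) (nat_lit 435784336) (nat_lit 152) (nat_lit 3460165005) (nat_lit 228) (nat_lit 7772973518) (nat_lit 95) (nat_lit 5) (nat_lit 97) (nat_lit 5) (nat_lit 98) (nat_lit 4) (nat_lit 467) (nat_lit 373) (nat_lit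 360))) (XT.nd (nat_lit 78) (nat_lit 304) (nat_lit 0) (XT.lf (nat_lit 0) (nat_lit 8854268349) (nat_lit 228) (nat_lit 1850615271) (nat_lit 0) (nat_lit 1147910602) (nat_lit 95) (nat_lit 5) (nat_lit 98) (nat_lit 4) (nat_lit 95) (nat_lit 4) (nat_lit 468) (nat_lit 373) (nat_lit 359)) (XT.lf (nat_lit 0) (nat_lit 1898035769) (nat_lit 304) (nat_lit 4291233393) (nat_lit 76) (nat_lit 5851877099) (nat_lit 91) (nat_lit 5) (nat_lit 95) (nat_lit 5) (nat_lit 92) (nat_lit 4) (nat_lit 469) (nat_lit 373) (nat_lit 358)))))) (XT.nd (nat_lit 546) (nat_lit 912) (nat_lit 0) (XT.nd (nat_lit 234) (nat_lit 532) (nat_lit 0) (XT.nd (nat_lit 78) (nat_lit 380) (nat_lit 0) (XT.lf (nat_lit 0) (nat_lit 5354504580) (nat_lit 152) (nat_lit 1504551979) (nat_lit 228) (nat_lit 5375874417) (nat_lit 89) (nat_lit 5) (nat_lit 91) (nat_lit 5) (nat_lit 92) (nat_lit 4) (nat_lit 470) (nat_lit 373) (nat_lit 357)) (XT.nd (nat_lit 78) (nat_lit 228) (nat_lit 0)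 (XT.lf (nat_lit 0) (nat_lit 2804314047) (nat_lit 152) (nat_lit 9175210276) (nat_lit 152) (nat_lit 454693851) (nat_lit 87) (nat_lit 4) (nat_lit 89) (nat_lit 5) (nat_lit 89) (nat_lit 4) (nat_lit 471) (nat_lit 373) (nat_lit 356)) (XT.lf (nat_lit 0) (nat_lit 61856174) (nat_lit 152) (nat_lit 4456089956) (nat_lit 228) (nat_lit 8120398388) (nat_lit 84) (nat_lit 5) (nat_lit 86) (nat_lit 5) (nat_lit 87) (nat_lit 4) (nat_lit 472) (nat_lit 373) (nat_lit 355)))) (XT.nd (nat_lit 156) (nat_lit 304) (nat_lit 0) (XT.nd (nat_lit 78) (nat_lit 228) (nat_lit 0) (XT.lf (nat_lit 0) (nat_lit 9641374815) (nat_lit 228) (nat_lit 2776365896) (nat_lit 0) (nat_lit 430403233) (nat_lit 84) (nat_lit 5) (nat_lit 87) (nat_lit 4) (nat_lit 84) (nat_lit 4) (nat_lit 473) (nat_lit 373) (nat_lit 354)) (XT.lf (nat_lit 0) (nat_lit 1843519601) (nat_lit 228) (nat_lit 5824670016) (nat_lit 76) (nat_lit 5394756395) (nat_lit 81) (nat_lit 5) (nat_lit 84) (nat_lit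 5) (nat_lit 82) (nat_lit 4) (nat_lit 474) (nat_lit 373) (nat_lit 353))) (XT.nd (nat_lit 78) (nat_lit 152) (nat_lit 0) (XT.lf (nat_lit 0) (nat_lit 4218640547) (nat_lit 152) (nat_lit 2742604964) (nat_lit 228) (nat_lit 6322588908) (nat_lit 79) (nat_lit 5) (nat_lit 81) (nat_lit 5) (nat_lit 82) (nat_lit 4) (nat_lit 475) (nat_lit 373) (nat_lit 352)) (XT.lf (nat_lit 0) (nat_lit 1010827184) (nat_lit 152) (nat_lit 11225112012) (nat_lit 152) (nat_lit 1275313245) (nat_lit 77) (nat_lit 4) (nat_lit 79) (nat_lit 5) (nat_lit 79) (nat_lit 4) (nat_lit 476) (nat_lit 373) (nat_lit 351))))) (XT.nd (nat_lit 312) (nat_lit 304) (nat_lit 0) (XT.nd (nat_lit 156) (nat_lit 380) (nat_lit 0) (XT.nd (nat_lit 78) (nat_lit 152) (nat_lit 0) (XT.lf (nat_lit 0) (nat_lit 3878522501) (nat_lit 228) (nat_lit 2392737884) (nat_lit 76) (nat_lit 7472155867) (nat_lit 76) (nat_lit 5) (nat_lit 79) (nat_lit 5) (nat_lit 77) (nat_lit 4) (nat_lit 477) (nat_lit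 373) (nat_lit 350)) (XT.lf (nat_lit 0) (nat_lit 8007267196) (nat_lit 152) (nat_lit 1145704119) (nat_lit 228) (nat_lit 4829451468) (nat_lit 74) (nat_lit 5) (nat_lit 76) (nat_lit 5) (nat_lit 77) (nat_lit 4) (nat_lit 478) (nat_lit 373) (nat_lit 349))) (XT.nd (nat_lit 78) (nat_lit 152) (nat_lit 0) (XT.lf (nat_lit 0) (nat_lit 372050669) (nat_lit 228) (nat_lit 9799538278) (nat_lit 76) (nat_lit 4056253891) (nat_lit 71) (nat_lit 5) (nat_lit 74) (nat_lit 5) (nat_lit 72) (nat_lit 4) (nat_lit 479) (nat_lit 373) (nat_lit 348)) (XT.lf (nat_lit 0) (nat_lit 584107679) (nat_lit 152) (nat_lit 5041494599) (nat_lit 228) (nat_lit 8853801639) (nat_lit 69) (nat_lit 5) (nat_lit 71) (nat_lit 5) (nat_lit 72) (nat_lit 4) (nat_lit 480) (nat_lit 373) (nat_lit 347)))) (XT.nd (nat_lit 156) (nat_lit 76) (nat_lit 0) (XT.nd (nat_lit 78) (nat_lit 228) (nat_lit 0) (XT.lf (nat_lit 0) (nat_lit 11054530127) (nat_lit 228) (nat_lit 3414110227) (nat_lit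 0) (nat_lit 269343299) (nat_lit 69) (nat_lit 5) (nat_lit 72) (nat_lit 4) (nat_lit 69) (nat_lit 4) (nat_lit 481) (nat_lit 373) (nat_lit 346)) (XT.lf (nat_lit 0) (nat_lit 1648616745) (nat_lit 228) (nat_lit 7695708036) (nat_lit 76) (nat_lit 5658367517) (nat_lit 66) (nat_lit 5) (nat_lit 69) (nat_lit 5) (nat_lit 67) (nat_lit 4) (nat_lit 482) (nat_lit 373) (nat_lit 345))) (XT.nd (nat_lit 78) (nat_lit 0) (nat_lit 0) (XT.lf (nat_lit 0) (nat_lit 3016410344) (nat_lit 76) (nat_lit 4032127551) (nat_lit 152) (nat_lit 8226257033) (nat_lit 65) (nat_lit 5) (nat_lit 66) (nat_lit 5) (nat_lit 67) (nat_lit 4) (nat_lit 483) (nat_lit 373) (nat_lit 344)) (XT.lf (nat_lit 0) (nat_lit 12621172314) (nat_lit 152) (nat_lit 1511010262) (nat_lit 0) (nat_lit 1422560959) (nat_lit 65) (nat_lit 5) (nat_lit 67) (nat_lit 4) (nat_lit 65) (nat_lit 4) (nat_lit 484) (nat_lit 373) (nat_lit 343))))))) (XT.nd (nat_lit 1170) (nat_lit 988) (nat_lit 0) (XT.nd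 (nat_lit 546) (nat_lit 684) (nat_lit 0) (XT.nd (nat_lit 234) (nat_lit 532) (nat_lit 0) (XT.nd (nat_lit 78) (nat_lit 76) (nat_lit 0) (XT.lf (nat_lit 0) (nat_lit 2521856967) (nat_lit 228) (nat_lit 6307772309) (nat_lit 76) (nat_lit 7011146483) (nat_lit 62) (nat_lit 5) (nat_lit 65) (nat_lit 5) (nat_lit 63) (nat_lit 4) (nat_lit 485) (nat_lit 373) (nat_lit 342)) (XT.nd (nat_lit 78) (nat_lit 0) (nat_lit 0) (XT.lf (nat_lit 0) (nat_lit 4720241223) (nat_lit 76) (nat_lit 3343432443) (nat_lit 152) (nat_lit 8071397294) (nat_lit 61) (nat_lit 5) (nat_lit 62) (nat_lit 5) (nat_lit 63) (nat_lit 4) (nat_lit 486) (nat_lit 373) (nat_lit 341)) (XT.lf (nat_lit 0) (nat_lit 13779411690) (nat_lit 152) (nat_lit 398007967) (nat_lit 0) (nat_lit 2260549236) (nat_lit 61) (nat_lit 5) (nat_lit 63) (nat_lit 4) (nat_lit 61) (nat_lit 4) (nat_lit 487) (nat_lit 373) (nat_lit 340)))) (XT.nd (nat_lit 156) (nat_lit 228) (nat_lit 0) (XT.nd (nat_lit 78)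 (nat_lit 76) (nat_lit 0) (XT.lf (nat_lit 0) (nat_lit 2922544849) (nat_lit 228) (nat_lit 5789142886) (nat_lit 76) (nat_lit 8035544837) (nat_lit 58) (nat_lit 5) (nat_lit 61) (nat_lit 5) (nat_lit 59) (nat_lit 4) (nat_lit 488) (nat_lit 373) (nat_lit 339)) (XT.lf (nat_lit 0) (nat_lit 5535894923) (nat_lit 76) (nat_lit 3062595892) (nat_lit 152) (nat_lit 8467071870) (nat_lit 57) (nat_lit 5) (nat_lit 58) (nat_lit 5) (nat_lit 59) (nat_lit 4) (nat_lit 489) (nat_lit 373) (nat_lit 338))) (XT.nd (nat_lit 78) (nat_lit 228) (nat_lit 0) (XT.lf (nat_lit 0) (nat_lit 14454044372) (nat_lit 152) (nat_lit 242778700) (nat_lit 0) (nat_lit 2696343197) (nat_lit 57) (nat_lit 5) (nat_lit 59) (nat_lit 4) (nat_lit 57) (nat_lit 4) (nat_lit 490) (nat_lit 373) (nat_lit 337)) (XT.lf (nat_lit 0) (nat_lit 2767840831) (nat_lit 228) (nat_lit 6319388452) (nat_lit 76) (nat_lit 8640569712) (nat_lit 54) (nat_lit 5) (nat_lit 57) (nat_lit 5) (nat_lit 55)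 (nat_lit 4) (nat_lit 491) (nat_lit 373) (nat_lit 336))))) (XT.nd (nat_lit 312) (nat_lit 304) (nat_lit 0) (XT.nd (nat_lit 156) (nat_lit 304) (nat_lit 0) (XT.nd (nat_lit 78) (nat_lit 0) (nat_lit 0) (XT.lf (nat_lit 0) (nat_lit 5276241656) (nat_lit 76) (nat_lit 3290012860) (nat_lit 152) (nat_lit 9505966865) (nat_lit 53) (nat_lit 5) (nat_lit 54) (nat_lit 5) (nat_lit 55) (nat_lit 4) (nat_lit 492) (nat_lit 373) (nat_lit 335)) (XT.lf (nat_lit 0) (nat_lit 14555161701) (nat_lit 152) (nat_lit 1241696998) (nat_lit 0) (nat_lit 2629624573) (nat_lit 53) (nat_lit 5) (nat_lit 55) (nat_lit 4) (nat_lit 53) (nat_lit 4) (nat_lit 493) (nat_lit 373) (nat_lit 334))) (XT.nd (nat_lit 78) (nat_lit 76) (nat_lit 0) (XT.lf (nat_lit 0) (nat_lit 1959183851) (nat_lit 228) (nat_lit 8108680671) (nat_lit 76) (nat_lit 8721018285) (nat_lit 50) (nat_lit 5) (nat_lit 53) (nat_lit 5) (nat_lit 51) (nat_lit 4) (nat_lit 494) (nat_lit 373) (nat_lit 333)) (XT.lf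 (nat_lit 0) (nat_lit 3722064770) (nat_lit 76) (nat_lit 4141731721) (nat_lit 152) (nat_lit 11297900691) (nat_lit 49) (nat_lit 5) (nat_lit 50) (nat_lit 5) (nat_lit 51) (nat_lit 4) (nat_lit 495) (nat_lit 373) (nat_lit 332)))) (XT.nd (nat_lit 156) (nat_lit 76) (nat_lit 0) (XT.nd (nat_lit 78) (nat_lit 228) (nat_lit 0) (XT.lf (nat_lit 0) (nat_lit 13975841438) (nat_lit 152) (nat_lit 3624687361) (nat_lit 0) (nat_lit 1944261092) (nat_lit 49) (nat_lit 5) (nat_lit 51) (nat_lit 4) (nat_lit 49) (nat_lit 4) (nat_lit 496) (nat_lit 373) (nat_lit 331)) (XT.lf (nat_lit 0) (nat_lit 379827592) (nat_lit 228) (nat_lit 11402943046) (nat_lit 76) (nat_lit 8154878664) (nat_lit 46) (nat_lit 5) (nat_lit 49) (nat_lit 5) (nat_lit 47) (nat_lit 4) (nat_lit 497) (nat_lit 373) (nat_lit 330))) (XT.nd (nat_lit 78) (nat_lit 0) (nat_lit 0) (XT.lf (nat_lit 0) (nat_lit 616659931) (nat_lit 76) (nat_lit 5752265073) (nat_lit 152) (nat_lit 13972504185) (nat_lit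 45) (nat_lit 5) (nat_lit 46) (nat_lit 5) (nat_lit 47) (nat_lit 4) (nat_lit 498) (nat_lit 373) (nat_lit 329)) (XT.lf (nat_lit 0) (nat_lit 12589452078) (nat_lit 152) (nat_lit 7660844217) (nat_lit 0) (nat_lit 505475893) (nat_lit 45) (nat_lit 5) (nat_lit 47) (nat_lit 4) (nat_lit 45) (nat_lit 4) (nat_lit 499) (nat_lit 373) (nat_lit 328)))))) (XT.nd (nat_lit 624) (nat_lit 456) (nat_lit 0) (XT.nd (nat_lit 312) (nat_lit 304) (nat_lit 0) (XT.nd (nat_lit 156) (nat_lit 76) (nat_lit 0) (XT.nd (nat_lit 78) (nat_lit 76) (nat_lit 0) (XT.lf (nat_lit 0) (nat_lit 4671016573) (nat_lit 76) (nat_lit 14360495881) (nat_lit 76) (nat_lit 2149987846) (nat_lit 44) (nat_lit 4) (nat_lit 45) (nat_lit 5) (nat_lit 45) (nat_lit 4) (nat_lit 500) (nat_lit 373) (nat_lit 327)) (XT.lf (nat_lit 0) (nat_lit 3979127032) (nat_lit 152) (nat_lit 4255726616) (nat_lit 76) (nat_lit 13383643970) (nat_lit 43) (nat_lit 5) (nat_lit 45) (nat_lit 5) (nat_lit 44)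 (nat_lit 4) (nat_lit 501) (nat_lit 373) (nat_lit 326))) (XT.nd (nat_lit 78) (nat_lit 0) (nat_lit 0) (XT.lf (nat_lit 0) (nat_lit 8384479589) (nat_lit 76) (nat_lit 1880102917) (nat_lit 152) (nat_lit 11802915496) (nat_lit 42) (nat_lit 5) (nat_lit 43) (nat_lit 5) (nat_lit 44) (nat_lit 4) (nat_lit 502) (nat_lit 373) (nat_lit 325)) (XT.lf (nat_lit 0) (nat_lit 16762067889) (nat_lit 152) (nat_lit 1207477771) (nat_lit 0) (nat_lit 4559720833) (nat_lit 42) (nat_lit 5) (nat_lit 44) (nat_lit 4) (nat_lit 42) (nat_lit 4) (nat_lit 503) (nat_lit 373) (nat_lit 324)))) (XT.nd (nat_lit 156) (nat_lit 76) (nat_lit 0) (XT.nd (nat_lit 78) (nat_lit 76) (nat_lit 0) (XT.lf (nat_lit 0) (nat_lit 509986585) (nat_lit 152) (nat_lit 11276221773) (nat_lit 76) (nat_lit 11216476898) (nat_lit 40) (nat_lit 5) (nat_lit 42) (nat_lit 5) (nat_lit 41) (nat_lit 4) (nat_lit 504) (nat_lit 373) (nat_lit 323)) (XT.lf (nat_lit 0) (nat_lit 1432880543) (nat_lit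 76) (nat_lit 5389948776) (nat_lit 152) (nat_lit 16666868434) (nat_lit 39) (nat_lit 5) (nat_lit 40) (nat_lit 5) (nat_lit 41) (nat_lit 4) (nat_lit 505) (nat_lit 373) (nat_lit 322))) (XT.nd (nat_lit 78) (nat_lit 76) (nat_lit 0) (XT.lf (nat_lit 0) (nat_lit 13388861911) (nat_lit 152) (nat_lit 9367359223) (nat_lit 0) (nat_lit 1233187203) (nat_lit 39) (nat_lit 5) (nat_lit 41) (nat_lit 4) (nat_lit 39) (nat_lit 4) (nat_lit 506) (nat_lit 373) (nat_lit 321)) (XT.lf (nat_lit 0) (nat_lit 3602018789) (nat_lit 76) (nat_lit 16576965413) (nat_lit 76) (nat_lit 4324314577) (nat_lit 38) (nat_lit 4) (nat_lit 39) (nat_lit 5) (nat_lit 39) (nat_lit 4) (nat_lit 507) (nat_lit 373) (nat_lit 320))))) (XT.nd (nat_lit 312) (nat_lit 228) (nat_lit 0) (XT.nd (nat_lit 156) (nat_lit 76) (nat_lit 0) (XT.nd (nat_lit 78) (nat_lit 76) (nat_lit 0) (XT.lf (nat_lit 0) (nat_lit 2133142774) (nat_lit 152) (nat_lit 8016522585) (nat_lit 76) (nat_lit 14881284032)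 (nat_lit 37) (nat_lit 5) (nat_lit 39) (nat_lit 5) (nat_lit 38) (nat_lit 4) (nat_lit 508) (nat_lit 373) (nat_lit 319)) (XT.lf (nat_lit 0) (nat_lit 5199100454) (nat_lit 76) (nat_lit 3489230665) (nat_lit 152) (nat_lit 16885087946) (nat_lit 36) (nat_lit 5) (nat_lit 37) (nat_lit 5) (nat_lit 38) (nat_lit 4) (nat_lit 509) (nat_lit 373) (nat_lit 318))) (XT.nd (nat_lit 78) (nat_lit 76) (nat_lit 0) (XT.lf (nat_lit 0) (nat_lit 15495382295) (nat_lit 152) (nat_lit 7301839364) (nat_lit 0) (nat_lit 3333286554) (nat_lit 36) (nat_lit 5) (nat_lit 38) (nat_lit 4) (nat_lit 36) (nat_lit 4) (nat_lit 510) (nat_lit 373) (nat_lit 317)) (XT.lf (nat_lit 0) (nat_lit 6136931416) (nat_lit 76) (nat_lit 16406019596) (nat_lit 76) (nat_lit 4160271395) (nat_lit 35) (nat_lit 4) (nat_lit 36) (nat_lit 5) (nat_lit 36) (nat_lit 4) (nat_lit 511) (nat_lit 373) (nat_lit 316)))) (XT.nd (nat_lit 156) (nat_lit 76) (nat_lit 0) (XT.nd (nat_lit 78) (nat_lit 76)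 (nat_lit 0) (XT.lf (nat_lit 0) (nat_lit 2477151488) (nat_lit 152) (nat_lit 7298346660) (nat_lit 76) (nat_lit 17516379479) (nat_lit 34) (nat_lit 5) (nat_lit 36) (nat_lit 5) (nat_lit 35) (nat_lit 4) (nat_lit 512) (nat_lit 373) (nat_lit 315)) (XT.lf (nat_lit 0) (nat_lit 6342303378) (nat_lit 76) (nat_lit 2893222742) (nat_lit 152) (nat_lit 18661268687) (nat_lit 33) (nat_lit 5) (nat_lit 34) (nat_lit 5) (nat_lit 35) (nat_lit 4) (nat_lit 513) (nat_lit 373) (nat_lit 314))) (XT.nd (nat_lit 78) (nat_lit 76) (nat_lit 0) (XT.lf (nat_lit 0) (nat_lit 16255981864) (nat_lit 152) (nat_lit 8124921625) (nat_lit 0) (nat_lit 4137177496) (nat_lit 33) (nat_lit 5) (nat_lit 35) (nat_lit 4) (nat_lit 33) (nat_lit 4) (nat_lit 514) (nat_lit 373) (nat_lit 313)) (XT.lf (nat_lit 0) (nat_lit 5684973963) (nat_lit 76) (nat_lit 17831556235) (nat_lit 76) (nat_lit 5640592521) (nat_lit 32) (nat_lit 4) (nat_lit 33) (nat_lit 5) (nat_lit 33) (nat_lit 4)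 (nat_lit 515) (nat_lit 373) (nat_lit 312))))))))
noncomputable def xc42 : XT := (XT.nd (nat_lit 2340) (nat_lit 228) (nat_lit 0) (XT.nd (nat_lit 1170) (nat_lit 608) (nat_lit 0) (XT.nd (nat_lit 546) (nat_lit 304) (nat_lit 0) (XT.nd (nat_lit 234) (nat_lit 228) (nat_lit 0) (XT.nd (nat_lit 78) (nat_lit 76) (nat_lit 0) (XT.lf (nat_lit 0) (nat_lit 1185626597) (nat_lit 152) (nat_lit 9854199339) (nat_lit 76) (nat_lit 18774298328) (nat_lit 31) (nat_lit 5) (nat_lit 33) (nat_lit 5) (nat_lit 32) (nat_lit 4) (nat_lit 516) (nat_lit 373) (nat_lit 311)) (XT.nd (nat_lit 78) (nat_lit 0) (nat_lit 0) (XT.lf (nat_lit 0) (nat_lit 4094501350) (nat_lit 76) (nat_lit 3995912338) (nat_lit 152) (nat_lit 22399133418) (nat_lit 30) (nat_lit 5) (nat_lit 31) (nat_lit 5) (nat_lit 32) (nat_lit 4) (nat_lit 517) (nat_lit 373) (nat_lit 310)) (XT.lf (nat_lit 0) (nat_lit 15282039625) (nat_lit 152) (nat_lit 12652816591) (nat_lit 0) (nat_lit 3247986749)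 (nat_lit 30) (nat_lit 5) (nat_lit 32) (nat_lit 4) (nat_lit 30) (nat_lit 4) (nat_lit 518) (nat_lit 373) (nat_lit 309)))) (XT.nd (nat_lit 156) (nat_lit 152) (nat_lit 0) (XT.nd (nat_lit 78) (nat_lit 0) (nat_lit 0) (XT.lf (nat_lit 0) (nat_lit 1390296237) (nat_lit 76) (nat_lit 21301435626) (nat_lit 76) (nat_lit 9205137464) (nat_lit 29) (nat_lit 4) (nat_lit 30) (nat_lit 5) (nat_lit 30) (nat_lit 4) (nat_lit 519) (nat_lit 373) (nat_lit 308)) (XT.lf (nat_lit 0) (nat_lit 16016093468) (nat_lit 76) (nat_lit 14385311949) (nat_lit 76) (nat_lit 2228581470) (nat_lit 29) (nat_lit 4) (nat_lit 30) (nat_lit 5) (nat_lit 30) (nat_lit 4) (nat_lit 520) (nat_lit 373) (nat_lit 307))) (XT.nd (nat_lit 78) (nat_lit 76) (nat_lit 0) (XT.lf (nat_lit 0) (nat_lit 4811435033) (nat_lit 152) (nat_lit 2448189513) (nat_lit 76) (nat_lit 26125517972) (nat_lit 28) (nat_lit 5) (nat_lit 30) (nat_lit 5) (nat_lit 29) (nat_lit 4) (nat_lit 521) (nat_lit 373)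 (nat_lit 306)) (XT.lf (nat_lit 0) (nat_lit 12089815527) (nat_lit 152) (nat_lit 21895420498) (nat_lit 0) (nat_lit 174897191) (nat_lit 27) (nat_lit 5) (nat_lit 29) (nat_lit 4) (nat_lit 27) (nat_lit 4) (nat_lit 522) (nat_lit 373) (nat_lit 305))))) (XT.nd (nat_lit 312) (nat_lit 76) (nat_lit 0) (XT.nd (nat_lit 156) (nat_lit 152) (nat_lit 0) (XT.nd (nat_lit 78) (nat_lit 76) (nat_lit 0) (XT.lf (nat_lit 0) (nat_lit 19635785513) (nat_lit 152) (nat_lit 7653938128) (nat_lit 0) (nat_lit 7667173846) (nat_lit 27) (nat_lit 5) (nat_lit 29) (nat_lit 4) (nat_lit 27) (nat_lit 4) (nat_lit 523) (nat_lit 373) (nat_lit 304)) (XT.lf (nat_lit 0) (nat_lit 7061940757) (nat_lit 76) (nat_lit 20367858043) (nat_lit 76) (nat_lit 8347116929) (nat_lit 26) (nat_lit 4) (nat_lit 27) (nat_lit 5) (nat_lit 27) (nat_lit 4) (nat_lit 524) (nat_lit 373) (nat_lit 303))) (XT.nd (nat_lit 78) (nat_lit 152) (nat_lit 0) (XT.lf (nat_lit 0) (nat_lit 22286431126)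 (nat_lit 76) (nat_lit 13202754975) (nat_lit 76) (nat_lit 1131402747) (nat_lit 26) (nat_lit 4) (nat_lit 27) (nat_lit 5) (nat_lit 27) (nat_lit 4) (nat_lit 525) (nat_lit 373) (nat_lit 302)) (XT.lf (nat_lit 0) (nat_lit 336032233) (nat_lit 76) (nat_lit 5800185237) (nat_lit 152) (nat_lit 31352786998) (nat_lit 24) (nat_lit 5) (nat_lit 25) (nat_lit 5) (nat_lit 26) (nat_lit 4) (nat_lit 526) (nat_lit 373) (nat_lit 301)))) (XT.nd (nat_lit 156) (nat_lit 76) (nat_lit 0) (XT.nd (nat_lit 78) (nat_lit 0) (nat_lit 0) (XT.lf (nat_lit 0) (nat_lit 13718056208) (nat_lit 152) (nat_lit 22757238652) (nat_lit 0) (nat_lit 1904274596) (nat_lit 24) (nat_lit 5) (nat_lit 26) (nat_lit 4) (nat_lit 24) (nat_lit 4) (nat_lit 527) (nat_lit 373) (nat_lit 300)) (XT.lf (nat_lit 0) (nat_lit 21541294310) (nat_lit 152) (nat_lit 8072594214) (nat_lit 0) (nat_lit 9682545378) (nat_lit 24) (nat_lit 5) (nat_lit 26) (nat_lit 4) (nat_lit 24) (nat_lit 4) (nat_lit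 528) (nat_lit 373) (nat_lit 299))) (XT.nd (nat_lit 78) (nat_lit 0) (nat_lit 0) (XT.lf (nat_lit 0) (nat_lit 7108254906) (nat_lit 76) (nat_lit 22517086674) (nat_lit 76) (nat_lit 10614680150) (nat_lit 23) (nat_lit 4) (nat_lit 24) (nat_lit 5) (nat_lit 24) (nat_lit 4) (nat_lit 529) (nat_lit 373) (nat_lit 298)) (XT.lf (nat_lit 0) (nat_lit 22827781600) (nat_lit 76) (nat_lit 15163868361) (nat_lit 76) (nat_lit 3219075827) (nat_lit 23) (nat_lit 4) (nat_lit 24) (nat_lit 5) (nat_lit 24) (nat_lit 4) (nat_lit 530) (nat_lit 373) (nat_lit 297)))))) (XT.nd (nat_lit 546) (nat_lit 304) (nat_lit 0) (XT.nd (nat_lit 234) (nat_lit 152) (nat_lit 0) (XT.nd (nat_lit 78) (nat_lit 76) (nat_lit 0) (XT.lf (nat_lit 0) (nat_lit 4271604871) (nat_lit 152) (nat_lit 3314586113) (nat_lit 76) (nat_lit 34624321220) (nat_lit 22) (nat_lit 5) (nat_lit 24) (nat_lit 5) (nat_lit 23) (nat_lit 4) (nat_lit 531) (nat_lit 373) (nat_lit 296)) (XT.nd (nat_lit 78)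 (nat_lit 0) (nat_lit 0) (XT.lf (nat_lit 0) (nat_lit 12004343168) (nat_lit 152) (nat_lit 30903817352) (nat_lit 0) (nat_lit 328715127) (nat_lit 21) (nat_lit 5) (nat_lit 23) (nat_lit 4) (nat_lit 21) (nat_lit 4) (nat_lit 532) (nat_lit 373) (nat_lit 295)) (XT.lf (nat_lit 0) (nat_lit 20038252635) (nat_lit 152) (nat_lit 15928737214) (nat_lit 0) (nat_lit 8324965172) (nat_lit 21) (nat_lit 5) (nat_lit 23) (nat_lit 4) (nat_lit 21) (nat_lit 4) (nat_lit 533) (nat_lit 373) (nat_lit 294)))) (XT.nd (nat_lit 156) (nat_lit 76) (nat_lit 0) (XT.nd (nat_lit 78) (nat_lit 76) (nat_lit 0) (XT.lf (nat_lit 0) (nat_lit 28274612400) (nat_lit 152) (nat_lit 580469672) (nat_lit 0) (nat_lit 16524762391) (nat_lit 21) (nat_lit 5) (nat_lit 23) (nat_lit 4) (nat_lit 21) (nat_lit 4) (nat_lit 534) (nat_lit 373) (nat_lit 293)) (XT.lf (nat_lit 0) (nat_lit 15455998582) (nat_lit 76) (nat_lit 21413193213) (nat_lit 76) (nat_lit 9627845588) (nat_lit 20) (nat_lit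 4) (nat_lit 21) (nat_lit 5) (nat_lit 21) (nat_lit 4) (nat_lit 535) (nat_lit 373) (nat_lit 292))) (XT.nd (nat_lit 78) (nat_lit 76) (nat_lit 0) (XT.lf (nat_lit 0) (nat_lit 31912334444) (nat_lit 76) (nat_lit 13778079725) (nat_lit 76) (nat_lit 1958268393) (nat_lit 20) (nat_lit 4) (nat_lit 21) (nat_lit 5) (nat_lit 21) (nat_lit 4) (nat_lit 536) (nat_lit 373) (nat_lit 291)) (XT.lf (nat_lit 0) (nat_lit 5789124556) (nat_lit 152) (nat_lit 101348391) (nat_lit 76) (nat_lit 42943781388) (nat_lit 19) (nat_lit 5) (nat_lit 21) (nat_lit 5) (nat_lit 20) (nat_lit 4) (nat_lit 537) (nat_lit 373) (nat_lit 290))))) (XT.nd (nat_lit 312) (nat_lit 152) (nat_lit 0) (XT.nd (nat_lit 156) (nat_lit 76) (nat_lit 0) (XT.nd (nat_lit 78) (nat_lit 0) (nat_lit 0) (XT.lf (nat_lit 0) (nat_lit 13873199995) (nat_lit 152) (nat_lit 33843673095) (nat_lit 0) (nat_lit 2333630492) (nat_lit 18) (nat_lit 5) (nat_lit 20) (nat_lit 4) (nat_lit 18) (nat_lit 4) (nat_lit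 538) (nat_lit 373) (nat_lit 289)) (XT.lf (nat_lit 0) (nat_lit 22223914981) (nat_lit 152) (nat_lit 18424877454) (nat_lit 0) (nat_lit 10653724921) (nat_lit 18) (nat_lit 5) (nat_lit 20) (nat_lit 4) (nat_lit 18) (nat_lit 4) (nat_lit 539) (nat_lit 373) (nat_lit 288))) (XT.nd (nat_lit 78) (nat_lit 76) (nat_lit 0) (XT.lf (nat_lit 0) (nat_lit 30790939976) (nat_lit 152) (nat_lit 2611157243) (nat_lit 0) (nat_lit 19191021221) (nat_lit 18) (nat_lit 5) (nat_lit 20) (nat_lit 4) (nat_lit 18) (nat_lit 4) (nat_lit 540) (nat_lit 373) (nat_lit 287)) (XT.lf (nat_lit 0) (nat_lit 13882197016) (nat_lit 76) (nat_lit 25833007882) (nat_lit 76) (nat_lit 14204226316) (nat_lit 17) (nat_lit 4) (nat_lit 18) (nat_lit 5) (nat_lit 18) (nat_lit 4) (nat_lit 541) (nat_lit 373) (nat_lit 286)))) (XT.nd (nat_lit 156) (nat_lit 76) (nat_lit 0) (XT.nd (nat_lit 78) (nat_lit 76) (nat_lit 0) (XT.lf (nat_lit 0) (nat_lit 30858852662) (nat_lit 76) (nat_lit 18041840047)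 (nat_lit 76) (nat_lit 6385036335) (nat_lit 17) (nat_lit 4) (nat_lit 18) (nat_lit 5) (nat_lit 18) (nat_lit 4) (nat_lit 542) (nat_lit 373) (nat_lit 285)) (XT.lf (nat_lit 0) (nat_lit 1603934765) (nat_lit 152) (nat_lit 8428022105) (nat_lit 76) (nat_lit 46661545153) (nat_lit 16) (nat_lit 5) (nat_lit 18) (nat_lit 5) (nat_lit 17) (nat_lit 4) (nat_lit 543) (nat_lit 373) (nat_lit 284))) (XT.nd (nat_lit 78) (nat_lit 0) (nat_lit 0) (XT.lf (nat_lit 0) (nat_lit 8083399919) (nat_lit 76) (nat_lit 1667251883) (nat_lit 152) (nat_lit 48389568028) (nat_lit 15) (nat_lit 5) (nat_lit 16) (nat_lit 5) (nat_lit 17) (nat_lit 4) (nat_lit 544) (nat_lit 373) (nat_lit 283)) (XT.lf (nat_lit 0) (nat_lit 18263249306) (nat_lit 152) (nat_lit 34494436921) (nat_lit 0) (nat_lit 6869009039) (nat_lit 15) (nat_lit 5) (nat_lit 17) (nat_lit 4) (nat_lit 15) (nat_lit 4) (nat_lit 545) (nat_lit 373) (nat_lit 282))))))) (XT.nd (nat_lit 55692) (nat_lit 0) (nat_lit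 5244) (XT.nd (nat_lit 546) (nat_lit 0) (nat_lit 0) (XT.nd (nat_lit 234) (nat_lit 152) (nat_lit 0) (XT.nd (nat_lit 78) (nat_lit 76) (nat_lit 0) (XT.lf (nat_lit 0) (nat_lit 27017380335) (nat_lit 152) (nat_lit 18541832490) (nat_lit 0) (nat_lit 15598967918) (nat_lit 15) (nat_lit 5) (nat_lit 17) (nat_lit 4) (nat_lit 15) (nat_lit 4) (nat_lit 546) (nat_lit 373) (nat_lit 281)) (XT.nd (nat_lit 78) (nat_lit 76) (nat_lit 0) (XT.lf (nat_lit 0) (nat_lit 36004667487) (nat_lit 152) (nat_lit 2169040806) (nat_lit 0) (nat_lit 24562786963) (nat_lit 15) (nat_lit 5) (nat_lit 17) (nat_lit 4) (nat_lit 15) (nat_lit 4) (nat_lit 547) (nat_lit 373) (nat_lit 280)) (XT.lf (nat_lit 0) (nat_lit 14929574221) (nat_lit 76) (nat_lit 30446901709) (nat_lit 76) (nat_lit 18982236616) (nat_lit 14) (nat_lit 4) (nat_lit 15) (nat_lit 5) (nat_lit 15) (nat_lit 4) (nat_lit 548) (nat_lit 373) (nat_lit 279)))) (XT.nd (nat_lit 156) (nat_lit 152) (nat_lit 0) (XT.nd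 (nat_lit 78) (nat_lit 0) (nat_lit 0) (XT.lf (nat_lit 0) (nat_lit 32529476521) (nat_lit 76) (nat_lit 22493549330) (nat_lit 76) (nat_lit 11006763296) (nat_lit 14) (nat_lit 4) (nat_lit 15) (nat_lit 5) (nat_lit 15) (nat_lit 4) (nat_lit 549) (nat_lit 373) (nat_lit 278)) (XT.lf (nat_lit 0) (nat_lit 50602876485) (nat_lit 76) (nat_lit 14328604685) (nat_lit 76) (nat_lit 2820342009) (nat_lit 14) (nat_lit 4) (nat_lit 15) (nat_lit 5) (nat_lit 15) (nat_lit 4) (nat_lit 550) (nat_lit 373) (nat_lit 277))) (XT.nd (nat_lit 78) (nat_lit 76) (nat_lit 0) (XT.lf (nat_lit 0) (nat_lit 5475212955) (nat_lit 152) (nat_lit 414431485) (nat_lit 76) (nat_lit 63635064532) (nat_lit 13) (nat_lit 5) (nat_lit 15) (nat_lit 5) (nat_lit 14) (nat_lit 4) (nat_lit 551) (nat_lit 373) (nat_lit 276)) (XT.lf (nat_lit 0) (nat_lit 14129512346) (nat_lit 152) (nat_lit 54298890896) (nat_lit 0) (nat_lit 2916543821) (nat_lit 12) (nat_lit 5) (nat_lit 14) (nat_lit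 4) (nat_lit 12) (nat_lit 4) (nat_lit 552) (nat_lit 373) (nat_lit 275))))) (XT.nd (nat_lit 54834) (nat_lit 0) (nat_lit 8208) (XT.nd (nat_lit 54678) (nat_lit 0) (nat_lit 9120) (XT.nd (nat_lit 54600) (nat_lit 0) (nat_lit 9728) (XT.lf (nat_lit 0) (nat_lit 23079833835) (nat_lit 152) (nat_lit 38291083431) (nat_lit 0) (nat_lit 11847783592) (nat_lit 12) (nat_lit 5) (nat_lit 14) (nat_lit 4) (nat_lit 12) (nat_lit 4) (nat_lit 553) (nat_lit 373) (nat_lit 274)) (XT.lf (nat_lit 0) (nat_lit 1991893695) (nat_lit 304) (nat_lit 1363187013) (nat_lit 304) (nat_lit 1363187013) (nat_lit 140) (nat_lit 4) (nat_lit 144) (nat_lit 5) (nat_lit 144) (nat_lit 4) (nat_lit 452) (nat_lit 374) (nat_lit 374))) (XT.nd (nat_lit 78) (nat_lit 304) (nat_lit 0) (XT.lf (nat_lit 0) (nat_lit 1754034644) (nat_lit 304) (nat_lit 6865820743) (nat_lit 0) (nat_lit 939433494) (nat_lit 136) (nat_lit 5) (nat_lit 140) (nat_lit 4) (nat_lit 136) (nat_lit 4) (nat_lit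 453) (nat_lit 374) (nat_lit 373)) (XT.lf (nat_lit 0) (nat_lit 1318162543) (nat_lit 304) (nat_lit 4986266085) (nat_lit 304) (nat_lit 3380790032) (nat_lit 132) (nat_lit 4) (nat_lit 136) (nat_lit 5) (nat_lit 136) (nat_lit 4) (nat_lit 454) (nat_lit 374) (nat_lit 372)))) (XT.nd (nat_lit 156) (nat_lit 608) (nat_lit 0) (XT.nd (nat_lit 78) (nat_lit 228) (nat_lit 0) (XT.lf (nat_lit 0) (nat_lit 1119017245) (nat_lit 380) (nat_lit 101710754) (nat_lit 76) (nat_lit 8594905958) (nat_lit 131) (nat_lit 5) (nat_lit 136) (nat_lit 5) (nat_lit 132) (nat_lit 4) (nat_lit 455) (nat_lit 374) (nat_lit 371)) (XT.lf (nat_lit 0) (nat_lit 5691132737) (nat_lit 304) (nat_lit 1594500165) (nat_lit 0) (nat_lit 2663180105) (nat_lit 128) (nat_lit 5) (nat_lit 132) (nat_lit 4) (nat_lit 128) (nat_lit 4) (nat_lit 456) (nat_lit 374) (nat_lit 370))) (XT.nd (nat_lit 78) (nat_lit 228) (nat_lit 0) (XT.lf (nat_lit 0) (nat_lit 287376926) (nat_lit 380) (nat_lit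 3147259580) (nat_lit 76) (nat_lit 6651900257) (nat_lit 123) (nat_lit 5) (nat_lit 128) (nat_lit 5) (nat_lit 124) (nat_lit 4) (nat_lit 457) (nat_lit 374) (nat_lit 369)) (XT.lf (nat_lit 0) (nat_lit 4857188988) (nat_lit 304) (nat_lit 4797863288) (nat_lit 0) (nat_lit 572868233) (nat_lit 120) (nat_lit 5) (nat_lit 124) (nat_lit 4) (nat_lit 120) (nat_lit 4) (nat_lit 458) (nat_lit 374) (nat_lit 368)))))) (XT.nd (nat_lit 624) (nat_lit 1292) (nat_lit 0) (XT.nd (nat_lit 312) (nat_lit 836) (nat_lit 0) (XT.nd (nat_lit 156) (nat_lit 304) (nat_lit 0) (XT.nd (nat_lit 78) (nat_lit 304) (nat_lit 0) (XT.lf (nat_lit 0) (nat_lit 3834562572) (nat_lit 228) (nat_lit 5733130805) (nat_lit 228) (nat_lit 805756380) (nat_lit 117) (nat_lit 4) (nat_lit 120) (nat_lit 5) (nat_lit 120) (nat_lit 4) (nat_lit 459) (nat_lit 374) (nat_lit 367)) (XT.lf (nat_lit 0) (nat_lit 2143366731) (nat_lit 228) (nat_lit 1647305735) (nat_lit 304) (nat_lit 6732444106)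 (nat_lit 113) (nat_lit 5) (nat_lit 116) (nat_lit 5) (nat_lit 117) (nat_lit 4) (nat_lit 460) (nat_lit 374) (nat_lit 366))) (XT.nd (nat_lit 78) (nat_lit 76) (nat_lit 0) (XT.lf (nat_lit 0) (nat_lit 354831682) (nat_lit 228) (nat_lit 8150401944) (nat_lit 228) (nat_lit 2171918317) (nat_lit 110) (nat_lit 4) (nat_lit 113) (nat_lit 5) (nat_lit 113) (nat_lit 4) (nat_lit 461) (nat_lit 374) (nat_lit 365)) (XT.lf (nat_lit 0) (nat_lit 2479964950) (nat_lit 304) (nat_lit 1515499632) (nat_lit 76) (nat_lit 6839511150) (nat_lit 109) (nat_lit 5) (nat_lit 113) (nat_lit 5) (nat_lit 110) (nat_lit 4) (nat_lit 462) (nat_lit 374) (nat_lit 364)))) (XT.nd (nat_lit 156) (nat_lit 380) (nat_lit 0) (XT.nd (nat_lit 78) (nat_lit 304) (nat_lit 0) (XT.lf (nat_lit 0) (nat_lit 7208003833) (nat_lit 228) (nat_lit 3479087963) (nat_lit 0) (nat_lit 310399729) (nat_lit 107) (nat_lit 5) (nat_lit 110) (nat_lit 4) (nat_lit 107) (nat_lit 4) (nat_lit 463) (nat_lit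 374) (nat_lit 363)) (XT.lf (nat_lit 0) (nat_lit 909706983) (nat_lit 304) (nat_lit 5573760408) (nat_lit 76) (nat_lit 4680725872) (nat_lit 103) (nat_lit 5) (nat_lit 107) (nat_lit 5) (nat_lit 104) (nat_lit 4) (nat_lit 464) (nat_lit 374) (nat_lit 362))) (XT.nd (nat_lit 78) (nat_lit 228) (nat_lit 0) (XT.lf (nat_lit 0) (nat_lit 3539495078) (nat_lit 152) (nat_lit 2109565595) (nat_lit 228) (nat_lit 5686458486) (nat_lit 101) (nat_lit 5) (nat_lit 103) (nat_lit 5) (nat_lit 104) (nat_lit 4) (nat_lit 465) (nat_lit 374) (nat_lit 361)) (XT.lf (nat_lit 0) (nat_lit 1372490628) (nat_lit 228) (nat_lit 9157596623) (nat_lit 228) (nat_lit 981921689) (nat_lit 98) (nat_lit 4) (nat_lit 101) (nat_lit 5) (nat_lit 101) (nat_lit 4) (nat_lit 466) (nat_lit 374) (nat_lit 360))))) (XT.nd (nat_lit 312) (nat_lit 608) (nat_lit 0) (XT.nd (nat_lit 156) (nat_lit 456) (nat_lit 0) (XT.nd (nat_lit 78) (nat_lit 152) (nat_lit 0) (XT.lf (nat_lit 0) (nat_lit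 3795448098) (nat_lit 304) (nat_lit 935470948) (nat_lit 76) (nat_lit 6961555733) (nat_lit 97) (nat_lit 5) (nat_lit 101) (nat_lit 5) (nat_lit 98) (nat_lit 4) (nat_lit 467) (nat_lit 374) (nat_lit 359)) (XT.lf (nat_lit 0) (nat_lit 8545314123) (nat_lit 152) (nat_lit 142651204) (nat_lit 228) (nat_lit 3190358868) (nat_lit 95) (nat_lit 5) (nat_lit 97) (nat_lit 5) (nat_lit 98) (nat_lit 4) (nat_lit 468) (nat_lit 374) (nat_lit 358))) (XT.nd (nat_lit 78) (nat_lit 152) (nat_lit 0) (XT.lf (nat_lit 0) (nat_lit 1648324456) (nat_lit 304) (nat_lit 5905497228) (nat_lit 76) (nat_lit 4514762293) (nat_lit 91) (nat_lit 5) (nat_lit 95) (nat_lit 5) (nat_lit 92) (nat_lit 4) (nat_lit 469) (nat_lit 374) (nat_lit 357)) (XT.lf (nat_lit 0) (nat_lit 3629136028) (nat_lit 152) (nat_lit 2919378052) (nat_lit 228) (nat_lit 5715683209) (nat_lit 89) (nat_lit 5) (nat_lit 91) (nat_lit 5) (nat_lit 92) (nat_lit 4) (nat_lit 470) (nat_lit 374) (nat_lit 356))))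 (XT.nd (nat_lit 156) (nat_lit 380) (nat_lit 0) (XT.nd (nat_lit 78) (nat_lit 76) (nat_lit 0) (XT.lf (nat_lit 0) (nat_lit 949408767) (nat_lit 152) (nat_lit 10644131142) (nat_lit 152) (nat_lit 872211391) (nat_lit 87) (nat_lit 4) (nat_lit 89) (nat_lit 5) (nat_lit 89) (nat_lit 4) (nat_lit 471) (nat_lit 374) (nat_lit 355)) (XT.lf (nat_lit 0) (nat_lit 4064078762) (nat_lit 228) (nat_lit 1899566120) (nat_lit 76) (nat_lit 6707691428) (nat_lit 86) (nat_lit 5) (nat_lit 89) (nat_lit 5) (nat_lit 87) (nat_lit 4) (nat_lit 472) (nat_lit 374) (nat_lit 354))) (XT.nd (nat_lit 78) (nat_lit 228) (nat_lit 0) (XT.lf (nat_lit 0) (nat_lit 7999869256) (nat_lit 152) (nat_lit 1121431131) (nat_lit 228) (nat_lit 3761824815) (nat_lit 84) (nat_lit 5) (nat_lit 86) (nat_lit 5) (nat_lit 87) (nat_lit 4) (nat_lit 473) (nat_lit 374) (nat_lit 353)) (XT.lf (nat_lit 0) (nat_lit 1224066603) (nat_lit 228) (nat_lit 8070886306) (nat_lit 76) (nat_lit 3805394346)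 (nat_lit 81) (nat_lit 5) (nat_lit 84) (nat_lit 5) (nat_lit 82) (nat_lit 4) (nat_lit 474) (nat_lit 374) (nat_lit 352))))))))
noncomputable def xc43 : XT := (XT.nd (nat_lit 2340) (nat_lit 1596) (nat_lit 0) (XT.nd (nat_lit 1170) (nat_lit 1216) (nat_lit 0) (XT.nd (nat_lit 546) (nat_lit 912) (nat_lit 0) (XT.nd (nat_lit 234) (nat_lit 532) (nat_lit 0) (XT.nd (nat_lit 78) (nat_lit 228) (nat_lit 0) (XT.lf (nat_lit 0) (nat_lit 1850371977) (nat_lit 152) (nat_lit 4426336582) (nat_lit 228) (nat_lit 7046482599) (nat_lit 79) (nat_lit 5) (nat_lit 81) (nat_lit 5) (nat_lit 82) (nat_lit 4) (nat_lit 475) (nat_lit 374) (nat_lit 351)) (XT.nd (nat_lit 78) (nat_lit 228) (nat_lit 0) (XT.lf (nat_lit 0) (nat_lit 11483372533) (nat_lit 228) (nat_lit 1476370409) (nat_lit 0) (nat_lit 592910021) (nat_lit 79) (nat_lit 5) (nat_lit 82) (nat_lit 4) (nat_lit 79) (nat_lit 4) (nat_lit 476) (nat_lit 374) (nat_lit 350)) (XT.lf (nat_lit 0) (nat_lit 3043391429)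 (nat_lit 228) (nat_lit 5019503925) (nat_lit 76) (nat_lit 5723852817) (nat_lit 76) (nat_lit 5) (nat_lit 79) (nat_lit 5) (nat_lit 77) (nat_lit 4) (nat_lit 477) (nat_lit 374) (nat_lit 349)))) (XT.nd (nat_lit 156) (nat_lit 228) (nat_lit 0) (XT.nd (nat_lit 78) (nat_lit 152) (nat_lit 0) (XT.lf (nat_lit 0) (nat_lit 5252843256) (nat_lit 152) (nat_lit 2997704713) (nat_lit 228) (nat_lit 5777228147) (nat_lit 74) (nat_lit 5) (nat_lit 76) (nat_lit 5) (nat_lit 77) (nat_lit 4) (nat_lit 478) (nat_lit 374) (nat_lit 348)) (XT.lf (nat_lit 0) (nat_lit 1519164513) (nat_lit 152) (nat_lit 12099370910) (nat_lit 152) (nat_lit 657366204) (nat_lit 72) (nat_lit 4) (nat_lit 74) (nat_lit 5) (nat_lit 74) (nat_lit 4) (nat_lit 479) (nat_lit 374) (nat_lit 347))) (XT.nd (nat_lit 78) (nat_lit 152) (nat_lit 0) (XT.lf (nat_lit 0) (nat_lit 4562831177) (nat_lit 228) (nat_lit 2452334900) (nat_lit 76) (nat_lit 7513874074) (nat_lit 71) (nat_lit 5) (nat_lit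 74) (nat_lit 5) (nat_lit 72) (nat_lit 4) (nat_lit 480) (nat_lit 374) (nat_lit 346)) (XT.lf (nat_lit 0) (nat_lit 8167906813) (nat_lit 152) (nat_lit 1757077720) (nat_lit 228) (nat_lit 4864640939) (nat_lit 69) (nat_lit 5) (nat_lit 71) (nat_lit 5) (nat_lit 72) (nat_lit 4) (nat_lit 481) (nat_lit 374) (nat_lit 345))))) (XT.nd (nat_lit 312) (nat_lit 380) (nat_lit 0) (XT.nd (nat_lit 156) (nat_lit 304) (nat_lit 0) (XT.nd (nat_lit 78) (nat_lit 0) (nat_lit 0) (XT.lf (nat_lit 0) (nat_lit 401489945) (nat_lit 228) (nat_lit 11065582197) (nat_lit 76) (nat_lit 3590274477) (nat_lit 66) (nat_lit 5) (nat_lit 69) (nat_lit 5) (nat_lit 67) (nat_lit 4) (nat_lit 482) (nat_lit 374) (nat_lit 344)) (XT.lf (nat_lit 0) (nat_lit 5733250463) (nat_lit 228) (nat_lit 484556457) (nat_lit 76) (nat_lit 9113689299) (nat_lit 66) (nat_lit 5) (nat_lit 69) (nat_lit 5) (nat_lit 67) (nat_lit 4) (nat_lit 483) (nat_lit 374) (nat_lit 343))) (XT.nd (nat_lit 78)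 (nat_lit 228) (nat_lit 0) (XT.lf (nat_lit 0) (nat_lit 10475964466) (nat_lit 76) (nat_lit 772511336) (nat_lit 152) (nat_lit 4364693384) (nat_lit 65) (nat_lit 5) (nat_lit 66) (nat_lit 5) (nat_lit 67) (nat_lit 4) (nat_lit 484) (nat_lit 374) (nat_lit 342)) (XT.lf (nat_lit 0) (nat_lit 1036369028) (nat_lit 228) (nat_lit 10116532050) (nat_lit 76) (nat_lit 4749183769) (nat_lit 62) (nat_lit 5) (nat_lit 65) (nat_lit 5) (nat_lit 63) (nat_lit 4) (nat_lit 485) (nat_lit 374) (nat_lit 341)))) (XT.nd (nat_lit 156) (nat_lit 304) (nat_lit 0) (XT.nd (nat_lit 78) (nat_lit 0) (nat_lit 0) (XT.lf (nat_lit 0) (nat_lit 763950498) (nat_lit 76) (nat_lit 5738376438) (nat_lit 152) (nat_lit 9696330787) (nat_lit 61) (nat_lit 5) (nat_lit 62) (nat_lit 5) (nat_lit 63) (nat_lit 4) (nat_lit 486) (nat_lit 374) (nat_lit 340)) (XT.lf (nat_lit 0) (nat_lit 12036857319) (nat_lit 76) (nat_lit 121649268) (nat_lit 152) (nat_lit 4344837674) (nat_lit 61) (nat_lit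 5) (nat_lit 62) (nat_lit 5) (nat_lit 63) (nat_lit 4) (nat_lit 487) (nat_lit 374) (nat_lit 339))) (XT.nd (nat_lit 78) (nat_lit 76) (nat_lit 0) (XT.lf (nat_lit 0) (nat_lit 1190069145) (nat_lit 228) (nat_lit 10057904812) (nat_lit 76) (nat_lit 5567495039) (nat_lit 58) (nat_lit 5) (nat_lit 61) (nat_lit 5) (nat_lit 59) (nat_lit 4) (nat_lit 488) (nat_lit 374) (nat_lit 338)) (XT.lf (nat_lit 0) (nat_lit 1112353471) (nat_lit 76) (nat_lit 5674587132) (nat_lit 152) (nat_lit 10349232438) (nat_lit 57) (nat_lit 5) (nat_lit 58) (nat_lit 5) (nat_lit 59) (nat_lit 4) (nat_lit 489) (nat_lit 374) (nat_lit 337)))))) (XT.nd (nat_lit 546) (nat_lit 608) (nat_lit 0) (XT.nd (nat_lit 234) (nat_lit 304) (nat_lit 0) (XT.nd (nat_lit 78) (nat_lit 304) (nat_lit 0) (XT.lf (nat_lit 0) (nat_lit 12580942161) (nat_lit 152) (nat_lit 4780393177) (nat_lit 0) (nat_lit 104289497) (nat_lit 57) (nat_lit 5) (nat_lit 59) (nat_lit 4) (nat_lit 57) (nat_lit 4)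 (nat_lit 490) (nat_lit 374) (nat_lit 336)) (XT.nd (nat_lit 78) (nat_lit 76) (nat_lit 0) (XT.lf (nat_lit 0) (nat_lit 778924574) (nat_lit 228) (nat_lit 11070585451) (nat_lit 76) (nat_lit 5953749757) (nat_lit 54) (nat_lit 5) (nat_lit 57) (nat_lit 5) (nat_lit 55) (nat_lit 4) (nat_lit 491) (nat_lit 374) (nat_lit 335)) (XT.lf (nat_lit 0) (nat_lit 362534988) (nat_lit 76) (nat_lit 6132236220) (nat_lit 152) (nat_lit 11655389482) (nat_lit 53) (nat_lit 5) (nat_lit 54) (nat_lit 5) (nat_lit 55) (nat_lit 4) (nat_lit 492) (nat_lit 374) (nat_lit 334)))) (XT.nd (nat_lit 156) (nat_lit 152) (nat_lit 0) (XT.nd (nat_lit 78) (nat_lit 152) (nat_lit 0) (XT.lf (nat_lit 0) (nat_lit 12231661297) (nat_lit 76) (nat_lit 191297929) (nat_lit 152) (nat_lit 6083286394) (nat_lit 53) (nat_lit 5) (nat_lit 54) (nat_lit 5) (nat_lit 55) (nat_lit 4) (nat_lit 493) (nat_lit 374) (nat_lit 333)) (XT.lf (nat_lit 0) (nat_lit 5502740359) (nat_lit 152) (nat_lit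 13066683146) (nat_lit 152) (nat_lit 302379558) (nat_lit 51) (nat_lit 4) (nat_lit 53) (nat_lit 5) (nat_lit 53) (nat_lit 4) (nat_lit 494) (nat_lit 374) (nat_lit 332))) (XT.nd (nat_lit 78) (nat_lit 76) (nat_lit 0) (XT.lf (nat_lit 0) (nat_lit 5538187809) (nat_lit 228) (nat_lit 1672867983) (nat_lit 76) (nat_lit 12035748560) (nat_lit 50) (nat_lit 5) (nat_lit 53) (nat_lit 5) (nat_lit 51) (nat_lit 4) (nat_lit 495) (nat_lit 374) (nat_lit 331)) (XT.lf (nat_lit 0) (nat_lit 10447318713) (nat_lit 76) (nat_lit 1133663081) (nat_lit 152) (nat_lit 8050994095) (nat_lit 49) (nat_lit 5) (nat_lit 50) (nat_lit 5) (nat_lit 51) (nat_lit 4) (nat_lit 496) (nat_lit 374) (nat_lit 330))))) (XT.nd (nat_lit 312) (nat_lit 304) (nat_lit 0) (XT.nd (nat_lit 156) (nat_lit 76) (nat_lit 0) (XT.nd (nat_lit 78) (nat_lit 76) (nat_lit 0) (XT.lf (nat_lit 0) (nat_lit 2814754745) (nat_lit 152) (nat_lit 15016527031) (nat_lit 152) (nat_lit 2196636697) (nat_lit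 47) (nat_lit 4) (nat_lit 49) (nat_lit 5) (nat_lit 49) (nat_lit 4) (nat_lit 497) (nat_lit 374) (nat_lit 329)) (XT.lf (nat_lit 0) (nat_lit 3796347456) (nat_lit 228) (nat_lit 5247542638) (nat_lit 76) (nat_lit 11389612247) (nat_lit 46) (nat_lit 5) (nat_lit 49) (nat_lit 5) (nat_lit 47) (nat_lit 4) (nat_lit 498) (nat_lit 374) (nat_lit 328))) (XT.nd (nat_lit 78) (nat_lit 0) (nat_lit 0) (XT.lf (nat_lit 0) (nat_lit 7068947558) (nat_lit 76) (nat_lit 2858837338) (nat_lit 152) (nat_lit 10922734289) (nat_lit 45) (nat_lit 5) (nat_lit 46) (nat_lit 5) (nat_lit 47) (nat_lit 4) (nat_lit 499) (nat_lit 374) (nat_lit 327)) (XT.lf (nat_lit 0) (nat_lit 16265450561) (nat_lit 152) (nat_lit 1574680725) (nat_lit 0) (nat_lit 3439248975) (nat_lit 45) (nat_lit 5) (nat_lit 47) (nat_lit 4) (nat_lit 45) (nat_lit 4) (nat_lit 500) (nat_lit 374) (nat_lit 326)))) (XT.nd (nat_lit 156) (nat_lit 76) (nat_lit 0) (XT.nd (nat_lit 78) (nat_lit 76) (nat_lit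 0) (XT.lf (nat_lit 0) (nat_lit 1123501297) (nat_lit 152) (nat_lit 10664762357) (nat_lit 76) (nat_lit 9930367973) (nat_lit 43) (nat_lit 5) (nat_lit 45) (nat_lit 5) (nat_lit 44) (nat_lit 4) (nat_lit 501) (nat_lit 374) (nat_lit 325)) (XT.lf (nat_lit 0) (nat_lit 1787153912) (nat_lit 76) (nat_lit 5527337945) (nat_lit 152) (nat_lit 14855975127) (nat_lit 42) (nat_lit 5) (nat_lit 43) (nat_lit 5) (nat_lit 44) (nat_lit 4) (nat_lit 502) (nat_lit 374) (nat_lit 324))) (XT.nd (nat_lit 78) (nat_lit 76) (nat_lit 0) (XT.lf (nat_lit 0) (nat_lit 13745936217) (nat_lit 152) (nat_lit 7932332135) (nat_lit 0) (nat_lit 955949352) (nat_lit 42) (nat_lit 5) (nat_lit 44) (nat_lit 4) (nat_lit 42) (nat_lit 4) (nat_lit 503) (nat_lit 374) (nat_lit 323)) (XT.lf (nat_lit 0) (nat_lit 4813886539) (nat_lit 76) (nat_lit 15596376744) (nat_lit 76) (nat_lit 2700421446) (nat_lit 41) (nat_lit 4) (nat_lit 42) (nat_lit 5) (nat_lit 42) (nat_lit 4) (nat_lit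 504) (nat_lit 374) (nat_lit 322))))))) (XT.nd (nat_lit 1170) (nat_lit 760) (nat_lit 0) (XT.nd (nat_lit 546) (nat_lit 456) (nat_lit 0) (XT.nd (nat_lit 234) (nat_lit 228) (nat_lit 0) (XT.nd (nat_lit 78) (nat_lit 76) (nat_lit 0) (XT.lf (nat_lit 0) (nat_lit 3621292946) (nat_lit 152) (nat_lit 5647612591) (nat_lit 76) (nat_lit 14330886043) (nat_lit 40) (nat_lit 5) (nat_lit 42) (nat_lit 5) (nat_lit 41) (nat_lit 4) (nat_lit 505) (nat_lit 374) (nat_lit 321)) (XT.nd (nat_lit 78) (nat_lit 0) (nat_lit 0) (XT.lf (nat_lit 0) (nat_lit 7384263815) (nat_lit 76) (nat_lit 2705877317) (nat_lit 152) (nat_lit 14012277452) (nat_lit 39) (nat_lit 5) (nat_lit 40) (nat_lit 5) (nat_lit 41) (nat_lit 4) (nat_lit 506) (nat_lit 374) (nat_lit 320)) (XT.lf (nat_lit 0) (nat_lit 16790510502) (nat_lit 152) (nat_lit 3849339539) (nat_lit 0) (nat_lit 3979152432) (nat_lit 39) (nat_lit 5) (nat_lit 41) (nat_lit 4) (nat_lit 39) (nat_lit 4) (nat_lit 507)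 (nat_lit 374) (nat_lit 319)))) (XT.nd (nat_lit 156) (nat_lit 76) (nat_lit 0) (XT.nd (nat_lit 78) (nat_lit 76) (nat_lit 0) (XT.lf (nat_lit 0) (nat_lit 9452266476) (nat_lit 76) (nat_lit 14299889263) (nat_lit 76) (nat_lit 1397121891) (nat_lit 38) (nat_lit 4) (nat_lit 39) (nat_lit 5) (nat_lit 39) (nat_lit 4) (nat_lit 508) (nat_lit 374) (nat_lit 318)) (XT.lf (nat_lit 0) (nat_lit 5107108476) (nat_lit 152) (nat_lit 2624084058) (nat_lit 76) (nat_lit 17963305083) (nat_lit 37) (nat_lit 5) (nat_lit 39) (nat_lit 5) (nat_lit 38) (nat_lit 4) (nat_lit 509) (nat_lit 374) (nat_lit 317))) (XT.nd (nat_lit 78) (nat_lit 0) (nat_lit 0) (XT.lf (nat_lit 0) (nat_lit 10932782827) (nat_lit 76) (nat_lit 895029550) (nat_lit 152) (nat_lit 14426365571) (nat_lit 36) (nat_lit 5) (nat_lit 37) (nat_lit 5) (nat_lit 38) (nat_lit 4) (nat_lit 510) (nat_lit 374) (nat_lit 316)) (XT.lf (nat_lit 0) (nat_lit 18780413270) (nat_lit 152) (nat_lit 2046904465)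 (nat_lit 0) (nat_lit 6002424183) (nat_lit 36) (nat_lit 5) (nat_lit 38) (nat_lit 4) (nat_lit 36) (nat_lit 4) (nat_lit 511) (nat_lit 374) (nat_lit 315))))) (XT.nd (nat_lit 312) (nat_lit 228) (nat_lit 0) (XT.nd (nat_lit 156) (nat_lit 76) (nat_lit 0) (XT.nd (nat_lit 78) (nat_lit 76) (nat_lit 0) (XT.lf (nat_lit 0) (nat_lit 11741362869) (nat_lit 76) (nat_lit 14268008786) (nat_lit 76) (nat_lit 1411169232) (nat_lit 35) (nat_lit 4) (nat_lit 36) (nat_lit 5) (nat_lit 36) (nat_lit 4) (nat_lit 512) (nat_lit 374) (nat_lit 314)) (XT.lf (nat_lit 0) (nat_lit 5287223278) (nat_lit 152) (nat_lit 2200330148) (nat_lit 76) (nat_lit 20540937843) (nat_lit 34) (nat_lit 5) (nat_lit 36) (nat_lit 5) (nat_lit 35) (nat_lit 4) (nat_lit 513) (nat_lit 374) (nat_lit 313))) (XT.nd (nat_lit 78) (nat_lit 0) (nat_lit 0) (XT.lf (nat_lit 0) (nat_lit 11797412264) (nat_lit 76) (nat_lit 421863497) (nat_lit 152) (nat_lit 16433154445) (nat_lit 33) (nat_lit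 5) (nat_lit 34) (nat_lit 5) (nat_lit 35) (nat_lit 4) (nat_lit 514) (nat_lit 374) (nat_lit 312)) (XT.lf (nat_lit 0) (nat_lit 19395384054) (nat_lit 152) (nat_lit 3202147264) (nat_lit 0) (nat_lit 6696474463) (nat_lit 33) (nat_lit 5) (nat_lit 35) (nat_lit 4) (nat_lit 33) (nat_lit 4) (nat_lit 515) (nat_lit 374) (nat_lit 311)))) (XT.nd (nat_lit 156) (nat_lit 76) (nat_lit 0) (XT.nd (nat_lit 78) (nat_lit 76) (nat_lit 0) (XT.lf (nat_lit 0) (nat_lit 10971393016) (nat_lit 76) (nat_lit 15874298051) (nat_lit 76) (nat_lit 3107371355) (nat_lit 32) (nat_lit 4) (nat_lit 33) (nat_lit 5) (nat_lit 33) (nat_lit 4) (nat_lit 516) (nat_lit 374) (nat_lit 310)) (XT.lf (nat_lit 0) (nat_lit 3793724156) (nat_lit 152) (nat_lit 5131702682) (nat_lit 76) (nat_lit 21705884937) (nat_lit 31) (nat_lit 5) (nat_lit 33) (nat_lit 5) (nat_lit 32) (nat_lit 4) (nat_lit 517) (nat_lit 374) (nat_lit 309))) (XT.nd (nat_lit 78) (nat_lit 0) (nat_lit 0) (XT.lf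 (nat_lit 0) (nat_lit 9186261747) (nat_lit 76) (nat_lit 1692229440) (nat_lit 152) (nat_lit 20449322782) (nat_lit 30) (nat_lit 5) (nat_lit 31) (nat_lit 5) (nat_lit 32) (nat_lit 4) (nat_lit 518) (nat_lit 374) (nat_lit 308)) (XT.lf (nat_lit 0) (nat_lit 18234347254) (nat_lit 152) (nat_lit 8156626173) (nat_lit 0) (nat_lit 5652482544) (nat_lit 30) (nat_lit 5) (nat_lit 32) (nat_lit 4) (nat_lit 30) (nat_lit 4) (nat_lit 519) (nat_lit 374) (nat_lit 307)))))) (XT.nd (nat_lit 624) (nat_lit 304) (nat_lit 0) (XT.nd (nat_lit 312) (nat_lit 228) (nat_lit 0) (XT.nd (nat_lit 156) (nat_lit 76) (nat_lit 0) (XT.nd (nat_lit 78) (nat_lit 76) (nat_lit 0) (XT.lf (nat_lit 0) (nat_lit 6259978325) (nat_lit 76) (nat_lit 19580125062) (nat_lit 76) (nat_lit 6939588200) (nat_lit 29) (nat_lit 4) (nat_lit 30) (nat_lit 5) (nat_lit 30) (nat_lit 4) (nat_lit 520) (nat_lit 374) (nat_lit 306)) (XT.lf (nat_lit 0) (nat_lit 168873367) (nat_lit 152) (nat_lit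 12354687181) (nat_lit 76) (nat_lit 21013350238) (nat_lit 28) (nat_lit 5) (nat_lit 30) (nat_lit 5) (nat_lit 29) (nat_lit 4) (nat_lit 521) (nat_lit 374) (nat_lit 305))) (XT.nd (nat_lit 78) (nat_lit 0) (nat_lit 0) (XT.lf (nat_lit 0) (nat_lit 2117310155) (nat_lit 76) (nat_lit 5207869353) (nat_lit 152) (nat_lit 26990384696) (nat_lit 27) (nat_lit 5) (nat_lit 28) (nat_lit 5) (nat_lit 29) (nat_lit 4) (nat_lit 522) (nat_lit 374) (nat_lit 304)) (XT.lf (nat_lit 0) (nat_lit 14798320045) (nat_lit 152) (nat_lit 17951366540) (nat_lit 0) (nat_lit 2364827250) (nat_lit 27) (nat_lit 5) (nat_lit 29) (nat_lit 4) (nat_lit 27) (nat_lit 4) (nat_lit 523) (nat_lit 374) (nat_lit 303)))) (XT.nd (nat_lit 156) (nat_lit 152) (nat_lit 0) (XT.nd (nat_lit 78) (nat_lit 76) (nat_lit 0) (XT.lf (nat_lit 0) (nat_lit 22502344567) (nat_lit 152) (nat_lit 3416646978) (nat_lit 0) (nat_lit 10018240658) (nat_lit 27) (nat_lit 5) (nat_lit 29) (nat_lit 4) (nat_lit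 27) (nat_lit 4) (nat_lit 524) (nat_lit 374) (nat_lit 302)) (XT.lf (nat_lit 0) (nat_lit 11696915045) (nat_lit 76) (nat_lit 18809446376) (nat_lit 76) (nat_lit 6276205463) (nat_lit 26) (nat_lit 4) (nat_lit 27) (nat_lit 5) (nat_lit 27) (nat_lit 4) (nat_lit 525) (nat_lit 374) (nat_lit 301))) (XT.nd (nat_lit 78) (nat_lit 76) (nat_lit 0) (XT.lf (nat_lit 0) (nat_lit 1067130742) (nat_lit 152) (nat_lit 10414671333) (nat_lit 76) (nat_lit 26171404831) (nat_lit 25) (nat_lit 5) (nat_lit 27) (nat_lit 5) (nat_lit 26) (nat_lit 4) (nat_lit 526) (nat_lit 374) (nat_lit 300)) (XT.lf (nat_lit 0) (nat_lit 4641889871) (nat_lit 76) (nat_lit 3865082026) (nat_lit 152) (nat_lit 30041060336) (nat_lit 24) (nat_lit 5) (nat_lit 25) (nat_lit 5) (nat_lit 26) (nat_lit 4) (nat_lit 527) (nat_lit 374) (nat_lit 299))))) (XT.nd (nat_lit 312) (nat_lit 228) (nat_lit 0) (XT.nd (nat_lit 156) (nat_lit 76) (nat_lit 0) (XT.nd (nat_lit 78) (nat_lit 0) (nat_lit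 0) (XT.lf (nat_lit 0) (nat_lit 16272259978) (nat_lit 152) (nat_lit 19225251932) (nat_lit 0) (nat_lit 3969123668) (nat_lit 24) (nat_lit 5) (nat_lit 26) (nat_lit 4) (nat_lit 24) (nat_lit 4) (nat_lit 528) (nat_lit 374) (nat_lit 298)) (XT.lf (nat_lit 0) (nat_lit 24267787590) (nat_lit 152) (nat_lit 4222826526) (nat_lit 0) (nat_lit 11922265268) (nat_lit 24) (nat_lit 5) (nat_lit 26) (nat_lit 4) (nat_lit 24) (nat_lit 4) (nat_lit 529) (nat_lit 374) (nat_lit 297))) (XT.nd (nat_lit 78) (nat_lit 0) (nat_lit 0) (XT.lf (nat_lit 0) (nat_lit 11373330954) (nat_lit 76) (nat_lit 21199384041) (nat_lit 76) (nat_lit 8812710252) (nat_lit 23) (nat_lit 4) (nat_lit 24) (nat_lit 5) (nat_lit 24) (nat_lit 4) (nat_lit 530) (nat_lit 374) (nat_lit 296)) (XT.lf (nat_lit 0) (nat_lit 27446429030) (nat_lit 76) (nat_lit 13683623992) (nat_lit 76) (nat_lit 1256997322) (nat_lit 23) (nat_lit 4) (nat_lit 24) (nat_lit 5) (nat_lit 24) (nat_lit 4) (nat_lit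 531) (nat_lit 374) (nat_lit 295)))) (XT.nd (nat_lit 156) (nat_lit 76) (nat_lit 0) (XT.nd (nat_lit 78) (nat_lit 0) (nat_lit 0) (XT.lf (nat_lit 0) (nat_lit 453091725) (nat_lit 76) (nat_lit 5910705121) (nat_lit 152) (nat_lit 37054073956) (nat_lit 21) (nat_lit 5) (nat_lit 22) (nat_lit 5) (nat_lit 23) (nat_lit 4) (nat_lit 532) (nat_lit 374) (nat_lit 294)) (XT.lf (nat_lit 0) (nat_lit 14321890485) (nat_lit 152) (nat_lit 27970352070) (nat_lit 0) (nat_lit 2182982430) (nat_lit 21) (nat_lit 5) (nat_lit 23) (nat_lit 4) (nat_lit 21) (nat_lit 4) (nat_lit 533) (nat_lit 374) (nat_lit 293))) (XT.nd (nat_lit 78) (nat_lit 76) (nat_lit 0) (XT.lf (nat_lit 0) (nat_lit 22539805090) (nat_lit 152) (nat_lit 12658463600) (nat_lit 0) (nat_lit 10365399418) (nat_lit 21) (nat_lit 5) (nat_lit 23) (nat_lit 4) (nat_lit 21) (nat_lit 4) (nat_lit 534) (nat_lit 374) (nat_lit 292)) (XT.lf (nat_lit 0) (nat_lit 3101606479) (nat_lit 76) (nat_lit 27896112109)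 (nat_lit 76) (nat_lit 15687242731) (nat_lit 20) (nat_lit 4) (nat_lit 21) (nat_lit 5) (nat_lit 21) (nat_lit 4) (nat_lit 535) (nat_lit 374) (nat_lit 291))))))))
noncomputable def xc44 : XT := (XT.nd (nat_lit 56706) (nat_lit 0) (nat_lit 3268) (XT.nd (nat_lit 1170) (nat_lit 152) (nat_lit 0) (XT.nd (nat_lit 546) (nat_lit 228) (nat_lit 0) (XT.nd (nat_lit 234) (nat_lit 76) (nat_lit 0) (XT.nd (nat_lit 78) (nat_lit 152) (nat_lit 0) (XT.lf (nat_lit 0) (nat_lit 19522969124) (nat_lit 76) (nat_lit 20278249321) (nat_lit 76) (nat_lit 8035920035) (nat_lit 20) (nat_lit 4) (nat_lit 21) (nat_lit 5) (nat_lit 21) (nat_lit 4) (nat_lit 536) (nat_lit 374) (nat_lit 290)) (XT.nd (nat_lit 78) (nat_lit 152) (nat_lit 0) (XT.lf (nat_lit 0) (nat_lit 36368044851) (nat_lit 76) (nat_lit 12465849603) (nat_lit 76) (nat_lit 191034969) (nat_lit 20) (nat_lit 4) (nat_lit 21) (nat_lit 5) (nat_lit 21) (nat_lit 4) (nat_lit 537) (nat_lit 374) (nat_lit 289))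 (XT.lf (nat_lit 0) (nat_lit 3392888079) (nat_lit 76) (nat_lit 4340728613) (nat_lit 152) (nat_lit 42512511894) (nat_lit 18) (nat_lit 5) (nat_lit 19) (nat_lit 5) (nat_lit 20) (nat_lit 4) (nat_lit 538) (nat_lit 374) (nat_lit 288)))) (XT.nd (nat_lit 156) (nat_lit 76) (nat_lit 0) (XT.nd (nat_lit 78) (nat_lit 0) (nat_lit 0) (XT.lf (nat_lit 0) (nat_lit 16025753013) (nat_lit 152) (nat_lit 31426038980) (nat_lit 0) (nat_lit 4048108000) (nat_lit 18) (nat_lit 5) (nat_lit 20) (nat_lit 4) (nat_lit 18) (nat_lit 4) (nat_lit 539) (nat_lit 374) (nat_lit 287)) (XT.lf (nat_lit 0) (nat_lit 24576415943) (nat_lit 152) (nat_lit 15644668139) (nat_lit 0) (nat_lit 12569908119) (nat_lit 18) (nat_lit 5) (nat_lit 20) (nat_lit 4) (nat_lit 18) (nat_lit 4) (nat_lit 540) (nat_lit 374) (nat_lit 286))) (XT.nd (nat_lit 78) (nat_lit 0) (nat_lit 0) (XT.lf (nat_lit 0) (nat_lit 557261478) (nat_lit 76) (nat_lit 32799446456) (nat_lit 76) (nat_lit 20764916486)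 (nat_lit 17) (nat_lit 4) (nat_lit 18) (nat_lit 5) (nat_lit 18) (nat_lit 4) (nat_lit 541) (nat_lit 374) (nat_lit 285)) (XT.lf (nat_lit 0) (nat_lit 17502817882) (nat_lit 76) (nat_lit 25023656104) (nat_lit 76) (nat_lit 12961920166) (nat_lit 17) (nat_lit 4) (nat_lit 18) (nat_lit 5) (nat_lit 18) (nat_lit 4) (nat_lit 542) (nat_lit 374) (nat_lit 284))))) (XT.nd (nat_lit 312) (nat_lit 76) (nat_lit 0) (XT.nd (nat_lit 156) (nat_lit 76) (nat_lit 0) (XT.nd (nat_lit 78) (nat_lit 76) (nat_lit 0) (XT.lf (nat_lit 0) (nat_lit 34895448295) (nat_lit 76) (nat_lit 17044899118) (nat_lit 76) (nat_lit 4956749619) (nat_lit 17) (nat_lit 4) (nat_lit 18) (nat_lit 5) (nat_lit 18) (nat_lit 4) (nat_lit 543) (nat_lit 374) (nat_lit 283)) (XT.lf (nat_lit 0) (nat_lit 3194022649) (nat_lit 152) (nat_lit 5629927754) (nat_lit 76) (nat_lit 49524074148) (nat_lit 16) (nat_lit 5) (nat_lit 18) (nat_lit 5) (nat_lit 17) (nat_lit 4) (nat_lit 544) (nat_lit 374)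 (nat_lit 282))) (XT.nd (nat_lit 78) (nat_lit 0) (nat_lit 0) (XT.lf (nat_lit 0) (nat_lit 11346925803) (nat_lit 76) (nat_lit 222343581) (nat_lit 152) (nat_lit 48269351346) (nat_lit 15) (nat_lit 5) (nat_lit 16) (nat_lit 5) (nat_lit 17) (nat_lit 4) (nat_lit 545) (nat_lit 374) (nat_lit 281)) (XT.lf (nat_lit 0) (nat_lit 20306746949) (nat_lit 152) (nat_lit 32565717174) (nat_lit 0) (nat_lit 8498141903) (nat_lit 15) (nat_lit 5) (nat_lit 17) (nat_lit 4) (nat_lit 15) (nat_lit 4) (nat_lit 546) (nat_lit 374) (nat_lit 280)))) (XT.nd (nat_lit 156) (nat_lit 0) (nat_lit 0) (XT.nd (nat_lit 78) (nat_lit 76) (nat_lit 0) (XT.lf (nat_lit 0) (nat_lit 29279940740) (nat_lit 152) (nat_lit 16220851684) (nat_lit 0) (nat_lit 17448551124) (nat_lit 15) (nat_lit 5) (nat_lit 17) (nat_lit 4) (nat_lit 15) (nat_lit 4) (nat_lit 547) (nat_lit 374) (nat_lit 279)) (XT.lf (nat_lit 0) (nat_lit 570452346) (nat_lit 76) (nat_lit 37929585298) (nat_lit 76)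 (nat_lit 26076074741) (nat_lit 14) (nat_lit 4) (nat_lit 15) (nat_lit 5) (nat_lit 15) (nat_lit 4) (nat_lit 548) (nat_lit 374) (nat_lit 278))) (XT.nd (nat_lit 78) (nat_lit 0) (nat_lit 0) (XT.lf (nat_lit 0) (nat_lit 18143507649) (nat_lit 76) (nat_lit 29989537503) (nat_lit 76) (nat_lit 18114550304) (nat_lit 14) (nat_lit 4) (nat_lit 15) (nat_lit 5) (nat_lit 15) (nat_lit 4) (nat_lit 549) (nat_lit 374) (nat_lit 277)) (XT.lf (nat_lit 0) (nat_lit 36190842566) (nat_lit 76) (nat_lit 21837509929) (nat_lit 76) (nat_lit 9941671621) (nat_lit 14) (nat_lit 4) (nat_lit 15) (nat_lit 5) (nat_lit 15) (nat_lit 4) (nat_lit 550) (nat_lit 374) (nat_lit 276)))))) (XT.nd (nat_lit 54912) (nat_lit 0) (nat_lit 7676) (XT.nd (nat_lit 54600) (nat_lit 0) (nat_lit 9424) (XT.nd (nat_lit 78) (nat_lit 152) (nat_lit 0) (XT.lf (nat_lit 0) (nat_lit 54728226614) (nat_lit 76) (nat_lit 13466379446) (nat_lit 76) (nat_lit 1550297343) (nat_lit 14) (nat_lit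 4) (nat_lit 15) (nat_lit 5) (nat_lit 15) (nat_lit 4) (nat_lit 551) (nat_lit 374) (nat_lit 275)) (XT.nd (nat_lit 78) (nat_lit 0) (nat_lit 0) (XT.lf (nat_lit 0) (nat_lit 2172535913) (nat_lit 76) (nat_lit 4777351862) (nat_lit 152) (nat_lit 64621231950) (nat_lit 12) (nat_lit 5) (nat_lit 13) (nat_lit 5) (nat_lit 14) (nat_lit 4) (nat_lit 552) (nat_lit 374) (nat_lit 274)) (XT.lf (nat_lit 0) (nat_lit 15841781498) (nat_lit 152) (nat_lit 53369682934) (nat_lit 0) (nat_lit 4235162090) (nat_lit 12) (nat_lit 5) (nat_lit 14) (nat_lit 4) (nat_lit 12) (nat_lit 4) (nat_lit 553) (nat_lit 374) (nat_lit 273)))) (XT.nd (nat_lit 156) (nat_lit 608) (nat_lit 0) (XT.nd (nat_lit 78) (nat_lit 380) (nat_lit 0) (XT.lf (nat_lit 0) (nat_lit 3244155157) (nat_lit 304) (nat_lit 678213838) (nat_lit 304) (nat_lit 678213838) (nat_lit 149) (nat_lit 4) (nat_lit 153) (nat_lit 5) (nat_lit 153) (nat_lit 4) (nat_lit 450) (nat_lit 375) (nat_lit 375)) (XT.lf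 (nat_lit 0) (nat_lit 3043112282) (nat_lit 380) (nat_lit 4095690707) (nat_lit 0) (nat_lit 2178901922) (nat_lit 144) (nat_lit 5) (nat_lit 149) (nat_lit 4) (nat_lit 144) (nat_lit 4) (nat_lit 451) (nat_lit 375) (nat_lit 374))) (XT.nd (nat_lit 78) (nat_lit 304) (nat_lit 0) (XT.lf (nat_lit 0) (nat_lit 3904134343) (nat_lit 304) (nat_lit 3618603663) (nat_lit 304) (nat_lit 1915354119) (nat_lit 140) (nat_lit 4) (nat_lit 144) (nat_lit 5) (nat_lit 144) (nat_lit 4) (nat_lit 452) (nat_lit 375) (nat_lit 373)) (XT.lf (nat_lit 0) (nat_lit 2488172279) (nat_lit 304) (nat_lit 7030621274) (nat_lit 0) (nat_lit 43657043) (nat_lit 136) (nat_lit 5) (nat_lit 140) (nat_lit 4) (nat_lit 136) (nat_lit 4) (nat_lit 453) (nat_lit 375) (nat_lit 372))))) (XT.nd (nat_lit 312) (nat_lit 760) (nat_lit 0) (XT.nd (nat_lit 156) (nat_lit 608) (nat_lit 0) (XT.nd (nat_lit 78) (nat_lit 76) (nat_lit 0) (XT.lf (nat_lit 0) (nat_lit 1069695538) (nat_lit 304) (nat_lit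 5916311785) (nat_lit 304) (nat_lit 2703956837) (nat_lit 132) (nat_lit 4) (nat_lit 136) (nat_lit 5) (nat_lit 136) (nat_lit 4) (nat_lit 454) (nat_lit 375) (nat_lit 371)) (XT.lf (nat_lit 0) (nat_lit 1732687146) (nat_lit 380) (nat_lit 440475489) (nat_lit 76) (nat_lit 7648526927) (nat_lit 131) (nat_lit 5) (nat_lit 136) (nat_lit 5) (nat_lit 132) (nat_lit 4) (nat_lit 455) (nat_lit 375) (nat_lit 370))) (XT.nd (nat_lit 78) (nat_lit 380) (nat_lit 0) (XT.lf (nat_lit 0) (nat_lit 6242761002) (nat_lit 304) (nat_lit 2016450166) (nat_lit 0) (nat_lit 1697525112) (nat_lit 128) (nat_lit 5) (nat_lit 132) (nat_lit 4) (nat_lit 128) (nat_lit 4) (nat_lit 456) (nat_lit 375) (nat_lit 369)) (XT.lf (nat_lit 0) (nat_lit 766958871) (nat_lit 380) (nat_lit 3670525018) (nat_lit 76) (nat_lit 5658430808) (nat_lit 123) (nat_lit 5) (nat_lit 128) (nat_lit 5) (nat_lit 124) (nat_lit 4) (nat_lit 457) (nat_lit 375) (nat_lit 368)))) (XT.nd (nat_lit 156)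 (nat_lit 304) (nat_lit 0) (XT.nd (nat_lit 78) (nat_lit 228) (nat_lit 0) (XT.lf (nat_lit 0) (nat_lit 4823258883) (nat_lit 228) (nat_lit 454108451) (nat_lit 304) (nat_lit 4961719093) (nat_lit 120) (nat_lit 5) (nat_lit 123) (nat_lit 5) (nat_lit 124) (nat_lit 4) (nat_lit 458) (nat_lit 375) (nat_lit 367)) (XT.lf (nat_lit 0) (nat_lit 3129458163) (nat_lit 228) (nat_lit 6799748228) (nat_lit 228) (nat_lit 457174948) (nat_lit 117) (nat_lit 4) (nat_lit 120) (nat_lit 5) (nat_lit 120) (nat_lit 4) (nat_lit 459) (nat_lit 375) (nat_lit 366))) (XT.nd (nat_lit 78) (nat_lit 0) (nat_lit 0) (XT.lf (nat_lit 0) (nat_lit 1328140292) (nat_lit 228) (nat_lit 2749127357) (nat_lit 304) (nat_lit 6460340884) (nat_lit 113) (nat_lit 5) (nat_lit 116) (nat_lit 5) (nat_lit 117) (nat_lit 4) (nat_lit 460) (nat_lit 375) (nat_lit 365)) (XT.lf (nat_lit 0) (nat_lit 8730823358) (nat_lit 304) (nat_lit 549500768) (nat_lit 0) (nat_lit 1413155163) (nat_lit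 113) (nat_lit 5) (nat_lit 117) (nat_lit 4) (nat_lit 113) (nat_lit 4) (nat_lit 461) (nat_lit 375) (nat_lit 364))))))) (XT.nd (nat_lit 1170) (nat_lit 1824) (nat_lit 0) (XT.nd (nat_lit 546) (nat_lit 1216) (nat_lit 0) (XT.nd (nat_lit 234) (nat_lit 608) (nat_lit 0) (XT.nd (nat_lit 78) (nat_lit 456) (nat_lit 0) (XT.lf (nat_lit 0) (nat_lit 2632859806) (nat_lit 304) (nat_lit 2527666532) (nat_lit 76) (nat_lit 5692289837) (nat_lit 109) (nat_lit 5) (nat_lit 113) (nat_lit 5) (nat_lit 110) (nat_lit 4) (nat_lit 462) (nat_lit 375) (nat_lit 363)) (XT.nd (nat_lit 78) (nat_lit 304) (nat_lit 0) (XT.lf (nat_lit 0) (nat_lit 6411544992) (nat_lit 152) (nat_lit 890161537) (nat_lit 228) (nat_lit 3715405980) (nat_lit 107) (nat_lit 5) (nat_lit 109) (nat_lit 5) (nat_lit 110) (nat_lit 4) (nat_lit 463) (nat_lit 375) (nat_lit 362)) (XT.lf (nat_lit 0) (nat_lit 916251047) (nat_lit 304) (nat_lit 6813583912) (nat_lit 76) (nat_lit 3455945189) (nat_lit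 103) (nat_lit 5) (nat_lit 107) (nat_lit 5) (nat_lit 104) (nat_lit 4) (nat_lit 464) (nat_lit 375) (nat_lit 361)))) (XT.nd (nat_lit 156) (nat_lit 456) (nat_lit 0) (XT.nd (nat_lit 78) (nat_lit 0) (nat_lit 0) (XT.lf (nat_lit 0) (nat_lit 2196843945) (nat_lit 152) (nat_lit 3400823333) (nat_lit 228) (nat_lit 5761181262) (nat_lit 101) (nat_lit 5) (nat_lit 103) (nat_lit 5) (nat_lit 104) (nat_lit 4) (nat_lit 465) (nat_lit 375) (nat_lit 360)) (XT.lf (nat_lit 0) (nat_lit 10408337315) (nat_lit 228) (nat_lit 84771789) (nat_lit 0) (nat_lit 1044344157) (nat_lit 101) (nat_lit 5) (nat_lit 104) (nat_lit 4) (nat_lit 101) (nat_lit 4) (nat_lit 466) (nat_lit 375) (nat_lit 359))) (XT.nd (nat_lit 78) (nat_lit 152) (nat_lit 0) (XT.lf (nat_lit 0) (nat_lit 3605665730) (nat_lit 304) (nat_lit 2495516631) (nat_lit 76) (nat_lit 5618147000) (nat_lit 97) (nat_lit 5) (nat_lit 101) (nat_lit 5) (nat_lit 98) (nat_lit 4) (nat_lit 467) (nat_lit 375)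 (nat_lit 358)) (XT.lf (nat_lit 0) (nat_lit 6877925828) (nat_lit 152) (nat_lit 1560907743) (nat_lit 228) (nat_lit 3468129573) (nat_lit 95) (nat_lit 5) (nat_lit 97) (nat_lit 5) (nat_lit 98) (nat_lit 4) (nat_lit 468) (nat_lit 375) (nat_lit 357))))) (XT.nd (nat_lit 312) (nat_lit 532) (nat_lit 0) (XT.nd (nat_lit 156) (nat_lit 228) (nat_lit 0) (XT.nd (nat_lit 78) (nat_lit 152) (nat_lit 0) (XT.lf (nat_lit 0) (nat_lit 1301302692) (nat_lit 304) (nat_lit 7725385198) (nat_lit 76) (nat_lit 3072858941) (nat_lit 91) (nat_lit 5) (nat_lit 95) (nat_lit 5) (nat_lit 92) (nat_lit 4) (nat_lit 469) (nat_lit 375) (nat_lit 356)) (XT.lf (nat_lit 0) (nat_lit 1696351340) (nat_lit 152) (nat_lit 4443604714) (nat_lit 228) (nat_lit 6157053731) (nat_lit 89) (nat_lit 5) (nat_lit 91) (nat_lit 5) (nat_lit 92) (nat_lit 4) (nat_lit 470) (nat_lit 375) (nat_lit 355))) (XT.nd (nat_lit 78) (nat_lit 228) (nat_lit 0) (XT.lf (nat_lit 0) (nat_lit 11118474390)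 (nat_lit 228) (nat_lit 1095475339) (nat_lit 0) (nat_lit 286612743) (nat_lit 89) (nat_lit 5) (nat_lit 92) (nat_lit 4) (nat_lit 89) (nat_lit 4) (nat_lit 471) (nat_lit 375) (nat_lit 354)) (XT.lf (nat_lit 0) (nat_lit 3510681525) (nat_lit 228) (nat_lit 4071902673) (nat_lit 76) (nat_lit 5125317678) (nat_lit 86) (nat_lit 5) (nat_lit 89) (nat_lit 5) (nat_lit 87) (nat_lit 4) (nat_lit 472) (nat_lit 375) (nat_lit 353)))) (XT.nd (nat_lit 156) (nat_lit 152) (nat_lit 0) (XT.nd (nat_lit 78) (nat_lit 228) (nat_lit 0) (XT.lf (nat_lit 0) (nat_lit 5709514833) (nat_lit 152) (nat_lit 2794989712) (nat_lit 228) (nat_lit 4417091338) (nat_lit 84) (nat_lit 5) (nat_lit 86) (nat_lit 5) (nat_lit 87) (nat_lit 4) (nat_lit 473) (nat_lit 375) (nat_lit 352)) (XT.lf (nat_lit 0) (nat_lit 500123038) (nat_lit 228) (nat_lit 10538441910) (nat_lit 76) (nat_lit 2102888840) (nat_lit 81) (nat_lit 5) (nat_lit 84) (nat_lit 5) (nat_lit 82) (nat_lit 4) (nat_lit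 474) (nat_lit 375) (nat_lit 351))) (XT.nd (nat_lit 78) (nat_lit 152) (nat_lit 0) (XT.lf (nat_lit 0) (nat_lit 5493891964) (nat_lit 228) (nat_lit 726920980) (nat_lit 76) (nat_lit 7145253829) (nat_lit 81) (nat_lit 5) (nat_lit 84) (nat_lit 5) (nat_lit 82) (nat_lit 4) (nat_lit 475) (nat_lit 375) (nat_lit 350)) (XT.lf (nat_lit 0) (nat_lit 9417601602) (nat_lit 152) (nat_lit 1229424537) (nat_lit 228) (nat_lit 2950111138) (nat_lit 79) (nat_lit 5) (nat_lit 81) (nat_lit 5) (nat_lit 82) (nat_lit 4) (nat_lit 476) (nat_lit 375) (nat_lit 349)))))) (XT.nd (nat_lit 546) (nat_lit 836) (nat_lit 0) (XT.nd (nat_lit 234) (nat_lit 608) (nat_lit 0) (XT.nd (nat_lit 78) (nat_lit 152) (nat_lit 0) (XT.lf (nat_lit 0) (nat_lit 2100351841) (nat_lit 228) (nat_lit 7875108554) (nat_lit 76) (nat_lit 3858410660) (nat_lit 76) (nat_lit 5) (nat_lit 79) (nat_lit 5) (nat_lit 77) (nat_lit 4) (nat_lit 477) (nat_lit 375) (nat_lit 348)) (XT.nd (nat_lit 78)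 (nat_lit 0) (nat_lit 0) (XT.lf (nat_lit 0) (nat_lit 2267221929) (nat_lit 152) (nat_lit 4971960556) (nat_lit 228) (nat_lit 6837768860) (nat_lit 74) (nat_lit 5) (nat_lit 76) (nat_lit 5) (nat_lit 77) (nat_lit 4) (nat_lit 478) (nat_lit 375) (nat_lit 347)) (XT.lf (nat_lit 0) (nat_lit 12534127305) (nat_lit 228) (nat_lit 1598222161) (nat_lit 0) (nat_lit 194921162) (nat_lit 74) (nat_lit 5) (nat_lit 77) (nat_lit 4) (nat_lit 74) (nat_lit 4) (nat_lit 479) (nat_lit 375) (nat_lit 346)))) (XT.nd (nat_lit 156) (nat_lit 228) (nat_lit 0) (XT.nd (nat_lit 78) (nat_lit 152) (nat_lit 0) (XT.lf (nat_lit 0) (nat_lit 3394007732) (nat_lit 228) (nat_lit 5714300043) (nat_lit 76) (nat_lit 5474087544) (nat_lit 71) (nat_lit 5) (nat_lit 74) (nat_lit 5) (nat_lit 72) (nat_lit 4) (nat_lit 480) (nat_lit 375) (nat_lit 345)) (XT.lf (nat_lit 0) (nat_lit 4769723526) (nat_lit 152) (nat_lit 3915533847) (nat_lit 228) (nat_lit 6159852659) (nat_lit 69) (nat_lit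 5) (nat_lit 71) (nat_lit 5) (nat_lit 72) (nat_lit 4) (nat_lit 481) (nat_lit 375) (nat_lit 344))) (XT.nd (nat_lit 78) (nat_lit 76) (nat_lit 0) (XT.lf (nat_lit 0) (nat_lit 423127410) (nat_lit 152) (nat_lit 13710907115) (nat_lit 152) (nat_lit 981712458) (nat_lit 67) (nat_lit 4) (nat_lit 69) (nat_lit 5) (nat_lit 69) (nat_lit 4) (nat_lit 482) (nat_lit 375) (nat_lit 343)) (XT.lf (nat_lit 0) (nat_lit 4331180484) (nat_lit 228) (nat_lit 4172284790) (nat_lit 76) (nat_lit 6887857232) (nat_lit 66) (nat_lit 5) (nat_lit 69) (nat_lit 5) (nat_lit 67) (nat_lit 4) (nat_lit 483) (nat_lit 375) (nat_lit 342))))) (XT.nd (nat_lit 312) (nat_lit 456) (nat_lit 0) (XT.nd (nat_lit 156) (nat_lit 152) (nat_lit 0) (XT.nd (nat_lit 78) (nat_lit 152) (nat_lit 0) (XT.lf (nat_lit 0) (nat_lit 6645402859) (nat_lit 76) (nat_lit 3127264446) (nat_lit 152) (nat_lit 5902542351) (nat_lit 65) (nat_lit 5) (nat_lit 66) (nat_lit 5) (nat_lit 67) (nat_lit 4) (nat_lit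 484) (nat_lit 375) (nat_lit 341)) (XT.lf (nat_lit 0) (nat_lit 1779456688) (nat_lit 152) (nat_lit 13606087378) (nat_lit 152) (nat_lit 581828990) (nat_lit 63) (nat_lit 4) (nat_lit 65) (nat_lit 5) (nat_lit 65) (nat_lit 4) (nat_lit 485) (nat_lit 375) (nat_lit 340))) (XT.nd (nat_lit 78) (nat_lit 76) (nat_lit 0) (XT.lf (nat_lit 0) (nat_lit 4851412235) (nat_lit 228) (nat_lit 3385029418) (nat_lit 76) (nat_lit 8028996028) (nat_lit 62) (nat_lit 5) (nat_lit 65) (nat_lit 5) (nat_lit 63) (nat_lit 4) (nat_lit 486) (nat_lit 375) (nat_lit 339)) (XT.lf (nat_lit 0) (nat_lit 7752897032) (nat_lit 76) (nat_lit 2685201374) (nat_lit 152) (nat_lit 6134112420) (nat_lit 61) (nat_lit 5) (nat_lit 62) (nat_lit 5) (nat_lit 63) (nat_lit 4) (nat_lit 487) (nat_lit 375) (nat_lit 338)))) (XT.nd (nat_lit 156) (nat_lit 228) (nat_lit 0) (XT.nd (nat_lit 78) (nat_lit 76) (nat_lit 0) (XT.lf (nat_lit 0) (nat_lit 2287526641) (nat_lit 152) (nat_lit 13918369774)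 (nat_lit 152) (nat_lit 681888962) (nat_lit 59) (nat_lit 4) (nat_lit 61) (nat_lit 5) (nat_lit 61) (nat_lit 4) (nat_lit 488) (nat_lit 375) (nat_lit 337)) (XT.lf (nat_lit 0) (nat_lit 4882107905) (nat_lit 228) (nat_lit 3511618052) (nat_lit 76) (nat_lit 8816347177) (nat_lit 58) (nat_lit 5) (nat_lit 61) (nat_lit 5) (nat_lit 59) (nat_lit 4) (nat_lit 489) (nat_lit 375) (nat_lit 336))) (XT.nd (nat_lit 78) (nat_lit 152) (nat_lit 0) (XT.lf (nat_lit 0) (nat_lit 7926610490) (nat_lit 76) (nat_lit 2678961803) (nat_lit 152) (nat_lit 6936070351) (nat_lit 57) (nat_lit 5) (nat_lit 58) (nat_lit 5) (nat_lit 59) (nat_lit 4) (nat_lit 490) (nat_lit 375) (nat_lit 335)) (XT.lf (nat_lit 0) (nat_lit 1770025663) (nat_lit 152) (nat_lit 14744636694) (nat_lit 152) (nat_lit 1368082384) (nat_lit 55) (nat_lit 4) (nat_lit 57) (nat_lit 5) (nat_lit 57) (nat_lit 4) (nat_lit 491) (nat_lit 375) (nat_lit 334))))))))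
noncomputable def xc45 : XT := (XT.nd (nat_lit 2340) (nat_lit 1140) (nat_lit 0) (XT.nd (nat_lit 1170) (nat_lit 836) (nat_lit 0) (XT.nd (nat_lit 546) (nat_lit 456) (nat_lit 0) (XT.nd (nat_lit 234) (nat_lit 380) (nat_lit 0) (XT.nd (nat_lit 78) (nat_lit 228) (nat_lit 0) (XT.lf (nat_lit 0) (nat_lit 4336671190) (nat_lit 228) (nat_lit 4738207159) (nat_lit 76) (nat_lit 9156296967) (nat_lit 54) (nat_lit 5) (nat_lit 57) (nat_lit 5) (nat_lit 55) (nat_lit 4) (nat_lit 492) (nat_lit 375) (nat_lit 333)) (XT.nd (nat_lit 78) (nat_lit 152) (nat_lit 0) (XT.lf (nat_lit 0) (nat_lit 6972568699) (nat_lit 76) (nat_lit 3211916591) (nat_lit 152) (nat_lit 8405187595) (nat_lit 53) (nat_lit 5) (nat_lit 54) (nat_lit 5) (nat_lit 55) (nat_lit 4) (nat_lit 493) (nat_lit 375) (nat_lit 332)) (XT.lf (nat_lit 0) (nat_lit 19362625) (nat_lit 152) (nat_lit 16196627218) (nat_lit 152) (nat_lit 2742690658) (nat_lit 51) (nat_lit 4) (nat_lit 53) (nat_lit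 5) (nat_lit 53) (nat_lit 4) (nat_lit 494) (nat_lit 375) (nat_lit 331)))) (XT.nd (nat_lit 156) (nat_lit 228) (nat_lit 0) (XT.nd (nat_lit 78) (nat_lit 76) (nat_lit 0) (XT.lf (nat_lit 0) (nat_lit 3112324100) (nat_lit 228) (nat_lit 7282603730) (nat_lit 76) (nat_lit 8940454149) (nat_lit 50) (nat_lit 5) (nat_lit 53) (nat_lit 5) (nat_lit 51) (nat_lit 4) (nat_lit 495) (nat_lit 375) (nat_lit 330)) (XT.lf (nat_lit 0) (nat_lit 4663616929) (nat_lit 76) (nat_lit 4403698980) (nat_lit 152) (nat_lit 10655872937) (nat_lit 49) (nat_lit 5) (nat_lit 50) (nat_lit 5) (nat_lit 51) (nat_lit 4) (nat_lit 496) (nat_lit 375) (nat_lit 329))) (XT.nd (nat_lit 78) (nat_lit 228) (nat_lit 0) (XT.lf (nat_lit 0) (nat_lit 15227000407) (nat_lit 152) (nat_lit 3144839763) (nat_lit 0) (nat_lit 1750010951) (nat_lit 49) (nat_lit 5) (nat_lit 51) (nat_lit 4) (nat_lit 49) (nat_lit 4) (nat_lit 497) (nat_lit 375) (nat_lit 328)) (XT.lf (nat_lit 0) (nat_lit 1087561061)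 (nat_lit 228) (nat_lit 11399568307) (nat_lit 76) (nat_lit 8042981611) (nat_lit 46) (nat_lit 5) (nat_lit 49) (nat_lit 5) (nat_lit 47) (nat_lit 4) (nat_lit 498) (nat_lit 375) (nat_lit 327))))) (XT.nd (nat_lit 312) (nat_lit 228) (nat_lit 0) (XT.nd (nat_lit 156) (nat_lit 152) (nat_lit 0) (XT.nd (nat_lit 78) (nat_lit 0) (nat_lit 0) (XT.lf (nat_lit 0) (nat_lit 733857553) (nat_lit 76) (nat_lit 6393091543) (nat_lit 152) (nat_lit 13822941332) (nat_lit 45) (nat_lit 5) (nat_lit 46) (nat_lit 5) (nat_lit 47) (nat_lit 4) (nat_lit 499) (nat_lit 375) (nat_lit 326)) (XT.lf (nat_lit 0) (nat_lit 13345478073) (nat_lit 76) (nat_lit 54607465) (nat_lit 152) (nat_lit 7980602931) (nat_lit 45) (nat_lit 5) (nat_lit 46) (nat_lit 5) (nat_lit 47) (nat_lit 4) (nat_lit 500) (nat_lit 375) (nat_lit 325))) (XT.nd (nat_lit 78) (nat_lit 76) (nat_lit 0) (XT.lf (nat_lit 0) (nat_lit 4417709499) (nat_lit 76) (nat_lit 15487148455) (nat_lit 76) (nat_lit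 1918251390) (nat_lit 44) (nat_lit 4) (nat_lit 45) (nat_lit 5) (nat_lit 45) (nat_lit 4) (nat_lit 501) (nat_lit 375) (nat_lit 324)) (XT.lf (nat_lit 0) (nat_lit 4262848858) (nat_lit 152) (nat_lit 5027735793) (nat_lit 76) (nat_lit 12986333899) (nat_lit 43) (nat_lit 5) (nat_lit 45) (nat_lit 5) (nat_lit 44) (nat_lit 4) (nat_lit 502) (nat_lit 375) (nat_lit 323)))) (XT.nd (nat_lit 156) (nat_lit 152) (nat_lit 0) (XT.nd (nat_lit 78) (nat_lit 0) (nat_lit 0) (XT.lf (nat_lit 0) (nat_lit 7739336303) (nat_lit 76) (nat_lit 2866477866) (nat_lit 152) (nat_lit 12137510440) (nat_lit 42) (nat_lit 5) (nat_lit 43) (nat_lit 5) (nat_lit 44) (nat_lit 4) (nat_lit 503) (nat_lit 375) (nat_lit 322)) (XT.lf (nat_lit 0) (nat_lit 17167109775) (nat_lit 152) (nat_lit 2380348333) (nat_lit 0) (nat_lit 3675425411) (nat_lit 42) (nat_lit 5) (nat_lit 44) (nat_lit 4) (nat_lit 42) (nat_lit 4) (nat_lit 504) (nat_lit 375) (nat_lit 321))) (XT.nd (nat_lit 78)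 (nat_lit 0) (nat_lit 0) (XT.lf (nat_lit 0) (nat_lit 278673515) (nat_lit 152) (nat_lit 13025862539) (nat_lit 76) (nat_lit 10410005076) (nat_lit 40) (nat_lit 5) (nat_lit 42) (nat_lit 5) (nat_lit 41) (nat_lit 4) (nat_lit 505) (nat_lit 375) (nat_lit 320)) (XT.lf (nat_lit 0) (nat_lit 6648215043) (nat_lit 152) (nat_lit 192669365) (nat_lit 76) (nat_lit 17379263786) (nat_lit 40) (nat_lit 5) (nat_lit 42) (nat_lit 5) (nat_lit 41) (nat_lit 4) (nat_lit 506) (nat_lit 375) (nat_lit 319)))))) (XT.nd (nat_lit 546) (nat_lit 380) (nat_lit 0) (XT.nd (nat_lit 234) (nat_lit 228) (nat_lit 0) (XT.nd (nat_lit 78) (nat_lit 152) (nat_lit 0) (XT.lf (nat_lit 0) (nat_lit 13175022436) (nat_lit 76) (nat_lit 104642549) (nat_lit 152) (nat_lit 11459135516) (nat_lit 39) (nat_lit 5) (nat_lit 40) (nat_lit 5) (nat_lit 41) (nat_lit 4) (nat_lit 507) (nat_lit 375) (nat_lit 318)) (XT.nd (nat_lit 78) (nat_lit 76) (nat_lit 0) (XT.lf (nat_lit 0) (nat_lit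 1531211542) (nat_lit 76) (nat_lit 18605504668) (nat_lit 76) (nat_lit 5135498079) (nat_lit 38) (nat_lit 4) (nat_lit 39) (nat_lit 5) (nat_lit 39) (nat_lit 4) (nat_lit 508) (nat_lit 375) (nat_lit 317)) (XT.lf (nat_lit 0) (nat_lit 1414260188) (nat_lit 152) (nat_lit 10685220440) (nat_lit 76) (nat_lit 13719855119) (nat_lit 37) (nat_lit 5) (nat_lit 39) (nat_lit 5) (nat_lit 38) (nat_lit 4) (nat_lit 509) (nat_lit 375) (nat_lit 316)))) (XT.nd (nat_lit 156) (nat_lit 152) (nat_lit 0) (XT.nd (nat_lit 78) (nat_lit 0) (nat_lit 0) (XT.lf (nat_lit 0) (nat_lit 2658654074) (nat_lit 76) (nat_lit 5370151421) (nat_lit 152) (nat_lit 18353396082) (nat_lit 36) (nat_lit 5) (nat_lit 37) (nat_lit 5) (nat_lit 38) (nat_lit 4) (nat_lit 510) (nat_lit 375) (nat_lit 315)) (XT.lf (nat_lit 0) (nat_lit 14911813717) (nat_lit 152) (nat_lit 10457621821) (nat_lit 0) (nat_lit 1590418510) (nat_lit 36) (nat_lit 5) (nat_lit 38) (nat_lit 4) (nat_lit 36) (nat_lit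 4) (nat_lit 511) (nat_lit 375) (nat_lit 314))) (XT.nd (nat_lit 78) (nat_lit 76) (nat_lit 0) (XT.lf (nat_lit 0) (nat_lit 3112178875) (nat_lit 76) (nat_lit 18919843200) (nat_lit 76) (nat_lit 5521894142) (nat_lit 35) (nat_lit 4) (nat_lit 36) (nat_lit 5) (nat_lit 36) (nat_lit 4) (nat_lit 512) (nat_lit 375) (nat_lit 313)) (XT.lf (nat_lit 0) (nat_lit 1230933790) (nat_lit 152) (nat_lit 10973477589) (nat_lit 76) (nat_lit 15959414713) (nat_lit 34) (nat_lit 5) (nat_lit 36) (nat_lit 5) (nat_lit 35) (nat_lit 4) (nat_lit 513) (nat_lit 375) (nat_lit 312))))) (XT.nd (nat_lit 312) (nat_lit 228) (nat_lit 0) (XT.nd (nat_lit 156) (nat_lit 76) (nat_lit 0) (XT.nd (nat_lit 78) (nat_lit 0) (nat_lit 0) (XT.lf (nat_lit 0) (nat_lit 2800050272) (nat_lit 76) (nat_lit 5251419089) (nat_lit 152) (nat_lit 20739641814) (nat_lit 33) (nat_lit 5) (nat_lit 34) (nat_lit 5) (nat_lit 35) (nat_lit 4) (nat_lit 514) (nat_lit 375) (nat_lit 311)) (XT.lf (nat_lit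 0) (nat_lit 15156165259) (nat_lit 152) (nat_lit 12340450827) (nat_lit 0) (nat_lit 1938213658) (nat_lit 33) (nat_lit 5) (nat_lit 35) (nat_lit 4) (nat_lit 33) (nat_lit 4) (nat_lit 515) (nat_lit 375) (nat_lit 310))) (XT.nd (nat_lit 78) (nat_lit 0) (nat_lit 0) (XT.lf (nat_lit 0) (nat_lit 1603011354) (nat_lit 76) (nat_lit 20889146348) (nat_lit 76) (nat_lit 7605158722) (nat_lit 32) (nat_lit 4) (nat_lit 33) (nat_lit 5) (nat_lit 33) (nat_lit 4) (nat_lit 516) (nat_lit 375) (nat_lit 309)) (XT.lf (nat_lit 0) (nat_lit 16122732783) (nat_lit 76) (nat_lit 14001384875) (nat_lit 76) (nat_lit 653284604) (nat_lit 32) (nat_lit 4) (nat_lit 33) (nat_lit 5) (nat_lit 33) (nat_lit 4) (nat_lit 517) (nat_lit 375) (nat_lit 308)))) (XT.nd (nat_lit 156) (nat_lit 76) (nat_lit 0) (XT.nd (nat_lit 78) (nat_lit 76) (nat_lit 0) (XT.lf (nat_lit 0) (nat_lit 6332390967) (nat_lit 152) (nat_lit 555591892) (nat_lit 76) (nat_lit 24589465725) (nat_lit 31)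 (nat_lit 5) (nat_lit 33) (nat_lit 5) (nat_lit 32) (nat_lit 4) (nat_lit 518) (nat_lit 375) (nat_lit 307)) (XT.lf (nat_lit 0) (nat_lit 13609301313) (nat_lit 152) (nat_lit 18055281988) (nat_lit 0) (nat_lit 530876192) (nat_lit 30) (nat_lit 5) (nat_lit 32) (nat_lit 4) (nat_lit 30) (nat_lit 4) (nat_lit 519) (nat_lit 375) (nat_lit 306))) (XT.nd (nat_lit 78) (nat_lit 76) (nat_lit 0) (XT.lf (nat_lit 0) (nat_lit 21132067124) (nat_lit 152) (nat_lit 3805439469) (nat_lit 0) (nat_lit 7996678748) (nat_lit 30) (nat_lit 5) (nat_lit 32) (nat_lit 4) (nat_lit 30) (nat_lit 4) (nat_lit 520) (nat_lit 375) (nat_lit 305)) (XT.lf (nat_lit 0) (nat_lit 10998605464) (nat_lit 76) (nat_lit 17942669136) (nat_lit 76) (nat_lit 4751976630) (nat_lit 29) (nat_lit 4) (nat_lit 30) (nat_lit 5) (nat_lit 30) (nat_lit 4) (nat_lit 521) (nat_lit 375) (nat_lit 304))))))) (XT.nd (nat_lit 1170) (nat_lit 456) (nat_lit 0) (XT.nd (nat_lit 546) (nat_lit 304) (nat_lit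 0) (XT.nd (nat_lit 234) (nat_lit 228) (nat_lit 0) (XT.nd (nat_lit 78) (nat_lit 76) (nat_lit 0) (XT.lf (nat_lit 0) (nat_lit 2454569222) (nat_lit 152) (nat_lit 8261610314) (nat_lit 76) (nat_lit 23758370609) (nat_lit 28) (nat_lit 5) (nat_lit 30) (nat_lit 5) (nat_lit 29) (nat_lit 4) (nat_lit 522) (nat_lit 375) (nat_lit 303)) (XT.nd (nat_lit 78) (nat_lit 0) (nat_lit 0) (XT.lf (nat_lit 0) (nat_lit 6600785005) (nat_lit 76) (nat_lit 3200840752) (nat_lit 152) (nat_lit 25475657002) (nat_lit 27) (nat_lit 5) (nat_lit 28) (nat_lit 5) (nat_lit 29) (nat_lit 4) (nat_lit 523) (nat_lit 375) (nat_lit 302)) (XT.lf (nat_lit 0) (nat_lit 17453420606) (nat_lit 152) (nat_lit 14153102397) (nat_lit 0) (nat_lit 4495045462) (nat_lit 27) (nat_lit 5) (nat_lit 29) (nat_lit 4) (nat_lit 27) (nat_lit 4) (nat_lit 524) (nat_lit 375) (nat_lit 301)))) (XT.nd (nat_lit 156) (nat_lit 152) (nat_lit 0) (XT.nd (nat_lit 78) (nat_lit 0) (nat_lit 0) (XT.lf (nat_lit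 0) (nat_lit 705103140) (nat_lit 76) (nat_lit 24625838150) (nat_lit 76) (nat_lit 11619757177) (nat_lit 26) (nat_lit 4) (nat_lit 27) (nat_lit 5) (nat_lit 27) (nat_lit 4) (nat_lit 525) (nat_lit 375) (nat_lit 300)) (XT.lf (nat_lit 0) (nat_lit 16217033605) (nat_lit 76) (nat_lit 17328817515) (nat_lit 76) (nat_lit 4276420203) (nat_lit 26) (nat_lit 4) (nat_lit 27) (nat_lit 5) (nat_lit 27) (nat_lit 4) (nat_lit 526) (nat_lit 375) (nat_lit 299))) (XT.nd (nat_lit 78) (nat_lit 76) (nat_lit 0) (XT.lf (nat_lit 0) (nat_lit 3182032305) (nat_lit 152) (nat_lit 6637839051) (nat_lit 76) (nat_lit 28900404030) (nat_lit 25) (nat_lit 5) (nat_lit 27) (nat_lit 5) (nat_lit 26) (nat_lit 4) (nat_lit 527) (nat_lit 375) (nat_lit 298)) (XT.lf (nat_lit 0) (nat_lit 8830328083) (nat_lit 76) (nat_lit 1992997190) (nat_lit 152) (nat_lit 28819273698) (nat_lit 24) (nat_lit 5) (nat_lit 25) (nat_lit 5) (nat_lit 26) (nat_lit 4) (nat_lit 528) (nat_lit 375)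 (nat_lit 297))))) (XT.nd (nat_lit 312) (nat_lit 152) (nat_lit 0) (XT.nd (nat_lit 156) (nat_lit 152) (nat_lit 0) (XT.nd (nat_lit 78) (nat_lit 0) (nat_lit 0) (XT.lf (nat_lit 0) (nat_lit 18780092293) (nat_lit 152) (nat_lit 15829246855) (nat_lit 0) (nat_lit 5980666823) (nat_lit 24) (nat_lit 5) (nat_lit 26) (nat_lit 4) (nat_lit 24) (nat_lit 4) (nat_lit 529) (nat_lit 375) (nat_lit 296)) (XT.lf (nat_lit 0) (nat_lit 26956660552) (nat_lit 152) (nat_lit 492460220) (nat_lit 0) (nat_lit 14117282202) (nat_lit 24) (nat_lit 5) (nat_lit 26) (nat_lit 4) (nat_lit 24) (nat_lit 4) (nat_lit 530) (nat_lit 375) (nat_lit 295))) (XT.nd (nat_lit 78) (nat_lit 76) (nat_lit 0) (XT.lf (nat_lit 0) (nat_lit 15533767758) (nat_lit 76) (nat_lit 19956569037) (nat_lit 76) (nat_lit 7078401483) (nat_lit 23) (nat_lit 4) (nat_lit 24) (nat_lit 5) (nat_lit 24) (nat_lit 4) (nat_lit 531) (nat_lit 375) (nat_lit 294)) (XT.lf (nat_lit 0) (nat_lit 633167290)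 (nat_lit 152) (nat_lit 11630497377) (nat_lit 76) (nat_lit 31338257829) (nat_lit 22) (nat_lit 5) (nat_lit 24) (nat_lit 5) (nat_lit 23) (nat_lit 4) (nat_lit 532) (nat_lit 375) (nat_lit 293)))) (XT.nd (nat_lit 156) (nat_lit 76) (nat_lit 0) (XT.nd (nat_lit 78) (nat_lit 0) (nat_lit 0) (XT.lf (nat_lit 0) (nat_lit 4175857054) (nat_lit 76) (nat_lit 4261702835) (nat_lit 152) (nat_lit 36226328146) (nat_lit 21) (nat_lit 5) (nat_lit 22) (nat_lit 5) (nat_lit 23) (nat_lit 4) (nat_lit 533) (nat_lit 375) (nat_lit 292)) (XT.lf (nat_lit 0) (nat_lit 16596600477) (nat_lit 152) (nat_lit 25170495904) (nat_lit 0) (nat_lit 3987001312) (nat_lit 21) (nat_lit 5) (nat_lit 23) (nat_lit 4) (nat_lit 21) (nat_lit 4) (nat_lit 534) (nat_lit 375) (nat_lit 291))) (XT.nd (nat_lit 78) (nat_lit 76) (nat_lit 0) (XT.lf (nat_lit 0) (nat_lit 25007313104) (nat_lit 152) (nat_lit 9505240101) (nat_lit 0) (nat_lit 12364254031) (nat_lit 21) (nat_lit 5) (nat_lit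 23) (nat_lit 4) (nat_lit 21) (nat_lit 4) (nat_lit 535) (nat_lit 375) (nat_lit 290)) (XT.lf (nat_lit 0) (nat_lit 6692995047) (nat_lit 76) (nat_lit 27007422958) (nat_lit 76) (nat_lit 14331878537) (nat_lit 20) (nat_lit 4) (nat_lit 21) (nat_lit 5) (nat_lit 21) (nat_lit 4) (nat_lit 536) (nat_lit 375) (nat_lit 289)))))) (XT.nd (nat_lit 624) (nat_lit 228) (nat_lit 0) (XT.nd (nat_lit 312) (nat_lit 76) (nat_lit 0) (XT.nd (nat_lit 156) (nat_lit 76) (nat_lit 0) (XT.nd (nat_lit 78) (nat_lit 76) (nat_lit 0) (XT.lf (nat_lit 0) (nat_lit 23505105162) (nat_lit 76) (nat_lit 19211283680) (nat_lit 76) (nat_lit 6504200086) (nat_lit 20) (nat_lit 4) (nat_lit 21) (nat_lit 5) (nat_lit 21) (nat_lit 4) (nat_lit 537) (nat_lit 375) (nat_lit 288)) (XT.lf (nat_lit 0) (nat_lit 1494650182) (nat_lit 152) (nat_lit 9703564280) (nat_lit 76) (nat_lit 39246864302) (nat_lit 19) (nat_lit 5) (nat_lit 21) (nat_lit 5) (nat_lit 20) (nat_lit 4) (nat_lit 538)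 (nat_lit 375) (nat_lit 287))) (XT.nd (nat_lit 78) (nat_lit 0) (nat_lit 0) (XT.lf (nat_lit 0) (nat_lit 6793151925) (nat_lit 76) (nat_lit 2842604119) (nat_lit 152) (nat_lit 42067625303) (nat_lit 18) (nat_lit 5) (nat_lit 19) (nat_lit 5) (nat_lit 20) (nat_lit 4) (nat_lit 539) (nat_lit 375) (nat_lit 286)) (XT.lf (nat_lit 0) (nat_lit 18143208625) (nat_lit 152) (nat_lit 29132940888) (nat_lit 0) (nat_lit 5719620609) (nat_lit 18) (nat_lit 5) (nat_lit 20) (nat_lit 4) (nat_lit 18) (nat_lit 4) (nat_lit 540) (nat_lit 375) (nat_lit 285)))) (XT.nd (nat_lit 156) (nat_lit 0) (nat_lit 0) (XT.nd (nat_lit 78) (nat_lit 76) (nat_lit 0) (XT.lf (nat_lit 0) (nat_lit 26902721064) (nat_lit 152) (nat_lit 12972377833) (nat_lit 0) (nat_lit 14451927080) (nat_lit 18) (nat_lit 5) (nat_lit 20) (nat_lit 4) (nat_lit 18) (nat_lit 4) (nat_lit 541) (nat_lit 375) (nat_lit 284)) (XT.lf (nat_lit 0) (nat_lit 3684809376) (nat_lit 76) (nat_lit 32245233719)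 (nat_lit 76) (nat_lit 19768026174) (nat_lit 17) (nat_lit 4) (nat_lit 18) (nat_lit 5) (nat_lit 18) (nat_lit 4) (nat_lit 542) (nat_lit 375) (nat_lit 283))) (XT.nd (nat_lit 78) (nat_lit 0) (nat_lit 0) (XT.lf (nat_lit 0) (nat_lit 21048125771) (nat_lit 76) (nat_lit 24280971486) (nat_lit 76) (nat_lit 11778119707) (nat_lit 17) (nat_lit 4) (nat_lit 18) (nat_lit 5) (nat_lit 18) (nat_lit 4) (nat_lit 543) (nat_lit 375) (nat_lit 282)) (XT.lf (nat_lit 0) (nat_lit 38874567426) (nat_lit 76) (nat_lit 16106348712) (nat_lit 76) (nat_lit 3578599618) (nat_lit 17) (nat_lit 4) (nat_lit 18) (nat_lit 5) (nat_lit 18) (nat_lit 4) (nat_lit 544) (nat_lit 375) (nat_lit 281))))) (XT.nd (nat_lit 312) (nat_lit 76) (nat_lit 0) (XT.nd (nat_lit 156) (nat_lit 0) (nat_lit 0) (XT.nd (nat_lit 78) (nat_lit 76) (nat_lit 0) (XT.lf (nat_lit 0) (nat_lit 4743297792) (nat_lit 152) (nat_lit 2923026723) (nat_lit 76) (nat_lit 52388515045) (nat_lit 16) (nat_lit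 5) (nat_lit 18) (nat_lit 5) (nat_lit 17) (nat_lit 4) (nat_lit 545) (nat_lit 375) (nat_lit 280)) (XT.lf (nat_lit 0) (nat_lit 13366185039) (nat_lit 152) (nat_lit 47067008571) (nat_lit 0) (nat_lit 1157069165) (nat_lit 15) (nat_lit 5) (nat_lit 17) (nat_lit 4) (nat_lit 15) (nat_lit 4) (nat_lit 546) (nat_lit 375) (nat_lit 279))) (XT.nd (nat_lit 78) (nat_lit 0) (nat_lit 0) (XT.lf (nat_lit 0) (nat_lit 22325695954) (nat_lit 152) (nat_lit 30749255891) (nat_lit 0) (nat_lit 10094459139) (nat_lit 15) (nat_lit 5) (nat_lit 17) (nat_lit 4) (nat_lit 15) (nat_lit 4) (nat_lit 547) (nat_lit 375) (nat_lit 278)) (XT.lf (nat_lit 0) (nat_lit 31527024978) (nat_lit 152) (nat_lit 13995406557) (nat_lit 0) (nat_lit 19274311521) (nat_lit 15) (nat_lit 5) (nat_lit 17) (nat_lit 4) (nat_lit 15) (nat_lit 4) (nat_lit 548) (nat_lit 375) (nat_lit 277)))) (XT.nd (nat_lit 156) (nat_lit 0) (nat_lit 0) (XT.nd (nat_lit 78) (nat_lit 0) (nat_lit 0) (XT.lf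 (nat_lit 0) (nat_lit 3273047666) (nat_lit 76) (nat_lit 37736626976) (nat_lit 76) (nat_lit 25463062410) (nat_lit 14) (nat_lit 4) (nat_lit 15) (nat_lit 5) (nat_lit 15) (nat_lit 4) (nat_lit 549) (nat_lit 375) (nat_lit 276)) (XT.lf (nat_lit 0) (nat_lit 21295076713) (nat_lit 76) (nat_lit 29597140248) (nat_lit 76) (nat_lit 17303331887) (nat_lit 14) (nat_lit 4) (nat_lit 15) (nat_lit 5) (nat_lit 15) (nat_lit 4) (nat_lit 550) (nat_lit 375) (nat_lit 275))) (XT.nd (nat_lit 78) (nat_lit 0) (nat_lit 0) (XT.lf (nat_lit 0) (nat_lit 39807891954) (nat_lit 76) (nat_lit 21238185344) (nat_lit 76) (nat_lit 8924722813) (nat_lit 14) (nat_lit 4) (nat_lit 15) (nat_lit 5) (nat_lit 15) (nat_lit 4) (nat_lit 551) (nat_lit 375) (nat_lit 274)) (XT.lf (nat_lit 0) (nat_lit 58827669636) (nat_lit 76) (nat_lit 12652458322) (nat_lit 76) (nat_lit 319914072) (nat_lit 14) (nat_lit 4) (nat_lit 15) (nat_lit 5) (nat_lit 15) (nat_lit 4) (nat_lit 552) (nat_lit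 375) (nat_lit 273))))))))
noncomputable def xc46 : XT := (XT.nd (nat_lit 56550) (nat_lit 0) (nat_lit 2052) (XT.nd (nat_lit 55380) (nat_lit 0) (nat_lit 5092) (XT.nd (nat_lit 54756) (nat_lit 0) (nat_lit 7676) (XT.nd (nat_lit 54444) (nat_lit 0) (nat_lit 9424) (XT.nd (nat_lit 54288) (nat_lit 0) (nat_lit 10716) (XT.lf (nat_lit 0) (nat_lit 4695903887) (nat_lit 76) (nat_lit 3701620288) (nat_lit 152) (nat_lit 65283538017) (nat_lit 12) (nat_lit 5) (nat_lit 13) (nat_lit 5) (nat_lit 14) (nat_lit 4) (nat_lit 553) (nat_lit 375) (nat_lit 272)) (XT.nd (nat_lit 78) (nat_lit 380) (nat_lit 0) (XT.lf (nat_lit 0) (nat_lit 4467391671) (nat_lit 380) (nat_lit 10602674) (nat_lit 380) (nat_lit 10602674) (nat_lit 158) (nat_lit 4) (nat_lit 163) (nat_lit 5) (nat_lit 163) (nat_lit 4) (nat_lit 448) (nat_lit 376) (nat_lit 376)) (XT.lf (nat_lit 0) (nat_lit 4299892486) (nat_lit 380) (nat_lit 1404747867) (nat_lit 0) (nat_lit 3383051715) (nat_lit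 153) (nat_lit 5) (nat_lit 158) (nat_lit 4) (nat_lit 153) (nat_lit 4) (nat_lit 449) (nat_lit 376) (nat_lit 375)))) (XT.nd (nat_lit 156) (nat_lit 608) (nat_lit 0) (XT.nd (nat_lit 78) (nat_lit 380) (nat_lit 0) (XT.lf (nat_lit 0) (nat_lit 6411755507) (nat_lit 304) (nat_lit 2298960804) (nat_lit 304) (nat_lit 491983362) (nat_lit 149) (nat_lit 4) (nat_lit 153) (nat_lit 5) (nat_lit 153) (nat_lit 4) (nat_lit 450) (nat_lit 376) (nat_lit 374)) (XT.lf (nat_lit 0) (nat_lit 3829986714) (nat_lit 380) (nat_lit 4254231127) (nat_lit 0) (nat_lit 1236600500) (nat_lit 144) (nat_lit 5) (nat_lit 149) (nat_lit 4) (nat_lit 144) (nat_lit 4) (nat_lit 451) (nat_lit 376) (nat_lit 373))) (XT.nd (nat_lit 78) (nat_lit 304) (nat_lit 0) (XT.lf (nat_lit 0) (nat_lit 3665105603) (nat_lit 304) (nat_lit 4592822642) (nat_lit 304) (nat_lit 1184835278) (nat_lit 140) (nat_lit 4) (nat_lit 144) (nat_lit 5) (nat_lit 144) (nat_lit 4) (nat_lit 452) (nat_lit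 376) (nat_lit 372)) (XT.lf (nat_lit 0) (nat_lit 2198978105) (nat_lit 228) (nat_lit 952667398) (nat_lit 304) (nat_lit 6416856559) (nat_lit 136) (nat_lit 5) (nat_lit 139) (nat_lit 5) (nat_lit 140) (nat_lit 4) (nat_lit 453) (nat_lit 376) (nat_lit 371))))) (XT.nd (nat_lit 312) (nat_lit 760) (nat_lit 0) (XT.nd (nat_lit 156) (nat_lit 608) (nat_lit 0) (XT.nd (nat_lit 78) (nat_lit 76) (nat_lit 0) (XT.lf (nat_lit 0) (nat_lit 655342640) (nat_lit 304) (nat_lit 6932288024) (nat_lit 304) (nat_lit 2110247269) (nat_lit 132) (nat_lit 4) (nat_lit 136) (nat_lit 5) (nat_lit 136) (nat_lit 4) (nat_lit 454) (nat_lit 376) (nat_lit 370)) (XT.lf (nat_lit 0) (nat_lit 2266310484) (nat_lit 380) (nat_lit 945193041) (nat_lit 76) (nat_lit 6619390041) (nat_lit 131) (nat_lit 5) (nat_lit 136) (nat_lit 5) (nat_lit 132) (nat_lit 4) (nat_lit 455) (nat_lit 376) (nat_lit 369))) (XT.nd (nat_lit 78) (nat_lit 380) (nat_lit 0) (XT.lf (nat_lit 0) (nat_lit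 6713316508) (nat_lit 304) (nat_lit 2607696250) (nat_lit 0) (nat_lit 646825796) (nat_lit 128) (nat_lit 5) (nat_lit 132) (nat_lit 4) (nat_lit 128) (nat_lit 4) (nat_lit 456) (nat_lit 376) (nat_lit 368)) (XT.lf (nat_lit 0) (nat_lit 1163693876) (nat_lit 380) (nat_lit 4366537423) (nat_lit 76) (nat_lit 4578271631) (nat_lit 123) (nat_lit 5) (nat_lit 128) (nat_lit 5) (nat_lit 124) (nat_lit 4) (nat_lit 457) (nat_lit 376) (nat_lit 367)))) (XT.nd (nat_lit 156) (nat_lit 304) (nat_lit 0) (XT.nd (nat_lit 78) (nat_lit 228) (nat_lit 0) (XT.lf (nat_lit 0) (nat_lit 4036788898) (nat_lit 228) (nat_lit 1583249801) (nat_lit 304) (nat_lit 4633263575) (nat_lit 120) (nat_lit 5) (nat_lit 123) (nat_lit 5) (nat_lit 124) (nat_lit 4) (nat_lit 458) (nat_lit 376) (nat_lit 366)) (XT.lf (nat_lit 0) (nat_lit 2246923151) (nat_lit 228) (nat_lit 7959479014) (nat_lit 228) (nat_lit 196164827) (nat_lit 117) (nat_lit 4) (nat_lit 120) (nat_lit 5) (nat_lit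 120) (nat_lit 4) (nat_lit 459) (nat_lit 376) (nat_lit 365))) (XT.nd (nat_lit 78) (nat_lit 0) (nat_lit 0) (XT.lf (nat_lit 0) (nat_lit 331806772) (nat_lit 228) (nat_lit 3945831731) (nat_lit 304) (nat_lit 6277752015) (nat_lit 113) (nat_lit 5) (nat_lit 116) (nat_lit 5) (nat_lit 117) (nat_lit 4) (nat_lit 460) (nat_lit 376) (nat_lit 364)) (XT.lf (nat_lit 0) (nat_lit 8874056572) (nat_lit 304) (nat_lit 1628114167) (nat_lit 0) (nat_lit 210809731) (nat_lit 113) (nat_lit 5) (nat_lit 117) (nat_lit 4) (nat_lit 113) (nat_lit 4) (nat_lit 461) (nat_lit 376) (nat_lit 363)))))) (XT.nd (nat_lit 546) (nat_lit 1216) (nat_lit 0) (XT.nd (nat_lit 234) (nat_lit 608) (nat_lit 0) (XT.nd (nat_lit 78) (nat_lit 456) (nat_lit 0) (XT.lf (nat_lit 0) (nat_lit 2698018948) (nat_lit 304) (nat_lit 3724815700) (nat_lit 76) (nat_lit 4451136556) (nat_lit 109) (nat_lit 5) (nat_lit 113) (nat_lit 5) (nat_lit 110) (nat_lit 4) (nat_lit 462) (nat_lit 376) (nat_lit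 362)) (XT.nd (nat_lit 78) (nat_lit 304) (nat_lit 0) (XT.lf (nat_lit 0) (nat_lit 5115150796) (nat_lit 152) (nat_lit 2195098682) (nat_lit 228) (nat_lit 3729721185) (nat_lit 107) (nat_lit 5) (nat_lit 109) (nat_lit 5) (nat_lit 110) (nat_lit 4) (nat_lit 463) (nat_lit 376) (nat_lit 361)) (XT.lf (nat_lit 0) (nat_lit 831578350) (nat_lit 304) (nat_lit 8246156290) (nat_lit 76) (nat_lit 2133031266) (nat_lit 103) (nat_lit 5) (nat_lit 107) (nat_lit 5) (nat_lit 104) (nat_lit 4) (nat_lit 464) (nat_lit 376) (nat_lit 360)))) (XT.nd (nat_lit 156) (nat_lit 456) (nat_lit 0) (XT.nd (nat_lit 78) (nat_lit 0) (nat_lit 0) (XT.lf (nat_lit 0) (nat_lit 659884149) (nat_lit 152) (nat_lit 4794616743) (nat_lit 228) (nat_lit 5931092461) (nat_lit 101) (nat_lit 5) (nat_lit 103) (nat_lit 5) (nat_lit 104) (nat_lit 4) (nat_lit 465) (nat_lit 376) (nat_lit 359)) (XT.lf (nat_lit 0) (nat_lit 9852601079) (nat_lit 152) (nat_lit 359176948) (nat_lit 228) (nat_lit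 1354025956) (nat_lit 101) (nat_lit 5) (nat_lit 103) (nat_lit 5) (nat_lit 104) (nat_lit 4) (nat_lit 466) (nat_lit 376) (nat_lit 358))) (XT.nd (nat_lit 78) (nat_lit 152) (nat_lit 0) (XT.lf (nat_lit 0) (nat_lit 3322247383) (nat_lit 304) (nat_lit 4254219582) (nat_lit 76) (nat_lit 4173168777) (nat_lit 97) (nat_lit 5) (nat_lit 101) (nat_lit 5) (nat_lit 98) (nat_lit 4) (nat_lit 467) (nat_lit 376) (nat_lit 357)) (XT.lf (nat_lit 0) (nat_lit 5010148771) (nat_lit 152) (nat_lit 3085252594) (nat_lit 228) (nat_lit 3843672346) (nat_lit 95) (nat_lit 5) (nat_lit 97) (nat_lit 5) (nat_lit 98) (nat_lit 4) (nat_lit 468) (nat_lit 376) (nat_lit 356))))) (XT.nd (nat_lit 312) (nat_lit 532) (nat_lit 0) (XT.nd (nat_lit 156) (nat_lit 380) (nat_lit 0) (XT.nd (nat_lit 78) (nat_lit 0) (nat_lit 0) (XT.lf (nat_lit 0) (nat_lit 856667253) (nat_lit 304) (nat_lit 9752487496) (nat_lit 76) (nat_lit 1524907128) (nat_lit 91) (nat_lit 5) (nat_lit 95) (nat_lit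 5) (nat_lit 92) (nat_lit 4) (nat_lit 469) (nat_lit 376) (nat_lit 355)) (XT.lf (nat_lit 0) (nat_lit 5637308275) (nat_lit 304) (nat_lit 436844267) (nat_lit 76) (nat_lit 6259116111) (nat_lit 91) (nat_lit 5) (nat_lit 95) (nat_lit 5) (nat_lit 92) (nat_lit 4) (nat_lit 470) (nat_lit 376) (nat_lit 354))) (XT.nd (nat_lit 78) (nat_lit 228) (nat_lit 0) (XT.lf (nat_lit 0) (nat_lit 9193815911) (nat_lit 152) (nat_lit 1373731988) (nat_lit 228) (nat_lit 1970725154) (nat_lit 89) (nat_lit 5) (nat_lit 91) (nat_lit 5) (nat_lit 92) (nat_lit 4) (nat_lit 471) (nat_lit 376) (nat_lit 353)) (XT.lf (nat_lit 0) (nat_lit 2856676268) (nat_lit 228) (nat_lit 6458258677) (nat_lit 76) (nat_lit 3433156058) (nat_lit 86) (nat_lit 5) (nat_lit 89) (nat_lit 5) (nat_lit 87) (nat_lit 4) (nat_lit 472) (nat_lit 376) (nat_lit 352)))) (XT.nd (nat_lit 156) (nat_lit 380) (nat_lit 0) (XT.nd (nat_lit 78) (nat_lit 0) (nat_lit 0) (XT.lf (nat_lit 0) (nat_lit 3203059730)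 (nat_lit 152) (nat_lit 4583168973) (nat_lit 228) (nat_lit 5177487493) (nat_lit 84) (nat_lit 5) (nat_lit 86) (nat_lit 5) (nat_lit 87) (nat_lit 4) (nat_lit 473) (nat_lit 376) (nat_lit 351)) (XT.lf (nat_lit 0) (nat_lit 12851161607) (nat_lit 228) (nat_lit 45605461) (nat_lit 0) (nat_lit 289424301) (nat_lit 84) (nat_lit 5) (nat_lit 87) (nat_lit 4) (nat_lit 84) (nat_lit 4) (nat_lit 474) (nat_lit 376) (nat_lit 350))) (XT.nd (nat_lit 78) (nat_lit 152) (nat_lit 0) (XT.lf (nat_lit 0) (nat_lit 4624935819) (nat_lit 228) (nat_lit 3489457386) (nat_lit 76) (nat_lit 5297720799) (nat_lit 81) (nat_lit 5) (nat_lit 84) (nat_lit 5) (nat_lit 82) (nat_lit 4) (nat_lit 475) (nat_lit 376) (nat_lit 349)) (XT.lf (nat_lit 0) (nat_lit 6529300771) (nat_lit 152) (nat_lit 3182277497) (nat_lit 228) (nat_lit 3933603717) (nat_lit 79) (nat_lit 5) (nat_lit 81) (nat_lit 5) (nat_lit 82) (nat_lit 4) (nat_lit 476) (nat_lit 376) (nat_lit 348))))))) (XT.nd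 (nat_lit 1170) (nat_lit 1368) (nat_lit 0) (XT.nd (nat_lit 546) (nat_lit 684) (nat_lit 0) (XT.nd (nat_lit 234) (nat_lit 608) (nat_lit 0) (XT.nd (nat_lit 78) (nat_lit 152) (nat_lit 0) (XT.lf (nat_lit 0) (nat_lit 1048579722) (nat_lit 228) (nat_lit 10962046961) (nat_lit 76) (nat_lit 1874199397) (nat_lit 76) (nat_lit 5) (nat_lit 79) (nat_lit 5) (nat_lit 77) (nat_lit 4) (nat_lit 477) (nat_lit 376) (nat_lit 347)) (XT.nd (nat_lit 78) (nat_lit 152) (nat_lit 0) (XT.lf (nat_lit 0) (nat_lit 6127144328) (nat_lit 228) (nat_lit 933624620) (nat_lit 76) (nat_lit 7068947896) (nat_lit 76) (nat_lit 5) (nat_lit 79) (nat_lit 5) (nat_lit 77) (nat_lit 4) (nat_lit 478) (nat_lit 376) (nat_lit 346)) (XT.lf (nat_lit 0) (nat_lit 9442605805) (nat_lit 152) (nat_lit 1930404489) (nat_lit 228) (nat_lit 3008500620) (nat_lit 74) (nat_lit 5) (nat_lit 76) (nat_lit 5) (nat_lit 77) (nat_lit 4) (nat_lit 479) (nat_lit 376) (nat_lit 345)))) (XT.nd (nat_lit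 156) (nat_lit 228) (nat_lit 0) (XT.nd (nat_lit 78) (nat_lit 152) (nat_lit 0) (XT.lf (nat_lit 0) (nat_lit 2112495840) (nat_lit 228) (nat_lit 9216036056) (nat_lit 76) (nat_lit 3311152591) (nat_lit 71) (nat_lit 5) (nat_lit 74) (nat_lit 5) (nat_lit 72) (nat_lit 4) (nat_lit 480) (nat_lit 376) (nat_lit 344)) (XT.lf (nat_lit 0) (nat_lit 1129074120) (nat_lit 152) (nat_lit 6202550651) (nat_lit 228) (nat_lit 7572940265) (nat_lit 69) (nat_lit 5) (nat_lit 71) (nat_lit 5) (nat_lit 72) (nat_lit 4) (nat_lit 481) (nat_lit 376) (nat_lit 343))) (XT.nd (nat_lit 78) (nat_lit 228) (nat_lit 0) (XT.lf (nat_lit 0) (nat_lit 11837029517) (nat_lit 152) (nat_lit 888882697) (nat_lit 228) (nat_lit 2450926615) (nat_lit 69) (nat_lit 5) (nat_lit 71) (nat_lit 5) (nat_lit 72) (nat_lit 4) (nat_lit 482) (nat_lit 376) (nat_lit 342)) (XT.lf (nat_lit 0) (nat_lit 2812107267) (nat_lit 228) (nat_lit 8108857970) (nat_lit 76) (nat_lit 4534230694) (nat_lit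 66) (nat_lit 5) (nat_lit 69) (nat_lit 5) (nat_lit 67) (nat_lit 4) (nat_lit 483) (nat_lit 376) (nat_lit 341))))) (XT.nd (nat_lit 312) (nat_lit 304) (nat_lit 0) (XT.nd (nat_lit 156) (nat_lit 304) (nat_lit 0) (XT.nd (nat_lit 78) (nat_lit 0) (nat_lit 0) (XT.lf (nat_lit 0) (nat_lit 2563066436) (nat_lit 76) (nat_lit 5615444167) (nat_lit 152) (nat_lit 7562826950) (nat_lit 65) (nat_lit 5) (nat_lit 66) (nat_lit 5) (nat_lit 67) (nat_lit 4) (nat_lit 484) (nat_lit 376) (nat_lit 340)) (XT.lf (nat_lit 0) (nat_lit 13588500400) (nat_lit 76) (nat_lit 127372751) (nat_lit 152) (nat_lit 2319895140) (nat_lit 65) (nat_lit 5) (nat_lit 66) (nat_lit 5) (nat_lit 67) (nat_lit 4) (nat_lit 485) (nat_lit 376) (nat_lit 339))) (XT.nd (nat_lit 78) (nat_lit 76) (nat_lit 0) (XT.lf (nat_lit 0) (nat_lit 3086150264) (nat_lit 228) (nat_lit 7777697455) (nat_lit 76) (nat_lit 5472321572) (nat_lit 62) (nat_lit 5) (nat_lit 65) (nat_lit 5) (nat_lit 63) (nat_lit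 4) (nat_lit 486) (nat_lit 376) (nat_lit 338)) (XT.lf (nat_lit 0) (nat_lit 3207163912) (nat_lit 76) (nat_lit 5387357716) (nat_lit 152) (nat_lit 8050772000) (nat_lit 61) (nat_lit 5) (nat_lit 62) (nat_lit 5) (nat_lit 63) (nat_lit 4) (nat_lit 487) (nat_lit 376) (nat_lit 337)))) (XT.nd (nat_lit 156) (nat_lit 76) (nat_lit 0) (XT.nd (nat_lit 78) (nat_lit 228) (nat_lit 0) (XT.lf (nat_lit 0) (nat_lit 14279849355) (nat_lit 152) (nat_lit 2414427580) (nat_lit 0) (nat_lit 269067051) (nat_lit 61) (nat_lit 5) (nat_lit 63) (nat_lit 4) (nat_lit 61) (nat_lit 4) (nat_lit 488) (nat_lit 376) (nat_lit 336)) (XT.lf (nat_lit 0) (nat_lit 2861201104) (nat_lit 228) (nat_lit 8382948225) (nat_lit 76) (nat_lit 6043812023) (nat_lit 58) (nat_lit 5) (nat_lit 61) (nat_lit 5) (nat_lit 59) (nat_lit 4) (nat_lit 489) (nat_lit 376) (nat_lit 335))) (XT.nd (nat_lit 78) (nat_lit 0) (nat_lit 0) (XT.lf (nat_lit 0) (nat_lit 2894433547) (nat_lit 76) (nat_lit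 5608408664) (nat_lit 152) (nat_lit 9119144903) (nat_lit 57) (nat_lit 5) (nat_lit 58) (nat_lit 5) (nat_lit 59) (nat_lit 4) (nat_lit 490) (nat_lit 376) (nat_lit 334)) (XT.lf (nat_lit 0) (nat_lit 14333406701) (nat_lit 152) (nat_lit 3411627618) (nat_lit 0) (nat_lit 220412167) (nat_lit 57) (nat_lit 5) (nat_lit 59) (nat_lit 4) (nat_lit 57) (nat_lit 4) (nat_lit 491) (nat_lit 376) (nat_lit 333)))))) (XT.nd (nat_lit 624) (nat_lit 532) (nat_lit 0) (XT.nd (nat_lit 312) (nat_lit 304) (nat_lit 0) (XT.nd (nat_lit 156) (nat_lit 228) (nat_lit 0) (XT.nd (nat_lit 78) (nat_lit 76) (nat_lit 0) (XT.lf (nat_lit 0) (nat_lit 2049808050) (nat_lit 228) (nat_lit 10112170955) (nat_lit 76) (nat_lit 6154564867) (nat_lit 54) (nat_lit 5) (nat_lit 57) (nat_lit 5) (nat_lit 55) (nat_lit 4) (nat_lit 492) (nat_lit 376) (nat_lit 332)) (XT.lf (nat_lit 0) (nat_lit 1429467208) (nat_lit 76) (nat_lit 6382536103) (nat_lit 152) (nat_lit 10865608075) (nat_lit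 53) (nat_lit 5) (nat_lit 54) (nat_lit 5) (nat_lit 55) (nat_lit 4) (nat_lit 493) (nat_lit 376) (nat_lit 331))) (XT.nd (nat_lit 78) (nat_lit 228) (nat_lit 0) (XT.lf (nat_lit 0) (nat_lit 13402084774) (nat_lit 76) (nat_lit 382186130) (nat_lit 152) (nat_lit 5264126548) (nat_lit 53) (nat_lit 5) (nat_lit 54) (nat_lit 5) (nat_lit 55) (nat_lit 4) (nat_lit 494) (nat_lit 376) (nat_lit 330)) (XT.lf (nat_lit 0) (nat_lit 548306917) (nat_lit 228) (nat_lit 13184675071) (nat_lit 76) (nat_lit 5695598841) (nat_lit 50) (nat_lit 5) (nat_lit 53) (nat_lit 5) (nat_lit 51) (nat_lit 4) (nat_lit 495) (nat_lit 376) (nat_lit 329)))) (XT.nd (nat_lit 156) (nat_lit 228) (nat_lit 0) (XT.nd (nat_lit 78) (nat_lit 76) (nat_lit 0) (XT.lf (nat_lit 0) (nat_lit 6427201521) (nat_lit 228) (nat_lit 1388783795) (nat_lit 76) (nat_lit 12002686522) (nat_lit 50) (nat_lit 5) (nat_lit 53) (nat_lit 5) (nat_lit 51) (nat_lit 4) (nat_lit 496) (nat_lit 376) (nat_lit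 328)) (XT.lf (nat_lit 0) (nat_lit 10855898994) (nat_lit 76) (nat_lit 1669292887) (nat_lit 152) (nat_lit 7693994248) (nat_lit 49) (nat_lit 5) (nat_lit 50) (nat_lit 5) (nat_lit 51) (nat_lit 4) (nat_lit 497) (nat_lit 376) (nat_lit 327))) (XT.nd (nat_lit 78) (nat_lit 76) (nat_lit 0) (XT.lf (nat_lit 0) (nat_lit 2756861065) (nat_lit 152) (nat_lit 16073266696) (nat_lit 152) (nat_lit 1800870258) (nat_lit 47) (nat_lit 4) (nat_lit 49) (nat_lit 5) (nat_lit 49) (nat_lit 4) (nat_lit 498) (nat_lit 376) (nat_lit 326)) (XT.lf (nat_lit 0) (nat_lit 4236359669) (nat_lit 228) (nat_lit 5795432767) (nat_lit 76) (nat_lit 11020624441) (nat_lit 46) (nat_lit 5) (nat_lit 49) (nat_lit 5) (nat_lit 47) (nat_lit 4) (nat_lit 499) (nat_lit 376) (nat_lit 325))))) (XT.nd (nat_lit 312) (nat_lit 228) (nat_lit 0) (XT.nd (nat_lit 156) (nat_lit 228) (nat_lit 0) (XT.nd (nat_lit 78) (nat_lit 0) (nat_lit 0) (XT.lf (nat_lit 0) (nat_lit 6643700550) (nat_lit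 76) (nat_lit 3779063908) (nat_lit 152) (nat_lit 11063053468) (nat_lit 45) (nat_lit 5) (nat_lit 46) (nat_lit 5) (nat_lit 47) (nat_lit 4) (nat_lit 500) (nat_lit 376) (nat_lit 324)) (XT.lf (nat_lit 0) (nat_lit 16819972826) (nat_lit 152) (nat_lit 2495701553) (nat_lit 0) (nat_lit 2615792370) (nat_lit 45) (nat_lit 5) (nat_lit 47) (nat_lit 4) (nat_lit 45) (nat_lit 4) (nat_lit 501) (nat_lit 376) (nat_lit 323))) (XT.nd (nat_lit 78) (nat_lit 76) (nat_lit 0) (XT.lf (nat_lit 0) (nat_lit 1077942936) (nat_lit 152) (nat_lit 12125103781) (nat_lit 76) (nat_lit 9184770320) (nat_lit 43) (nat_lit 5) (nat_lit 45) (nat_lit 5) (nat_lit 44) (nat_lit 4) (nat_lit 502) (nat_lit 376) (nat_lit 322)) (XT.lf (nat_lit 0) (nat_lit 445133307) (nat_lit 76) (nat_lit 6877245847) (nat_lit 152) (nat_lit 15534800756) (nat_lit 42) (nat_lit 5) (nat_lit 43) (nat_lit 5) (nat_lit 44) (nat_lit 4) (nat_lit 503) (nat_lit 376) (nat_lit 321)))) (XT.nd (nat_lit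 156) (nat_lit 152) (nat_lit 0) (XT.nd (nat_lit 78) (nat_lit 76) (nat_lit 0) (XT.lf (nat_lit 0) (nat_lit 13531482246) (nat_lit 76) (nat_lit 288054993) (nat_lit 152) (nat_lit 9519126618) (nat_lit 42) (nat_lit 5) (nat_lit 43) (nat_lit 5) (nat_lit 44) (nat_lit 4) (nat_lit 504) (nat_lit 376) (nat_lit 320)) (XT.lf (nat_lit 0) (nat_lit 3065649820) (nat_lit 76) (nat_lit 17482020453) (nat_lit 76) (nat_lit 3285842043) (nat_lit 41) (nat_lit 4) (nat_lit 42) (nat_lit 5) (nat_lit 42) (nat_lit 4) (nat_lit 505) (nat_lit 376) (nat_lit 319))) (XT.nd (nat_lit 78) (nat_lit 76) (nat_lit 0) (XT.lf (nat_lit 0) (nat_lit 3120318488) (nat_lit 152) (nat_lit 7956083459) (nat_lit 76) (nat_lit 13264490823) (nat_lit 40) (nat_lit 5) (nat_lit 42) (nat_lit 5) (nat_lit 41) (nat_lit 4) (nat_lit 506) (nat_lit 376) (nat_lit 318)) (XT.lf (nat_lit 0) (nat_lit 5204621123) (nat_lit 76) (nat_lit 4443832282) (nat_lit 152) (nat_lit 15214191932) (nat_lit 39)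 (nat_lit 5) (nat_lit 40) (nat_lit 5) (nat_lit 41) (nat_lit 4) (nat_lit 507) (nat_lit 376) (nat_lit 317))))))))
noncomputable def xc47 : XT := (XT.nd (nat_lit 2340) (nat_lit 532) (nat_lit 0) (XT.nd (nat_lit 1170) (nat_lit 684) (nat_lit 0) (XT.nd (nat_lit 546) (nat_lit 380) (nat_lit 0) (XT.nd (nat_lit 234) (nat_lit 228) (nat_lit 0) (XT.nd (nat_lit 78) (nat_lit 152) (nat_lit 0) (XT.lf (nat_lit 0) (nat_lit 16422428047) (nat_lit 152) (nat_lit 6602711832) (nat_lit 0) (nat_lit 2373412332) (nat_lit 39) (nat_lit 5) (nat_lit 41) (nat_lit 4) (nat_lit 39) (nat_lit 4) (nat_lit 508) (nat_lit 376) (nat_lit 316)) (XT.nd (nat_lit 78) (nat_lit 76) (nat_lit 0) (XT.lf (nat_lit 0) (nat_lit 6832062541) (nat_lit 76) (nat_lit 16624714412) (nat_lit 76) (nat_lit 2492046237) (nat_lit 38) (nat_lit 4) (nat_lit 39) (nat_lit 5) (nat_lit 39) (nat_lit 4) (nat_lit 509) (nat_lit 376) (nat_lit 315)) (XT.lf (nat_lit 0) (nat_lit 4119724067) (nat_lit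 152) (nat_lit 5850844298) (nat_lit 76) (nat_lit 16543382143) (nat_lit 37) (nat_lit 5) (nat_lit 39) (nat_lit 5) (nat_lit 38) (nat_lit 4) (nat_lit 510) (nat_lit 376) (nat_lit 314)))) (XT.nd (nat_lit 156) (nat_lit 152) (nat_lit 0) (XT.nd (nat_lit 78) (nat_lit 0) (nat_lit 0) (XT.lf (nat_lit 0) (nat_lit 7842807894) (nat_lit 76) (nat_lit 3061400241) (nat_lit 152) (nat_lit 16190351268) (nat_lit 36) (nat_lit 5) (nat_lit 37) (nat_lit 5) (nat_lit 38) (nat_lit 4) (nat_lit 511) (nat_lit 376) (nat_lit 313)) (XT.lf (nat_lit 0) (nat_lit 17940022730) (nat_lit 152) (nat_lit 5761874111) (nat_lit 0) (nat_lit 3989257222) (nat_lit 36) (nat_lit 5) (nat_lit 38) (nat_lit 4) (nat_lit 36) (nat_lit 4) (nat_lit 512) (nat_lit 376) (nat_lit 312))) (XT.nd (nat_lit 78) (nat_lit 76) (nat_lit 0) (XT.lf (nat_lit 0) (nat_lit 8165908092) (nat_lit 76) (nat_lit 17080440776) (nat_lit 76) (nat_lit 3057515921) (nat_lit 35) (nat_lit 4) (nat_lit 36) (nat_lit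 5) (nat_lit 36) (nat_lit 4) (nat_lit 513) (nat_lit 376) (nat_lit 311)) (XT.lf (nat_lit 0) (nat_lit 3771467230) (nat_lit 152) (nat_lit 6436903995) (nat_lit 76) (nat_lit 18725197457) (nat_lit 34) (nat_lit 5) (nat_lit 36) (nat_lit 5) (nat_lit 35) (nat_lit 4) (nat_lit 514) (nat_lit 376) (nat_lit 310))))) (XT.nd (nat_lit 312) (nat_lit 152) (nat_lit 0) (XT.nd (nat_lit 156) (nat_lit 152) (nat_lit 0) (XT.nd (nat_lit 78) (nat_lit 0) (nat_lit 0) (XT.lf (nat_lit 0) (nat_lit 7702125997) (nat_lit 76) (nat_lit 3067886601) (nat_lit 152) (nat_lit 18810459772) (nat_lit 33) (nat_lit 5) (nat_lit 34) (nat_lit 5) (nat_lit 35) (nat_lit 4) (nat_lit 515) (nat_lit 376) (nat_lit 309)) (XT.lf (nat_lit 0) (nat_lit 18037552160) (nat_lit 152) (nat_lit 7982564826) (nat_lit 0) (nat_lit 4224896236) (nat_lit 33) (nat_lit 5) (nat_lit 35) (nat_lit 4) (nat_lit 33) (nat_lit 4) (nat_lit 516) (nat_lit 376) (nat_lit 308))) (XT.nd (nat_lit 78) (nat_lit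 76) (nat_lit 0) (XT.lf (nat_lit 0) (nat_lit 6332847304) (nat_lit 76) (nat_lit 19235100237) (nat_lit 76) (nat_lit 5360199026) (nat_lit 32) (nat_lit 4) (nat_lit 33) (nat_lit 5) (nat_lit 33) (nat_lit 4) (nat_lit 517) (nat_lit 376) (nat_lit 307)) (XT.lf (nat_lit 0) (nat_lit 1694475470) (nat_lit 152) (nat_lit 10495548322) (nat_lit 76) (nat_lit 19440212503) (nat_lit 31) (nat_lit 5) (nat_lit 33) (nat_lit 5) (nat_lit 32) (nat_lit 4) (nat_lit 518) (nat_lit 376) (nat_lit 306)))) (XT.nd (nat_lit 156) (nat_lit 76) (nat_lit 0) (XT.nd (nat_lit 78) (nat_lit 0) (nat_lit 0) (XT.lf (nat_lit 0) (nat_lit 3963621858) (nat_lit 76) (nat_lit 4882500081) (nat_lit 152) (nat_lit 23505883702) (nat_lit 30) (nat_lit 5) (nat_lit 31) (nat_lit 5) (nat_lit 32) (nat_lit 4) (nat_lit 519) (nat_lit 376) (nat_lit 305)) (XT.lf (nat_lit 0) (nat_lit 16299803122) (nat_lit 152) (nat_lit 14134915701) (nat_lit 0) (nat_lit 2658085710) (nat_lit 30) (nat_lit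 5) (nat_lit 32) (nat_lit 4) (nat_lit 30) (nat_lit 4) (nat_lit 520) (nat_lit 376) (nat_lit 304))) (XT.nd (nat_lit 78) (nat_lit 0) (nat_lit 0) (XT.lf (nat_lit 0) (nat_lit 420668974) (nat_lit 76) (nat_lit 23565154152) (nat_lit 76) (nat_lit 9869743409) (nat_lit 29) (nat_lit 4) (nat_lit 30) (nat_lit 5) (nat_lit 30) (nat_lit 4) (nat_lit 521) (nat_lit 376) (nat_lit 303)) (XT.lf (nat_lit 0) (nat_lit 15618155284) (nat_lit 76) (nat_lit 16383805579) (nat_lit 76) (nat_lit 2636265388) (nat_lit 29) (nat_lit 4) (nat_lit 30) (nat_lit 5) (nat_lit 30) (nat_lit 4) (nat_lit 522) (nat_lit 376) (nat_lit 302)))))) (XT.nd (nat_lit 546) (nat_lit 304) (nat_lit 0) (XT.nd (nat_lit 234) (nat_lit 228) (nat_lit 0) (XT.nd (nat_lit 78) (nat_lit 76) (nat_lit 0) (XT.lf (nat_lit 0) (nat_lit 4677918481) (nat_lit 152) (nat_lit 4301976785) (nat_lit 76) (nat_lit 26464353760) (nat_lit 28) (nat_lit 5) (nat_lit 30) (nat_lit 5) (nat_lit 29) (nat_lit 4) (nat_lit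 523) (nat_lit 376) (nat_lit 301)) (XT.nd (nat_lit 78) (nat_lit 0) (nat_lit 0) (XT.lf (nat_lit 0) (nat_lit 10965040572) (nat_lit 76) (nat_lit 1257781536) (nat_lit 152) (nat_lit 24048919798) (nat_lit 27) (nat_lit 5) (nat_lit 28) (nat_lit 5) (nat_lit 29) (nat_lit 4) (nat_lit 524) (nat_lit 376) (nat_lit 300)) (XT.lf (nat_lit 0) (nat_lit 20061245073) (nat_lit 152) (nat_lit 10489840686) (nat_lit 0) (nat_lit 6570959503) (nat_lit 27) (nat_lit 5) (nat_lit 29) (nat_lit 4) (nat_lit 27) (nat_lit 4) (nat_lit 525) (nat_lit 376) (nat_lit 299)))) (XT.nd (nat_lit 156) (nat_lit 152) (nat_lit 0) (XT.nd (nat_lit 78) (nat_lit 0) (nat_lit 0) (XT.lf (nat_lit 0) (nat_lit 4774034010) (nat_lit 76) (nat_lit 23379261593) (nat_lit 76) (nat_lit 9844008704) (nat_lit 26) (nat_lit 4) (nat_lit 27) (nat_lit 5) (nat_lit 27) (nat_lit 4) (nat_lit 526) (nat_lit 376) (nat_lit 298)) (XT.lf (nat_lit 0) (nat_lit 20633425949) (nat_lit 76) (nat_lit 15921156117)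 (nat_lit 76) (nat_lit 2342245636) (nat_lit 26) (nat_lit 4) (nat_lit 27) (nat_lit 5) (nat_lit 27) (nat_lit 4) (nat_lit 527) (nat_lit 376) (nat_lit 297))) (XT.nd (nat_lit 78) (nat_lit 76) (nat_lit 0) (XT.lf (nat_lit 0) (nat_lit 5240814643) (nat_lit 152) (nat_lit 2982442765) (nat_lit 76) (nat_lit 31599687858) (nat_lit 25) (nat_lit 5) (nat_lit 27) (nat_lit 5) (nat_lit 26) (nat_lit 4) (nat_lit 528) (nat_lit 376) (nat_lit 296)) (XT.lf (nat_lit 0) (nat_lit 12911979858) (nat_lit 76) (nat_lit 178871282) (nat_lit 152) (nat_lit 27682703405) (nat_lit 24) (nat_lit 5) (nat_lit 25) (nat_lit 5) (nat_lit 26) (nat_lit 4) (nat_lit 529) (nat_lit 376) (nat_lit 295))))) (XT.nd (nat_lit 312) (nat_lit 152) (nat_lit 0) (XT.nd (nat_lit 156) (nat_lit 76) (nat_lit 0) (XT.nd (nat_lit 78) (nat_lit 76) (nat_lit 0) (XT.lf (nat_lit 0) (nat_lit 21247222571) (nat_lit 152) (nat_lit 12559414453) (nat_lit 0) (nat_lit 7943920785) (nat_lit 24) (nat_lit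 5) (nat_lit 26) (nat_lit 4) (nat_lit 24) (nat_lit 4) (nat_lit 530) (nat_lit 376) (nat_lit 294)) (XT.lf (nat_lit 0) (nat_lit 3190667987) (nat_lit 76) (nat_lit 26453642169) (nat_lit 76) (nat_lit 13112680961) (nat_lit 23) (nat_lit 4) (nat_lit 24) (nat_lit 5) (nat_lit 24) (nat_lit 4) (nat_lit 531) (nat_lit 376) (nat_lit 293))) (XT.nd (nat_lit 78) (nat_lit 76) (nat_lit 0) (XT.lf (nat_lit 0) (nat_lit 19599777846) (nat_lit 76) (nat_lit 18784320190) (nat_lit 76) (nat_lit 5406796437) (nat_lit 23) (nat_lit 4) (nat_lit 24) (nat_lit 5) (nat_lit 24) (nat_lit 4) (nat_lit 532) (nat_lit 376) (nat_lit 292)) (XT.lf (nat_lit 0) (nat_lit 2445554834) (nat_lit 152) (nat_lit 8448545055) (nat_lit 76) (nat_lit 33962046062) (nat_lit 22) (nat_lit 5) (nat_lit 24) (nat_lit 5) (nat_lit 23) (nat_lit 4) (nat_lit 533) (nat_lit 376) (nat_lit 291)))) (XT.nd (nat_lit 156) (nat_lit 76) (nat_lit 0) (XT.nd (nat_lit 78) (nat_lit 0) (nat_lit 0) (XT.lf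 (nat_lit 0) (nat_lit 7797383663) (nat_lit 76) (nat_lit 2668068917) (nat_lit 152) (nat_lit 35485077620) (nat_lit 21) (nat_lit 5) (nat_lit 22) (nat_lit 5) (nat_lit 23) (nat_lit 4) (nat_lit 534) (nat_lit 376) (nat_lit 290)) (XT.lf (nat_lit 0) (nat_lit 18833638163) (nat_lit 152) (nat_lit 22495535629) (nat_lit 0) (nat_lit 5745342061) (nat_lit 21) (nat_lit 5) (nat_lit 23) (nat_lit 4) (nat_lit 21) (nat_lit 4) (nat_lit 535) (nat_lit 376) (nat_lit 289))) (XT.nd (nat_lit 78) (nat_lit 76) (nat_lit 0) (XT.lf (nat_lit 0) (nat_lit 27446017615) (nat_lit 152) (nat_lit 6460227254) (nat_lit 0) (nat_lit 14326182340) (nat_lit 21) (nat_lit 5) (nat_lit 23) (nat_lit 4) (nat_lit 21) (nat_lit 4) (nat_lit 536) (nat_lit 376) (nat_lit 288)) (XT.lf (nat_lit 0) (nat_lit 10191306222) (nat_lit 76) (nat_lit 26191128054) (nat_lit 76) (nat_lit 13040672223) (nat_lit 20) (nat_lit 4) (nat_lit 21) (nat_lit 5) (nat_lit 21) (nat_lit 4) (nat_lit 537) (nat_lit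 376) (nat_lit 287))))))) (XT.nd (nat_lit 1170) (nat_lit 76) (nat_lit 0) (XT.nd (nat_lit 546) (nat_lit 228) (nat_lit 0) (XT.nd (nat_lit 234) (nat_lit 76) (nat_lit 0) (XT.nd (nat_lit 78) (nat_lit 152) (nat_lit 0) (XT.lf (nat_lit 0) (nat_lit 27411735330) (nat_lit 76) (nat_lit 18208478897) (nat_lit 76) (nat_lit 5028294370) (nat_lit 20) (nat_lit 4) (nat_lit 21) (nat_lit 5) (nat_lit 21) (nat_lit 4) (nat_lit 538) (nat_lit 376) (nat_lit 286)) (XT.nd (nat_lit 78) (nat_lit 76) (nat_lit 0) (XT.lf (nat_lit 0) (nat_lit 3130192474) (nat_lit 152) (nat_lit 6854756613) (nat_lit 76) (nat_lit 41925734575) (nat_lit 19) (nat_lit 5) (nat_lit 21) (nat_lit 5) (nat_lit 20) (nat_lit 4) (nat_lit 539) (nat_lit 376) (nat_lit 285)) (XT.lf (nat_lit 0) (nat_lit 10106077602) (nat_lit 76) (nat_lit 1393009632) (nat_lit 152) (nat_lit 41708142187) (nat_lit 18) (nat_lit 5) (nat_lit 19) (nat_lit 5) (nat_lit 20) (nat_lit 4) (nat_lit 540) (nat_lit 376)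 (nat_lit 284)))) (XT.nd (nat_lit 156) (nat_lit 76) (nat_lit 0) (XT.nd (nat_lit 78) (nat_lit 0) (nat_lit 0) (XT.lf (nat_lit 0) (nat_lit 20230235605) (nat_lit 152) (nat_lit 26956802560) (nat_lit 0) (nat_lit 7352298273) (nat_lit 18) (nat_lit 5) (nat_lit 20) (nat_lit 4) (nat_lit 18) (nat_lit 4) (nat_lit 541) (nat_lit 376) (nat_lit 283)) (XT.lf (nat_lit 0) (nat_lit 29207599513) (nat_lit 152) (nat_lit 10400261251) (nat_lit 0) (nat_lit 16304017946) (nat_lit 18) (nat_lit 5) (nat_lit 20) (nat_lit 4) (nat_lit 18) (nat_lit 4) (nat_lit 542) (nat_lit 376) (nat_lit 282))) (XT.nd (nat_lit 78) (nat_lit 0) (nat_lit 0) (XT.lf (nat_lit 0) (nat_lit 6727609339) (nat_lit 76) (nat_lit 31762693351) (nat_lit 76) (nat_lit 18834214470) (nat_lit 17) (nat_lit 4) (nat_lit 18) (nat_lit 5) (nat_lit 18) (nat_lit 4) (nat_lit 543) (nat_lit 376) (nat_lit 281)) (XT.lf (nat_lit 0) (nat_lit 24526419721) (nat_lit 76) (nat_lit 23601733271) (nat_lit 76)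 (nat_lit 10649082241) (nat_lit 17) (nat_lit 4) (nat_lit 18) (nat_lit 5) (nat_lit 18) (nat_lit 4) (nat_lit 544) (nat_lit 376) (nat_lit 280))))) (XT.nd (nat_lit 312) (nat_lit 76) (nat_lit 0) (XT.nd (nat_lit 156) (nat_lit 76) (nat_lit 0) (XT.nd (nat_lit 78) (nat_lit 76) (nat_lit 0) (XT.lf (nat_lit 0) (nat_lit 42804736660) (nat_lit 76) (nat_lit 15222871834) (nat_lit 76) (nat_lit 2246752697) (nat_lit 17) (nat_lit 4) (nat_lit 18) (nat_lit 5) (nat_lit 18) (nat_lit 4) (nat_lit 545) (nat_lit 376) (nat_lit 279)) (XT.lf (nat_lit 0) (nat_lit 6255616958) (nat_lit 152) (nat_lit 300001281) (nat_lit 76) (nat_lit 55259745078) (nat_lit 16) (nat_lit 5) (nat_lit 18) (nat_lit 5) (nat_lit 17) (nat_lit 4) (nat_lit 546) (nat_lit 376) (nat_lit 278))) (XT.nd (nat_lit 78) (nat_lit 0) (nat_lit 0) (XT.lf (nat_lit 0) (nat_lit 15135856606) (nat_lit 152) (nat_lit 45766948151) (nat_lit 0) (nat_lit 2494085103) (nat_lit 15) (nat_lit 5) (nat_lit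 17) (nat_lit 4) (nat_lit 15) (nat_lit 4) (nat_lit 547) (nat_lit 376) (nat_lit 277)) (XT.lf (nat_lit 0) (nat_lit 24324288208) (nat_lit 152) (nat_lit 29038655240) (nat_lit 0) (nat_lit 11661665596) (nat_lit 15) (nat_lit 5) (nat_lit 17) (nat_lit 4) (nat_lit 15) (nat_lit 4) (nat_lit 548) (nat_lit 376) (nat_lit 276)))) (XT.nd (nat_lit 156) (nat_lit 0) (nat_lit 0) (XT.nd (nat_lit 78) (nat_lit 76) (nat_lit 0) (XT.lf (nat_lit 0) (nat_lit 33762953567) (nat_lit 152) (nat_lit 11858882028) (nat_lit 0) (nat_lit 21080087160) (nat_lit 15) (nat_lit 5) (nat_lit 17) (nat_lit 4) (nat_lit 15) (nat_lit 4) (nat_lit 549) (nat_lit 376) (nat_lit 275)) (XT.lf (nat_lit 0) (nat_lit 5902563207) (nat_lit 76) (nat_lit 37614275902) (nat_lit 76) (nat_lit 24911755325) (nat_lit 14) (nat_lit 4) (nat_lit 15) (nat_lit 5) (nat_lit 15) (nat_lit 4) (nat_lit 550) (nat_lit 376) (nat_lit 274))) (XT.nd (nat_lit 78) (nat_lit 0) (nat_lit 0) (XT.lf (nat_lit 0)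 (nat_lit 24391525238) (nat_lit 76) (nat_lit 29267141948) (nat_lit 76) (nat_lit 16545539653) (nat_lit 14) (nat_lit 4) (nat_lit 15) (nat_lit 5) (nat_lit 15) (nat_lit 4) (nat_lit 551) (nat_lit 376) (nat_lit 273)) (XT.lf (nat_lit 0) (nat_lit 43388144464) (nat_lit 76) (nat_lit 20692891576) (nat_lit 76) (nat_lit 7952763341) (nat_lit 14) (nat_lit 4) (nat_lit 15) (nat_lit 5) (nat_lit 15) (nat_lit 4) (nat_lit 552) (nat_lit 376) (nat_lit 272)))))) (XT.nd (nat_lit 54678) (nat_lit 0) (nat_lit 7828) (XT.nd (nat_lit 54366) (nat_lit 0) (nat_lit 9652) (XT.nd (nat_lit 54210) (nat_lit 0) (nat_lit 10944) (XT.nd (nat_lit 54132) (nat_lit 0) (nat_lit 11400) (XT.lf (nat_lit 0) (nat_lit 857025375) (nat_lit 152) (nat_lit 11018353073) (nat_lit 76) (nat_lit 62043340221) (nat_lit 13) (nat_lit 5) (nat_lit 15) (nat_lit 5) (nat_lit 14) (nat_lit 4) (nat_lit 553) (nat_lit 376) (nat_lit 271)) (XT.lf (nat_lit 0) (nat_lit 650783487) (nat_lit 380)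 (nat_lit 3079841937) (nat_lit 0) (nat_lit 650783487) (nat_lit 163) (nat_lit 5) (nat_lit 168) (nat_lit 4) (nat_lit 163) (nat_lit 4) (nat_lit 446) (nat_lit 377) (nat_lit 377))) (XT.nd (nat_lit 78) (nat_lit 76) (nat_lit 0) (XT.lf (nat_lit 0) (nat_lit 1251106338) (nat_lit 380) (nat_lit 4295071629) (nat_lit 380) (nat_lit 3322395256) (nat_lit 158) (nat_lit 4) (nat_lit 163) (nat_lit 5) (nat_lit 163) (nat_lit 4) (nat_lit 447) (nat_lit 377) (nat_lit 376)) (XT.lf (nat_lit 0) (nat_lit 882241113) (nat_lit 456) (nat_lit 126072906) (nat_lit 76) (nat_lit 7970133912) (nat_lit 157) (nat_lit 5) (nat_lit 163) (nat_lit 5) (nat_lit 158) (nat_lit 4) (nat_lit 448) (nat_lit 377) (nat_lit 375)))) (XT.nd (nat_lit 156) (nat_lit 608) (nat_lit 0) (XT.nd (nat_lit 78) (nat_lit 380) (nat_lit 0) (XT.lf (nat_lit 0) (nat_lit 5142481566) (nat_lit 380) (nat_lit 1557121590) (nat_lit 0) (nat_lit 2391158131) (nat_lit 153) (nat_lit 5) (nat_lit 158) (nat_lit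 4) (nat_lit 153) (nat_lit 4) (nat_lit 449) (nat_lit 377) (nat_lit 374)) (XT.lf (nat_lit 0) (nat_lit 289368476) (nat_lit 380) (nat_lit 3028115786) (nat_lit 76) (nat_lit 5889733663) (nat_lit 148) (nat_lit 5) (nat_lit 153) (nat_lit 5) (nat_lit 149) (nat_lit 4) (nat_lit 450) (nat_lit 377) (nat_lit 373))) (XT.nd (nat_lit 78) (nat_lit 304) (nat_lit 0) (XT.lf (nat_lit 0) (nat_lit 4540212780) (nat_lit 380) (nat_lit 4571450497) (nat_lit 0) (nat_lit 215384645) (nat_lit 144) (nat_lit 5) (nat_lit 149) (nat_lit 4) (nat_lit 144) (nat_lit 4) (nat_lit 451) (nat_lit 377) (nat_lit 372)) (XT.lf (nat_lit 0) (nat_lit 3266492309) (nat_lit 304) (nat_lit 5649882225) (nat_lit 304) (nat_lit 534179188) (nat_lit 140) (nat_lit 4) (nat_lit 144) (nat_lit 5) (nat_lit 144) (nat_lit 4) (nat_lit 452) (nat_lit 377) (nat_lit 371))))) (XT.nd (nat_lit 312) (nat_lit 912) (nat_lit 0) (XT.nd (nat_lit 156) (nat_lit 304) (nat_lit 0) (XT.nd (nat_lit 78) (nat_lit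 304) (nat_lit 0) (XT.lf (nat_lit 0) (nat_lit 1702787141) (nat_lit 228) (nat_lit 2034321178) (nat_lit 304) (nat_lit 5840578017) (nat_lit 136) (nat_lit 5) (nat_lit 139) (nat_lit 5) (nat_lit 140) (nat_lit 4) (nat_lit 453) (nat_lit 377) (nat_lit 370)) (XT.lf (nat_lit 0) (nat_lit 74741793) (nat_lit 304) (nat_lit 8035082550) (nat_lit 304) (nat_lit 1599142553) (nat_lit 132) (nat_lit 4) (nat_lit 136) (nat_lit 5) (nat_lit 136) (nat_lit 4) (nat_lit 454) (nat_lit 377) (nat_lit 369))) (XT.nd (nat_lit 78) (nat_lit 228) (nat_lit 0) (XT.lf (nat_lit 0) (nat_lit 2720353535) (nat_lit 380) (nat_lit 1616304427) (nat_lit 76) (nat_lit 5506596054) (nat_lit 131) (nat_lit 5) (nat_lit 136) (nat_lit 5) (nat_lit 132) (nat_lit 4) (nat_lit 455) (nat_lit 377) (nat_lit 368)) (XT.lf (nat_lit 0) (nat_lit 6608428109) (nat_lit 228) (nat_lit 499584625) (nat_lit 304) (nat_lit 2873972726) (nat_lit 128) (nat_lit 5) (nat_lit 131) (nat_lit 5) (nat_lit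 132) (nat_lit 4) (nat_lit 456) (nat_lit 377) (nat_lit 367)))) (XT.nd (nat_lit 156) (nat_lit 304) (nat_lit 0) (XT.nd (nat_lit 78) (nat_lit 228) (nat_lit 0) (XT.lf (nat_lit 0) (nat_lit 1477928602) (nat_lit 380) (nat_lit 5235904959) (nat_lit 76) (nat_lit 3410478898) (nat_lit 123) (nat_lit 5) (nat_lit 128) (nat_lit 5) (nat_lit 124) (nat_lit 4) (nat_lit 457) (nat_lit 377) (nat_lit 366)) (XT.lf (nat_lit 0) (nat_lit 3075744904) (nat_lit 228) (nat_lit 2804141242) (nat_lit 304) (nat_lit 4390862814) (nat_lit 120) (nat_lit 5) (nat_lit 123) (nat_lit 5) (nat_lit 124) (nat_lit 4) (nat_lit 458) (nat_lit 377) (nat_lit 365))) (XT.nd (nat_lit 78) (nat_lit 76) (nat_lit 0) (XT.lf (nat_lit 0) (nat_lit 1186186387) (nat_lit 228) (nat_lit 9213336521) (nat_lit 228) (nat_lit 22497947) (nat_lit 117) (nat_lit 4) (nat_lit 120) (nat_lit 5) (nat_lit 120) (nat_lit 4) (nat_lit 459) (nat_lit 377) (nat_lit 364)) (XT.lf (nat_lit 0) (nat_lit 4400097225)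 (nat_lit 304) (nat_lit 829986062) (nat_lit 76) (nat_lit 5346150659) (nat_lit 116) (nat_lit 5) (nat_lit 120) (nat_lit 5) (nat_lit 117) (nat_lit 4) (nat_lit 460) (nat_lit 377) (nat_lit 363))))))))
noncomputable def xc48 : XT := (XT.nd (nat_lit 2340) (nat_lit 2128) (nat_lit 0) (XT.nd (nat_lit 1170) (nat_lit 1748) (nat_lit 0) (XT.nd (nat_lit 546) (nat_lit 1216) (nat_lit 0) (XT.nd (nat_lit 234) (nat_lit 760) (nat_lit 0) (XT.nd (nat_lit 78) (nat_lit 456) (nat_lit 0) (XT.lf (nat_lit 0) (nat_lit 7835945992) (nat_lit 228) (nat_lit 1106336356) (nat_lit 304) (nat_lit 1793173461) (nat_lit 113) (nat_lit 5) (nat_lit 116) (nat_lit 5) (nat_lit 117) (nat_lit 4) (nat_lit 461) (nat_lit 377) (nat_lit 362)) (XT.nd (nat_lit 78) (nat_lit 152) (nat_lit 0) (XT.lf (nat_lit 0) (nat_lit 2675499313) (nat_lit 304) (nat_lit 5107993189) (nat_lit 76) (nat_lit 3114966805) (nat_lit 109) (nat_lit 5) (nat_lit 113) (nat_lit 5) (nat_lit 110) (nat_lit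 4) (nat_lit 462) (nat_lit 377) (nat_lit 361)) (XT.lf (nat_lit 0) (nat_lit 3631222632) (nat_lit 152) (nat_lit 3599374379) (nat_lit 228) (nat_lit 3835580243) (nat_lit 107) (nat_lit 5) (nat_lit 109) (nat_lit 5) (nat_lit 110) (nat_lit 4) (nat_lit 463) (nat_lit 377) (nat_lit 360)))) (XT.nd (nat_lit 156) (nat_lit 456) (nat_lit 0) (XT.nd (nat_lit 78) (nat_lit 0) (nat_lit 0) (XT.lf (nat_lit 0) (nat_lit 655614906) (nat_lit 304) (nat_lit 9872729306) (nat_lit 76) (nat_lit 710828160) (nat_lit 103) (nat_lit 5) (nat_lit 107) (nat_lit 5) (nat_lit 104) (nat_lit 4) (nat_lit 464) (nat_lit 377) (nat_lit 359)) (XT.lf (nat_lit 0) (nat_lit 5229748132) (nat_lit 304) (nat_lit 1051794510) (nat_lit 76) (nat_lit 5133924977) (nat_lit 103) (nat_lit 5) (nat_lit 107) (nat_lit 5) (nat_lit 104) (nat_lit 4) (nat_lit 465) (nat_lit 377) (nat_lit 358))) (XT.nd (nat_lit 78) (nat_lit 304) (nat_lit 0) (XT.lf (nat_lit 0) (nat_lit 8048468843) (nat_lit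 152) (nat_lit 1886347397) (nat_lit 228) (nat_lit 1662432281) (nat_lit 101) (nat_lit 5) (nat_lit 103) (nat_lit 5) (nat_lit 104) (nat_lit 4) (nat_lit 466) (nat_lit 377) (nat_lit 357)) (XT.lf (nat_lit 0) (nat_lit 2944945409) (nat_lit 304) (nat_lit 6213116530) (nat_lit 76) (nat_lit 2625358461) (nat_lit 97) (nat_lit 5) (nat_lit 101) (nat_lit 5) (nat_lit 98) (nat_lit 4) (nat_lit 467) (nat_lit 377) (nat_lit 356))))) (XT.nd (nat_lit 312) (nat_lit 608) (nat_lit 0) (XT.nd (nat_lit 156) (nat_lit 152) (nat_lit 0) (XT.nd (nat_lit 78) (nat_lit 304) (nat_lit 0) (XT.lf (nat_lit 0) (nat_lit 2940350913) (nat_lit 152) (nat_lit 4717017710) (nat_lit 228) (nat_lit 4317315332) (nat_lit 95) (nat_lit 5) (nat_lit 97) (nat_lit 5) (nat_lit 98) (nat_lit 4) (nat_lit 468) (nat_lit 377) (nat_lit 355)) (XT.lf (nat_lit 0) (nat_lit 182266654) (nat_lit 228) (nat_lit 133041850) (nat_lit 304) (nat_lit 11856812405) (nat_lit 91) (nat_lit 5) (nat_lit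 94) (nat_lit 5) (nat_lit 95) (nat_lit 5) (nat_lit 469) (nat_lit 377) (nat_lit 354))) (XT.nd (nat_lit 78) (nat_lit 152) (nat_lit 0) (XT.lf (nat_lit 0) (nat_lit 5054179409) (nat_lit 304) (nat_lit 2743797571) (nat_lit 76) (nat_lit 4574607159) (nat_lit 91) (nat_lit 5) (nat_lit 95) (nat_lit 5) (nat_lit 92) (nat_lit 4) (nat_lit 470) (nat_lit 377) (nat_lit 353)) (XT.lf (nat_lit 0) (nat_lit 6770779050) (nat_lit 152) (nat_lit 3151036391) (nat_lit 228) (nat_lit 2657654459) (nat_lit 89) (nat_lit 5) (nat_lit 91) (nat_lit 5) (nat_lit 92) (nat_lit 4) (nat_lit 471) (nat_lit 377) (nat_lit 352)))) (XT.nd (nat_lit 156) (nat_lit 228) (nat_lit 0) (XT.nd (nat_lit 78) (nat_lit 152) (nat_lit 0) (XT.lf (nat_lit 0) (nat_lit 2101491531) (nat_lit 228) (nat_lit 9060719300) (nat_lit 76) (nat_lit 1629727978) (nat_lit 86) (nat_lit 5) (nat_lit 89) (nat_lit 5) (nat_lit 87) (nat_lit 4) (nat_lit 472) (nat_lit 377) (nat_lit 351)) (XT.lf (nat_lit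 0) (nat_lit 478313839) (nat_lit 152) (nat_lit 6487531399) (nat_lit 228) (nat_lit 6043677701) (nat_lit 84) (nat_lit 5) (nat_lit 86) (nat_lit 5) (nat_lit 87) (nat_lit 4) (nat_lit 473) (nat_lit 377) (nat_lit 350))) (XT.nd (nat_lit 78) (nat_lit 228) (nat_lit 0) (XT.lf (nat_lit 0) (nat_lit 10350324579) (nat_lit 152) (nat_lit 1639087521) (nat_lit 228) (nat_lit 1243829886) (nat_lit 84) (nat_lit 5) (nat_lit 86) (nat_lit 5) (nat_lit 87) (nat_lit 4) (nat_lit 474) (nat_lit 377) (nat_lit 349)) (XT.lf (nat_lit 0) (nat_lit 3651293938) (nat_lit 228) (nat_lit 6475758527) (nat_lit 76) (nat_lit 3334854230) (nat_lit 81) (nat_lit 5) (nat_lit 84) (nat_lit 5) (nat_lit 82) (nat_lit 4) (nat_lit 475) (nat_lit 377) (nat_lit 348)))))) (XT.nd (nat_lit 546) (nat_lit 836) (nat_lit 0) (XT.nd (nat_lit 234) (nat_lit 532) (nat_lit 0) (XT.nd (nat_lit 78) (nat_lit 228) (nat_lit 0) (XT.lf (nat_lit 0) (nat_lit 3414843532) (nat_lit 152) (nat_lit 5255555162)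 (nat_lit 228) (nat_lit 5026604757) (nat_lit 79) (nat_lit 5) (nat_lit 81) (nat_lit 5) (nat_lit 82) (nat_lit 4) (nat_lit 476) (nat_lit 377) (nat_lit 347)) (XT.nd (nat_lit 78) (nat_lit 228) (nat_lit 0) (XT.lf (nat_lit 0) (nat_lit 13599466295) (nat_lit 152) (nat_lit 230596678) (nat_lit 228) (nat_lit 109395759) (nat_lit 79) (nat_lit 5) (nat_lit 81) (nat_lit 5) (nat_lit 82) (nat_lit 4) (nat_lit 477) (nat_lit 377) (nat_lit 346)) (XT.lf (nat_lit 0) (nat_lit 4928369086) (nat_lit 228) (nat_lit 4322231485) (nat_lit 76) (nat_lit 4935070929) (nat_lit 76) (nat_lit 5) (nat_lit 79) (nat_lit 5) (nat_lit 77) (nat_lit 4) (nat_lit 478) (nat_lit 377) (nat_lit 345)))) (XT.nd (nat_lit 156) (nat_lit 152) (nat_lit 0) (XT.nd (nat_lit 78) (nat_lit 228) (nat_lit 0) (XT.lf (nat_lit 0) (nat_lit 5919584773) (nat_lit 152) (nat_lit 4184521187) (nat_lit 228) (nat_lit 4335465831) (nat_lit 74) (nat_lit 5) (nat_lit 76) (nat_lit 5) (nat_lit 77) (nat_lit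 4) (nat_lit 479) (nat_lit 377) (nat_lit 344)) (XT.lf (nat_lit 0) (nat_lit 717175733) (nat_lit 228) (nat_lit 12960602707) (nat_lit 76) (nat_lit 1023179272) (nat_lit 71) (nat_lit 5) (nat_lit 74) (nat_lit 5) (nat_lit 72) (nat_lit 4) (nat_lit 480) (nat_lit 377) (nat_lit 343))) (XT.nd (nat_lit 78) (nat_lit 152) (nat_lit 0) (XT.lf (nat_lit 0) (nat_lit 5889408051) (nat_lit 228) (nat_lit 2703419213) (nat_lit 76) (nat_lit 6374420046) (nat_lit 71) (nat_lit 5) (nat_lit 74) (nat_lit 5) (nat_lit 72) (nat_lit 4) (nat_lit 481) (nat_lit 377) (nat_lit 342)) (XT.lf (nat_lit 0) (nat_lit 7885484485) (nat_lit 152) (nat_lit 3336086233) (nat_lit 228) (nat_lit 4019816216) (nat_lit 69) (nat_lit 5) (nat_lit 71) (nat_lit 5) (nat_lit 72) (nat_lit 4) (nat_lit 482) (nat_lit 377) (nat_lit 341))))) (XT.nd (nat_lit 312) (nat_lit 304) (nat_lit 0) (XT.nd (nat_lit 156) (nat_lit 304) (nat_lit 0) (XT.nd (nat_lit 78) (nat_lit 0) (nat_lit 0) (XT.lf (nat_lit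 0) (nat_lit 1174703466) (nat_lit 228) (nat_lit 12297715721) (nat_lit 76) (nat_lit 2050753116) (nat_lit 66) (nat_lit 5) (nat_lit 69) (nat_lit 5) (nat_lit 67) (nat_lit 4) (nat_lit 483) (nat_lit 377) (nat_lit 340)) (XT.lf (nat_lit 0) (nat_lit 6481671400) (nat_lit 228) (nat_lit 1739982823) (nat_lit 76) (nat_lit 7589444677) (nat_lit 66) (nat_lit 5) (nat_lit 69) (nat_lit 5) (nat_lit 67) (nat_lit 4) (nat_lit 484) (nat_lit 377) (nat_lit 339))) (XT.nd (nat_lit 78) (nat_lit 228) (nat_lit 0) (XT.lf (nat_lit 0) (nat_lit 9187274404) (nat_lit 76) (nat_lit 2780305911) (nat_lit 152) (nat_lit 4139494786) (nat_lit 65) (nat_lit 5) (nat_lit 66) (nat_lit 5) (nat_lit 67) (nat_lit 4) (nat_lit 485) (nat_lit 377) (nat_lit 338)) (XT.lf (nat_lit 0) (nat_lit 1197655002) (nat_lit 228) (nat_lit 12432799290) (nat_lit 76) (nat_lit 2780680369) (nat_lit 62) (nat_lit 5) (nat_lit 65) (nat_lit 5) (nat_lit 63) (nat_lit 4) (nat_lit 486) (nat_lit 377)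 (nat_lit 337)))) (XT.nd (nat_lit 156) (nat_lit 228) (nat_lit 0) (XT.nd (nat_lit 78) (nat_lit 76) (nat_lit 0) (XT.lf (nat_lit 0) (nat_lit 6641587010) (nat_lit 228) (nat_lit 1573008092) (nat_lit 76) (nat_lit 8507598775) (nat_lit 62) (nat_lit 5) (nat_lit 65) (nat_lit 5) (nat_lit 63) (nat_lit 4) (nat_lit 487) (nat_lit 377) (nat_lit 336)) (XT.lf (nat_lit 0) (nat_lit 9678281270) (nat_lit 76) (nat_lit 2597347933) (nat_lit 152) (nat_lit 4766155246) (nat_lit 61) (nat_lit 5) (nat_lit 62) (nat_lit 5) (nat_lit 63) (nat_lit 4) (nat_lit 488) (nat_lit 377) (nat_lit 335))) (XT.nd (nat_lit 78) (nat_lit 0) (nat_lit 0) (XT.lf (nat_lit 0) (nat_lit 711761737) (nat_lit 228) (nat_lit 13527599574) (nat_lit 76) (nat_lit 3130865222) (nat_lit 58) (nat_lit 5) (nat_lit 61) (nat_lit 5) (nat_lit 59) (nat_lit 4) (nat_lit 489) (nat_lit 377) (nat_lit 334)) (XT.lf (nat_lit 0) (nat_lit 6293103159) (nat_lit 228) (nat_lit 2367524713) (nat_lit 76) (nat_lit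 9045434920) (nat_lit 58) (nat_lit 5) (nat_lit 61) (nat_lit 5) (nat_lit 59) (nat_lit 4) (nat_lit 490) (nat_lit 377) (nat_lit 333))))))) (XT.nd (nat_lit 1170) (nat_lit 912) (nat_lit 0) (XT.nd (nat_lit 546) (nat_lit 532) (nat_lit 0) (XT.nd (nat_lit 234) (nat_lit 380) (nat_lit 0) (XT.nd (nat_lit 78) (nat_lit 228) (nat_lit 0) (XT.lf (nat_lit 0) (nat_lit 9186738199) (nat_lit 76) (nat_lit 2879447856) (nat_lit 152) (nat_lit 5985062022) (nat_lit 57) (nat_lit 5) (nat_lit 58) (nat_lit 5) (nat_lit 59) (nat_lit 4) (nat_lit 491) (nat_lit 377) (nat_lit 332)) (XT.nd (nat_lit 78) (nat_lit 76) (nat_lit 0) (XT.lf (nat_lit 0) (nat_lit 2631569625) (nat_lit 152) (nat_lit 15396075691) (nat_lit 152) (nat_lit 378690975) (nat_lit 55) (nat_lit 4) (nat_lit 57) (nat_lit 5) (nat_lit 57) (nat_lit 4) (nat_lit 492) (nat_lit 377) (nat_lit 331)) (XT.lf (nat_lit 0) (nat_lit 5345759643) (nat_lit 228) (nat_lit 4316578288) (nat_lit 76) (nat_lit 9106530449)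 (nat_lit 54) (nat_lit 5) (nat_lit 57) (nat_lit 5) (nat_lit 55) (nat_lit 4) (nat_lit 493) (nat_lit 377) (nat_lit 330)))) (XT.nd (nat_lit 156) (nat_lit 152) (nat_lit 0) (XT.nd (nat_lit 78) (nat_lit 152) (nat_lit 0) (XT.lf (nat_lit 0) (nat_lit 7511515317) (nat_lit 76) (nat_lit 3733150089) (nat_lit 152) (nat_lit 7897191196) (nat_lit 53) (nat_lit 5) (nat_lit 54) (nat_lit 5) (nat_lit 55) (nat_lit 4) (nat_lit 494) (nat_lit 377) (nat_lit 329)) (XT.lf (nat_lit 0) (nat_lit 120470754) (nat_lit 152) (nat_lit 17206362586) (nat_lit 152) (nat_lit 2199014845) (nat_lit 51) (nat_lit 4) (nat_lit 53) (nat_lit 5) (nat_lit 53) (nat_lit 4) (nat_lit 495) (nat_lit 377) (nat_lit 328))) (XT.nd (nat_lit 78) (nat_lit 76) (nat_lit 0) (XT.lf (nat_lit 0) (nat_lit 3692433500) (nat_lit 228) (nat_lit 7645945374) (nat_lit 76) (nat_lit 8579106368) (nat_lit 50) (nat_lit 5) (nat_lit 53) (nat_lit 5) (nat_lit 51) (nat_lit 4) (nat_lit 496) (nat_lit 377)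 (nat_lit 327)) (XT.lf (nat_lit 0) (nat_lit 4417174816) (nat_lit 76) (nat_lit 5281883314) (nat_lit 152) (nat_lit 10621683531) (nat_lit 49) (nat_lit 5) (nat_lit 50) (nat_lit 5) (nat_lit 51) (nat_lit 4) (nat_lit 497) (nat_lit 377) (nat_lit 326))))) (XT.nd (nat_lit 312) (nat_lit 228) (nat_lit 0) (XT.nd (nat_lit 156) (nat_lit 76) (nat_lit 0) (XT.nd (nat_lit 78) (nat_lit 228) (nat_lit 0) (XT.lf (nat_lit 0) (nat_lit 15913368245) (nat_lit 152) (nat_lit 3858483598) (nat_lit 0) (nat_lit 963421604) (nat_lit 49) (nat_lit 5) (nat_lit 51) (nat_lit 4) (nat_lit 49) (nat_lit 4) (nat_lit 498) (nat_lit 377) (nat_lit 325)) (XT.lf (nat_lit 0) (nat_lit 1206708834) (nat_lit 228) (nat_lit 12619596111) (nat_lit 76) (nat_lit 7333286634) (nat_lit 46) (nat_lit 5) (nat_lit 49) (nat_lit 5) (nat_lit 47) (nat_lit 4) (nat_lit 499) (nat_lit 377) (nat_lit 324))) (XT.nd (nat_lit 78) (nat_lit 76) (nat_lit 0) (XT.lf (nat_lit 0) (nat_lit 7300741227)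 (nat_lit 228) (nat_lit 364504921) (nat_lit 76) (nat_lit 13930518679) (nat_lit 46) (nat_lit 5) (nat_lit 49) (nat_lit 5) (nat_lit 47) (nat_lit 4) (nat_lit 500) (nat_lit 377) (nat_lit 323)) (XT.lf (nat_lit 0) (nat_lit 12392853465) (nat_lit 76) (nat_lit 1247681012) (nat_lit 152) (nat_lit 8402602624) (nat_lit 45) (nat_lit 5) (nat_lit 46) (nat_lit 5) (nat_lit 47) (nat_lit 4) (nat_lit 501) (nat_lit 377) (nat_lit 322)))) (XT.nd (nat_lit 156) (nat_lit 76) (nat_lit 0) (XT.nd (nat_lit 78) (nat_lit 76) (nat_lit 0) (XT.lf (nat_lit 0) (nat_lit 2934925811) (nat_lit 76) (nat_lit 17263013926) (nat_lit 76) (nat_lit 2305170225) (nat_lit 44) (nat_lit 4) (nat_lit 45) (nat_lit 5) (nat_lit 45) (nat_lit 4) (nat_lit 502) (nat_lit 377) (nat_lit 321)) (XT.lf (nat_lit 0) (nat_lit 3952384075) (nat_lit 152) (nat_lit 7037386001) (nat_lit 76) (nat_lit 11984324355) (nat_lit 43) (nat_lit 5) (nat_lit 45) (nat_lit 5) (nat_lit 44) (nat_lit 4) (nat_lit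 503) (nat_lit 377) (nat_lit 320))) (XT.nd (nat_lit 78) (nat_lit 0) (nat_lit 0) (XT.lf (nat_lit 0) (nat_lit 5856512406) (nat_lit 76) (nat_lit 4496750397) (nat_lit 152) (nat_lit 13105204842) (nat_lit 42) (nat_lit 5) (nat_lit 43) (nat_lit 5) (nat_lit 44) (nat_lit 4) (nat_lit 504) (nat_lit 377) (nat_lit 319)) (XT.lf (nat_lit 0) (nat_lit 16984745407) (nat_lit 152) (nat_lit 4799917133) (nat_lit 0) (nat_lit 2171553937) (nat_lit 42) (nat_lit 5) (nat_lit 44) (nat_lit 4) (nat_lit 42) (nat_lit 4) (nat_lit 505) (nat_lit 377) (nat_lit 318)))))) (XT.nd (nat_lit 546) (nat_lit 456) (nat_lit 0) (XT.nd (nat_lit 234) (nat_lit 228) (nat_lit 0) (XT.nd (nat_lit 78) (nat_lit 152) (nat_lit 0) (XT.lf (nat_lit 0) (nat_lit 8404299879) (nat_lit 76) (nat_lit 15483510612) (nat_lit 76) (nat_lit 578909840) (nat_lit 41) (nat_lit 4) (nat_lit 42) (nat_lit 5) (nat_lit 42) (nat_lit 4) (nat_lit 506) (nat_lit 377) (nat_lit 317)) (XT.nd (nat_lit 78)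 (nat_lit 76) (nat_lit 0) (XT.lf (nat_lit 0) (nat_lit 5884570673) (nat_lit 152) (nat_lit 3047669200) (nat_lit 76) (nat_lit 16058679289) (nat_lit 40) (nat_lit 5) (nat_lit 42) (nat_lit 5) (nat_lit 41) (nat_lit 4) (nat_lit 507) (nat_lit 377) (nat_lit 316)) (XT.lf (nat_lit 0) (nat_lit 10457394787) (nat_lit 76) (nat_lit 2122361117) (nat_lit 152) (nat_lit 12949434577) (nat_lit 39) (nat_lit 5) (nat_lit 40) (nat_lit 5) (nat_lit 41) (nat_lit 4) (nat_lit 508) (nat_lit 377) (nat_lit 315)))) (XT.nd (nat_lit 156) (nat_lit 76) (nat_lit 0) (XT.nd (nat_lit 78) (nat_lit 152) (nat_lit 0) (XT.lf (nat_lit 0) (nat_lit 19502912347) (nat_lit 152) (nat_lit 1798489944) (nat_lit 0) (nat_lit 4781395686) (nat_lit 39) (nat_lit 5) (nat_lit 41) (nat_lit 4) (nat_lit 39) (nat_lit 4) (nat_lit 509) (nat_lit 377) (nat_lit 314)) (XT.lf (nat_lit 0) (nat_lit 68751952) (nat_lit 152) (nat_lit 14660800662) (nat_lit 76) (nat_lit 11920839259) (nat_lit 37)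 (nat_lit 5) (nat_lit 39) (nat_lit 5) (nat_lit 38) (nat_lit 4) (nat_lit 510) (nat_lit 377) (nat_lit 313))) (XT.nd (nat_lit 78) (nat_lit 76) (nat_lit 0) (XT.lf (nat_lit 0) (nat_lit 6753482697) (nat_lit 152) (nat_lit 1167351101) (nat_lit 76) (nat_lit 19313160250) (nat_lit 37) (nat_lit 5) (nat_lit 39) (nat_lit 5) (nat_lit 38) (nat_lit 4) (nat_lit 511) (nat_lit 377) (nat_lit 312)) (XT.lf (nat_lit 0) (nat_lit 12889473221) (nat_lit 76) (nat_lit 825166348) (nat_lit 152) (nat_lit 14118189531) (nat_lit 36) (nat_lit 5) (nat_lit 37) (nat_lit 5) (nat_lit 38) (nat_lit 4) (nat_lit 512) (nat_lit 377) (nat_lit 311))))) (XT.nd (nat_lit 312) (nat_lit 228) (nat_lit 0) (XT.nd (nat_lit 156) (nat_lit 152) (nat_lit 0) (XT.nd (nat_lit 78) (nat_lit 76) (nat_lit 0) (XT.lf (nat_lit 0) (nat_lit 20910926401) (nat_lit 152) (nat_lit 1212818407) (nat_lit 0) (nat_lit 6325096836) (nat_lit 36) (nat_lit 5) (nat_lit 38) (nat_lit 4) (nat_lit 36) (nat_lit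 4) (nat_lit 513) (nat_lit 377) (nat_lit 310)) (XT.lf (nat_lit 0) (nat_lit 13086504009) (nat_lit 76) (nat_lit 15324027795) (nat_lit 76) (nat_lit 670181125) (nat_lit 35) (nat_lit 4) (nat_lit 36) (nat_lit 5) (nat_lit 36) (nat_lit 4) (nat_lit 514) (nat_lit 377) (nat_lit 309))) (XT.nd (nat_lit 78) (nat_lit 76) (nat_lit 0) (XT.lf (nat_lit 0) (nat_lit 6244499479) (nat_lit 152) (nat_lit 2043548751) (nat_lit 76) (nat_lit 21442670510) (nat_lit 34) (nat_lit 5) (nat_lit 36) (nat_lit 5) (nat_lit 35) (nat_lit 4) (nat_lit 515) (nat_lit 377) (nat_lit 308)) (XT.lf (nat_lit 0) (nat_lit 12474686823) (nat_lit 76) (nat_lit 953235423) (nat_lit 152) (nat_lit 16969861419) (nat_lit 33) (nat_lit 5) (nat_lit 34) (nat_lit 5) (nat_lit 35) (nat_lit 4) (nat_lit 516) (nat_lit 377) (nat_lit 307)))) (XT.nd (nat_lit 156) (nat_lit 152) (nat_lit 0) (XT.nd (nat_lit 78) (nat_lit 76) (nat_lit 0) (XT.lf (nat_lit 0) (nat_lit 20866078050) (nat_lit 152)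 (nat_lit 3765354500) (nat_lit 0) (nat_lit 6452252200) (nat_lit 33) (nat_lit 5) (nat_lit 35) (nat_lit 4) (nat_lit 33) (nat_lit 4) (nat_lit 517) (nat_lit 377) (nat_lit 306)) (XT.lf (nat_lit 0) (nat_lit 10935826981) (nat_lit 76) (nat_lit 17662355429) (nat_lit 76) (nat_lit 3189857427) (nat_lit 32) (nat_lit 4) (nat_lit 33) (nat_lit 5) (nat_lit 33) (nat_lit 4) (nat_lit 518) (nat_lit 377) (nat_lit 305))) (XT.nd (nat_lit 78) (nat_lit 76) (nat_lit 0) (XT.lf (nat_lit 0) (nat_lit 3964395641) (nat_lit 152) (nat_lit 6481738104) (nat_lit 76) (nat_lit 22066384999) (nat_lit 31) (nat_lit 5) (nat_lit 33) (nat_lit 5) (nat_lit 32) (nat_lit 4) (nat_lit 519) (nat_lit 377) (nat_lit 304)) (XT.lf (nat_lit 0) (nat_lit 8368769175) (nat_lit 76) (nat_lit 2938390707) (nat_lit 152) (nat_lit 21949485752) (nat_lit 30) (nat_lit 5) (nat_lit 31) (nat_lit 5) (nat_lit 32) (nat_lit 4) (nat_lit 520) (nat_lit 377) (nat_lit 303))))))))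
noncomputable def xc49 : XT := (XT.nd (nat_lit 2340) (nat_lit 76) (nat_lit 0) (XT.nd (nat_lit 1170) (nat_lit 456) (nat_lit 0) (XT.nd (nat_lit 546) (nat_lit 380) (nat_lit 0) (XT.nd (nat_lit 234) (nat_lit 228) (nat_lit 0) (XT.nd (nat_lit 78) (nat_lit 76) (nat_lit 0) (XT.lf (nat_lit 0) (nat_lit 18940011061) (nat_lit 152) (nat_lit 10353076899) (nat_lit 0) (nat_lit 4727915218) (nat_lit 30) (nat_lit 5) (nat_lit 32) (nat_lit 4) (nat_lit 30) (nat_lit 4) (nat_lit 521) (nat_lit 377) (nat_lit 302)) (XT.nd (nat_lit 78) (nat_lit 0) (nat_lit 0) (XT.lf (nat_lit 0) (nat_lit 4597941137) (nat_lit 76) (nat_lit 22236046998) (nat_lit 76) (nat_lit 7973340041) (nat_lit 29) (nat_lit 4) (nat_lit 30) (nat_lit 5) (nat_lit 30) (nat_lit 4) (nat_lit 522) (nat_lit 377) (nat_lit 301)) (XT.lf (nat_lit 0) (nat_lit 20130051490) (nat_lit 76) (nat_lit 14898560738) (nat_lit 76) (nat_lit 586716777) (nat_lit 29) (nat_lit 4) (nat_lit 30) (nat_lit 5) (nat_lit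 30) (nat_lit 4) (nat_lit 523) (nat_lit 377) (nat_lit 300)))) (XT.nd (nat_lit 156) (nat_lit 76) (nat_lit 0) (XT.nd (nat_lit 78) (nat_lit 76) (nat_lit 0) (XT.lf (nat_lit 0) (nat_lit 6844565945) (nat_lit 152) (nat_lit 465080920) (nat_lit 76) (nat_lit 29137096734) (nat_lit 28) (nat_lit 5) (nat_lit 30) (nat_lit 5) (nat_lit 29) (nat_lit 4) (nat_lit 524) (nat_lit 377) (nat_lit 299)) (XT.lf (nat_lit 0) (nat_lit 14600569847) (nat_lit 152) (nat_lit 22084658040) (nat_lit 0) (nat_lit 614292052) (nat_lit 27) (nat_lit 5) (nat_lit 29) (nat_lit 4) (nat_lit 27) (nat_lit 4) (nat_lit 525) (nat_lit 377) (nat_lit 298))) (XT.nd (nat_lit 78) (nat_lit 76) (nat_lit 0) (XT.lf (nat_lit 0) (nat_lit 22627661414) (nat_lit 152) (nat_lit 6951340711) (nat_lit 0) (nat_lit 8597726027) (nat_lit 27) (nat_lit 5) (nat_lit 29) (nat_lit 4) (nat_lit 27) (nat_lit 4) (nat_lit 526) (nat_lit 377) (nat_lit 297)) (XT.lf (nat_lit 0) (nat_lit 8732673802) (nat_lit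 76) (nat_lit 22209255049) (nat_lit 76) (nat_lit 8136933652) (nat_lit 26) (nat_lit 4) (nat_lit 27) (nat_lit 5) (nat_lit 27) (nat_lit 4) (nat_lit 527) (nat_lit 377) (nat_lit 296))))) (XT.nd (nat_lit 312) (nat_lit 228) (nat_lit 0) (XT.nd (nat_lit 156) (nat_lit 0) (nat_lit 0) (XT.nd (nat_lit 78) (nat_lit 152) (nat_lit 0) (XT.lf (nat_lit 0) (nat_lit 24956718797) (nat_lit 76) (nat_lit 14581912750) (nat_lit 76) (nat_lit 468439885) (nat_lit 26) (nat_lit 4) (nat_lit 27) (nat_lit 5) (nat_lit 27) (nat_lit 4) (nat_lit 528) (nat_lit 377) (nat_lit 295)) (XT.lf (nat_lit 0) (nat_lit 572521490) (nat_lit 76) (nat_lit 6681639709) (nat_lit 152) (nat_lit 33707752246) (nat_lit 24) (nat_lit 5) (nat_lit 25) (nat_lit 5) (nat_lit 26) (nat_lit 4) (nat_lit 529) (nat_lit 377) (nat_lit 294))) (XT.nd (nat_lit 78) (nat_lit 0) (nat_lit 0) (XT.lf (nat_lit 0) (nat_lit 15330084808) (nat_lit 152) (nat_lit 25060010336) (nat_lit 0) (nat_lit 1551235342)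 (nat_lit 24) (nat_lit 5) (nat_lit 26) (nat_lit 4) (nat_lit 24) (nat_lit 4) (nat_lit 530) (nat_lit 377) (nat_lit 293)) (XT.lf (nat_lit 0) (nat_lit 23679085011) (nat_lit 152) (nat_lit 9406448741) (nat_lit 0) (nat_lit 9863672999) (nat_lit 24) (nat_lit 5) (nat_lit 26) (nat_lit 4) (nat_lit 24) (nat_lit 4) (nat_lit 531) (nat_lit 377) (nat_lit 292)))) (XT.nd (nat_lit 156) (nat_lit 152) (nat_lit 0) (XT.nd (nat_lit 78) (nat_lit 0) (nat_lit 0) (XT.lf (nat_lit 0) (nat_lit 6781530799) (nat_lit 76) (nat_lit 25527886465) (nat_lit 76) (nat_lit 11676976836) (nat_lit 23) (nat_lit 4) (nat_lit 24) (nat_lit 5) (nat_lit 24) (nat_lit 4) (nat_lit 532) (nat_lit 377) (nat_lit 291)) (XT.lf (nat_lit 0) (nat_lit 23581113678) (nat_lit 76) (nat_lit 17678563418) (nat_lit 76) (nat_lit 3793190084) (nat_lit 23) (nat_lit 4) (nat_lit 24) (nat_lit 5) (nat_lit 24) (nat_lit 4) (nat_lit 533) (nat_lit 377) (nat_lit 290))) (XT.nd (nat_lit 78) (nat_lit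 76) (nat_lit 0) (XT.lf (nat_lit 0) (nat_lit 4209365938) (nat_lit 152) (nat_lit 5373820388) (nat_lit 76) (nat_lit 36567900089) (nat_lit 22) (nat_lit 5) (nat_lit 24) (nat_lit 5) (nat_lit 23) (nat_lit 4) (nat_lit 534) (nat_lit 377) (nat_lit 289)) (XT.lf (nat_lit 0) (nat_lit 11326856966) (nat_lit 76) (nat_lit 1125446263) (nat_lit 152) (nat_lit 34826526574) (nat_lit 21) (nat_lit 5) (nat_lit 22) (nat_lit 5) (nat_lit 23) (nat_lit 4) (nat_lit 535) (nat_lit 377) (nat_lit 288)))))) (XT.nd (nat_lit 546) (nat_lit 228) (nat_lit 0) (XT.nd (nat_lit 234) (nat_lit 152) (nat_lit 0) (XT.nd (nat_lit 78) (nat_lit 76) (nat_lit 0) (XT.lf (nat_lit 0) (nat_lit 21037953247) (nat_lit 152) (nat_lit 19937226892) (nat_lit 0) (nat_lit 7462363185) (nat_lit 21) (nat_lit 5) (nat_lit 23) (nat_lit 4) (nat_lit 21) (nat_lit 4) (nat_lit 536) (nat_lit 377) (nat_lit 287)) (XT.nd (nat_lit 78) (nat_lit 76) (nat_lit 0) (XT.lf (nat_lit 0) (nat_lit 29860957308)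 (nat_lit 152) (nat_lit 3515029406) (nat_lit 0) (nat_lit 16255638550) (nat_lit 21) (nat_lit 5) (nat_lit 23) (nat_lit 4) (nat_lit 21) (nat_lit 4) (nat_lit 537) (nat_lit 377) (nat_lit 286)) (XT.lf (nat_lit 0) (nat_lit 13605275520) (nat_lit 76) (nat_lit 25443713067) (nat_lit 76) (nat_lit 11809531498) (nat_lit 20) (nat_lit 4) (nat_lit 21) (nat_lit 5) (nat_lit 21) (nat_lit 4) (nat_lit 538) (nat_lit 377) (nat_lit 285)))) (XT.nd (nat_lit 156) (nat_lit 76) (nat_lit 0) (XT.nd (nat_lit 78) (nat_lit 76) (nat_lit 0) (XT.lf (nat_lit 0) (nat_lit 31251786527) (nat_lit 76) (nat_lit 17266239255) (nat_lit 76) (nat_lit 3604035539) (nat_lit 20) (nat_lit 4) (nat_lit 21) (nat_lit 5) (nat_lit 21) (nat_lit 4) (nat_lit 539) (nat_lit 377) (nat_lit 284)) (XT.lf (nat_lit 0) (nat_lit 4723488188) (nat_lit 152) (nat_lit 4100728659) (nat_lit 76) (nat_lit 44598780761) (nat_lit 19) (nat_lit 5) (nat_lit 21) (nat_lit 5) (nat_lit 20) (nat_lit 4) (nat_lit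 540) (nat_lit 377) (nat_lit 283))) (XT.nd (nat_lit 78) (nat_lit 0) (nat_lit 0) (XT.lf (nat_lit 0) (nat_lit 13328064493) (nat_lit 152) (nat_lit 41419106283) (nat_lit 0) (nat_lit 11731246) (nat_lit 18) (nat_lit 5) (nat_lit 20) (nat_lit 4) (nat_lit 18) (nat_lit 4) (nat_lit 541) (nat_lit 377) (nat_lit 282)) (XT.lf (nat_lit 0) (nat_lit 22291314340) (nat_lit 152) (nat_lit 24890469825) (nat_lit 0) (nat_lit 8950083779) (nat_lit 18) (nat_lit 5) (nat_lit 20) (nat_lit 4) (nat_lit 18) (nat_lit 4) (nat_lit 542) (nat_lit 377) (nat_lit 281))))) (XT.nd (nat_lit 312) (nat_lit 152) (nat_lit 0) (XT.nd (nat_lit 156) (nat_lit 0) (nat_lit 0) (XT.nd (nat_lit 78) (nat_lit 76) (nat_lit 0) (XT.lf (nat_lit 0) (nat_lit 31495644650) (nat_lit 152) (nat_lit 7920971213) (nat_lit 0) (nat_lit 18130241939) (nat_lit 18) (nat_lit 5) (nat_lit 20) (nat_lit 4) (nat_lit 18) (nat_lit 4) (nat_lit 543) (nat_lit 377) (nat_lit 280)) (XT.lf (nat_lit 0) (nat_lit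 9693369830) (nat_lit 76) (nat_lit 31348906812) (nat_lit 76) (nat_lit 17960035994) (nat_lit 17) (nat_lit 4) (nat_lit 18) (nat_lit 5) (nat_lit 18) (nat_lit 4) (nat_lit 544) (nat_lit 377) (nat_lit 279))) (XT.nd (nat_lit 78) (nat_lit 0) (nat_lit 0) (XT.lf (nat_lit 0) (nat_lit 27945641643) (nat_lit 76) (nat_lit 22982923775) (nat_lit 76) (nat_lit 9571268387) (nat_lit 17) (nat_lit 4) (nat_lit 18) (nat_lit 5) (nat_lit 18) (nat_lit 4) (nat_lit 545) (nat_lit 377) (nat_lit 278)) (XT.lf (nat_lit 0) (nat_lit 46694149954) (nat_lit 76) (nat_lit 14391342946) (nat_lit 76) (nat_lit 957566617) (nat_lit 17) (nat_lit 4) (nat_lit 18) (nat_lit 5) (nat_lit 18) (nat_lit 4) (nat_lit 546) (nat_lit 377) (nat_lit 277)))) (XT.nd (nat_lit 156) (nat_lit 0) (nat_lit 0) (XT.nd (nat_lit 78) (nat_lit 0) (nat_lit 0) (XT.lf (nat_lit 0) (nat_lit 2290810689) (nat_lit 76) (nat_lit 5465870916) (nat_lit 152) (nat_lit 55873721097) (nat_lit 15) (nat_lit 5)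 (nat_lit 16) (nat_lit 5) (nat_lit 17) (nat_lit 4) (nat_lit 547) (nat_lit 377) (nat_lit 276)) (XT.lf (nat_lit 0) (nat_lit 16880050144) (nat_lit 152) (nat_lit 44583569870) (nat_lit 0) (nat_lit 3796453950) (nat_lit 15) (nat_lit 5) (nat_lit 17) (nat_lit 4) (nat_lit 15) (nat_lit 4) (nat_lit 548) (nat_lit 377) (nat_lit 275))) (XT.nd (nat_lit 78) (nat_lit 0) (nat_lit 0) (XT.lf (nat_lit 0) (nat_lit 26306558446) (nat_lit 152) (nat_lit 27427886038) (nat_lit 0) (nat_lit 13203308082) (nat_lit 15) (nat_lit 5) (nat_lit 17) (nat_lit 4) (nat_lit 15) (nat_lit 4) (nat_lit 549) (nat_lit 377) (nat_lit 274)) (XT.lf (nat_lit 0) (nat_lit 35991901972) (nat_lit 152) (nat_lit 9805008818) (nat_lit 0) (nat_lit 22869569889) (nat_lit 15) (nat_lit 5) (nat_lit 17) (nat_lit 4) (nat_lit 15) (nat_lit 4) (nat_lit 550) (nat_lit 377) (nat_lit 273))))))) (XT.nd (nat_lit 55068) (nat_lit 0) (nat_lit 5700) (XT.nd (nat_lit 54444) (nat_lit 0) (nat_lit 8892)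 (XT.nd (nat_lit 54132) (nat_lit 0) (nat_lit 10944) (XT.nd (nat_lit 78) (nat_lit 0) (nat_lit 0) (XT.lf (nat_lit 0) (nat_lit 8465655855) (nat_lit 76) (nat_lit 37560264851) (nat_lit 76) (nat_lit 24419406829) (nat_lit 14) (nat_lit 4) (nat_lit 15) (nat_lit 5) (nat_lit 15) (nat_lit 4) (nat_lit 551) (nat_lit 377) (nat_lit 272)) (XT.nd (nat_lit 78) (nat_lit 0) (nat_lit 0) (XT.lf (nat_lit 0) (nat_lit 27439791142) (nat_lit 76) (nat_lit 28997156859) (nat_lit 76) (nat_lit 15838312487) (nat_lit 14) (nat_lit 4) (nat_lit 15) (nat_lit 5) (nat_lit 15) (nat_lit 4) (nat_lit 552) (nat_lit 377) (nat_lit 271)) (XT.lf (nat_lit 0) (nat_lit 46938837485) (nat_lit 76) (nat_lit 20199115850) (nat_lit 76) (nat_lit 7022809003) (nat_lit 14) (nat_lit 4) (nat_lit 15) (nat_lit 5) (nat_lit 15) (nat_lit 4) (nat_lit 553) (nat_lit 377) (nat_lit 270)))) (XT.nd (nat_lit 156) (nat_lit 760) (nat_lit 0) (XT.nd (nat_lit 78) (nat_lit 380) (nat_lit 0) (XT.lf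 (nat_lit 0) (nat_lit 1304009009) (nat_lit 456) (nat_lit 1671623978) (nat_lit 0) (nat_lit 1304009009) (nat_lit 173) (nat_lit 5) (nat_lit 179) (nat_lit 4) (nat_lit 173) (nat_lit 4) (nat_lit 444) (nat_lit 378) (nat_lit 378)) (XT.lf (nat_lit 0) (nat_lit 3892836608) (nat_lit 380) (nat_lit 2899553260) (nat_lit 380) (nat_lit 1867640895) (nat_lit 168) (nat_lit 4) (nat_lit 173) (nat_lit 5) (nat_lit 173) (nat_lit 4) (nat_lit 445) (nat_lit 378) (nat_lit 377))) (XT.nd (nat_lit 78) (nat_lit 380) (nat_lit 0) (XT.lf (nat_lit 0) (nat_lit 2252488401) (nat_lit 380) (nat_lit 6233911003) (nat_lit 0) (nat_lit 277955363) (nat_lit 163) (nat_lit 5) (nat_lit 168) (nat_lit 4) (nat_lit 163) (nat_lit 4) (nat_lit 446) (nat_lit 378) (nat_lit 376)) (XT.lf (nat_lit 0) (nat_lit 1101902532) (nat_lit 380) (nat_lit 5344310937) (nat_lit 380) (nat_lit 2425431905) (nat_lit 158) (nat_lit 4) (nat_lit 163) (nat_lit 5) (nat_lit 163) (nat_lit 4) (nat_lit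 447) (nat_lit 378) (nat_lit 375))))) (XT.nd (nat_lit 312) (nat_lit 988) (nat_lit 0) (XT.nd (nat_lit 156) (nat_lit 684) (nat_lit 0) (XT.nd (nat_lit 78) (nat_lit 304) (nat_lit 0) (XT.lf (nat_lit 0) (nat_lit 1712513823) (nat_lit 456) (nat_lit 359316740) (nat_lit 76) (nat_lit 6910914618) (nat_lit 157) (nat_lit 5) (nat_lit 163) (nat_lit 5) (nat_lit 158) (nat_lit 4) (nat_lit 448) (nat_lit 378) (nat_lit 374)) (XT.lf (nat_lit 0) (nat_lit 5911555198) (nat_lit 380) (nat_lit 1862002177) (nat_lit 0) (nat_lit 1323345030) (nat_lit 153) (nat_lit 5) (nat_lit 158) (nat_lit 4) (nat_lit 153) (nat_lit 4) (nat_lit 449) (nat_lit 378) (nat_lit 373))) (XT.nd (nat_lit 78) (nat_lit 304) (nat_lit 0) (XT.lf (nat_lit 0) (nat_lit 985969875) (nat_lit 380) (nat_lit 3425730505) (nat_lit 76) (nat_lit 4802989400) (nat_lit 148) (nat_lit 5) (nat_lit 153) (nat_lit 5) (nat_lit 149) (nat_lit 4) (nat_lit 450) (nat_lit 378) (nat_lit 372)) (XT.lf (nat_lit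 0) (nat_lit 4279829889) (nat_lit 304) (nat_lit 903263899) (nat_lit 380) (nat_lit 4153044825) (nat_lit 144) (nat_lit 5) (nat_lit 148) (nat_lit 5) (nat_lit 149) (nat_lit 4) (nat_lit 451) (nat_lit 378) (nat_lit 371)))) (XT.nd (nat_lit 156) (nat_lit 380) (nat_lit 0) (XT.nd (nat_lit 78) (nat_lit 228) (nat_lit 0) (XT.lf (nat_lit 0) (nat_lit 36457116) (nat_lit 380) (nat_lit 6753880794) (nat_lit 76) (nat_lit 2671120896) (nat_lit 139) (nat_lit 5) (nat_lit 144) (nat_lit 5) (nat_lit 140) (nat_lit 4) (nat_lit 452) (nat_lit 378) (nat_lit 370)) (XT.lf (nat_lit 0) (nat_lit 1043263719) (nat_lit 228) (nat_lit 3201380571) (nat_lit 304) (nat_lit 5345379997) (nat_lit 136) (nat_lit 5) (nat_lit 139) (nat_lit 5) (nat_lit 140) (nat_lit 4) (nat_lit 453) (nat_lit 378) (nat_lit 369))) (XT.nd (nat_lit 78) (nat_lit 380) (nat_lit 0) (XT.lf (nat_lit 0) (nat_lit 8559510224) (nat_lit 304) (nat_lit 659489195) (nat_lit 0) (nat_lit 504047350) (nat_lit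 136) (nat_lit 5) (nat_lit 140) (nat_lit 4) (nat_lit 136) (nat_lit 4) (nat_lit 454) (nat_lit 378) (nat_lit 368)) (XT.lf (nat_lit 0) (nat_lit 3095213033) (nat_lit 380) (nat_lit 2454396054) (nat_lit 76) (nat_lit 4309172622) (nat_lit 131) (nat_lit 5) (nat_lit 136) (nat_lit 5) (nat_lit 132) (nat_lit 4) (nat_lit 455) (nat_lit 378) (nat_lit 367)))))) (XT.nd (nat_lit 624) (nat_lit 1368) (nat_lit 0) (XT.nd (nat_lit 312) (nat_lit 912) (nat_lit 0) (XT.nd (nat_lit 156) (nat_lit 304) (nat_lit 0) (XT.nd (nat_lit 78) (nat_lit 380) (nat_lit 0) (XT.lf (nat_lit 0) (nat_lit 5682027641) (nat_lit 228) (nat_lit 1747554346) (nat_lit 304) (nat_lit 2569535750) (nat_lit 128) (nat_lit 5) (nat_lit 131) (nat_lit 5) (nat_lit 132) (nat_lit 4) (nat_lit 456) (nat_lit 378) (nat_lit 366)) (XT.lf (nat_lit 0) (nat_lit 1709937623) (nat_lit 380) (nat_lit 6279387268) (nat_lit 76) (nat_lit 2154032208) (nat_lit 123) (nat_lit 5) (nat_lit 128) (nat_lit 5)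 (nat_lit 124) (nat_lit 4) (nat_lit 457) (nat_lit 378) (nat_lit 365))) (XT.nd (nat_lit 78) (nat_lit 76) (nat_lit 0) (XT.lf (nat_lit 0) (nat_lit 1939287154) (nat_lit 228) (nat_lit 4117849572) (nat_lit 304) (nat_lit 4234305004) (nat_lit 120) (nat_lit 5) (nat_lit 123) (nat_lit 5) (nat_lit 124) (nat_lit 4) (nat_lit 458) (nat_lit 378) (nat_lit 364)) (XT.lf (nat_lit 0) (nat_lit 64409917) (nat_lit 304) (nat_lit 54411419) (nat_lit 76) (nat_lit 10325869717) (nat_lit 119) (nat_lit 5) (nat_lit 123) (nat_lit 5) (nat_lit 120) (nat_lit 5) (nat_lit 459) (nat_lit 378) (nat_lit 363)))) (XT.nd (nat_lit 156) (nat_lit 456) (nat_lit 0) (XT.nd (nat_lit 78) (nat_lit 228) (nat_lit 0) (XT.lf (nat_lit 0) (nat_lit 4441555299) (nat_lit 304) (nat_lit 2164740277) (nat_lit 76) (nat_lit 3993957325) (nat_lit 116) (nat_lit 5) (nat_lit 120) (nat_lit 5) (nat_lit 117) (nat_lit 4) (nat_lit 460) (nat_lit 378) (nat_lit 362)) (XT.lf (nat_lit 0) (nat_lit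 6404008238) (nat_lit 228) (nat_lit 2523899691) (nat_lit 304) (nat_lit 1833246585) (nat_lit 113) (nat_lit 5) (nat_lit 116) (nat_lit 5) (nat_lit 117) (nat_lit 4) (nat_lit 461) (nat_lit 378) (nat_lit 361))) (XT.nd (nat_lit 78) (nat_lit 152) (nat_lit 0) (XT.lf (nat_lit 0) (nat_lit 2565281223) (nat_lit 304) (nat_lit 6678407602) (nat_lit 76) (nat_lit 1682613056) (nat_lit 109) (nat_lit 5) (nat_lit 113) (nat_lit 5) (nat_lit 110) (nat_lit 4) (nat_lit 462) (nat_lit 378) (nat_lit 360)) (XT.lf (nat_lit 0) (nat_lit 1958463865) (nat_lit 152) (nat_lit 5104215663) (nat_lit 228) (nat_lit 4033075653) (nat_lit 107) (nat_lit 5) (nat_lit 109) (nat_lit 5) (nat_lit 110) (nat_lit 4) (nat_lit 463) (nat_lit 378) (nat_lit 359))))) (XT.nd (nat_lit 312) (nat_lit 608) (nat_lit 0) (XT.nd (nat_lit 156) (nat_lit 456) (nat_lit 0) (XT.nd (nat_lit 78) (nat_lit 228) (nat_lit 0) (XT.lf (nat_lit 0) (nat_lit 400318505) (nat_lit 228) (nat_lit 423470641)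 (nat_lit 76) (nat_lit 10446871872) (nat_lit 106) (nat_lit 5) (nat_lit 109) (nat_lit 5) (nat_lit 107) (nat_lit 5) (nat_lit 464) (nat_lit 378) (nat_lit 358)) (XT.lf (nat_lit 0) (nat_lit 4921130374) (nat_lit 304) (nat_lit 2943914614) (nat_lit 76) (nat_lit 3583514920) (nat_lit 103) (nat_lit 5) (nat_lit 107) (nat_lit 5) (nat_lit 104) (nat_lit 4) (nat_lit 465) (nat_lit 378) (nat_lit 357))) (XT.nd (nat_lit 78) (nat_lit 304) (nat_lit 0) (XT.lf (nat_lit 0) (nat_lit 6049254169) (nat_lit 152) (nat_lit 3517717113) (nat_lit 228) (nat_lit 2065150229) (nat_lit 101) (nat_lit 5) (nat_lit 103) (nat_lit 5) (nat_lit 104) (nat_lit 4) (nat_lit 466) (nat_lit 378) (nat_lit 356)) (XT.lf (nat_lit 0) (nat_lit 2473430128) (nat_lit 304) (nat_lit 8373919134) (nat_lit 76) (nat_lit 973363598) (nat_lit 97) (nat_lit 5) (nat_lit 101) (nat_lit 5) (nat_lit 98) (nat_lit 4) (nat_lit 467) (nat_lit 378) (nat_lit 355)))) (XT.nd (nat_lit 156) (nat_lit 456)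 (nat_lit 0) (XT.nd (nat_lit 78) (nat_lit 0) (nat_lit 0) (XT.lf (nat_lit 0) (nat_lit 666723694) (nat_lit 152) (nat_lit 6457628905) (nat_lit 228) (nat_lit 4889472394) (nat_lit 95) (nat_lit 5) (nat_lit 97) (nat_lit 5) (nat_lit 98) (nat_lit 4) (nat_lit 468) (nat_lit 378) (nat_lit 354)) (XT.lf (nat_lit 0) (nat_lit 10012635730) (nat_lit 152) (nat_lit 1907268633) (nat_lit 228) (nat_lit 292680082) (nat_lit 95) (nat_lit 5) (nat_lit 97) (nat_lit 5) (nat_lit 98) (nat_lit 4) (nat_lit 469) (nat_lit 378) (nat_lit 353))) (XT.nd (nat_lit 78) (nat_lit 152) (nat_lit 0) (XT.lf (nat_lit 0) (nat_lit 4373753560) (nat_lit 304) (nat_lit 5259626278) (nat_lit 76) (nat_lit 2782099948) (nat_lit 91) (nat_lit 5) (nat_lit 95) (nat_lit 5) (nat_lit 92) (nat_lit 4) (nat_lit 470) (nat_lit 378) (nat_lit 352)) (XT.lf (nat_lit 0) (nat_lit 4136753560) (nat_lit 152) (nat_lit 5041149293) (nat_lit 228) (nat_lit 3446370455) (nat_lit 89) (nat_lit 5) (nat_lit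 91) (nat_lit 5) (nat_lit 92) (nat_lit 4) (nat_lit 471) (nat_lit 378) (nat_lit 351))))))))
noncomputable def xc50 : XT := (XT.nd (nat_lit 2340) (nat_lit 1596) (nat_lit 0) (XT.nd (nat_lit 1170) (nat_lit 1520) (nat_lit 0) (XT.nd (nat_lit 546) (nat_lit 836) (nat_lit 0) (XT.nd (nat_lit 234) (nat_lit 608) (nat_lit 0) (XT.nd (nat_lit 78) (nat_lit 152) (nat_lit 0) (XT.lf (nat_lit 0) (nat_lit 955031556) (nat_lit 152) (nat_lit 292245125) (nat_lit 228) (nat_lit 11592122648) (nat_lit 86) (nat_lit 5) (nat_lit 88) (nat_lit 5) (nat_lit 89) (nat_lit 5) (nat_lit 472) (nat_lit 378) (nat_lit 350)) (XT.nd (nat_lit 78) (nat_lit 152) (nat_lit 0) (XT.lf (nat_lit 0) (nat_lit 6066352623) (nat_lit 228) (nat_lit 2418961605) (nat_lit 76) (nat_lit 4573030454) (nat_lit 86) (nat_lit 5) (nat_lit 89) (nat_lit 5) (nat_lit 87) (nat_lit 4) (nat_lit 473) (nat_lit 378) (nat_lit 349)) (XT.lf (nat_lit 0) (nat_lit 7338462339) (nat_lit 152) (nat_lit 3690335476)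 (nat_lit 228) (nat_lit 2255102371) (nat_lit 84) (nat_lit 5) (nat_lit 86) (nat_lit 5) (nat_lit 87) (nat_lit 4) (nat_lit 474) (nat_lit 378) (nat_lit 348)))) (XT.nd (nat_lit 156) (nat_lit 228) (nat_lit 0) (XT.nd (nat_lit 78) (nat_lit 152) (nat_lit 0) (XT.lf (nat_lit 0) (nat_lit 2572115563) (nat_lit 228) (nat_lit 9688433794) (nat_lit 76) (nat_lit 1254938995) (nat_lit 81) (nat_lit 5) (nat_lit 84) (nat_lit 5) (nat_lit 82) (nat_lit 4) (nat_lit 475) (nat_lit 378) (nat_lit 347)) (XT.lf (nat_lit 0) (nat_lit 71508516) (nat_lit 152) (nat_lit 7451069133) (nat_lit 228) (nat_lit 6230069309) (nat_lit 79) (nat_lit 5) (nat_lit 81) (nat_lit 5) (nat_lit 82) (nat_lit 4) (nat_lit 476) (nat_lit 378) (nat_lit 346))) (XT.nd (nat_lit 78) (nat_lit 228) (nat_lit 0) (XT.lf (nat_lit 0) (nat_lit 10191353402) (nat_lit 152) (nat_lit 2454824590) (nat_lit 228) (nat_lit 1350008658) (nat_lit 79) (nat_lit 5) (nat_lit 81) (nat_lit 5) (nat_lit 82) (nat_lit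 4) (nat_lit 477) (nat_lit 378) (nat_lit 345)) (XT.lf (nat_lit 0) (nat_lit 3620015362) (nat_lit 228) (nat_lit 7945801250) (nat_lit 76) (nat_lit 2679701411) (nat_lit 76) (nat_lit 5) (nat_lit 79) (nat_lit 5) (nat_lit 77) (nat_lit 4) (nat_lit 478) (nat_lit 378) (nat_lit 344))))) (XT.nd (nat_lit 312) (nat_lit 304) (nat_lit 0) (XT.nd (nat_lit 156) (nat_lit 380) (nat_lit 0) (XT.nd (nat_lit 78) (nat_lit 0) (nat_lit 0) (XT.lf (nat_lit 0) (nat_lit 2158875326) (nat_lit 152) (nat_lit 6565519237) (nat_lit 228) (nat_lit 5777166765) (nat_lit 74) (nat_lit 5) (nat_lit 76) (nat_lit 5) (nat_lit 77) (nat_lit 4) (nat_lit 479) (nat_lit 378) (nat_lit 343)) (XT.lf (nat_lit 0) (nat_lit 12601420146) (nat_lit 152) (nat_lit 1390100710) (nat_lit 228) (nat_lit 773481100) (nat_lit 74) (nat_lit 5) (nat_lit 76) (nat_lit 5) (nat_lit 77) (nat_lit 4) (nat_lit 480) (nat_lit 378) (nat_lit 342))) (XT.nd (nat_lit 78) (nat_lit 152) (nat_lit 0) (XT.lf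 (nat_lit 0) (nat_lit 4344067060) (nat_lit 228) (nat_lit 6758063580) (nat_lit 76) (nat_lit 3931479385) (nat_lit 71) (nat_lit 5) (nat_lit 74) (nat_lit 5) (nat_lit 72) (nat_lit 4) (nat_lit 481) (nat_lit 378) (nat_lit 341)) (XT.lf (nat_lit 0) (nat_lit 3686796826) (nat_lit 152) (nat_lit 5915098315) (nat_lit 228) (nat_lit 5708086573) (nat_lit 69) (nat_lit 5) (nat_lit 71) (nat_lit 5) (nat_lit 72) (nat_lit 4) (nat_lit 482) (nat_lit 378) (nat_lit 340)))) (XT.nd (nat_lit 156) (nat_lit 76) (nat_lit 0) (XT.nd (nat_lit 78) (nat_lit 228) (nat_lit 0) (XT.lf (nat_lit 0) (nat_lit 14458685970) (nat_lit 152) (nat_lit 558856221) (nat_lit 228) (nat_lit 577103835) (nat_lit 69) (nat_lit 5) (nat_lit 71) (nat_lit 5) (nat_lit 72) (nat_lit 4) (nat_lit 483) (nat_lit 378) (nat_lit 339)) (XT.lf (nat_lit 0) (nat_lit 4690722158) (nat_lit 228) (nat_lit 6247092935) (nat_lit 76) (nat_lit 4946437907) (nat_lit 66) (nat_lit 5) (nat_lit 69) (nat_lit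 5) (nat_lit 67) (nat_lit 4) (nat_lit 484) (nat_lit 378) (nat_lit 338))) (XT.nd (nat_lit 78) (nat_lit 0) (nat_lit 0) (XT.lf (nat_lit 0) (nat_lit 4528767201) (nat_lit 76) (nat_lit 5570283338) (nat_lit 152) (nat_lit 6083507880) (nat_lit 65) (nat_lit 5) (nat_lit 66) (nat_lit 5) (nat_lit 67) (nat_lit 4) (nat_lit 485) (nat_lit 378) (nat_lit 337)) (XT.lf (nat_lit 0) (nat_lit 15634365890) (nat_lit 76) (nat_lit 32532526) (nat_lit 152) (nat_lit 823000044) (nat_lit 65) (nat_lit 5) (nat_lit 66) (nat_lit 5) (nat_lit 67) (nat_lit 4) (nat_lit 486) (nat_lit 378) (nat_lit 336)))))) (XT.nd (nat_lit 546) (nat_lit 684) (nat_lit 0) (XT.nd (nat_lit 234) (nat_lit 532) (nat_lit 0) (XT.nd (nat_lit 78) (nat_lit 76) (nat_lit 0) (XT.lf (nat_lit 0) (nat_lit 4595577116) (nat_lit 228) (nat_lit 6555278136) (nat_lit 76) (nat_lit 5651583844) (nat_lit 62) (nat_lit 5) (nat_lit 65) (nat_lit 5) (nat_lit 63) (nat_lit 4) (nat_lit 487) (nat_lit 378) (nat_lit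 335)) (XT.nd (nat_lit 78) (nat_lit 0) (nat_lit 0) (XT.lf (nat_lit 0) (nat_lit 4536782210) (nat_lit 76) (nat_lit 5611733089) (nat_lit 152) (nat_lit 6975949090) (nat_lit 61) (nat_lit 5) (nat_lit 62) (nat_lit 5) (nat_lit 63) (nat_lit 4) (nat_lit 488) (nat_lit 378) (nat_lit 334)) (XT.lf (nat_lit 0) (nat_lit 15871688035) (nat_lit 152) (nat_lit 1479516211) (nat_lit 0) (nat_lit 104839956) (nat_lit 61) (nat_lit 5) (nat_lit 63) (nat_lit 4) (nat_lit 61) (nat_lit 4) (nat_lit 489) (nat_lit 378) (nat_lit 333)))) (XT.nd (nat_lit 156) (nat_lit 228) (nat_lit 0) (XT.nd (nat_lit 78) (nat_lit 76) (nat_lit 0) (XT.lf (nat_lit 0) (nat_lit 3981722377) (nat_lit 228) (nat_lit 7849047019) (nat_lit 76) (nat_lit 5962954806) (nat_lit 58) (nat_lit 5) (nat_lit 61) (nat_lit 5) (nat_lit 59) (nat_lit 4) (nat_lit 490) (nat_lit 378) (nat_lit 332)) (XT.lf (nat_lit 0) (nat_lit 3537647362) (nat_lit 76) (nat_lit 6132243067) (nat_lit 152) (nat_lit 8471567926)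 (nat_lit 57) (nat_lit 5) (nat_lit 58) (nat_lit 5) (nat_lit 59) (nat_lit 4) (nat_lit 491) (nat_lit 378) (nat_lit 331))) (XT.nd (nat_lit 78) (nat_lit 228) (nat_lit 0) (XT.lf (nat_lit 0) (nat_lit 15311592533) (nat_lit 76) (nat_lit 234930107) (nat_lit 152) (nat_lit 2952570120) (nat_lit 57) (nat_lit 5) (nat_lit 58) (nat_lit 5) (nat_lit 59) (nat_lit 4) (nat_lit 492) (nat_lit 378) (nat_lit 330)) (XT.lf (nat_lit 0) (nat_lit 2757809465) (nat_lit 228) (nat_lit 10322942003) (nat_lit 76) (nat_lit 5783545833) (nat_lit 54) (nat_lit 5) (nat_lit 57) (nat_lit 5) (nat_lit 55) (nat_lit 4) (nat_lit 493) (nat_lit 378) (nat_lit 329))))) (XT.nd (nat_lit 312) (nat_lit 380) (nat_lit 0) (XT.nd (nat_lit 156) (nat_lit 228) (nat_lit 0) (XT.nd (nat_lit 78) (nat_lit 0) (nat_lit 0) (XT.lf (nat_lit 0) (nat_lit 1328704848) (nat_lit 76) (nat_lit 7238986175) (nat_lit 152) (nat_lit 10672266489) (nat_lit 53) (nat_lit 5) (nat_lit 54) (nat_lit 5) (nat_lit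 55) (nat_lit 4) (nat_lit 494) (nat_lit 378) (nat_lit 328)) (XT.lf (nat_lit 0) (nat_lit 13429352144) (nat_lit 76) (nat_lit 1167359602) (nat_lit 152) (nat_lit 5028832993) (nat_lit 53) (nat_lit 5) (nat_lit 54) (nat_lit 5) (nat_lit 55) (nat_lit 4) (nat_lit 495) (nat_lit 378) (nat_lit 327))) (XT.nd (nat_lit 78) (nat_lit 0) (nat_lit 0) (XT.lf (nat_lit 0) (nat_lit 815792706) (nat_lit 228) (nat_lit 14204339195) (nat_lit 76) (nat_lit 5000928386) (nat_lit 50) (nat_lit 5) (nat_lit 53) (nat_lit 5) (nat_lit 51) (nat_lit 4) (nat_lit 496) (nat_lit 378) (nat_lit 326)) (XT.lf (nat_lit 0) (nat_lit 6751342405) (nat_lit 228) (nat_lit 2281705158) (nat_lit 76) (nat_lit 11393402513) (nat_lit 50) (nat_lit 5) (nat_lit 53) (nat_lit 5) (nat_lit 51) (nat_lit 4) (nat_lit 497) (nat_lit 378) (nat_lit 325)))) (XT.nd (nat_lit 156) (nat_lit 152) (nat_lit 0) (XT.nd (nat_lit 78) (nat_lit 152) (nat_lit 0) (XT.lf (nat_lit 0) (nat_lit 10088469240) (nat_lit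 76) (nat_lit 2817070631) (nat_lit 152) (nat_lit 7937246461) (nat_lit 49) (nat_lit 5) (nat_lit 50) (nat_lit 5) (nat_lit 51) (nat_lit 4) (nat_lit 498) (nat_lit 378) (nat_lit 324)) (XT.lf (nat_lit 0) (nat_lit 1492893912) (nat_lit 152) (nat_lit 17767300228) (nat_lit 152) (nat_lit 2010945757) (nat_lit 47) (nat_lit 4) (nat_lit 49) (nat_lit 5) (nat_lit 49) (nat_lit 4) (nat_lit 499) (nat_lit 378) (nat_lit 323))) (XT.nd (nat_lit 78) (nat_lit 76) (nat_lit 0) (XT.lf (nat_lit 0) (nat_lit 4094648709) (nat_lit 228) (nat_lit 7556639501) (nat_lit 76) (nat_lit 10057436207) (nat_lit 46) (nat_lit 5) (nat_lit 49) (nat_lit 5) (nat_lit 47) (nat_lit 4) (nat_lit 500) (nat_lit 378) (nat_lit 322)) (XT.lf (nat_lit 0) (nat_lit 5005283954) (nat_lit 76) (nat_lit 5331271623) (nat_lit 152) (nat_lit 11822478674) (nat_lit 45) (nat_lit 5) (nat_lit 46) (nat_lit 5) (nat_lit 47) (nat_lit 4) (nat_lit 501) (nat_lit 378) (nat_lit 321))))))) (XT.nd (nat_lit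 1170) (nat_lit 684) (nat_lit 0) (XT.nd (nat_lit 546) (nat_lit 456) (nat_lit 0) (XT.nd (nat_lit 234) (nat_lit 304) (nat_lit 0) (XT.nd (nat_lit 78) (nat_lit 152) (nat_lit 0) (XT.lf (nat_lit 0) (nat_lit 16799684054) (nat_lit 152) (nat_lit 4637897667) (nat_lit 0) (nat_lit 1184254635) (nat_lit 45) (nat_lit 5) (nat_lit 47) (nat_lit 4) (nat_lit 45) (nat_lit 4) (nat_lit 502) (nat_lit 378) (nat_lit 320)) (XT.nd (nat_lit 78) (nat_lit 0) (nat_lit 0) (XT.lf (nat_lit 0) (nat_lit 431329462) (nat_lit 152) (nat_lit 14839716021) (nat_lit 76) (nat_lit 7824971495) (nat_lit 43) (nat_lit 5) (nat_lit 45) (nat_lit 5) (nat_lit 44) (nat_lit 4) (nat_lit 503) (nat_lit 378) (nat_lit 319)) (XT.lf (nat_lit 0) (nat_lit 6749910118) (nat_lit 152) (nat_lit 2109973419) (nat_lit 76) (nat_lit 14722976459) (nat_lit 43) (nat_lit 5) (nat_lit 45) (nat_lit 5) (nat_lit 44) (nat_lit 4) (nat_lit 504) (nat_lit 378) (nat_lit 318)))) (XT.nd (nat_lit 156) (nat_lit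 152) (nat_lit 0) (XT.nd (nat_lit 78) (nat_lit 76) (nat_lit 0) (XT.lf (nat_lit 0) (nat_lit 11120364155) (nat_lit 76) (nat_lit 2193333723) (nat_lit 152) (nat_lit 10768942629) (nat_lit 42) (nat_lit 5) (nat_lit 43) (nat_lit 5) (nat_lit 44) (nat_lit 4) (nat_lit 505) (nat_lit 378) (nat_lit 317)) (XT.lf (nat_lit 0) (nat_lit 51556382) (nat_lit 76) (nat_lit 20038640383) (nat_lit 76) (nat_lit 4506745392) (nat_lit 41) (nat_lit 4) (nat_lit 42) (nat_lit 5) (nat_lit 42) (nat_lit 4) (nat_lit 506) (nat_lit 378) (nat_lit 316))) (XT.nd (nat_lit 78) (nat_lit 76) (nat_lit 0) (XT.lf (nat_lit 0) (nat_lit 2008215301) (nat_lit 152) (nat_lit 11541379962) (nat_lit 76) (nat_lit 11573434173) (nat_lit 40) (nat_lit 5) (nat_lit 42) (nat_lit 5) (nat_lit 41) (nat_lit 4) (nat_lit 507) (nat_lit 378) (nat_lit 315)) (XT.lf (nat_lit 0) (nat_lit 1746615842) (nat_lit 76) (nat_lit 6848618309) (nat_lit 152) (nat_lit 17069312339) (nat_lit 39) (nat_lit 5)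 (nat_lit 40) (nat_lit 5) (nat_lit 41) (nat_lit 4) (nat_lit 508) (nat_lit 378) (nat_lit 314))))) (XT.nd (nat_lit 312) (nat_lit 228) (nat_lit 0) (XT.nd (nat_lit 156) (nat_lit 152) (nat_lit 0) (XT.nd (nat_lit 78) (nat_lit 76) (nat_lit 0) (XT.lf (nat_lit 0) (nat_lit 15448573415) (nat_lit 152) (nat_lit 10646330999) (nat_lit 0) (nat_lit 125344808) (nat_lit 39) (nat_lit 5) (nat_lit 41) (nat_lit 4) (nat_lit 39) (nat_lit 4) (nat_lit 509) (nat_lit 378) (nat_lit 313)) (XT.lf (nat_lit 0) (nat_lit 2919679391) (nat_lit 76) (nat_lit 19635646565) (nat_lit 76) (nat_lit 4235864107) (nat_lit 38) (nat_lit 4) (nat_lit 39) (nat_lit 5) (nat_lit 39) (nat_lit 4) (nat_lit 510) (nat_lit 378) (nat_lit 312))) (XT.nd (nat_lit 78) (nat_lit 76) (nat_lit 0) (XT.lf (nat_lit 0) (nat_lit 2507869762) (nat_lit 152) (nat_lit 10383130967) (nat_lit 76) (nat_lit 14485723313) (nat_lit 37) (nat_lit 5) (nat_lit 39) (nat_lit 5) (nat_lit 38) (nat_lit 4) (nat_lit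 511) (nat_lit 378) (nat_lit 311)) (XT.lf (nat_lit 0) (nat_lit 3444942589) (nat_lit 76) (nat_lit 5910332544) (nat_lit 152) (nat_lit 18623697147) (nat_lit 36) (nat_lit 5) (nat_lit 37) (nat_lit 5) (nat_lit 38) (nat_lit 4) (nat_lit 512) (nat_lit 378) (nat_lit 310)))) (XT.nd (nat_lit 156) (nat_lit 152) (nat_lit 0) (XT.nd (nat_lit 78) (nat_lit 76) (nat_lit 0) (XT.lf (nat_lit 0) (nat_lit 16479756355) (nat_lit 152) (nat_lit 10799106079) (nat_lit 0) (nat_lit 1318277180) (nat_lit 36) (nat_lit 5) (nat_lit 38) (nat_lit 4) (nat_lit 36) (nat_lit 4) (nat_lit 513) (nat_lit 378) (nat_lit 309)) (XT.lf (nat_lit 0) (nat_lit 3265371058) (nat_lit 76) (nat_lit 20597327765) (nat_lit 76) (nat_lit 5369812566) (nat_lit 35) (nat_lit 4) (nat_lit 36) (nat_lit 5) (nat_lit 36) (nat_lit 4) (nat_lit 514) (nat_lit 378) (nat_lit 308))) (XT.nd (nat_lit 78) (nat_lit 76) (nat_lit 0) (XT.lf (nat_lit 0) (nat_lit 1614337041) (nat_lit 152) (nat_lit 12014523649)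 (nat_lit 76) (nat_lit 16255679483) (nat_lit 34) (nat_lit 5) (nat_lit 36) (nat_lit 5) (nat_lit 35) (nat_lit 4) (nat_lit 515) (nat_lit 378) (nat_lit 307)) (XT.lf (nat_lit 0) (nat_lit 2262474473) (nat_lit 76) (nat_lit 6415529272) (nat_lit 152) (nat_lit 21877194589) (nat_lit 33) (nat_lit 5) (nat_lit 34) (nat_lit 5) (nat_lit 35) (nat_lit 4) (nat_lit 516) (nat_lit 378) (nat_lit 306)))))) (XT.nd (nat_lit 546) (nat_lit 380) (nat_lit 0) (XT.nd (nat_lit 234) (nat_lit 228) (nat_lit 0) (XT.nd (nat_lit 78) (nat_lit 76) (nat_lit 0) (XT.lf (nat_lit 0) (nat_lit 16042097983) (nat_lit 152) (nat_lit 14124470928) (nat_lit 0) (nat_lit 1076752889) (nat_lit 33) (nat_lit 5) (nat_lit 35) (nat_lit 4) (nat_lit 33) (nat_lit 4) (nat_lit 517) (nat_lit 378) (nat_lit 305)) (XT.nd (nat_lit 78) (nat_lit 0) (nat_lit 0) (XT.lf (nat_lit 0) (nat_lit 328959233) (nat_lit 76) (nat_lit 23322356561) (nat_lit 76) (nat_lit 8300048211) (nat_lit 32) (nat_lit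 4) (nat_lit 33) (nat_lit 5) (nat_lit 33) (nat_lit 4) (nat_lit 518) (nat_lit 378) (nat_lit 304)) (XT.lf (nat_lit 0) (nat_lit 15423572126) (nat_lit 76) (nat_lit 16165835466) (nat_lit 76) (nat_lit 1088222986) (nat_lit 32) (nat_lit 4) (nat_lit 33) (nat_lit 5) (nat_lit 33) (nat_lit 4) (nat_lit 519) (nat_lit 378) (nat_lit 303)))) (XT.nd (nat_lit 156) (nat_lit 76) (nat_lit 0) (XT.nd (nat_lit 78) (nat_lit 76) (nat_lit 0) (XT.lf (nat_lit 0) (nat_lit 6175028809) (nat_lit 152) (nat_lit 2595997327) (nat_lit 76) (nat_lit 24654068057) (nat_lit 31) (nat_lit 5) (nat_lit 33) (nat_lit 5) (nat_lit 32) (nat_lit 4) (nat_lit 520) (nat_lit 378) (nat_lit 302)) (XT.lf (nat_lit 0) (nat_lit 12660023279) (nat_lit 76) (nat_lit 1055966147) (nat_lit 152) (nat_lit 20476219490) (nat_lit 30) (nat_lit 5) (nat_lit 31) (nat_lit 5) (nat_lit 32) (nat_lit 4) (nat_lit 521) (nat_lit 378) (nat_lit 301))) (XT.nd (nat_lit 78) (nat_lit 76) (nat_lit 0) (XT.lf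 (nat_lit 0) (nat_lit 21535936764) (nat_lit 152) (nat_lit 6699218011) (nat_lit 0) (nat_lit 6745600481) (nat_lit 30) (nat_lit 5) (nat_lit 32) (nat_lit 4) (nat_lit 30) (nat_lit 4) (nat_lit 522) (nat_lit 378) (nat_lit 300)) (XT.lf (nat_lit 0) (nat_lit 8661463398) (nat_lit 76) (nat_lit 20983944906) (nat_lit 76) (nat_lit 6145902793) (nat_lit 29) (nat_lit 4) (nat_lit 30) (nat_lit 5) (nat_lit 30) (nat_lit 4) (nat_lit 523) (nat_lit 378) (nat_lit 299))))) (XT.nd (nat_lit 312) (nat_lit 228) (nat_lit 0) (XT.nd (nat_lit 156) (nat_lit 0) (nat_lit 0) (XT.nd (nat_lit 78) (nat_lit 76) (nat_lit 0) (XT.lf (nat_lit 0) (nat_lit 1374765319) (nat_lit 152) (nat_lit 12093584853) (nat_lit 76) (nat_lit 23156551909) (nat_lit 28) (nat_lit 5) (nat_lit 30) (nat_lit 5) (nat_lit 29) (nat_lit 4) (nat_lit 524) (nat_lit 378) (nat_lit 298)) (XT.lf (nat_lit 0) (nat_lit 3324125429) (nat_lit 76) (nat_lit 5667722452) (nat_lit 152) (nat_lit 28489998578)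 (nat_lit 27) (nat_lit 5) (nat_lit 28) (nat_lit 5) (nat_lit 29) (nat_lit 4) (nat_lit 525) (nat_lit 378) (nat_lit 297))) (XT.nd (nat_lit 78) (nat_lit 0) (nat_lit 0) (XT.lf (nat_lit 0) (nat_lit 16945945183) (nat_lit 152) (nat_lit 19006231571) (nat_lit 0) (nat_lit 2409068133) (nat_lit 27) (nat_lit 5) (nat_lit 29) (nat_lit 4) (nat_lit 27) (nat_lit 4) (nat_lit 526) (nat_lit 378) (nat_lit 296)) (XT.lf (nat_lit 0) (nat_lit 25158295374) (nat_lit 152) (nat_lit 3527874904) (nat_lit 0) (nat_lit 10580266856) (nat_lit 27) (nat_lit 5) (nat_lit 29) (nat_lit 4) (nat_lit 27) (nat_lit 4) (nat_lit 527) (nat_lit 378) (nat_lit 295)))) (XT.nd (nat_lit 156) (nat_lit 76) (nat_lit 0) (XT.nd (nat_lit 78) (nat_lit 76) (nat_lit 0) (XT.lf (nat_lit 0) (nat_lit 12591052143) (nat_lit 76) (nat_lit 21111573429) (nat_lit 76) (nat_lit 6493592030) (nat_lit 26) (nat_lit 4) (nat_lit 27) (nat_lit 5) (nat_lit 27) (nat_lit 4) (nat_lit 528) (nat_lit 378)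 (nat_lit 294)) (XT.lf (nat_lit 0) (nat_lit 1323639271) (nat_lit 152) (nat_lit 11969782883) (nat_lit 76) (nat_lit 27860063595) (nat_lit 25) (nat_lit 5) (nat_lit 27) (nat_lit 5) (nat_lit 26) (nat_lit 4) (nat_lit 529) (nat_lit 378) (nat_lit 293))) (XT.nd (nat_lit 78) (nat_lit 0) (nat_lit 0) (XT.lf (nat_lit 0) (nat_lit 4082556680) (nat_lit 76) (nat_lit 5167190465) (nat_lit 152) (nat_lit 32887650451) (nat_lit 24) (nat_lit 5) (nat_lit 25) (nat_lit 5) (nat_lit 26) (nat_lit 4) (nat_lit 530) (nat_lit 378) (nat_lit 292)) (XT.lf (nat_lit 0) (nat_lit 17532167705) (nat_lit 152) (nat_lit 22384870699) (nat_lit 0) (nat_lit 3230233170) (nat_lit 24) (nat_lit 5) (nat_lit 26) (nat_lit 4) (nat_lit 24) (nat_lit 4) (nat_lit 531) (nat_lit 378) (nat_lit 291))))))))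
noncomputable def xc51 : XT := (XT.nd (nat_lit 56082) (nat_lit 0) (nat_lit 4560) (XT.nd (nat_lit 1170) (nat_lit 228) (nat_lit 0) (XT.nd (nat_lit 546) (nat_lit 304) (nat_lit 0) (XT.nd (nat_lit 234) (nat_lit 152) (nat_lit 0) (XT.nd (nat_lit 78) (nat_lit 76) (nat_lit 0) (XT.lf (nat_lit 0) (nat_lit 26080894796) (nat_lit 152) (nat_lit 6361516041) (nat_lit 0) (nat_lit 11744496555) (nat_lit 24) (nat_lit 5) (nat_lit 26) (nat_lit 4) (nat_lit 24) (nat_lit 4) (nat_lit 532) (nat_lit 378) (nat_lit 290)) (XT.nd (nat_lit 78) (nat_lit 0) (nat_lit 0) (XT.lf (nat_lit 0) (nat_lit 10279484001) (nat_lit 76) (nat_lit 24673056673) (nat_lit 76) (nat_lit 10303198523) (nat_lit 23) (nat_lit 4) (nat_lit 24) (nat_lit 5) (nat_lit 24) (nat_lit 4) (nat_lit 533) (nat_lit 378) (nat_lit 289)) (XT.lf (nat_lit 0) (nat_lit 27487097844) (nat_lit 76) (nat_lit 16635457810) (nat_lit 76) (nat_lit 2233114312) (nat_lit 23) (nat_lit 4) (nat_lit 24) (nat_lit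 5) (nat_lit 24) (nat_lit 4) (nat_lit 534) (nat_lit 378) (nat_lit 288)))) (XT.nd (nat_lit 156) (nat_lit 0) (nat_lit 0) (XT.nd (nat_lit 78) (nat_lit 76) (nat_lit 0) (XT.lf (nat_lit 0) (nat_lit 5929052947) (nat_lit 152) (nat_lit 2397905186) (nat_lit 76) (nat_lit 39160829867) (nat_lit 22) (nat_lit 5) (nat_lit 24) (nat_lit 5) (nat_lit 23) (nat_lit 4) (nat_lit 535) (nat_lit 378) (nat_lit 287)) (XT.lf (nat_lit 0) (nat_lit 14406288460) (nat_lit 152) (nat_lit 33880384324) (nat_lit 0) (nat_lit 363081443) (nat_lit 21) (nat_lit 5) (nat_lit 23) (nat_lit 4) (nat_lit 21) (nat_lit 4) (nat_lit 536) (nat_lit 378) (nat_lit 286))) (XT.nd (nat_lit 78) (nat_lit 0) (nat_lit 0) (XT.lf (nat_lit 0) (nat_lit 23214294917) (nat_lit 152) (nat_lit 17487766352) (nat_lit 0) (nat_lit 9142225090) (nat_lit 21) (nat_lit 5) (nat_lit 23) (nat_lit 4) (nat_lit 21) (nat_lit 4) (nat_lit 537) (nat_lit 378) (nat_lit 285)) (XT.lf (nat_lit 0) (nat_lit 32256983185)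 (nat_lit 152) (nat_lit 661667331) (nat_lit 0) (nat_lit 18156891211) (nat_lit 21) (nat_lit 5) (nat_lit 23) (nat_lit 4) (nat_lit 21) (nat_lit 4) (nat_lit 538) (nat_lit 378) (nat_lit 284))))) (XT.nd (nat_lit 312) (nat_lit 76) (nat_lit 0) (XT.nd (nat_lit 156) (nat_lit 152) (nat_lit 0) (XT.nd (nat_lit 78) (nat_lit 0) (nat_lit 0) (XT.lf (nat_lit 0) (nat_lit 16943238772) (nat_lit 76) (nat_lit 24761884645) (nat_lit 76) (nat_lit 10634586704) (nat_lit 20) (nat_lit 4) (nat_lit 21) (nat_lit 5) (nat_lit 21) (nat_lit 4) (nat_lit 539) (nat_lit 378) (nat_lit 283)) (XT.lf (nat_lit 0) (nat_lit 35033810984) (nat_lit 76) (nat_lit 16381178070) (nat_lit 76) (nat_lit 2227466567) (nat_lit 20) (nat_lit 4) (nat_lit 21) (nat_lit 5) (nat_lit 21) (nat_lit 4) (nat_lit 540) (nat_lit 378) (nat_lit 282))) (XT.nd (nat_lit 78) (nat_lit 76) (nat_lit 0) (XT.lf (nat_lit 0) (nat_lit 6278511658) (nat_lit 152) (nat_lit 1433977070) (nat_lit 76) (nat_lit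 47270775807) (nat_lit 19) (nat_lit 5) (nat_lit 21) (nat_lit 5) (nat_lit 20) (nat_lit 4) (nat_lit 541) (nat_lit 378) (nat_lit 281)) (XT.lf (nat_lit 0) (nat_lit 15139723580) (nat_lit 152) (nat_lit 39870381596) (nat_lit 0) (nat_lit 1349186638) (nat_lit 18) (nat_lit 5) (nat_lit 20) (nat_lit 4) (nat_lit 18) (nat_lit 4) (nat_lit 542) (nat_lit 378) (nat_lit 280)))) (XT.nd (nat_lit 156) (nat_lit 76) (nat_lit 0) (XT.nd (nat_lit 78) (nat_lit 0) (nat_lit 0) (XT.lf (nat_lit 0) (nat_lit 24330750034) (nat_lit 152) (nat_lit 22927185982) (nat_lit 0) (nat_lit 10516744985) (nat_lit 18) (nat_lit 5) (nat_lit 20) (nat_lit 4) (nat_lit 18) (nat_lit 4) (nat_lit 543) (nat_lit 378) (nat_lit 279)) (XT.lf (nat_lit 0) (nat_lit 33771287061) (nat_lit 152) (nat_lit 5527534390) (nat_lit 0) (nat_lit 19934497443) (nat_lit 18) (nat_lit 5) (nat_lit 20) (nat_lit 4) (nat_lit 18) (nat_lit 4) (nat_lit 544) (nat_lit 378) (nat_lit 278))) (XT.nd (nat_lit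 78) (nat_lit 0) (nat_lit 0) (XT.lf (nat_lit 0) (nat_lit 12589442119) (nat_lit 76) (nat_lit 31001158974) (nat_lit 76) (nat_lit 17142248414) (nat_lit 17) (nat_lit 4) (nat_lit 18) (nat_lit 5) (nat_lit 18) (nat_lit 4) (nat_lit 545) (nat_lit 378) (nat_lit 277)) (XT.lf (nat_lit 0) (nat_lit 31313400402) (nat_lit 76) (nat_lit 22421717272) (nat_lit 76) (nat_lit 8541330069) (nat_lit 17) (nat_lit 4) (nat_lit 18) (nat_lit 5) (nat_lit 18) (nat_lit 4) (nat_lit 546) (nat_lit 378) (nat_lit 276)))))) (XT.nd (nat_lit 54288) (nat_lit 0) (nat_lit 10564) (XT.nd (nat_lit 234) (nat_lit 76) (nat_lit 0) (XT.nd (nat_lit 78) (nat_lit 76) (nat_lit 0) (XT.lf (nat_lit 0) (nat_lit 286715112) (nat_lit 152) (nat_lit 13319206631) (nat_lit 76) (nat_lit 50261082050) (nat_lit 16) (nat_lit 5) (nat_lit 18) (nat_lit 5) (nat_lit 17) (nat_lit 4) (nat_lit 547) (nat_lit 378) (nat_lit 275)) (XT.nd (nat_lit 78) (nat_lit 0) (nat_lit 0) (XT.lf (nat_lit 0) (nat_lit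 4815903888) (nat_lit 76) (nat_lit 4414335517) (nat_lit 152) (nat_lit 56271831156) (nat_lit 15) (nat_lit 5) (nat_lit 16) (nat_lit 5) (nat_lit 17) (nat_lit 4) (nat_lit 548) (nat_lit 378) (nat_lit 274)) (XT.lf (nat_lit 0) (nat_lit 18602511446) (nat_lit 152) (nat_lit 43511437296) (nat_lit 0) (nat_lit 5067427683) (nat_lit 15) (nat_lit 5) (nat_lit 17) (nat_lit 4) (nat_lit 15) (nat_lit 4) (nat_lit 549) (nat_lit 378) (nat_lit 273)))) (XT.nd (nat_lit 156) (nat_lit 76) (nat_lit 0) (XT.nd (nat_lit 78) (nat_lit 0) (nat_lit 0) (XT.lf (nat_lit 0) (nat_lit 28276395780) (nat_lit 152) (nat_lit 25911266628) (nat_lit 0) (nat_lit 14722786076) (nat_lit 15) (nat_lit 5) (nat_lit 17) (nat_lit 4) (nat_lit 15) (nat_lit 4) (nat_lit 550) (nat_lit 378) (nat_lit 272)) (XT.lf (nat_lit 0) (nat_lit 38217912022) (nat_lit 152) (nat_lit 7827842588) (nat_lit 0) (nat_lit 24646315969) (nat_lit 15) (nat_lit 5) (nat_lit 17) (nat_lit 4) (nat_lit 15) (nat_lit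 4) (nat_lit 551) (nat_lit 378) (nat_lit 271))) (XT.nd (nat_lit 78) (nat_lit 0) (nat_lit 0) (XT.lf (nat_lit 0) (nat_lit 10968674217) (nat_lit 76) (nat_lit 37572510323) (nat_lit 76) (nat_lit 23983451795) (nat_lit 14) (nat_lit 4) (nat_lit 15) (nat_lit 5) (nat_lit 15) (nat_lit 4) (nat_lit 552) (nat_lit 378) (nat_lit 270)) (XT.lf (nat_lit 0) (nat_lit 30446527291) (nat_lit 76) (nat_lit 28784972076) (nat_lit 76) (nat_lit 15178959688) (nat_lit 14) (nat_lit 4) (nat_lit 15) (nat_lit 5) (nat_lit 15) (nat_lit 4) (nat_lit 553) (nat_lit 378) (nat_lit 269))))) (XT.nd (nat_lit 312) (nat_lit 1140) (nat_lit 0) (XT.nd (nat_lit 156) (nat_lit 836) (nat_lit 0) (XT.nd (nat_lit 78) (nat_lit 380) (nat_lit 0) (XT.lf (nat_lit 0) (nat_lit 1953143023) (nat_lit 456) (nat_lit 276907240) (nat_lit 0) (nat_lit 1953143023) (nat_lit 184) (nat_lit 5) (nat_lit 190) (nat_lit 4) (nat_lit 184) (nat_lit 4) (nat_lit 442) (nat_lit 379) (nat_lit 379)) (XT.lf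 (nat_lit 0) (nat_lit 6509827591) (nat_lit 380) (nat_lit 1523580085) (nat_lit 380) (nat_lit 428824257) (nat_lit 179) (nat_lit 4) (nat_lit 184) (nat_lit 5) (nat_lit 184) (nat_lit 4) (nat_lit 443) (nat_lit 379) (nat_lit 378))) (XT.nd (nat_lit 78) (nat_lit 380) (nat_lit 0) (XT.lf (nat_lit 0) (nat_lit 3620578140) (nat_lit 456) (nat_lit 3414428533) (nat_lit 0) (nat_lit 1525796040) (nat_lit 173) (nat_lit 5) (nat_lit 179) (nat_lit 4) (nat_lit 173) (nat_lit 4) (nat_lit 444) (nat_lit 379) (nat_lit 377)) (XT.lf (nat_lit 0) (nat_lit 3749756672) (nat_lit 380) (nat_lit 4004973658) (nat_lit 380) (nat_lit 908334893) (nat_lit 168) (nat_lit 4) (nat_lit 173) (nat_lit 5) (nat_lit 173) (nat_lit 4) (nat_lit 445) (nat_lit 379) (nat_lit 376)))) (XT.nd (nat_lit 156) (nat_lit 380) (nat_lit 0) (XT.nd (nat_lit 78) (nat_lit 380) (nat_lit 0) (XT.lf (nat_lit 0) (nat_lit 2304036970) (nat_lit 304) (nat_lit 835545349) (nat_lit 380) (nat_lit 5629143671)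 (nat_lit 163) (nat_lit 5) (nat_lit 167) (nat_lit 5) (nat_lit 168) (nat_lit 4) (nat_lit 446) (nat_lit 379) (nat_lit 375)) (XT.lf (nat_lit 0) (nat_lit 803364548) (nat_lit 380) (nat_lit 6471029990) (nat_lit 380) (nat_lit 1603397822) (nat_lit 158) (nat_lit 4) (nat_lit 163) (nat_lit 5) (nat_lit 163) (nat_lit 4) (nat_lit 447) (nat_lit 379) (nat_lit 374))) (XT.nd (nat_lit 78) (nat_lit 304) (nat_lit 0) (XT.lf (nat_lit 0) (nat_lit 2470752055) (nat_lit 456) (nat_lit 742142164) (nat_lit 76) (nat_lit 5777201437) (nat_lit 157) (nat_lit 5) (nat_lit 163) (nat_lit 5) (nat_lit 158) (nat_lit 4) (nat_lit 448) (nat_lit 379) (nat_lit 373)) (XT.lf (nat_lit 0) (nat_lit 6607785388) (nat_lit 380) (nat_lit 2319656028) (nat_lit 0) (nat_lit 178679371) (nat_lit 153) (nat_lit 5) (nat_lit 158) (nat_lit 4) (nat_lit 153) (nat_lit 4) (nat_lit 449) (nat_lit 379) (nat_lit 372))))))) (XT.nd (nat_lit 1170) (nat_lit 2432) (nat_lit 0) (XT.nd (nat_lit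 546) (nat_lit 1672) (nat_lit 0) (XT.nd (nat_lit 234) (nat_lit 836) (nat_lit 0) (XT.nd (nat_lit 78) (nat_lit 684) (nat_lit 0) (XT.lf (nat_lit 0) (nat_lit 1608029881) (nat_lit 380) (nat_lit 3979406507) (nat_lit 76) (nat_lit 3637827253) (nat_lit 148) (nat_lit 5) (nat_lit 153) (nat_lit 5) (nat_lit 149) (nat_lit 4) (nat_lit 450) (nat_lit 379) (nat_lit 371)) (XT.nd (nat_lit 78) (nat_lit 380) (nat_lit 0) (XT.lf (nat_lit 0) (nat_lit 3644829341) (nat_lit 304) (nat_lit 2108575294) (nat_lit 380) (nat_lit 3594867331) (nat_lit 144) (nat_lit 5) (nat_lit 148) (nat_lit 5) (nat_lit 149) (nat_lit 4) (nat_lit 451) (nat_lit 379) (nat_lit 370)) (XT.lf (nat_lit 0) (nat_lit 519412268) (nat_lit 380) (nat_lit 7491633659) (nat_lit 76) (nat_lit 1464321789) (nat_lit 139) (nat_lit 5) (nat_lit 144) (nat_lit 5) (nat_lit 140) (nat_lit 4) (nat_lit 452) (nat_lit 379) (nat_lit 369)))) (XT.nd (nat_lit 156) (nat_lit 608) (nat_lit 0) (XT.nd (nat_lit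 78) (nat_lit 0) (nat_lit 0) (XT.lf (nat_lit 0) (nat_lit 219831555) (nat_lit 228) (nat_lit 4454865336) (nat_lit 304) (nat_lit 4930829801) (nat_lit 136) (nat_lit 5) (nat_lit 139) (nat_lit 5) (nat_lit 140) (nat_lit 4) (nat_lit 453) (nat_lit 379) (nat_lit 368)) (XT.lf (nat_lit 0) (nat_lit 8176286590) (nat_lit 228) (nat_lit 763995100) (nat_lit 304) (nat_lit 799752151) (nat_lit 136) (nat_lit 5) (nat_lit 139) (nat_lit 5) (nat_lit 140) (nat_lit 4) (nat_lit 454) (nat_lit 379) (nat_lit 367))) (XT.nd (nat_lit 78) (nat_lit 228) (nat_lit 0) (XT.lf (nat_lit 0) (nat_lit 3391216527) (nat_lit 380) (nat_lit 3460200236) (nat_lit 76) (nat_lit 3026073452) (nat_lit 131) (nat_lit 5) (nat_lit 136) (nat_lit 5) (nat_lit 132) (nat_lit 4) (nat_lit 455) (nat_lit 379) (nat_lit 366)) (XT.lf (nat_lit 0) (nat_lit 4586663095) (nat_lit 228) (nat_lit 3085300723) (nat_lit 304) (nat_lit 2347476778) (nat_lit 128) (nat_lit 5) (nat_lit 131) (nat_lit 5)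 (nat_lit 132) (nat_lit 4) (nat_lit 456) (nat_lit 379) (nat_lit 365))))) (XT.nd (nat_lit 312) (nat_lit 760) (nat_lit 0) (XT.nd (nat_lit 156) (nat_lit 304) (nat_lit 0) (XT.nd (nat_lit 78) (nat_lit 228) (nat_lit 0) (XT.lf (nat_lit 0) (nat_lit 1859923665) (nat_lit 380) (nat_lit 7497896131) (nat_lit 76) (nat_lit 807833695) (nat_lit 123) (nat_lit 5) (nat_lit 128) (nat_lit 5) (nat_lit 124) (nat_lit 4) (nat_lit 457) (nat_lit 379) (nat_lit 364)) (XT.lf (nat_lit 0) (nat_lit 626422627) (nat_lit 228) (nat_lit 5525522693) (nat_lit 304) (nat_lit 4163453346) (nat_lit 120) (nat_lit 5) (nat_lit 123) (nat_lit 5) (nat_lit 124) (nat_lit 4) (nat_lit 458) (nat_lit 379) (nat_lit 363))) (XT.nd (nat_lit 78) (nat_lit 228) (nat_lit 0) (XT.lf (nat_lit 0) (nat_lit 91486349) (nat_lit 304) (nat_lit 1460825626) (nat_lit 76) (nat_lit 8917592282) (nat_lit 119) (nat_lit 5) (nat_lit 123) (nat_lit 5) (nat_lit 120) (nat_lit 5) (nat_lit 459) (nat_lit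 379) (nat_lit 362)) (XT.lf (nat_lit 0) (nat_lit 4398859419) (nat_lit 304) (nat_lit 3680096907) (nat_lit 76) (nat_lit 2548607725) (nat_lit 116) (nat_lit 5) (nat_lit 120) (nat_lit 5) (nat_lit 117) (nat_lit 4) (nat_lit 460) (nat_lit 379) (nat_lit 361)))) (XT.nd (nat_lit 156) (nat_lit 228) (nat_lit 0) (XT.nd (nat_lit 78) (nat_lit 304) (nat_lit 0) (XT.lf (nat_lit 0) (nat_lit 4789930600) (nat_lit 228) (nat_lit 4038923395) (nat_lit 304) (nat_lit 1961307051) (nat_lit 113) (nat_lit 5) (nat_lit 116) (nat_lit 5) (nat_lit 117) (nat_lit 4) (nat_lit 461) (nat_lit 379) (nat_lit 360)) (XT.lf (nat_lit 0) (nat_lit 2367268371) (nat_lit 304) (nat_lit 8437431144) (nat_lit 76) (nat_lit 152823739) (nat_lit 109) (nat_lit 5) (nat_lit 113) (nat_lit 5) (nat_lit 110) (nat_lit 4) (nat_lit 462) (nat_lit 379) (nat_lit 359))) (XT.nd (nat_lit 78) (nat_lit 76) (nat_lit 0) (XT.lf (nat_lit 0) (nat_lit 95412859) (nat_lit 152) (nat_lit 6710937445)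 (nat_lit 228) (nat_lit 4322379985) (nat_lit 107) (nat_lit 5) (nat_lit 109) (nat_lit 5) (nat_lit 110) (nat_lit 4) (nat_lit 463) (nat_lit 379) (nat_lit 358)) (XT.lf (nat_lit 0) (nat_lit 76385905) (nat_lit 228) (nat_lit 2384530481) (nat_lit 76) (nat_lit 8844015380) (nat_lit 106) (nat_lit 5) (nat_lit 109) (nat_lit 5) (nat_lit 107) (nat_lit 5) (nat_lit 464) (nat_lit 379) (nat_lit 357)))))) (XT.nd (nat_lit 624) (nat_lit 1064) (nat_lit 0) (XT.nd (nat_lit 312) (nat_lit 684) (nat_lit 0) (XT.nd (nat_lit 156) (nat_lit 304) (nat_lit 0) (XT.nd (nat_lit 78) (nat_lit 152) (nat_lit 0) (XT.lf (nat_lit 0) (nat_lit 4522034744) (nat_lit 304) (nat_lit 5031006186) (nat_lit 76) (nat_lit 1932048501) (nat_lit 103) (nat_lit 5) (nat_lit 107) (nat_lit 5) (nat_lit 104) (nat_lit 4) (nat_lit 465) (nat_lit 379) (nat_lit 356)) (XT.lf (nat_lit 0) (nat_lit 3853210167) (nat_lit 152) (nat_lit 5254711564) (nat_lit 228) (nat_lit 2562531690) (nat_lit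 101) (nat_lit 5) (nat_lit 103) (nat_lit 5) (nat_lit 104) (nat_lit 4) (nat_lit 466) (nat_lit 379) (nat_lit 355))) (XT.nd (nat_lit 78) (nat_lit 0) (nat_lit 0) (XT.lf (nat_lit 0) (nat_lit 1115110752) (nat_lit 228) (nat_lit 799867600) (nat_lit 304) (nat_lit 9946336690) (nat_lit 97) (nat_lit 5) (nat_lit 100) (nat_lit 5) (nat_lit 101) (nat_lit 5) (nat_lit 467) (nat_lit 379) (nat_lit 354)) (XT.lf (nat_lit 0) (nat_lit 6513312519) (nat_lit 304) (nat_lit 1777346863) (nat_lit 76) (nat_lit 3765348892) (nat_lit 97) (nat_lit 5) (nat_lit 101) (nat_lit 5) (nat_lit 98) (nat_lit 4) (nat_lit 468) (nat_lit 379) (nat_lit 353)))) (XT.nd (nat_lit 156) (nat_lit 228) (nat_lit 0) (XT.nd (nat_lit 78) (nat_lit 304) (nat_lit 0) (XT.lf (nat_lit 0) (nat_lit 7467380055) (nat_lit 152) (nat_lit 3786057182) (nat_lit 228) (nat_lit 1002996653) (nat_lit 95) (nat_lit 5) (nat_lit 97) (nat_lit 5) (nat_lit 98) (nat_lit 4) (nat_lit 469) (nat_lit 379) (nat_lit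 352)) (XT.lf (nat_lit 0) (nat_lit 3595436181) (nat_lit 304) (nat_lit 7986528686) (nat_lit 76) (nat_lit 880028211) (nat_lit 91) (nat_lit 5) (nat_lit 95) (nat_lit 5) (nat_lit 92) (nat_lit 4) (nat_lit 470) (nat_lit 379) (nat_lit 351))) (XT.nd (nat_lit 78) (nat_lit 76) (nat_lit 0) (XT.lf (nat_lit 0) (nat_lit 1289437866) (nat_lit 152) (nat_lit 7045722249) (nat_lit 228) (nat_lit 4337562311) (nat_lit 89) (nat_lit 5) (nat_lit 91) (nat_lit 5) (nat_lit 92) (nat_lit 4) (nat_lit 471) (nat_lit 379) (nat_lit 350)) (XT.lf (nat_lit 0) (nat_lit 327336389) (nat_lit 228) (nat_lit 2015757214) (nat_lit 76) (nat_lit 10546398900) (nat_lit 88) (nat_lit 5) (nat_lit 91) (nat_lit 5) (nat_lit 89) (nat_lit 5) (nat_lit 472) (nat_lit 379) (nat_lit 349))))) (XT.nd (nat_lit 312) (nat_lit 532) (nat_lit 0) (XT.nd (nat_lit 156) (nat_lit 228) (nat_lit 0) (XT.nd (nat_lit 78) (nat_lit 152) (nat_lit 0) (XT.lf (nat_lit 0) (nat_lit 5069972676) (nat_lit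 228) (nat_lit 5525792404) (nat_lit 76) (nat_lit 2514968772) (nat_lit 86) (nat_lit 5) (nat_lit 89) (nat_lit 5) (nat_lit 87) (nat_lit 4) (nat_lit 473) (nat_lit 379) (nat_lit 348)) (XT.lf (nat_lit 0) (nat_lit 4105290082) (nat_lit 152) (nat_lit 5860351806) (nat_lit 228) (nat_lit 3372653470) (nat_lit 84) (nat_lit 5) (nat_lit 86) (nat_lit 5) (nat_lit 87) (nat_lit 4) (nat_lit 474) (nat_lit 379) (nat_lit 347))) (XT.nd (nat_lit 78) (nat_lit 0) (nat_lit 0) (XT.lf (nat_lit 0) (nat_lit 433084462) (nat_lit 152) (nat_lit 962626618) (nat_lit 228) (nat_lit 12176917116) (nat_lit 81) (nat_lit 5) (nat_lit 83) (nat_lit 5) (nat_lit 84) (nat_lit 5) (nat_lit 475) (nat_lit 379) (nat_lit 346)) (XT.lf (nat_lit 0) (nat_lit 6300791176) (nat_lit 228) (nat_lit 3435257283) (nat_lit 76) (nat_lit 4075102296) (nat_lit 81) (nat_lit 5) (nat_lit 84) (nat_lit 5) (nat_lit 82) (nat_lit 4) (nat_lit 476) (nat_lit 379) (nat_lit 345)))) (XT.nd (nat_lit 156)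 (nat_lit 152) (nat_lit 0) (XT.nd (nat_lit 78) (nat_lit 228) (nat_lit 0) (XT.lf (nat_lit 0) (nat_lit 6553328105) (nat_lit 152) (nat_lit 4802370890) (nat_lit 228) (nat_lit 2701054648) (nat_lit 79) (nat_lit 5) (nat_lit 81) (nat_lit 5) (nat_lit 82) (nat_lit 4) (nat_lit 477) (nat_lit 379) (nat_lit 344)) (XT.lf (nat_lit 0) (nat_lit 2200939934) (nat_lit 228) (nat_lit 11807500141) (nat_lit 76) (nat_lit 300868632) (nat_lit 76) (nat_lit 5) (nat_lit 79) (nat_lit 5) (nat_lit 77) (nat_lit 4) (nat_lit 478) (nat_lit 379) (nat_lit 343))) (XT.nd (nat_lit 78) (nat_lit 152) (nat_lit 0) (XT.lf (nat_lit 0) (nat_lit 7250384730) (nat_lit 228) (nat_lit 1806848761) (nat_lit 76) (nat_lit 5509768768) (nat_lit 76) (nat_lit 5) (nat_lit 79) (nat_lit 5) (nat_lit 77) (nat_lit 4) (nat_lit 479) (nat_lit 379) (nat_lit 342)) (XT.lf (nat_lit 0) (nat_lit 8538445304) (nat_lit 152) (nat_lit 3927575966) (nat_lit 228) (nat_lit 2365968461) (nat_lit 74)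 (nat_lit 5) (nat_lit 76) (nat_lit 5) (nat_lit 77) (nat_lit 4) (nat_lit 480) (nat_lit 379) (nat_lit 341))))))))
noncomputable def xc52 : XT := (XT.nd (nat_lit 2340) (nat_lit 1444) (nat_lit 0) (XT.nd (nat_lit 1170) (nat_lit 1064) (nat_lit 0) (XT.nd (nat_lit 546) (nat_lit 684) (nat_lit 0) (XT.nd (nat_lit 234) (nat_lit 532) (nat_lit 0) (XT.nd (nat_lit 78) (nat_lit 152) (nat_lit 0) (XT.lf (nat_lit 0) (nat_lit 2683398148) (nat_lit 228) (nat_lit 11060434176) (nat_lit 76) (nat_lit 1360204442) (nat_lit 71) (nat_lit 5) (nat_lit 74) (nat_lit 5) (nat_lit 72) (nat_lit 4) (nat_lit 481) (nat_lit 379) (nat_lit 340)) (XT.nd (nat_lit 78) (nat_lit 152) (nat_lit 0) (XT.lf (nat_lit 0) (nat_lit 7872801792) (nat_lit 228) (nat_lit 747819147) (nat_lit 76) (nat_lit 6761842218) (nat_lit 71) (nat_lit 5) (nat_lit 74) (nat_lit 5) (nat_lit 72) (nat_lit 4) (nat_lit 482) (nat_lit 379) (nat_lit 339)) (XT.lf (nat_lit 0) (nat_lit 9949475440) (nat_lit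 152) (nat_lit 3299043886) (nat_lit 228) (nat_lit 2419807939) (nat_lit 69) (nat_lit 5) (nat_lit 71) (nat_lit 5) (nat_lit 72) (nat_lit 4) (nat_lit 483) (nat_lit 379) (nat_lit 338)))) (XT.nd (nat_lit 156) (nat_lit 304) (nat_lit 0) (XT.nd (nat_lit 78) (nat_lit 0) (nat_lit 0) (XT.lf (nat_lit 0) (nat_lit 2779460208) (nat_lit 228) (nat_lit 11012216809) (nat_lit 76) (nat_lit 2169925889) (nat_lit 66) (nat_lit 5) (nat_lit 69) (nat_lit 5) (nat_lit 67) (nat_lit 4) (nat_lit 484) (nat_lit 379) (nat_lit 337)) (XT.lf (nat_lit 0) (nat_lit 8112410538) (nat_lit 228) (nat_lit 383460141) (nat_lit 76) (nat_lit 7766300736) (nat_lit 66) (nat_lit 5) (nat_lit 69) (nat_lit 5) (nat_lit 67) (nat_lit 4) (nat_lit 485) (nat_lit 379) (nat_lit 336))) (XT.nd (nat_lit 78) (nat_lit 228) (nat_lit 0) (XT.lf (nat_lit 0) (nat_lit 10656351823) (nat_lit 76) (nat_lit 2988670903) (nat_lit 152) (nat_lit 2925547500) (nat_lit 65) (nat_lit 5) (nat_lit 66) (nat_lit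 5) (nat_lit 67) (nat_lit 4) (nat_lit 486) (nat_lit 379) (nat_lit 335)) (XT.lf (nat_lit 0) (nat_lit 2423874950) (nat_lit 228) (nat_lit 11806582978) (nat_lit 76) (nat_lit 2656566352) (nat_lit 62) (nat_lit 5) (nat_lit 65) (nat_lit 5) (nat_lit 63) (nat_lit 4) (nat_lit 487) (nat_lit 379) (nat_lit 334))))) (XT.nd (nat_lit 312) (nat_lit 380) (nat_lit 0) (XT.nd (nat_lit 156) (nat_lit 228) (nat_lit 0) (XT.nd (nat_lit 78) (nat_lit 76) (nat_lit 0) (XT.lf (nat_lit 0) (nat_lit 7902444772) (nat_lit 228) (nat_lit 860235913) (nat_lit 76) (nat_lit 8448601492) (nat_lit 62) (nat_lit 5) (nat_lit 65) (nat_lit 5) (nat_lit 63) (nat_lit 4) (nat_lit 488) (nat_lit 379) (nat_lit 333)) (XT.lf (nat_lit 0) (nat_lit 10506824474) (nat_lit 76) (nat_lit 3078925034) (nat_lit 152) (nat_lit 3958310030) (nat_lit 61) (nat_lit 5) (nat_lit 62) (nat_lit 5) (nat_lit 63) (nat_lit 4) (nat_lit 489) (nat_lit 379) (nat_lit 332))) (XT.nd (nat_lit 78) (nat_lit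 0) (nat_lit 0) (XT.lf (nat_lit 0) (nat_lit 1538857146) (nat_lit 228) (nat_lit 13611403871) (nat_lit 76) (nat_lit 2735621613) (nat_lit 58) (nat_lit 5) (nat_lit 61) (nat_lit 5) (nat_lit 59) (nat_lit 4) (nat_lit 490) (nat_lit 379) (nat_lit 331)) (XT.lf (nat_lit 0) (nat_lit 7163298461) (nat_lit 228) (nat_lit 2349406220) (nat_lit 76) (nat_lit 8722825285) (nat_lit 58) (nat_lit 5) (nat_lit 61) (nat_lit 5) (nat_lit 59) (nat_lit 4) (nat_lit 491) (nat_lit 379) (nat_lit 330)))) (XT.nd (nat_lit 156) (nat_lit 76) (nat_lit 0) (XT.nd (nat_lit 78) (nat_lit 228) (nat_lit 0) (XT.lf (nat_lit 0) (nat_lit 9322662402) (nat_lit 76) (nat_lit 3664849985) (nat_lit 152) (nat_lit 5607225873) (nat_lit 57) (nat_lit 5) (nat_lit 58) (nat_lit 5) (nat_lit 59) (nat_lit 4) (nat_lit 492) (nat_lit 379) (nat_lit 329)) (XT.lf (nat_lit 0) (nat_lit 32150548) (nat_lit 228) (nat_lit 16622766268) (nat_lit 76) (nat_lit 2309476945) (nat_lit 54) (nat_lit 5)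 (nat_lit 57) (nat_lit 5) (nat_lit 55) (nat_lit 4) (nat_lit 493) (nat_lit 379) (nat_lit 328))) (XT.nd (nat_lit 78) (nat_lit 76) (nat_lit 0) (XT.lf (nat_lit 0) (nat_lit 5800530417) (nat_lit 228) (nat_lit 5051219905) (nat_lit 76) (nat_lit 8489549928) (nat_lit 54) (nat_lit 5) (nat_lit 57) (nat_lit 5) (nat_lit 55) (nat_lit 4) (nat_lit 494) (nat_lit 379) (nat_lit 327)) (XT.lf (nat_lit 0) (nat_lit 6895256642) (nat_lit 76) (nat_lit 4856364508) (nat_lit 152) (nat_lit 7977605417) (nat_lit 53) (nat_lit 5) (nat_lit 54) (nat_lit 5) (nat_lit 55) (nat_lit 4) (nat_lit 495) (nat_lit 379) (nat_lit 326)))))) (XT.nd (nat_lit 546) (nat_lit 456) (nat_lit 0) (XT.nd (nat_lit 234) (nat_lit 304) (nat_lit 0) (XT.nd (nat_lit 78) (nat_lit 304) (nat_lit 0) (XT.lf (nat_lit 0) (nat_lit 17888967878) (nat_lit 152) (nat_lit 943695565) (nat_lit 0) (nat_lit 1295897878) (nat_lit 53) (nat_lit 5) (nat_lit 55) (nat_lit 4) (nat_lit 53) (nat_lit 4) (nat_lit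 496) (nat_lit 379) (nat_lit 325)) (XT.nd (nat_lit 78) (nat_lit 76) (nat_lit 0) (XT.lf (nat_lit 0) (nat_lit 3702534352) (nat_lit 228) (nat_lit 9199771723) (nat_lit 76) (nat_lit 7633405708) (nat_lit 50) (nat_lit 5) (nat_lit 53) (nat_lit 5) (nat_lit 51) (nat_lit 4) (nat_lit 497) (nat_lit 379) (nat_lit 324)) (XT.lf (nat_lit 0) (nat_lit 2980526482) (nat_lit 76) (nat_lit 6780907678) (nat_lit 152) (nat_lit 11193473867) (nat_lit 49) (nat_lit 5) (nat_lit 50) (nat_lit 5) (nat_lit 51) (nat_lit 4) (nat_lit 498) (nat_lit 379) (nat_lit 323)))) (XT.nd (nat_lit 156) (nat_lit 76) (nat_lit 0) (XT.nd (nat_lit 78) (nat_lit 228) (nat_lit 0) (XT.lf (nat_lit 0) (nat_lit 15611953914) (nat_lit 76) (nat_lit 428899950) (nat_lit 152) (nat_lit 5344665791) (nat_lit 49) (nat_lit 5) (nat_lit 50) (nat_lit 5) (nat_lit 51) (nat_lit 4) (nat_lit 499) (nat_lit 379) (nat_lit 322)) (XT.lf (nat_lit 0) (nat_lit 737822150) (nat_lit 228) (nat_lit 15068630105)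 (nat_lit 76) (nat_lit 6020259044) (nat_lit 46) (nat_lit 5) (nat_lit 49) (nat_lit 5) (nat_lit 47) (nat_lit 4) (nat_lit 500) (nat_lit 379) (nat_lit 321))) (XT.nd (nat_lit 78) (nat_lit 76) (nat_lit 0) (XT.lf (nat_lit 0) (nat_lit 6905525318) (nat_lit 228) (nat_lit 2654161107) (nat_lit 76) (nat_lit 12719561758) (nat_lit 46) (nat_lit 5) (nat_lit 49) (nat_lit 5) (nat_lit 47) (nat_lit 4) (nat_lit 501) (nat_lit 379) (nat_lit 320)) (XT.lf (nat_lit 0) (nat_lit 10234333997) (nat_lit 76) (nat_lit 3070884463) (nat_lit 152) (nat_lit 9438735801) (nat_lit 45) (nat_lit 5) (nat_lit 46) (nat_lit 5) (nat_lit 47) (nat_lit 4) (nat_lit 502) (nat_lit 379) (nat_lit 319))))) (XT.nd (nat_lit 312) (nat_lit 228) (nat_lit 0) (XT.nd (nat_lit 156) (nat_lit 76) (nat_lit 0) (XT.nd (nat_lit 78) (nat_lit 76) (nat_lit 0) (XT.lf (nat_lit 0) (nat_lit 213022128) (nat_lit 76) (nat_lit 19696420401) (nat_lit 76) (nat_lit 3312784586) (nat_lit 44) (nat_lit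 4) (nat_lit 45) (nat_lit 5) (nat_lit 45) (nat_lit 4) (nat_lit 503) (nat_lit 379) (nat_lit 318)) (XT.lf (nat_lit 0) (nat_lit 3045196065) (nat_lit 152) (nat_lit 10296039382) (nat_lit 76) (nat_lit 10369548186) (nat_lit 43) (nat_lit 5) (nat_lit 45) (nat_lit 5) (nat_lit 44) (nat_lit 4) (nat_lit 504) (nat_lit 379) (nat_lit 317))) (XT.nd (nat_lit 78) (nat_lit 0) (nat_lit 0) (XT.lf (nat_lit 0) (nat_lit 2723432639) (nat_lit 76) (nat_lit 6780325654) (nat_lit 152) (nat_lit 14709963430) (nat_lit 42) (nat_lit 5) (nat_lit 43) (nat_lit 5) (nat_lit 44) (nat_lit 4) (nat_lit 505) (nat_lit 379) (nat_lit 316)) (XT.lf (nat_lit 0) (nat_lit 16211211479) (nat_lit 152) (nat_lit 8480433342) (nat_lit 0) (nat_lit 38450710) (nat_lit 42) (nat_lit 5) (nat_lit 44) (nat_lit 4) (nat_lit 42) (nat_lit 4) (nat_lit 506) (nat_lit 379) (nat_lit 315)))) (XT.nd (nat_lit 156) (nat_lit 76) (nat_lit 0) (XT.nd (nat_lit 78) (nat_lit 76) (nat_lit 0) (XT.lf (nat_lit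 0) (nat_lit 4854559031) (nat_lit 76) (nat_lit 18330924226) (nat_lit 76) (nat_lit 2074510997) (nat_lit 41) (nat_lit 4) (nat_lit 42) (nat_lit 5) (nat_lit 42) (nat_lit 4) (nat_lit 507) (nat_lit 379) (nat_lit 314)) (XT.lf (nat_lit 0) (nat_lit 4512478089) (nat_lit 152) (nat_lit 7177298688) (nat_lit 76) (nat_lit 14113548823) (nat_lit 40) (nat_lit 5) (nat_lit 42) (nat_lit 5) (nat_lit 41) (nat_lit 4) (nat_lit 508) (nat_lit 379) (nat_lit 313))) (XT.nd (nat_lit 78) (nat_lit 0) (nat_lit 0) (XT.lf (nat_lit 0) (nat_lit 6463157355) (nat_lit 76) (nat_lit 4807599802) (nat_lit 152) (nat_lit 15091123680) (nat_lit 39) (nat_lit 5) (nat_lit 40) (nat_lit 5) (nat_lit 41) (nat_lit 4) (nat_lit 509) (nat_lit 379) (nat_lit 312)) (XT.lf (nat_lit 0) (nat_lit 18280244690) (nat_lit 152) (nat_lit 6387904838) (nat_lit 0) (nat_lit 2267590780) (nat_lit 39) (nat_lit 5) (nat_lit 41) (nat_lit 4) (nat_lit 39) (nat_lit 4) (nat_lit 510) (nat_lit 379)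 (nat_lit 311))))))) (XT.nd (nat_lit 1170) (nat_lit 608) (nat_lit 0) (XT.nd (nat_lit 546) (nat_lit 380) (nat_lit 0) (XT.nd (nat_lit 234) (nat_lit 228) (nat_lit 0) (XT.nd (nat_lit 78) (nat_lit 152) (nat_lit 0) (XT.lf (nat_lit 0) (nat_lit 7540205313) (nat_lit 76) (nat_lit 18034590734) (nat_lit 76) (nat_lit 1949777478) (nat_lit 38) (nat_lit 4) (nat_lit 39) (nat_lit 5) (nat_lit 39) (nat_lit 4) (nat_lit 511) (nat_lit 379) (nat_lit 310)) (XT.nd (nat_lit 78) (nat_lit 76) (nat_lit 0) (XT.lf (nat_lit 0) (nat_lit 4880264165) (nat_lit 152) (nat_lit 6247934619) (nat_lit 76) (nat_lit 17000848200) (nat_lit 37) (nat_lit 5) (nat_lit 39) (nat_lit 5) (nat_lit 38) (nat_lit 4) (nat_lit 512) (nat_lit 379) (nat_lit 309)) (XT.lf (nat_lit 0) (nat_lit 7951386141) (nat_lit 76) (nat_lit 3957123278) (nat_lit 152) (nat_lit 16841592583) (nat_lit 36) (nat_lit 5) (nat_lit 37) (nat_lit 5) (nat_lit 38) (nat_lit 4) (nat_lit 513) (nat_lit 379) (nat_lit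 308)))) (XT.nd (nat_lit 156) (nat_lit 152) (nat_lit 0) (XT.nd (nat_lit 78) (nat_lit 76) (nat_lit 0) (XT.lf (nat_lit 0) (nat_lit 19200416896) (nat_lit 152) (nat_lit 6801860944) (nat_lit 0) (nat_lit 3385927572) (nat_lit 36) (nat_lit 5) (nat_lit 38) (nat_lit 4) (nat_lit 36) (nat_lit 4) (nat_lit 514) (nat_lit 379) (nat_lit 307)) (XT.lf (nat_lit 0) (nat_lit 7642185621) (nat_lit 76) (nat_lit 19138950221) (nat_lit 76) (nat_lit 3262215610) (nat_lit 35) (nat_lit 4) (nat_lit 36) (nat_lit 5) (nat_lit 36) (nat_lit 4) (nat_lit 515) (nat_lit 379) (nat_lit 306))) (XT.nd (nat_lit 78) (nat_lit 76) (nat_lit 0) (XT.lf (nat_lit 0) (nat_lit 3822399185) (nat_lit 152) (nat_lit 8177696581) (nat_lit 76) (nat_lit 18716136419) (nat_lit 34) (nat_lit 5) (nat_lit 36) (nat_lit 5) (nat_lit 35) (nat_lit 4) (nat_lit 516) (nat_lit 379) (nat_lit 305)) (XT.lf (nat_lit 0) (nat_lit 6486461850) (nat_lit 76) (nat_lit 4588563238) (nat_lit 152) (nat_lit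 20332675134) (nat_lit 33) (nat_lit 5) (nat_lit 34) (nat_lit 5) (nat_lit 35) (nat_lit 4) (nat_lit 517) (nat_lit 379) (nat_lit 304))))) (XT.nd (nat_lit 312) (nat_lit 152) (nat_lit 0) (XT.nd (nat_lit 156) (nat_lit 152) (nat_lit 0) (XT.nd (nat_lit 78) (nat_lit 76) (nat_lit 0) (XT.lf (nat_lit 0) (nat_lit 18616655336) (nat_lit 152) (nat_lit 10469704872) (nat_lit 0) (nat_lit 3031410351) (nat_lit 33) (nat_lit 5) (nat_lit 35) (nat_lit 4) (nat_lit 33) (nat_lit 4) (nat_lit 518) (nat_lit 379) (nat_lit 303)) (XT.lf (nat_lit 0) (nat_lit 4377342898) (nat_lit 76) (nat_lit 22054657718) (nat_lit 76) (nat_lit 6415719402) (nat_lit 32) (nat_lit 4) (nat_lit 33) (nat_lit 5) (nat_lit 33) (nat_lit 4) (nat_lit 519) (nat_lit 379) (nat_lit 302))) (XT.nd (nat_lit 78) (nat_lit 76) (nat_lit 0) (XT.lf (nat_lit 0) (nat_lit 931780487) (nat_lit 152) (nat_lit 13799553373) (nat_lit 76) (nat_lit 18865977887) (nat_lit 31) (nat_lit 5) (nat_lit 33) (nat_lit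 5) (nat_lit 32) (nat_lit 4) (nat_lit 520) (nat_lit 379) (nat_lit 301)) (XT.lf (nat_lit 0) (nat_lit 1195422914) (nat_lit 76) (nat_lit 7147976983) (nat_lit 152) (nat_lit 26024907259) (nat_lit 30) (nat_lit 5) (nat_lit 31) (nat_lit 5) (nat_lit 32) (nat_lit 4) (nat_lit 521) (nat_lit 379) (nat_lit 300)))) (XT.nd (nat_lit 156) (nat_lit 152) (nat_lit 0) (XT.nd (nat_lit 78) (nat_lit 0) (nat_lit 0) (XT.lf (nat_lit 0) (nat_lit 16085679408) (nat_lit 152) (nat_lit 18318714354) (nat_lit 0) (nat_lit 754790203) (nat_lit 30) (nat_lit 5) (nat_lit 32) (nat_lit 4) (nat_lit 30) (nat_lit 4) (nat_lit 522) (nat_lit 379) (nat_lit 299)) (XT.lf (nat_lit 0) (nat_lit 24093340507) (nat_lit 152) (nat_lit 3163319073) (nat_lit 0) (nat_lit 8716134963) (nat_lit 30) (nat_lit 5) (nat_lit 32) (nat_lit 4) (nat_lit 30) (nat_lit 4) (nat_lit 523) (nat_lit 379) (nat_lit 298))) (XT.nd (nat_lit 78) (nat_lit 76) (nat_lit 0) (XT.lf (nat_lit 0) (nat_lit 12621546744)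 (nat_lit 76) (nat_lit 19804448734) (nat_lit 76) (nat_lit 4382275871) (nat_lit 29) (nat_lit 4) (nat_lit 30) (nat_lit 5) (nat_lit 30) (nat_lit 4) (nat_lit 524) (nat_lit 379) (nat_lit 297)) (XT.lf (nat_lit 0) (nat_lit 3270368891) (nat_lit 152) (nat_lit 8826981605) (nat_lit 76) (nat_lit 25570627927) (nat_lit 28) (nat_lit 5) (nat_lit 30) (nat_lit 5) (nat_lit 29) (nat_lit 4) (nat_lit 525) (nat_lit 379) (nat_lit 296)))))) (XT.nd (nat_lit 546) (nat_lit 304) (nat_lit 0) (XT.nd (nat_lit 234) (nat_lit 228) (nat_lit 0) (XT.nd (nat_lit 78) (nat_lit 0) (nat_lit 0) (XT.lf (nat_lit 0) (nat_lit 7017677527) (nat_lit 76) (nat_lit 4078821976) (nat_lit 152) (nat_lit 27454716725) (nat_lit 27) (nat_lit 5) (nat_lit 28) (nat_lit 5) (nat_lit 29) (nat_lit 4) (nat_lit 526) (nat_lit 379) (nat_lit 295)) (XT.nd (nat_lit 78) (nat_lit 0) (nat_lit 0) (XT.lf (nat_lit 0) (nat_lit 19252191614) (nat_lit 152) (nat_lit 16050199073) (nat_lit 0) (nat_lit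 4155717893) (nat_lit 27) (nat_lit 5) (nat_lit 29) (nat_lit 4) (nat_lit 27) (nat_lit 4) (nat_lit 527) (nat_lit 379) (nat_lit 294)) (XT.lf (nat_lit 0) (nat_lit 27658547221) (nat_lit 152) (nat_lit 210197126) (nat_lit 0) (nat_lit 12523284295) (nat_lit 27) (nat_lit 5) (nat_lit 29) (nat_lit 4) (nat_lit 27) (nat_lit 4) (nat_lit 528) (nat_lit 379) (nat_lit 293)))) (XT.nd (nat_lit 156) (nat_lit 76) (nat_lit 0) (XT.nd (nat_lit 78) (nat_lit 76) (nat_lit 0) (XT.lf (nat_lit 0) (nat_lit 16358733868) (nat_lit 76) (nat_lit 20082219838) (nat_lit 76) (nat_lit 4909297490) (nat_lit 26) (nat_lit 4) (nat_lit 27) (nat_lit 5) (nat_lit 27) (nat_lit 4) (nat_lit 529) (nat_lit 379) (nat_lit 292)) (XT.lf (nat_lit 0) (nat_lit 3056926708) (nat_lit 152) (nat_lit 9003923675) (nat_lit 76) (nat_lit 30276399173) (nat_lit 25) (nat_lit 5) (nat_lit 27) (nat_lit 5) (nat_lit 26) (nat_lit 4) (nat_lit 530) (nat_lit 379) (nat_lit 291))) (XT.nd (nat_lit 78)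 (nat_lit 0) (nat_lit 0) (XT.lf (nat_lit 0) (nat_lit 7497388499) (nat_lit 76) (nat_lit 3705749929) (nat_lit 152) (nat_lit 32148071686) (nat_lit 24) (nat_lit 5) (nat_lit 25) (nat_lit 5) (nat_lit 26) (nat_lit 4) (nat_lit 531) (nat_lit 379) (nat_lit 290)) (XT.lf (nat_lit 0) (nat_lit 19700304808) (nat_lit 152) (nat_lit 19826197245) (nat_lit 0) (nat_lit 4865891006) (nat_lit 24) (nat_lit 5) (nat_lit 26) (nat_lit 4) (nat_lit 24) (nat_lit 4) (nat_lit 532) (nat_lit 379) (nat_lit 289))))) (XT.nd (nat_lit 312) (nat_lit 76) (nat_lit 0) (XT.nd (nat_lit 156) (nat_lit 152) (nat_lit 0) (XT.nd (nat_lit 78) (nat_lit 76) (nat_lit 0) (XT.lf (nat_lit 0) (nat_lit 28457663458) (nat_lit 152) (nat_lit 3416226012) (nat_lit 0) (nat_lit 13590764308) (nat_lit 24) (nat_lit 5) (nat_lit 26) (nat_lit 4) (nat_lit 24) (nat_lit 4) (nat_lit 533) (nat_lit 379) (nat_lit 288)) (XT.lf (nat_lit 0) (nat_lit 13693257604) (nat_lit 76) (nat_lit 23885614867)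 (nat_lit 76) (nat_lit 8987176544) (nat_lit 23) (nat_lit 4) (nat_lit 24) (nat_lit 5) (nat_lit 24) (nat_lit 4) (nat_lit 534) (nat_lit 379) (nat_lit 287))) (XT.nd (nat_lit 78) (nat_lit 152) (nat_lit 0) (XT.lf (nat_lit 0) (nat_lit 31326651637) (nat_lit 76) (nat_lit 15651382218) (nat_lit 76) (nat_lit 722323338) (nat_lit 23) (nat_lit 4) (nat_lit 24) (nat_lit 5) (nat_lit 24) (nat_lit 4) (nat_lit 535) (nat_lit 379) (nat_lit 286)) (XT.lf (nat_lit 0) (nat_lit 496899689) (nat_lit 76) (nat_lit 7116739357) (nat_lit 152) (nat_lit 41253553989) (nat_lit 21) (nat_lit 5) (nat_lit 22) (nat_lit 5) (nat_lit 23) (nat_lit 4) (nat_lit 536) (nat_lit 379) (nat_lit 285)))) (XT.nd (nat_lit 156) (nat_lit 76) (nat_lit 0) (XT.nd (nat_lit 78) (nat_lit 0) (nat_lit 0) (XT.lf (nat_lit 0) (nat_lit 16338674271) (nat_lit 152) (nat_lit 31937982897) (nat_lit 0) (nat_lit 1787557391) (nat_lit 21) (nat_lit 5) (nat_lit 23) (nat_lit 4) (nat_lit 21) (nat_lit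 4) (nat_lit 537) (nat_lit 379) (nat_lit 284)) (XT.lf (nat_lit 0) (nat_lit 25367225860) (nat_lit 152) (nat_lit 15139765404) (nat_lit 0) (nat_lit 10788903012) (nat_lit 21) (nat_lit 5) (nat_lit 23) (nat_lit 4) (nat_lit 21) (nat_lit 4) (nat_lit 538) (nat_lit 379) (nat_lit 283))) (XT.nd (nat_lit 78) (nat_lit 0) (nat_lit 0) (XT.lf (nat_lit 0) (nat_lit 2149389978) (nat_lit 76) (nat_lit 32510043658) (nat_lit 76) (nat_lit 17905307249) (nat_lit 20) (nat_lit 4) (nat_lit 21) (nat_lit 5) (nat_lit 21) (nat_lit 4) (nat_lit 539) (nat_lit 379) (nat_lit 282)) (XT.lf (nat_lit 0) (nat_lit 20213158131) (nat_lit 76) (nat_lit 24142558308) (nat_lit 76) (nat_lit 9512177666) (nat_lit 20) (nat_lit 4) (nat_lit 21) (nat_lit 5) (nat_lit 21) (nat_lit 4) (nat_lit 540) (nat_lit 379) (nat_lit 281))))))))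
noncomputable def xc53 : XT := (XT.nd (nat_lit 55926) (nat_lit 0) (nat_lit 3800) (XT.nd (nat_lit 54756) (nat_lit 0) (nat_lit 8664) (XT.nd (nat_lit 546) (nat_lit 228) (nat_lit 0) (XT.nd (nat_lit 234) (nat_lit 76) (nat_lit 0) (XT.nd (nat_lit 78) (nat_lit 152) (nat_lit 0) (XT.lf (nat_lit 0) (nat_lit 38766011911) (nat_lit 76) (nat_lit 15550105764) (nat_lit 76) (nat_lit 894827808) (nat_lit 20) (nat_lit 4) (nat_lit 21) (nat_lit 5) (nat_lit 21) (nat_lit 4) (nat_lit 541) (nat_lit 379) (nat_lit 280)) (XT.nd (nat_lit 78) (nat_lit 0) (nat_lit 0) (XT.lf (nat_lit 0) (nat_lit 1175572307) (nat_lit 76) (nat_lit 6634783561) (nat_lit 152) (nat_lit 48782079844) (nat_lit 18) (nat_lit 5) (nat_lit 19) (nat_lit 5) (nat_lit 20) (nat_lit 4) (nat_lit 542) (nat_lit 379) (nat_lit 279)) (XT.lf (nat_lit 0) (nat_lit 16924688360) (nat_lit 152) (nat_lit 38435427085) (nat_lit 0) (nat_lit 2650010483) (nat_lit 18) (nat_lit 5) (nat_lit 20) (nat_lit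 4) (nat_lit 18) (nat_lit 4) (nat_lit 543) (nat_lit 379) (nat_lit 278)))) (XT.nd (nat_lit 156) (nat_lit 76) (nat_lit 0) (XT.nd (nat_lit 78) (nat_lit 0) (nat_lit 0) (XT.lf (nat_lit 0) (nat_lit 26352685227) (nat_lit 152) (nat_lit 21060568592) (nat_lit 0) (nat_lit 12055886408) (nat_lit 18) (nat_lit 5) (nat_lit 20) (nat_lit 4) (nat_lit 18) (nat_lit 4) (nat_lit 544) (nat_lit 379) (nat_lit 277)) (XT.lf (nat_lit 0) (nat_lit 36038806927) (nat_lit 152) (nat_lit 3213328412) (nat_lit 0) (nat_lit 21720531467) (nat_lit 18) (nat_lit 5) (nat_lit 20) (nat_lit 4) (nat_lit 18) (nat_lit 4) (nat_lit 545) (nat_lit 379) (nat_lit 276))) (XT.nd (nat_lit 78) (nat_lit 0) (nat_lit 0) (XT.lf (nat_lit 0) (nat_lit 15422843353) (nat_lit 76) (nat_lit 30716927513) (nat_lit 76) (nat_lit 16377800944) (nat_lit 17) (nat_lit 4) (nat_lit 18) (nat_lit 5) (nat_lit 18) (nat_lit 4) (nat_lit 546) (nat_lit 379) (nat_lit 275)) (XT.lf (nat_lit 0) (nat_lit 34636994618)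 (nat_lit 76) (nat_lit 21915469538) (nat_lit 76) (nat_lit 7556099173) (nat_lit 17) (nat_lit 4) (nat_lit 18) (nat_lit 5) (nat_lit 18) (nat_lit 4) (nat_lit 547) (nat_lit 379) (nat_lit 274))))) (XT.nd (nat_lit 312) (nat_lit 76) (nat_lit 0) (XT.nd (nat_lit 156) (nat_lit 0) (nat_lit 0) (XT.nd (nat_lit 78) (nat_lit 76) (nat_lit 0) (XT.lf (nat_lit 0) (nat_lit 1477108052) (nat_lit 152) (nat_lit 11380495186) (nat_lit 76) (nat_lit 52889938961) (nat_lit 16) (nat_lit 5) (nat_lit 18) (nat_lit 5) (nat_lit 17) (nat_lit 4) (nat_lit 548) (nat_lit 379) (nat_lit 273)) (XT.lf (nat_lit 0) (nat_lit 7275744260) (nat_lit 76) (nat_lit 3401029391) (nat_lit 152) (nat_lit 56755252775) (nat_lit 15) (nat_lit 5) (nat_lit 16) (nat_lit 5) (nat_lit 17) (nat_lit 4) (nat_lit 549) (nat_lit 379) (nat_lit 272))) (XT.nd (nat_lit 78) (nat_lit 0) (nat_lit 0) (XT.lf (nat_lit 0) (nat_lit 20306839780) (nat_lit 152) (nat_lit 42545463920) (nat_lit 0) (nat_lit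 6310109496) (nat_lit 15) (nat_lit 5) (nat_lit 17) (nat_lit 4) (nat_lit 15) (nat_lit 4) (nat_lit 550) (nat_lit 379) (nat_lit 271)) (XT.lf (nat_lit 0) (nat_lit 30237554634) (nat_lit 152) (nat_lit 24483442981) (nat_lit 0) (nat_lit 16223361875) (nat_lit 15) (nat_lit 5) (nat_lit 17) (nat_lit 4) (nat_lit 15) (nat_lit 4) (nat_lit 551) (nat_lit 379) (nat_lit 270)))) (XT.nd (nat_lit 53742) (nat_lit 0) (nat_lit 12920) (XT.nd (nat_lit 78) (nat_lit 76) (nat_lit 0) (XT.lf (nat_lit 0) (nat_lit 40444902762) (nat_lit 152) (nat_lit 5921744228) (nat_lit 0) (nat_lit 26413756143) (nat_lit 15) (nat_lit 5) (nat_lit 17) (nat_lit 4) (nat_lit 15) (nat_lit 4) (nat_lit 552) (nat_lit 379) (nat_lit 269)) (XT.lf (nat_lit 0) (nat_lit 13417678535) (nat_lit 76) (nat_lit 37649103605) (nat_lit 76) (nat_lit 23601496928) (nat_lit 14) (nat_lit 4) (nat_lit 15) (nat_lit 5) (nat_lit 15) (nat_lit 4) (nat_lit 553) (nat_lit 379) (nat_lit 268))) (XT.nd (nat_lit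 78) (nat_lit 456) (nat_lit 0) (XT.lf (nat_lit 0) (nat_lit 1134399336) (nat_lit 456) (nat_lit 1478618894) (nat_lit 456) (nat_lit 1478618894) (nat_lit 190) (nat_lit 4) (nat_lit 196) (nat_lit 5) (nat_lit 196) (nat_lit 4) (nat_lit 440) (nat_lit 380) (nat_lit 380)) (XT.lf (nat_lit 0) (nat_lit 850337454) (nat_lit 380) (nat_lit 140679250) (nat_lit 456) (nat_lit 7283414444) (nat_lit 184) (nat_lit 5) (nat_lit 189) (nat_lit 5) (nat_lit 190) (nat_lit 4) (nat_lit 441) (nat_lit 380) (nat_lit 379)))))) (XT.nd (nat_lit 546) (nat_lit 2204) (nat_lit 0) (XT.nd (nat_lit 234) (nat_lit 1216) (nat_lit 0) (XT.nd (nat_lit 78) (nat_lit 836) (nat_lit 0) (XT.lf (nat_lit 0) (nat_lit 4984130087) (nat_lit 456) (nat_lit 621983366) (nat_lit 0) (nat_lit 2761775757) (nat_lit 184) (nat_lit 5) (nat_lit 190) (nat_lit 4) (nat_lit 184) (nat_lit 4) (nat_lit 442) (nat_lit 380) (nat_lit 378)) (XT.nd (nat_lit 78) (nat_lit 380) (nat_lit 0) (XT.lf (nat_lit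 0) (nat_lit 584758438) (nat_lit 456) (nat_lit 2098164435) (nat_lit 76) (nat_lit 5782138096) (nat_lit 178) (nat_lit 5) (nat_lit 184) (nat_lit 5) (nat_lit 179) (nat_lit 4) (nat_lit 443) (nat_lit 380) (nat_lit 377)) (XT.lf (nat_lit 0) (nat_lit 4564361163) (nat_lit 456) (nat_lit 3628032457) (nat_lit 0) (nat_lit 372966570) (nat_lit 173) (nat_lit 5) (nat_lit 179) (nat_lit 4) (nat_lit 173) (nat_lit 4) (nat_lit 444) (nat_lit 380) (nat_lit 376)))) (XT.nd (nat_lit 156) (nat_lit 456) (nat_lit 0) (XT.nd (nat_lit 78) (nat_lit 380) (nat_lit 0) (XT.lf (nat_lit 0) (nat_lit 3463471778) (nat_lit 380) (nat_lit 5184867992) (nat_lit 380) (nat_lit 20797026) (nat_lit 168) (nat_lit 4) (nat_lit 173) (nat_lit 5) (nat_lit 173) (nat_lit 4) (nat_lit 445) (nat_lit 380) (nat_lit 375)) (XT.lf (nat_lit 0) (nat_lit 1928436143) (nat_lit 304) (nat_lit 2030604794) (nat_lit 380) (nat_lit 4817031863) (nat_lit 163) (nat_lit 5) (nat_lit 167) (nat_lit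 5) (nat_lit 168) (nat_lit 4) (nat_lit 446) (nat_lit 380) (nat_lit 374))) (XT.nd (nat_lit 78) (nat_lit 76) (nat_lit 0) (XT.lf (nat_lit 0) (nat_lit 355231526) (nat_lit 380) (nat_lit 7676213300) (nat_lit 380) (nat_lit 855574726) (nat_lit 158) (nat_lit 4) (nat_lit 163) (nat_lit 5) (nat_lit 163) (nat_lit 4) (nat_lit 447) (nat_lit 380) (nat_lit 373)) (XT.lf (nat_lit 0) (nat_lit 3157618347) (nat_lit 456) (nat_lit 1274883687) (nat_lit 76) (nat_lit 4568003747) (nat_lit 157) (nat_lit 5) (nat_lit 163) (nat_lit 5) (nat_lit 158) (nat_lit 4) (nat_lit 448) (nat_lit 380) (nat_lit 372))))) (XT.nd (nat_lit 312) (nat_lit 836) (nat_lit 0) (XT.nd (nat_lit 156) (nat_lit 684) (nat_lit 0) (XT.nd (nat_lit 78) (nat_lit 380) (nat_lit 0) (XT.lf (nat_lit 0) (nat_lit 6177400728) (nat_lit 304) (nat_lit 1064613481) (nat_lit 380) (nat_lit 1876103272) (nat_lit 153) (nat_lit 5) (nat_lit 157) (nat_lit 5) (nat_lit 158) (nat_lit 4) (nat_lit 449) (nat_lit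 380) (nat_lit 371)) (XT.lf (nat_lit 0) (nat_lit 2156092042) (nat_lit 380) (nat_lit 4689627588) (nat_lit 76) (nat_lit 2393229121) (nat_lit 148) (nat_lit 5) (nat_lit 153) (nat_lit 5) (nat_lit 149) (nat_lit 4) (nat_lit 450) (nat_lit 380) (nat_lit 370))) (XT.nd (nat_lit 78) (nat_lit 380) (nat_lit 0) (XT.lf (nat_lit 0) (nat_lit 2852215888) (nat_lit 304) (nat_lit 3397316148) (nat_lit 380) (nat_lit 3113989894) (nat_lit 144) (nat_lit 5) (nat_lit 148) (nat_lit 5) (nat_lit 149) (nat_lit 4) (nat_lit 451) (nat_lit 380) (nat_lit 369)) (XT.lf (nat_lit 0) (nat_lit 925532024) (nat_lit 380) (nat_lit 8392829789) (nat_lit 76) (nat_lit 174084832) (nat_lit 139) (nat_lit 5) (nat_lit 144) (nat_lit 5) (nat_lit 140) (nat_lit 4) (nat_lit 452) (nat_lit 380) (nat_lit 368)))) (XT.nd (nat_lit 156) (nat_lit 608) (nat_lit 0) (XT.nd (nat_lit 78) (nat_lit 228) (nat_lit 0) (XT.lf (nat_lit 0) (nat_lit 5035026583) (nat_lit 380) (nat_lit 753237942)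 (nat_lit 76) (nat_lit 3835721032) (nat_lit 139) (nat_lit 5) (nat_lit 144) (nat_lit 5) (nat_lit 140) (nat_lit 4) (nat_lit 453) (nat_lit 380) (nat_lit 367)) (XT.lf (nat_lit 0) (nat_lit 7121305103) (nat_lit 228) (nat_lit 2128873540) (nat_lit 304) (nat_lit 509833097) (nat_lit 136) (nat_lit 5) (nat_lit 139) (nat_lit 5) (nat_lit 140) (nat_lit 4) (nat_lit 454) (nat_lit 380) (nat_lit 366))) (XT.nd (nat_lit 78) (nat_lit 228) (nat_lit 0) (XT.lf (nat_lit 0) (nat_lit 3608622659) (nat_lit 380) (nat_lit 4634595830) (nat_lit 76) (nat_lit 1656177390) (nat_lit 131) (nat_lit 5) (nat_lit 136) (nat_lit 5) (nat_lit 132) (nat_lit 4) (nat_lit 455) (nat_lit 380) (nat_lit 365)) (XT.lf (nat_lit 0) (nat_lit 3321377359) (nat_lit 228) (nat_lit 4513992660) (nat_lit 304) (nat_lit 2207601778) (nat_lit 128) (nat_lit 5) (nat_lit 131) (nat_lit 5) (nat_lit 132) (nat_lit 4) (nat_lit 456) (nat_lit 380) (nat_lit 364))))))) (XT.nd (nat_lit 1170) (nat_lit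 2052) (nat_lit 0) (XT.nd (nat_lit 546) (nat_lit 1368) (nat_lit 0) (XT.nd (nat_lit 234) (nat_lit 760) (nat_lit 0) (XT.nd (nat_lit 78) (nat_lit 304) (nat_lit 0) (XT.lf (nat_lit 0) (nat_lit 1292370229) (nat_lit 304) (nat_lit 641817093) (nat_lit 380) (nat_lit 8256848709) (nat_lit 123) (nat_lit 5) (nat_lit 127) (nat_lit 5) (nat_lit 128) (nat_lit 5) (nat_lit 457) (nat_lit 380) (nat_lit 363)) (XT.nd (nat_lit 78) (nat_lit 304) (nat_lit 0) (XT.lf (nat_lit 0) (nat_lit 6172700028) (nat_lit 380) (nat_lit 847136168) (nat_lit 76) (nat_lit 3322555348) (nat_lit 123) (nat_lit 5) (nat_lit 128) (nat_lit 5) (nat_lit 124) (nat_lit 4) (nat_lit 458) (nat_lit 380) (nat_lit 362)) (XT.lf (nat_lit 0) (nat_lit 35824504) (nat_lit 304) (nat_lit 3045248470) (nat_lit 76) (nat_lit 7417317099) (nat_lit 119) (nat_lit 5) (nat_lit 123) (nat_lit 5) (nat_lit 120) (nat_lit 5) (nat_lit 459) (nat_lit 380) (nat_lit 361)))) (XT.nd (nat_lit 156) (nat_lit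 304) (nat_lit 0) (XT.nd (nat_lit 78) (nat_lit 228) (nat_lit 0) (XT.lf (nat_lit 0) (nat_lit 4271972280) (nat_lit 304) (nat_lit 5377380052) (nat_lit 76) (nat_lit 1008838933) (nat_lit 116) (nat_lit 5) (nat_lit 120) (nat_lit 5) (nat_lit 117) (nat_lit 4) (nat_lit 460) (nat_lit 380) (nat_lit 360)) (XT.lf (nat_lit 0) (nat_lit 2992302718) (nat_lit 228) (nat_lit 5652731274) (nat_lit 304) (nat_lit 2177466756) (nat_lit 113) (nat_lit 5) (nat_lit 116) (nat_lit 5) (nat_lit 117) (nat_lit 4) (nat_lit 461) (nat_lit 380) (nat_lit 359))) (XT.nd (nat_lit 78) (nat_lit 0) (nat_lit 0) (XT.lf (nat_lit 0) (nat_lit 590647820) (nat_lit 228) (nat_lit 1505107933) (nat_lit 304) (nat_lit 8895960912) (nat_lit 109) (nat_lit 5) (nat_lit 112) (nat_lit 5) (nat_lit 113) (nat_lit 5) (nat_lit 462) (nat_lit 380) (nat_lit 358)) (XT.lf (nat_lit 0) (nat_lit 6480221838) (nat_lit 304) (nat_lit 1921320252) (nat_lit 76) (nat_lit 2763024208) (nat_lit 109) (nat_lit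 5) (nat_lit 113) (nat_lit 5) (nat_lit 110) (nat_lit 4) (nat_lit 463) (nat_lit 380) (nat_lit 357))))) (XT.nd (nat_lit 312) (nat_lit 684) (nat_lit 0) (XT.nd (nat_lit 156) (nat_lit 228) (nat_lit 0) (XT.nd (nat_lit 78) (nat_lit 304) (nat_lit 0) (XT.lf (nat_lit 0) (nat_lit 6801144034) (nat_lit 152) (nat_lit 4198037997) (nat_lit 228) (nat_lit 343338707) (nat_lit 107) (nat_lit 5) (nat_lit 109) (nat_lit 5) (nat_lit 110) (nat_lit 4) (nat_lit 464) (nat_lit 380) (nat_lit 356)) (XT.lf (nat_lit 0) (nat_lit 4032112517) (nat_lit 304) (nat_lit 7314892898) (nat_lit 76) (nat_lit 178082692) (nat_lit 103) (nat_lit 5) (nat_lit 107) (nat_lit 5) (nat_lit 104) (nat_lit 4) (nat_lit 465) (nat_lit 380) (nat_lit 355))) (XT.nd (nat_lit 78) (nat_lit 76) (nat_lit 0) (XT.lf (nat_lit 0) (nat_lit 1458417966) (nat_lit 152) (nat_lit 7098848514) (nat_lit 228) (nat_lit 3155011270) (nat_lit 101) (nat_lit 5) (nat_lit 103) (nat_lit 5) (nat_lit 104) (nat_lit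 4) (nat_lit 466) (nat_lit 380) (nat_lit 354)) (XT.lf (nat_lit 0) (nat_lit 1285743783) (nat_lit 228) (nat_lit 1401867343) (nat_lit 76) (nat_lit 9217152045) (nat_lit 100) (nat_lit 5) (nat_lit 103) (nat_lit 5) (nat_lit 101) (nat_lit 5) (nat_lit 467) (nat_lit 380) (nat_lit 353)))) (XT.nd (nat_lit 156) (nat_lit 304) (nat_lit 0) (XT.nd (nat_lit 78) (nat_lit 152) (nat_lit 0) (XT.lf (nat_lit 0) (nat_lit 5814682481) (nat_lit 304) (nat_lit 4412331283) (nat_lit 76) (nat_lit 1874527855) (nat_lit 97) (nat_lit 5) (nat_lit 101) (nat_lit 5) (nat_lit 98) (nat_lit 4) (nat_lit 468) (nat_lit 380) (nat_lit 352)) (XT.lf (nat_lit 0) (nat_lit 4716058716) (nat_lit 152) (nat_lit 5776020081) (nat_lit 228) (nat_lit 1811773543) (nat_lit 95) (nat_lit 5) (nat_lit 97) (nat_lit 5) (nat_lit 98) (nat_lit 4) (nat_lit 469) (nat_lit 380) (nat_lit 351))) (XT.nd (nat_lit 78) (nat_lit 0) (nat_lit 0) (XT.lf (nat_lit 0) (nat_lit 1573833325) (nat_lit 228)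 (nat_lit 1155824353) (nat_lit 304) (nat_lit 9782173662) (nat_lit 91) (nat_lit 5) (nat_lit 94) (nat_lit 5) (nat_lit 95) (nat_lit 5) (nat_lit 470) (nat_lit 380) (nat_lit 350)) (XT.lf (nat_lit 0) (nat_lit 7409900318) (nat_lit 304) (nat_lit 1739045560) (nat_lit 76) (nat_lit 3575402227) (nat_lit 91) (nat_lit 5) (nat_lit 95) (nat_lit 5) (nat_lit 92) (nat_lit 4) (nat_lit 471) (nat_lit 380) (nat_lit 349)))))) (XT.nd (nat_lit 624) (nat_lit 912) (nat_lit 0) (XT.nd (nat_lit 312) (nat_lit 532) (nat_lit 0) (XT.nd (nat_lit 156) (nat_lit 228) (nat_lit 0) (XT.nd (nat_lit 78) (nat_lit 228) (nat_lit 0) (XT.lf (nat_lit 0) (nat_lit 7751601175) (nat_lit 152) (nat_lit 4494001963) (nat_lit 228) (nat_lit 697191516) (nat_lit 89) (nat_lit 5) (nat_lit 91) (nat_lit 5) (nat_lit 92) (nat_lit 4) (nat_lit 472) (nat_lit 380) (nat_lit 348)) (XT.lf (nat_lit 0) (nat_lit 3971236929) (nat_lit 228) (nat_lit 8854226888) (nat_lit 76) (nat_lit 341410343)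 (nat_lit 86) (nat_lit 5) (nat_lit 89) (nat_lit 5) (nat_lit 87) (nat_lit 4) (nat_lit 473) (nat_lit 380) (nat_lit 347))) (XT.nd (nat_lit 78) (nat_lit 76) (nat_lit 0) (XT.lf (nat_lit 0) (nat_lit 647982708) (nat_lit 152) (nat_lit 8151032640) (nat_lit 228) (nat_lit 4597459686) (nat_lit 84) (nat_lit 5) (nat_lit 86) (nat_lit 5) (nat_lit 87) (nat_lit 4) (nat_lit 474) (nat_lit 380) (nat_lit 346)) (XT.lf (nat_lit 0) (nat_lit 156068605) (nat_lit 228) (nat_lit 3140576941) (nat_lit 76) (nat_lit 10335680126) (nat_lit 83) (nat_lit 5) (nat_lit 86) (nat_lit 5) (nat_lit 84) (nat_lit 5) (nat_lit 475) (nat_lit 380) (nat_lit 345)))) (XT.nd (nat_lit 156) (nat_lit 228) (nat_lit 0) (XT.nd (nat_lit 78) (nat_lit 152) (nat_lit 0) (XT.lf (nat_lit 0) (nat_lit 4973208879) (nat_lit 228) (nat_lit 7170966541) (nat_lit 76) (nat_lit 1729313425) (nat_lit 81) (nat_lit 5) (nat_lit 84) (nat_lit 5) (nat_lit 82) (nat_lit 4) (nat_lit 476) (nat_lit 380)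 (nat_lit 344)) (XT.lf (nat_lit 0) (nat_lit 2682211547) (nat_lit 152) (nat_lit 7275286833) (nat_lit 228) (nat_lit 4163714255) (nat_lit 79) (nat_lit 5) (nat_lit 81) (nat_lit 5) (nat_lit 82) (nat_lit 4) (nat_lit 477) (nat_lit 380) (nat_lit 343))) (XT.nd (nat_lit 78) (nat_lit 152) (nat_lit 0) (XT.lf (nat_lit 0) (nat_lit 706461657) (nat_lit 228) (nat_lit 1525493935) (nat_lit 76) (nat_lit 12144046934) (nat_lit 78) (nat_lit 5) (nat_lit 81) (nat_lit 5) (nat_lit 79) (nat_lit 5) (nat_lit 478) (nat_lit 380) (nat_lit 342)) (XT.lf (nat_lit 0) (nat_lit 5686161246) (nat_lit 228) (nat_lit 5970145993) (nat_lit 76) (nat_lit 2979483346) (nat_lit 76) (nat_lit 5) (nat_lit 79) (nat_lit 5) (nat_lit 77) (nat_lit 4) (nat_lit 479) (nat_lit 380) (nat_lit 341))))) (XT.nd (nat_lit 312) (nat_lit 380) (nat_lit 0) (XT.nd (nat_lit 156) (nat_lit 304) (nat_lit 0) (XT.nd (nat_lit 78) (nat_lit 76) (nat_lit 0) (XT.lf (nat_lit 0) (nat_lit 4232784544)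 (nat_lit 152) (nat_lit 6595404807) (nat_lit 228) (nat_lit 4074799047) (nat_lit 74) (nat_lit 5) (nat_lit 76) (nat_lit 5) (nat_lit 77) (nat_lit 4) (nat_lit 480) (nat_lit 380) (nat_lit 340)) (XT.lf (nat_lit 0) (nat_lit 923422152) (nat_lit 228) (nat_lit 440482856) (nat_lit 76) (nat_lit 13814159909) (nat_lit 73) (nat_lit 5) (nat_lit 76) (nat_lit 5) (nat_lit 74) (nat_lit 5) (nat_lit 481) (nat_lit 380) (nat_lit 339))) (XT.nd (nat_lit 78) (nat_lit 152) (nat_lit 0) (XT.lf (nat_lit 0) (nat_lit 6063329918) (nat_lit 228) (nat_lit 5360221628) (nat_lit 76) (nat_lit 4034426548) (nat_lit 71) (nat_lit 5) (nat_lit 74) (nat_lit 5) (nat_lit 72) (nat_lit 4) (nat_lit 482) (nat_lit 380) (nat_lit 338)) (XT.lf (nat_lit 0) (nat_lit 5187304786) (nat_lit 152) (nat_lit 6174874534) (nat_lit 228) (nat_lit 4383970782) (nat_lit 69) (nat_lit 5) (nat_lit 71) (nat_lit 5) (nat_lit 72) (nat_lit 4) (nat_lit 483) (nat_lit 380) (nat_lit 337)))) (XT.nd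 (nat_lit 156) (nat_lit 152) (nat_lit 0) (XT.nd (nat_lit 78) (nat_lit 152) (nat_lit 0) (XT.lf (nat_lit 0) (nat_lit 753531625) (nat_lit 228) (nat_lit 3725758) (nat_lit 76) (nat_lit 15285739340) (nat_lit 68) (nat_lit 5) (nat_lit 71) (nat_lit 5) (nat_lit 69) (nat_lit 5) (nat_lit 484) (nat_lit 380) (nat_lit 336)) (XT.lf (nat_lit 0) (nat_lit 6048248592) (nat_lit 228) (nat_lit 5467781777) (nat_lit 76) (nat_lit 4828683561) (nat_lit 66) (nat_lit 5) (nat_lit 69) (nat_lit 5) (nat_lit 67) (nat_lit 4) (nat_lit 485) (nat_lit 380) (nat_lit 335))) (XT.nd (nat_lit 78) (nat_lit 76) (nat_lit 0) (XT.lf (nat_lit 0) (nat_lit 5414380939) (nat_lit 76) (nat_lit 6086074059) (nat_lit 152) (nat_lit 5155071564) (nat_lit 65) (nat_lit 5) (nat_lit 66) (nat_lit 5) (nat_lit 67) (nat_lit 4) (nat_lit 486) (nat_lit 380) (nat_lit 334)) (XT.lf (nat_lit 0) (nat_lit 132753249) (nat_lit 152) (nat_lit 353304124) (nat_lit 76) (nat_lit 16489720854) (nat_lit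 64) (nat_lit 5) (nat_lit 66) (nat_lit 5) (nat_lit 65) (nat_lit 5) (nat_lit 487) (nat_lit 380) (nat_lit 333))))))))
noncomputable def xc54 : XT := (XT.nd (nat_lit 2340) (nat_lit 1292) (nat_lit 0) (XT.nd (nat_lit 1170) (nat_lit 836) (nat_lit 0) (XT.nd (nat_lit 546) (nat_lit 684) (nat_lit 0) (XT.nd (nat_lit 234) (nat_lit 532) (nat_lit 0) (XT.nd (nat_lit 78) (nat_lit 76) (nat_lit 0) (XT.lf (nat_lit 0) (nat_lit 5573290560) (nat_lit 228) (nat_lit 6440682829) (nat_lit 76) (nat_lit 5287205219) (nat_lit 62) (nat_lit 5) (nat_lit 65) (nat_lit 5) (nat_lit 63) (nat_lit 4) (nat_lit 488) (nat_lit 380) (nat_lit 332)) (XT.nd (nat_lit 78) (nat_lit 0) (nat_lit 0) (XT.lf (nat_lit 0) (nat_lit 4760341266) (nat_lit 76) (nat_lit 6412022921) (nat_lit 152) (nat_lit 6464120181) (nat_lit 61) (nat_lit 5) (nat_lit 62) (nat_lit 5) (nat_lit 63) (nat_lit 4) (nat_lit 489) (nat_lit 380) (nat_lit 331)) (XT.lf (nat_lit 0) (nat_lit 16321076052) (nat_lit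 76) (nat_lit 625190375) (nat_lit 152) (nat_lit 1035380066) (nat_lit 61) (nat_lit 5) (nat_lit 62) (nat_lit 5) (nat_lit 63) (nat_lit 4) (nat_lit 490) (nat_lit 380) (nat_lit 330)))) (XT.nd (nat_lit 156) (nat_lit 228) (nat_lit 0) (XT.nd (nat_lit 78) (nat_lit 76) (nat_lit 0) (XT.lf (nat_lit 0) (nat_lit 4557959183) (nat_lit 228) (nat_lit 8451675881) (nat_lit 76) (nat_lit 5323497868) (nat_lit 58) (nat_lit 5) (nat_lit 61) (nat_lit 5) (nat_lit 59) (nat_lit 4) (nat_lit 491) (nat_lit 380) (nat_lit 329)) (XT.lf (nat_lit 0) (nat_lit 3045432252) (nat_lit 76) (nat_lit 7248385664) (nat_lit 152) (nat_lit 8401175267) (nat_lit 57) (nat_lit 5) (nat_lit 58) (nat_lit 5) (nat_lit 59) (nat_lit 4) (nat_lit 492) (nat_lit 380) (nat_lit 328))) (XT.nd (nat_lit 78) (nat_lit 228) (nat_lit 0) (XT.lf (nat_lit 0) (nat_lit 14955236626) (nat_lit 76) (nat_lit 1275634042) (nat_lit 152) (nat_lit 2835967590) (nat_lit 57) (nat_lit 5) (nat_lit 58) (nat_lit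 5) (nat_lit 59) (nat_lit 4) (nat_lit 493) (nat_lit 380) (nat_lit 327)) (XT.lf (nat_lit 0) (nat_lit 2906888529) (nat_lit 228) (nat_lit 11702604249) (nat_lit 76) (nat_lit 4837496903) (nat_lit 54) (nat_lit 5) (nat_lit 57) (nat_lit 5) (nat_lit 55) (nat_lit 4) (nat_lit 494) (nat_lit 380) (nat_lit 326))))) (XT.nd (nat_lit 312) (nat_lit 380) (nat_lit 0) (XT.nd (nat_lit 156) (nat_lit 228) (nat_lit 0) (XT.nd (nat_lit 78) (nat_lit 0) (nat_lit 0) (XT.lf (nat_lit 0) (nat_lit 59417517) (nat_lit 76) (nat_lit 8705771294) (nat_lit 152) (nat_lit 11072512056) (nat_lit 53) (nat_lit 5) (nat_lit 54) (nat_lit 5) (nat_lit 55) (nat_lit 4) (nat_lit 495) (nat_lit 380) (nat_lit 325)) (XT.lf (nat_lit 0) (nat_lit 12311550337) (nat_lit 76) (nat_lit 2551502844) (nat_lit 152) (nat_lit 5375168034) (nat_lit 53) (nat_lit 5) (nat_lit 54) (nat_lit 5) (nat_lit 55) (nat_lit 4) (nat_lit 496) (nat_lit 380) (nat_lit 324))) (XT.nd (nat_lit 78) (nat_lit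 0) (nat_lit 0) (XT.lf (nat_lit 0) (nat_lit 507509376) (nat_lit 228) (nat_lit 16429264781) (nat_lit 76) (nat_lit 3713121912) (nat_lit 50) (nat_lit 5) (nat_lit 53) (nat_lit 5) (nat_lit 51) (nat_lit 4) (nat_lit 497) (nat_lit 380) (nat_lit 323)) (XT.lf (nat_lit 0) (nat_lit 6511572362) (nat_lit 228) (nat_lit 4356811488) (nat_lit 76) (nat_lit 10202354594) (nat_lit 50) (nat_lit 5) (nat_lit 53) (nat_lit 5) (nat_lit 51) (nat_lit 4) (nat_lit 498) (nat_lit 380) (nat_lit 322)))) (XT.nd (nat_lit 156) (nat_lit 304) (nat_lit 0) (XT.nd (nat_lit 78) (nat_lit 0) (nat_lit 0) (XT.lf (nat_lit 0) (nat_lit 8138709845) (nat_lit 76) (nat_lit 4583671996) (nat_lit 152) (nat_lit 8781027535) (nat_lit 49) (nat_lit 5) (nat_lit 50) (nat_lit 5) (nat_lit 51) (nat_lit 4) (nat_lit 499) (nat_lit 380) (nat_lit 321)) (XT.lf (nat_lit 0) (nat_lit 19130630323) (nat_lit 152) (nat_lit 965985579) (nat_lit 0) (nat_lit 1852113060) (nat_lit 49) (nat_lit 5) (nat_lit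 51) (nat_lit 4) (nat_lit 49) (nat_lit 4) (nat_lit 500) (nat_lit 380) (nat_lit 320))) (XT.nd (nat_lit 78) (nat_lit 76) (nat_lit 0) (XT.lf (nat_lit 0) (nat_lit 3369701618) (nat_lit 228) (nat_lit 10540904951) (nat_lit 76) (nat_lit 8492519694) (nat_lit 46) (nat_lit 5) (nat_lit 49) (nat_lit 5) (nat_lit 47) (nat_lit 4) (nat_lit 501) (nat_lit 380) (nat_lit 319)) (XT.lf (nat_lit 0) (nat_lit 2142769003) (nat_lit 76) (nat_lit 7524252500) (nat_lit 152) (nat_lit 13203882921) (nat_lit 45) (nat_lit 5) (nat_lit 46) (nat_lit 5) (nat_lit 47) (nat_lit 4) (nat_lit 502) (nat_lit 380) (nat_lit 318)))))) (XT.nd (nat_lit 546) (nat_lit 456) (nat_lit 0) (XT.nd (nat_lit 234) (nat_lit 228) (nat_lit 0) (XT.nd (nat_lit 78) (nat_lit 152) (nat_lit 0) (XT.lf (nat_lit 0) (nat_lit 15328706391) (nat_lit 76) (nat_lit 881622262) (nat_lit 152) (nat_lit 7140676993) (nat_lit 45) (nat_lit 5) (nat_lit 46) (nat_lit 5) (nat_lit 47) (nat_lit 4) (nat_lit 503)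 (nat_lit 380) (nat_lit 317)) (XT.nd (nat_lit 78) (nat_lit 76) (nat_lit 0) (XT.lf (nat_lit 0) (nat_lit 5012634662) (nat_lit 76) (nat_lit 17994422586) (nat_lit 76) (nat_lit 836740686) (nat_lit 44) (nat_lit 4) (nat_lit 45) (nat_lit 5) (nat_lit 45) (nat_lit 4) (nat_lit 504) (nat_lit 380) (nat_lit 316)) (XT.lf (nat_lit 0) (nat_lit 5588174833) (nat_lit 152) (nat_lit 5902433883) (nat_lit 76) (nat_lit 12857868628) (nat_lit 43) (nat_lit 5) (nat_lit 45) (nat_lit 5) (nat_lit 44) (nat_lit 4) (nat_lit 505) (nat_lit 380) (nat_lit 315)))) (XT.nd (nat_lit 156) (nat_lit 152) (nat_lit 0) (XT.nd (nat_lit 78) (nat_lit 0) (nat_lit 0) (XT.lf (nat_lit 0) (nat_lit 7461519488) (nat_lit 76) (nat_lit 4752327958) (nat_lit 152) (nat_lit 12653457887) (nat_lit 42) (nat_lit 5) (nat_lit 43) (nat_lit 5) (nat_lit 44) (nat_lit 4) (nat_lit 506) (nat_lit 380) (nat_lit 314)) (XT.lf (nat_lit 0) (nat_lit 19072718753) (nat_lit 152) (nat_lit 4164203373)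 (nat_lit 0) (nat_lit 2163744686) (nat_lit 42) (nat_lit 5) (nat_lit 44) (nat_lit 4) (nat_lit 42) (nat_lit 4) (nat_lit 507) (nat_lit 380) (nat_lit 313))) (XT.nd (nat_lit 78) (nat_lit 0) (nat_lit 0) (XT.lf (nat_lit 0) (nat_lit 277780676) (nat_lit 152) (nat_lit 16423929759) (nat_lit 76) (nat_lit 9245442829) (nat_lit 40) (nat_lit 5) (nat_lit 42) (nat_lit 5) (nat_lit 41) (nat_lit 4) (nat_lit 508) (nat_lit 380) (nat_lit 312)) (XT.lf (nat_lit 0) (nat_lit 6951572224) (nat_lit 152) (nat_lit 2952686767) (nat_lit 76) (nat_lit 16603984815) (nat_lit 40) (nat_lit 5) (nat_lit 42) (nat_lit 5) (nat_lit 41) (nat_lit 4) (nat_lit 509) (nat_lit 380) (nat_lit 311))))) (XT.nd (nat_lit 312) (nat_lit 228) (nat_lit 0) (XT.nd (nat_lit 156) (nat_lit 152) (nat_lit 0) (XT.nd (nat_lit 78) (nat_lit 0) (nat_lit 0) (XT.lf (nat_lit 0) (nat_lit 11053454223) (nat_lit 76) (nat_lit 2834307714) (nat_lit 152) (nat_lit 13196540933) (nat_lit 39) (nat_lit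 5) (nat_lit 40) (nat_lit 5) (nat_lit 41) (nat_lit 4) (nat_lit 510) (nat_lit 380) (nat_lit 310)) (XT.lf (nat_lit 0) (nat_lit 21060920927) (nat_lit 152) (nat_lit 2264511264) (nat_lit 0) (nat_lit 4351346308) (nat_lit 39) (nat_lit 5) (nat_lit 41) (nat_lit 4) (nat_lit 39) (nat_lit 4) (nat_lit 511) (nat_lit 380) (nat_lit 309))) (XT.nd (nat_lit 78) (nat_lit 0) (nat_lit 0) (XT.lf (nat_lit 0) (nat_lit 261168580) (nat_lit 152) (nat_lit 16247419505) (nat_lit 76) (nat_lit 11775332098) (nat_lit 37) (nat_lit 5) (nat_lit 39) (nat_lit 5) (nat_lit 38) (nat_lit 4) (nat_lit 512) (nat_lit 380) (nat_lit 308)) (XT.lf (nat_lit 0) (nat_lit 7191964115) (nat_lit 152) (nat_lit 2243940593) (nat_lit 76) (nat_lit 19471994569) (nat_lit 37) (nat_lit 5) (nat_lit 39) (nat_lit 5) (nat_lit 38) (nat_lit 4) (nat_lit 513) (nat_lit 380) (nat_lit 307)))) (XT.nd (nat_lit 156) (nat_lit 152) (nat_lit 0) (XT.nd (nat_lit 78) (nat_lit 0) (nat_lit 0) (XT.lf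 (nat_lit 0) (nat_lit 12340267318) (nat_lit 76) (nat_lit 2067618253) (nat_lit 152) (nat_lit 15140397266) (nat_lit 36) (nat_lit 5) (nat_lit 37) (nat_lit 5) (nat_lit 38) (nat_lit 4) (nat_lit 514) (nat_lit 380) (nat_lit 306)) (XT.lf (nat_lit 0) (nat_lit 21874900372) (nat_lit 152) (nat_lit 2932754064) (nat_lit 0) (nat_lit 5399186119) (nat_lit 36) (nat_lit 5) (nat_lit 38) (nat_lit 4) (nat_lit 36) (nat_lit 4) (nat_lit 515) (nat_lit 380) (nat_lit 305))) (XT.nd (nat_lit 78) (nat_lit 76) (nat_lit 0) (XT.lf (nat_lit 0) (nat_lit 11904680930) (nat_lit 76) (nat_lit 17756009313) (nat_lit 76) (nat_lit 1221622909) (nat_lit 35) (nat_lit 4) (nat_lit 36) (nat_lit 5) (nat_lit 36) (nat_lit 4) (nat_lit 516) (nat_lit 380) (nat_lit 304)) (XT.lf (nat_lit 0) (nat_lit 5972731480) (nat_lit 152) (nat_lit 4466704754) (nat_lit 76) (nat_lit 21137161044) (nat_lit 34) (nat_lit 5) (nat_lit 36) (nat_lit 5) (nat_lit 35) (nat_lit 4) (nat_lit 517) (nat_lit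 380) (nat_lit 303))))))) (XT.nd (nat_lit 1170) (nat_lit 532) (nat_lit 0) (XT.nd (nat_lit 546) (nat_lit 380) (nat_lit 0) (XT.nd (nat_lit 234) (nat_lit 228) (nat_lit 0) (XT.nd (nat_lit 78) (nat_lit 76) (nat_lit 0) (XT.lf (nat_lit 0) (nat_lit 10598590953) (nat_lit 76) (nat_lit 2822711876) (nat_lit 152) (nat_lit 18868157044) (nat_lit 33) (nat_lit 5) (nat_lit 34) (nat_lit 5) (nat_lit 35) (nat_lit 4) (nat_lit 518) (nat_lit 380) (nat_lit 302)) (XT.nd (nat_lit 78) (nat_lit 76) (nat_lit 0) (XT.lf (nat_lit 0) (nat_lit 21148285747) (nat_lit 152) (nat_lit 6939418429) (nat_lit 0) (nat_lit 4934356503) (nat_lit 33) (nat_lit 5) (nat_lit 35) (nat_lit 4) (nat_lit 33) (nat_lit 4) (nat_lit 519) (nat_lit 380) (nat_lit 301)) (XT.lf (nat_lit 0) (nat_lit 8315350798) (nat_lit 76) (nat_lit 20861862970) (nat_lit 76) (nat_lit 4597322612) (nat_lit 32) (nat_lit 4) (nat_lit 33) (nat_lit 5) (nat_lit 33) (nat_lit 4) (nat_lit 520) (nat_lit 380)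 (nat_lit 300)))) (XT.nd (nat_lit 156) (nat_lit 76) (nat_lit 0) (XT.nd (nat_lit 78) (nat_lit 76) (nat_lit 0) (XT.lf (nat_lit 0) (nat_lit 2873936899) (nat_lit 152) (nat_lit 10479585455) (nat_lit 76) (nat_lit 21194237746) (nat_lit 31) (nat_lit 5) (nat_lit 33) (nat_lit 5) (nat_lit 32) (nat_lit 4) (nat_lit 521) (nat_lit 380) (nat_lit 299)) (XT.lf (nat_lit 0) (nat_lit 4928632723) (nat_lit 76) (nat_lit 5559059844) (nat_lit 152) (nat_lit 24854800480) (nat_lit 30) (nat_lit 5) (nat_lit 31) (nat_lit 5) (nat_lit 32) (nat_lit 4) (nat_lit 522) (nat_lit 380) (nat_lit 298))) (XT.nd (nat_lit 78) (nat_lit 76) (nat_lit 0) (XT.lf (nat_lit 0) (nat_lit 18423905751) (nat_lit 152) (nat_lit 15240241339) (nat_lit 0) (nat_lit 2494100383) (nat_lit 30) (nat_lit 5) (nat_lit 32) (nat_lit 4) (nat_lit 30) (nat_lit 4) (nat_lit 523) (nat_lit 380) (nat_lit 297)) (XT.lf (nat_lit 0) (nat_lit 269401894) (nat_lit 76) (nat_lit 26350936212) (nat_lit 76)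 (nat_lit 10377473252) (nat_lit 29) (nat_lit 4) (nat_lit 30) (nat_lit 5) (nat_lit 30) (nat_lit 4) (nat_lit 524) (nat_lit 380) (nat_lit 296))))) (XT.nd (nat_lit 312) (nat_lit 228) (nat_lit 0) (XT.nd (nat_lit 156) (nat_lit 76) (nat_lit 0) (XT.nd (nat_lit 78) (nat_lit 76) (nat_lit 0) (XT.lf (nat_lit 0) (nat_lit 16488023710) (nat_lit 76) (nat_lit 18693412512) (nat_lit 76) (nat_lit 2677563541) (nat_lit 29) (nat_lit 4) (nat_lit 30) (nat_lit 5) (nat_lit 30) (nat_lit 4) (nat_lit 525) (nat_lit 380) (nat_lit 295)) (XT.lf (nat_lit 0) (nat_lit 5116392685) (nat_lit 152) (nat_lit 5670723286) (nat_lit 76) (nat_lit 27958426812) (nat_lit 28) (nat_lit 5) (nat_lit 30) (nat_lit 5) (nat_lit 29) (nat_lit 4) (nat_lit 526) (nat_lit 380) (nat_lit 294))) (XT.nd (nat_lit 78) (nat_lit 0) (nat_lit 0) (XT.lf (nat_lit 0) (nat_lit 10615735740) (nat_lit 76) (nat_lit 2543224387) (nat_lit 152) (nat_lit 26496869103) (nat_lit 27) (nat_lit 5) (nat_lit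 28) (nat_lit 5) (nat_lit 29) (nat_lit 4) (nat_lit 527) (nat_lit 380) (nat_lit 293)) (XT.lf (nat_lit 0) (nat_lit 21524420456) (nat_lit 152) (nat_lit 13207905022) (nat_lit 0) (nat_lit 5858651016) (nat_lit 27) (nat_lit 5) (nat_lit 29) (nat_lit 4) (nat_lit 27) (nat_lit 4) (nat_lit 528) (nat_lit 380) (nat_lit 292)))) (XT.nd (nat_lit 156) (nat_lit 152) (nat_lit 0) (XT.nd (nat_lit 78) (nat_lit 0) (nat_lit 0) (XT.lf (nat_lit 0) (nat_lit 3070401873) (nat_lit 76) (nat_lit 27092720319) (nat_lit 76) (nat_lit 11390388333) (nat_lit 26) (nat_lit 4) (nat_lit 27) (nat_lit 5) (nat_lit 27) (nat_lit 4) (nat_lit 529) (nat_lit 380) (nat_lit 291)) (XT.lf (nat_lit 0) (nat_lit 20044849039) (nat_lit 76) (nat_lit 19117431467) (nat_lit 76) (nat_lit 3379601864) (nat_lit 26) (nat_lit 4) (nat_lit 27) (nat_lit 5) (nat_lit 27) (nat_lit 4) (nat_lit 530) (nat_lit 380) (nat_lit 290))) (XT.nd (nat_lit 78) (nat_lit 76) (nat_lit 0) (XT.lf (nat_lit 0)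 (nat_lit 4744994448) (nat_lit 152) (nat_lit 6139954577) (nat_lit 76) (nat_lit 32674495720) (nat_lit 25) (nat_lit 5) (nat_lit 27) (nat_lit 5) (nat_lit 26) (nat_lit 4) (nat_lit 531) (nat_lit 380) (nat_lit 289)) (XT.lf (nat_lit 0) (nat_lit 10825670621) (nat_lit 76) (nat_lit 2293257378) (nat_lit 152) (nat_lit 31485396975) (nat_lit 24) (nat_lit 5) (nat_lit 25) (nat_lit 5) (nat_lit 26) (nat_lit 4) (nat_lit 532) (nat_lit 380) (nat_lit 288)))))) (XT.nd (nat_lit 624) (nat_lit 228) (nat_lit 0) (XT.nd (nat_lit 312) (nat_lit 152) (nat_lit 0) (XT.nd (nat_lit 156) (nat_lit 152) (nat_lit 0) (XT.nd (nat_lit 78) (nat_lit 0) (nat_lit 0) (XT.lf (nat_lit 0) (nat_lit 21839218631) (nat_lit 152) (nat_lit 17376191405) (nat_lit 0) (nat_lit 6462287985) (nat_lit 24) (nat_lit 5) (nat_lit 26) (nat_lit 4) (nat_lit 24) (nat_lit 4) (nat_lit 533) (nat_lit 380) (nat_lit 287)) (XT.lf (nat_lit 0) (nat_lit 30814213438) (nat_lit 152) (nat_lit 562604290)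 (nat_lit 0) (nat_lit 15406662235) (nat_lit 24) (nat_lit 5) (nat_lit 26) (nat_lit 4) (nat_lit 24) (nat_lit 4) (nat_lit 534) (nat_lit 380) (nat_lit 286))) (XT.nd (nat_lit 78) (nat_lit 76) (nat_lit 0) (XT.lf (nat_lit 0) (nat_lit 17031182379) (nat_lit 76) (nat_lit 23162242220) (nat_lit 76) (nat_lit 7724962322) (nat_lit 23) (nat_lit 4) (nat_lit 24) (nat_lit 5) (nat_lit 24) (nat_lit 4) (nat_lit 535) (nat_lit 380) (nat_lit 285)) (XT.lf (nat_lit 0) (nat_lit 728717184) (nat_lit 152) (nat_lit 13986846825) (nat_lit 76) (nat_lit 34372246306) (nat_lit 22) (nat_lit 5) (nat_lit 24) (nat_lit 5) (nat_lit 23) (nat_lit 4) (nat_lit 536) (nat_lit 380) (nat_lit 284)))) (XT.nd (nat_lit 156) (nat_lit 76) (nat_lit 0) (XT.nd (nat_lit 78) (nat_lit 0) (nat_lit 0) (XT.lf (nat_lit 0) (nat_lit 3354578606) (nat_lit 76) (nat_lit 5930516695) (nat_lit 152) (nat_lit 41004796501) (nat_lit 21) (nat_lit 5) (nat_lit 22) (nat_lit 5) (nat_lit 23) (nat_lit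 4) (nat_lit 537) (nat_lit 380) (nat_lit 283)) (XT.lf (nat_lit 0) (nat_lit 18242914203) (nat_lit 152) (nat_lit 30107157395) (nat_lit 0) (nat_lit 3173622142) (nat_lit 21) (nat_lit 5) (nat_lit 23) (nat_lit 4) (nat_lit 21) (nat_lit 4) (nat_lit 538) (nat_lit 380) (nat_lit 282))) (XT.nd (nat_lit 78) (nat_lit 76) (nat_lit 0) (XT.lf (nat_lit 0) (nat_lit 27501135552) (nat_lit 152) (nat_lit 12886225367) (nat_lit 0) (nat_lit 12406199257) (nat_lit 21) (nat_lit 5) (nat_lit 23) (nat_lit 4) (nat_lit 21) (nat_lit 4) (nat_lit 539) (nat_lit 380) (nat_lit 281)) (XT.lf (nat_lit 0) (nat_lit 4895058275) (nat_lit 76) (nat_lit 32162837320) (nat_lit 76) (nat_lit 17043003710) (nat_lit 20) (nat_lit 4) (nat_lit 21) (nat_lit 5) (nat_lit 21) (nat_lit 4) (nat_lit 540) (nat_lit 380) (nat_lit 280))))) (XT.nd (nat_lit 312) (nat_lit 76) (nat_lit 0) (XT.nd (nat_lit 156) (nat_lit 76) (nat_lit 0) (XT.nd (nat_lit 78) (nat_lit 76) (nat_lit 0) (XT.lf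 (nat_lit 0) (nat_lit 23422646658) (nat_lit 76) (nat_lit 23582847050) (nat_lit 76) (nat_lit 8438841290) (nat_lit 20) (nat_lit 4) (nat_lit 21) (nat_lit 5) (nat_lit 21) (nat_lit 4) (nat_lit 541) (nat_lit 380) (nat_lit 279)) (XT.lf (nat_lit 0) (nat_lit 389699443) (nat_lit 152) (nat_lit 14376383995) (nat_lit 76) (nat_lit 42062633142) (nat_lit 19) (nat_lit 5) (nat_lit 21) (nat_lit 5) (nat_lit 20) (nat_lit 4) (nat_lit 542) (nat_lit 380) (nat_lit 278))) (XT.nd (nat_lit 78) (nat_lit 0) (nat_lit 0) (XT.lf (nat_lit 0) (nat_lit 3738847597) (nat_lit 76) (nat_lit 5585835177) (nat_lit 152) (nat_lit 48927104699) (nat_lit 18) (nat_lit 5) (nat_lit 19) (nat_lit 5) (nat_lit 20) (nat_lit 4) (nat_lit 543) (nat_lit 380) (nat_lit 277)) (XT.lf (nat_lit 0) (nat_lit 18686810264) (nat_lit 152) (nat_lit 37108457888) (nat_lit 0) (nat_lit 3917509898) (nat_lit 18) (nat_lit 5) (nat_lit 20) (nat_lit 4) (nat_lit 18) (nat_lit 4) (nat_lit 544) (nat_lit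 380) (nat_lit 276)))) (XT.nd (nat_lit 156) (nat_lit 76) (nat_lit 0) (XT.nd (nat_lit 78) (nat_lit 0) (nat_lit 0) (XT.lf (nat_lit 0) (nat_lit 28361111661) (nat_lit 152) (nat_lit 19284587582) (nat_lit 0) (nat_lit 13570960186) (nat_lit 18) (nat_lit 5) (nat_lit 20) (nat_lit 4) (nat_lit 18) (nat_lit 4) (nat_lit 545) (nat_lit 380) (nat_lit 275)) (XT.lf (nat_lit 0) (nat_lit 38302345773) (nat_lit 152) (nat_lit 972060238) (nat_lit 0) (nat_lit 23491950503) (nat_lit 18) (nat_lit 5) (nat_lit 20) (nat_lit 4) (nat_lit 18) (nat_lit 4) (nat_lit 546) (nat_lit 380) (nat_lit 274))) (XT.nd (nat_lit 78) (nat_lit 0) (nat_lit 0) (XT.lf (nat_lit 0) (nat_lit 18200278367) (nat_lit 76) (nat_lit 30493872958) (nat_lit 76) (nat_lit 15663823518) (nat_lit 17) (nat_lit 4) (nat_lit 18) (nat_lit 5) (nat_lit 18) (nat_lit 4) (nat_lit 547) (nat_lit 380) (nat_lit 273)) (XT.lf (nat_lit 0) (nat_lit 37923434275) (nat_lit 76) (nat_lit 21461708011) (nat_lit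 76) (nat_lit 6612576853) (nat_lit 17) (nat_lit 4) (nat_lit 18) (nat_lit 5) (nat_lit 18) (nat_lit 4) (nat_lit 548) (nat_lit 380) (nat_lit 272))))))))
noncomputable def xc55 : XT := (XT.nd (nat_lit 55770) (nat_lit 0) (nat_lit 3192) (XT.nd (nat_lit 54600) (nat_lit 0) (nat_lit 7372) (XT.nd (nat_lit 53976) (nat_lit 0) (nat_lit 11248) (XT.nd (nat_lit 234) (nat_lit 0) (nat_lit 0) (XT.nd (nat_lit 78) (nat_lit 76) (nat_lit 0) (XT.lf (nat_lit 0) (nat_lit 2635373115) (nat_lit 152) (nat_lit 9517849674) (nat_lit 76) (nat_lit 55533310190) (nat_lit 16) (nat_lit 5) (nat_lit 18) (nat_lit 5) (nat_lit 17) (nat_lit 4) (nat_lit 549) (nat_lit 380) (nat_lit 271)) (XT.nd (nat_lit 78) (nat_lit 0) (nat_lit 0) (XT.lf (nat_lit 0) (nat_lit 9676468520) (nat_lit 76) (nat_lit 2423094025) (nat_lit 152) (nat_lit 57322333664) (nat_lit 15) (nat_lit 5) (nat_lit 16) (nat_lit 5) (nat_lit 17) (nat_lit 4) (nat_lit 550) (nat_lit 380) (nat_lit 270)) (XT.lf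 (nat_lit 0) (nat_lit 21996498354) (nat_lit 152) (nat_lit 41680894200) (nat_lit 0) (nat_lit 7527463476) (nat_lit 15) (nat_lit 5) (nat_lit 17) (nat_lit 4) (nat_lit 15) (nat_lit 4) (nat_lit 551) (nat_lit 380) (nat_lit 269)))) (XT.nd (nat_lit 53586) (nat_lit 0) (nat_lit 13756) (XT.nd (nat_lit 78) (nat_lit 0) (nat_lit 0) (XT.lf (nat_lit 0) (nat_lit 32193665137) (nat_lit 152) (nat_lit 23139369924) (nat_lit 0) (nat_lit 17708170202) (nat_lit 15) (nat_lit 5) (nat_lit 17) (nat_lit 4) (nat_lit 15) (nat_lit 4) (nat_lit 552) (nat_lit 380) (nat_lit 268)) (XT.lf (nat_lit 0) (nat_lit 42676680781) (nat_lit 152) (nat_lit 4081361268) (nat_lit 0) (nat_lit 28175205207) (nat_lit 15) (nat_lit 5) (nat_lit 17) (nat_lit 4) (nat_lit 15) (nat_lit 4) (nat_lit 553) (nat_lit 380) (nat_lit 267))) (XT.nd (nat_lit 78) (nat_lit 532) (nat_lit 0) (XT.lf (nat_lit 0) (nat_lit 2553237247) (nat_lit 456) (nat_lit 725949429) (nat_lit 456) (nat_lit 725949429)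 (nat_lit 203) (nat_lit 4) (nat_lit 209) (nat_lit 5) (nat_lit 209) (nat_lit 4) (nat_lit 438) (nat_lit 381) (nat_lit 381)) (XT.lf (nat_lit 0) (nat_lit 2433981945) (nat_lit 532) (nat_lit 4424229697) (nat_lit 0) (nat_lit 1237712694) (nat_lit 196) (nat_lit 5) (nat_lit 203) (nat_lit 4) (nat_lit 196) (nat_lit 4) (nat_lit 439) (nat_lit 381) (nat_lit 380))))) (XT.nd (nat_lit 312) (nat_lit 1140) (nat_lit 0) (XT.nd (nat_lit 156) (nat_lit 456) (nat_lit 0) (XT.nd (nat_lit 78) (nat_lit 456) (nat_lit 0) (XT.lf (nat_lit 0) (nat_lit 2202313547) (nat_lit 456) (nat_lit 4170082161) (nat_lit 456) (nat_lit 1812386452) (nat_lit 190) (nat_lit 4) (nat_lit 196) (nat_lit 5) (nat_lit 196) (nat_lit 4) (nat_lit 440) (nat_lit 381) (nat_lit 379)) (XT.lf (nat_lit 0) (nat_lit 702930164) (nat_lit 380) (nat_lit 1360234552) (nat_lit 456) (nat_lit 6213965092) (nat_lit 184) (nat_lit 5) (nat_lit 189) (nat_lit 5) (nat_lit 190) (nat_lit 4) (nat_lit 441)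 (nat_lit 381) (nat_lit 378))) (XT.nd (nat_lit 78) (nat_lit 456) (nat_lit 0) (XT.lf (nat_lit 0) (nat_lit 5996249684) (nat_lit 456) (nat_lit 826549588) (nat_lit 0) (nat_lit 1549599161) (nat_lit 184) (nat_lit 5) (nat_lit 190) (nat_lit 4) (nat_lit 184) (nat_lit 4) (nat_lit 442) (nat_lit 381) (nat_lit 377)) (XT.lf (nat_lit 0) (nat_lit 1522673165) (nat_lit 456) (nat_lit 2387536362) (nat_lit 76) (nat_lit 4560580252) (nat_lit 178) (nat_lit 5) (nat_lit 184) (nat_lit 5) (nat_lit 179) (nat_lit 4) (nat_lit 443) (nat_lit 381) (nat_lit 376)))) (XT.nd (nat_lit 156) (nat_lit 304) (nat_lit 0) (XT.nd (nat_lit 78) (nat_lit 456) (nat_lit 0) (XT.lf (nat_lit 0) (nat_lit 4580115784) (nat_lit 380) (nat_lit 868423790) (nat_lit 456) (nat_lit 3124170404) (nat_lit 173) (nat_lit 5) (nat_lit 178) (nat_lit 5) (nat_lit 179) (nat_lit 4) (nat_lit 444) (nat_lit 381) (nat_lit 375)) (XT.lf (nat_lit 0) (nat_lit 780220311) (nat_lit 456) (nat_lit 5652168230)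 (nat_lit 76) (nat_lit 2245632769) (nat_lit 167) (nat_lit 5) (nat_lit 173) (nat_lit 5) (nat_lit 168) (nat_lit 4) (nat_lit 445) (nat_lit 381) (nat_lit 374))) (XT.nd (nat_lit 78) (nat_lit 0) (nat_lit 0) (XT.lf (nat_lit 0) (nat_lit 1406119893) (nat_lit 304) (nat_lit 3302735341) (nat_lit 380) (nat_lit 4077628132) (nat_lit 163) (nat_lit 5) (nat_lit 167) (nat_lit 5) (nat_lit 168) (nat_lit 4) (nat_lit 446) (nat_lit 381) (nat_lit 373)) (XT.lf (nat_lit 0) (nat_lit 8660518239) (nat_lit 304) (nat_lit 60423210) (nat_lit 380) (nat_lit 178306096) (nat_lit 163) (nat_lit 5) (nat_lit 167) (nat_lit 5) (nat_lit 168) (nat_lit 4) (nat_lit 447) (nat_lit 381) (nat_lit 372)))))) (XT.nd (nat_lit 546) (nat_lit 1824) (nat_lit 0) (XT.nd (nat_lit 234) (nat_lit 912) (nat_lit 0) (XT.nd (nat_lit 78) (nat_lit 684) (nat_lit 0) (XT.lf (nat_lit 0) (nat_lit 3773712873) (nat_lit 456) (nat_lit 1958006811) (nat_lit 76) (nat_lit 3282264969) (nat_lit 157)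 (nat_lit 5) (nat_lit 163) (nat_lit 5) (nat_lit 158) (nat_lit 4) (nat_lit 448) (nat_lit 381) (nat_lit 371)) (XT.nd (nat_lit 78) (nat_lit 380) (nat_lit 0) (XT.lf (nat_lit 0) (nat_lit 5415124620) (nat_lit 304) (nat_lit 2391954057) (nat_lit 380) (nat_lit 1326055803) (nat_lit 153) (nat_lit 5) (nat_lit 157) (nat_lit 5) (nat_lit 158) (nat_lit 4) (nat_lit 449) (nat_lit 381) (nat_lit 370)) (XT.lf (nat_lit 0) (nat_lit 2630635247) (nat_lit 380) (nat_lit 5557014328) (nat_lit 76) (nat_lit 1068107490) (nat_lit 148) (nat_lit 5) (nat_lit 153) (nat_lit 5) (nat_lit 149) (nat_lit 4) (nat_lit 450) (nat_lit 381) (nat_lit 369)))) (XT.nd (nat_lit 156) (nat_lit 228) (nat_lit 0) (XT.nd (nat_lit 78) (nat_lit 380) (nat_lit 0) (XT.lf (nat_lit 0) (nat_lit 1901296954) (nat_lit 304) (nat_lit 4770612544) (nat_lit 380) (nat_lit 2709992331) (nat_lit 144) (nat_lit 5) (nat_lit 148) (nat_lit 5) (nat_lit 149) (nat_lit 4) (nat_lit 451) (nat_lit 381)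 (nat_lit 368)) (XT.lf (nat_lit 0) (nat_lit 42328993) (nat_lit 304) (nat_lit 1224613993) (nat_lit 380) (nat_lit 8245414383) (nat_lit 139) (nat_lit 5) (nat_lit 143) (nat_lit 5) (nat_lit 144) (nat_lit 5) (nat_lit 452) (nat_lit 381) (nat_lit 367))) (XT.nd (nat_lit 78) (nat_lit 228) (nat_lit 0) (XT.lf (nat_lit 0) (nat_lit 5322261040) (nat_lit 380) (nat_lit 1884279997) (nat_lit 76) (nat_lit 2438986591) (nat_lit 139) (nat_lit 5) (nat_lit 144) (nat_lit 5) (nat_lit 140) (nat_lit 4) (nat_lit 453) (nat_lit 381) (nat_lit 366)) (XT.lf (nat_lit 0) (nat_lit 5902781174) (nat_lit 228) (nat_lit 3581749054) (nat_lit 304) (nat_lit 298615945) (nat_lit 136) (nat_lit 5) (nat_lit 139) (nat_lit 5) (nat_lit 140) (nat_lit 4) (nat_lit 454) (nat_lit 381) (nat_lit 365))))) (XT.nd (nat_lit 312) (nat_lit 836) (nat_lit 0) (XT.nd (nat_lit 156) (nat_lit 380) (nat_lit 0) (XT.nd (nat_lit 78) (nat_lit 228) (nat_lit 0) (XT.lf (nat_lit 0) (nat_lit 3747621397)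 (nat_lit 380) (nat_lit 5978609008) (nat_lit 76) (nat_lit 198287438) (nat_lit 131) (nat_lit 5) (nat_lit 136) (nat_lit 5) (nat_lit 132) (nat_lit 4) (nat_lit 455) (nat_lit 381) (nat_lit 364)) (XT.lf (nat_lit 0) (nat_lit 1885064842) (nat_lit 228) (nat_lit 6034878530) (nat_lit 304) (nat_lit 2149788528) (nat_lit 128) (nat_lit 5) (nat_lit 131) (nat_lit 5) (nat_lit 132) (nat_lit 4) (nat_lit 456) (nat_lit 381) (nat_lit 363))) (XT.nd (nat_lit 78) (nat_lit 304) (nat_lit 0) (XT.lf (nat_lit 0) (nat_lit 1938000383) (nat_lit 304) (nat_lit 260928601) (nat_lit 76) (nat_lit 8020441709) (nat_lit 127) (nat_lit 5) (nat_lit 131) (nat_lit 5) (nat_lit 128) (nat_lit 5) (nat_lit 457) (nat_lit 381) (nat_lit 362)) (XT.lf (nat_lit 0) (nat_lit 6118847301) (nat_lit 380) (nat_lit 2483837320) (nat_lit 76) (nat_lit 1769776477) (nat_lit 123) (nat_lit 5) (nat_lit 128) (nat_lit 5) (nat_lit 124) (nat_lit 4) (nat_lit 458) (nat_lit 381) (nat_lit 361))))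 (XT.nd (nat_lit 156) (nat_lit 304) (nat_lit 0) (XT.nd (nat_lit 78) (nat_lit 304) (nat_lit 0) (XT.lf (nat_lit 0) (nat_lit 5720072688) (nat_lit 228) (nat_lit 4705403842) (nat_lit 304) (nat_lit 104666679) (nat_lit 120) (nat_lit 5) (nat_lit 123) (nat_lit 5) (nat_lit 124) (nat_lit 4) (nat_lit 459) (nat_lit 381) (nat_lit 360)) (XT.lf (nat_lit 0) (nat_lit 3427760143) (nat_lit 228) (nat_lit 639166928) (nat_lit 304) (nat_lit 6625049908) (nat_lit 116) (nat_lit 5) (nat_lit 119) (nat_lit 5) (nat_lit 120) (nat_lit 5) (nat_lit 460) (nat_lit 381) (nat_lit 359))) (XT.nd (nat_lit 78) (nat_lit 76) (nat_lit 0) (XT.lf (nat_lit 0) (nat_lit 1009553849) (nat_lit 228) (nat_lit 7366733452) (nat_lit 304) (nat_lit 2481914578) (nat_lit 113) (nat_lit 5) (nat_lit 116) (nat_lit 5) (nat_lit 117) (nat_lit 4) (nat_lit 461) (nat_lit 381) (nat_lit 358)) (XT.lf (nat_lit 0) (nat_lit 1753211078) (nat_lit 304) (nat_lit 1499913213) (nat_lit 76) (nat_lit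 7775706554) (nat_lit 112) (nat_lit 5) (nat_lit 116) (nat_lit 5) (nat_lit 113) (nat_lit 5) (nat_lit 462) (nat_lit 381) (nat_lit 357))))))) (XT.nd (nat_lit 1170) (nat_lit 1824) (nat_lit 0) (XT.nd (nat_lit 546) (nat_lit 1064) (nat_lit 0) (XT.nd (nat_lit 234) (nat_lit 608) (nat_lit 0) (XT.nd (nat_lit 78) (nat_lit 456) (nat_lit 0) (XT.lf (nat_lit 0) (nat_lit 6067935509) (nat_lit 304) (nat_lit 4126127175) (nat_lit 76) (nat_lit 1009714043) (nat_lit 109) (nat_lit 5) (nat_lit 113) (nat_lit 5) (nat_lit 110) (nat_lit 4) (nat_lit 463) (nat_lit 381) (nat_lit 356)) (XT.nd (nat_lit 78) (nat_lit 304) (nat_lit 0) (XT.lf (nat_lit 0) (nat_lit 4489294559) (nat_lit 152) (nat_lit 6038399567) (nat_lit 228) (nat_lit 855816974) (nat_lit 107) (nat_lit 5) (nat_lit 109) (nat_lit 5) (nat_lit 110) (nat_lit 4) (nat_lit 464) (nat_lit 381) (nat_lit 355)) (XT.lf (nat_lit 0) (nat_lit 1754056659) (nat_lit 228) (nat_lit 1713348702) (nat_lit 304) (nat_lit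 8100691434) (nat_lit 103) (nat_lit 5) (nat_lit 106) (nat_lit 5) (nat_lit 107) (nat_lit 5) (nat_lit 465) (nat_lit 381) (nat_lit 354)))) (XT.nd (nat_lit 156) (nat_lit 380) (nat_lit 0) (XT.nd (nat_lit 78) (nat_lit 228) (nat_lit 0) (XT.lf (nat_lit 0) (nat_lit 7925455978) (nat_lit 304) (nat_lit 1115023810) (nat_lit 76) (nat_lit 2716823304) (nat_lit 103) (nat_lit 5) (nat_lit 107) (nat_lit 5) (nat_lit 104) (nat_lit 4) (nat_lit 466) (nat_lit 381) (nat_lit 353)) (XT.lf (nat_lit 0) (nat_lit 574573397) (nat_lit 228) (nat_lit 4098663465) (nat_lit 76) (nat_lit 7278176449) (nat_lit 100) (nat_lit 5) (nat_lit 103) (nat_lit 5) (nat_lit 101) (nat_lit 5) (nat_lit 467) (nat_lit 381) (nat_lit 352))) (XT.nd (nat_lit 78) (nat_lit 152) (nat_lit 0) (XT.lf (nat_lit 0) (nat_lit 4895859455) (nat_lit 228) (nat_lit 126802524) (nat_lit 304) (nat_lit 7127958536) (nat_lit 97) (nat_lit 5) (nat_lit 100) (nat_lit 5) (nat_lit 101) (nat_lit 5) (nat_lit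 468) (nat_lit 381) (nat_lit 351)) (XT.lf (nat_lit 0) (nat_lit 1756267647) (nat_lit 152) (nat_lit 7878896133) (nat_lit 228) (nat_lit 2719717449) (nat_lit 95) (nat_lit 5) (nat_lit 97) (nat_lit 5) (nat_lit 98) (nat_lit 4) (nat_lit 469) (nat_lit 381) (nat_lit 350))))) (XT.nd (nat_lit 312) (nat_lit 380) (nat_lit 0) (XT.nd (nat_lit 156) (nat_lit 380) (nat_lit 0) (XT.nd (nat_lit 78) (nat_lit 228) (nat_lit 0) (XT.lf (nat_lit 0) (nat_lit 1789177760) (nat_lit 228) (nat_lit 1519899799) (nat_lit 76) (nat_lit 9255555078) (nat_lit 94) (nat_lit 5) (nat_lit 97) (nat_lit 5) (nat_lit 95) (nat_lit 5) (nat_lit 470) (nat_lit 381) (nat_lit 349)) (XT.lf (nat_lit 0) (nat_lit 6398745402) (nat_lit 304) (nat_lit 4956559213) (nat_lit 76) (nat_lit 1423967927) (nat_lit 91) (nat_lit 5) (nat_lit 95) (nat_lit 5) (nat_lit 92) (nat_lit 4) (nat_lit 471) (nat_lit 381) (nat_lit 348))) (XT.nd (nat_lit 78) (nat_lit 228) (nat_lit 0) (XT.lf (nat_lit 0)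 (nat_lit 4409522860) (nat_lit 152) (nat_lit 6758888486) (nat_lit 228) (nat_lit 1831291656) (nat_lit 89) (nat_lit 5) (nat_lit 91) (nat_lit 5) (nat_lit 92) (nat_lit 4) (nat_lit 472) (nat_lit 381) (nat_lit 347)) (XT.lf (nat_lit 0) (nat_lit 799954689) (nat_lit 152) (nat_lit 1988343808) (nat_lit 228) (nat_lit 10437942767) (nat_lit 86) (nat_lit 5) (nat_lit 88) (nat_lit 5) (nat_lit 89) (nat_lit 5) (nat_lit 473) (nat_lit 381) (nat_lit 346)))) (XT.nd (nat_lit 156) (nat_lit 228) (nat_lit 0) (XT.nd (nat_lit 78) (nat_lit 152) (nat_lit 0) (XT.lf (nat_lit 0) (nat_lit 7557087324) (nat_lit 228) (nat_lit 2977228055) (nat_lit 76) (nat_lit 2923299015) (nat_lit 86) (nat_lit 5) (nat_lit 89) (nat_lit 5) (nat_lit 87) (nat_lit 4) (nat_lit 474) (nat_lit 381) (nat_lit 345)) (XT.lf (nat_lit 0) (nat_lit 6749826009) (nat_lit 152) (nat_lit 5737368643) (nat_lit 228) (nat_lit 1208191485) (nat_lit 84) (nat_lit 5) (nat_lit 86) (nat_lit 5) (nat_lit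 87) (nat_lit 4) (nat_lit 475) (nat_lit 381) (nat_lit 344))) (XT.nd (nat_lit 78) (nat_lit 0) (nat_lit 0) (XT.lf (nat_lit 0) (nat_lit 2791999801) (nat_lit 152) (nat_lit 753224001) (nat_lit 228) (nat_lit 10394295308) (nat_lit 81) (nat_lit 5) (nat_lit 83) (nat_lit 5) (nat_lit 84) (nat_lit 5) (nat_lit 476) (nat_lit 381) (nat_lit 343)) (XT.lf (nat_lit 0) (nat_lit 8464056030) (nat_lit 228) (nat_lit 1397564527) (nat_lit 76) (nat_lit 4327588342) (nat_lit 81) (nat_lit 5) (nat_lit 84) (nat_lit 5) (nat_lit 82) (nat_lit 4) (nat_lit 477) (nat_lit 381) (nat_lit 342)))))) (XT.nd (nat_lit 624) (nat_lit 684) (nat_lit 0) (XT.nd (nat_lit 312) (nat_lit 608) (nat_lit 0) (XT.nd (nat_lit 156) (nat_lit 152) (nat_lit 0) (XT.nd (nat_lit 78) (nat_lit 228) (nat_lit 0) (XT.lf (nat_lit 0) (nat_lit 8692497815) (nat_lit 152) (nat_lit 4865047820) (nat_lit 228) (nat_lit 888035472) (nat_lit 79) (nat_lit 5) (nat_lit 81) (nat_lit 5) (nat_lit 82) (nat_lit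 4) (nat_lit 478) (nat_lit 381) (nat_lit 341)) (XT.lf (nat_lit 0) (nat_lit 4009604883) (nat_lit 228) (nat_lit 10376781635) (nat_lit 76) (nat_lit 322222465) (nat_lit 76) (nat_lit 5) (nat_lit 79) (nat_lit 5) (nat_lit 77) (nat_lit 4) (nat_lit 479) (nat_lit 381) (nat_lit 340))) (XT.nd (nat_lit 78) (nat_lit 152) (nat_lit 0) (XT.lf (nat_lit 0) (nat_lit 9079663525) (nat_lit 228) (nat_lit 313093192) (nat_lit 76) (nat_lit 5585211191) (nat_lit 76) (nat_lit 5) (nat_lit 79) (nat_lit 5) (nat_lit 77) (nat_lit 4) (nat_lit 480) (nat_lit 381) (nat_lit 339)) (XT.lf (nat_lit 0) (nat_lit 10138708033) (nat_lit 152) (nat_lit 4198923763) (nat_lit 228) (nat_lit 916705563) (nat_lit 74) (nat_lit 5) (nat_lit 76) (nat_lit 5) (nat_lit 77) (nat_lit 4) (nat_lit 481) (nat_lit 381) (nat_lit 338)))) (XT.nd (nat_lit 156) (nat_lit 228) (nat_lit 0) (XT.nd (nat_lit 78) (nat_lit 152) (nat_lit 0) (XT.lf (nat_lit 0) (nat_lit 4136458681) (nat_lit 228) (nat_lit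 10226383557) (nat_lit 76) (nat_lit 1174813464) (nat_lit 71) (nat_lit 5) (nat_lit 74) (nat_lit 5) (nat_lit 72) (nat_lit 4) (nat_lit 482) (nat_lit 381) (nat_lit 337)) (XT.lf (nat_lit 0) (nat_lit 168012888) (nat_lit 152) (nat_lit 9188861026) (nat_lit 228) (nat_lit 6471308622) (nat_lit 69) (nat_lit 5) (nat_lit 71) (nat_lit 5) (nat_lit 72) (nat_lit 4) (nat_lit 483) (nat_lit 381) (nat_lit 336))) (XT.nd (nat_lit 78) (nat_lit 228) (nat_lit 0) (XT.lf (nat_lit 0) (nat_lit 10972943788) (nat_lit 152) (nat_lit 3803665792) (nat_lit 228) (nat_lit 1349537905) (nat_lit 69) (nat_lit 5) (nat_lit 71) (nat_lit 5) (nat_lit 72) (nat_lit 4) (nat_lit 484) (nat_lit 381) (nat_lit 335)) (XT.lf (nat_lit 0) (nat_lit 3861227784) (nat_lit 228) (nat_lit 10817012877) (nat_lit 76) (nat_lit 1753323426) (nat_lit 66) (nat_lit 5) (nat_lit 69) (nat_lit 5) (nat_lit 67) (nat_lit 4) (nat_lit 485) (nat_lit 381) (nat_lit 334))))) (XT.nd (nat_lit 312) (nat_lit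 380) (nat_lit 0) (XT.nd (nat_lit 156) (nat_lit 228) (nat_lit 0) (XT.nd (nat_lit 78) (nat_lit 76) (nat_lit 0) (XT.lf (nat_lit 0) (nat_lit 9232245373) (nat_lit 228) (nat_lit 94251335) (nat_lit 76) (nat_lit 7418317275) (nat_lit 66) (nat_lit 5) (nat_lit 69) (nat_lit 5) (nat_lit 67) (nat_lit 4) (nat_lit 486) (nat_lit 381) (nat_lit 333)) (XT.lf (nat_lit 0) (nat_lit 11060086420) (nat_lit 76) (nat_lit 3753187243) (nat_lit 152) (nat_lit 2252724463) (nat_lit 65) (nat_lit 5) (nat_lit 66) (nat_lit 5) (nat_lit 67) (nat_lit 4) (nat_lit 487) (nat_lit 381) (nat_lit 332))) (XT.nd (nat_lit 78) (nat_lit 0) (nat_lit 0) (XT.lf (nat_lit 0) (nat_lit 3115407154) (nat_lit 228) (nat_lit 12297963617) (nat_lit 76) (nat_lit 1982169772) (nat_lit 62) (nat_lit 5) (nat_lit 65) (nat_lit 5) (nat_lit 63) (nat_lit 4) (nat_lit 488) (nat_lit 381) (nat_lit 331)) (XT.lf (nat_lit 0) (nat_lit 8640573509) (nat_lit 228) (nat_lit 1242162680) (nat_lit 76) (nat_lit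 7850328753) (nat_lit 62) (nat_lit 5) (nat_lit 65) (nat_lit 5) (nat_lit 63) (nat_lit 4) (nat_lit 489) (nat_lit 381) (nat_lit 330)))) (XT.nd (nat_lit 156) (nat_lit 76) (nat_lit 0) (XT.nd (nat_lit 78) (nat_lit 228) (nat_lit 0) (XT.lf (nat_lit 0) (nat_lit 10242031935) (nat_lit 76) (nat_lit 4132439521) (nat_lit 152) (nat_lit 3704957122) (nat_lit 61) (nat_lit 5) (nat_lit 62) (nat_lit 5) (nat_lit 63) (nat_lit 4) (nat_lit 490) (nat_lit 381) (nat_lit 329)) (XT.lf (nat_lit 0) (nat_lit 1817590055) (nat_lit 228) (nat_lit 14843525944) (nat_lit 76) (nat_lit 1774256720) (nat_lit 58) (nat_lit 5) (nat_lit 61) (nat_lit 5) (nat_lit 59) (nat_lit 4) (nat_lit 491) (nat_lit 381) (nat_lit 328))) (XT.nd (nat_lit 78) (nat_lit 76) (nat_lit 0) (XT.lf (nat_lit 0) (nat_lit 7496975574) (nat_lit 228) (nat_lit 3456786054) (nat_lit 76) (nat_lit 7845166802) (nat_lit 58) (nat_lit 5) (nat_lit 61) (nat_lit 5) (nat_lit 59) (nat_lit 4) (nat_lit 492)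 (nat_lit 381) (nat_lit 327)) (XT.lf (nat_lit 0) (nat_lit 8333780028) (nat_lit 76) (nat_lit 5039466902) (nat_lit 152) (nat_lit 5799351245) (nat_lit 57) (nat_lit 5) (nat_lit 58) (nat_lit 5) (nat_lit 59) (nat_lit 4) (nat_lit 493) (nat_lit 381) (nat_lit 326))))))))
noncomputable def xc56 : XT := (XT.nd (nat_lit 2340) (nat_lit 1140) (nat_lit 0) (XT.nd (nat_lit 1170) (nat_lit 836) (nat_lit 0) (XT.nd (nat_lit 546) (nat_lit 608) (nat_lit 0) (XT.nd (nat_lit 234) (nat_lit 304) (nat_lit 0) (XT.nd (nat_lit 78) (nat_lit 152) (nat_lit 0) (XT.lf (nat_lit 0) (nat_lit 899015481) (nat_lit 152) (nat_lit 18527354544) (nat_lit 152) (nat_lit 131093494) (nat_lit 55) (nat_lit 4) (nat_lit 57) (nat_lit 5) (nat_lit 57) (nat_lit 4) (nat_lit 494) (nat_lit 381) (nat_lit 325)) (XT.nd (nat_lit 78) (nat_lit 76) (nat_lit 0) (XT.lf (nat_lit 0) (nat_lit 5702902296) (nat_lit 228) (nat_lit 6945901240) (nat_lit 76) (nat_lit 7300215975) (nat_lit 54)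 (nat_lit 5) (nat_lit 57) (nat_lit 5) (nat_lit 55) (nat_lit 4) (nat_lit 495) (nat_lit 381) (nat_lit 324)) (XT.lf (nat_lit 0) (nat_lit 5118904893) (nat_lit 76) (nat_lit 6587767152) (nat_lit 152) (nat_lit 8645691743) (nat_lit 53) (nat_lit 5) (nat_lit 54) (nat_lit 5) (nat_lit 55) (nat_lit 4) (nat_lit 496) (nat_lit 381) (nat_lit 323)))) (XT.nd (nat_lit 156) (nat_lit 76) (nat_lit 0) (XT.nd (nat_lit 78) (nat_lit 228) (nat_lit 0) (XT.lf (nat_lit 0) (nat_lit 17591289906) (nat_lit 76) (nat_lit 318167074) (nat_lit 152) (nat_lit 2857786498) (nat_lit 53) (nat_lit 5) (nat_lit 54) (nat_lit 5) (nat_lit 55) (nat_lit 4) (nat_lit 497) (nat_lit 381) (nat_lit 322)) (XT.lf (nat_lit 0) (nat_lit 3142115219) (nat_lit 228) (nat_lit 11952285067) (nat_lit 76) (nat_lit 6096308497) (nat_lit 50) (nat_lit 5) (nat_lit 53) (nat_lit 5) (nat_lit 51) (nat_lit 4) (nat_lit 498) (nat_lit 381) (nat_lit 321))) (XT.nd (nat_lit 78) (nat_lit 0) (nat_lit 0)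 (XT.lf (nat_lit 0) (nat_lit 344307365) (nat_lit 76) (nat_lit 8909009785) (nat_lit 152) (nat_lit 12373051761) (nat_lit 49) (nat_lit 5) (nat_lit 50) (nat_lit 5) (nat_lit 51) (nat_lit 4) (nat_lit 499) (nat_lit 381) (nat_lit 320)) (XT.lf (nat_lit 0) (nat_lit 13160670716) (nat_lit 76) (nat_lit 2458327116) (nat_lit 152) (nat_lit 6453968638) (nat_lit 49) (nat_lit 5) (nat_lit 50) (nat_lit 5) (nat_lit 51) (nat_lit 4) (nat_lit 500) (nat_lit 381) (nat_lit 319))))) (XT.nd (nat_lit 312) (nat_lit 304) (nat_lit 0) (XT.nd (nat_lit 156) (nat_lit 76) (nat_lit 0) (XT.nd (nat_lit 78) (nat_lit 76) (nat_lit 0) (XT.lf (nat_lit 0) (nat_lit 3769457354) (nat_lit 152) (nat_lit 18434138326) (nat_lit 152) (nat_lit 328529726) (nat_lit 47) (nat_lit 4) (nat_lit 49) (nat_lit 5) (nat_lit 49) (nat_lit 4) (nat_lit 501) (nat_lit 381) (nat_lit 318)) (XT.lf (nat_lit 0) (nat_lit 5930727442) (nat_lit 228) (nat_lit 6163208019) (nat_lit 76) (nat_lit 10907397913)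 (nat_lit 46) (nat_lit 5) (nat_lit 49) (nat_lit 5) (nat_lit 47) (nat_lit 4) (nat_lit 502) (nat_lit 381) (nat_lit 317))) (XT.nd (nat_lit 78) (nat_lit 0) (nat_lit 0) (XT.lf (nat_lit 0) (nat_lit 6854957290) (nat_lit 76) (nat_lit 5535039556) (nat_lit 152) (nat_lit 11093959718) (nat_lit 45) (nat_lit 5) (nat_lit 46) (nat_lit 5) (nat_lit 47) (nat_lit 4) (nat_lit 503) (nat_lit 381) (nat_lit 316)) (XT.lf (nat_lit 0) (nat_lit 19070682455) (nat_lit 152) (nat_lit 3691434595) (nat_lit 0) (nat_lit 1218113902) (nat_lit 45) (nat_lit 5) (nat_lit 47) (nat_lit 4) (nat_lit 45) (nat_lit 4) (nat_lit 504) (nat_lit 381) (nat_lit 315)))) (XT.nd (nat_lit 156) (nat_lit 152) (nat_lit 0) (XT.nd (nat_lit 78) (nat_lit 0) (nat_lit 0) (XT.lf (nat_lit 0) (nat_lit 1535191146) (nat_lit 152) (nat_lit 14822292560) (nat_lit 76) (nat_lit 8130391461) (nat_lit 43) (nat_lit 5) (nat_lit 45) (nat_lit 5) (nat_lit 44) (nat_lit 4) (nat_lit 505) (nat_lit 381)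 (nat_lit 314)) (XT.lf (nat_lit 0) (nat_lit 8066709780) (nat_lit 152) (nat_lit 1646962192) (nat_lit 76) (nat_lit 15295856545) (nat_lit 43) (nat_lit 5) (nat_lit 45) (nat_lit 5) (nat_lit 44) (nat_lit 4) (nat_lit 506) (nat_lit 381) (nat_lit 313))) (XT.nd (nat_lit 78) (nat_lit 76) (nat_lit 0) (XT.lf (nat_lit 0) (nat_lit 12074453460) (nat_lit 76) (nat_lit 2791582247) (nat_lit 152) (nat_lit 10678641372) (nat_lit 42) (nat_lit 5) (nat_lit 43) (nat_lit 5) (nat_lit 44) (nat_lit 4) (nat_lit 507) (nat_lit 381) (nat_lit 312)) (XT.lf (nat_lit 0) (nat_lit 19520811) (nat_lit 76) (nat_lit 21864393552) (nat_lit 76) (nat_lit 4211529966) (nat_lit 41) (nat_lit 4) (nat_lit 42) (nat_lit 5) (nat_lit 42) (nat_lit 4) (nat_lit 508) (nat_lit 381) (nat_lit 311)))))) (XT.nd (nat_lit 546) (nat_lit 456) (nat_lit 0) (XT.nd (nat_lit 234) (nat_lit 228) (nat_lit 0) (XT.nd (nat_lit 78) (nat_lit 76) (nat_lit 0) (XT.lf (nat_lit 0) (nat_lit 2522735255)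 (nat_lit 152) (nat_lit 12606035145) (nat_lit 76) (nat_lit 11529630898) (nat_lit 40) (nat_lit 5) (nat_lit 42) (nat_lit 5) (nat_lit 41) (nat_lit 4) (nat_lit 509) (nat_lit 381) (nat_lit 310)) (XT.nd (nat_lit 78) (nat_lit 0) (nat_lit 0) (XT.lf (nat_lit 0) (nat_lit 1166557044) (nat_lit 76) (nat_lit 8176252859) (nat_lit 152) (nat_lit 17895134551) (nat_lit 39) (nat_lit 5) (nat_lit 40) (nat_lit 5) (nat_lit 41) (nat_lit 4) (nat_lit 510) (nat_lit 381) (nat_lit 309)) (XT.lf (nat_lit 0) (nat_lit 15529088529) (nat_lit 76) (nat_lit 923371178) (nat_lit 152) (nat_lit 11379866271) (nat_lit 39) (nat_lit 5) (nat_lit 40) (nat_lit 5) (nat_lit 41) (nat_lit 4) (nat_lit 511) (nat_lit 381) (nat_lit 308)))) (XT.nd (nat_lit 156) (nat_lit 76) (nat_lit 0) (XT.nd (nat_lit 78) (nat_lit 76) (nat_lit 0) (XT.lf (nat_lit 0) (nat_lit 1769411289) (nat_lit 76) (nat_lit 22044473460) (nat_lit 76) (nat_lit 4629500854) (nat_lit 38) (nat_lit 4) (nat_lit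 39) (nat_lit 5) (nat_lit 39) (nat_lit 4) (nat_lit 512) (nat_lit 381) (nat_lit 307)) (XT.lf (nat_lit 0) (nat_lit 2371228905) (nat_lit 152) (nat_lit 12665490572) (nat_lit 76) (nat_lit 14032592957) (nat_lit 37) (nat_lit 5) (nat_lit 39) (nat_lit 5) (nat_lit 38) (nat_lit 4) (nat_lit 513) (nat_lit 381) (nat_lit 306))) (XT.nd (nat_lit 78) (nat_lit 0) (nat_lit 0) (XT.lf (nat_lit 0) (nat_lit 1672198521) (nat_lit 76) (nat_lit 7792594118) (nat_lit 152) (nat_lit 20248574639) (nat_lit 36) (nat_lit 5) (nat_lit 37) (nat_lit 5) (nat_lit 38) (nat_lit 4) (nat_lit 514) (nat_lit 381) (nat_lit 305)) (XT.lf (nat_lit 0) (nat_lit 16622568460) (nat_lit 76) (nat_lit 236708049) (nat_lit 152) (nat_lit 13514824950) (nat_lit 36) (nat_lit 5) (nat_lit 37) (nat_lit 5) (nat_lit 38) (nat_lit 4) (nat_lit 515) (nat_lit 381) (nat_lit 304))))) (XT.nd (nat_lit 312) (nat_lit 228) (nat_lit 0) (XT.nd (nat_lit 156) (nat_lit 76) (nat_lit 0) (XT.nd (nat_lit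 78) (nat_lit 76) (nat_lit 0) (XT.lf (nat_lit 0) (nat_lit 834901760) (nat_lit 76) (nat_lit 23682281359) (nat_lit 76) (nat_lit 6536227956) (nat_lit 35) (nat_lit 4) (nat_lit 36) (nat_lit 5) (nat_lit 36) (nat_lit 4) (nat_lit 516) (nat_lit 381) (nat_lit 303)) (XT.lf (nat_lit 0) (nat_lit 742651056) (nat_lit 152) (nat_lit 15693775889) (nat_lit 76) (nat_lit 15313376836) (nat_lit 34) (nat_lit 5) (nat_lit 36) (nat_lit 5) (nat_lit 35) (nat_lit 4) (nat_lit 517) (nat_lit 381) (nat_lit 302))) (XT.nd (nat_lit 78) (nat_lit 76) (nat_lit 0) (XT.lf (nat_lit 0) (nat_lit 8070718514) (nat_lit 152) (nat_lit 871492281) (nat_lit 76) (nat_lit 23524071175) (nat_lit 34) (nat_lit 5) (nat_lit 36) (nat_lit 5) (nat_lit 35) (nat_lit 4) (nat_lit 518) (nat_lit 381) (nat_lit 301)) (XT.lf (nat_lit 0) (nat_lit 14609201378) (nat_lit 76) (nat_lit 1113154134) (nat_lit 152) (nat_lit 17478788104) (nat_lit 33) (nat_lit 5) (nat_lit 34) (nat_lit 5) (nat_lit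 35) (nat_lit 4) (nat_lit 519) (nat_lit 381) (nat_lit 300)))) (XT.nd (nat_lit 156) (nat_lit 152) (nat_lit 0) (XT.nd (nat_lit 78) (nat_lit 76) (nat_lit 0) (XT.lf (nat_lit 0) (nat_lit 23642599293) (nat_lit 152) (nat_lit 3523906393) (nat_lit 0) (nat_lit 6790374607) (nat_lit 33) (nat_lit 5) (nat_lit 35) (nat_lit 4) (nat_lit 33) (nat_lit 4) (nat_lit 520) (nat_lit 381) (nat_lit 299)) (XT.lf (nat_lit 0) (nat_lit 12152979493) (nat_lit 76) (nat_lit 19739736505) (nat_lit 76) (nat_lit 2839805989) (nat_lit 32) (nat_lit 4) (nat_lit 33) (nat_lit 5) (nat_lit 33) (nat_lit 4) (nat_lit 521) (nat_lit 381) (nat_lit 298))) (XT.nd (nat_lit 78) (nat_lit 76) (nat_lit 0) (XT.lf (nat_lit 0) (nat_lit 4764474921) (nat_lit 152) (nat_lit 7274362764) (nat_lit 76) (nat_lit 23491183289) (nat_lit 31) (nat_lit 5) (nat_lit 33) (nat_lit 5) (nat_lit 32) (nat_lit 4) (nat_lit 522) (nat_lit 381) (nat_lit 297)) (XT.lf (nat_lit 0) (nat_lit 8561595976) (nat_lit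 76) (nat_lit 4025995230) (nat_lit 152) (nat_lit 23761577499) (nat_lit 30) (nat_lit 5) (nat_lit 31) (nat_lit 5) (nat_lit 32) (nat_lit 4) (nat_lit 523) (nat_lit 381) (nat_lit 296))))))) (XT.nd (nat_lit 1170) (nat_lit 456) (nat_lit 0) (XT.nd (nat_lit 546) (nat_lit 380) (nat_lit 0) (XT.nd (nat_lit 234) (nat_lit 228) (nat_lit 0) (XT.nd (nat_lit 78) (nat_lit 76) (nat_lit 0) (XT.lf (nat_lit 0) (nat_lit 20725756641) (nat_lit 152) (nat_lit 12277678153) (nat_lit 0) (nat_lit 4187046190) (nat_lit 30) (nat_lit 5) (nat_lit 32) (nat_lit 4) (nat_lit 30) (nat_lit 4) (nat_lit 524) (nat_lit 381) (nat_lit 295)) (XT.nd (nat_lit 78) (nat_lit 0) (nat_lit 0) (XT.lf (nat_lit 0) (nat_lit 3663727216) (nat_lit 76) (nat_lit 25485959750) (nat_lit 76) (nat_lit 8906097832) (nat_lit 29) (nat_lit 4) (nat_lit 30) (nat_lit 5) (nat_lit 30) (nat_lit 4) (nat_lit 525) (nat_lit 381) (nat_lit 294)) (XT.lf (nat_lit 0) (nat_lit 20270279241) (nat_lit 76)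 (nat_lit 17646928918) (nat_lit 76) (nat_lit 1027114119) (nat_lit 29) (nat_lit 4) (nat_lit 30) (nat_lit 5) (nat_lit 30) (nat_lit 4) (nat_lit 526) (nat_lit 381) (nat_lit 293)))) (XT.nd (nat_lit 156) (nat_lit 76) (nat_lit 0) (XT.nd (nat_lit 78) (nat_lit 76) (nat_lit 0) (XT.lf (nat_lit 0) (nat_lit 6917459852) (nat_lit 152) (nat_lit 2616160502) (nat_lit 76) (nat_lit 30324825998) (nat_lit 28) (nat_lit 5) (nat_lit 30) (nat_lit 5) (nat_lit 29) (nat_lit 4) (nat_lit 527) (nat_lit 381) (nat_lit 292)) (XT.lf (nat_lit 0) (nat_lit 14127277740) (nat_lit 76) (nat_lit 1056732686) (nat_lit 152) (nat_lit 25612550816) (nat_lit 27) (nat_lit 5) (nat_lit 28) (nat_lit 5) (nat_lit 29) (nat_lit 4) (nat_lit 528) (nat_lit 381) (nat_lit 291))) (XT.nd (nat_lit 78) (nat_lit 76) (nat_lit 0) (XT.lf (nat_lit 0) (nat_lit 23767535568) (nat_lit 152) (nat_lit 10471141867) (nat_lit 0) (nat_lit 7522073460) (nat_lit 27) (nat_lit 5) (nat_lit 29) (nat_lit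 4) (nat_lit 27) (nat_lit 4) (nat_lit 529) (nat_lit 381) (nat_lit 290)) (XT.lf (nat_lit 0) (nat_lit 6264798545) (nat_lit 76) (nat_lit 26383895165) (nat_lit 76) (nat_lit 10103969351) (nat_lit 26) (nat_lit 4) (nat_lit 27) (nat_lit 5) (nat_lit 27) (nat_lit 4) (nat_lit 530) (nat_lit 381) (nat_lit 289))))) (XT.nd (nat_lit 312) (nat_lit 228) (nat_lit 0) (XT.nd (nat_lit 156) (nat_lit 76) (nat_lit 0) (XT.nd (nat_lit 78) (nat_lit 76) (nat_lit 0) (XT.lf (nat_lit 0) (nat_lit 23658121321) (nat_lit 76) (nat_lit 18213666291) (nat_lit 76) (nat_lit 1900280569) (nat_lit 26) (nat_lit 4) (nat_lit 27) (nat_lit 5) (nat_lit 27) (nat_lit 4) (nat_lit 531) (nat_lit 381) (nat_lit 288)) (XT.lf (nat_lit 0) (nat_lit 6392066630) (nat_lit 152) (nat_lit 3369975811) (nat_lit 76) (nat_lit 35059014286) (nat_lit 25) (nat_lit 5) (nat_lit 27) (nat_lit 5) (nat_lit 26) (nat_lit 4) (nat_lit 532) (nat_lit 381) (nat_lit 287))) (XT.nd (nat_lit 78) (nat_lit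 0) (nat_lit 0) (XT.lf (nat_lit 0) (nat_lit 14075655619) (nat_lit 76) (nat_lit 925854657) (nat_lit 152) (nat_lit 30896245187) (nat_lit 24) (nat_lit 5) (nat_lit 25) (nat_lit 5) (nat_lit 26) (nat_lit 4) (nat_lit 533) (nat_lit 381) (nat_lit 286)) (XT.lf (nat_lit 0) (nat_lit 23953443807) (nat_lit 152) (nat_lit 15027468893) (nat_lit 0) (nat_lit 8023316817) (nat_lit 24) (nat_lit 5) (nat_lit 26) (nat_lit 4) (nat_lit 24) (nat_lit 4) (nat_lit 534) (nat_lit 381) (nat_lit 285)))) (XT.nd (nat_lit 156) (nat_lit 152) (nat_lit 0) (XT.nd (nat_lit 78) (nat_lit 0) (nat_lit 0) (XT.lf (nat_lit 0) (nat_lit 2250855662) (nat_lit 76) (nat_lit 30925972835) (nat_lit 76) (nat_lit 14966983034) (nat_lit 23) (nat_lit 4) (nat_lit 24) (nat_lit 5) (nat_lit 24) (nat_lit 4) (nat_lit 535) (nat_lit 381) (nat_lit 284)) (XT.lf (nat_lit 0) (nat_lit 20301215829) (nat_lit 76) (nat_lit 22499826903) (nat_lit 76) (nat_lit 6512814955) (nat_lit 23) (nat_lit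 4) (nat_lit 24) (nat_lit 5) (nat_lit 24) (nat_lit 4) (nat_lit 536) (nat_lit 381) (nat_lit 283))) (XT.nd (nat_lit 78) (nat_lit 76) (nat_lit 0) (XT.lf (nat_lit 0) (nat_lit 2125064739) (nat_lit 152) (nat_lit 11700336494) (nat_lit 76) (nat_lit 36693783944) (nat_lit 22) (nat_lit 5) (nat_lit 24) (nat_lit 5) (nat_lit 23) (nat_lit 4) (nat_lit 537) (nat_lit 381) (nat_lit 282)) (XT.lf (nat_lit 0) (nat_lit 6134801152) (nat_lit 76) (nat_lit 4789057285) (nat_lit 152) (nat_lit 40833899669) (nat_lit 21) (nat_lit 5) (nat_lit 22) (nat_lit 5) (nat_lit 23) (nat_lit 4) (nat_lit 538) (nat_lit 381) (nat_lit 281)))))) (XT.nd (nat_lit 546) (nat_lit 228) (nat_lit 0) (XT.nd (nat_lit 234) (nat_lit 152) (nat_lit 0) (XT.nd (nat_lit 78) (nat_lit 76) (nat_lit 0) (XT.lf (nat_lit 0) (nat_lit 20123107374) (nat_lit 152) (nat_lit 28381505127) (nat_lit 0) (nat_lit 4524781441) (nat_lit 21) (nat_lit 5) (nat_lit 23) (nat_lit 4) (nat_lit 21) (nat_lit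 4) (nat_lit 539) (nat_lit 381) (nat_lit 280)) (XT.nd (nat_lit 78) (nat_lit 76) (nat_lit 0) (XT.lf (nat_lit 0) (nat_lit 29620252865) (nat_lit 152) (nat_lit 10720514080) (nat_lit 0) (nat_lit 13997754783) (nat_lit 21) (nat_lit 5) (nat_lit 23) (nat_lit 4) (nat_lit 21) (nat_lit 4) (nat_lit 540) (nat_lit 381) (nat_lit 279)) (XT.lf (nat_lit 0) (nat_lit 7569185541) (nat_lit 76) (nat_lit 31881132142) (nat_lit 76) (nat_lit 16235165953) (nat_lit 20) (nat_lit 4) (nat_lit 21) (nat_lit 5) (nat_lit 21) (nat_lit 4) (nat_lit 541) (nat_lit 381) (nat_lit 278)))) (XT.nd (nat_lit 156) (nat_lit 76) (nat_lit 0) (XT.nd (nat_lit 78) (nat_lit 76) (nat_lit 0) (XT.lf (nat_lit 0) (nat_lit 26578991610) (nat_lit 76) (nat_lit 23080050618) (nat_lit 76) (nat_lit 7411299860) (nat_lit 20) (nat_lit 4) (nat_lit 21) (nat_lit 5) (nat_lit 21) (nat_lit 4) (nat_lit 542) (nat_lit 381) (nat_lit 277)) (XT.lf (nat_lit 0) (nat_lit 1620531659) (nat_lit 152) (nat_lit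 12401192432) (nat_lit 76) (nat_lit 44475259533) (nat_lit 19) (nat_lit 5) (nat_lit 21) (nat_lit 5) (nat_lit 20) (nat_lit 4) (nat_lit 543) (nat_lit 381) (nat_lit 276))) (XT.nd (nat_lit 78) (nat_lit 0) (nat_lit 0) (XT.lf (nat_lit 0) (nat_lit 6233903137) (nat_lit 76) (nat_lit 4577058182) (nat_lit 152) (nat_lit 49152164007) (nat_lit 18) (nat_lit 5) (nat_lit 19) (nat_lit 5) (nat_lit 20) (nat_lit 4) (nat_lit 544) (nat_lit 381) (nat_lit 275)) (XT.lf (nat_lit 0) (nat_lit 20429789210) (nat_lit 152) (nat_lit 35884043598) (nat_lit 0) (nat_lit 5154838287) (nat_lit 18) (nat_lit 5) (nat_lit 20) (nat_lit 4) (nat_lit 18) (nat_lit 4) (nat_lit 545) (nat_lit 381) (nat_lit 274))))) (XT.nd (nat_lit 312) (nat_lit 152) (nat_lit 0) (XT.nd (nat_lit 156) (nat_lit 0) (nat_lit 0) (XT.nd (nat_lit 78) (nat_lit 76) (nat_lit 0) (XT.lf (nat_lit 0) (nat_lit 30359881552) (nat_lit 152) (nat_lit 17593544601) (nat_lit 0) (nat_lit 15065276459) (nat_lit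 18) (nat_lit 5) (nat_lit 20) (nat_lit 4) (nat_lit 18) (nat_lit 4) (nat_lit 546) (nat_lit 381) (nat_lit 273)) (XT.lf (nat_lit 0) (nat_lit 1226181491) (nat_lit 76) (nat_lit 39351522958) (nat_lit 76) (nat_lit 24037836147) (nat_lit 17) (nat_lit 4) (nat_lit 18) (nat_lit 5) (nat_lit 18) (nat_lit 4) (nat_lit 547) (nat_lit 381) (nat_lit 272))) (XT.nd (nat_lit 78) (nat_lit 0) (nat_lit 0) (XT.lf (nat_lit 0) (nat_lit 20928160328) (nat_lit 76) (nat_lit 30329829329) (nat_lit 76) (nat_lit 14997616577) (nat_lit 17) (nat_lit 4) (nat_lit 18) (nat_lit 5) (nat_lit 18) (nat_lit 4) (nat_lit 548) (nat_lit 381) (nat_lit 271)) (XT.lf (nat_lit 0) (nat_lit 41179461196) (nat_lit 76) (nat_lit 21058122536) (nat_lit 76) (nat_lit 5707923434) (nat_lit 17) (nat_lit 4) (nat_lit 18) (nat_lit 5) (nat_lit 18) (nat_lit 4) (nat_lit 549) (nat_lit 381) (nat_lit 270)))) (XT.nd (nat_lit 156) (nat_lit 0) (nat_lit 0) (XT.nd (nat_lit 78) (nat_lit 76) (nat_lit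 0) (XT.lf (nat_lit 0) (nat_lit 3764440737) (nat_lit 152) (nat_lit 7725846879) (nat_lit 76) (nat_lit 58195325199) (nat_lit 16) (nat_lit 5) (nat_lit 18) (nat_lit 5) (nat_lit 17) (nat_lit 4) (nat_lit 550) (nat_lit 381) (nat_lit 269)) (XT.lf (nat_lit 0) (nat_lit 12023932839) (nat_lit 76) (nat_lit 1477815079) (nat_lit 152) (nat_lit 57971613727) (nat_lit 15) (nat_lit 5) (nat_lit 16) (nat_lit 5) (nat_lit 17) (nat_lit 4) (nat_lit 551) (nat_lit 381) (nat_lit 268))) (XT.nd (nat_lit 78) (nat_lit 0) (nat_lit 0) (XT.lf (nat_lit 0) (nat_lit 23674824240) (nat_lit 152) (nat_lit 40913285739) (nat_lit 0) (nat_lit 8722323760) (nat_lit 15) (nat_lit 5) (nat_lit 17) (nat_lit 4) (nat_lit 15) (nat_lit 4) (nat_lit 552) (nat_lit 381) (nat_lit 267)) (XT.lf (nat_lit 0) (nat_lit 34148242991) (nat_lit 152) (nat_lit 21874293461) (nat_lit 0) (nat_lit 19180227328) (nat_lit 15) (nat_lit 5) (nat_lit 17) (nat_lit 4) (nat_lit 15) (nat_lit 4) (nat_lit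 553) (nat_lit 381) (nat_lit 266))))))))
noncomputable def xc57 : XT := (XT.nd (nat_lit 2340) (nat_lit 3952) (nat_lit 0) (XT.nd (nat_lit 1170) (nat_lit 3192) (nat_lit 0) (XT.nd (nat_lit 546) (nat_lit 2736) (nat_lit 0) (XT.nd (nat_lit 234) (nat_lit 1444) (nat_lit 0) (XT.nd (nat_lit 78) (nat_lit 456) (nat_lit 0) (XT.lf (nat_lit 0) (nat_lit 29140395) (nat_lit 532) (nat_lit 3865387731) (nat_lit 0) (nat_lit 29140395) (nat_lit 209) (nat_lit 5) (nat_lit 216) (nat_lit 4) (nat_lit 209) (nat_lit 4) (nat_lit 436) (nat_lit 382) (nat_lit 382)) (XT.nd (nat_lit 78) (nat_lit 456) (nat_lit 0) (XT.lf (nat_lit 0) (nat_lit 3886090695) (nat_lit 532) (nat_lit 1424517302) (nat_lit 0) (nat_lit 2616968646) (nat_lit 209) (nat_lit 5) (nat_lit 216) (nat_lit 4) (nat_lit 209) (nat_lit 4) (nat_lit 437) (nat_lit 382) (nat_lit 381)) (XT.lf (nat_lit 0) (nat_lit 5043003107) (nat_lit 456) (nat_lit 2735021926) (nat_lit 456) (nat_lit 233742549) (nat_lit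 203) (nat_lit 4) (nat_lit 209) (nat_lit 5) (nat_lit 209) (nat_lit 4) (nat_lit 438) (nat_lit 382) (nat_lit 380)))) (XT.nd (nat_lit 156) (nat_lit 456) (nat_lit 0) (XT.nd (nat_lit 78) (nat_lit 456) (nat_lit 0) (XT.lf (nat_lit 0) (nat_lit 3542145960) (nat_lit 456) (nat_lit 24206053) (nat_lit 532) (nat_lit 4532587482) (nat_lit 196) (nat_lit 5) (nat_lit 202) (nat_lit 5) (nat_lit 203) (nat_lit 4) (nat_lit 439) (nat_lit 382) (nat_lit 379)) (XT.lf (nat_lit 0) (nat_lit 2002800076) (nat_lit 456) (nat_lit 5451979339) (nat_lit 456) (nat_lit 734527799) (nat_lit 190) (nat_lit 4) (nat_lit 196) (nat_lit 5) (nat_lit 196) (nat_lit 4) (nat_lit 440) (nat_lit 382) (nat_lit 378))) (XT.nd (nat_lit 78) (nat_lit 0) (nat_lit 0) (XT.lf (nat_lit 0) (nat_lit 419373316) (nat_lit 380) (nat_lit 2650370863) (nat_lit 456) (nat_lit 5213116952) (nat_lit 184) (nat_lit 5) (nat_lit 189) (nat_lit 5) (nat_lit 190) (nat_lit 4) (nat_lit 441) (nat_lit 382)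 (nat_lit 377)) (XT.lf (nat_lit 0) (nat_lit 6943529215) (nat_lit 456) (nat_lit 1167691893) (nat_lit 0) (nat_lit 268697075) (nat_lit 184) (nat_lit 5) (nat_lit 190) (nat_lit 4) (nat_lit 184) (nat_lit 4) (nat_lit 442) (nat_lit 382) (nat_lit 376))))) (XT.nd (nat_lit 312) (nat_lit 1140) (nat_lit 0) (XT.nd (nat_lit 156) (nat_lit 760) (nat_lit 0) (XT.nd (nat_lit 78) (nat_lit 380) (nat_lit 0) (XT.lf (nat_lit 0) (nat_lit 2394107364) (nat_lit 456) (nat_lit 2816650855) (nat_lit 76) (nat_lit 3268788816) (nat_lit 178) (nat_lit 5) (nat_lit 184) (nat_lit 5) (nat_lit 179) (nat_lit 4) (nat_lit 443) (nat_lit 382) (nat_lit 375)) (XT.lf (nat_lit 0) (nat_lit 4078531766) (nat_lit 380) (nat_lit 2191368206) (nat_lit 456) (nat_lit 2313078104) (nat_lit 173) (nat_lit 5) (nat_lit 178) (nat_lit 5) (nat_lit 179) (nat_lit 4) (nat_lit 444) (nat_lit 382) (nat_lit 374))) (XT.nd (nat_lit 78) (nat_lit 304) (nat_lit 0) (XT.lf (nat_lit 0) (nat_lit 1511924092)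 (nat_lit 456) (nat_lit 6245076782) (nat_lit 76) (nat_lit 932969601) (nat_lit 167) (nat_lit 5) (nat_lit 173) (nat_lit 5) (nat_lit 168) (nat_lit 4) (nat_lit 445) (nat_lit 382) (nat_lit 373)) (XT.lf (nat_lit 0) (nat_lit 736631827) (nat_lit 304) (nat_lit 4653048561) (nat_lit 380) (nat_lit 3410286399) (nat_lit 163) (nat_lit 5) (nat_lit 167) (nat_lit 5) (nat_lit 168) (nat_lit 4) (nat_lit 446) (nat_lit 382) (nat_lit 372)))) (XT.nd (nat_lit 156) (nat_lit 684) (nat_lit 0) (XT.nd (nat_lit 78) (nat_lit 380) (nat_lit 0) (XT.lf (nat_lit 0) (nat_lit 435298870) (nat_lit 380) (nat_lit 990181382) (nat_lit 76) (nat_lit 7488442947) (nat_lit 162) (nat_lit 5) (nat_lit 167) (nat_lit 5) (nat_lit 163) (nat_lit 5) (nat_lit 447) (nat_lit 382) (nat_lit 371)) (XT.lf (nat_lit 0) (nat_lit 4319573969) (nat_lit 456) (nat_lit 2792108439) (nat_lit 76) (nat_lit 1918861639) (nat_lit 157) (nat_lit 5) (nat_lit 163) (nat_lit 5) (nat_lit 158) (nat_lit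 4) (nat_lit 448) (nat_lit 382) (nat_lit 370))) (XT.nd (nat_lit 78) (nat_lit 380) (nat_lit 0) (XT.lf (nat_lit 0) (nat_lit 4500774680) (nat_lit 304) (nat_lit 3800946097) (nat_lit 380) (nat_lit 849516682) (nat_lit 153) (nat_lit 5) (nat_lit 157) (nat_lit 5) (nat_lit 158) (nat_lit 4) (nat_lit 449) (nat_lit 382) (nat_lit 369)) (XT.lf (nat_lit 0) (nat_lit 2689958472) (nat_lit 304) (nat_lit 345436217) (nat_lit 380) (nat_lit 6240208966) (nat_lit 148) (nat_lit 5) (nat_lit 152) (nat_lit 5) (nat_lit 153) (nat_lit 5) (nat_lit 450) (nat_lit 382) (nat_lit 368)))))) (XT.nd (nat_lit 546) (nat_lit 1596) (nat_lit 0) (XT.nd (nat_lit 234) (nat_lit 912) (nat_lit 0) (XT.nd (nat_lit 78) (nat_lit 380) (nat_lit 0) (XT.lf (nat_lit 0) (nat_lit 791241641) (nat_lit 304) (nat_lit 6229664451) (nat_lit 380) (nat_lit 2382521633) (nat_lit 144) (nat_lit 5) (nat_lit 148) (nat_lit 5) (nat_lit 149) (nat_lit 4) (nat_lit 451) (nat_lit 382) (nat_lit 367))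 (XT.nd (nat_lit 78) (nat_lit 304) (nat_lit 0) (XT.lf (nat_lit 0) (nat_lit 1546047491) (nat_lit 380) (nat_lit 1156524770) (nat_lit 76) (nat_lit 6832481903) (nat_lit 143) (nat_lit 5) (nat_lit 148) (nat_lit 5) (nat_lit 144) (nat_lit 5) (nat_lit 452) (nat_lit 382) (nat_lit 366)) (XT.lf (nat_lit 0) (nat_lit 5534538089) (nat_lit 380) (nat_lit 3178572603) (nat_lit 76) (nat_lit 957124429) (nat_lit 139) (nat_lit 5) (nat_lit 144) (nat_lit 5) (nat_lit 140) (nat_lit 4) (nat_lit 453) (nat_lit 382) (nat_lit 365)))) (XT.nd (nat_lit 156) (nat_lit 304) (nat_lit 0) (XT.nd (nat_lit 78) (nat_lit 380) (nat_lit 0) (XT.lf (nat_lit 0) (nat_lit 4519650074) (nat_lit 228) (nat_lit 5123891142) (nat_lit 304) (nat_lit 165916138) (nat_lit 136) (nat_lit 5) (nat_lit 139) (nat_lit 5) (nat_lit 140) (nat_lit 4) (nat_lit 454) (nat_lit 382) (nat_lit 364)) (XT.lf (nat_lit 0) (nat_lit 2445842965) (nat_lit 304) (nat_lit 1375715449) (nat_lit 380) (nat_lit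 6130922919) (nat_lit 131) (nat_lit 5) (nat_lit 135) (nat_lit 5) (nat_lit 136) (nat_lit 5) (nat_lit 455) (nat_lit 382) (nat_lit 363))) (XT.nd (nat_lit 78) (nat_lit 76) (nat_lit 0) (XT.lf (nat_lit 0) (nat_lit 276470514) (nat_lit 228) (nat_lit 7649287262) (nat_lit 304) (nat_lit 2173986513) (nat_lit 128) (nat_lit 5) (nat_lit 131) (nat_lit 5) (nat_lit 132) (nat_lit 4) (nat_lit 456) (nat_lit 382) (nat_lit 362)) (XT.lf (nat_lit 0) (nat_lit 1875003723) (nat_lit 304) (nat_lit 1961877155) (nat_lit 76) (nat_lit 6413692229) (nat_lit 127) (nat_lit 5) (nat_lit 131) (nat_lit 5) (nat_lit 128) (nat_lit 5) (nat_lit 457) (nat_lit 382) (nat_lit 361))))) (XT.nd (nat_lit 312) (nat_lit 760) (nat_lit 0) (XT.nd (nat_lit 156) (nat_lit 304) (nat_lit 0) (XT.nd (nat_lit 78) (nat_lit 228) (nat_lit 0) (XT.lf (nat_lit 0) (nat_lit 5984318529) (nat_lit 380) (nat_lit 4297334718) (nat_lit 76) (nat_lit 124161006) (nat_lit 123) (nat_lit 5) (nat_lit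 128) (nat_lit 5) (nat_lit 124) (nat_lit 4) (nat_lit 458) (nat_lit 382) (nat_lit 360)) (XT.lf (nat_lit 0) (nat_lit 3808195798) (nat_lit 228) (nat_lit 6426562138) (nat_lit 304) (nat_lit 330428759) (nat_lit 120) (nat_lit 5) (nat_lit 123) (nat_lit 5) (nat_lit 124) (nat_lit 4) (nat_lit 459) (nat_lit 382) (nat_lit 359))) (XT.nd (nat_lit 78) (nat_lit 0) (nat_lit 0) (XT.lf (nat_lit 0) (nat_lit 1381859917) (nat_lit 228) (nat_lit 2406378736) (nat_lit 304) (nat_lit 6940571243) (nat_lit 116) (nat_lit 5) (nat_lit 119) (nat_lit 5) (nat_lit 120) (nat_lit 5) (nat_lit 460) (nat_lit 382) (nat_lit 358)) (XT.lf (nat_lit 0) (nat_lit 8033530191) (nat_lit 304) (nat_lit 1137411780) (nat_lit 76) (nat_lit 1726019130) (nat_lit 116) (nat_lit 5) (nat_lit 120) (nat_lit 5) (nat_lit 117) (nat_lit 4) (nat_lit 461) (nat_lit 382) (nat_lit 357)))) (XT.nd (nat_lit 156) (nat_lit 228) (nat_lit 0) (XT.nd (nat_lit 78) (nat_lit 228) (nat_lit 0) (XT.lf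 (nat_lit 0) (nat_lit 1330635224) (nat_lit 304) (nat_lit 3766493592) (nat_lit 76) (nat_lit 5972030401) (nat_lit 112) (nat_lit 5) (nat_lit 116) (nat_lit 5) (nat_lit 113) (nat_lit 5) (nat_lit 462) (nat_lit 382) (nat_lit 356)) (XT.lf (nat_lit 0) (nat_lit 4715098397) (nat_lit 228) (nat_lit 861395767) (nat_lit 304) (nat_lit 5669680785) (nat_lit 109) (nat_lit 5) (nat_lit 112) (nat_lit 5) (nat_lit 113) (nat_lit 5) (nat_lit 463) (nat_lit 382) (nat_lit 355))) (XT.nd (nat_lit 78) (nat_lit 76) (nat_lit 0) (XT.lf (nat_lit 0) (nat_lit 1983604146) (nat_lit 152) (nat_lit 7984380528) (nat_lit 228) (nat_lit 1459976462) (nat_lit 107) (nat_lit 5) (nat_lit 109) (nat_lit 5) (nat_lit 110) (nat_lit 4) (nat_lit 464) (nat_lit 382) (nat_lit 354)) (XT.lf (nat_lit 0) (nat_lit 2822391528) (nat_lit 228) (nat_lit 884756681) (nat_lit 76) (nat_lit 7907155713) (nat_lit 106) (nat_lit 5) (nat_lit 109) (nat_lit 5) (nat_lit 107) (nat_lit 5) (nat_lit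 465) (nat_lit 382) (nat_lit 353))))))) (XT.nd (nat_lit 1170) (nat_lit 1672) (nat_lit 0) (XT.nd (nat_lit 546) (nat_lit 988) (nat_lit 0) (XT.nd (nat_lit 234) (nat_lit 608) (nat_lit 0) (XT.nd (nat_lit 78) (nat_lit 456) (nat_lit 0) (XT.lf (nat_lit 0) (nat_lit 7216968611) (nat_lit 304) (nat_lit 3859151982) (nat_lit 76) (nat_lit 729297285) (nat_lit 103) (nat_lit 5) (nat_lit 107) (nat_lit 5) (nat_lit 104) (nat_lit 4) (nat_lit 466) (nat_lit 382) (nat_lit 352)) (XT.nd (nat_lit 78) (nat_lit 304) (nat_lit 0) (XT.lf (nat_lit 0) (nat_lit 4999912663) (nat_lit 152) (nat_lit 6767199250) (nat_lit 228) (nat_lit 234448273) (nat_lit 101) (nat_lit 5) (nat_lit 103) (nat_lit 5) (nat_lit 104) (nat_lit 4) (nat_lit 467) (nat_lit 382) (nat_lit 351)) (XT.lf (nat_lit 0) (nat_lit 1877386907) (nat_lit 228) (nat_lit 2277406095) (nat_lit 304) (nat_lit 8047947823) (nat_lit 97) (nat_lit 5) (nat_lit 100) (nat_lit 5) (nat_lit 101) (nat_lit 5) (nat_lit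 468) (nat_lit 382) (nat_lit 350)))) (XT.nd (nat_lit 156) (nat_lit 380) (nat_lit 0) (XT.nd (nat_lit 78) (nat_lit 228) (nat_lit 0) (XT.lf (nat_lit 0) (nat_lit 8695541229) (nat_lit 304) (nat_lit 1386975838) (nat_lit 76) (nat_lit 2326640147) (nat_lit 97) (nat_lit 5) (nat_lit 101) (nat_lit 5) (nat_lit 98) (nat_lit 4) (nat_lit 469) (nat_lit 382) (nat_lit 349)) (XT.lf (nat_lit 0) (nat_lit 766839756) (nat_lit 228) (nat_lit 4794897220) (nat_lit 76) (nat_lit 7058896175) (nat_lit 94) (nat_lit 5) (nat_lit 97) (nat_lit 5) (nat_lit 95) (nat_lit 5) (nat_lit 470) (nat_lit 382) (nat_lit 348))) (XT.nd (nat_lit 78) (nat_lit 152) (nat_lit 0) (XT.lf (nat_lit 0) (nat_lit 4438341205) (nat_lit 228) (nat_lit 858326522) (nat_lit 304) (nat_lit 7541000325) (nat_lit 91) (nat_lit 5) (nat_lit 94) (nat_lit 5) (nat_lit 95) (nat_lit 5) (nat_lit 471) (nat_lit 382) (nat_lit 347)) (XT.lf (nat_lit 0) (nat_lit 847885539) (nat_lit 152) (nat_lit 9143037656)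 (nat_lit 228) (nat_lit 3069440356) (nat_lit 89) (nat_lit 5) (nat_lit 91) (nat_lit 5) (nat_lit 92) (nat_lit 4) (nat_lit 472) (nat_lit 382) (nat_lit 346))))) (XT.nd (nat_lit 312) (nat_lit 532) (nat_lit 0) (XT.nd (nat_lit 156) (nat_lit 228) (nat_lit 0) (XT.nd (nat_lit 78) (nat_lit 152) (nat_lit 0) (XT.lf (nat_lit 0) (nat_lit 1533783778) (nat_lit 228) (nat_lit 2883762597) (nat_lit 76) (nat_lit 8870930863) (nat_lit 88) (nat_lit 5) (nat_lit 91) (nat_lit 5) (nat_lit 89) (nat_lit 5) (nat_lit 473) (nat_lit 382) (nat_lit 345)) (XT.lf (nat_lit 0) (nat_lit 6218001936) (nat_lit 228) (nat_lit 6815674388) (nat_lit 76) (nat_lit 488713659) (nat_lit 86) (nat_lit 5) (nat_lit 89) (nat_lit 5) (nat_lit 87) (nat_lit 4) (nat_lit 474) (nat_lit 382) (nat_lit 344))) (XT.nd (nat_lit 78) (nat_lit 76) (nat_lit 0) (XT.lf (nat_lit 0) (nat_lit 2777671272) (nat_lit 152) (nat_lit 8300539110) (nat_lit 228) (nat_lit 2684050729) (nat_lit 84) (nat_lit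 5) (nat_lit 86) (nat_lit 5) (nat_lit 87) (nat_lit 4) (nat_lit 475) (nat_lit 382) (nat_lit 343)) (XT.lf (nat_lit 0) (nat_lit 2039685766) (nat_lit 228) (nat_lit 1343603398) (nat_lit 76) (nat_lit 10625287153) (nat_lit 83) (nat_lit 5) (nat_lit 86) (nat_lit 5) (nat_lit 84) (nat_lit 5) (nat_lit 476) (nat_lit 382) (nat_lit 342)))) (XT.nd (nat_lit 156) (nat_lit 228) (nat_lit 0) (XT.nd (nat_lit 78) (nat_lit 152) (nat_lit 0) (XT.lf (nat_lit 0) (nat_lit 6888444101) (nat_lit 228) (nat_lit 5660379448) (nat_lit 76) (nat_lit 1711546989) (nat_lit 81) (nat_lit 5) (nat_lit 84) (nat_lit 5) (nat_lit 82) (nat_lit 4) (nat_lit 477) (nat_lit 382) (nat_lit 341)) (XT.lf (nat_lit 0) (nat_lit 4288966554) (nat_lit 152) (nat_lit 7620065781) (nat_lit 228) (nat_lit 2609899603) (nat_lit 79) (nat_lit 5) (nat_lit 81) (nat_lit 5) (nat_lit 82) (nat_lit 4) (nat_lit 478) (nat_lit 382) (nat_lit 340))) (XT.nd (nat_lit 78) (nat_lit 152) (nat_lit 0) (XT.lf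 (nat_lit 0) (nat_lit 2246005962) (nat_lit 228) (nat_lit 264701933) (nat_lit 76) (nat_lit 12274010531) (nat_lit 78) (nat_lit 5) (nat_lit 81) (nat_lit 5) (nat_lit 79) (nat_lit 5) (nat_lit 479) (nat_lit 382) (nat_lit 339)) (XT.lf (nat_lit 0) (nat_lit 7258939090) (nat_lit 228) (nat_lit 5021913065) (nat_lit 76) (nat_lit 2774940930) (nat_lit 76) (nat_lit 5) (nat_lit 79) (nat_lit 5) (nat_lit 77) (nat_lit 4) (nat_lit 480) (nat_lit 382) (nat_lit 338)))))) (XT.nd (nat_lit 624) (nat_lit 760) (nat_lit 0) (XT.nd (nat_lit 312) (nat_lit 380) (nat_lit 0) (XT.nd (nat_lit 156) (nat_lit 152) (nat_lit 0) (XT.nd (nat_lit 78) (nat_lit 228) (nat_lit 0) (XT.lf (nat_lit 0) (nat_lit 5281717221) (nat_lit 152) (nat_lit 7159016101) (nat_lit 228) (nat_lit 2893716345) (nat_lit 74) (nat_lit 5) (nat_lit 76) (nat_lit 5) (nat_lit 77) (nat_lit 4) (nat_lit 481) (nat_lit 382) (nat_lit 337)) (XT.lf (nat_lit 0) (nat_lit 252635343) (nat_lit 152) (nat_lit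 1855707258) (nat_lit 228) (nat_lit 13512687856) (nat_lit 71) (nat_lit 5) (nat_lit 73) (nat_lit 5) (nat_lit 74) (nat_lit 5) (nat_lit 482) (nat_lit 382) (nat_lit 336))) (XT.nd (nat_lit 78) (nat_lit 152) (nat_lit 0) (XT.lf (nat_lit 0) (nat_lit 7279998127) (nat_lit 228) (nat_lit 5013017172) (nat_lit 76) (nat_lit 3620006531) (nat_lit 71) (nat_lit 5) (nat_lit 74) (nat_lit 5) (nat_lit 72) (nat_lit 4) (nat_lit 483) (nat_lit 382) (nat_lit 335)) (XT.lf (nat_lit 0) (nat_lit 5639091971) (nat_lit 152) (nat_lit 6982531733) (nat_lit 228) (nat_lit 3591708075) (nat_lit 69) (nat_lit 5) (nat_lit 71) (nat_lit 5) (nat_lit 72) (nat_lit 4) (nat_lit 484) (nat_lit 382) (nat_lit 334)))) (XT.nd (nat_lit 156) (nat_lit 152) (nat_lit 0) (XT.nd (nat_lit 78) (nat_lit 0) (nat_lit 0) (XT.lf (nat_lit 0) (nat_lit 72202200) (nat_lit 152) (nat_lit 1491572835) (nat_lit 228) (nat_lit 14958592601) (nat_lit 66) (nat_lit 5) (nat_lit 68) (nat_lit 5) (nat_lit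 69) (nat_lit 5) (nat_lit 485) (nat_lit 382) (nat_lit 333)) (XT.lf (nat_lit 0) (nat_lit 6892161048) (nat_lit 228) (nat_lit 5765247637) (nat_lit 76) (nat_lit 4179489349) (nat_lit 66) (nat_lit 5) (nat_lit 69) (nat_lit 5) (nat_lit 67) (nat_lit 4) (nat_lit 486) (nat_lit 382) (nat_lit 332))) (XT.nd (nat_lit 78) (nat_lit 76) (nat_lit 0) (XT.lf (nat_lit 0) (nat_lit 5224556105) (nat_lit 76) (nat_lit 7165068968) (nat_lit 152) (nat_lit 4770965542) (nat_lit 65) (nat_lit 5) (nat_lit 66) (nat_lit 5) (nat_lit 67) (nat_lit 4) (nat_lit 487) (nat_lit 382) (nat_lit 331)) (XT.lf (nat_lit 0) (nat_lit 550257582) (nat_lit 152) (nat_lit 938897931) (nat_lit 76) (nat_lit 16004586598) (nat_lit 64) (nat_lit 5) (nat_lit 66) (nat_lit 5) (nat_lit 65) (nat_lit 5) (nat_lit 488) (nat_lit 382) (nat_lit 330))))) (XT.nd (nat_lit 312) (nat_lit 304) (nat_lit 0) (XT.nd (nat_lit 156) (nat_lit 228) (nat_lit 0) (XT.nd (nat_lit 78) (nat_lit 76) (nat_lit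 0) (XT.lf (nat_lit 0) (nat_lit 6024485128) (nat_lit 228) (nat_lit 7432202881) (nat_lit 76) (nat_lit 4376108046) (nat_lit 62) (nat_lit 5) (nat_lit 65) (nat_lit 5) (nat_lit 63) (nat_lit 4) (nat_lit 489) (nat_lit 382) (nat_lit 329)) (XT.lf (nat_lit 0) (nat_lit 3878488382) (nat_lit 76) (nat_lit 7792192269) (nat_lit 152) (nat_lit 6511111454) (nat_lit 61) (nat_lit 5) (nat_lit 62) (nat_lit 5) (nat_lit 63) (nat_lit 4) (nat_lit 490) (nat_lit 382) (nat_lit 328))) (XT.nd (nat_lit 78) (nat_lit 228) (nat_lit 0) (XT.lf (nat_lit 0) (nat_lit 15581699747) (nat_lit 76) (nat_lit 1926368322) (nat_lit 152) (nat_lit 1032538425) (nat_lit 61) (nat_lit 5) (nat_lit 62) (nat_lit 5) (nat_lit 63) (nat_lit 4) (nat_lit 491) (nat_lit 382) (nat_lit 327)) (XT.lf (nat_lit 0) (nat_lit 4592775636) (nat_lit 228) (nat_lit 10193258806) (nat_lit 76) (nat_lit 4120653352) (nat_lit 58) (nat_lit 5) (nat_lit 61) (nat_lit 5) (nat_lit 59) (nat_lit 4) (nat_lit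 492) (nat_lit 382) (nat_lit 326)))) (XT.nd (nat_lit 156) (nat_lit 228) (nat_lit 0) (XT.nd (nat_lit 78) (nat_lit 0) (nat_lit 0) (XT.lf (nat_lit 0) (nat_lit 1414265957) (nat_lit 76) (nat_lit 8962629090) (nat_lit 152) (nat_lit 8906228241) (nat_lit 57) (nat_lit 5) (nat_lit 58) (nat_lit 5) (nat_lit 59) (nat_lit 4) (nat_lit 493) (nat_lit 382) (nat_lit 325)) (XT.lf (nat_lit 0) (nat_lit 13482450049) (nat_lit 76) (nat_lit 2903564160) (nat_lit 152) (nat_lit 3283295699) (nat_lit 57) (nat_lit 5) (nat_lit 58) (nat_lit 5) (nat_lit 59) (nat_lit 4) (nat_lit 494) (nat_lit 382) (nat_lit 324))) (XT.nd (nat_lit 78) (nat_lit 0) (nat_lit 0) (XT.lf (nat_lit 0) (nat_lit 2497518366) (nat_lit 228) (nat_lit 14257892713) (nat_lit 76) (nat_lit 3309805713) (nat_lit 54) (nat_lit 5) (nat_lit 57) (nat_lit 5) (nat_lit 55) (nat_lit 4) (nat_lit 495) (nat_lit 382) (nat_lit 323)) (XT.lf (nat_lit 0) (nat_lit 8427299866) (nat_lit 228) (nat_lit 2339704674)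 (nat_lit 76) (nat_lit 9703777234) (nat_lit 54) (nat_lit 5) (nat_lit 57) (nat_lit 5) (nat_lit 55) (nat_lit 4) (nat_lit 496) (nat_lit 382) (nat_lit 322))))))))
noncomputable def xc58 : XT := (XT.nd (nat_lit 2340) (nat_lit 1064) (nat_lit 0) (XT.nd (nat_lit 1170) (nat_lit 760) (nat_lit 0) (XT.nd (nat_lit 546) (nat_lit 532) (nat_lit 0) (XT.nd (nat_lit 234) (nat_lit 304) (nat_lit 0) (XT.nd (nat_lit 78) (nat_lit 228) (nat_lit 0) (XT.lf (nat_lit 0) (nat_lit 10039843941) (nat_lit 76) (nat_lit 4542797394) (nat_lit 152) (nat_lit 6304444459) (nat_lit 53) (nat_lit 5) (nat_lit 54) (nat_lit 5) (nat_lit 55) (nat_lit 4) (nat_lit 497) (nat_lit 382) (nat_lit 321)) (XT.nd (nat_lit 78) (nat_lit 76) (nat_lit 0) (XT.lf (nat_lit 0) (nat_lit 1441269077) (nat_lit 152) (nat_lit 19488337356) (nat_lit 152) (nat_lit 386065626) (nat_lit 51) (nat_lit 4) (nat_lit 53) (nat_lit 5) (nat_lit 53) (nat_lit 4) (nat_lit 498) (nat_lit 382) (nat_lit 320))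 (XT.lf (nat_lit 0) (nat_lit 5705396079) (nat_lit 228) (nat_lit 7626286123) (nat_lit 76) (nat_lit 8420580471) (nat_lit 50) (nat_lit 5) (nat_lit 53) (nat_lit 5) (nat_lit 51) (nat_lit 4) (nat_lit 499) (nat_lit 382) (nat_lit 319)))) (XT.nd (nat_lit 156) (nat_lit 228) (nat_lit 0) (XT.nd (nat_lit 78) (nat_lit 0) (nat_lit 0) (XT.lf (nat_lit 0) (nat_lit 4993276950) (nat_lit 76) (nat_lit 6979333437) (nat_lit 152) (nat_lit 10229204748) (nat_lit 49) (nat_lit 5) (nat_lit 50) (nat_lit 5) (nat_lit 51) (nat_lit 4) (nat_lit 500) (nat_lit 382) (nat_lit 318)) (XT.lf (nat_lit 0) (nat_lit 18059025172) (nat_lit 76) (nat_lit 399119025) (nat_lit 152) (nat_lit 4205802682) (nat_lit 49) (nat_lit 5) (nat_lit 50) (nat_lit 5) (nat_lit 51) (nat_lit 4) (nat_lit 501) (nat_lit 382) (nat_lit 317))) (XT.nd (nat_lit 78) (nat_lit 0) (nat_lit 0) (XT.lf (nat_lit 0) (nat_lit 2056503694) (nat_lit 228) (nat_lit 14765087479) (nat_lit 76) (nat_lit 6314860941)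 (nat_lit 46) (nat_lit 5) (nat_lit 49) (nat_lit 5) (nat_lit 47) (nat_lit 4) (nat_lit 502) (nat_lit 382) (nat_lit 316)) (XT.lf (nat_lit 0) (nat_lit 8427373722) (nat_lit 228) (nat_lit 1923630623) (nat_lit 76) (nat_lit 13270723751) (nat_lit 46) (nat_lit 5) (nat_lit 49) (nat_lit 5) (nat_lit 47) (nat_lit 4) (nat_lit 503) (nat_lit 382) (nat_lit 315))))) (XT.nd (nat_lit 312) (nat_lit 228) (nat_lit 0) (XT.nd (nat_lit 156) (nat_lit 152) (nat_lit 0) (XT.nd (nat_lit 78) (nat_lit 76) (nat_lit 0) (XT.lf (nat_lit 0) (nat_lit 11441702452) (nat_lit 76) (nat_lit 3613296871) (nat_lit 152) (nat_lit 9064595748) (nat_lit 45) (nat_lit 5) (nat_lit 46) (nat_lit 5) (nat_lit 47) (nat_lit 4) (nat_lit 504) (nat_lit 382) (nat_lit 314)) (XT.lf (nat_lit 0) (nat_lit 508628592) (nat_lit 76) (nat_lit 21385055550) (nat_lit 76) (nat_lit 2738348552) (nat_lit 44) (nat_lit 4) (nat_lit 45) (nat_lit 5) (nat_lit 45) (nat_lit 4) (nat_lit 505) (nat_lit 382)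 (nat_lit 313))) (XT.nd (nat_lit 78) (nat_lit 76) (nat_lit 0) (XT.lf (nat_lit 0) (nat_lit 3824829116) (nat_lit 152) (nat_lit 10963519873) (nat_lit 76) (nat_lit 10366780737) (nat_lit 43) (nat_lit 5) (nat_lit 45) (nat_lit 5) (nat_lit 44) (nat_lit 4) (nat_lit 506) (nat_lit 382) (nat_lit 312)) (XT.lf (nat_lit 0) (nat_lit 2531118692) (nat_lit 76) (nat_lit 7980158222) (nat_lit 152) (nat_lit 15182388416) (nat_lit 42) (nat_lit 5) (nat_lit 43) (nat_lit 5) (nat_lit 44) (nat_lit 4) (nat_lit 507) (nat_lit 382) (nat_lit 311)))) (XT.nd (nat_lit 156) (nat_lit 152) (nat_lit 0) (XT.nd (nat_lit 78) (nat_lit 76) (nat_lit 0) (XT.lf (nat_lit 0) (nat_lit 16573823822) (nat_lit 76) (nat_lit 892753083) (nat_lit 152) (nat_lit 8779733714) (nat_lit 42) (nat_lit 5) (nat_lit 43) (nat_lit 5) (nat_lit 44) (nat_lit 4) (nat_lit 508) (nat_lit 382) (nat_lit 310)) (XT.lf (nat_lit 0) (nat_lit 4161884522) (nat_lit 76) (nat_lit 20528669184) (nat_lit 76)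 (nat_lit 2123182365) (nat_lit 41) (nat_lit 4) (nat_lit 42) (nat_lit 5) (nat_lit 42) (nat_lit 4) (nat_lit 509) (nat_lit 382) (nat_lit 309))) (XT.nd (nat_lit 78) (nat_lit 76) (nat_lit 0) (XT.lf (nat_lit 0) (nat_lit 4706647266) (nat_lit 152) (nat_lit 8921050485) (nat_lit 76) (nat_lit 13767144656) (nat_lit 40) (nat_lit 5) (nat_lit 42) (nat_lit 5) (nat_lit 41) (nat_lit 4) (nat_lit 510) (nat_lit 382) (nat_lit 308)) (XT.lf (nat_lit 0) (nat_lit 5224884512) (nat_lit 76) (nat_lit 6483709603) (nat_lit 152) (nat_lit 16283861510) (nat_lit 39) (nat_lit 5) (nat_lit 40) (nat_lit 5) (nat_lit 41) (nat_lit 4) (nat_lit 511) (nat_lit 382) (nat_lit 307)))))) (XT.nd (nat_lit 546) (nat_lit 380) (nat_lit 0) (XT.nd (nat_lit 234) (nat_lit 228) (nat_lit 0) (XT.nd (nat_lit 78) (nat_lit 152) (nat_lit 0) (XT.lf (nat_lit 0) (nat_lit 18979733473) (nat_lit 152) (nat_lit 8714327912) (nat_lit 0) (nat_lit 912163020) (nat_lit 39) (nat_lit 5) (nat_lit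 41) (nat_lit 4) (nat_lit 39) (nat_lit 4) (nat_lit 512) (nat_lit 382) (nat_lit 306)) (XT.nd (nat_lit 78) (nat_lit 76) (nat_lit 0) (XT.lf (nat_lit 0) (nat_lit 5732643644) (nat_lit 76) (nat_lit 20816586403) (nat_lit 76) (nat_lit 2686770664) (nat_lit 38) (nat_lit 4) (nat_lit 39) (nat_lit 5) (nat_lit 39) (nat_lit 4) (nat_lit 513) (nat_lit 382) (nat_lit 305)) (XT.lf (nat_lit 0) (nat_lit 4423914710) (nat_lit 152) (nat_lit 9209701194) (nat_lit 76) (nat_lit 16248274201) (nat_lit 37) (nat_lit 5) (nat_lit 39) (nat_lit 5) (nat_lit 38) (nat_lit 4) (nat_lit 514) (nat_lit 382) (nat_lit 304)))) (XT.nd (nat_lit 156) (nat_lit 152) (nat_lit 0) (XT.nd (nat_lit 78) (nat_lit 0) (nat_lit 0) (XT.lf (nat_lit 0) (nat_lit 5520513139) (nat_lit 76) (nat_lit 6188567327) (nat_lit 152) (nat_lit 18836823884) (nat_lit 36) (nat_lit 5) (nat_lit 37) (nat_lit 5) (nat_lit 38) (nat_lit 4) (nat_lit 515) (nat_lit 382) (nat_lit 303)) (XT.lf (nat_lit 0)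 (nat_lit 19283109364) (nat_lit 152) (nat_lit 10434214465) (nat_lit 0) (nat_lit 1510406973) (nat_lit 36) (nat_lit 5) (nat_lit 38) (nat_lit 4) (nat_lit 36) (nat_lit 4) (nat_lit 516) (nat_lit 382) (nat_lit 302))) (XT.nd (nat_lit 78) (nat_lit 76) (nat_lit 0) (XT.lf (nat_lit 0) (nat_lit 4550925370) (nat_lit 76) (nat_lit 22601717443) (nat_lit 76) (nat_lit 4775321721) (nat_lit 35) (nat_lit 4) (nat_lit 36) (nat_lit 5) (nat_lit 36) (nat_lit 4) (nat_lit 517) (nat_lit 382) (nat_lit 301)) (XT.lf (nat_lit 0) (nat_lit 2627848150) (nat_lit 152) (nat_lit 12543993423) (nat_lit 76) (nat_lit 17474521150) (nat_lit 34) (nat_lit 5) (nat_lit 36) (nat_lit 5) (nat_lit 35) (nat_lit 4) (nat_lit 518) (nat_lit 382) (nat_lit 300))))) (XT.nd (nat_lit 312) (nat_lit 228) (nat_lit 0) (XT.nd (nat_lit 156) (nat_lit 76) (nat_lit 0) (XT.nd (nat_lit 78) (nat_lit 0) (nat_lit 0) (XT.lf (nat_lit 0) (nat_lit 2669597918) (nat_lit 76) (nat_lit 7477561786)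 (nat_lit 152) (nat_lit 23238034878) (nat_lit 33) (nat_lit 5) (nat_lit 34) (nat_lit 5) (nat_lit 35) (nat_lit 4) (nat_lit 519) (nat_lit 382) (nat_lit 299)) (XT.lf (nat_lit 0) (nat_lit 17988698999) (nat_lit 152) (nat_lit 15620529091) (nat_lit 0) (nat_lit 534064740) (nat_lit 33) (nat_lit 5) (nat_lit 35) (nat_lit 4) (nat_lit 33) (nat_lit 4) (nat_lit 520) (nat_lit 382) (nat_lit 298))) (XT.nd (nat_lit 78) (nat_lit 76) (nat_lit 0) (XT.lf (nat_lit 0) (nat_lit 26104978388) (nat_lit 152) (nat_lit 213943890) (nat_lit 0) (nat_lit 8604027789) (nat_lit 33) (nat_lit 5) (nat_lit 35) (nat_lit 4) (nat_lit 33) (nat_lit 4) (nat_lit 521) (nat_lit 382) (nat_lit 297)) (XT.lf (nat_lit 0) (nat_lit 15899761518) (nat_lit 76) (nat_lit 18684287583) (nat_lit 76) (nat_lit 1138369666) (nat_lit 32) (nat_lit 4) (nat_lit 33) (nat_lit 5) (nat_lit 33) (nat_lit 4) (nat_lit 522) (nat_lit 382) (nat_lit 296)))) (XT.nd (nat_lit 156) (nat_lit 76) (nat_lit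 0) (XT.nd (nat_lit 78) (nat_lit 76) (nat_lit 0) (XT.lf (nat_lit 0) (nat_lit 6608153738) (nat_lit 152) (nat_lit 4175023419) (nat_lit 76) (nat_lit 25761682206) (nat_lit 31) (nat_lit 5) (nat_lit 33) (nat_lit 5) (nat_lit 32) (nat_lit 4) (nat_lit 523) (nat_lit 382) (nat_lit 295)) (XT.lf (nat_lit 0) (nat_lit 12103488885) (nat_lit 76) (nat_lit 2544516240) (nat_lit 152) (nat_lit 22741116316) (nat_lit 30) (nat_lit 5) (nat_lit 31) (nat_lit 5) (nat_lit 32) (nat_lit 4) (nat_lit 524) (nat_lit 382) (nat_lit 294))) (XT.nd (nat_lit 78) (nat_lit 76) (nat_lit 0) (XT.lf (nat_lit 0) (nat_lit 22996255627) (nat_lit 152) (nat_lit 9422546884) (nat_lit 0) (nat_lit 5837893503) (nat_lit 30) (nat_lit 5) (nat_lit 32) (nat_lit 4) (nat_lit 30) (nat_lit 4) (nat_lit 525) (nat_lit 382) (nat_lit 293)) (XT.lf (nat_lit 0) (nat_lit 6965498082) (nat_lit 76) (nat_lit 24690066728) (nat_lit 76) (nat_lit 7492915400) (nat_lit 29) (nat_lit 4) (nat_lit 30)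 (nat_lit 5) (nat_lit 30) (nat_lit 4) (nat_lit 526) (nat_lit 382) (nat_lit 292))))))) (XT.nd (nat_lit 1170) (nat_lit 456) (nat_lit 0) (XT.nd (nat_lit 546) (nat_lit 304) (nat_lit 0) (XT.nd (nat_lit 234) (nat_lit 152) (nat_lit 0) (XT.nd (nat_lit 78) (nat_lit 76) (nat_lit 0) (XT.lf (nat_lit 0) (nat_lit 562304187) (nat_lit 152) (nat_lit 16093333249) (nat_lit 76) (nat_lit 23409297542) (nat_lit 28) (nat_lit 5) (nat_lit 30) (nat_lit 5) (nat_lit 29) (nat_lit 4) (nat_lit 527) (nat_lit 382) (nat_lit 291)) (XT.nd (nat_lit 78) (nat_lit 0) (nat_lit 0) (XT.lf (nat_lit 0) (nat_lit 351793848) (nat_lit 76) (nat_lit 8329569277) (nat_lit 152) (nat_lit 32326111817) (nat_lit 27) (nat_lit 5) (nat_lit 28) (nat_lit 5) (nat_lit 29) (nat_lit 4) (nat_lit 528) (nat_lit 382) (nat_lit 290)) (XT.lf (nat_lit 0) (nat_lit 17179924834) (nat_lit 152) (nat_lit 24417151439) (nat_lit 0) (nat_lit 377137540) (nat_lit 27) (nat_lit 5) (nat_lit 29) (nat_lit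 4) (nat_lit 27) (nat_lit 4) (nat_lit 529) (nat_lit 382) (nat_lit 289)))) (XT.nd (nat_lit 156) (nat_lit 76) (nat_lit 0) (XT.nd (nat_lit 78) (nat_lit 76) (nat_lit 0) (XT.lf (nat_lit 0) (nat_lit 25986247844) (nat_lit 152) (nat_lit 7832122852) (nat_lit 0) (nat_lit 9150000641) (nat_lit 27) (nat_lit 5) (nat_lit 29) (nat_lit 4) (nat_lit 27) (nat_lit 4) (nat_lit 530) (nat_lit 382) (nat_lit 288)) (XT.lf (nat_lit 0) (nat_lit 9376943289) (nat_lit 76) (nat_lit 25741151710) (nat_lit 76) (nat_lit 8872419159) (nat_lit 26) (nat_lit 4) (nat_lit 27) (nat_lit 5) (nat_lit 27) (nat_lit 4) (nat_lit 531) (nat_lit 382) (nat_lit 287))) (XT.nd (nat_lit 78) (nat_lit 76) (nat_lit 0) (XT.lf (nat_lit 0) (nat_lit 27206894852) (nat_lit 76) (nat_lit 17367590542) (nat_lit 76) (nat_lit 467318818) (nat_lit 26) (nat_lit 4) (nat_lit 27) (nat_lit 5) (nat_lit 27) (nat_lit 4) (nat_lit 532) (nat_lit 382) (nat_lit 286)) (XT.lf (nat_lit 0) (nat_lit 8002173758)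 (nat_lit 152) (nat_lit 686479550) (nat_lit 76) (nat_lit 37434456781) (nat_lit 25) (nat_lit 5) (nat_lit 27) (nat_lit 5) (nat_lit 26) (nat_lit 4) (nat_lit 533) (nat_lit 382) (nat_lit 285))))) (XT.nd (nat_lit 312) (nat_lit 152) (nat_lit 0) (XT.nd (nat_lit 156) (nat_lit 76) (nat_lit 0) (XT.nd (nat_lit 78) (nat_lit 0) (nat_lit 0) (XT.lf (nat_lit 0) (nat_lit 16858940763) (nat_lit 152) (nat_lit 29981180181) (nat_lit 0) (nat_lit 392318457) (nat_lit 24) (nat_lit 5) (nat_lit 26) (nat_lit 4) (nat_lit 24) (nat_lit 4) (nat_lit 534) (nat_lit 382) (nat_lit 284)) (XT.lf (nat_lit 0) (nat_lit 26047340379) (nat_lit 152) (nat_lit 12773034920) (nat_lit 0) (nat_lit 9552695926) (nat_lit 24) (nat_lit 5) (nat_lit 26) (nat_lit 4) (nat_lit 24) (nat_lit 4) (nat_lit 535) (nat_lit 382) (nat_lit 283))) (XT.nd (nat_lit 78) (nat_lit 0) (nat_lit 0) (XT.lf (nat_lit 0) (nat_lit 4997117234) (nat_lit 76) (nat_lit 30536001939) (nat_lit 76) (nat_lit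 14014151518) (nat_lit 23) (nat_lit 4) (nat_lit 24) (nat_lit 5) (nat_lit 24) (nat_lit 4) (nat_lit 536) (nat_lit 382) (nat_lit 282)) (XT.lf (nat_lit 0) (nat_lit 23510966772) (nat_lit 76) (nat_lit 21895452699) (nat_lit 76) (nat_lit 5347188717) (nat_lit 23) (nat_lit 4) (nat_lit 24) (nat_lit 5) (nat_lit 24) (nat_lit 4) (nat_lit 537) (nat_lit 382) (nat_lit 281)))) (XT.nd (nat_lit 156) (nat_lit 0) (nat_lit 0) (XT.nd (nat_lit 78) (nat_lit 76) (nat_lit 0) (XT.lf (nat_lit 0) (nat_lit 3484401599) (nat_lit 152) (nat_lit 9500572968) (nat_lit 76) (nat_lit 39010895180) (nat_lit 22) (nat_lit 5) (nat_lit 24) (nat_lit 5) (nat_lit 23) (nat_lit 4) (nat_lit 538) (nat_lit 382) (nat_lit 280)) (XT.lf (nat_lit 0) (nat_lit 8844611224) (nat_lit 76) (nat_lit 3689091610) (nat_lit 152) (nat_lit 40738301401) (nat_lit 21) (nat_lit 5) (nat_lit 22) (nat_lit 5) (nat_lit 23) (nat_lit 4) (nat_lit 539) (nat_lit 382) (nat_lit 279))) (XT.nd (nat_lit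 78) (nat_lit 0) (nat_lit 0) (XT.lf (nat_lit 0) (nat_lit 21983192096) (nat_lit 152) (nat_lit 26754991011) (nat_lit 0) (nat_lit 5844378815) (nat_lit 21) (nat_lit 5) (nat_lit 23) (nat_lit 4) (nat_lit 21) (nat_lit 4) (nat_lit 540) (nat_lit 382) (nat_lit 278)) (XT.lf (nat_lit 0) (nat_lit 31728658026) (nat_lit 152) (nat_lit 8636343803) (nat_lit 0) (nat_lit 15567060175) (nat_lit 21) (nat_lit 5) (nat_lit 23) (nat_lit 4) (nat_lit 21) (nat_lit 4) (nat_lit 541) (nat_lit 382) (nat_lit 277)))))) (XT.nd (nat_lit 624) (nat_lit 152) (nat_lit 0) (XT.nd (nat_lit 312) (nat_lit 76) (nat_lit 0) (XT.nd (nat_lit 156) (nat_lit 152) (nat_lit 0) (XT.nd (nat_lit 78) (nat_lit 0) (nat_lit 0) (XT.lf (nat_lit 0) (nat_lit 10178460672) (nat_lit 76) (nat_lit 31662535190) (nat_lit 76) (nat_lit 15478816398) (nat_lit 20) (nat_lit 4) (nat_lit 21) (nat_lit 5) (nat_lit 21) (nat_lit 4) (nat_lit 542) (nat_lit 382) (nat_lit 276)) (XT.lf (nat_lit 0) (nat_lit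 29689176469) (nat_lit 76) (nat_lit 22631645423) (nat_lit 76) (nat_lit 6426449989) (nat_lit 20) (nat_lit 4) (nat_lit 21) (nat_lit 5) (nat_lit 21) (nat_lit 4) (nat_lit 543) (nat_lit 382) (nat_lit 275))) (XT.nd (nat_lit 78) (nat_lit 76) (nat_lit 0) (XT.lf (nat_lit 0) (nat_lit 2818305146) (nat_lit 152) (nat_lit 10504887094) (nat_lit 76) (nat_lit 46894207108) (nat_lit 19) (nat_lit 5) (nat_lit 21) (nat_lit 5) (nat_lit 20) (nat_lit 4) (nat_lit 544) (nat_lit 382) (nat_lit 274)) (XT.lf (nat_lit 0) (nat_lit 8667022703) (nat_lit 76) (nat_lit 3605545297) (nat_lit 152) (nat_lit 49455314248) (nat_lit 18) (nat_lit 5) (nat_lit 19) (nat_lit 5) (nat_lit 20) (nat_lit 4) (nat_lit 545) (nat_lit 382) (nat_lit 273)))) (XT.nd (nat_lit 156) (nat_lit 76) (nat_lit 0) (XT.nd (nat_lit 78) (nat_lit 0) (nat_lit 0) (XT.lf (nat_lit 0) (nat_lit 22157184383) (nat_lit 152) (nat_lit 34757088587) (nat_lit 0) (nat_lit 6365005249) (nat_lit 18) (nat_lit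 5) (nat_lit 20) (nat_lit 4) (nat_lit 18) (nat_lit 4) (nat_lit 546) (nat_lit 382) (nat_lit 272)) (XT.lf (nat_lit 0) (nat_lit 32352718287) (nat_lit 152) (nat_lit 15982053542) (nat_lit 0) (nat_lit 16542013213) (nat_lit 18) (nat_lit 5) (nat_lit 20) (nat_lit 4) (nat_lit 18) (nat_lit 4) (nat_lit 547) (nat_lit 382) (nat_lit 271))) (XT.nd (nat_lit 78) (nat_lit 0) (nat_lit 0) (XT.lf (nat_lit 0) (nat_lit 3381290829) (nat_lit 76) (nat_lit 39484631931) (nat_lit 76) (nat_lit 23655940507) (nat_lit 17) (nat_lit 4) (nat_lit 18) (nat_lit 5) (nat_lit 18) (nat_lit 4) (nat_lit 548) (nat_lit 382) (nat_lit 270)) (XT.lf (nat_lit 0) (nat_lit 23612630277) (nat_lit 76) (nat_lit 30222795358) (nat_lit 76) (nat_lit 14376641459) (nat_lit 17) (nat_lit 4) (nat_lit 18) (nat_lit 5) (nat_lit 18) (nat_lit 4) (nat_lit 549) (nat_lit 382) (nat_lit 269))))) (XT.nd (nat_lit 53508) (nat_lit 0) (nat_lit 14212) (XT.nd (nat_lit 156) (nat_lit 76) (nat_lit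 0) (XT.nd (nat_lit 78) (nat_lit 76) (nat_lit 0) (XT.lf (nat_lit 0) (nat_lit 44411568468) (nat_lit 76) (nat_lit 20702556648) (nat_lit 76) (nat_lit 4839448889) (nat_lit 17) (nat_lit 4) (nat_lit 18) (nat_lit 5) (nat_lit 18) (nat_lit 4) (nat_lit 550) (nat_lit 382) (nat_lit 268)) (XT.lf (nat_lit 0) (nat_lit 4867105724) (nat_lit 152) (nat_lit 5999343196) (nat_lit 76) (nat_lit 60880025283) (nat_lit 16) (nat_lit 5) (nat_lit 18) (nat_lit 5) (nat_lit 17) (nat_lit 4) (nat_lit 551) (nat_lit 382) (nat_lit 267))) (XT.nd (nat_lit 53274) (nat_lit 0) (nat_lit 15808) (XT.lf (nat_lit 0) (nat_lit 14323731099) (nat_lit 76) (nat_lit 562613508) (nat_lit 152) (nat_lit 58701816954) (nat_lit 15) (nat_lit 5) (nat_lit 16) (nat_lit 5) (nat_lit 17) (nat_lit 4) (nat_lit 552) (nat_lit 382) (nat_lit 266)) (XT.lf (nat_lit 0) (nat_lit 797147922) (nat_lit 608) (nat_lit 2252061061) (nat_lit 0) (nat_lit 797147922) (nat_lit 223) (nat_lit 5) (nat_lit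 231) (nat_lit 4) (nat_lit 223) (nat_lit 4) (nat_lit 434) (nat_lit 383) (nat_lit 383)))) (XT.nd (nat_lit 156) (nat_lit 532) (nat_lit 0) (XT.nd (nat_lit 78) (nat_lit 532) (nat_lit 0) (XT.lf (nat_lit 0) (nat_lit 1622434373) (nat_lit 532) (nat_lit 3746406010) (nat_lit 532) (nat_lit 2399994428) (nat_lit 216) (nat_lit 4) (nat_lit 223) (nat_lit 5) (nat_lit 223) (nat_lit 4) (nat_lit 435) (nat_lit 383) (nat_lit 382)) (XT.lf (nat_lit 0) (nat_lit 41247824) (nat_lit 456) (nat_lit 1286267011) (nat_lit 532) (nat_lit 6520972655) (nat_lit 209) (nat_lit 5) (nat_lit 215) (nat_lit 5) (nat_lit 216) (nat_lit 4) (nat_lit 436) (nat_lit 383) (nat_lit 381))) (XT.nd (nat_lit 78) (nat_lit 532) (nat_lit 0) (XT.lf (nat_lit 0) (nat_lit 5094100111) (nat_lit 532) (nat_lit 1550849953) (nat_lit 0) (nat_lit 1285625023) (nat_lit 209) (nat_lit 5) (nat_lit 216) (nat_lit 4) (nat_lit 209) (nat_lit 4) (nat_lit 437) (nat_lit 383) (nat_lit 380)) (XT.lf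 (nat_lit 0) (nat_lit 902548918) (nat_lit 532) (nat_lit 3172570034) (nat_lit 76) (nat_lit 3940870589) (nat_lit 202) (nat_lit 5) (nat_lit 209) (nat_lit 5) (nat_lit 203) (nat_lit 4) (nat_lit 438) (nat_lit 383) (nat_lit 379))))))))
noncomputable def xc59 : XT := (XT.nd (nat_lit 2340) (nat_lit 3800) (nat_lit 0) (XT.nd (nat_lit 1170) (nat_lit 2964) (nat_lit 0) (XT.nd (nat_lit 546) (nat_lit 2128) (nat_lit 0) (XT.nd (nat_lit 234) (nat_lit 1672) (nat_lit 0) (XT.nd (nat_lit 78) (nat_lit 532) (nat_lit 0) (XT.lf (nat_lit 0) (nat_lit 3270007515) (nat_lit 456) (nat_lit 1378356185) (nat_lit 532) (nat_lit 3456232211) (nat_lit 196) (nat_lit 5) (nat_lit 202) (nat_lit 5) (nat_lit 203) (nat_lit 4) (nat_lit 439) (nat_lit 383) (nat_lit 378)) (XT.nd (nat_lit 78) (nat_lit 0) (nat_lit 0) (XT.lf (nat_lit 0) (nat_lit 271869258) (nat_lit 532) (nat_lit 6529434822) (nat_lit 76) (nat_lit 1395469323) (nat_lit 189) (nat_lit 5) (nat_lit 196) (nat_lit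 5) (nat_lit 190) (nat_lit 4) (nat_lit 440) (nat_lit 383) (nat_lit 377)) (XT.lf (nat_lit 0) (nat_lit 4011640210) (nat_lit 532) (nat_lit 569524) (nat_lit 76) (nat_lit 4279420224) (nat_lit 189) (nat_lit 5) (nat_lit 196) (nat_lit 5) (nat_lit 190) (nat_lit 4) (nat_lit 441) (nat_lit 383) (nat_lit 376)))) (XT.nd (nat_lit 156) (nat_lit 836) (nat_lit 0) (XT.nd (nat_lit 78) (nat_lit 456) (nat_lit 0) (XT.lf (nat_lit 0) (nat_lit 6733820083) (nat_lit 380) (nat_lit 1103584645) (nat_lit 456) (nat_lit 552732051) (nat_lit 184) (nat_lit 5) (nat_lit 189) (nat_lit 5) (nat_lit 190) (nat_lit 4) (nat_lit 442) (nat_lit 383) (nat_lit 375)) (XT.lf (nat_lit 0) (nat_lit 3199822483) (nat_lit 456) (nat_lit 3385882865) (nat_lit 76) (nat_lit 1905635038) (nat_lit 178) (nat_lit 5) (nat_lit 184) (nat_lit 5) (nat_lit 179) (nat_lit 4) (nat_lit 443) (nat_lit 383) (nat_lit 374))) (XT.nd (nat_lit 78) (nat_lit 456) (nat_lit 0) (XT.lf (nat_lit 0) (nat_lit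 3435903635) (nat_lit 380) (nat_lit 3589599879) (nat_lit 456) (nat_lit 1570779638) (nat_lit 173) (nat_lit 5) (nat_lit 178) (nat_lit 5) (nat_lit 179) (nat_lit 4) (nat_lit 444) (nat_lit 383) (nat_lit 373)) (XT.lf (nat_lit 0) (nat_lit 1715696606) (nat_lit 380) (nat_lit 464124337) (nat_lit 456) (nat_lit 6525045944) (nat_lit 167) (nat_lit 5) (nat_lit 172) (nat_lit 5) (nat_lit 173) (nat_lit 5) (nat_lit 445) (nat_lit 383) (nat_lit 372))))) (XT.nd (nat_lit 312) (nat_lit 1064) (nat_lit 0) (XT.nd (nat_lit 156) (nat_lit 684) (nat_lit 0) (XT.nd (nat_lit 78) (nat_lit 380) (nat_lit 0) (XT.lf (nat_lit 0) (nat_lit 6002886196) (nat_lit 456) (nat_lit 79039993) (nat_lit 76) (nat_lit 2734585406) (nat_lit 167) (nat_lit 5) (nat_lit 173) (nat_lit 5) (nat_lit 168) (nat_lit 4) (nat_lit 446) (nat_lit 383) (nat_lit 371)) (XT.lf (nat_lit 0) (nat_lit 976627572) (nat_lit 380) (nat_lit 1891644127) (nat_lit 76) (nat_lit 6063342149) (nat_lit 162)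 (nat_lit 5) (nat_lit 167) (nat_lit 5) (nat_lit 163) (nat_lit 5) (nat_lit 447) (nat_lit 383) (nat_lit 370))) (XT.nd (nat_lit 78) (nat_lit 304) (nat_lit 0) (XT.lf (nat_lit 0) (nat_lit 4795678600) (nat_lit 456) (nat_lit 3777917398) (nat_lit 76) (nat_lit 476602436) (nat_lit 157) (nat_lit 5) (nat_lit 163) (nat_lit 5) (nat_lit 158) (nat_lit 4) (nat_lit 448) (nat_lit 383) (nat_lit 369)) (XT.lf (nat_lit 0) (nat_lit 3433551964) (nat_lit 304) (nat_lit 5292820761) (nat_lit 380) (nat_lit 446069514) (nat_lit 153) (nat_lit 5) (nat_lit 157) (nat_lit 5) (nat_lit 158) (nat_lit 4) (nat_lit 449) (nat_lit 383) (nat_lit 368)))) (XT.nd (nat_lit 156) (nat_lit 684) (nat_lit 0) (XT.nd (nat_lit 78) (nat_lit 0) (nat_lit 0) (XT.lf (nat_lit 0) (nat_lit 1513887029) (nat_lit 304) (nat_lit 1864798060) (nat_lit 380) (nat_lit 5919581943) (nat_lit 148) (nat_lit 5) (nat_lit 152) (nat_lit 5) (nat_lit 153) (nat_lit 5) (nat_lit 450) (nat_lit 383) (nat_lit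 367)) (XT.lf (nat_lit 0) (nat_lit 7301430438) (nat_lit 380) (nat_lit 469574547) (nat_lit 76) (nat_lit 1656975331) (nat_lit 148) (nat_lit 5) (nat_lit 153) (nat_lit 5) (nat_lit 149) (nat_lit 4) (nat_lit 451) (nat_lit 383) (nat_lit 366))) (XT.nd (nat_lit 78) (nat_lit 304) (nat_lit 0) (XT.lf (nat_lit 0) (nat_lit 1752016644) (nat_lit 380) (nat_lit 2515247155) (nat_lit 76) (nat_lit 5293625244) (nat_lit 143) (nat_lit 5) (nat_lit 148) (nat_lit 5) (nat_lit 144) (nat_lit 5) (nat_lit 452) (nat_lit 383) (nat_lit 365)) (XT.lf (nat_lit 0) (nat_lit 5054711411) (nat_lit 304) (nat_lit 623323570) (nat_lit 380) (nat_lit 4019914892) (nat_lit 139) (nat_lit 5) (nat_lit 143) (nat_lit 5) (nat_lit 144) (nat_lit 5) (nat_lit 453) (nat_lit 383) (nat_lit 364)))))) (XT.nd (nat_lit 546) (nat_lit 1444) (nat_lit 0) (XT.nd (nat_lit 234) (nat_lit 912) (nat_lit 0) (XT.nd (nat_lit 78) (nat_lit 380) (nat_lit 0) (XT.lf (nat_lit 0) (nat_lit 2970703241)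 (nat_lit 228) (nat_lit 6756647308) (nat_lit 304) (nat_lit 111617722) (nat_lit 136) (nat_lit 5) (nat_lit 139) (nat_lit 5) (nat_lit 140) (nat_lit 4) (nat_lit 454) (nat_lit 383) (nat_lit 363)) (XT.nd (nat_lit 78) (nat_lit 0) (nat_lit 0) (XT.lf (nat_lit 0) (nat_lit 774007151) (nat_lit 304) (nat_lit 3046087813) (nat_lit 380) (nat_lit 6163527917) (nat_lit 131) (nat_lit 5) (nat_lit 135) (nat_lit 5) (nat_lit 136) (nat_lit 5) (nat_lit 455) (nat_lit 383) (nat_lit 362)) (XT.lf (nat_lit 0) (nat_lit 7867293089) (nat_lit 380) (nat_lit 1476427392) (nat_lit 76) (nat_lit 788880461) (nat_lit 131) (nat_lit 5) (nat_lit 136) (nat_lit 5) (nat_lit 132) (nat_lit 4) (nat_lit 456) (nat_lit 383) (nat_lit 361)))) (XT.nd (nat_lit 156) (nat_lit 304) (nat_lit 0) (XT.nd (nat_lit 78) (nat_lit 304) (nat_lit 0) (XT.lf (nat_lit 0) (nat_lit 1732719243) (nat_lit 304) (nat_lit 3837180495) (nat_lit 76) (nat_lit 4715143490) (nat_lit 127) (nat_lit 5) (nat_lit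 131) (nat_lit 5) (nat_lit 128) (nat_lit 5) (nat_lit 457) (nat_lit 383) (nat_lit 360)) (XT.lf (nat_lit 0) (nat_lit 4136951484) (nat_lit 304) (nat_lit 1647885156) (nat_lit 380) (nat_lit 4657168294) (nat_lit 123) (nat_lit 5) (nat_lit 127) (nat_lit 5) (nat_lit 128) (nat_lit 5) (nat_lit 458) (nat_lit 383) (nat_lit 359))) (XT.nd (nat_lit 78) (nat_lit 76) (nat_lit 0) (XT.lf (nat_lit 0) (nat_lit 1716202119) (nat_lit 228) (nat_lit 8246413547) (nat_lit 304) (nat_lit 640946026) (nat_lit 120) (nat_lit 5) (nat_lit 123) (nat_lit 5) (nat_lit 124) (nat_lit 4) (nat_lit 459) (nat_lit 383) (nat_lit 358)) (XT.lf (nat_lit 0) (nat_lit 3433929138) (nat_lit 304) (nat_lit 831932755) (nat_lit 76) (nat_lit 6502912337) (nat_lit 119) (nat_lit 5) (nat_lit 123) (nat_lit 5) (nat_lit 120) (nat_lit 5) (nat_lit 460) (nat_lit 383) (nat_lit 357))))) (XT.nd (nat_lit 312) (nat_lit 684) (nat_lit 0) (XT.nd (nat_lit 156) (nat_lit 228) (nat_lit 0) (XT.nd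 (nat_lit 78) (nat_lit 304) (nat_lit 0) (XT.lf (nat_lit 0) (nat_lit 7487767931) (nat_lit 228) (nat_lit 130305795) (nat_lit 304) (nat_lit 3320690238) (nat_lit 116) (nat_lit 5) (nat_lit 119) (nat_lit 5) (nat_lit 120) (nat_lit 5) (nat_lit 461) (nat_lit 383) (nat_lit 356)) (XT.lf (nat_lit 0) (nat_lit 821981284) (nat_lit 304) (nat_lit 6222599490) (nat_lit 76) (nat_lit 4068326577) (nat_lit 112) (nat_lit 5) (nat_lit 116) (nat_lit 5) (nat_lit 113) (nat_lit 5) (nat_lit 462) (nat_lit 383) (nat_lit 355))) (XT.nd (nat_lit 78) (nat_lit 0) (nat_lit 0) (XT.lf (nat_lit 0) (nat_lit 2150832035) (nat_lit 228) (nat_lit 2857254004) (nat_lit 304) (nat_lit 6283633441) (nat_lit 109) (nat_lit 5) (nat_lit 112) (nat_lit 5) (nat_lit 113) (nat_lit 5) (nat_lit 463) (nat_lit 383) (nat_lit 354)) (XT.lf (nat_lit 0) (nat_lit 9326467585) (nat_lit 304) (nat_lit 704103599) (nat_lit 76) (nat_lit 1445131413) (nat_lit 109) (nat_lit 5) (nat_lit 113) (nat_lit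 5) (nat_lit 110) (nat_lit 4) (nat_lit 464) (nat_lit 383) (nat_lit 353)))) (XT.nd (nat_lit 156) (nat_lit 228) (nat_lit 0) (XT.nd (nat_lit 78) (nat_lit 228) (nat_lit 0) (XT.lf (nat_lit 0) (nat_lit 2104871177) (nat_lit 228) (nat_lit 3686229652) (nat_lit 76) (nat_lit 5872398124) (nat_lit 106) (nat_lit 5) (nat_lit 109) (nat_lit 5) (nat_lit 107) (nat_lit 5) (nat_lit 465) (nat_lit 383) (nat_lit 352)) (XT.lf (nat_lit 0) (nat_lit 5038478546) (nat_lit 228) (nat_lit 1392068979) (nat_lit 304) (nat_lit 5426135756) (nat_lit 103) (nat_lit 5) (nat_lit 106) (nat_lit 5) (nat_lit 107) (nat_lit 5) (nat_lit 466) (nat_lit 383) (nat_lit 351))) (XT.nd (nat_lit 78) (nat_lit 76) (nat_lit 0) (XT.lf (nat_lit 0) (nat_lit 1937463735) (nat_lit 152) (nat_lit 8966900192) (nat_lit 228) (nat_lit 1150754723) (nat_lit 101) (nat_lit 5) (nat_lit 103) (nat_lit 5) (nat_lit 104) (nat_lit 4) (nat_lit 467) (nat_lit 383) (nat_lit 350)) (XT.lf (nat_lit 0)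 (nat_lit 3204915710) (nat_lit 228) (nat_lit 1323574032) (nat_lit 76) (nat_lit 7729620394) (nat_lit 100) (nat_lit 5) (nat_lit 103) (nat_lit 5) (nat_lit 101) (nat_lit 5) (nat_lit 468) (nat_lit 383) (nat_lit 349))))))) (XT.nd (nat_lit 1170) (nat_lit 1596) (nat_lit 0) (XT.nd (nat_lit 546) (nat_lit 1140) (nat_lit 0) (XT.nd (nat_lit 234) (nat_lit 380) (nat_lit 0) (XT.nd (nat_lit 78) (nat_lit 456) (nat_lit 0) (XT.lf (nat_lit 0) (nat_lit 7677718179) (nat_lit 304) (nat_lit 4705602287) (nat_lit 76) (nat_lit 83247409) (nat_lit 97) (nat_lit 5) (nat_lit 101) (nat_lit 5) (nat_lit 98) (nat_lit 4) (nat_lit 469) (nat_lit 383) (nat_lit 348)) (XT.nd (nat_lit 78) (nat_lit 304) (nat_lit 0) (XT.lf (nat_lit 0) (nat_lit 4392035506) (nat_lit 152) (nat_lit 7927785028) (nat_lit 228) (nat_lit 360411203) (nat_lit 95) (nat_lit 5) (nat_lit 97) (nat_lit 5) (nat_lit 98) (nat_lit 4) (nat_lit 470) (nat_lit 383) (nat_lit 347)) (XT.lf (nat_lit 0)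 (nat_lit 822183088) (nat_lit 228) (nat_lit 3287361871) (nat_lit 304) (nat_lit 8789835481) (nat_lit 91) (nat_lit 5) (nat_lit 94) (nat_lit 5) (nat_lit 95) (nat_lit 5) (nat_lit 471) (nat_lit 383) (nat_lit 346)))) (XT.nd (nat_lit 156) (nat_lit 152) (nat_lit 0) (XT.nd (nat_lit 78) (nat_lit 228) (nat_lit 0) (XT.lf (nat_lit 0) (nat_lit 8740336503) (nat_lit 304) (nat_lit 2879122712) (nat_lit 76) (nat_lit 1504523287) (nat_lit 91) (nat_lit 5) (nat_lit 95) (nat_lit 5) (nat_lit 92) (nat_lit 4) (nat_lit 472) (nat_lit 383) (nat_lit 345)) (XT.lf (nat_lit 0) (nat_lit 184836169) (nat_lit 228) (nat_lit 6775654720) (nat_lit 76) (nat_lit 6393798388) (nat_lit 88) (nat_lit 5) (nat_lit 91) (nat_lit 5) (nat_lit 89) (nat_lit 5) (nat_lit 473) (nat_lit 383) (nat_lit 344))) (XT.nd (nat_lit 78) (nat_lit 0) (nat_lit 0) (XT.lf (nat_lit 0) (nat_lit 2686821204) (nat_lit 152) (nat_lit 2107800567) (nat_lit 228) (nat_lit 8795815648) (nat_lit 86)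 (nat_lit 5) (nat_lit 88) (nat_lit 5) (nat_lit 89) (nat_lit 5) (nat_lit 474) (nat_lit 383) (nat_lit 343)) (XT.lf (nat_lit 0) (nat_lit 9577075745) (nat_lit 228) (nat_lit 1398771999) (nat_lit 76) (nat_lit 2856795788) (nat_lit 86) (nat_lit 5) (nat_lit 89) (nat_lit 5) (nat_lit 87) (nat_lit 4) (nat_lit 475) (nat_lit 383) (nat_lit 342))))) (XT.nd (nat_lit 312) (nat_lit 532) (nat_lit 0) (XT.nd (nat_lit 156) (nat_lit 228) (nat_lit 0) (XT.nd (nat_lit 78) (nat_lit 152) (nat_lit 0) (XT.lf (nat_lit 0) (nat_lit 454267271) (nat_lit 228) (nat_lit 5658075841) (nat_lit 76) (nat_lit 7968408054) (nat_lit 83) (nat_lit 5) (nat_lit 86) (nat_lit 5) (nat_lit 84) (nat_lit 5) (nat_lit 476) (nat_lit 383) (nat_lit 341)) (XT.lf (nat_lit 0) (nat_lit 4162831931) (nat_lit 152) (nat_lit 1050771513) (nat_lit 228) (nat_lit 9121626759) (nat_lit 81) (nat_lit 5) (nat_lit 83) (nat_lit 5) (nat_lit 84) (nat_lit 5) (nat_lit 477) (nat_lit 383) (nat_lit 340)))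 (XT.nd (nat_lit 78) (nat_lit 228) (nat_lit 0) (XT.lf (nat_lit 0) (nat_lit 10153181359) (nat_lit 228) (nat_lit 349836626) (nat_lit 76) (nat_lit 4093206014) (nat_lit 81) (nat_lit 5) (nat_lit 84) (nat_lit 5) (nat_lit 82) (nat_lit 4) (nat_lit 478) (nat_lit 383) (nat_lit 339)) (XT.lf (nat_lit 0) (nat_lit 415554821) (nat_lit 228) (nat_lit 5023468971) (nat_lit 76) (nat_lit 9424509683) (nat_lit 78) (nat_lit 5) (nat_lit 81) (nat_lit 5) (nat_lit 79) (nat_lit 5) (nat_lit 479) (nat_lit 383) (nat_lit 338)))) (XT.nd (nat_lit 156) (nat_lit 228) (nat_lit 0) (XT.nd (nat_lit 78) (nat_lit 152) (nat_lit 0) (XT.lf (nat_lit 0) (nat_lit 5155686105) (nat_lit 152) (nat_lit 169681989) (nat_lit 228) (nat_lit 9812335546) (nat_lit 76) (nat_lit 5) (nat_lit 78) (nat_lit 5) (nat_lit 79) (nat_lit 5) (nat_lit 480) (nat_lit 383) (nat_lit 337)) (XT.lf (nat_lit 0) (nat_lit 171690407) (nat_lit 152) (nat_lit 10256093263) (nat_lit 228) (nat_lit 4990959768)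 (nat_lit 74) (nat_lit 5) (nat_lit 76) (nat_lit 5) (nat_lit 77) (nat_lit 4) (nat_lit 481) (nat_lit 383) (nat_lit 336))) (XT.nd (nat_lit 78) (nat_lit 152) (nat_lit 0) (XT.lf (nat_lit 0) (nat_lit 21027144) (nat_lit 228) (nat_lit 4978355577) (nat_lit 76) (nat_lit 10707477958) (nat_lit 73) (nat_lit 5) (nat_lit 76) (nat_lit 5) (nat_lit 74) (nat_lit 5) (nat_lit 482) (nat_lit 383) (nat_lit 335)) (XT.lf (nat_lit 0) (nat_lit 5084720205) (nat_lit 228) (nat_lit 10451697034) (nat_lit 76) (nat_lit 465675385) (nat_lit 71) (nat_lit 5) (nat_lit 74) (nat_lit 5) (nat_lit 72) (nat_lit 4) (nat_lit 483) (nat_lit 383) (nat_lit 334)))))) (XT.nd (nat_lit 624) (nat_lit 836) (nat_lit 0) (XT.nd (nat_lit 312) (nat_lit 380) (nat_lit 0) (XT.nd (nat_lit 156) (nat_lit 228) (nat_lit 0) (XT.nd (nat_lit 78) (nat_lit 0) (nat_lit 0) (XT.lf (nat_lit 0) (nat_lit 40664061) (nat_lit 152) (nat_lit 10304242048) (nat_lit 228) (nat_lit 5959941304) (nat_lit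 69) (nat_lit 5) (nat_lit 71) (nat_lit 5) (nat_lit 72) (nat_lit 4) (nat_lit 484) (nat_lit 383) (nat_lit 333)) (XT.lf (nat_lit 0) (nat_lit 10960530446) (nat_lit 152) (nat_lit 4852489234) (nat_lit 228) (nat_lit 802164750) (nat_lit 69) (nat_lit 5) (nat_lit 71) (nat_lit 5) (nat_lit 72) (nat_lit 4) (nat_lit 485) (nat_lit 383) (nat_lit 332))) (XT.nd (nat_lit 78) (nat_lit 0) (nat_lit 0) (XT.lf (nat_lit 0) (nat_lit 4426110948) (nat_lit 228) (nat_lit 11709217279) (nat_lit 76) (nat_lit 798092340) (nat_lit 66) (nat_lit 5) (nat_lit 69) (nat_lit 5) (nat_lit 67) (nat_lit 4) (nat_lit 486) (nat_lit 383) (nat_lit 331)) (XT.lf (nat_lit 0) (nat_lit 9846683850) (nat_lit 228) (nat_lit 870549655) (nat_lit 76) (nat_lit 6542187840) (nat_lit 66) (nat_lit 5) (nat_lit 69) (nat_lit 5) (nat_lit 67) (nat_lit 4) (nat_lit 487) (nat_lit 383) (nat_lit 330)))) (XT.nd (nat_lit 156) (nat_lit 76) (nat_lit 0) (XT.nd (nat_lit 78) (nat_lit 228) (nat_lit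 0) (XT.lf (nat_lit 0) (nat_lit 10399265303) (nat_lit 76) (nat_lit 5078010528) (nat_lit 152) (nat_lit 2116507144) (nat_lit 65) (nat_lit 5) (nat_lit 66) (nat_lit 5) (nat_lit 67) (nat_lit 4) (nat_lit 488) (nat_lit 383) (nat_lit 329)) (XT.lf (nat_lit 0) (nat_lit 3276053829) (nat_lit 228) (nat_lit 13908079514) (nat_lit 76) (nat_lit 753004289) (nat_lit 62) (nat_lit 5) (nat_lit 65) (nat_lit 5) (nat_lit 63) (nat_lit 4) (nat_lit 489) (nat_lit 383) (nat_lit 328))) (XT.nd (nat_lit 78) (nat_lit 76) (nat_lit 0) (XT.lf (nat_lit 0) (nat_lit 8859207579) (nat_lit 228) (nat_lit 2720962497) (nat_lit 76) (nat_lit 6707856159) (nat_lit 62) (nat_lit 5) (nat_lit 65) (nat_lit 5) (nat_lit 63) (nat_lit 4) (nat_lit 490) (nat_lit 383) (nat_lit 327)) (XT.lf (nat_lit 0) (nat_lit 8880674930) (nat_lit 76) (nat_lit 5763779023) (nat_lit 152) (nat_lit 4003952166) (nat_lit 61) (nat_lit 5) (nat_lit 62) (nat_lit 5) (nat_lit 63) (nat_lit 4) (nat_lit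 491) (nat_lit 383) (nat_lit 326))))) (XT.nd (nat_lit 312) (nat_lit 532) (nat_lit 0) (XT.nd (nat_lit 156) (nat_lit 76) (nat_lit 0) (XT.nd (nat_lit 78) (nat_lit 0) (nat_lit 0) (XT.lf (nat_lit 0) (nat_lit 1549405894) (nat_lit 228) (nat_lit 17229299593) (nat_lit 76) (nat_lit 240538183) (nat_lit 58) (nat_lit 5) (nat_lit 61) (nat_lit 5) (nat_lit 59) (nat_lit 4) (nat_lit 492) (nat_lit 383) (nat_lit 325)) (XT.lf (nat_lit 0) (nat_lit 7295039892) (nat_lit 228) (nat_lit 5695990385) (nat_lit 76) (nat_lit 6405804606) (nat_lit 58) (nat_lit 5) (nat_lit 61) (nat_lit 5) (nat_lit 59) (nat_lit 4) (nat_lit 493) (nat_lit 383) (nat_lit 324))) (XT.nd (nat_lit 78) (nat_lit 0) (nat_lit 0) (XT.lf (nat_lit 0) (nat_lit 6212671237) (nat_lit 76) (nat_lit 7011035390) (nat_lit 152) (nat_lit 6561729570) (nat_lit 57) (nat_lit 5) (nat_lit 58) (nat_lit 5) (nat_lit 59) (nat_lit 4) (nat_lit 494) (nat_lit 383) (nat_lit 323)) (XT.lf (nat_lit 0) (nat_lit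 18504377241) (nat_lit 76) (nat_lit 834872471) (nat_lit 152) (nat_lit 846177562) (nat_lit 57) (nat_lit 5) (nat_lit 58) (nat_lit 5) (nat_lit 59) (nat_lit 4) (nat_lit 495) (nat_lit 383) (nat_lit 322)))) (XT.nd (nat_lit 156) (nat_lit 228) (nat_lit 0) (XT.nd (nat_lit 78) (nat_lit 76) (nat_lit 0) (XT.lf (nat_lit 0) (nat_lit 5051386151) (nat_lit 228) (nat_lit 10011286190) (nat_lit 76) (nat_lit 5530026854) (nat_lit 54) (nat_lit 5) (nat_lit 57) (nat_lit 5) (nat_lit 55) (nat_lit 4) (nat_lit 496) (nat_lit 383) (nat_lit 321)) (XT.lf (nat_lit 0) (nat_lit 2170658943) (nat_lit 76) (nat_lit 8937065654) (nat_lit 152) (nat_lit 9904249708) (nat_lit 53) (nat_lit 5) (nat_lit 54) (nat_lit 5) (nat_lit 55) (nat_lit 4) (nat_lit 497) (nat_lit 383) (nat_lit 320))) (XT.nd (nat_lit 78) (nat_lit 228) (nat_lit 0) (XT.lf (nat_lit 0) (nat_lit 14834744511) (nat_lit 76) (nat_lit 2565213117) (nat_lit 152) (nat_lit 4042245871) (nat_lit 53) (nat_lit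 5) (nat_lit 54) (nat_lit 5) (nat_lit 55) (nat_lit 4) (nat_lit 498) (nat_lit 383) (nat_lit 319)) (XT.lf (nat_lit 0) (nat_lit 2007216215) (nat_lit 228) (nat_lit 15918688857) (nat_lit 76) (nat_lit 3957344661) (nat_lit 50) (nat_lit 5) (nat_lit 53) (nat_lit 5) (nat_lit 51) (nat_lit 4) (nat_lit 499) (nat_lit 383) (nat_lit 318))))))))
noncomputable def xc60 : XT := (XT.nd (nat_lit 2340) (nat_lit 836) (nat_lit 0) (XT.nd (nat_lit 1170) (nat_lit 836) (nat_lit 0) (XT.nd (nat_lit 546) (nat_lit 456) (nat_lit 0) (XT.nd (nat_lit 234) (nat_lit 380) (nat_lit 0) (XT.nd (nat_lit 78) (nat_lit 76) (nat_lit 0) (XT.lf (nat_lit 0) (nat_lit 8203843664) (nat_lit 228) (nat_lit 3439420548) (nat_lit 76) (nat_lit 10691656477) (nat_lit 50) (nat_lit 5) (nat_lit 53) (nat_lit 5) (nat_lit 51) (nat_lit 4) (nat_lit 500) (nat_lit 383) (nat_lit 317)) (XT.nd (nat_lit 78) (nat_lit 0) (nat_lit 0) (XT.lf (nat_lit 0) (nat_lit 9515438690) (nat_lit 76) (nat_lit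 5117880524) (nat_lit 152) (nat_lit 8165415827) (nat_lit 49) (nat_lit 5) (nat_lit 50) (nat_lit 5) (nat_lit 51) (nat_lit 4) (nat_lit 501) (nat_lit 383) (nat_lit 316)) (XT.lf (nat_lit 0) (nat_lit 21261758819) (nat_lit 152) (nat_lit 446310047) (nat_lit 0) (nat_lit 1568214259) (nat_lit 49) (nat_lit 5) (nat_lit 51) (nat_lit 4) (nat_lit 49) (nat_lit 4) (nat_lit 502) (nat_lit 383) (nat_lit 315)))) (XT.nd (nat_lit 156) (nat_lit 76) (nat_lit 0) (XT.nd (nat_lit 78) (nat_lit 76) (nat_lit 0) (XT.lf (nat_lit 0) (nat_lit 4369387597) (nat_lit 228) (nat_lit 10912434631) (nat_lit 76) (nat_lit 8481106673) (nat_lit 46) (nat_lit 5) (nat_lit 49) (nat_lit 5) (nat_lit 47) (nat_lit 4) (nat_lit 503) (nat_lit 383) (nat_lit 314)) (XT.lf (nat_lit 0) (nat_lit 2232719608) (nat_lit 76) (nat_lit 8654557779) (nat_lit 152) (nat_lit 13376811329) (nat_lit 45) (nat_lit 5) (nat_lit 46) (nat_lit 5) (nat_lit 47) (nat_lit 4) (nat_lit 504) (nat_lit 383)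 (nat_lit 313))) (XT.nd (nat_lit 78) (nat_lit 76) (nat_lit 0) (XT.lf (nat_lit 0) (nat_lit 15914557111) (nat_lit 76) (nat_lit 1753749814) (nat_lit 152) (nat_lit 7109949814) (nat_lit 45) (nat_lit 5) (nat_lit 46) (nat_lit 5) (nat_lit 47) (nat_lit 4) (nat_lit 505) (nat_lit 383) (nat_lit 312)) (XT.lf (nat_lit 0) (nat_lit 4658562740) (nat_lit 76) (nat_lit 20048739793) (nat_lit 76) (nat_lit 598912677) (nat_lit 44) (nat_lit 4) (nat_lit 45) (nat_lit 5) (nat_lit 45) (nat_lit 4) (nat_lit 506) (nat_lit 383) (nat_lit 311))))) (XT.nd (nat_lit 312) (nat_lit 228) (nat_lit 0) (XT.nd (nat_lit 156) (nat_lit 76) (nat_lit 0) (XT.nd (nat_lit 78) (nat_lit 76) (nat_lit 0) (XT.lf (nat_lit 0) (nat_lit 6054365426) (nat_lit 152) (nat_lit 7236019150) (nat_lit 76) (nat_lit 12555885331) (nat_lit 43) (nat_lit 5) (nat_lit 45) (nat_lit 5) (nat_lit 44) (nat_lit 4) (nat_lit 507) (nat_lit 383) (nat_lit 310)) (XT.lf (nat_lit 0) (nat_lit 6623689883)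 (nat_lit 76) (nat_lit 6294731287) (nat_lit 152) (nat_lit 13483232012) (nat_lit 42) (nat_lit 5) (nat_lit 43) (nat_lit 5) (nat_lit 44) (nat_lit 4) (nat_lit 508) (nat_lit 383) (nat_lit 309))) (XT.nd (nat_lit 78) (nat_lit 76) (nat_lit 0) (XT.lf (nat_lit 0) (nat_lit 20030578382) (nat_lit 152) (nat_lit 6011145487) (nat_lit 0) (nat_lit 930709993) (nat_lit 42) (nat_lit 5) (nat_lit 44) (nat_lit 4) (nat_lit 42) (nat_lit 4) (nat_lit 509) (nat_lit 383) (nat_lit 308)) (XT.lf (nat_lit 0) (nat_lit 8190764139) (nat_lit 76) (nat_lit 19267202297) (nat_lit 76) (nat_lit 99316803) (nat_lit 41) (nat_lit 4) (nat_lit 42) (nat_lit 5) (nat_lit 42) (nat_lit 4) (nat_lit 510) (nat_lit 383) (nat_lit 307)))) (XT.nd (nat_lit 156) (nat_lit 76) (nat_lit 0) (XT.nd (nat_lit 78) (nat_lit 76) (nat_lit 0) (XT.lf (nat_lit 0) (nat_lit 6835055614) (nat_lit 152) (nat_lit 5358758619) (nat_lit 76) (nat_lit 15963196823) (nat_lit 40) (nat_lit 5) (nat_lit 42)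 (nat_lit 5) (nat_lit 41) (nat_lit 4) (nat_lit 511) (nat_lit 383) (nat_lit 306)) (XT.lf (nat_lit 0) (nat_lit 9174006160) (nat_lit 76) (nat_lit 4851629466) (nat_lit 152) (nat_lit 14747561559) (nat_lit 39) (nat_lit 5) (nat_lit 40) (nat_lit 5) (nat_lit 41) (nat_lit 4) (nat_lit 512) (nat_lit 383) (nat_lit 305))) (XT.nd (nat_lit 78) (nat_lit 76) (nat_lit 0) (XT.lf (nat_lit 0) (nat_lit 21474700236) (nat_lit 152) (nat_lit 5253574345) (nat_lit 0) (nat_lit 2678312421) (nat_lit 39) (nat_lit 5) (nat_lit 41) (nat_lit 4) (nat_lit 39) (nat_lit 4) (nat_lit 513) (nat_lit 383) (nat_lit 304)) (XT.lf (nat_lit 0) (nat_lit 9590314362) (nat_lit 76) (nat_lit 19660311764) (nat_lit 76) (nat_lit 805251797) (nat_lit 38) (nat_lit 4) (nat_lit 39) (nat_lit 5) (nat_lit 39) (nat_lit 4) (nat_lit 514) (nat_lit 383) (nat_lit 303)))))) (XT.nd (nat_lit 546) (nat_lit 456) (nat_lit 0) (XT.nd (nat_lit 234) (nat_lit 228) (nat_lit 0) (XT.nd (nat_lit 78)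 (nat_lit 76) (nat_lit 0) (XT.lf (nat_lit 0) (nat_lit 6424432073) (nat_lit 152) (nat_lit 5870426112) (nat_lit 76) (nat_lit 18427402563) (nat_lit 37) (nat_lit 5) (nat_lit 39) (nat_lit 5) (nat_lit 38) (nat_lit 4) (nat_lit 515) (nat_lit 383) (nat_lit 302)) (XT.nd (nat_lit 78) (nat_lit 0) (nat_lit 0) (XT.lf (nat_lit 0) (nat_lit 9266247924) (nat_lit 76) (nat_lit 4641917236) (nat_lit 152) (nat_lit 17498631405) (nat_lit 36) (nat_lit 5) (nat_lit 37) (nat_lit 5) (nat_lit 38) (nat_lit 4) (nat_lit 516) (nat_lit 383) (nat_lit 301)) (XT.lf (nat_lit 0) (nat_lit 21671762136) (nat_lit 152) (nat_lit 7233694967) (nat_lit 0) (nat_lit 3204751764) (nat_lit 36) (nat_lit 5) (nat_lit 38) (nat_lit 4) (nat_lit 36) (nat_lit 4) (nat_lit 517) (nat_lit 383) (nat_lit 300)))) (XT.nd (nat_lit 156) (nat_lit 76) (nat_lit 0) (XT.nd (nat_lit 78) (nat_lit 76) (nat_lit 0) (XT.lf (nat_lit 0) (nat_lit 8166552534) (nat_lit 76) (nat_lit 21591549194) (nat_lit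 76) (nat_lit 3073927708) (nat_lit 35) (nat_lit 4) (nat_lit 36) (nat_lit 5) (nat_lit 36) (nat_lit 4) (nat_lit 518) (nat_lit 383) (nat_lit 299)) (XT.lf (nat_lit 0) (nat_lit 4462662068) (nat_lit 152) (nat_lit 9507554490) (nat_lit 76) (nat_lit 19602812783) (nat_lit 34) (nat_lit 5) (nat_lit 36) (nat_lit 5) (nat_lit 35) (nat_lit 4) (nat_lit 519) (nat_lit 383) (nat_lit 298))) (XT.nd (nat_lit 78) (nat_lit 0) (nat_lit 0) (XT.lf (nat_lit 0) (nat_lit 6128986173) (nat_lit 76) (nat_lit 6059905694) (nat_lit 152) (nat_lit 22145695430) (nat_lit 33) (nat_lit 5) (nat_lit 34) (nat_lit 5) (nat_lit 35) (nat_lit 4) (nat_lit 520) (nat_lit 383) (nat_lit 297)) (XT.lf (nat_lit 0) (nat_lit 20230399888) (nat_lit 152) (nat_lit 12772951085) (nat_lit 0) (nat_lit 2113137113) (nat_lit 33) (nat_lit 5) (nat_lit 35) (nat_lit 4) (nat_lit 33) (nat_lit 4) (nat_lit 521) (nat_lit 383) (nat_lit 296))))) (XT.nd (nat_lit 312) (nat_lit 228) (nat_lit 0) (XT.nd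 (nat_lit 156) (nat_lit 76) (nat_lit 0) (XT.nd (nat_lit 78) (nat_lit 76) (nat_lit 0) (XT.lf (nat_lit 0) (nat_lit 3058934327) (nat_lit 76) (nat_lit 25511063700) (nat_lit 76) (nat_lit 7350143334) (nat_lit 32) (nat_lit 4) (nat_lit 33) (nat_lit 5) (nat_lit 33) (nat_lit 4) (nat_lit 522) (nat_lit 383) (nat_lit 295)) (XT.lf (nat_lit 0) (nat_lit 501567667) (nat_lit 152) (nat_lit 17185124012) (nat_lit 76) (nat_lit 19058162791) (nat_lit 31) (nat_lit 5) (nat_lit 33) (nat_lit 5) (nat_lit 32) (nat_lit 4) (nat_lit 523) (nat_lit 383) (nat_lit 294))) (XT.nd (nat_lit 78) (nat_lit 76) (nat_lit 0) (XT.lf (nat_lit 0) (nat_lit 8409513225) (nat_lit 152) (nat_lit 1173145997) (nat_lit 76) (nat_lit 28010414866) (nat_lit 31) (nat_lit 5) (nat_lit 33) (nat_lit 5) (nat_lit 32) (nat_lit 4) (nat_lit 524) (nat_lit 383) (nat_lit 293)) (XT.lf (nat_lit 0) (nat_lit 15563063558) (nat_lit 76) (nat_lit 1110569093) (nat_lit 152) (nat_lit 21789540296)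 (nat_lit 30) (nat_lit 5) (nat_lit 31) (nat_lit 5) (nat_lit 32) (nat_lit 4) (nat_lit 525) (nat_lit 383) (nat_lit 292)))) (XT.nd (nat_lit 156) (nat_lit 152) (nat_lit 0) (XT.nd (nat_lit 78) (nat_lit 76) (nat_lit 0) (XT.lf (nat_lit 0) (nat_lit 25240225949) (nat_lit 152) (nat_lit 6666801560) (nat_lit 0) (nat_lit 7450711454) (nat_lit 30) (nat_lit 5) (nat_lit 32) (nat_lit 4) (nat_lit 30) (nat_lit 4) (nat_lit 526) (nat_lit 383) (nat_lit 291)) (XT.lf (nat_lit 0) (nat_lit 10183096306) (nat_lit 76) (nat_lit 23959874381) (nat_lit 76) (nat_lit 6133797341) (nat_lit 29) (nat_lit 4) (nat_lit 30) (nat_lit 5) (nat_lit 30) (nat_lit 4) (nat_lit 527) (nat_lit 383) (nat_lit 290))) (XT.nd (nat_lit 78) (nat_lit 76) (nat_lit 0) (XT.lf (nat_lit 0) (nat_lit 2086938186) (nat_lit 152) (nat_lit 13625090139) (nat_lit 76) (nat_lit 25509589313) (nat_lit 28) (nat_lit 5) (nat_lit 30) (nat_lit 5) (nat_lit 29) (nat_lit 4) (nat_lit 528) (nat_lit 383)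 (nat_lit 289)) (XT.lf (nat_lit 0) (nat_lit 3284458976) (nat_lit 76) (nat_lit 7149283555) (nat_lit 152) (nat_lit 31759167005) (nat_lit 27) (nat_lit 5) (nat_lit 28) (nat_lit 5) (nat_lit 29) (nat_lit 4) (nat_lit 529) (nat_lit 383) (nat_lit 288))))))) (XT.nd (nat_lit 1170) (nat_lit 304) (nat_lit 0) (XT.nd (nat_lit 546) (nat_lit 304) (nat_lit 0) (XT.nd (nat_lit 234) (nat_lit 152) (nat_lit 0) (XT.nd (nat_lit 78) (nat_lit 76) (nat_lit 0) (XT.lf (nat_lit 0) (nat_lit 19157153850) (nat_lit 152) (nat_lit 22282526884) (nat_lit 0) (nat_lit 1749873974) (nat_lit 27) (nat_lit 5) (nat_lit 29) (nat_lit 4) (nat_lit 27) (nat_lit 4) (nat_lit 530) (nat_lit 383) (nat_lit 287)) (XT.nd (nat_lit 78) (nat_lit 76) (nat_lit 0) (XT.lf (nat_lit 0) (nat_lit 28185088940) (nat_lit 152) (nat_lit 5283456346) (nat_lit 0) (nat_lit 10746269892) (nat_lit 27) (nat_lit 5) (nat_lit 29) (nat_lit 4) (nat_lit 27) (nat_lit 4) (nat_lit 531) (nat_lit 383) (nat_lit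 286)) (XT.lf (nat_lit 0) (nat_lit 12414591288) (nat_lit 76) (nat_lit 25161458360) (nat_lit 76) (nat_lit 7692018755) (nat_lit 26) (nat_lit 4) (nat_lit 27) (nat_lit 5) (nat_lit 27) (nat_lit 4) (nat_lit 532) (nat_lit 383) (nat_lit 285)))) (XT.nd (nat_lit 156) (nat_lit 0) (nat_lit 0) (XT.nd (nat_lit 78) (nat_lit 76) (nat_lit 0) (XT.lf (nat_lit 0) (nat_lit 905088369) (nat_lit 152) (nat_lit 15661838910) (nat_lit 76) (nat_lit 29784931672) (nat_lit 25) (nat_lit 5) (nat_lit 27) (nat_lit 5) (nat_lit 26) (nat_lit 4) (nat_lit 533) (nat_lit 383) (nat_lit 284)) (XT.lf (nat_lit 0) (nat_lit 1955839905) (nat_lit 76) (nat_lit 7642126112) (nat_lit 152) (nat_lit 37868139183) (nat_lit 24) (nat_lit 5) (nat_lit 25) (nat_lit 5) (nat_lit 26) (nat_lit 4) (nat_lit 534) (nat_lit 383) (nat_lit 283))) (XT.nd (nat_lit 78) (nat_lit 0) (nat_lit 0) (XT.lf (nat_lit 0) (nat_lit 18699945159) (nat_lit 152) (nat_lit 28254151470) (nat_lit 0) (nat_lit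 1655233257) (nat_lit 24) (nat_lit 5) (nat_lit 26) (nat_lit 4) (nat_lit 24) (nat_lit 4) (nat_lit 535) (nat_lit 383) (nat_lit 282)) (XT.lf (nat_lit 0) (nat_lit 28125106389) (nat_lit 152) (nat_lit 10606260806) (nat_lit 0) (nat_lit 11053980927) (nat_lit 24) (nat_lit 5) (nat_lit 26) (nat_lit 4) (nat_lit 24) (nat_lit 4) (nat_lit 536) (nat_lit 383) (nat_lit 281))))) (XT.nd (nat_lit 312) (nat_lit 76) (nat_lit 0) (XT.nd (nat_lit 156) (nat_lit 152) (nat_lit 0) (XT.nd (nat_lit 78) (nat_lit 0) (nat_lit 0) (XT.lf (nat_lit 0) (nat_lit 7671996254) (nat_lit 76) (nat_lit 30209976161) (nat_lit 76) (nat_lit 13113206465) (nat_lit 23) (nat_lit 4) (nat_lit 24) (nat_lit 5) (nat_lit 24) (nat_lit 4) (nat_lit 537) (nat_lit 383) (nat_lit 280)) (XT.lf (nat_lit 0) (nat_lit 26667718594) (nat_lit 76) (nat_lit 21346388284) (nat_lit 76) (nat_lit 4224721273) (nat_lit 23) (nat_lit 4) (nat_lit 24) (nat_lit 5) (nat_lit 24) (nat_lit 4) (nat_lit 538)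 (nat_lit 383) (nat_lit 279))) (XT.nd (nat_lit 78) (nat_lit 76) (nat_lit 0) (XT.lf (nat_lit 0) (nat_lit 4810146691) (nat_lit 152) (nat_lit 7381241376) (nat_lit 76) (nat_lit 41327699288) (nat_lit 22) (nat_lit 5) (nat_lit 24) (nat_lit 5) (nat_lit 23) (nat_lit 4) (nat_lit 539) (nat_lit 383) (nat_lit 278)) (XT.lf (nat_lit 0) (nat_lit 11490726294) (nat_lit 76) (nat_lit 2627516839) (nat_lit 152) (nat_lit 40715643903) (nat_lit 21) (nat_lit 5) (nat_lit 22) (nat_lit 5) (nat_lit 23) (nat_lit 4) (nat_lit 540) (nat_lit 383) (nat_lit 277)))) (XT.nd (nat_lit 156) (nat_lit 76) (nat_lit 0) (XT.nd (nat_lit 78) (nat_lit 0) (nat_lit 0) (XT.lf (nat_lit 0) (nat_lit 23826957349) (nat_lit 152) (nat_lit 25221926470) (nat_lit 0) (nat_lit 7135606052) (nat_lit 21) (nat_lit 5) (nat_lit 23) (nat_lit 4) (nat_lit 21) (nat_lit 4) (nat_lit 541) (nat_lit 383) (nat_lit 276)) (XT.lf (nat_lit 0) (nat_lit 33830293970) (nat_lit 152) (nat_lit 6627750359)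 (nat_lit 0) (nat_lit 17117466031) (nat_lit 21) (nat_lit 5) (nat_lit 23) (nat_lit 4) (nat_lit 21) (nat_lit 4) (nat_lit 542) (nat_lit 383) (nat_lit 275))) (XT.nd (nat_lit 78) (nat_lit 0) (nat_lit 0) (XT.lf (nat_lit 0) (nat_lit 12729266057) (nat_lit 76) (nat_lit 31504831912) (nat_lit 76) (nat_lit 14771152864) (nat_lit 20) (nat_lit 4) (nat_lit 21) (nat_lit 5) (nat_lit 21) (nat_lit 4) (nat_lit 543) (nat_lit 383) (nat_lit 274)) (XT.lf (nat_lit 0) (nat_lit 32759901826) (nat_lit 76) (nat_lit 22235275044) (nat_lit 76) (nat_lit 5481352200) (nat_lit 20) (nat_lit 4) (nat_lit 21) (nat_lit 5) (nat_lit 21) (nat_lit 4) (nat_lit 544) (nat_lit 383) (nat_lit 273)))))) (XT.nd (nat_lit 546) (nat_lit 76) (nat_lit 0) (XT.nd (nat_lit 234) (nat_lit 76) (nat_lit 0) (XT.nd (nat_lit 78) (nat_lit 76) (nat_lit 0) (XT.lf (nat_lit 0) (nat_lit 3986045495) (nat_lit 152) (nat_lit 8681904656) (nat_lit 76) (nat_lit 49323457478) (nat_lit 19) (nat_lit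 5) (nat_lit 21) (nat_lit 5) (nat_lit 20) (nat_lit 4) (nat_lit 545) (nat_lit 383) (nat_lit 272)) (XT.nd (nat_lit 78) (nat_lit 0) (nat_lit 0) (XT.lf (nat_lit 0) (nat_lit 11044200385) (nat_lit 76) (nat_lit 2668538095) (nat_lit 152) (nat_lit 49834802992) (nat_lit 18) (nat_lit 5) (nat_lit 19) (nat_lit 5) (nat_lit 20) (nat_lit 4) (nat_lit 546) (nat_lit 383) (nat_lit 271)) (XT.lf (nat_lit 0) (nat_lit 23872424467) (nat_lit 152) (nat_lit 33722813480) (nat_lit 0) (nat_lit 7550885950) (nat_lit 18) (nat_lit 5) (nat_lit 20) (nat_lit 4) (nat_lit 18) (nat_lit 4) (nat_lit 547) (nat_lit 383) (nat_lit 270)))) (XT.nd (nat_lit 156) (nat_lit 0) (nat_lit 0) (XT.nd (nat_lit 78) (nat_lit 76) (nat_lit 0) (XT.lf (nat_lit 0) (nat_lit 34343226585) (nat_lit 152) (nat_lit 14445022173) (nat_lit 0) (nat_lit 18004225594) (nat_lit 18) (nat_lit 5) (nat_lit 20) (nat_lit 4) (nat_lit 18) (nat_lit 4) (nat_lit 548) (nat_lit 383) (nat_lit 269)) (XT.lf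 (nat_lit 0) (nat_lit 5479452989) (nat_lit 76) (nat_lit 39681861325) (nat_lit 76) (nat_lit 23325906474) (nat_lit 17) (nat_lit 4) (nat_lit 18) (nat_lit 5) (nat_lit 18) (nat_lit 4) (nat_lit 549) (nat_lit 383) (nat_lit 268))) (XT.nd (nat_lit 78) (nat_lit 0) (nat_lit 0) (XT.lf (nat_lit 0) (nat_lit 26259575628) (nat_lit 76) (nat_lit 30170926244) (nat_lit 76) (nat_lit 13798511335) (nat_lit 17) (nat_lit 4) (nat_lit 18) (nat_lit 5) (nat_lit 18) (nat_lit 4) (nat_lit 550) (nat_lit 383) (nat_lit 267)) (XT.lf (nat_lit 0) (nat_lit 47626018864) (nat_lit 76) (nat_lit 20392999391) (nat_lit 76) (nat_lit 4004603844) (nat_lit 17) (nat_lit 4) (nat_lit 18) (nat_lit 5) (nat_lit 18) (nat_lit 4) (nat_lit 551) (nat_lit 383) (nat_lit 266))))) (XT.nd (nat_lit 53352) (nat_lit 0) (nat_lit 14136) (XT.nd (nat_lit 53196) (nat_lit 0) (nat_lit 15732) (XT.nd (nat_lit 53118) (nat_lit 0) (nat_lit 16872) (XT.lf (nat_lit 0) (nat_lit 5946036008) (nat_lit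 152) (nat_lit 4333457633) (nat_lit 76) (nat_lit 63591373094) (nat_lit 16) (nat_lit 5) (nat_lit 18) (nat_lit 5) (nat_lit 17) (nat_lit 4) (nat_lit 552) (nat_lit 383) (nat_lit 265)) (XT.lf (nat_lit 0) (nat_lit 1574336618) (nat_lit 608) (nat_lit 625333512) (nat_lit 0) (nat_lit 1574336618) (nat_lit 238) (nat_lit 5) (nat_lit 246) (nat_lit 4) (nat_lit 238) (nat_lit 4) (nat_lit 432) (nat_lit 384) (nat_lit 384))) (XT.nd (nat_lit 78) (nat_lit 608) (nat_lit 0) (XT.lf (nat_lit 0) (nat_lit 4727733797) (nat_lit 532) (nat_lit 2160158170) (nat_lit 532) (nat_lit 731750123) (nat_lit 231) (nat_lit 4) (nat_lit 238) (nat_lit 5) (nat_lit 238) (nat_lit 4) (nat_lit 433) (nat_lit 384) (nat_lit 383)) (XT.lf (nat_lit 0) (nat_lit 2931120130) (nat_lit 608) (nat_lit 4565200755) (nat_lit 0) (nat_lit 197904619) (nat_lit 223) (nat_lit 5) (nat_lit 231) (nat_lit 4) (nat_lit 223) (nat_lit 4) (nat_lit 434) (nat_lit 384) (nat_lit 382)))) (XT.nd (nat_lit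 156) (nat_lit 988) (nat_lit 0) (XT.nd (nat_lit 78) (nat_lit 76) (nat_lit 0) (XT.lf (nat_lit 0) (nat_lit 1499660332) (nat_lit 532) (nat_lit 5156300229) (nat_lit 532) (nat_lit 1115889009) (nat_lit 216) (nat_lit 4) (nat_lit 223) (nat_lit 5) (nat_lit 223) (nat_lit 4) (nat_lit 435) (nat_lit 384) (nat_lit 381)) (XT.lf (nat_lit 0) (nat_lit 2538007789) (nat_lit 608) (nat_lit 157377457) (nat_lit 76) (nat_lit 5157214602) (nat_lit 215) (nat_lit 5) (nat_lit 223) (nat_lit 5) (nat_lit 216) (nat_lit 4) (nat_lit 436) (nat_lit 384) (nat_lit 380))) (XT.nd (nat_lit 78) (nat_lit 532) (nat_lit 0) (XT.lf (nat_lit 0) (nat_lit 6131847220) (nat_lit 456) (nat_lit 111274857) (nat_lit 532) (nat_lit 1693420427) (nat_lit 209) (nat_lit 5) (nat_lit 215) (nat_lit 5) (nat_lit 216) (nat_lit 4) (nat_lit 437) (nat_lit 384) (nat_lit 379)) (XT.lf (nat_lit 0) (nat_lit 1972612733) (nat_lit 532) (nat_lit 3508178529) (nat_lit 76) (nat_lit 2542366935) (nat_lit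 202) (nat_lit 5) (nat_lit 209) (nat_lit 5) (nat_lit 203) (nat_lit 4) (nat_lit 438) (nat_lit 384) (nat_lit 378))))))))
noncomputable def xc61 : XT := (XT.nd (nat_lit 2340) (nat_lit 3572) (nat_lit 0) (XT.nd (nat_lit 1170) (nat_lit 2964) (nat_lit 0) (XT.nd (nat_lit 546) (nat_lit 2128) (nat_lit 0) (XT.nd (nat_lit 234) (nat_lit 1672) (nat_lit 0) (XT.nd (nat_lit 78) (nat_lit 532) (nat_lit 0) (XT.lf (nat_lit 0) (nat_lit 2867539983) (nat_lit 456) (nat_lit 2801288028) (nat_lit 532) (nat_lit 2444434544) (nat_lit 196) (nat_lit 5) (nat_lit 202) (nat_lit 5) (nat_lit 203) (nat_lit 4) (nat_lit 439) (nat_lit 384) (nat_lit 377)) (XT.nd (nat_lit 78) (nat_lit 0) (nat_lit 0) (XT.lf (nat_lit 0) (nat_lit 1191672721) (nat_lit 456) (nat_lit 8446380) (nat_lit 532) (nat_lit 7006952714) (nat_lit 189) (nat_lit 5) (nat_lit 195) (nat_lit 5) (nat_lit 196) (nat_lit 5) (nat_lit 440) (nat_lit 384) (nat_lit 376)) (XT.lf (nat_lit 0) (nat_lit 4895016173)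 (nat_lit 532) (nat_lit 546424395) (nat_lit 76) (nat_lit 2861843174) (nat_lit 189) (nat_lit 5) (nat_lit 196) (nat_lit 5) (nat_lit 190) (nat_lit 4) (nat_lit 441) (nat_lit 384) (nat_lit 375)))) (XT.nd (nat_lit 156) (nat_lit 836) (nat_lit 0) (XT.nd (nat_lit 78) (nat_lit 380) (nat_lit 0) (XT.lf (nat_lit 0) (nat_lit 262857155) (nat_lit 456) (nat_lit 2288140994) (nat_lit 76) (nat_lit 5852206302) (nat_lit 183) (nat_lit 5) (nat_lit 189) (nat_lit 5) (nat_lit 184) (nat_lit 5) (nat_lit 442) (nat_lit 384) (nat_lit 374)) (XT.lf (nat_lit 0) (nat_lit 3940522545) (nat_lit 456) (nat_lit 4095729782) (nat_lit 76) (nat_lit 469927813) (nat_lit 178) (nat_lit 5) (nat_lit 184) (nat_lit 5) (nat_lit 179) (nat_lit 4) (nat_lit 443) (nat_lit 384) (nat_lit 373))) (XT.nd (nat_lit 78) (nat_lit 456) (nat_lit 0) (XT.lf (nat_lit 0) (nat_lit 2651669870) (nat_lit 380) (nat_lit 5064340567) (nat_lit 456) (nat_lit 896626395) (nat_lit 173) (nat_lit 5)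 (nat_lit 178) (nat_lit 5) (nat_lit 179) (nat_lit 4) (nat_lit 444) (nat_lit 384) (nat_lit 372)) (XT.lf (nat_lit 0) (nat_lit 832029418) (nat_lit 380) (nat_lit 1957897311) (nat_lit 456) (nat_lit 5932633862) (nat_lit 167) (nat_lit 5) (nat_lit 172) (nat_lit 5) (nat_lit 173) (nat_lit 5) (nat_lit 445) (nat_lit 384) (nat_lit 371))))) (XT.nd (nat_lit 312) (nat_lit 1064) (nat_lit 0) (XT.nd (nat_lit 156) (nat_lit 684) (nat_lit 0) (XT.nd (nat_lit 78) (nat_lit 380) (nat_lit 0) (XT.lf (nat_lit 0) (nat_lit 6556741039) (nat_lit 456) (nat_lit 1025911174) (nat_lit 76) (nat_lit 1253248057) (nat_lit 167) (nat_lit 5) (nat_lit 173) (nat_lit 5) (nat_lit 168) (nat_lit 4) (nat_lit 446) (nat_lit 384) (nat_lit 370)) (XT.lf (nat_lit 0) (nat_lit 1449632409) (nat_lit 380) (nat_lit 2942191239) (nat_lit 76) (nat_lit 4560562723) (nat_lit 162) (nat_lit 5) (nat_lit 167) (nat_lit 5) (nat_lit 163) (nat_lit 5) (nat_lit 447) (nat_lit 384) (nat_lit 369)))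 (XT.nd (nat_lit 78) (nat_lit 304) (nat_lit 0) (XT.lf (nat_lit 0) (nat_lit 4146109659) (nat_lit 380) (nat_lit 1066585796) (nat_lit 456) (nat_lit 3859961953) (nat_lit 157) (nat_lit 5) (nat_lit 162) (nat_lit 5) (nat_lit 163) (nat_lit 5) (nat_lit 448) (nat_lit 384) (nat_lit 368)) (XT.lf (nat_lit 0) (nat_lit 2212523944) (nat_lit 304) (nat_lit 6868881627) (nat_lit 380) (nat_lit 115361774) (nat_lit 153) (nat_lit 5) (nat_lit 157) (nat_lit 5) (nat_lit 158) (nat_lit 4) (nat_lit 449) (nat_lit 384) (nat_lit 367)))) (XT.nd (nat_lit 156) (nat_lit 684) (nat_lit 0) (XT.nd (nat_lit 78) (nat_lit 0) (nat_lit 0) (XT.lf (nat_lit 0) (nat_lit 180286563) (nat_lit 304) (nat_lit 3470048202) (nat_lit 380) (nat_lit 5673746380) (nat_lit 148) (nat_lit 5) (nat_lit 152) (nat_lit 5) (nat_lit 153) (nat_lit 5) (nat_lit 450) (nat_lit 384) (nat_lit 366)) (XT.lf (nat_lit 0) (nat_lit 7518275565) (nat_lit 380) (nat_lit 1873021035) (nat_lit 76) (nat_lit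 64148019) (nat_lit 148) (nat_lit 5) (nat_lit 153) (nat_lit 5) (nat_lit 149) (nat_lit 4) (nat_lit 451) (nat_lit 384) (nat_lit 365))) (XT.nd (nat_lit 78) (nat_lit 304) (nat_lit 0) (XT.lf (nat_lit 0) (nat_lit 1884623529) (nat_lit 380) (nat_lit 4035851385) (nat_lit 76) (nat_lit 3669421877) (nat_lit 143) (nat_lit 5) (nat_lit 148) (nat_lit 5) (nat_lit 144) (nat_lit 5) (nat_lit 452) (nat_lit 384) (nat_lit 364)) (XT.lf (nat_lit 0) (nat_lit 3444764017) (nat_lit 304) (nat_lit 2312360372) (nat_lit 380) (nat_lit 3971444294) (nat_lit 139) (nat_lit 5) (nat_lit 143) (nat_lit 5) (nat_lit 144) (nat_lit 5) (nat_lit 453) (nat_lit 384) (nat_lit 363)))))) (XT.nd (nat_lit 546) (nat_lit 1444) (nat_lit 0) (XT.nd (nat_lit 234) (nat_lit 912) (nat_lit 0) (XT.nd (nat_lit 78) (nat_lit 380) (nat_lit 0) (XT.lf (nat_lit 0) (nat_lit 1254587227) (nat_lit 228) (nat_lit 8481444232) (nat_lit 304) (nat_lit 135673254) (nat_lit 136) (nat_lit 5) (nat_lit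 139) (nat_lit 5) (nat_lit 140) (nat_lit 4) (nat_lit 454) (nat_lit 384) (nat_lit 362)) (XT.nd (nat_lit 78) (nat_lit 304) (nat_lit 0) (XT.lf (nat_lit 0) (nat_lit 3751562207) (nat_lit 304) (nat_lit 1048195963) (nat_lit 76) (nat_lit 5217961558) (nat_lit 135) (nat_lit 5) (nat_lit 139) (nat_lit 5) (nat_lit 136) (nat_lit 5) (nat_lit 455) (nat_lit 384) (nat_lit 361)) (XT.lf (nat_lit 0) (nat_lit 6763170513) (nat_lit 304) (nat_lit 980608659) (nat_lit 380) (nat_lit 2424572972) (nat_lit 131) (nat_lit 5) (nat_lit 135) (nat_lit 5) (nat_lit 136) (nat_lit 5) (nat_lit 456) (nat_lit 384) (nat_lit 360)))) (XT.nd (nat_lit 156) (nat_lit 304) (nat_lit 0) (XT.nd (nat_lit 78) (nat_lit 304) (nat_lit 0) (XT.lf (nat_lit 0) (nat_lit 1511022617) (nat_lit 304) (nat_lit 5888477236) (nat_lit 76) (nat_lit 2923311323) (nat_lit 127) (nat_lit 5) (nat_lit 131) (nat_lit 5) (nat_lit 128) (nat_lit 5) (nat_lit 457) (nat_lit 384) (nat_lit 359)) (XT.lf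 (nat_lit 0) (nat_lit 1986425761) (nat_lit 304) (nat_lit 3520103680) (nat_lit 380) (nat_lit 4974946263) (nat_lit 123) (nat_lit 5) (nat_lit 127) (nat_lit 5) (nat_lit 128) (nat_lit 5) (nat_lit 458) (nat_lit 384) (nat_lit 358))) (XT.nd (nat_lit 78) (nat_lit 304) (nat_lit 0) (XT.lf (nat_lit 0) (nat_lit 9614173226) (nat_lit 380) (nat_lit 546852860) (nat_lit 76) (nat_lit 484114803) (nat_lit 123) (nat_lit 5) (nat_lit 128) (nat_lit 5) (nat_lit 124) (nat_lit 4) (nat_lit 459) (nat_lit 384) (nat_lit 357)) (XT.lf (nat_lit 0) (nat_lit 3010600662) (nat_lit 304) (nat_lit 3201521450) (nat_lit 76) (nat_lit 4599575439) (nat_lit 119) (nat_lit 5) (nat_lit 123) (nat_lit 5) (nat_lit 120) (nat_lit 5) (nat_lit 460) (nat_lit 384) (nat_lit 356))))) (XT.nd (nat_lit 312) (nat_lit 684) (nat_lit 0) (XT.nd (nat_lit 156) (nat_lit 228) (nat_lit 0) (XT.nd (nat_lit 78) (nat_lit 304) (nat_lit 0) (XT.lf (nat_lit 0) (nat_lit 5013873141) (nat_lit 228)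 (nat_lit 2122622412) (nat_lit 304) (nat_lit 3846943224) (nat_lit 116) (nat_lit 5) (nat_lit 119) (nat_lit 5) (nat_lit 120) (nat_lit 5) (nat_lit 461) (nat_lit 384) (nat_lit 355)) (XT.lf (nat_lit 0) (nat_lit 226804803) (nat_lit 304) (nat_lit 8870377019) (nat_lit 76) (nat_lit 2062931651) (nat_lit 112) (nat_lit 5) (nat_lit 116) (nat_lit 5) (nat_lit 113) (nat_lit 5) (nat_lit 462) (nat_lit 384) (nat_lit 354))) (XT.nd (nat_lit 78) (nat_lit 228) (nat_lit 0) (XT.lf (nat_lit 0) (nat_lit 4358152029) (nat_lit 304) (nat_lit 595345478) (nat_lit 76) (nat_lit 6387074481) (nat_lit 112) (nat_lit 5) (nat_lit 116) (nat_lit 5) (nat_lit 113) (nat_lit 5) (nat_lit 463) (nat_lit 384) (nat_lit 353)) (XT.lf (nat_lit 0) (nat_lit 7972289659) (nat_lit 228) (nat_lit 650612398) (nat_lit 304) (nat_lit 2903265549) (nat_lit 109) (nat_lit 5) (nat_lit 112) (nat_lit 5) (nat_lit 113) (nat_lit 5) (nat_lit 464) (nat_lit 384) (nat_lit 352)))) (XT.nd (nat_lit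 156) (nat_lit 228) (nat_lit 0) (XT.nd (nat_lit 78) (nat_lit 228) (nat_lit 0) (XT.lf (nat_lit 0) (nat_lit 1297356282) (nat_lit 228) (nat_lit 6687038104) (nat_lit 76) (nat_lit 3731836319) (nat_lit 106) (nat_lit 5) (nat_lit 109) (nat_lit 5) (nat_lit 107) (nat_lit 5) (nat_lit 465) (nat_lit 384) (nat_lit 351)) (XT.lf (nat_lit 0) (nat_lit 1921711182) (nat_lit 228) (nat_lit 3638615020) (nat_lit 304) (nat_lit 6350973277) (nat_lit 103) (nat_lit 5) (nat_lit 106) (nat_lit 5) (nat_lit 107) (nat_lit 5) (nat_lit 466) (nat_lit 384) (nat_lit 350))) (XT.nd (nat_lit 78) (nat_lit 228) (nat_lit 0) (XT.lf (nat_lit 0) (nat_lit 9961391936) (nat_lit 304) (nat_lit 1305489005) (nat_lit 76) (nat_lit 845039585) (nat_lit 103) (nat_lit 5) (nat_lit 107) (nat_lit 5) (nat_lit 104) (nat_lit 4) (nat_lit 467) (nat_lit 384) (nat_lit 349)) (XT.lf (nat_lit 0) (nat_lit 2179293660) (nat_lit 228) (nat_lit 4695420420) (nat_lit 76) (nat_lit 5441849945) (nat_lit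 100) (nat_lit 5) (nat_lit 103) (nat_lit 5) (nat_lit 101) (nat_lit 5) (nat_lit 468) (nat_lit 384) (nat_lit 348))))))) (XT.nd (nat_lit 1170) (nat_lit 1520) (nat_lit 0) (XT.nd (nat_lit 546) (nat_lit 988) (nat_lit 0) (XT.nd (nat_lit 234) (nat_lit 608) (nat_lit 0) (XT.nd (nat_lit 78) (nat_lit 228) (nat_lit 0) (XT.lf (nat_lit 0) (nat_lit 4267934067) (nat_lit 228) (nat_lit 2318273549) (nat_lit 304) (nat_lit 5940793693) (nat_lit 97) (nat_lit 5) (nat_lit 100) (nat_lit 5) (nat_lit 101) (nat_lit 5) (nat_lit 469) (nat_lit 384) (nat_lit 347)) (XT.nd (nat_lit 78) (nat_lit 76) (nat_lit 0) (XT.lf (nat_lit 0) (nat_lit 735460929) (nat_lit 152) (nat_lit 10404118823) (nat_lit 228) (nat_lit 1603750133) (nat_lit 95) (nat_lit 5) (nat_lit 97) (nat_lit 5) (nat_lit 98) (nat_lit 4) (nat_lit 470) (nat_lit 384) (nat_lit 346)) (XT.lf (nat_lit 0) (nat_lit 2851356954) (nat_lit 228) (nat_lit 2955716923) (nat_lit 76) (nat_lit 7156939240) (nat_lit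 94) (nat_lit 5) (nat_lit 97) (nat_lit 5) (nat_lit 95) (nat_lit 5) (nat_lit 471) (nat_lit 384) (nat_lit 345)))) (XT.nd (nat_lit 156) (nat_lit 228) (nat_lit 0) (XT.nd (nat_lit 78) (nat_lit 152) (nat_lit 0) (XT.lf (nat_lit 0) (nat_lit 6369723420) (nat_lit 228) (nat_lit 1037883145) (nat_lit 304) (nat_lit 5783247439) (nat_lit 91) (nat_lit 5) (nat_lit 94) (nat_lit 5) (nat_lit 95) (nat_lit 5) (nat_lit 472) (nat_lit 384) (nat_lit 344)) (XT.lf (nat_lit 0) (nat_lit 2516434836) (nat_lit 152) (nat_lit 9614521299) (nat_lit 228) (nat_lit 1292636672) (nat_lit 89) (nat_lit 5) (nat_lit 91) (nat_lit 5) (nat_lit 92) (nat_lit 4) (nat_lit 473) (nat_lit 384) (nat_lit 343))) (XT.nd (nat_lit 78) (nat_lit 152) (nat_lit 0) (XT.lf (nat_lit 0) (nat_lit 3286494955) (nat_lit 228) (nat_lit 1537499972) (nat_lit 76) (nat_lit 8837797480) (nat_lit 88) (nat_lit 5) (nat_lit 91) (nat_lit 5) (nat_lit 89) (nat_lit 5) (nat_lit 474) (nat_lit 384) (nat_lit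 342)) (XT.lf (nat_lit 0) (nat_lit 7997720967) (nat_lit 228) (nat_lit 5752212069) (nat_lit 76) (nat_lit 156204603) (nat_lit 86) (nat_lit 5) (nat_lit 89) (nat_lit 5) (nat_lit 87) (nat_lit 4) (nat_lit 475) (nat_lit 384) (nat_lit 341))))) (XT.nd (nat_lit 312) (nat_lit 456) (nat_lit 0) (XT.nd (nat_lit 156) (nat_lit 304) (nat_lit 0) (XT.nd (nat_lit 78) (nat_lit 76) (nat_lit 0) (XT.lf (nat_lit 0) (nat_lit 3934728399) (nat_lit 152) (nat_lit 8957899969) (nat_lit 228) (nat_lit 1263919021) (nat_lit 84) (nat_lit 5) (nat_lit 86) (nat_lit 5) (nat_lit 87) (nat_lit 4) (nat_lit 476) (nat_lit 384) (nat_lit 340)) (XT.lf (nat_lit 0) (nat_lit 3451110258) (nat_lit 228) (nat_lit 521496188) (nat_lit 76) (nat_lit 10440855669) (nat_lit 83) (nat_lit 5) (nat_lit 86) (nat_lit 5) (nat_lit 84) (nat_lit 5) (nat_lit 477) (nat_lit 384) (nat_lit 339))) (XT.nd (nat_lit 78) (nat_lit 152) (nat_lit 0) (XT.lf (nat_lit 0) (nat_lit 8328621399) (nat_lit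 228) (nat_lit 5146434303) (nat_lit 76) (nat_lit 1201264240) (nat_lit 81) (nat_lit 5) (nat_lit 84) (nat_lit 5) (nat_lit 82) (nat_lit 4) (nat_lit 478) (nat_lit 384) (nat_lit 338)) (XT.lf (nat_lit 0) (nat_lit 4901065164) (nat_lit 152) (nat_lit 8486361080) (nat_lit 228) (nat_lit 1558592206) (nat_lit 79) (nat_lit 5) (nat_lit 81) (nat_lit 5) (nat_lit 82) (nat_lit 4) (nat_lit 479) (nat_lit 384) (nat_lit 337)))) (XT.nd (nat_lit 156) (nat_lit 228) (nat_lit 0) (XT.nd (nat_lit 78) (nat_lit 152) (nat_lit 0) (XT.lf (nat_lit 0) (nat_lit 3304159664) (nat_lit 228) (nat_lit 1626350) (nat_lit 76) (nat_lit 11917178173) (nat_lit 78) (nat_lit 5) (nat_lit 81) (nat_lit 5) (nat_lit 79) (nat_lit 5) (nat_lit 480) (nat_lit 384) (nat_lit 336)) (XT.lf (nat_lit 0) (nat_lit 8346969521) (nat_lit 228) (nat_lit 5094447977) (nat_lit 76) (nat_lit 2064376461) (nat_lit 76) (nat_lit 5) (nat_lit 79) (nat_lit 5) (nat_lit 77) (nat_lit 4) (nat_lit 481)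 (nat_lit 384) (nat_lit 335))) (XT.nd (nat_lit 78) (nat_lit 76) (nat_lit 0) (XT.lf (nat_lit 0) (nat_lit 5311354418) (nat_lit 152) (nat_lit 8258735742) (nat_lit 228) (nat_lit 2226151219) (nat_lit 74) (nat_lit 5) (nat_lit 76) (nat_lit 5) (nat_lit 77) (nat_lit 4) (nat_lit 482) (nat_lit 384) (nat_lit 334)) (XT.lf (nat_lit 0) (nat_lit 2796089241) (nat_lit 228) (nat_lit 87355423) (nat_lit 76) (nat_lit 13211219067) (nat_lit 73) (nat_lit 5) (nat_lit 76) (nat_lit 5) (nat_lit 74) (nat_lit 5) (nat_lit 483) (nat_lit 384) (nat_lit 333)))))) (XT.nd (nat_lit 624) (nat_lit 608) (nat_lit 0) (XT.nd (nat_lit 312) (nat_lit 380) (nat_lit 0) (XT.nd (nat_lit 156) (nat_lit 228) (nat_lit 0) (XT.nd (nat_lit 78) (nat_lit 152) (nat_lit 0) (XT.lf (nat_lit 0) (nat_lit 8000482346) (nat_lit 228) (nat_lit 5713521492) (nat_lit 76) (nat_lit 2685090065) (nat_lit 71) (nat_lit 5) (nat_lit 74) (nat_lit 5) (nat_lit 72) (nat_lit 4) (nat_lit 484) (nat_lit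 384) (nat_lit 332)) (XT.lf (nat_lit 0) (nat_lit 5044083706) (nat_lit 152) (nat_lit 8341992173) (nat_lit 228) (nat_lit 3325832196) (nat_lit 69) (nat_lit 5) (nat_lit 71) (nat_lit 5) (nat_lit 72) (nat_lit 4) (nat_lit 485) (nat_lit 384) (nat_lit 331))) (XT.nd (nat_lit 78) (nat_lit 152) (nat_lit 0) (XT.lf (nat_lit 0) (nat_lit 1867579812) (nat_lit 228) (nat_lit 906404683) (nat_lit 76) (nat_lit 14259412238) (nat_lit 68) (nat_lit 5) (nat_lit 71) (nat_lit 5) (nat_lit 69) (nat_lit 5) (nat_lit 486) (nat_lit 384) (nat_lit 330)) (XT.lf (nat_lit 0) (nat_lit 7226620461) (nat_lit 228) (nat_lit 7140439999) (nat_lit 76) (nat_lit 2994184440) (nat_lit 66) (nat_lit 5) (nat_lit 69) (nat_lit 5) (nat_lit 67) (nat_lit 4) (nat_lit 487) (nat_lit 384) (nat_lit 329)))) (XT.nd (nat_lit 156) (nat_lit 228) (nat_lit 0) (XT.nd (nat_lit 78) (nat_lit 76) (nat_lit 0) (XT.lf (nat_lit 0) (nat_lit 3957306416) (nat_lit 76) (nat_lit 8812843421) (nat_lit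 152) (nat_lit 4928069953) (nat_lit 65) (nat_lit 5) (nat_lit 66) (nat_lit 5) (nat_lit 67) (nat_lit 4) (nat_lit 488) (nat_lit 384) (nat_lit 328)) (XT.lf (nat_lit 0) (nat_lit 448074485) (nat_lit 152) (nat_lit 2607885996) (nat_lit 76) (nat_lit 14988564468) (nat_lit 64) (nat_lit 5) (nat_lit 66) (nat_lit 5) (nat_lit 65) (nat_lit 5) (nat_lit 489) (nat_lit 384) (nat_lit 327))) (XT.nd (nat_lit 78) (nat_lit 76) (nat_lit 0) (XT.lf (nat_lit 0) (nat_lit 5951022722) (nat_lit 228) (nat_lit 9534830180) (nat_lit 76) (nat_lit 2911968078) (nat_lit 62) (nat_lit 5) (nat_lit 65) (nat_lit 5) (nat_lit 63) (nat_lit 4) (nat_lit 490) (nat_lit 384) (nat_lit 326)) (XT.lf (nat_lit 0) (nat_lit 1885157678) (nat_lit 76) (nat_lit 9759585551) (nat_lit 152) (nat_lit 7116204640) (nat_lit 61) (nat_lit 5) (nat_lit 62) (nat_lit 5) (nat_lit 63) (nat_lit 4) (nat_lit 491) (nat_lit 384) (nat_lit 325))))) (XT.nd (nat_lit 312) (nat_lit 304) (nat_lit 0) (XT.nd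 (nat_lit 156) (nat_lit 76) (nat_lit 0) (XT.nd (nat_lit 78) (nat_lit 228) (nat_lit 0) (XT.lf (nat_lit 0) (nat_lit 13752460337) (nat_lit 76) (nat_lit 3804371710) (nat_lit 152) (nat_lit 1576712233) (nat_lit 61) (nat_lit 5) (nat_lit 62) (nat_lit 5) (nat_lit 63) (nat_lit 4) (nat_lit 492) (nat_lit 384) (nat_lit 324)) (XT.lf (nat_lit 0) (nat_lit 4085675437) (nat_lit 228) (nat_lit 13083007527) (nat_lit 76) (nat_lit 2346328749) (nat_lit 58) (nat_lit 5) (nat_lit 61) (nat_lit 5) (nat_lit 59) (nat_lit 4) (nat_lit 493) (nat_lit 384) (nat_lit 323))) (XT.nd (nat_lit 78) (nat_lit 76) (nat_lit 0) (XT.lf (nat_lit 0) (nat_lit 9931160376) (nat_lit 228) (nat_lit 1339519559) (nat_lit 76) (nat_lit 8635429638) (nat_lit 58) (nat_lit 5) (nat_lit 61) (nat_lit 5) (nat_lit 59) (nat_lit 4) (nat_lit 494) (nat_lit 384) (nat_lit 322)) (XT.lf (nat_lit 0) (nat_lit 10882016122) (nat_lit 76) (nat_lit 5128358089) (nat_lit 152) (nat_lit 4296817373)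 (nat_lit 57) (nat_lit 5) (nat_lit 58) (nat_lit 5) (nat_lit 59) (nat_lit 4) (nat_lit 495) (nat_lit 384) (nat_lit 321)))) (XT.nd (nat_lit 156) (nat_lit 76) (nat_lit 0) (XT.nd (nat_lit 78) (nat_lit 0) (nat_lit 0) (XT.lf (nat_lit 0) (nat_lit 1526775029) (nat_lit 228) (nat_lit 18002431251) (nat_lit 76) (nat_lit 1190492485) (nat_lit 54) (nat_lit 5) (nat_lit 57) (nat_lit 5) (nat_lit 55) (nat_lit 4) (nat_lit 496) (nat_lit 384) (nat_lit 320)) (XT.lf (nat_lit 0) (nat_lit 7539568545) (nat_lit 228) (nat_lit 5905607899) (nat_lit 76) (nat_lit 7695104745) (nat_lit 54) (nat_lit 5) (nat_lit 57) (nat_lit 5) (nat_lit 55) (nat_lit 4) (nat_lit 497) (nat_lit 384) (nat_lit 319))) (XT.nd (nat_lit 78) (nat_lit 0) (nat_lit 0) (XT.lf (nat_lit 0) (nat_lit 6598599344) (nat_lit 76) (nat_lit 7152878401) (nat_lit 152) (nat_lit 7821443294) (nat_lit 53) (nat_lit 5) (nat_lit 54) (nat_lit 5) (nat_lit 55) (nat_lit 4) (nat_lit 498) (nat_lit 384) (nat_lit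 318)) (XT.lf (nat_lit 0) (nat_lit 19515535034) (nat_lit 76) (nat_lit 649645994) (nat_lit 152) (nat_lit 1852897805) (nat_lit 53) (nat_lit 5) (nat_lit 54) (nat_lit 5) (nat_lit 55) (nat_lit 4) (nat_lit 499) (nat_lit 384) (nat_lit 317))))))))
noncomputable def xc62 : XT := (XT.nd (nat_lit 2340) (nat_lit 836) (nat_lit 0) (XT.nd (nat_lit 1170) (nat_lit 836) (nat_lit 0) (XT.nd (nat_lit 546) (nat_lit 456) (nat_lit 0) (XT.nd (nat_lit 234) (nat_lit 304) (nat_lit 0) (XT.nd (nat_lit 78) (nat_lit 76) (nat_lit 0) (XT.lf (nat_lit 0) (nat_lit 4326933385) (nat_lit 228) (nat_lit 12109206651) (nat_lit 76) (nat_lit 6035733537) (nat_lit 50) (nat_lit 5) (nat_lit 53) (nat_lit 5) (nat_lit 51) (nat_lit 4) (nat_lit 500) (nat_lit 384) (nat_lit 316)) (XT.nd (nat_lit 78) (nat_lit 0) (nat_lit 0) (XT.lf (nat_lit 0) (nat_lit 631905125) (nat_lit 76) (nat_lit 10017818090) (nat_lit 152) (nat_lit 12289166115) (nat_lit 49) (nat_lit 5) (nat_lit 50)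 (nat_lit 5) (nat_lit 51) (nat_lit 4) (nat_lit 501) (nat_lit 384) (nat_lit 315)) (XT.lf (nat_lit 0) (nat_lit 13922273734) (nat_lit 76) (nat_lit 3319458305) (nat_lit 152) (nat_lit 6175799110) (nat_lit 49) (nat_lit 5) (nat_lit 50) (nat_lit 5) (nat_lit 51) (nat_lit 4) (nat_lit 502) (nat_lit 384) (nat_lit 314)))) (XT.nd (nat_lit 156) (nat_lit 76) (nat_lit 0) (XT.nd (nat_lit 78) (nat_lit 0) (nat_lit 0) (XT.lf (nat_lit 0) (nat_lit 146598616) (nat_lit 228) (nat_lit 20253073935) (nat_lit 76) (nat_lit 3509986630) (nat_lit 46) (nat_lit 5) (nat_lit 49) (nat_lit 5) (nat_lit 47) (nat_lit 4) (nat_lit 503) (nat_lit 384) (nat_lit 313)) (XT.lf (nat_lit 0) (nat_lit 6622430571) (nat_lit 228) (nat_lit 7190787525) (nat_lit 76) (nat_lit 10598863376) (nat_lit 46) (nat_lit 5) (nat_lit 49) (nat_lit 5) (nat_lit 47) (nat_lit 4) (nat_lit 504) (nat_lit 384) (nat_lit 312))) (XT.nd (nat_lit 78) (nat_lit 0) (nat_lit 0) (XT.lf (nat_lit 0) (nat_lit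 6309025065) (nat_lit 76) (nat_lit 7003567364) (nat_lit 152) (nat_lit 11616383817) (nat_lit 45) (nat_lit 5) (nat_lit 46) (nat_lit 5) (nat_lit 47) (nat_lit 4) (nat_lit 505) (nat_lit 384) (nat_lit 311)) (XT.lf (nat_lit 0) (nat_lit 20236393087) (nat_lit 152) (nat_lit 5176331337) (nat_lit 0) (nat_lit 47666841) (nat_lit 45) (nat_lit 5) (nat_lit 47) (nat_lit 4) (nat_lit 45) (nat_lit 4) (nat_lit 506) (nat_lit 384) (nat_lit 310))))) (XT.nd (nat_lit 312) (nat_lit 228) (nat_lit 0) (XT.nd (nat_lit 156) (nat_lit 76) (nat_lit 0) (XT.nd (nat_lit 78) (nat_lit 0) (nat_lit 0) (XT.lf (nat_lit 0) (nat_lit 1448353063) (nat_lit 152) (nat_lit 17322893654) (nat_lit 76) (nat_lit 7232669047) (nat_lit 43) (nat_lit 5) (nat_lit 45) (nat_lit 5) (nat_lit 44) (nat_lit 4) (nat_lit 507) (nat_lit 384) (nat_lit 309)) (XT.lf (nat_lit 0) (nat_lit 8229390146) (nat_lit 152) (nat_lit 3629547722) (nat_lit 76) (nat_lit 14702852371) (nat_lit 43) (nat_lit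 5) (nat_lit 45) (nat_lit 5) (nat_lit 44) (nat_lit 4) (nat_lit 508) (nat_lit 384) (nat_lit 308))) (XT.nd (nat_lit 78) (nat_lit 0) (nat_lit 0) (XT.lf (nat_lit 0) (nat_lit 10608466777) (nat_lit 76) (nat_lit 4669234757) (nat_lit 152) (nat_lit 11856785381) (nat_lit 42) (nat_lit 5) (nat_lit 43) (nat_lit 5) (nat_lit 44) (nat_lit 4) (nat_lit 509) (nat_lit 384) (nat_lit 307)) (XT.lf (nat_lit 0) (nat_lit 22562727054) (nat_lit 152) (nat_lit 2475128852) (nat_lit 0) (nat_lit 2685751866) (nat_lit 42) (nat_lit 5) (nat_lit 44) (nat_lit 4) (nat_lit 42) (nat_lit 4) (nat_lit 510) (nat_lit 384) (nat_lit 306)))) (XT.nd (nat_lit 156) (nat_lit 76) (nat_lit 0) (XT.nd (nat_lit 78) (nat_lit 0) (nat_lit 0) (XT.lf (nat_lit 0) (nat_lit 1829028920) (nat_lit 152) (nat_lit 16228159124) (nat_lit 76) (nat_lit 10268904723) (nat_lit 40) (nat_lit 5) (nat_lit 42) (nat_lit 5) (nat_lit 41) (nat_lit 4) (nat_lit 511) (nat_lit 384) (nat_lit 305)) (XT.lf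 (nat_lit 0) (nat_lit 8913242291) (nat_lit 152) (nat_lit 1909451267) (nat_lit 76) (nat_lit 18122776890) (nat_lit 40) (nat_lit 5) (nat_lit 42) (nat_lit 5) (nat_lit 41) (nat_lit 4) (nat_lit 512) (nat_lit 384) (nat_lit 304))) (XT.nd (nat_lit 78) (nat_lit 0) (nat_lit 0) (XT.lf (nat_lit 0) (nat_lit 13023903611) (nat_lit 76) (nat_lit 3275440746) (nat_lit 152) (nat_lit 13281405320) (nat_lit 39) (nat_lit 5) (nat_lit 40) (nat_lit 5) (nat_lit 41) (nat_lit 4) (nat_lit 513) (nat_lit 384) (nat_lit 303)) (XT.lf (nat_lit 0) (nat_lit 23933980134) (nat_lit 152) (nat_lit 1902666727) (nat_lit 0) (nat_lit 4397632961) (nat_lit 39) (nat_lit 5) (nat_lit 41) (nat_lit 4) (nat_lit 39) (nat_lit 4) (nat_lit 514) (nat_lit 384) (nat_lit 302)))))) (XT.nd (nat_lit 546) (nat_lit 380) (nat_lit 0) (XT.nd (nat_lit 234) (nat_lit 228) (nat_lit 0) (XT.nd (nat_lit 78) (nat_lit 76) (nat_lit 0) (XT.lf (nat_lit 0) (nat_lit 1000173395) (nat_lit 152) (nat_lit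 17561299311) (nat_lit 76) (nat_lit 12341868253) (nat_lit 37) (nat_lit 5) (nat_lit 39) (nat_lit 5) (nat_lit 38) (nat_lit 4) (nat_lit 515) (nat_lit 384) (nat_lit 301)) (XT.nd (nat_lit 78) (nat_lit 76) (nat_lit 0) (XT.lf (nat_lit 0) (nat_lit 8377745601) (nat_lit 152) (nat_lit 2638521064) (nat_lit 76) (nat_lit 20574795415) (nat_lit 37) (nat_lit 5) (nat_lit 39) (nat_lit 5) (nat_lit 38) (nat_lit 4) (nat_lit 516) (nat_lit 384) (nat_lit 300)) (XT.lf (nat_lit 0) (nat_lit 12918841254) (nat_lit 76) (nat_lit 3148309157) (nat_lit 152) (nat_lit 16229550198) (nat_lit 36) (nat_lit 5) (nat_lit 37) (nat_lit 5) (nat_lit 38) (nat_lit 4) (nat_lit 517) (nat_lit 384) (nat_lit 299)))) (XT.nd (nat_lit 156) (nat_lit 152) (nat_lit 0) (XT.nd (nat_lit 78) (nat_lit 76) (nat_lit 0) (XT.lf (nat_lit 0) (nat_lit 24028163932) (nat_lit 152) (nat_lit 4138851794) (nat_lit 0) (nat_lit 4855265683) (nat_lit 36) (nat_lit 5) (nat_lit 38) (nat_lit 4) (nat_lit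 36) (nat_lit 4) (nat_lit 518) (nat_lit 384) (nat_lit 298)) (XT.lf (nat_lit 0) (nat_lit 11690933976) (nat_lit 76) (nat_lit 20647986619) (nat_lit 76) (nat_lit 1427382541) (nat_lit 35) (nat_lit 4) (nat_lit 36) (nat_lit 5) (nat_lit 36) (nat_lit 4) (nat_lit 519) (nat_lit 384) (nat_lit 297))) (XT.nd (nat_lit 78) (nat_lit 76) (nat_lit 0) (XT.lf (nat_lit 0) (nat_lit 6251720056) (nat_lit 152) (nat_lit 6575928701) (nat_lit 76) (nat_lit 21702873789) (nat_lit 34) (nat_lit 5) (nat_lit 36) (nat_lit 5) (nat_lit 35) (nat_lit 4) (nat_lit 520) (nat_lit 384) (nat_lit 296)) (XT.lf (nat_lit 0) (nat_lit 9498170412) (nat_lit 76) (nat_lit 4693976458) (nat_lit 152) (nat_lit 21123309300) (nat_lit 33) (nat_lit 5) (nat_lit 34) (nat_lit 5) (nat_lit 35) (nat_lit 4) (nat_lit 521) (nat_lit 384) (nat_lit 295))))) (XT.nd (nat_lit 312) (nat_lit 152) (nat_lit 0) (XT.nd (nat_lit 156) (nat_lit 152) (nat_lit 0) (XT.nd (nat_lit 78) (nat_lit 76) (nat_lit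 0) (XT.lf (nat_lit 0) (nat_lit 22441647748) (nat_lit 152) (nat_lit 10030308833) (nat_lit 0) (nat_lit 3649856169) (nat_lit 33) (nat_lit 5) (nat_lit 35) (nat_lit 4) (nat_lit 33) (nat_lit 4) (nat_lit 522) (nat_lit 384) (nat_lit 294)) (XT.lf (nat_lit 0) (nat_lit 6245887741) (nat_lit 76) (nat_lit 24768570678) (nat_lit 76) (nat_lit 5935627631) (nat_lit 32) (nat_lit 4) (nat_lit 33) (nat_lit 5) (nat_lit 33) (nat_lit 4) (nat_lit 523) (nat_lit 384) (nat_lit 293))) (XT.nd (nat_lit 78) (nat_lit 76) (nat_lit 0) (XT.lf (nat_lit 0) (nat_lit 2073036905) (nat_lit 152) (nat_lit 14664631009) (nat_lit 76) (nat_lit 21062803008) (nat_lit 31) (nat_lit 5) (nat_lit 33) (nat_lit 5) (nat_lit 32) (nat_lit 4) (nat_lit 524) (nat_lit 384) (nat_lit 292)) (XT.lf (nat_lit 0) (nat_lit 1773892839) (nat_lit 76) (nat_lit 8416047048) (nat_lit 152) (nat_lit 28485046733) (nat_lit 30) (nat_lit 5) (nat_lit 31) (nat_lit 5) (nat_lit 32) (nat_lit 4) (nat_lit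 525) (nat_lit 384) (nat_lit 291)))) (XT.nd (nat_lit 156) (nat_lit 152) (nat_lit 0) (XT.nd (nat_lit 78) (nat_lit 0) (nat_lit 0) (XT.lf (nat_lit 0) (nat_lit 18671664007) (nat_lit 152) (nat_lit 20626192928) (nat_lit 0) (nat_lit 274242110) (nat_lit 30) (nat_lit 5) (nat_lit 32) (nat_lit 4) (nat_lit 30) (nat_lit 4) (nat_lit 526) (nat_lit 384) (nat_lit 290)) (XT.lf (nat_lit 0) (nat_lit 27462304678) (nat_lit 152) (nat_lit 4002801714) (nat_lit 0) (nat_lit 9029385164) (nat_lit 30) (nat_lit 5) (nat_lit 32) (nat_lit 4) (nat_lit 30) (nat_lit 4) (nat_lit 527) (nat_lit 384) (nat_lit 289))) (XT.nd (nat_lit 78) (nat_lit 76) (nat_lit 0) (XT.lf (nat_lit 0) (nat_lit 13324514620) (nat_lit 76) (nat_lit 23292211616) (nat_lit 76) (nat_lit 4824828396) (nat_lit 29) (nat_lit 4) (nat_lit 30) (nat_lit 5) (nat_lit 30) (nat_lit 4) (nat_lit 528) (nat_lit 384) (nat_lit 288)) (XT.lf (nat_lit 0) (nat_lit 3570759333) (nat_lit 152) (nat_lit 11252201682)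 (nat_lit 76) (nat_lit 27592638181) (nat_lit 28) (nat_lit 5) (nat_lit 30) (nat_lit 5) (nat_lit 29) (nat_lit 4) (nat_lit 529) (nat_lit 384) (nat_lit 287))))))) (XT.nd (nat_lit 1170) (nat_lit 228) (nat_lit 0) (XT.nd (nat_lit 546) (nat_lit 304) (nat_lit 0) (XT.nd (nat_lit 234) (nat_lit 228) (nat_lit 0) (XT.nd (nat_lit 78) (nat_lit 0) (nat_lit 0) (XT.lf (nat_lit 0) (nat_lit 6137362914) (nat_lit 76) (nat_lit 6015687031) (nat_lit 152) (nat_lit 31263428331) (nat_lit 27) (nat_lit 5) (nat_lit 28) (nat_lit 5) (nat_lit 29) (nat_lit 4) (nat_lit 530) (nat_lit 384) (nat_lit 286)) (XT.nd (nat_lit 78) (nat_lit 0) (nat_lit 0) (XT.lf (nat_lit 0) (nat_lit 21109784641) (nat_lit 152) (nat_lit 20248449106) (nat_lit 0) (nat_lit 3085641291) (nat_lit 27) (nat_lit 5) (nat_lit 29) (nat_lit 4) (nat_lit 27) (nat_lit 4) (nat_lit 531) (nat_lit 384) (nat_lit 285)) (XT.lf (nat_lit 0) (nat_lit 30368424303) (nat_lit 152) (nat_lit 2818121604) (nat_lit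 0) (nat_lit 12314552258) (nat_lit 27) (nat_lit 5) (nat_lit 29) (nat_lit 4) (nat_lit 27) (nat_lit 4) (nat_lit 532) (nat_lit 384) (nat_lit 284)))) (XT.nd (nat_lit 156) (nat_lit 76) (nat_lit 0) (XT.nd (nat_lit 78) (nat_lit 76) (nat_lit 0) (XT.lf (nat_lit 0) (nat_lit 15385143552) (nat_lit 76) (nat_lit 24641980401) (nat_lit 76) (nat_lit 6559245545) (nat_lit 26) (nat_lit 4) (nat_lit 27) (nat_lit 5) (nat_lit 27) (nat_lit 4) (nat_lit 533) (nat_lit 384) (nat_lit 283)) (XT.lf (nat_lit 0) (nat_lit 2230227735) (nat_lit 152) (nat_lit 13583394698) (nat_lit 76) (nat_lit 31889827073) (nat_lit 25) (nat_lit 5) (nat_lit 27) (nat_lit 5) (nat_lit 26) (nat_lit 4) (nat_lit 534) (nat_lit 384) (nat_lit 282))) (XT.nd (nat_lit 78) (nat_lit 0) (nat_lit 0) (XT.lf (nat_lit 0) (nat_lit 4537831154) (nat_lit 76) (nat_lit 6632510779) (nat_lit 152) (nat_lit 37681188450) (nat_lit 24) (nat_lit 5) (nat_lit 25) (nat_lit 5) (nat_lit 26) (nat_lit 4) (nat_lit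 535) (nat_lit 384) (nat_lit 281)) (XT.lf (nat_lit 0) (nat_lit 20519531667) (nat_lit 152) (nat_lit 26626081683) (nat_lit 0) (nat_lit 2884214647) (nat_lit 24) (nat_lit 5) (nat_lit 26) (nat_lit 4) (nat_lit 24) (nat_lit 4) (nat_lit 536) (nat_lit 384) (nat_lit 280))))) (XT.nd (nat_lit 312) (nat_lit 152) (nat_lit 0) (XT.nd (nat_lit 156) (nat_lit 76) (nat_lit 0) (XT.nd (nat_lit 78) (nat_lit 76) (nat_lit 0) (XT.lf (nat_lit 0) (nat_lit 30190789827) (nat_lit 152) (nat_lit 8520861901) (nat_lit 0) (nat_lit 12530575492) (nat_lit 24) (nat_lit 5) (nat_lit 26) (nat_lit 4) (nat_lit 24) (nat_lit 4) (nat_lit 537) (nat_lit 384) (nat_lit 279)) (XT.lf (nat_lit 0) (nat_lit 10282178296) (nat_lit 76) (nat_lit 29945471566) (nat_lit 76) (nat_lit 12261085081) (nat_lit 23) (nat_lit 4) (nat_lit 24) (nat_lit 5) (nat_lit 24) (nat_lit 4) (nat_lit 538) (nat_lit 384) (nat_lit 278))) (XT.nd (nat_lit 78) (nat_lit 76) (nat_lit 0) (XT.lf (nat_lit 0)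 (nat_lit 29778451272) (nat_lit 76) (nat_lit 20850077136) (nat_lit 76) (nat_lit 3142222545) (nat_lit 23) (nat_lit 4) (nat_lit 24) (nat_lit 5) (nat_lit 24) (nat_lit 4) (nat_lit 539) (nat_lit 384) (nat_lit 277)) (XT.lf (nat_lit 0) (nat_lit 6105561511) (nat_lit 152) (nat_lit 5336349293) (nat_lit 76) (nat_lit 43648195035) (nat_lit 22) (nat_lit 5) (nat_lit 24) (nat_lit 5) (nat_lit 23) (nat_lit 4) (nat_lit 540) (nat_lit 384) (nat_lit 276)))) (XT.nd (nat_lit 156) (nat_lit 76) (nat_lit 0) (XT.nd (nat_lit 78) (nat_lit 0) (nat_lit 0) (XT.lf (nat_lit 0) (nat_lit 14079558493) (nat_lit 76) (nat_lit 1601386627) (nat_lit 152) (nat_lit 40763763668) (nat_lit 21) (nat_lit 5) (nat_lit 22) (nat_lit 5) (nat_lit 23) (nat_lit 4) (nat_lit 541) (nat_lit 384) (nat_lit 275)) (XT.lf (nat_lit 0) (nat_lit 25658053646) (nat_lit 152) (nat_lit 23776949548) (nat_lit 0) (nat_lit 8401513117) (nat_lit 21) (nat_lit 5) (nat_lit 23) (nat_lit 4) (nat_lit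 21) (nat_lit 4) (nat_lit 542) (nat_lit 384) (nat_lit 274))) (XT.nd (nat_lit 78) (nat_lit 76) (nat_lit 0) (XT.lf (nat_lit 0) (nat_lit 35928977135) (nat_lit 152) (nat_lit 4689073436) (nat_lit 0) (nat_lit 18652192812) (nat_lit 21) (nat_lit 5) (nat_lit 23) (nat_lit 4) (nat_lit 21) (nat_lit 4) (nat_lit 543) (nat_lit 384) (nat_lit 273)) (XT.lf (nat_lit 0) (nat_lit 15227697497) (nat_lit 76) (nat_lit 31405977120) (nat_lit 76) (nat_lit 14109538626) (nat_lit 20) (nat_lit 4) (nat_lit 21) (nat_lit 5) (nat_lit 21) (nat_lit 4) (nat_lit 544) (nat_lit 384) (nat_lit 272)))))) (XT.nd (nat_lit 53508) (nat_lit 0) (nat_lit 14592) (XT.nd (nat_lit 312) (nat_lit 76) (nat_lit 0) (XT.nd (nat_lit 156) (nat_lit 76) (nat_lit 0) (XT.nd (nat_lit 78) (nat_lit 76) (nat_lit 0) (XT.lf (nat_lit 0) (nat_lit 35797605152) (nat_lit 76) (nat_lit 21888741306) (nat_lit 76) (nat_lit 4573221094) (nat_lit 20) (nat_lit 4) (nat_lit 21) (nat_lit 5) (nat_lit 21)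 (nat_lit 4) (nat_lit 545) (nat_lit 384) (nat_lit 271)) (XT.lf (nat_lit 0) (nat_lit 5126638449) (nat_lit 152) (nat_lit 6926970100) (nat_lit 76) (nat_lit 51766894031) (nat_lit 19) (nat_lit 5) (nat_lit 21) (nat_lit 5) (nat_lit 20) (nat_lit 4) (nat_lit 546) (nat_lit 384) (nat_lit 270))) (XT.nd (nat_lit 78) (nat_lit 0) (nat_lit 0) (XT.lf (nat_lit 0) (nat_lit 13371159351) (nat_lit 76) (nat_lit 1763417916) (nat_lit 152) (nat_lit 50289060312) (nat_lit 18) (nat_lit 5) (nat_lit 19) (nat_lit 5) (nat_lit 20) (nat_lit 4) (nat_lit 547) (nat_lit 384) (nat_lit 269)) (XT.lf (nat_lit 0) (nat_lit 25578817346) (nat_lit 152) (nat_lit 32776737715) (nat_lit 0) (nat_lit 8715229989) (nat_lit 18) (nat_lit 5) (nat_lit 20) (nat_lit 4) (nat_lit 18) (nat_lit 4) (nat_lit 548) (nat_lit 384) (nat_lit 268)))) (XT.nd (nat_lit 156) (nat_lit 0) (nat_lit 0) (XT.nd (nat_lit 78) (nat_lit 76) (nat_lit 0) (XT.lf (nat_lit 0) (nat_lit 36334902164) (nat_lit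 152) (nat_lit 12977634809) (nat_lit 0) (nat_lit 19454854750) (nat_lit 18) (nat_lit 5) (nat_lit 20) (nat_lit 4) (nat_lit 18) (nat_lit 4) (nat_lit 549) (nat_lit 384) (nat_lit 267)) (XT.lf (nat_lit 0) (nat_lit 7525939921) (nat_lit 76) (nat_lit 39941683209) (nat_lit 76) (nat_lit 23045655156) (nat_lit 17) (nat_lit 4) (nat_lit 18) (nat_lit 5) (nat_lit 18) (nat_lit 4) (nat_lit 550) (nat_lit 384) (nat_lit 266))) (XT.nd (nat_lit 78) (nat_lit 0) (nat_lit 0) (XT.lf (nat_lit 0) (nat_lit 28874647695) (nat_lit 76) (nat_lit 30172525919) (nat_lit 76) (nat_lit 13260982683) (nat_lit 17) (nat_lit 4) (nat_lit 18) (nat_lit 5) (nat_lit 18) (nat_lit 4) (nat_lit 551) (nat_lit 384) (nat_lit 265)) (XT.lf (nat_lit 0) (nat_lit 50828862341) (nat_lit 76) (nat_lit 20127577613) (nat_lit 76) (nat_lit 3200971093) (nat_lit 17) (nat_lit 4) (nat_lit 18) (nat_lit 5) (nat_lit 18) (nat_lit 4) (nat_lit 552) (nat_lit 384) (nat_lit 264))))) (XT.nd (nat_lit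 312) (nat_lit 1596) (nat_lit 0) (XT.nd (nat_lit 156) (nat_lit 608) (nat_lit 0) (XT.nd (nat_lit 78) (nat_lit 608) (nat_lit 0) (XT.lf (nat_lit 0) (nat_lit 1041870426) (nat_lit 608) (nat_lit 1332208292) (nat_lit 608) (nat_lit 1332208292) (nat_lit 246) (nat_lit 4) (nat_lit 254) (nat_lit 5) (nat_lit 254) (nat_lit 4) (nat_lit 430) (nat_lit 385) (nat_lit 385)) (XT.lf (nat_lit 0) (nat_lit 394874699) (nat_lit 532) (nat_lit 546146382) (nat_lit 608) (nat_lit 6538933905) (nat_lit 238) (nat_lit 5) (nat_lit 245) (nat_lit 5) (nat_lit 246) (nat_lit 4) (nat_lit 431) (nat_lit 385) (nat_lit 384))) (XT.nd (nat_lit 78) (nat_lit 608) (nat_lit 0) (XT.lf (nat_lit 0) (nat_lit 4570222025) (nat_lit 608) (nat_lit 1308742179) (nat_lit 0) (nat_lit 1670553690) (nat_lit 238) (nat_lit 5) (nat_lit 246) (nat_lit 4) (nat_lit 238) (nat_lit 4) (nat_lit 432) (nat_lit 385) (nat_lit 383)) (XT.lf (nat_lit 0) (nat_lit 624976039) (nat_lit 608) (nat_lit 3017770902)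 (nat_lit 76) (nat_lit 3979709971) (nat_lit 230) (nat_lit 5) (nat_lit 238) (nat_lit 5) (nat_lit 231) (nat_lit 4) (nat_lit 433) (nat_lit 385) (nat_lit 382)))) (XT.nd (nat_lit 156) (nat_lit 456) (nat_lit 0) (XT.nd (nat_lit 78) (nat_lit 608) (nat_lit 0) (XT.lf (nat_lit 0) (nat_lit 2937555679) (nat_lit 532) (nat_lit 1284335711) (nat_lit 608) (nat_lit 3476500134) (nat_lit 223) (nat_lit 5) (nat_lit 230) (nat_lit 5) (nat_lit 231) (nat_lit 4) (nat_lit 434) (nat_lit 385) (nat_lit 381)) (XT.lf (nat_lit 0) (nat_lit 104943696) (nat_lit 608) (nat_lit 6524905611) (nat_lit 76) (nat_lit 1148001548) (nat_lit 215) (nat_lit 5) (nat_lit 223) (nat_lit 5) (nat_lit 216) (nat_lit 4) (nat_lit 435) (nat_lit 385) (nat_lit 380))) (XT.nd (nat_lit 78) (nat_lit 456) (nat_lit 0) (XT.lf (nat_lit 0) (nat_lit 3690309710) (nat_lit 608) (nat_lit 478769933) (nat_lit 76) (nat_lit 3690613296) (nat_lit 215) (nat_lit 5) (nat_lit 223) (nat_lit 5) (nat_lit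 216) (nat_lit 4) (nat_lit 436) (nat_lit 385) (nat_lit 379)) (XT.lf (nat_lit 0) (nat_lit 5746677039) (nat_lit 456) (nat_lit 1599650514) (nat_lit 532) (nat_lit 598791547) (nat_lit 209) (nat_lit 5) (nat_lit 215) (nat_lit 5) (nat_lit 216) (nat_lit 4) (nat_lit 437) (nat_lit 385) (nat_lit 378))))))))
noncomputable def xc63 : XT := (XT.nd (nat_lit 2340) (nat_lit 3724) (nat_lit 0) (XT.nd (nat_lit 1170) (nat_lit 3040) (nat_lit 0) (XT.nd (nat_lit 546) (nat_lit 2280) (nat_lit 0) (XT.nd (nat_lit 234) (nat_lit 1216) (nat_lit 0) (XT.nd (nat_lit 78) (nat_lit 988) (nat_lit 0) (XT.lf (nat_lit 0) (nat_lit 2981945061) (nat_lit 532) (nat_lit 3973636334) (nat_lit 76) (nat_lit 1077765826) (nat_lit 202) (nat_lit 5) (nat_lit 209) (nat_lit 5) (nat_lit 203) (nat_lit 4) (nat_lit 438) (nat_lit 385) (nat_lit 377)) (XT.nd (nat_lit 78) (nat_lit 532) (nat_lit 0) (XT.lf (nat_lit 0) (nat_lit 2334391693) (nat_lit 456) (nat_lit 4294244922) (nat_lit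 532) (nat_lit 1496310387) (nat_lit 196) (nat_lit 5) (nat_lit 202) (nat_lit 5) (nat_lit 203) (nat_lit 4) (nat_lit 439) (nat_lit 385) (nat_lit 376)) (XT.lf (nat_lit 0) (nat_lit 567942939) (nat_lit 456) (nat_lit 1511711014) (nat_lit 532) (nat_lit 6140340685) (nat_lit 189) (nat_lit 5) (nat_lit 195) (nat_lit 5) (nat_lit 196) (nat_lit 5) (nat_lit 440) (nat_lit 385) (nat_lit 375)))) (XT.nd (nat_lit 156) (nat_lit 760) (nat_lit 0) (XT.nd (nat_lit 78) (nat_lit 456) (nat_lit 0) (XT.lf (nat_lit 0) (nat_lit 5716612676) (nat_lit 532) (nat_lit 1226851739) (nat_lit 76) (nat_lit 1374489186) (nat_lit 189) (nat_lit 5) (nat_lit 196) (nat_lit 5) (nat_lit 190) (nat_lit 4) (nat_lit 441) (nat_lit 385) (nat_lit 374)) (XT.lf (nat_lit 0) (nat_lit 1004093254) (nat_lit 456) (nat_lit 3063193285) (nat_lit 76) (nat_lit 4351861785) (nat_lit 183) (nat_lit 5) (nat_lit 189) (nat_lit 5) (nat_lit 184) (nat_lit 5) (nat_lit 442) (nat_lit 385) (nat_lit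 373))) (XT.nd (nat_lit 78) (nat_lit 380) (nat_lit 0) (XT.lf (nat_lit 0) (nat_lit 3566769608) (nat_lit 380) (nat_lit 1060277187) (nat_lit 456) (nat_lit 3896726705) (nat_lit 178) (nat_lit 5) (nat_lit 183) (nat_lit 5) (nat_lit 184) (nat_lit 5) (nat_lit 443) (nat_lit 385) (nat_lit 372)) (XT.lf (nat_lit 0) (nat_lit 1725145220) (nat_lit 380) (nat_lit 6616878878) (nat_lit 456) (nat_lit 290029310) (nat_lit 173) (nat_lit 5) (nat_lit 178) (nat_lit 5) (nat_lit 179) (nat_lit 4) (nat_lit 444) (nat_lit 385) (nat_lit 371))))) (XT.nd (nat_lit 312) (nat_lit 1064) (nat_lit 0) (XT.nd (nat_lit 156) (nat_lit 760) (nat_lit 0) (XT.nd (nat_lit 78) (nat_lit 380) (nat_lit 0) (XT.lf (nat_lit 0) (nat_lit 3335525888) (nat_lit 456) (nat_lit 193605708) (nat_lit 76) (nat_lit 5214152915) (nat_lit 172) (nat_lit 5) (nat_lit 178) (nat_lit 5) (nat_lit 173) (nat_lit 5) (nat_lit 445) (nat_lit 385) (nat_lit 370)) (XT.lf (nat_lit 0) (nat_lit 6736094127)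 (nat_lit 380) (nat_lit 311548581) (nat_lit 456) (nat_lit 1810629634) (nat_lit 167) (nat_lit 5) (nat_lit 172) (nat_lit 5) (nat_lit 173) (nat_lit 5) (nat_lit 446) (nat_lit 385) (nat_lit 369))) (XT.nd (nat_lit 78) (nat_lit 380) (nat_lit 0) (XT.lf (nat_lit 0) (nat_lit 1854726685) (nat_lit 380) (nat_lit 4142740673) (nat_lit 76) (nat_lit 2978791560) (nat_lit 162) (nat_lit 5) (nat_lit 167) (nat_lit 5) (nat_lit 163) (nat_lit 5) (nat_lit 447) (nat_lit 385) (nat_lit 368)) (XT.lf (nat_lit 0) (nat_lit 2863871725) (nat_lit 380) (nat_lit 2702326626) (nat_lit 456) (nat_lit 3531885959) (nat_lit 157) (nat_lit 5) (nat_lit 162) (nat_lit 5) (nat_lit 163) (nat_lit 5) (nat_lit 448) (nat_lit 385) (nat_lit 367)))) (XT.nd (nat_lit 156) (nat_lit 684) (nat_lit 0) (XT.nd (nat_lit 78) (nat_lit 0) (nat_lit 0) (XT.lf (nat_lit 0) (nat_lit 140107100) (nat_lit 380) (nat_lit 8388983930) (nat_lit 76) (nat_lit 695101797) (nat_lit 152) (nat_lit 5)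 (nat_lit 157) (nat_lit 5) (nat_lit 153) (nat_lit 5) (nat_lit 449) (nat_lit 385) (nat_lit 366)) (XT.lf (nat_lit 0) (nat_lit 3863192909) (nat_lit 380) (nat_lit 1286406199) (nat_lit 76) (nat_lit 4203091091) (nat_lit 152) (nat_lit 5) (nat_lit 157) (nat_lit 5) (nat_lit 153) (nat_lit 5) (nat_lit 450) (nat_lit 385) (nat_lit 365))) (XT.nd (nat_lit 78) (nat_lit 380) (nat_lit 0) (XT.lf (nat_lit 0) (nat_lit 6034013329) (nat_lit 304) (nat_lit 1645832470) (nat_lit 380) (nat_lit 1805752386) (nat_lit 148) (nat_lit 5) (nat_lit 152) (nat_lit 5) (nat_lit 153) (nat_lit 5) (nat_lit 451) (nat_lit 385) (nat_lit 364)) (XT.lf (nat_lit 0) (nat_lit 1943984014) (nat_lit 380) (nat_lit 5719666144) (nat_lit 76) (nat_lit 1958452594) (nat_lit 143) (nat_lit 5) (nat_lit 148) (nat_lit 5) (nat_lit 144) (nat_lit 5) (nat_lit 452) (nat_lit 385) (nat_lit 363)))))) (XT.nd (nat_lit 546) (nat_lit 1520) (nat_lit 0) (XT.nd (nat_lit 234) (nat_lit 912) (nat_lit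 0) (XT.nd (nat_lit 78) (nat_lit 304) (nat_lit 0) (XT.lf (nat_lit 0) (nat_lit 1670078666) (nat_lit 304) (nat_lit 4092413178) (nat_lit 380) (nat_lit 3999907967) (nat_lit 139) (nat_lit 5) (nat_lit 143) (nat_lit 5) (nat_lit 144) (nat_lit 5) (nat_lit 453) (nat_lit 385) (nat_lit 362)) (XT.nd (nat_lit 78) (nat_lit 304) (nat_lit 0) (XT.lf (nat_lit 0) (nat_lit 9285715279) (nat_lit 304) (nat_lit 393718761) (nat_lit 380) (nat_lit 227965968) (nat_lit 139) (nat_lit 5) (nat_lit 143) (nat_lit 5) (nat_lit 144) (nat_lit 5) (nat_lit 454) (nat_lit 385) (nat_lit 361)) (XT.lf (nat_lit 0) (nat_lit 3614716509) (nat_lit 304) (nat_lit 3024761603) (nat_lit 76) (nat_lit 3415359066) (nat_lit 135) (nat_lit 5) (nat_lit 139) (nat_lit 5) (nat_lit 136) (nat_lit 5) (nat_lit 455) (nat_lit 385) (nat_lit 360)))) (XT.nd (nat_lit 156) (nat_lit 304) (nat_lit 0) (XT.nd (nat_lit 78) (nat_lit 304) (nat_lit 0) (XT.lf (nat_lit 0) (nat_lit 4691048981) (nat_lit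 304) (nat_lit 2860612609) (nat_lit 380) (nat_lit 2655470937) (nat_lit 131) (nat_lit 5) (nat_lit 135) (nat_lit 5) (nat_lit 136) (nat_lit 5) (nat_lit 456) (nat_lit 385) (nat_lit 359)) (XT.lf (nat_lit 0) (nat_lit 1209720130) (nat_lit 304) (nat_lit 8117559773) (nat_lit 76) (nat_lit 1036630051) (nat_lit 127) (nat_lit 5) (nat_lit 131) (nat_lit 5) (nat_lit 128) (nat_lit 5) (nat_lit 457) (nat_lit 385) (nat_lit 358))) (XT.nd (nat_lit 78) (nat_lit 304) (nat_lit 0) (XT.lf (nat_lit 0) (nat_lit 5151240559) (nat_lit 304) (nat_lit 337015679) (nat_lit 76) (nat_lit 5035942207) (nat_lit 127) (nat_lit 5) (nat_lit 131) (nat_lit 5) (nat_lit 128) (nat_lit 5) (nat_lit 458) (nat_lit 385) (nat_lit 357)) (XT.lf (nat_lit 0) (nat_lit 7717976409) (nat_lit 304) (nat_lit 1498453054) (nat_lit 380) (nat_lit 1472712060) (nat_lit 123) (nat_lit 5) (nat_lit 127) (nat_lit 5) (nat_lit 128) (nat_lit 5) (nat_lit 459) (nat_lit 385) (nat_lit 356))))) (XT.nd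 (nat_lit 312) (nat_lit 684) (nat_lit 0) (XT.nd (nat_lit 156) (nat_lit 304) (nat_lit 0) (XT.nd (nat_lit 78) (nat_lit 228) (nat_lit 0) (XT.lf (nat_lit 0) (nat_lit 2504600044) (nat_lit 304) (nat_lit 5755941744) (nat_lit 76) (nat_lit 2597474073) (nat_lit 119) (nat_lit 5) (nat_lit 123) (nat_lit 5) (nat_lit 120) (nat_lit 5) (nat_lit 460) (nat_lit 385) (nat_lit 355)) (XT.lf (nat_lit 0) (nat_lit 2353132705) (nat_lit 228) (nat_lit 4218320412) (nat_lit 304) (nat_lit 4460079109) (nat_lit 116) (nat_lit 5) (nat_lit 119) (nat_lit 5) (nat_lit 120) (nat_lit 5) (nat_lit 461) (nat_lit 385) (nat_lit 354))) (XT.nd (nat_lit 78) (nat_lit 304) (nat_lit 0) (XT.lf (nat_lit 0) (nat_lit 10714122200) (nat_lit 228) (nat_lit 37306594) (nat_lit 304) (nat_lit 459099435) (nat_lit 116) (nat_lit 5) (nat_lit 119) (nat_lit 5) (nat_lit 120) (nat_lit 5) (nat_lit 462) (nat_lit 385) (nat_lit 353)) (XT.lf (nat_lit 0) (nat_lit 3642843225) (nat_lit 304)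 (nat_lit 3491894158) (nat_lit 76) (nat_lit 4257536209) (nat_lit 112) (nat_lit 5) (nat_lit 116) (nat_lit 5) (nat_lit 113) (nat_lit 5) (nat_lit 463) (nat_lit 385) (nat_lit 352)))) (XT.nd (nat_lit 156) (nat_lit 228) (nat_lit 0) (XT.nd (nat_lit 78) (nat_lit 228) (nat_lit 0) (XT.lf (nat_lit 0) (nat_lit 4963845170) (nat_lit 228) (nat_lit 2882703128) (nat_lit 304) (nat_lit 3733155711) (nat_lit 109) (nat_lit 5) (nat_lit 112) (nat_lit 5) (nat_lit 113) (nat_lit 5) (nat_lit 464) (nat_lit 385) (nat_lit 351)) (XT.lf (nat_lit 0) (nat_lit 399141249) (nat_lit 228) (nat_lit 9889804104) (nat_lit 76) (nat_lit 1483599902) (nat_lit 106) (nat_lit 5) (nat_lit 109) (nat_lit 5) (nat_lit 107) (nat_lit 5) (nat_lit 465) (nat_lit 385) (nat_lit 350))) (XT.nd (nat_lit 78) (nat_lit 228) (nat_lit 0) (XT.lf (nat_lit 0) (nat_lit 4611846123) (nat_lit 228) (nat_lit 1372087871) (nat_lit 76) (nat_lit 5985191144) (nat_lit 106) (nat_lit 5) (nat_lit 109)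 (nat_lit 5) (nat_lit 107) (nat_lit 5) (nat_lit 466) (nat_lit 385) (nat_lit 349)) (XT.lf (nat_lit 0) (nat_lit 7440849763) (nat_lit 228) (nat_lit 1518949607) (nat_lit 304) (nat_lit 3211543257) (nat_lit 103) (nat_lit 5) (nat_lit 106) (nat_lit 5) (nat_lit 107) (nat_lit 5) (nat_lit 467) (nat_lit 385) (nat_lit 348))))))) (XT.nd (nat_lit 1170) (nat_lit 1672) (nat_lit 0) (XT.nd (nat_lit 546) (nat_lit 912) (nat_lit 0) (XT.nd (nat_lit 234) (nat_lit 684) (nat_lit 0) (XT.nd (nat_lit 78) (nat_lit 228) (nat_lit 0) (XT.lf (nat_lit 0) (nat_lit 1058984084) (nat_lit 228) (nat_lit 8277733110) (nat_lit 76) (nat_lit 3041977768) (nat_lit 100) (nat_lit 5) (nat_lit 103) (nat_lit 5) (nat_lit 101) (nat_lit 5) (nat_lit 468) (nat_lit 385) (nat_lit 347)) (XT.nd (nat_lit 78) (nat_lit 0) (nat_lit 0) (XT.lf (nat_lit 0) (nat_lit 561006510) (nat_lit 228) (nat_lit 4838688251) (nat_lit 304) (nat_lit 7191426390) (nat_lit 97) (nat_lit 5) (nat_lit 100)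 (nat_lit 5) (nat_lit 101) (nat_lit 5) (nat_lit 469) (nat_lit 385) (nat_lit 346)) (XT.lf (nat_lit 0) (nat_lit 9729507097) (nat_lit 228) (nat_lit 163448720) (nat_lit 304) (nat_lit 2916299967) (nat_lit 97) (nat_lit 5) (nat_lit 100) (nat_lit 5) (nat_lit 101) (nat_lit 5) (nat_lit 470) (nat_lit 385) (nat_lit 345)))) (XT.nd (nat_lit 156) (nat_lit 228) (nat_lit 0) (XT.nd (nat_lit 78) (nat_lit 228) (nat_lit 0) (XT.lf (nat_lit 0) (nat_lit 1502057158) (nat_lit 228) (nat_lit 6937122652) (nat_lit 76) (nat_lit 4593011162) (nat_lit 94) (nat_lit 5) (nat_lit 97) (nat_lit 5) (nat_lit 95) (nat_lit 5) (nat_lit 471) (nat_lit 385) (nat_lit 344)) (XT.lf (nat_lit 0) (nat_lit 2257036677) (nat_lit 228) (nat_lit 3732320115) (nat_lit 304) (nat_lit 7271746060) (nat_lit 91) (nat_lit 5) (nat_lit 94) (nat_lit 5) (nat_lit 95) (nat_lit 5) (nat_lit 472) (nat_lit 385) (nat_lit 343))) (XT.nd (nat_lit 78) (nat_lit 228) (nat_lit 0) (XT.lf (nat_lit 0)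 (nat_lit 10633364543) (nat_lit 304) (nat_lit 1740899575) (nat_lit 76) (nat_lit 1121960211) (nat_lit 91) (nat_lit 5) (nat_lit 95) (nat_lit 5) (nat_lit 92) (nat_lit 4) (nat_lit 473) (nat_lit 385) (nat_lit 342)) (XT.lf (nat_lit 0) (nat_lit 1700500576) (nat_lit 228) (nat_lit 5938638028) (nat_lit 76) (nat_lit 6097132785) (nat_lit 88) (nat_lit 5) (nat_lit 91) (nat_lit 5) (nat_lit 89) (nat_lit 5) (nat_lit 474) (nat_lit 385) (nat_lit 341))))) (XT.nd (nat_lit 312) (nat_lit 380) (nat_lit 0) (XT.nd (nat_lit 156) (nat_lit 380) (nat_lit 0) (XT.nd (nat_lit 78) (nat_lit 0) (nat_lit 0) (XT.lf (nat_lit 0) (nat_lit 3616000593) (nat_lit 152) (nat_lit 2722232528) (nat_lit 228) (nat_lit 7644590520) (nat_lit 86) (nat_lit 5) (nat_lit 88) (nat_lit 5) (nat_lit 89) (nat_lit 5) (nat_lit 475) (nat_lit 385) (nat_lit 340)) (XT.lf (nat_lit 0) (nat_lit 11140970397) (nat_lit 228) (nat_lit 780426163) (nat_lit 76) (nat_lit 2314604084) (nat_lit 86)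 (nat_lit 5) (nat_lit 89) (nat_lit 5) (nat_lit 87) (nat_lit 4) (nat_lit 476) (nat_lit 385) (nat_lit 339))) (XT.nd (nat_lit 78) (nat_lit 152) (nat_lit 0) (XT.lf (nat_lit 0) (nat_lit 1619892141) (nat_lit 228) (nat_lit 5364190648) (nat_lit 76) (nat_lit 7510437816) (nat_lit 83) (nat_lit 5) (nat_lit 86) (nat_lit 5) (nat_lit 84) (nat_lit 5) (nat_lit 477) (nat_lit 385) (nat_lit 338)) (XT.lf (nat_lit 0) (nat_lit 4553430090) (nat_lit 152) (nat_lit 1856950057) (nat_lit 228) (nat_lit 8349610947) (nat_lit 81) (nat_lit 5) (nat_lit 83) (nat_lit 5) (nat_lit 84) (nat_lit 5) (nat_lit 478) (nat_lit 385) (nat_lit 337)))) (XT.nd (nat_lit 156) (nat_lit 152) (nat_lit 0) (XT.nd (nat_lit 78) (nat_lit 228) (nat_lit 0) (XT.lf (nat_lit 0) (nat_lit 11377060048) (nat_lit 228) (nat_lit 285526891) (nat_lit 76) (nat_lit 3369868322) (nat_lit 81) (nat_lit 5) (nat_lit 84) (nat_lit 5) (nat_lit 82) (nat_lit 4) (nat_lit 479) (nat_lit 385) (nat_lit 336))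 (XT.lf (nat_lit 0) (nat_lit 1218343370) (nat_lit 228) (nat_lit 5308980288) (nat_lit 76) (nat_lit 8783581699) (nat_lit 78) (nat_lit 5) (nat_lit 81) (nat_lit 5) (nat_lit 79) (nat_lit 5) (nat_lit 480) (nat_lit 385) (nat_lit 335))) (XT.nd (nat_lit 78) (nat_lit 0) (nat_lit 0) (XT.lf (nat_lit 0) (nat_lit 4970947295) (nat_lit 152) (nat_lit 1191157045) (nat_lit 228) (nat_lit 9434604003) (nat_lit 76) (nat_lit 5) (nat_lit 78) (nat_lit 5) (nat_lit 79) (nat_lit 5) (nat_lit 481) (nat_lit 385) (nat_lit 334)) (XT.lf (nat_lit 0) (nat_lit 11296521224) (nat_lit 228) (nat_lit 359591659) (nat_lit 76) (nat_lit 4233705691) (nat_lit 76) (nat_lit 5) (nat_lit 79) (nat_lit 5) (nat_lit 77) (nat_lit 4) (nat_lit 482) (nat_lit 385) (nat_lit 333)))))) (XT.nd (nat_lit 624) (nat_lit 608) (nat_lit 0) (XT.nd (nat_lit 312) (nat_lit 532) (nat_lit 0) (XT.nd (nat_lit 156) (nat_lit 152) (nat_lit 0) (XT.nd (nat_lit 78) (nat_lit 152) (nat_lit 0) (XT.lf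 (nat_lit 0) (nat_lit 445430283) (nat_lit 228) (nat_lit 5883847982) (nat_lit 76) (nat_lit 9860538026) (nat_lit 73) (nat_lit 5) (nat_lit 76) (nat_lit 5) (nat_lit 74) (nat_lit 5) (nat_lit 483) (nat_lit 385) (nat_lit 332)) (XT.lf (nat_lit 0) (nat_lit 4753801773) (nat_lit 152) (nat_lit 787034172) (nat_lit 228) (nat_lit 10956681694) (nat_lit 71) (nat_lit 5) (nat_lit 73) (nat_lit 5) (nat_lit 74) (nat_lit 5) (nat_lit 484) (nat_lit 385) (nat_lit 331))) (XT.nd (nat_lit 78) (nat_lit 152) (nat_lit 0) (XT.lf (nat_lit 0) (nat_lit 10845097189) (nat_lit 228) (nat_lit 1123190447) (nat_lit 76) (nat_lit 4844485654) (nat_lit 71) (nat_lit 5) (nat_lit 74) (nat_lit 5) (nat_lit 72) (nat_lit 4) (nat_lit 485) (nat_lit 385) (nat_lit 330)) (XT.lf (nat_lit 0) (nat_lit 9910459214) (nat_lit 152) (nat_lit 6451261141) (nat_lit 228) (nat_lit 774172205) (nat_lit 69) (nat_lit 5) (nat_lit 71) (nat_lit 5) (nat_lit 72) (nat_lit 4) (nat_lit 486) (nat_lit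 385) (nat_lit 329)))) (XT.nd (nat_lit 156) (nat_lit 304) (nat_lit 0) (XT.nd (nat_lit 78) (nat_lit 0) (nat_lit 0) (XT.lf (nat_lit 0) (nat_lit 3768026616) (nat_lit 152) (nat_lit 715777780) (nat_lit 228) (nat_lit 12983646093) (nat_lit 66) (nat_lit 5) (nat_lit 68) (nat_lit 5) (nat_lit 69) (nat_lit 5) (nat_lit 487) (nat_lit 385) (nat_lit 328)) (XT.lf (nat_lit 0) (nat_lit 9958006864) (nat_lit 228) (nat_lit 2717030617) (nat_lit 76) (nat_lit 5131469045) (nat_lit 66) (nat_lit 5) (nat_lit 69) (nat_lit 5) (nat_lit 67) (nat_lit 4) (nat_lit 488) (nat_lit 385) (nat_lit 327))) (XT.nd (nat_lit 78) (nat_lit 228) (nat_lit 0) (XT.lf (nat_lit 0) (nat_lit 8668181303) (nat_lit 76) (nat_lit 6970563007) (nat_lit 152) (nat_lit 2515723309) (nat_lit 65) (nat_lit 5) (nat_lit 66) (nat_lit 5) (nat_lit 67) (nat_lit 4) (nat_lit 489) (nat_lit 385) (nat_lit 326)) (XT.lf (nat_lit 0) (nat_lit 1857150477) (nat_lit 152) (nat_lit 1059335045) (nat_lit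 228) (nat_lit 15595599741) (nat_lit 62) (nat_lit 5) (nat_lit 64) (nat_lit 5) (nat_lit 65) (nat_lit 5) (nat_lit 490) (nat_lit 385) (nat_lit 325))))) (XT.nd (nat_lit 312) (nat_lit 304) (nat_lit 0) (XT.nd (nat_lit 156) (nat_lit 228) (nat_lit 0) (XT.nd (nat_lit 78) (nat_lit 76) (nat_lit 0) (XT.lf (nat_lit 0) (nat_lit 8558328291) (nat_lit 228) (nat_lit 5305377189) (nat_lit 76) (nat_lit 5013064194) (nat_lit 62) (nat_lit 5) (nat_lit 65) (nat_lit 5) (nat_lit 63) (nat_lit 4) (nat_lit 491) (nat_lit 385) (nat_lit 324)) (XT.lf (nat_lit 0) (nat_lit 6412940718) (nat_lit 76) (nat_lit 7982158861) (nat_lit 152) (nat_lit 4856527189) (nat_lit 61) (nat_lit 5) (nat_lit 62) (nat_lit 5) (nat_lit 63) (nat_lit 4) (nat_lit 492) (nat_lit 385) (nat_lit 323))) (XT.nd (nat_lit 78) (nat_lit 152) (nat_lit 0) (XT.lf (nat_lit 0) (nat_lit 761951764) (nat_lit 152) (nat_lit 1138940123) (nat_lit 76) (nat_lit 17736386523) (nat_lit 60) (nat_lit 5) (nat_lit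 62) (nat_lit 5) (nat_lit 61) (nat_lit 5) (nat_lit 493) (nat_lit 385) (nat_lit 322)) (XT.lf (nat_lit 0) (nat_lit 6555109086) (nat_lit 228) (nat_lit 9080011794) (nat_lit 76) (nat_lit 4394826275) (nat_lit 58) (nat_lit 5) (nat_lit 61) (nat_lit 5) (nat_lit 59) (nat_lit 4) (nat_lit 494) (nat_lit 385) (nat_lit 321)))) (XT.nd (nat_lit 156) (nat_lit 228) (nat_lit 0) (XT.nd (nat_lit 78) (nat_lit 0) (nat_lit 0) (XT.lf (nat_lit 0) (nat_lit 2945228975) (nat_lit 76) (nat_lit 9590685696) (nat_lit 152) (nat_lit 7898067771) (nat_lit 57) (nat_lit 5) (nat_lit 58) (nat_lit 5) (nat_lit 59) (nat_lit 4) (nat_lit 495) (nat_lit 385) (nat_lit 320)) (XT.lf (nat_lit 0) (nat_lit 15434100838) (nat_lit 76) (nat_lit 3309347712) (nat_lit 152) (nat_lit 2105273138) (nat_lit 57) (nat_lit 5) (nat_lit 58) (nat_lit 5) (nat_lit 59) (nat_lit 4) (nat_lit 496) (nat_lit 385) (nat_lit 319))) (XT.nd (nat_lit 78) (nat_lit 0) (nat_lit 0) (XT.lf (nat_lit 0) (nat_lit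 3841161590) (nat_lit 228) (nat_lit 14264817900) (nat_lit 76) (nat_lit 3167155886) (nat_lit 54) (nat_lit 5) (nat_lit 57) (nat_lit 5) (nat_lit 55) (nat_lit 4) (nat_lit 497) (nat_lit 385) (nat_lit 318)) (XT.lf (nat_lit 0) (nat_lit 9968263669) (nat_lit 228) (nat_lit 1929682652) (nat_lit 76) (nat_lit 9810374030) (nat_lit 54) (nat_lit 5) (nat_lit 57) (nat_lit 5) (nat_lit 55) (nat_lit 4) (nat_lit 498) (nat_lit 385) (nat_lit 317))))))))
noncomputable def xc64 : XT := (XT.nd (nat_lit 2340) (nat_lit 988) (nat_lit 0) (XT.nd (nat_lit 1170) (nat_lit 684) (nat_lit 0) (XT.nd (nat_lit 546) (nat_lit 532) (nat_lit 0) (XT.nd (nat_lit 234) (nat_lit 304) (nat_lit 0) (XT.nd (nat_lit 78) (nat_lit 228) (nat_lit 0) (XT.lf (nat_lit 0) (nat_lit 10908934205) (nat_lit 76) (nat_lit 5432975902) (nat_lit 152) (nat_lit 5812770630) (nat_lit 53) (nat_lit 5) (nat_lit 54) (nat_lit 5) (nat_lit 55) (nat_lit 4) (nat_lit 499) (nat_lit 385) (nat_lit 316))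 (XT.nd (nat_lit 78) (nat_lit 0) (nat_lit 0) (XT.lf (nat_lit 0) (nat_lit 290493525) (nat_lit 228) (nat_lit 21121093718) (nat_lit 76) (nat_lit 1202646163) (nat_lit 50) (nat_lit 5) (nat_lit 53) (nat_lit 5) (nat_lit 51) (nat_lit 4) (nat_lit 500) (nat_lit 385) (nat_lit 315)) (XT.lf (nat_lit 0) (nat_lit 6586537487) (nat_lit 228) (nat_lit 8431533777) (nat_lit 76) (nat_lit 8063981087) (nat_lit 50) (nat_lit 5) (nat_lit 53) (nat_lit 5) (nat_lit 51) (nat_lit 4) (nat_lit 501) (nat_lit 385) (nat_lit 314)))) (XT.nd (nat_lit 156) (nat_lit 228) (nat_lit 0) (XT.nd (nat_lit 78) (nat_lit 0) (nat_lit 0) (XT.lf (nat_lit 0) (nat_lit 4652194205) (nat_lit 76) (nat_lit 8423247162) (nat_lit 152) (nat_lit 10488346738) (nat_lit 49) (nat_lit 5) (nat_lit 50) (nat_lit 5) (nat_lit 51) (nat_lit 4) (nat_lit 502) (nat_lit 385) (nat_lit 313)) (XT.lf (nat_lit 0) (nat_lit 18224730224) (nat_lit 76) (nat_lit 1579133829) (nat_lit 152) (nat_lit 4254767879)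 (nat_lit 49) (nat_lit 5) (nat_lit 50) (nat_lit 5) (nat_lit 51) (nat_lit 4) (nat_lit 503) (nat_lit 385) (nat_lit 312))) (XT.nd (nat_lit 78) (nat_lit 0) (nat_lit 0) (XT.lf (nat_lit 0) (nat_lit 2211153221) (nat_lit 228) (nat_lit 16929578634) (nat_lit 76) (nat_lit 5424338173) (nat_lit 46) (nat_lit 5) (nat_lit 49) (nat_lit 5) (nat_lit 47) (nat_lit 4) (nat_lit 504) (nat_lit 385) (nat_lit 311)) (XT.lf (nat_lit 0) (nat_lit 8821255573) (nat_lit 228) (nat_lit 3589921326) (nat_lit 76) (nat_lit 12673190387) (nat_lit 46) (nat_lit 5) (nat_lit 49) (nat_lit 5) (nat_lit 47) (nat_lit 4) (nat_lit 505) (nat_lit 385) (nat_lit 310))))) (XT.nd (nat_lit 312) (nat_lit 304) (nat_lit 0) (XT.nd (nat_lit 156) (nat_lit 152) (nat_lit 0) (XT.nd (nat_lit 78) (nat_lit 0) (nat_lit 0) (XT.lf (nat_lit 0) (nat_lit 10277468095) (nat_lit 76) (nat_lit 5412725051) (nat_lit 152) (nat_lit 9927235732) (nat_lit 45) (nat_lit 5) (nat_lit 46) (nat_lit 5) (nat_lit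 47) (nat_lit 4) (nat_lit 506) (nat_lit 385) (nat_lit 309)) (XT.lf (nat_lit 0) (nat_lit 22780897278) (nat_lit 152) (nat_lit 1621643503) (nat_lit 0) (nat_lit 1763471920) (nat_lit 45) (nat_lit 5) (nat_lit 47) (nat_lit 4) (nat_lit 45) (nat_lit 4) (nat_lit 507) (nat_lit 385) (nat_lit 308))) (XT.nd (nat_lit 78) (nat_lit 0) (nat_lit 0) (XT.lf (nat_lit 0) (nat_lit 3427137400) (nat_lit 152) (nat_lit 14130394054) (nat_lit 76) (nat_lit 9168377741) (nat_lit 43) (nat_lit 5) (nat_lit 45) (nat_lit 5) (nat_lit 44) (nat_lit 4) (nat_lit 508) (nat_lit 385) (nat_lit 307)) (XT.lf (nat_lit 0) (nat_lit 10355236651) (nat_lit 152) (nat_lit 134369678) (nat_lit 76) (nat_lit 16812606507) (nat_lit 43) (nat_lit 5) (nat_lit 45) (nat_lit 5) (nat_lit 44) (nat_lit 4) (nat_lit 509) (nat_lit 385) (nat_lit 306)))) (XT.nd (nat_lit 156) (nat_lit 152) (nat_lit 0) (XT.nd (nat_lit 78) (nat_lit 76) (nat_lit 0) (XT.lf (nat_lit 0) (nat_lit 14495451291) (nat_lit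 76) (nat_lit 3099123781) (nat_lit 152) (nat_lit 10298129821) (nat_lit 42) (nat_lit 5) (nat_lit 43) (nat_lit 5) (nat_lit 44) (nat_lit 4) (nat_lit 510) (nat_lit 385) (nat_lit 305)) (XT.lf (nat_lit 0) (nat_lit 972613727) (nat_lit 76) (nat_lit 24096715238) (nat_lit 76) (nat_lit 3431036839) (nat_lit 41) (nat_lit 4) (nat_lit 42) (nat_lit 5) (nat_lit 42) (nat_lit 4) (nat_lit 511) (nat_lit 385) (nat_lit 304))) (XT.nd (nat_lit 78) (nat_lit 76) (nat_lit 0) (XT.lf (nat_lit 0) (nat_lit 3702477465) (nat_lit 152) (nat_lit 13210081461) (nat_lit 76) (nat_lit 12208704061) (nat_lit 40) (nat_lit 5) (nat_lit 42) (nat_lit 5) (nat_lit 41) (nat_lit 4) (nat_lit 512) (nat_lit 385) (nat_lit 303)) (XT.lf (nat_lit 0) (nat_lit 1464683768) (nat_lit 76) (nat_lit 9495644623) (nat_lit 152) (nat_lit 18800061880) (nat_lit 39) (nat_lit 5) (nat_lit 40) (nat_lit 5) (nat_lit 41) (nat_lit 4) (nat_lit 513) (nat_lit 385) (nat_lit 302)))))) (XT.nd (nat_lit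 546) (nat_lit 304) (nat_lit 0) (XT.nd (nat_lit 234) (nat_lit 228) (nat_lit 0) (XT.nd (nat_lit 78) (nat_lit 152) (nat_lit 0) (XT.lf (nat_lit 0) (nat_lit 16784096887) (nat_lit 76) (nat_lit 1750801146) (nat_lit 152) (nat_lit 11880824871) (nat_lit 39) (nat_lit 5) (nat_lit 40) (nat_lit 5) (nat_lit 41) (nat_lit 4) (nat_lit 514) (nat_lit 385) (nat_lit 301)) (XT.nd (nat_lit 78) (nat_lit 76) (nat_lit 0) (XT.lf (nat_lit 0) (nat_lit 1374180220) (nat_lit 76) (nat_lit 25001877012) (nat_lit 76) (nat_lit 4713478707) (nat_lit 38) (nat_lit 4) (nat_lit 39) (nat_lit 5) (nat_lit 39) (nat_lit 4) (nat_lit 515) (nat_lit 385) (nat_lit 300)) (XT.lf (nat_lit 0) (nat_lit 2739480116) (nat_lit 152) (nat_lit 14779383114) (nat_lit 76) (nat_lit 14260251267) (nat_lit 37) (nat_lit 5) (nat_lit 39) (nat_lit 5) (nat_lit 38) (nat_lit 4) (nat_lit 516) (nat_lit 385) (nat_lit 299)))) (XT.nd (nat_lit 156) (nat_lit 152) (nat_lit 0) (XT.nd (nat_lit 78) (nat_lit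 0) (nat_lit 0) (XT.lf (nat_lit 0) (nat_lit 504552609) (nat_lit 76) (nat_lit 9788891467) (nat_lit 152) (nat_lit 22195372626) (nat_lit 36) (nat_lit 5) (nat_lit 37) (nat_lit 5) (nat_lit 38) (nat_lit 4) (nat_lit 517) (nat_lit 385) (nat_lit 298)) (XT.lf (nat_lit 0) (nat_lit 16487296201) (nat_lit 76) (nat_lit 1703626000) (nat_lit 152) (nat_lit 15025381797) (nat_lit 36) (nat_lit 5) (nat_lit 37) (nat_lit 5) (nat_lit 38) (nat_lit 4) (nat_lit 518) (nat_lit 385) (nat_lit 297))) (XT.nd (nat_lit 78) (nat_lit 152) (nat_lit 0) (XT.lf (nat_lit 0) (nat_lit 26357312112) (nat_lit 152) (nat_lit 1141277294) (nat_lit 0) (nat_lit 6466067745) (nat_lit 36) (nat_lit 5) (nat_lit 38) (nat_lit 4) (nat_lit 36) (nat_lit 4) (nat_lit 519) (nat_lit 385) (nat_lit 296)) (XT.lf (nat_lit 0) (nat_lit 165454011) (nat_lit 152) (nat_lit 19600340042) (nat_lit 76) (nat_lit 14965671981) (nat_lit 34) (nat_lit 5) (nat_lit 36) (nat_lit 5) (nat_lit 35) (nat_lit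 4) (nat_lit 520) (nat_lit 385) (nat_lit 295))))) (XT.nd (nat_lit 312) (nat_lit 152) (nat_lit 0) (XT.nd (nat_lit 156) (nat_lit 76) (nat_lit 0) (XT.nd (nat_lit 78) (nat_lit 76) (nat_lit 0) (XT.lf (nat_lit 0) (nat_lit 7999435788) (nat_lit 152) (nat_lit 3741014628) (nat_lit 76) (nat_lit 23779142981) (nat_lit 34) (nat_lit 5) (nat_lit 36) (nat_lit 5) (nat_lit 35) (nat_lit 4) (nat_lit 521) (nat_lit 385) (nat_lit 294)) (XT.lf (nat_lit 0) (nat_lit 12785580087) (nat_lit 76) (nat_lit 3375915172) (nat_lit 152) (nat_lit 20167078337) (nat_lit 33) (nat_lit 5) (nat_lit 34) (nat_lit 5) (nat_lit 35) (nat_lit 4) (nat_lit 522) (nat_lit 385) (nat_lit 293))) (XT.nd (nat_lit 78) (nat_lit 76) (nat_lit 0) (XT.lf (nat_lit 0) (nat_lit 24627137603) (nat_lit 152) (nat_lit 7384822789) (nat_lit 0) (nat_lit 5148101917) (nat_lit 33) (nat_lit 5) (nat_lit 35) (nat_lit 4) (nat_lit 33) (nat_lit 4) (nat_lit 523) (nat_lit 385) (nat_lit 292)) (XT.lf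 (nat_lit 0) (nat_lit 9350773454) (nat_lit 76) (nat_lit 24090358184) (nat_lit 76) (nat_lit 4572533293) (nat_lit 32) (nat_lit 4) (nat_lit 33) (nat_lit 5) (nat_lit 33) (nat_lit 4) (nat_lit 524) (nat_lit 385) (nat_lit 291)))) (XT.nd (nat_lit 156) (nat_lit 0) (nat_lit 0) (XT.nd (nat_lit 78) (nat_lit 76) (nat_lit 0) (XT.lf (nat_lit 0) (nat_lit 3602305218) (nat_lit 152) (nat_lit 12242804718) (nat_lit 76) (nat_lit 23045328378) (nat_lit 31) (nat_lit 5) (nat_lit 33) (nat_lit 5) (nat_lit 32) (nat_lit 4) (nat_lit 525) (nat_lit 385) (nat_lit 290)) (XT.lf (nat_lit 0) (nat_lit 4660818324) (nat_lit 76) (nat_lit 7286405903) (nat_lit 152) (nat_lit 27844430990) (nat_lit 30) (nat_lit 5) (nat_lit 31) (nat_lit 5) (nat_lit 32) (nat_lit 4) (nat_lit 526) (nat_lit 385) (nat_lit 289))) (XT.nd (nat_lit 78) (nat_lit 0) (nat_lit 0) (XT.lf (nat_lit 0) (nat_lit 20654019705) (nat_lit 152) (nat_lit 18464392411) (nat_lit 0) (nat_lit 1598151282)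 (nat_lit 30) (nat_lit 5) (nat_lit 32) (nat_lit 4) (nat_lit 30) (nat_lit 4) (nat_lit 527) (nat_lit 385) (nat_lit 288)) (XT.lf (nat_lit 0) (nat_lit 29666956127) (nat_lit 152) (nat_lit 1423287411) (nat_lit 0) (nat_lit 10577627796) (nat_lit 30) (nat_lit 5) (nat_lit 32) (nat_lit 4) (nat_lit 30) (nat_lit 4) (nat_lit 528) (nat_lit 385) (nat_lit 287))))))) (XT.nd (nat_lit 1170) (nat_lit 304) (nat_lit 0) (XT.nd (nat_lit 546) (nat_lit 304) (nat_lit 0) (XT.nd (nat_lit 234) (nat_lit 152) (nat_lit 0) (XT.nd (nat_lit 78) (nat_lit 152) (nat_lit 0) (XT.lf (nat_lit 0) (nat_lit 16397381761) (nat_lit 76) (nat_lit 22684107387) (nat_lit 76) (nat_lit 3562293708) (nat_lit 29) (nat_lit 4) (nat_lit 30) (nat_lit 5) (nat_lit 30) (nat_lit 4) (nat_lit 529) (nat_lit 385) (nat_lit 286)) (XT.nd (nat_lit 78) (nat_lit 76) (nat_lit 0) (XT.lf (nat_lit 0) (nat_lit 5017511674) (nat_lit 152) (nat_lit 8967804153) (nat_lit 76) (nat_lit 29662533631) (nat_lit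 28) (nat_lit 5) (nat_lit 30) (nat_lit 5) (nat_lit 29) (nat_lit 4) (nat_lit 530) (nat_lit 385) (nat_lit 285)) (XT.lf (nat_lit 0) (nat_lit 8917741855) (nat_lit 76) (nat_lit 4925467634) (nat_lit 152) (nat_lit 30835968109) (nat_lit 27) (nat_lit 5) (nat_lit 28) (nat_lit 5) (nat_lit 29) (nat_lit 4) (nat_lit 531) (nat_lit 385) (nat_lit 284)))) (XT.nd (nat_lit 156) (nat_lit 152) (nat_lit 0) (XT.nd (nat_lit 78) (nat_lit 0) (nat_lit 0) (XT.lf (nat_lit 0) (nat_lit 23041896330) (nat_lit 152) (nat_lit 18308486626) (nat_lit 0) (nat_lit 4387816618) (nat_lit 27) (nat_lit 5) (nat_lit 29) (nat_lit 4) (nat_lit 27) (nat_lit 4) (nat_lit 532) (nat_lit 385) (nat_lit 283)) (XT.lf (nat_lit 0) (nat_lit 32540465527) (nat_lit 152) (nat_lit 429445881) (nat_lit 0) (nat_lit 13858363668) (nat_lit 27) (nat_lit 5) (nat_lit 29) (nat_lit 4) (nat_lit 27) (nat_lit 4) (nat_lit 533) (nat_lit 385) (nat_lit 282))) (XT.nd (nat_lit 78) (nat_lit 76) (nat_lit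 0) (XT.lf (nat_lit 0) (nat_lit 18295669982) (nat_lit 76) (nat_lit 24180069383) (nat_lit 76) (nat_lit 5470761556) (nat_lit 26) (nat_lit 4) (nat_lit 27) (nat_lit 5) (nat_lit 27) (nat_lit 4) (nat_lit 534) (nat_lit 385) (nat_lit 281)) (XT.lf (nat_lit 0) (nat_lit 3520611536) (nat_lit 152) (nat_lit 11588879969) (nat_lit 76) (nat_lit 33988333037) (nat_lit 25) (nat_lit 5) (nat_lit 27) (nat_lit 5) (nat_lit 26) (nat_lit 4) (nat_lit 535) (nat_lit 385) (nat_lit 280))))) (XT.nd (nat_lit 312) (nat_lit 152) (nat_lit 0) (XT.nd (nat_lit 156) (nat_lit 76) (nat_lit 0) (XT.nd (nat_lit 78) (nat_lit 0) (nat_lit 0) (XT.lf (nat_lit 0) (nat_lit 7052433476) (nat_lit 76) (nat_lit 5663723714) (nat_lit 152) (nat_lit 37564574516) (nat_lit 24) (nat_lit 5) (nat_lit 25) (nat_lit 5) (nat_lit 26) (nat_lit 4) (nat_lit 536) (nat_lit 385) (nat_lit 279)) (XT.lf (nat_lit 0) (nat_lit 22321457663) (nat_lit 152) (nat_lit 25091284784) (nat_lit 0) (nat_lit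 4082367433) (nat_lit 24) (nat_lit 5) (nat_lit 26) (nat_lit 4) (nat_lit 24) (nat_lit 4) (nat_lit 537) (nat_lit 385) (nat_lit 278))) (XT.nd (nat_lit 78) (nat_lit 76) (nat_lit 0) (XT.lf (nat_lit 0) (nat_lit 32248299973) (nat_lit 152) (nat_lit 6510876739) (nat_lit 0) (nat_lit 13985741638) (nat_lit 24) (nat_lit 5) (nat_lit 26) (nat_lit 4) (nat_lit 24) (nat_lit 4) (nat_lit 538) (nat_lit 385) (nat_lit 277)) (XT.lf (nat_lit 0) (nat_lit 12834042790) (nat_lit 76) (nat_lit 29740240766) (nat_lit 76) (nat_lit 11454897860) (nat_lit 23) (nat_lit 4) (nat_lit 24) (nat_lit 5) (nat_lit 24) (nat_lit 4) (nat_lit 539) (nat_lit 385) (nat_lit 276)))) (XT.nd (nat_lit 156) (nat_lit 76) (nat_lit 0) (XT.nd (nat_lit 78) (nat_lit 76) (nat_lit 0) (XT.lf (nat_lit 0) (nat_lit 32849862233) (nat_lit 76) (nat_lit 20404128045) (nat_lit 76) (nat_lit 2096664198) (nat_lit 23) (nat_lit 4) (nat_lit 24) (nat_lit 5) (nat_lit 24) (nat_lit 4) (nat_lit 540)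 (nat_lit 385) (nat_lit 275)) (XT.lf (nat_lit 0) (nat_lit 7373760328) (nat_lit 152) (nat_lit 3360207022) (nat_lit 76) (nat_lit 45976271076) (nat_lit 22) (nat_lit 5) (nat_lit 24) (nat_lit 5) (nat_lit 23) (nat_lit 4) (nat_lit 541) (nat_lit 385) (nat_lit 274))) (XT.nd (nat_lit 78) (nat_lit 0) (nat_lit 0) (XT.lf (nat_lit 0) (nat_lit 16617234539) (nat_lit 76) (nat_lit 607901488) (nat_lit 152) (nat_lit 40880682090) (nat_lit 21) (nat_lit 5) (nat_lit 22) (nat_lit 5) (nat_lit 23) (nat_lit 4) (nat_lit 542) (nat_lit 385) (nat_lit 273)) (XT.lf (nat_lit 0) (nat_lit 27480003358) (nat_lit 152) (nat_lit 22415006157) (nat_lit 0) (nat_lit 9645017540) (nat_lit 21) (nat_lit 5) (nat_lit 23) (nat_lit 4) (nat_lit 21) (nat_lit 4) (nat_lit 543) (nat_lit 385) (nat_lit 272)))))) (XT.nd (nat_lit 546) (nat_lit 76) (nat_lit 0) (XT.nd (nat_lit 234) (nat_lit 152) (nat_lit 0) (XT.nd (nat_lit 78) (nat_lit 76) (nat_lit 0) (XT.lf (nat_lit 0) (nat_lit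 38028407714) (nat_lit 152) (nat_lit 2814937992) (nat_lit 0) (nat_lit 20174340178) (nat_lit 21) (nat_lit 5) (nat_lit 23) (nat_lit 4) (nat_lit 21) (nat_lit 4) (nat_lit 544) (nat_lit 385) (nat_lit 271)) (XT.nd (nat_lit 78) (nat_lit 0) (nat_lit 0) (XT.lf (nat_lit 0) (nat_lit 17679583054) (nat_lit 76) (nat_lit 31364086541) (nat_lit 76) (nat_lit 13491493064) (nat_lit 20) (nat_lit 4) (nat_lit 21) (nat_lit 5) (nat_lit 21) (nat_lit 4) (nat_lit 545) (nat_lit 385) (nat_lit 270)) (XT.lf (nat_lit 0) (nat_lit 38808479551) (nat_lit 76) (nat_lit 21589995882) (nat_lit 76) (nat_lit 3699416055) (nat_lit 20) (nat_lit 4) (nat_lit 21) (nat_lit 5) (nat_lit 21) (nat_lit 4) (nat_lit 546) (nat_lit 385) (nat_lit 269)))) (XT.nd (nat_lit 156) (nat_lit 0) (nat_lit 0) (XT.nd (nat_lit 78) (nat_lit 76) (nat_lit 0) (XT.lf (nat_lit 0) (nat_lit 6242838949) (nat_lit 152) (nat_lit 5235079234) (nat_lit 76) (nat_lit 54228311473) (nat_lit 19) (nat_lit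 5) (nat_lit 21) (nat_lit 5) (nat_lit 20) (nat_lit 4) (nat_lit 547) (nat_lit 385) (nat_lit 268)) (XT.lf (nat_lit 0) (nat_lit 15653369591) (nat_lit 76) (nat_lit 887697282) (nat_lit 152) (nat_lit 50816690770) (nat_lit 18) (nat_lit 5) (nat_lit 19) (nat_lit 5) (nat_lit 20) (nat_lit 4) (nat_lit 548) (nat_lit 385) (nat_lit 267))) (XT.nd (nat_lit 78) (nat_lit 0) (nat_lit 0) (XT.lf (nat_lit 0) (nat_lit 27279559324) (nat_lit 152) (nat_lit 31914663119) (nat_lit 0) (nat_lit 9860669790) (nat_lit 18) (nat_lit 5) (nat_lit 20) (nat_lit 4) (nat_lit 18) (nat_lit 4) (nat_lit 549) (nat_lit 385) (nat_lit 266)) (XT.lf (nat_lit 0) (nat_lit 38331140936) (nat_lit 152) (nat_lit 11575335963) (nat_lit 0) (nat_lit 20896736219) (nat_lit 18) (nat_lit 5) (nat_lit 20) (nat_lit 4) (nat_lit 18) (nat_lit 4) (nat_lit 550) (nat_lit 385) (nat_lit 265))))) (XT.nd (nat_lit 53040) (nat_lit 0) (nat_lit 16188) (XT.nd (nat_lit 52884) (nat_lit 0) (nat_lit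 18012) (XT.nd (nat_lit 78) (nat_lit 0) (nat_lit 0) (XT.lf (nat_lit 0) (nat_lit 9525781030) (nat_lit 76) (nat_lit 40262721945) (nat_lit 76) (nat_lit 22813253944) (nat_lit 17) (nat_lit 4) (nat_lit 18) (nat_lit 5) (nat_lit 18) (nat_lit 4) (nat_lit 551) (nat_lit 385) (nat_lit 264)) (XT.lf (nat_lit 0) (nat_lit 31463278301) (nat_lit 76) (nat_lit 30226039794) (nat_lit 76) (nat_lit 12761947245) (nat_lit 17) (nat_lit 4) (nat_lit 18) (nat_lit 5) (nat_lit 18) (nat_lit 4) (nat_lit 552) (nat_lit 385) (nat_lit 263))) (XT.nd (nat_lit 78) (nat_lit 684) (nat_lit 0) (XT.lf (nat_lit 0) (nat_lit 2748795124) (nat_lit 760) (nat_lit 447247090) (nat_lit 760) (nat_lit 447247090) (nat_lit 263) (nat_lit 4) (nat_lit 273) (nat_lit 5) (nat_lit 273) (nat_lit 4) (nat_lit 428) (nat_lit 386) (nat_lit 386)) (XT.lf (nat_lit 0) (nat_lit 2664800691) (nat_lit 684) (nat_lit 3579970511) (nat_lit 0) (nat_lit 1103940652) (nat_lit 254) (nat_lit 5) (nat_lit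 263) (nat_lit 4) (nat_lit 254) (nat_lit 4) (nat_lit 429) (nat_lit 386) (nat_lit 385)))) (XT.nd (nat_lit 156) (nat_lit 608) (nat_lit 0) (XT.nd (nat_lit 78) (nat_lit 608) (nat_lit 0) (XT.lf (nat_lit 0) (nat_lit 2027559979) (nat_lit 608) (nat_lit 4231393967) (nat_lit 608) (nat_lit 1155135830) (nat_lit 246) (nat_lit 4) (nat_lit 254) (nat_lit 5) (nat_lit 254) (nat_lit 4) (nat_lit 430) (nat_lit 386) (nat_lit 384)) (XT.lf (nat_lit 0) (nat_lit 264592903) (nat_lit 532) (nat_lit 2105905287) (nat_lit 608) (nat_lit 5112060920) (nat_lit 238) (nat_lit 5) (nat_lit 245) (nat_lit 5) (nat_lit 246) (nat_lit 4) (nat_lit 431) (nat_lit 386) (nat_lit 383))) (XT.nd (nat_lit 78) (nat_lit 608) (nat_lit 0) (XT.lf (nat_lit 0) (nat_lit 5936442186) (nat_lit 608) (nat_lit 1483018386) (nat_lit 0) (nat_lit 134571825) (nat_lit 238) (nat_lit 5) (nat_lit 246) (nat_lit 4) (nat_lit 238) (nat_lit 4) (nat_lit 432) (nat_lit 386) (nat_lit 382)) (XT.lf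 (nat_lit 0) (nat_lit 1910508556) (nat_lit 608) (nat_lit 3269949572) (nat_lit 76) (nat_lit 2447620587) (nat_lit 230) (nat_lit 5) (nat_lit 238) (nat_lit 5) (nat_lit 231) (nat_lit 4) (nat_lit 433) (nat_lit 386) (nat_lit 381))))))))
noncomputable def xc65 : XT := (XT.nd (nat_lit 2340) (nat_lit 4104) (nat_lit 0) (XT.nd (nat_lit 1170) (nat_lit 3420) (nat_lit 0) (XT.nd (nat_lit 546) (nat_lit 2888) (nat_lit 0) (XT.nd (nat_lit 234) (nat_lit 1520) (nat_lit 0) (XT.nd (nat_lit 78) (nat_lit 608) (nat_lit 0) (XT.lf (nat_lit 0) (nat_lit 2624119349) (nat_lit 532) (nat_lit 2833810208) (nat_lit 608) (nat_lit 2247580197) (nat_lit 223) (nat_lit 5) (nat_lit 230) (nat_lit 5) (nat_lit 231) (nat_lit 4) (nat_lit 434) (nat_lit 386) (nat_lit 380)) (XT.nd (nat_lit 78) (nat_lit 0) (nat_lit 0) (XT.lf (nat_lit 0) (nat_lit 868920698) (nat_lit 532) (nat_lit 379788968) (nat_lit 608) (nat_lit 6537751153) (nat_lit 215) (nat_lit 5) (nat_lit 222) (nat_lit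 5) (nat_lit 223) (nat_lit 5) (nat_lit 435) (nat_lit 386) (nat_lit 379)) (XT.lf (nat_lit 0) (nat_lit 4785030964) (nat_lit 608) (nat_lit 924015327) (nat_lit 76) (nat_lit 2160738566) (nat_lit 215) (nat_lit 5) (nat_lit 223) (nat_lit 5) (nat_lit 216) (nat_lit 4) (nat_lit 436) (nat_lit 386) (nat_lit 378)))) (XT.nd (nat_lit 156) (nat_lit 532) (nat_lit 0) (XT.nd (nat_lit 78) (nat_lit 456) (nat_lit 0) (XT.lf (nat_lit 0) (nat_lit 426889897) (nat_lit 532) (nat_lit 2724015363) (nat_lit 76) (nat_lit 4805659680) (nat_lit 208) (nat_lit 5) (nat_lit 215) (nat_lit 5) (nat_lit 209) (nat_lit 5) (nat_lit 437) (nat_lit 386) (nat_lit 377)) (XT.lf (nat_lit 0) (nat_lit 3472628701) (nat_lit 456) (nat_lit 463252206) (nat_lit 532) (nat_lit 4110551017) (nat_lit 202) (nat_lit 5) (nat_lit 208) (nat_lit 5) (nat_lit 209) (nat_lit 5) (nat_lit 438) (nat_lit 386) (nat_lit 376))) (XT.nd (nat_lit 78) (nat_lit 76) (nat_lit 0) (XT.lf (nat_lit 0) (nat_lit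 1670096790) (nat_lit 456) (nat_lit 5858531392) (nat_lit 532) (nat_lit 611031281) (nat_lit 196) (nat_lit 5) (nat_lit 202) (nat_lit 5) (nat_lit 203) (nat_lit 4) (nat_lit 439) (nat_lit 386) (nat_lit 375)) (XT.lf (nat_lit 0) (nat_lit 2899390586) (nat_lit 532) (nat_lit 186590747) (nat_lit 76) (nat_lit 5149927382) (nat_lit 195) (nat_lit 5) (nat_lit 202) (nat_lit 5) (nat_lit 196) (nat_lit 5) (nat_lit 440) (nat_lit 386) (nat_lit 374))))) (XT.nd (nat_lit 312) (nat_lit 1140) (nat_lit 0) (XT.nd (nat_lit 156) (nat_lit 836) (nat_lit 0) (XT.nd (nat_lit 78) (nat_lit 456) (nat_lit 0) (XT.lf (nat_lit 0) (nat_lit 6291348805) (nat_lit 456) (nat_lit 187602161) (nat_lit 532) (nat_lit 1856647290) (nat_lit 189) (nat_lit 5) (nat_lit 195) (nat_lit 5) (nat_lit 196) (nat_lit 5) (nat_lit 441) (nat_lit 386) (nat_lit 373)) (XT.lf (nat_lit 0) (nat_lit 1682409719) (nat_lit 456) (nat_lit 3976837601) (nat_lit 76) (nat_lit 2778894404) (nat_lit 183)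 (nat_lit 5) (nat_lit 189) (nat_lit 5) (nat_lit 184) (nat_lit 5) (nat_lit 442) (nat_lit 386) (nat_lit 372))) (XT.nd (nat_lit 78) (nat_lit 456) (nat_lit 0) (XT.lf (nat_lit 0) (nat_lit 2578681059) (nat_lit 380) (nat_lit 2676456789) (nat_lit 456) (nat_lit 3289143712) (nat_lit 178) (nat_lit 5) (nat_lit 183) (nat_lit 5) (nat_lit 184) (nat_lit 5) (nat_lit 443) (nat_lit 386) (nat_lit 371)) (XT.lf (nat_lit 0) (nat_lit 244672197) (nat_lit 456) (nat_lit 8001428492) (nat_lit 76) (nat_lit 408377192) (nat_lit 172) (nat_lit 5) (nat_lit 178) (nat_lit 5) (nat_lit 173) (nat_lit 5) (nat_lit 444) (nat_lit 386) (nat_lit 370)))) (XT.nd (nat_lit 156) (nat_lit 760) (nat_lit 0) (XT.nd (nat_lit 78) (nat_lit 380) (nat_lit 0) (XT.lf (nat_lit 0) (nat_lit 3824603746) (nat_lit 456) (nat_lit 1346862522) (nat_lit 76) (nat_lit 3595365228) (nat_lit 172) (nat_lit 5) (nat_lit 178) (nat_lit 5) (nat_lit 173) (nat_lit 5) (nat_lit 445) (nat_lit 386) (nat_lit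 369)) (XT.lf (nat_lit 0) (nat_lit 5504485185) (nat_lit 380) (nat_lit 1981596273) (nat_lit 456) (nat_lit 1397264057) (nat_lit 167) (nat_lit 5) (nat_lit 172) (nat_lit 5) (nat_lit 173) (nat_lit 5) (nat_lit 446) (nat_lit 386) (nat_lit 368))) (XT.nd (nat_lit 78) (nat_lit 380) (nat_lit 0) (XT.lf (nat_lit 0) (nat_lit 2192264368) (nat_lit 380) (nat_lit 5494341451) (nat_lit 76) (nat_lit 1316646530) (nat_lit 162) (nat_lit 5) (nat_lit 167) (nat_lit 5) (nat_lit 163) (nat_lit 5) (nat_lit 447) (nat_lit 386) (nat_lit 367)) (XT.lf (nat_lit 0) (nat_lit 1429259584) (nat_lit 380) (nat_lit 4422564016) (nat_lit 456) (nat_lit 3274817933) (nat_lit 157) (nat_lit 5) (nat_lit 162) (nat_lit 5) (nat_lit 163) (nat_lit 5) (nat_lit 448) (nat_lit 386) (nat_lit 366)))))) (XT.nd (nat_lit 546) (nat_lit 1748) (nat_lit 0) (XT.nd (nat_lit 234) (nat_lit 988) (nat_lit 0) (XT.nd (nat_lit 78) (nat_lit 608) (nat_lit 0) (XT.lf (nat_lit 0) (nat_lit 339334935)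 (nat_lit 456) (nat_lit 695085427) (nat_lit 76) (nat_lit 8219846324) (nat_lit 156) (nat_lit 5) (nat_lit 162) (nat_lit 5) (nat_lit 157) (nat_lit 5) (nat_lit 449) (nat_lit 386) (nat_lit 365)) (XT.nd (nat_lit 78) (nat_lit 304) (nat_lit 0) (XT.lf (nat_lit 0) (nat_lit 4008093692) (nat_lit 380) (nat_lit 2906457031) (nat_lit 76) (nat_lit 2469849023) (nat_lit 152) (nat_lit 5) (nat_lit 157) (nat_lit 5) (nat_lit 153) (nat_lit 5) (nat_lit 450) (nat_lit 386) (nat_lit 364)) (XT.lf (nat_lit 0) (nat_lit 4326610352) (nat_lit 304) (nat_lit 3445314368) (nat_lit 380) (nat_lit 1746973372) (nat_lit 148) (nat_lit 5) (nat_lit 152) (nat_lit 5) (nat_lit 153) (nat_lit 5) (nat_lit 451) (nat_lit 386) (nat_lit 363)))) (XT.nd (nat_lit 156) (nat_lit 608) (nat_lit 0) (XT.nd (nat_lit 78) (nat_lit 0) (nat_lit 0) (XT.lf (nat_lit 0) (nat_lit 1930149967) (nat_lit 380) (nat_lit 7568162726) (nat_lit 76) (nat_lit 159222373) (nat_lit 143) (nat_lit 5) (nat_lit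 148) (nat_lit 5) (nat_lit 144) (nat_lit 5) (nat_lit 452) (nat_lit 386) (nat_lit 362)) (XT.lf (nat_lit 0) (nat_lit 5696746051) (nat_lit 380) (nat_lit 265609192) (nat_lit 76) (nat_lit 3837039456) (nat_lit 143) (nat_lit 5) (nat_lit 148) (nat_lit 5) (nat_lit 144) (nat_lit 5) (nat_lit 453) (nat_lit 386) (nat_lit 361))) (XT.nd (nat_lit 78) (nat_lit 304) (nat_lit 0) (XT.lf (nat_lit 0) (nat_lit 7290674561) (nat_lit 304) (nat_lit 2285076426) (nat_lit 380) (nat_lit 369787094) (nat_lit 139) (nat_lit 5) (nat_lit 143) (nat_lit 5) (nat_lit 144) (nat_lit 5) (nat_lit 454) (nat_lit 386) (nat_lit 360)) (XT.lf (nat_lit 0) (nat_lit 3401998069) (nat_lit 304) (nat_lit 5172520529) (nat_lit 76) (nat_lit 1520712272) (nat_lit 135) (nat_lit 5) (nat_lit 139) (nat_lit 5) (nat_lit 136) (nat_lit 5) (nat_lit 455) (nat_lit 386) (nat_lit 359))))) (XT.nd (nat_lit 312) (nat_lit 836) (nat_lit 0) (XT.nd (nat_lit 156) (nat_lit 532) (nat_lit 0) (XT.nd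 (nat_lit 78) (nat_lit 76) (nat_lit 0) (XT.lf (nat_lit 0) (nat_lit 2445964506) (nat_lit 304) (nat_lit 4837073843) (nat_lit 380) (nat_lit 2966169653) (nat_lit 131) (nat_lit 5) (nat_lit 135) (nat_lit 5) (nat_lit 136) (nat_lit 5) (nat_lit 456) (nat_lit 386) (nat_lit 358)) (XT.lf (nat_lit 0) (nat_lit 839054571) (nat_lit 380) (nat_lit 125069534) (nat_lit 76) (nat_lit 9443936185) (nat_lit 130) (nat_lit 5) (nat_lit 135) (nat_lit 5) (nat_lit 131) (nat_lit 5) (nat_lit 457) (nat_lit 386) (nat_lit 357))) (XT.nd (nat_lit 78) (nat_lit 304) (nat_lit 0) (XT.lf (nat_lit 0) (nat_lit 4736193543) (nat_lit 304) (nat_lit 2799809019) (nat_lit 76) (nat_lit 3033681907) (nat_lit 127) (nat_lit 5) (nat_lit 131) (nat_lit 5) (nat_lit 128) (nat_lit 5) (nat_lit 458) (nat_lit 386) (nat_lit 356)) (XT.lf (nat_lit 0) (nat_lit 5152720577) (nat_lit 304) (nat_lit 3591114330) (nat_lit 380) (nat_lit 1992523187) (nat_lit 123) (nat_lit 5) (nat_lit 127)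 (nat_lit 5) (nat_lit 128) (nat_lit 5) (nat_lit 459) (nat_lit 386) (nat_lit 355)))) (XT.nd (nat_lit 156) (nat_lit 532) (nat_lit 0) (XT.nd (nat_lit 78) (nat_lit 0) (nat_lit 0) (XT.lf (nat_lit 0) (nat_lit 1915485147) (nat_lit 304) (nat_lit 8497425657) (nat_lit 76) (nat_lit 494858830) (nat_lit 119) (nat_lit 5) (nat_lit 123) (nat_lit 5) (nat_lit 120) (nat_lit 5) (nat_lit 460) (nat_lit 386) (nat_lit 354)) (XT.lf (nat_lit 0) (nat_lit 5927228030) (nat_lit 304) (nat_lit 487084361) (nat_lit 76) (nat_lit 4668630685) (nat_lit 119) (nat_lit 5) (nat_lit 123) (nat_lit 5) (nat_lit 120) (nat_lit 5) (nat_lit 461) (nat_lit 386) (nat_lit 353))) (XT.nd (nat_lit 78) (nat_lit 304) (nat_lit 0) (XT.lf (nat_lit 0) (nat_lit 7811913933) (nat_lit 228) (nat_lit 2258467607) (nat_lit 304) (nat_lit 1192665865) (nat_lit 116) (nat_lit 5) (nat_lit 119) (nat_lit 5) (nat_lit 120) (nat_lit 5) (nat_lit 462) (nat_lit 386) (nat_lit 352)) (XT.lf (nat_lit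 0) (nat_lit 2840859487) (nat_lit 304) (nat_lit 6583315448) (nat_lit 76) (nat_lit 2023314785) (nat_lit 112) (nat_lit 5) (nat_lit 116) (nat_lit 5) (nat_lit 113) (nat_lit 5) (nat_lit 463) (nat_lit 386) (nat_lit 351))))))) (XT.nd (nat_lit 1170) (nat_lit 1900) (nat_lit 0) (XT.nd (nat_lit 546) (nat_lit 1064) (nat_lit 0) (XT.nd (nat_lit 234) (nat_lit 684) (nat_lit 0) (XT.nd (nat_lit 78) (nat_lit 228) (nat_lit 0) (XT.lf (nat_lit 0) (nat_lit 1758229786) (nat_lit 228) (nat_lit 5224330199) (nat_lit 304) (nat_lit 4654223639) (nat_lit 109) (nat_lit 5) (nat_lit 112) (nat_lit 5) (nat_lit 113) (nat_lit 5) (nat_lit 464) (nat_lit 386) (nat_lit 350)) (XT.nd (nat_lit 78) (nat_lit 228) (nat_lit 0) (XT.lf (nat_lit 0) (nat_lit 10381169435) (nat_lit 228) (nat_lit 871350796) (nat_lit 304) (nat_lit 579122458) (nat_lit 109) (nat_lit 5) (nat_lit 112) (nat_lit 5) (nat_lit 113) (nat_lit 5) (nat_lit 465) (nat_lit 386) (nat_lit 349)) (XT.lf (nat_lit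 0) (nat_lit 3591279711) (nat_lit 228) (nat_lit 4831584270) (nat_lit 76) (nat_lit 3607136769) (nat_lit 106) (nat_lit 5) (nat_lit 109) (nat_lit 5) (nat_lit 107) (nat_lit 5) (nat_lit 466) (nat_lit 386) (nat_lit 348)))) (XT.nd (nat_lit 156) (nat_lit 304) (nat_lit 0) (XT.nd (nat_lit 78) (nat_lit 152) (nat_lit 0) (XT.lf (nat_lit 0) (nat_lit 3861037837) (nat_lit 228) (nat_lit 4013816410) (nat_lit 304) (nat_lit 4359298331) (nat_lit 103) (nat_lit 5) (nat_lit 106) (nat_lit 5) (nat_lit 107) (nat_lit 5) (nat_lit 467) (nat_lit 386) (nat_lit 347)) (XT.lf (nat_lit 0) (nat_lit 369329652) (nat_lit 152) (nat_lit 11915065042) (nat_lit 228) (nat_lit 160116372) (nat_lit 101) (nat_lit 5) (nat_lit 103) (nat_lit 5) (nat_lit 104) (nat_lit 4) (nat_lit 468) (nat_lit 386) (nat_lit 346))) (XT.nd (nat_lit 78) (nat_lit 228) (nat_lit 0) (XT.lf (nat_lit 0) (nat_lit 4148646379) (nat_lit 228) (nat_lit 3296606573) (nat_lit 76) (nat_lit 5212785372)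 (nat_lit 100) (nat_lit 5) (nat_lit 103) (nat_lit 5) (nat_lit 101) (nat_lit 5) (nat_lit 469) (nat_lit 386) (nat_lit 345)) (XT.lf (nat_lit 0) (nat_lit 5756026034) (nat_lit 228) (nat_lit 2824263427) (nat_lit 304) (nat_lit 4297734680) (nat_lit 97) (nat_lit 5) (nat_lit 100) (nat_lit 5) (nat_lit 101) (nat_lit 5) (nat_lit 470) (nat_lit 386) (nat_lit 344))))) (XT.nd (nat_lit 312) (nat_lit 380) (nat_lit 0) (XT.nd (nat_lit 156) (nat_lit 456) (nat_lit 0) (XT.nd (nat_lit 78) (nat_lit 0) (nat_lit 0) (XT.lf (nat_lit 0) (nat_lit 52563245) (nat_lit 228) (nat_lit 11141556749) (nat_lit 76) (nat_lit 1910090683) (nat_lit 94) (nat_lit 5) (nat_lit 97) (nat_lit 5) (nat_lit 95) (nat_lit 5) (nat_lit 471) (nat_lit 386) (nat_lit 343)) (XT.lf (nat_lit 0) (nat_lit 4489607332) (nat_lit 228) (nat_lit 2040981775) (nat_lit 76) (nat_lit 6804043538) (nat_lit 94) (nat_lit 5) (nat_lit 97) (nat_lit 5) (nat_lit 95) (nat_lit 5) (nat_lit 472) (nat_lit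 386) (nat_lit 342))) (XT.nd (nat_lit 78) (nat_lit 228) (nat_lit 0) (XT.lf (nat_lit 0) (nat_lit 7378960622) (nat_lit 228) (nat_lit 1695445971) (nat_lit 304) (nat_lit 4497126134) (nat_lit 91) (nat_lit 5) (nat_lit 94) (nat_lit 5) (nat_lit 95) (nat_lit 5) (nat_lit 473) (nat_lit 386) (nat_lit 341)) (XT.lf (nat_lit 0) (nat_lit 9425446) (nat_lit 228) (nat_lit 10572868176) (nat_lit 76) (nat_lit 3232420643) (nat_lit 88) (nat_lit 5) (nat_lit 91) (nat_lit 5) (nat_lit 89) (nat_lit 5) (nat_lit 474) (nat_lit 386) (nat_lit 340)))) (XT.nd (nat_lit 156) (nat_lit 228) (nat_lit 0) (XT.nd (nat_lit 78) (nat_lit 152) (nat_lit 0) (XT.lf (nat_lit 0) (nat_lit 4584898222) (nat_lit 228) (nat_lit 1137123023) (nat_lit 76) (nat_lit 8341115215) (nat_lit 88) (nat_lit 5) (nat_lit 91) (nat_lit 5) (nat_lit 89) (nat_lit 5) (nat_lit 475) (nat_lit 386) (nat_lit 339)) (XT.lf (nat_lit 0) (nat_lit 8655334421) (nat_lit 152) (nat_lit 671300998) (nat_lit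 228) (nat_lit 4991510135) (nat_lit 86) (nat_lit 5) (nat_lit 88) (nat_lit 5) (nat_lit 89) (nat_lit 5) (nat_lit 476) (nat_lit 386) (nat_lit 338))) (XT.nd (nat_lit 78) (nat_lit 76) (nat_lit 0) (XT.lf (nat_lit 0) (nat_lit 4125713993) (nat_lit 152) (nat_lit 10125799884) (nat_lit 228) (nat_lit 328068485) (nat_lit 84) (nat_lit 5) (nat_lit 86) (nat_lit 5) (nat_lit 87) (nat_lit 4) (nat_lit 477) (nat_lit 386) (nat_lit 337)) (XT.lf (nat_lit 0) (nat_lit 4398553202) (nat_lit 228) (nat_lit 669080112) (nat_lit 76) (nat_lit 9779624099) (nat_lit 83) (nat_lit 5) (nat_lit 86) (nat_lit 5) (nat_lit 84) (nat_lit 5) (nat_lit 478) (nat_lit 386) (nat_lit 336)))))) (XT.nd (nat_lit 624) (nat_lit 836) (nat_lit 0) (XT.nd (nat_lit 312) (nat_lit 532) (nat_lit 0) (XT.nd (nat_lit 156) (nat_lit 228) (nat_lit 0) (XT.nd (nat_lit 78) (nat_lit 152) (nat_lit 0) (XT.lf (nat_lit 0) (nat_lit 9301373876) (nat_lit 228) (nat_lit 5625148461) (nat_lit 76) (nat_lit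 195116875) (nat_lit 81) (nat_lit 5) (nat_lit 84) (nat_lit 5) (nat_lit 82) (nat_lit 4) (nat_lit 479) (nat_lit 386) (nat_lit 335)) (XT.lf (nat_lit 0) (nat_lit 4521540523) (nat_lit 152) (nat_lit 9878225205) (nat_lit 228) (nat_lit 1003035795) (nat_lit 79) (nat_lit 5) (nat_lit 81) (nat_lit 5) (nat_lit 82) (nat_lit 4) (nat_lit 480) (nat_lit 386) (nat_lit 334))) (XT.nd (nat_lit 78) (nat_lit 152) (nat_lit 0) (XT.lf (nat_lit 0) (nat_lit 3886967555) (nat_lit 228) (nat_lit 734636735) (nat_lit 76) (nat_lit 11069491085) (nat_lit 78) (nat_lit 5) (nat_lit 81) (nat_lit 5) (nat_lit 79) (nat_lit 5) (nat_lit 481) (nat_lit 386) (nat_lit 333)) (XT.lf (nat_lit 0) (nat_lit 8955700650) (nat_lit 228) (nat_lit 6187410384) (nat_lit 76) (nat_lit 843066733) (nat_lit 76) (nat_lit 5) (nat_lit 79) (nat_lit 5) (nat_lit 77) (nat_lit 4) (nat_lit 482) (nat_lit 386) (nat_lit 332)))) (XT.nd (nat_lit 156) (nat_lit 304) (nat_lit 0) (XT.nd (nat_lit 78)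 (nat_lit 76) (nat_lit 0) (XT.lf (nat_lit 0) (nat_lit 4321056335) (nat_lit 152) (nat_lit 9900097953) (nat_lit 228) (nat_lit 2067621836) (nat_lit 74) (nat_lit 5) (nat_lit 76) (nat_lit 5) (nat_lit 77) (nat_lit 4) (nat_lit 483) (nat_lit 386) (nat_lit 331)) (XT.lf (nat_lit 0) (nat_lit 2997790839) (nat_lit 228) (nat_lit 1447728407) (nat_lit 76) (nat_lit 12153666185) (nat_lit 73) (nat_lit 5) (nat_lit 76) (nat_lit 5) (nat_lit 74) (nat_lit 5) (nat_lit 484) (nat_lit 386) (nat_lit 330))) (XT.nd (nat_lit 78) (nat_lit 152) (nat_lit 0) (XT.lf (nat_lit 0) (nat_lit 8228006832) (nat_lit 228) (nat_lit 7465189596) (nat_lit 76) (nat_lit 1223467474) (nat_lit 71) (nat_lit 5) (nat_lit 74) (nat_lit 5) (nat_lit 72) (nat_lit 4) (nat_lit 485) (nat_lit 386) (nat_lit 329)) (XT.lf (nat_lit 0) (nat_lit 3397810891) (nat_lit 152) (nat_lit 10260386706) (nat_lit 228) (nat_lit 3584179970) (nat_lit 69) (nat_lit 5) (nat_lit 71) (nat_lit 5) (nat_lit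 72) (nat_lit 4) (nat_lit 486) (nat_lit 386) (nat_lit 328))))) (XT.nd (nat_lit 312) (nat_lit 532) (nat_lit 0) (XT.nd (nat_lit 156) (nat_lit 76) (nat_lit 0) (XT.nd (nat_lit 78) (nat_lit 152) (nat_lit 0) (XT.lf (nat_lit 0) (nat_lit 1668625454) (nat_lit 228) (nat_lit 2941234509) (nat_lit 76) (nat_lit 12966687355) (nat_lit 68) (nat_lit 5) (nat_lit 71) (nat_lit 5) (nat_lit 69) (nat_lit 5) (nat_lit 487) (nat_lit 386) (nat_lit 327)) (XT.lf (nat_lit 0) (nat_lit 7052578987) (nat_lit 228) (nat_lit 9600773485) (nat_lit 76) (nat_lit 1264959652) (nat_lit 66) (nat_lit 5) (nat_lit 69) (nat_lit 5) (nat_lit 67) (nat_lit 4) (nat_lit 488) (nat_lit 386) (nat_lit 326))) (XT.nd (nat_lit 78) (nat_lit 0) (nat_lit 0) (XT.lf (nat_lit 0) (nat_lit 1604165586) (nat_lit 76) (nat_lit 11038241867) (nat_lit 152) (nat_lit 5626594296) (nat_lit 65) (nat_lit 5) (nat_lit 66) (nat_lit 5) (nat_lit 67) (nat_lit 4) (nat_lit 489) (nat_lit 386) (nat_lit 325))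 (XT.lf (nat_lit 0) (nat_lit 13256773913) (nat_lit 76) (nat_lit 5193945410) (nat_lit 152) (nat_lit 177971573) (nat_lit 65) (nat_lit 5) (nat_lit 66) (nat_lit 5) (nat_lit 67) (nat_lit 4) (nat_lit 490) (nat_lit 386) (nat_lit 324)))) (XT.nd (nat_lit 156) (nat_lit 304) (nat_lit 0) (XT.nd (nat_lit 78) (nat_lit 0) (nat_lit 0) (XT.lf (nat_lit 0) (nat_lit 5351525494) (nat_lit 228) (nat_lit 12760115824) (nat_lit 76) (nat_lit 885261025) (nat_lit 62) (nat_lit 5) (nat_lit 65) (nat_lit 5) (nat_lit 63) (nat_lit 4) (nat_lit 491) (nat_lit 386) (nat_lit 323)) (XT.lf (nat_lit 0) (nat_lit 11104431413) (nat_lit 228) (nat_lit 1208248659) (nat_lit 76) (nat_lit 7061596448) (nat_lit 62) (nat_lit 5) (nat_lit 65) (nat_lit 5) (nat_lit 63) (nat_lit 4) (nat_lit 492) (nat_lit 386) (nat_lit 322))) (XT.nd (nat_lit 78) (nat_lit 228) (nat_lit 0) (XT.lf (nat_lit 0) (nat_lit 10819890453) (nat_lit 76) (nat_lit 6270248138) (nat_lit 152) (nat_lit 2671029121)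 (nat_lit 61) (nat_lit 5) (nat_lit 62) (nat_lit 5) (nat_lit 63) (nat_lit 4) (nat_lit 493) (nat_lit 386) (nat_lit 321)) (XT.lf (nat_lit 0) (nat_lit 3021938747) (nat_lit 152) (nat_lit 11050287) (nat_lit 228) (nat_lit 17125856533) (nat_lit 58) (nat_lit 5) (nat_lit 60) (nat_lit 5) (nat_lit 61) (nat_lit 5) (nat_lit 494) (nat_lit 386) (nat_lit 320))))))))
noncomputable def xc66 : XT := (XT.nd (nat_lit 2340) (nat_lit 1216) (nat_lit 0) (XT.nd (nat_lit 1170) (nat_lit 760) (nat_lit 0) (XT.nd (nat_lit 546) (nat_lit 532) (nat_lit 0) (XT.nd (nat_lit 234) (nat_lit 456) (nat_lit 0) (XT.nd (nat_lit 78) (nat_lit 152) (nat_lit 0) (XT.lf (nat_lit 0) (nat_lit 8963906185) (nat_lit 228) (nat_lit 5209245065) (nat_lit 76) (nat_lit 6391227255) (nat_lit 58) (nat_lit 5) (nat_lit 61) (nat_lit 5) (nat_lit 59) (nat_lit 4) (nat_lit 495) (nat_lit 386) (nat_lit 319)) (XT.nd (nat_lit 78) (nat_lit 76) (nat_lit 0) (XT.lf (nat_lit 0) (nat_lit 7136133643)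 (nat_lit 76) (nat_lit 7963007121) (nat_lit 152) (nat_lit 5882146934) (nat_lit 57) (nat_lit 5) (nat_lit 58) (nat_lit 5) (nat_lit 59) (nat_lit 4) (nat_lit 496) (nat_lit 386) (nat_lit 318)) (XT.lf (nat_lit 0) (nat_lit 18447039) (nat_lit 152) (nat_lit 1530384003) (nat_lit 76) (nat_lit 19861546660) (nat_lit 56) (nat_lit 5) (nat_lit 58) (nat_lit 5) (nat_lit 57) (nat_lit 5) (nat_lit 497) (nat_lit 386) (nat_lit 317)))) (XT.nd (nat_lit 156) (nat_lit 228) (nat_lit 0) (XT.nd (nat_lit 78) (nat_lit 76) (nat_lit 0) (XT.lf (nat_lit 0) (nat_lit 6094753785) (nat_lit 228) (nat_lit 10660632841) (nat_lit 76) (nat_lit 5091700798) (nat_lit 54) (nat_lit 5) (nat_lit 57) (nat_lit 5) (nat_lit 55) (nat_lit 4) (nat_lit 498) (nat_lit 386) (nat_lit 316)) (XT.lf (nat_lit 0) (nat_lit 1965469178) (nat_lit 76) (nat_lit 10396810788) (nat_lit 152) (nat_lit 9934352312) (nat_lit 53) (nat_lit 5) (nat_lit 54) (nat_lit 5) (nat_lit 55) (nat_lit 4) (nat_lit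 499) (nat_lit 386) (nat_lit 315))) (XT.nd (nat_lit 78) (nat_lit 228) (nat_lit 0) (XT.lf (nat_lit 0) (nat_lit 15112511856) (nat_lit 76) (nat_lit 3772523902) (nat_lit 152) (nat_lit 3872613299) (nat_lit 53) (nat_lit 5) (nat_lit 54) (nat_lit 5) (nat_lit 55) (nat_lit 4) (nat_lit 500) (nat_lit 386) (nat_lit 314)) (XT.lf (nat_lit 0) (nat_lit 2366971535) (nat_lit 228) (nat_lit 17831475002) (nat_lit 76) (nat_lit 3032099863) (nat_lit 50) (nat_lit 5) (nat_lit 53) (nat_lit 5) (nat_lit 51) (nat_lit 4) (nat_lit 501) (nat_lit 386) (nat_lit 313))))) (XT.nd (nat_lit 312) (nat_lit 228) (nat_lit 0) (XT.nd (nat_lit 156) (nat_lit 228) (nat_lit 0) (XT.nd (nat_lit 78) (nat_lit 76) (nat_lit 0) (XT.lf (nat_lit 0) (nat_lit 8791670703) (nat_lit 228) (nat_lit 4875497725) (nat_lit 76) (nat_lit 10047040632) (nat_lit 50) (nat_lit 5) (nat_lit 53) (nat_lit 5) (nat_lit 51) (nat_lit 4) (nat_lit 502) (nat_lit 386) (nat_lit 312)) (XT.lf (nat_lit 0)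 (nat_lit 8563399136) (nat_lit 76) (nat_lit 6889625912) (nat_lit 152) (nat_lit 8758040631) (nat_lit 49) (nat_lit 5) (nat_lit 50) (nat_lit 5) (nat_lit 51) (nat_lit 4) (nat_lit 503) (nat_lit 386) (nat_lit 311))) (XT.nd (nat_lit 78) (nat_lit 228) (nat_lit 0) (XT.lf (nat_lit 0) (nat_lit 22326511615) (nat_lit 152) (nat_lit 2290270193) (nat_lit 0) (nat_lit 105678903) (nat_lit 49) (nat_lit 5) (nat_lit 51) (nat_lit 4) (nat_lit 49) (nat_lit 4) (nat_lit 504) (nat_lit 386) (nat_lit 310)) (XT.lf (nat_lit 0) (nat_lit 4219383046) (nat_lit 228) (nat_lit 13732038978) (nat_lit 76) (nat_lit 7292273280) (nat_lit 46) (nat_lit 5) (nat_lit 49) (nat_lit 5) (nat_lit 47) (nat_lit 4) (nat_lit 505) (nat_lit 386) (nat_lit 309)))) (XT.nd (nat_lit 156) (nat_lit 152) (nat_lit 0) (XT.nd (nat_lit 78) (nat_lit 76) (nat_lit 0) (XT.lf (nat_lit 0) (nat_lit 10971228413) (nat_lit 228) (nat_lit 100117010) (nat_lit 76) (nat_lit 14708924897) (nat_lit 46)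 (nat_lit 5) (nat_lit 49) (nat_lit 5) (nat_lit 47) (nat_lit 4) (nat_lit 506) (nat_lit 386) (nat_lit 308)) (XT.lf (nat_lit 0) (nat_lit 14148024467) (nat_lit 76) (nat_lit 3877539327) (nat_lit 152) (nat_lit 8304382053) (nat_lit 45) (nat_lit 5) (nat_lit 46) (nat_lit 5) (nat_lit 47) (nat_lit 4) (nat_lit 507) (nat_lit 386) (nat_lit 307))) (XT.nd (nat_lit 78) (nat_lit 76) (nat_lit 0) (XT.lf (nat_lit 0) (nat_lit 1863072315) (nat_lit 76) (nat_lit 23445357873) (nat_lit 76) (nat_lit 1587175684) (nat_lit 44) (nat_lit 4) (nat_lit 45) (nat_lit 5) (nat_lit 45) (nat_lit 4) (nat_lit 508) (nat_lit 386) (nat_lit 306)) (XT.lf (nat_lit 0) (nat_lit 5354189192) (nat_lit 152) (nat_lit 11055214151) (nat_lit 76) (nat_lit 11063495641) (nat_lit 43) (nat_lit 5) (nat_lit 45) (nat_lit 5) (nat_lit 44) (nat_lit 4) (nat_lit 509) (nat_lit 386) (nat_lit 305)))))) (XT.nd (nat_lit 546) (nat_lit 380) (nat_lit 0) (XT.nd (nat_lit 234) (nat_lit 228) (nat_lit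 0) (XT.nd (nat_lit 78) (nat_lit 76) (nat_lit 0) (XT.lf (nat_lit 0) (nat_lit 3323631687) (nat_lit 76) (nat_lit 9145315379) (nat_lit 152) (nat_lit 15598181960) (nat_lit 42) (nat_lit 5) (nat_lit 43) (nat_lit 5) (nat_lit 44) (nat_lit 4) (nat_lit 510) (nat_lit 386) (nat_lit 304)) (XT.nd (nat_lit 78) (nat_lit 76) (nat_lit 0) (XT.lf (nat_lit 0) (nat_lit 18294185609) (nat_lit 76) (nat_lit 1580081264) (nat_lit 152) (nat_lit 8802606639) (nat_lit 42) (nat_lit 5) (nat_lit 43) (nat_lit 5) (nat_lit 44) (nat_lit 4) (nat_lit 511) (nat_lit 386) (nat_lit 303)) (XT.lf (nat_lit 0) (nat_lit 4369436744) (nat_lit 76) (nat_lit 23200217966) (nat_lit 76) (nat_lit 1733219460) (nat_lit 41) (nat_lit 4) (nat_lit 42) (nat_lit 5) (nat_lit 42) (nat_lit 4) (nat_lit 512) (nat_lit 386) (nat_lit 302)))) (XT.nd (nat_lit 156) (nat_lit 76) (nat_lit 0) (XT.nd (nat_lit 78) (nat_lit 76) (nat_lit 0) (XT.lf (nat_lit 0) (nat_lit 5527735668) (nat_lit 152) (nat_lit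 10302658353) (nat_lit 76) (nat_lit 14113029276) (nat_lit 40) (nat_lit 5) (nat_lit 42) (nat_lit 5) (nat_lit 41) (nat_lit 4) (nat_lit 513) (nat_lit 386) (nat_lit 301)) (XT.lf (nat_lit 0) (nat_lit 4779960367) (nat_lit 76) (nat_lit 8204880154) (nat_lit 152) (nat_lit 17617439844) (nat_lit 39) (nat_lit 5) (nat_lit 40) (nat_lit 5) (nat_lit 41) (nat_lit 4) (nat_lit 514) (nat_lit 386) (nat_lit 300))) (XT.nd (nat_lit 78) (nat_lit 76) (nat_lit 0) (XT.lf (nat_lit 0) (nat_lit 20463674246) (nat_lit 76) (nat_lit 273583620) (nat_lit 152) (nat_lit 10541498266) (nat_lit 39) (nat_lit 5) (nat_lit 40) (nat_lit 5) (nat_lit 41) (nat_lit 4) (nat_lit 515) (nat_lit 386) (nat_lit 299)) (XT.lf (nat_lit 0) (nat_lit 4594715413) (nat_lit 76) (nat_lit 24215823552) (nat_lit 76) (nat_lit 3162339406) (nat_lit 38) (nat_lit 4) (nat_lit 39) (nat_lit 5) (nat_lit 39) (nat_lit 4) (nat_lit 516) (nat_lit 386) (nat_lit 298))))) (XT.nd (nat_lit 312) (nat_lit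 152) (nat_lit 0) (XT.nd (nat_lit 156) (nat_lit 76) (nat_lit 0) (XT.nd (nat_lit 78) (nat_lit 76) (nat_lit 0) (XT.lf (nat_lit 0) (nat_lit 4432845140) (nat_lit 152) (nat_lit 12103945514) (nat_lit 76) (nat_lit 16147316950) (nat_lit 37) (nat_lit 5) (nat_lit 39) (nat_lit 5) (nat_lit 38) (nat_lit 4) (nat_lit 517) (nat_lit 386) (nat_lit 297)) (XT.lf (nat_lit 0) (nat_lit 3607931623) (nat_lit 76) (nat_lit 8588254879) (nat_lit 152) (nat_lit 21219432925) (nat_lit 36) (nat_lit 5) (nat_lit 37) (nat_lit 5) (nat_lit 38) (nat_lit 4) (nat_lit 518) (nat_lit 386) (nat_lit 296))) (XT.nd (nat_lit 78) (nat_lit 76) (nat_lit 0) (XT.lf (nat_lit 0) (nat_lit 19980208714) (nat_lit 76) (nat_lit 303954847) (nat_lit 152) (nat_lit 13882161815) (nat_lit 36) (nat_lit 5) (nat_lit 37) (nat_lit 5) (nat_lit 38) (nat_lit 4) (nat_lit 519) (nat_lit 386) (nat_lit 295)) (XT.lf (nat_lit 0) (nat_lit 1802191028) (nat_lit 76) (nat_lit 26879144286) (nat_lit 76)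 (nat_lit 6256221338) (nat_lit 35) (nat_lit 4) (nat_lit 36) (nat_lit 5) (nat_lit 36) (nat_lit 4) (nat_lit 520) (nat_lit 386) (nat_lit 294)))) (XT.nd (nat_lit 156) (nat_lit 76) (nat_lit 0) (XT.nd (nat_lit 78) (nat_lit 0) (nat_lit 0) (XT.lf (nat_lit 0) (nat_lit 1685140088) (nat_lit 152) (nat_lit 17244474579) (nat_lit 76) (nat_lit 16798314935) (nat_lit 34) (nat_lit 5) (nat_lit 36) (nat_lit 5) (nat_lit 35) (nat_lit 4) (nat_lit 521) (nat_lit 386) (nat_lit 293)) (XT.lf (nat_lit 0) (nat_lit 9710023188) (nat_lit 152) (nat_lit 995113354) (nat_lit 76) (nat_lit 25835888916) (nat_lit 34) (nat_lit 5) (nat_lit 36) (nat_lit 5) (nat_lit 35) (nat_lit 4) (nat_lit 522) (nat_lit 386) (nat_lit 292))) (XT.nd (nat_lit 78) (nat_lit 0) (nat_lit 0) (XT.lf (nat_lit 0) (nat_lit 15999258304) (nat_lit 76) (nat_lit 2102057760) (nat_lit 152) (nat_lit 19273428946) (nat_lit 33) (nat_lit 5) (nat_lit 34) (nat_lit 5) (nat_lit 35) (nat_lit 4) (nat_lit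 523) (nat_lit 386) (nat_lit 291)) (XT.lf (nat_lit 0) (nat_lit 26791383367) (nat_lit 152) (nat_lit 4829107307) (nat_lit 0) (nat_lit 6611575103) (nat_lit 33) (nat_lit 5) (nat_lit 35) (nat_lit 4) (nat_lit 33) (nat_lit 4) (nat_lit 524) (nat_lit 386) (nat_lit 290))))))) (XT.nd (nat_lit 1170) (nat_lit 532) (nat_lit 0) (XT.nd (nat_lit 546) (nat_lit 304) (nat_lit 0) (XT.nd (nat_lit 234) (nat_lit 152) (nat_lit 0) (XT.nd (nat_lit 78) (nat_lit 152) (nat_lit 0) (XT.lf (nat_lit 0) (nat_lit 12381328783) (nat_lit 76) (nat_lit 23473386005) (nat_lit 76) (nat_lit 3257015195) (nat_lit 32) (nat_lit 4) (nat_lit 33) (nat_lit 5) (nat_lit 33) (nat_lit 4) (nat_lit 525) (nat_lit 386) (nat_lit 289)) (XT.nd (nat_lit 78) (nat_lit 76) (nat_lit 0) (XT.lf (nat_lit 0) (nat_lit 5093235348) (nat_lit 152) (nat_lit 9912600669) (nat_lit 76) (nat_lit 25009797174) (nat_lit 31) (nat_lit 5) (nat_lit 33) (nat_lit 5) (nat_lit 32) (nat_lit 4) (nat_lit 526)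 (nat_lit 386) (nat_lit 288)) (XT.lf (nat_lit 0) (nat_lit 7471685101) (nat_lit 76) (nat_lit 6202215013) (nat_lit 152) (nat_lit 27270425485) (nat_lit 30) (nat_lit 5) (nat_lit 31) (nat_lit 5) (nat_lit 32) (nat_lit 4) (nat_lit 527) (nat_lit 386) (nat_lit 287)))) (XT.nd (nat_lit 156) (nat_lit 76) (nat_lit 0) (XT.nd (nat_lit 78) (nat_lit 76) (nat_lit 0) (XT.lf (nat_lit 0) (nat_lit 22614205644) (nat_lit 152) (nat_lit 16397354908) (nat_lit 0) (nat_lit 2886252206) (nat_lit 30) (nat_lit 5) (nat_lit 32) (nat_lit 4) (nat_lit 30) (nat_lit 4) (nat_lit 528) (nat_lit 386) (nat_lit 286)) (XT.lf (nat_lit 0) (nat_lit 1100111467) (nat_lit 76) (nat_lit 30768948044) (nat_lit 76) (nat_lit 11009455433) (nat_lit 29) (nat_lit 4) (nat_lit 30) (nat_lit 5) (nat_lit 30) (nat_lit 4) (nat_lit 529) (nat_lit 386) (nat_lit 285))) (XT.nd (nat_lit 78) (nat_lit 76) (nat_lit 0) (XT.lf (nat_lit 0) (nat_lit 19408986222) (nat_lit 76) (nat_lit 22132779748)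 (nat_lit 76) (nat_lit 2342666581) (nat_lit 29) (nat_lit 4) (nat_lit 30) (nat_lit 5) (nat_lit 30) (nat_lit 4) (nat_lit 530) (nat_lit 386) (nat_lit 284)) (XT.lf (nat_lit 0) (nat_lit 6430766368) (nat_lit 152) (nat_lit 6765386134) (nat_lit 76) (nat_lit 31723223388) (nat_lit 28) (nat_lit 5) (nat_lit 30) (nat_lit 5) (nat_lit 29) (nat_lit 4) (nat_lit 531) (nat_lit 386) (nat_lit 283))))) (XT.nd (nat_lit 312) (nat_lit 152) (nat_lit 0) (XT.nd (nat_lit 156) (nat_lit 76) (nat_lit 0) (XT.nd (nat_lit 78) (nat_lit 0) (nat_lit 0) (XT.lf (nat_lit 0) (nat_lit 11632496332) (nat_lit 76) (nat_lit 3875484458) (nat_lit 152) (nat_lit 30474061505) (nat_lit 27) (nat_lit 5) (nat_lit 28) (nat_lit 5) (nat_lit 29) (nat_lit 4) (nat_lit 532) (nat_lit 386) (nat_lit 282)) (XT.lf (nat_lit 0) (nat_lit 24957413895) (nat_lit 152) (nat_lit 16456557368) (nat_lit 0) (nat_lit 5659620866) (nat_lit 27) (nat_lit 5) (nat_lit 29) (nat_lit 4) (nat_lit 27) (nat_lit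 4) (nat_lit 533) (nat_lit 386) (nat_lit 281))) (XT.nd (nat_lit 78) (nat_lit 0) (nat_lit 0) (XT.lf (nat_lit 0) (nat_lit 1926510361) (nat_lit 76) (nat_lit 32797290525) (nat_lit 76) (nat_lit 13473083935) (nat_lit 26) (nat_lit 4) (nat_lit 27) (nat_lit 5) (nat_lit 27) (nat_lit 4) (nat_lit 534) (nat_lit 386) (nat_lit 280)) (XT.lf (nat_lit 0) (nat_lit 21152931186) (nat_lit 76) (nat_lit 23773253131) (nat_lit 76) (nat_lit 4423402307) (nat_lit 26) (nat_lit 4) (nat_lit 27) (nat_lit 5) (nat_lit 27) (nat_lit 4) (nat_lit 535) (nat_lit 386) (nat_lit 279)))) (XT.nd (nat_lit 156) (nat_lit 0) (nat_lit 0) (XT.nd (nat_lit 78) (nat_lit 76) (nat_lit 0) (XT.lf (nat_lit 0) (nat_lit 4779474267) (nat_lit 152) (nat_lit 9672415376) (nat_lit 76) (nat_lit 36084249548) (nat_lit 25) (nat_lit 5) (nat_lit 27) (nat_lit 5) (nat_lit 26) (nat_lit 4) (nat_lit 536) (nat_lit 386) (nat_lit 278)) (XT.lf (nat_lit 0) (nat_lit 9505940110) (nat_lit 76) (nat_lit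 4732907376) (nat_lit 152) (nat_lit 37516047911) (nat_lit 24) (nat_lit 5) (nat_lit 25) (nat_lit 5) (nat_lit 26) (nat_lit 4) (nat_lit 537) (nat_lit 386) (nat_lit 277))) (XT.nd (nat_lit 78) (nat_lit 0) (nat_lit 0) (XT.lf (nat_lit 0) (nat_lit 24109340666) (nat_lit 152) (nat_lit 23644400980) (nat_lit 0) (nat_lit 5252652904) (nat_lit 24) (nat_lit 5) (nat_lit 26) (nat_lit 4) (nat_lit 24) (nat_lit 4) (nat_lit 538) (nat_lit 386) (nat_lit 276)) (XT.lf (nat_lit 0) (nat_lit 34301418170) (nat_lit 152) (nat_lit 4570647363) (nat_lit 0) (nat_lit 15422609467) (nat_lit 24) (nat_lit 5) (nat_lit 26) (nat_lit 4) (nat_lit 24) (nat_lit 4) (nat_lit 539) (nat_lit 386) (nat_lit 275)))))) (XT.nd (nat_lit 546) (nat_lit 228) (nat_lit 0) (XT.nd (nat_lit 234) (nat_lit 152) (nat_lit 0) (XT.nd (nat_lit 78) (nat_lit 76) (nat_lit 0) (XT.lf (nat_lit 0) (nat_lit 15333682931) (nat_lit 76) (nat_lit 29592203906) (nat_lit 76) (nat_lit 10691918560) (nat_lit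 23) (nat_lit 4) (nat_lit 24) (nat_lit 5) (nat_lit 24) (nat_lit 4) (nat_lit 540) (nat_lit 386) (nat_lit 274)) (XT.nd (nat_lit 78) (nat_lit 76) (nat_lit 0) (XT.lf (nat_lit 0) (nat_lit 35888386117) (nat_lit 76) (nat_lit 20006306175) (nat_lit 76) (nat_lit 1085169721) (nat_lit 23) (nat_lit 4) (nat_lit 24) (nat_lit 5) (nat_lit 24) (nat_lit 4) (nat_lit 541) (nat_lit 386) (nat_lit 273)) (XT.lf (nat_lit 0) (nat_lit 8617719836) (nat_lit 152) (nat_lit 1447408981) (nat_lit 76) (nat_lit 48315715858) (nat_lit 22) (nat_lit 5) (nat_lit 24) (nat_lit 5) (nat_lit 23) (nat_lit 4) (nat_lit 542) (nat_lit 386) (nat_lit 272)))) (XT.nd (nat_lit 156) (nat_lit 76) (nat_lit 0) (XT.nd (nat_lit 78) (nat_lit 0) (nat_lit 0) (XT.lf (nat_lit 0) (nat_lit 18757432547) (nat_lit 152) (nat_lit 40712414612) (nat_lit 0) (nat_lit 348661266) (nat_lit 21) (nat_lit 5) (nat_lit 23) (nat_lit 4) (nat_lit 21) (nat_lit 4) (nat_lit 543) (nat_lit 386) (nat_lit 271))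 (XT.lf (nat_lit 0) (nat_lit 29296210512) (nat_lit 152) (nat_lit 21131332411) (nat_lit 0) (nat_lit 10868913291) (nat_lit 21) (nat_lit 5) (nat_lit 23) (nat_lit 4) (nat_lit 21) (nat_lit 4) (nat_lit 544) (nat_lit 386) (nat_lit 270))) (XT.nd (nat_lit 78) (nat_lit 76) (nat_lit 0) (XT.lf (nat_lit 0) (nat_lit 40132179415) (nat_lit 152) (nat_lit 1000236685) (nat_lit 0) (nat_lit 21686895844) (nat_lit 21) (nat_lit 5) (nat_lit 23) (nat_lit 4) (nat_lit 21) (nat_lit 4) (nat_lit 545) (nat_lit 386) (nat_lit 269)) (XT.lf (nat_lit 0) (nat_lit 20090500880) (nat_lit 76) (nat_lit 31377428882) (nat_lit 76) (nat_lit 12914682835) (nat_lit 20) (nat_lit 4) (nat_lit 21) (nat_lit 5) (nat_lit 21) (nat_lit 4) (nat_lit 546) (nat_lit 386) (nat_lit 268))))) (XT.nd (nat_lit 312) (nat_lit 76) (nat_lit 0) (XT.nd (nat_lit 156) (nat_lit 76) (nat_lit 0) (XT.nd (nat_lit 78) (nat_lit 76) (nat_lit 0) (XT.lf (nat_lit 0) (nat_lit 41798491543) (nat_lit 76)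 (nat_lit 21337132404) (nat_lit 76) (nat_lit 2857432498) (nat_lit 20) (nat_lit 4) (nat_lit 21) (nat_lit 5) (nat_lit 21) (nat_lit 4) (nat_lit 547) (nat_lit 386) (nat_lit 267)) (XT.lf (nat_lit 0) (nat_lit 7337279690) (nat_lit 152) (nat_lit 3601482192) (nat_lit 76) (nat_lit 56711424953) (nat_lit 19) (nat_lit 5) (nat_lit 21) (nat_lit 5) (nat_lit 20) (nat_lit 4) (nat_lit 548) (nat_lit 386) (nat_lit 266))) (XT.nd (nat_lit 78) (nat_lit 0) (nat_lit 0) (XT.lf (nat_lit 0) (nat_lit 17896064711) (nat_lit 76) (nat_lit 39011797) (nat_lit 152) (nat_lit 51416465928) (nat_lit 18) (nat_lit 5) (nat_lit 19) (nat_lit 5) (nat_lit 20) (nat_lit 4) (nat_lit 549) (nat_lit 386) (nat_lit 265)) (XT.lf (nat_lit 0) (nat_lit 28977743877) (nat_lit 152) (nat_lit 31132658459) (nat_lit 0) (nat_lit 10989728551) (nat_lit 18) (nat_lit 5) (nat_lit 20) (nat_lit 4) (nat_lit 18) (nat_lit 4) (nat_lit 550) (nat_lit 386) (nat_lit 264)))) (XT.nd (nat_lit 52728)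 (nat_lit 0) (nat_lit 19456) (XT.nd (nat_lit 78) (nat_lit 76) (nat_lit 0) (XT.lf (nat_lit 0) (nat_lit 40335247759) (nat_lit 152) (nat_lit 10233814922) (nat_lit 0) (nat_lit 22332607885) (nat_lit 18) (nat_lit 5) (nat_lit 20) (nat_lit 4) (nat_lit 18) (nat_lit 4) (nat_lit 551) (nat_lit 386) (nat_lit 263)) (XT.lf (nat_lit 0) (nat_lit 11483778904) (nat_lit 76) (nat_lit 40643747388) (nat_lit 76) (nat_lit 22626908923) (nat_lit 17) (nat_lit 4) (nat_lit 18) (nat_lit 5) (nat_lit 18) (nat_lit 4) (nat_lit 552) (nat_lit 386) (nat_lit 262))) (XT.nd (nat_lit 78) (nat_lit 0) (nat_lit 0) (XT.lf (nat_lit 0) (nat_lit 456693868) (nat_lit 1292) (nat_lit 2671274643) (nat_lit 0) (nat_lit 456693868) (nat_lit 273) (nat_lit 5) (nat_lit 290) (nat_lit 4) (nat_lit 273) (nat_lit 4) (nat_lit 426) (nat_lit 387) (nat_lit 387)) (XT.lf (nat_lit 0) (nat_lit 4427016858) (nat_lit 1292) (nat_lit 28989281) (nat_lit 0) (nat_lit 2771100442) (nat_lit 273)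 (nat_lit 5) (nat_lit 290) (nat_lit 4) (nat_lit 273) (nat_lit 4) (nat_lit 427) (nat_lit 387) (nat_lit 386))))))))
noncomputable def xc67 : XT := (XT.nd (nat_lit 2340) (nat_lit 4864) (nat_lit 0) (XT.nd (nat_lit 1170) (nat_lit 4028) (nat_lit 0) (XT.nd (nat_lit 546) (nat_lit 3040) (nat_lit 0) (XT.nd (nat_lit 234) (nat_lit 1672) (nat_lit 0) (XT.nd (nat_lit 78) (nat_lit 1292) (nat_lit 0) (XT.lf (nat_lit 0) (nat_lit 696126918) (nat_lit 836) (nat_lit 1850464613) (nat_lit 76) (nat_lit 4741294877) (nat_lit 262) (nat_lit 5) (nat_lit 273) (nat_lit 5) (nat_lit 263) (nat_lit 4) (nat_lit 428) (nat_lit 387) (nat_lit 385)) (XT.nd (nat_lit 78) (nat_lit 684) (nat_lit 0) (XT.lf (nat_lit 0) (nat_lit 3654793632) (nat_lit 608) (nat_lit 522179731) (nat_lit 684) (nat_lit 3174631994) (nat_lit 254) (nat_lit 5) (nat_lit 262) (nat_lit 5) (nat_lit 263) (nat_lit 4) (nat_lit 429) (nat_lit 387) (nat_lit 384)) (XT.lf (nat_lit 0) (nat_lit 291956578)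 (nat_lit 684) (nat_lit 5562532411) (nat_lit 76) (nat_lit 1564063498) (nat_lit 245) (nat_lit 5) (nat_lit 254) (nat_lit 5) (nat_lit 246) (nat_lit 4) (nat_lit 430) (nat_lit 387) (nat_lit 383)))) (XT.nd (nat_lit 156) (nat_lit 1140) (nat_lit 0) (XT.nd (nat_lit 78) (nat_lit 0) (nat_lit 0) (XT.lf (nat_lit 0) (nat_lit 18772318) (nat_lit 532) (nat_lit 3726244741) (nat_lit 608) (nat_lit 3743185299) (nat_lit 238) (nat_lit 5) (nat_lit 245) (nat_lit 5) (nat_lit 246) (nat_lit 4) (nat_lit 431) (nat_lit 387) (nat_lit 382)) (XT.lf (nat_lit 0) (nat_lit 5773163684) (nat_lit 532) (nat_lit 1489683569) (nat_lit 608) (nat_lit 298284108) (nat_lit 238) (nat_lit 5) (nat_lit 245) (nat_lit 5) (nat_lit 246) (nat_lit 4) (nat_lit 432) (nat_lit 387) (nat_lit 381))) (XT.nd (nat_lit 78) (nat_lit 532) (nat_lit 0) (XT.lf (nat_lit 0) (nat_lit 3140249787) (nat_lit 608) (nat_lit 3641630622) (nat_lit 76) (nat_lit 854843019) (nat_lit 230) (nat_lit 5)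 (nat_lit 238) (nat_lit 5) (nat_lit 231) (nat_lit 4) (nat_lit 433) (nat_lit 387) (nat_lit 380)) (XT.lf (nat_lit 0) (nat_lit 2190440329) (nat_lit 532) (nat_lit 4447934089) (nat_lit 608) (nat_lit 1077270199) (nat_lit 223) (nat_lit 5) (nat_lit 230) (nat_lit 5) (nat_lit 231) (nat_lit 4) (nat_lit 434) (nat_lit 387) (nat_lit 379))))) (XT.nd (nat_lit 312) (nat_lit 1444) (nat_lit 0) (XT.nd (nat_lit 156) (nat_lit 988) (nat_lit 0) (XT.nd (nat_lit 78) (nat_lit 0) (nat_lit 0) (XT.lf (nat_lit 0) (nat_lit 349815322) (nat_lit 532) (nat_lit 1996605110) (nat_lit 608) (nat_lit 5451341240) (nat_lit 215) (nat_lit 5) (nat_lit 222) (nat_lit 5) (nat_lit 223) (nat_lit 5) (nat_lit 435) (nat_lit 387) (nat_lit 378)) (XT.lf (nat_lit 0) (nat_lit 5823128104) (nat_lit 608) (nat_lit 1493502686) (nat_lit 76) (nat_lit 566253629) (nat_lit 215) (nat_lit 5) (nat_lit 223) (nat_lit 5) (nat_lit 216) (nat_lit 4) (nat_lit 436) (nat_lit 387) (nat_lit 377)))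 (XT.nd (nat_lit 78) (nat_lit 456) (nat_lit 0) (XT.lf (nat_lit 0) (nat_lit 1382500914) (nat_lit 532) (nat_lit 3382869117) (nat_lit 76) (nat_lit 3205490151) (nat_lit 208) (nat_lit 5) (nat_lit 215) (nat_lit 5) (nat_lit 209) (nat_lit 5) (nat_lit 437) (nat_lit 387) (nat_lit 376)) (XT.lf (nat_lit 0) (nat_lit 2746233571) (nat_lit 456) (nat_lit 2095803298) (nat_lit 532) (nat_lit 3220183378) (nat_lit 202) (nat_lit 5) (nat_lit 208) (nat_lit 5) (nat_lit 209) (nat_lit 5) (nat_lit 438) (nat_lit 387) (nat_lit 375)))) (XT.nd (nat_lit 156) (nat_lit 912) (nat_lit 0) (XT.nd (nat_lit 78) (nat_lit 0) (nat_lit 0) (XT.lf (nat_lit 0) (nat_lit 208035994) (nat_lit 532) (nat_lit 7285377539) (nat_lit 76) (nat_lit 663938070) (nat_lit 195) (nat_lit 5) (nat_lit 202) (nat_lit 5) (nat_lit 196) (nat_lit 5) (nat_lit 439) (nat_lit 387) (nat_lit 374)) (XT.lf (nat_lit 0) (nat_lit 3664973203) (nat_lit 532) (nat_lit 1062583945) (nat_lit 76) (nat_lit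 3527122965) (nat_lit 195) (nat_lit 5) (nat_lit 202) (nat_lit 5) (nat_lit 196) (nat_lit 5) (nat_lit 440) (nat_lit 387) (nat_lit 373))) (XT.nd (nat_lit 78) (nat_lit 456) (nat_lit 0) (XT.lf (nat_lit 0) (nat_lit 5344149300) (nat_lit 456) (nat_lit 1850928507) (nat_lit 532) (nat_lit 1160783899) (nat_lit 189) (nat_lit 5) (nat_lit 195) (nat_lit 5) (nat_lit 196) (nat_lit 5) (nat_lit 441) (nat_lit 387) (nat_lit 372)) (XT.lf (nat_lit 0) (nat_lit 2298399256) (nat_lit 456) (nat_lit 5029872273) (nat_lit 76) (nat_lit 1131929720) (nat_lit 183) (nat_lit 5) (nat_lit 189) (nat_lit 5) (nat_lit 184) (nat_lit 5) (nat_lit 442) (nat_lit 387) (nat_lit 371)))))) (XT.nd (nat_lit 546) (nat_lit 1976) (nat_lit 0) (XT.nd (nat_lit 234) (nat_lit 1216) (nat_lit 0) (XT.nd (nat_lit 78) (nat_lit 456) (nat_lit 0) (XT.lf (nat_lit 0) (nat_lit 1450066680) (nat_lit 380) (nat_lit 4370670702) (nat_lit 456) (nat_lit 2747123069) (nat_lit 178) (nat_lit 5) (nat_lit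 183) (nat_lit 5) (nat_lit 184) (nat_lit 5) (nat_lit 443) (nat_lit 387) (nat_lit 370)) (XT.nd (nat_lit 78) (nat_lit 380) (nat_lit 0) (XT.lf (nat_lit 0) (nat_lit 726503621) (nat_lit 456) (nat_lit 566874640) (nat_lit 76) (nat_lit 7386017803) (nat_lit 177) (nat_lit 5) (nat_lit 183) (nat_lit 5) (nat_lit 178) (nat_lit 5) (nat_lit 444) (nat_lit 387) (nat_lit 369)) (XT.lf (nat_lit 0) (nat_lit 4249589677) (nat_lit 456) (nat_lit 2644984614) (nat_lit 76) (nat_lit 1898887769) (nat_lit 172) (nat_lit 5) (nat_lit 178) (nat_lit 5) (nat_lit 173) (nat_lit 5) (nat_lit 445) (nat_lit 387) (nat_lit 368)))) (XT.nd (nat_lit 156) (nat_lit 456) (nat_lit 0) (XT.nd (nat_lit 78) (nat_lit 380) (nat_lit 0) (XT.lf (nat_lit 0) (nat_lit 4126741456) (nat_lit 380) (nat_lit 3733412189) (nat_lit 456) (nat_lit 1051356658) (nat_lit 167) (nat_lit 5) (nat_lit 172) (nat_lit 5) (nat_lit 173) (nat_lit 5) (nat_lit 446) (nat_lit 387) (nat_lit 367)) (XT.lf (nat_lit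 0) (nat_lit 2030900523) (nat_lit 304) (nat_lit 435829327) (nat_lit 380) (nat_lit 6566534716) (nat_lit 162) (nat_lit 5) (nat_lit 166) (nat_lit 5) (nat_lit 167) (nat_lit 5) (nat_lit 447) (nat_lit 387) (nat_lit 366))) (XT.nd (nat_lit 78) (nat_lit 456) (nat_lit 0) (XT.lf (nat_lit 0) (nat_lit 6071348995) (nat_lit 380) (nat_lit 155878029) (nat_lit 76) (nat_lit 2931081162) (nat_lit 162) (nat_lit 5) (nat_lit 167) (nat_lit 5) (nat_lit 163) (nat_lit 5) (nat_lit 448) (nat_lit 387) (nat_lit 365)) (XT.lf (nat_lit 0) (nat_lit 485175663) (nat_lit 456) (nat_lit 2370457752) (nat_lit 76) (nat_lit 6431402192) (nat_lit 156) (nat_lit 5) (nat_lit 162) (nat_lit 5) (nat_lit 157) (nat_lit 5) (nat_lit 449) (nat_lit 387) (nat_lit 364))))) (XT.nd (nat_lit 312) (nat_lit 988) (nat_lit 0) (XT.nd (nat_lit 156) (nat_lit 380) (nat_lit 0) (XT.nd (nat_lit 78) (nat_lit 304) (nat_lit 0) (XT.lf (nat_lit 0) (nat_lit 4083430701) (nat_lit 380) (nat_lit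 4684799550) (nat_lit 76) (nat_lit 651059231) (nat_lit 152) (nat_lit 5) (nat_lit 157) (nat_lit 5) (nat_lit 153) (nat_lit 5) (nat_lit 450) (nat_lit 387) (nat_lit 363)) (XT.lf (nat_lit 0) (nat_lit 2459370518) (nat_lit 304) (nat_lit 5334593364) (nat_lit 380) (nat_lit 1761428420) (nat_lit 148) (nat_lit 5) (nat_lit 152) (nat_lit 5) (nat_lit 153) (nat_lit 5) (nat_lit 451) (nat_lit 387) (nat_lit 362))) (XT.nd (nat_lit 78) (nat_lit 0) (nat_lit 0) (XT.lf (nat_lit 0) (nat_lit 95800373) (nat_lit 304) (nat_lit 1764268153) (nat_lit 380) (nat_lit 7835647393) (nat_lit 143) (nat_lit 5) (nat_lit 147) (nat_lit 5) (nat_lit 148) (nat_lit 5) (nat_lit 452) (nat_lit 387) (nat_lit 361)) (XT.lf (nat_lit 0) (nat_lit 5574891862) (nat_lit 380) (nat_lit 2333414466) (nat_lit 76) (nat_lit 1930827476) (nat_lit 143) (nat_lit 5) (nat_lit 148) (nat_lit 5) (nat_lit 144) (nat_lit 5) (nat_lit 453) (nat_lit 387) (nat_lit 360)))) (XT.nd (nat_lit 156)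 (nat_lit 380) (nat_lit 0) (XT.nd (nat_lit 78) (nat_lit 304) (nat_lit 0) (XT.lf (nat_lit 0) (nat_lit 5129223953) (nat_lit 304) (nat_lit 4270096121) (nat_lit 380) (nat_lit 587599333) (nat_lit 139) (nat_lit 5) (nat_lit 143) (nat_lit 5) (nat_lit 144) (nat_lit 5) (nat_lit 454) (nat_lit 387) (nat_lit 359)) (XT.lf (nat_lit 0) (nat_lit 2640864485) (nat_lit 228) (nat_lit 476941180) (nat_lit 304) (nat_lit 7020992896) (nat_lit 135) (nat_lit 5) (nat_lit 138) (nat_lit 5) (nat_lit 139) (nat_lit 5) (nat_lit 455) (nat_lit 387) (nat_lit 358))) (XT.nd (nat_lit 78) (nat_lit 76) (nat_lit 0) (XT.lf (nat_lit 0) (nat_lit 25955366) (nat_lit 304) (nat_lit 6911719365) (nat_lit 380) (nat_lit 3356940602) (nat_lit 131) (nat_lit 5) (nat_lit 135) (nat_lit 5) (nat_lit 136) (nat_lit 5) (nat_lit 456) (nat_lit 387) (nat_lit 357)) (XT.lf (nat_lit 0) (nat_lit 422731554) (nat_lit 380) (nat_lit 2638841980) (nat_lit 76) (nat_lit 7393006343) (nat_lit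 130) (nat_lit 5) (nat_lit 135) (nat_lit 5) (nat_lit 131) (nat_lit 5) (nat_lit 457) (nat_lit 387) (nat_lit 356))))))) (XT.nd (nat_lit 1170) (nat_lit 2128) (nat_lit 0) (XT.nd (nat_lit 546) (nat_lit 1368) (nat_lit 0) (XT.nd (nat_lit 234) (nat_lit 760) (nat_lit 0) (XT.nd (nat_lit 78) (nat_lit 380) (nat_lit 0) (XT.lf (nat_lit 0) (nat_lit 4241930992) (nat_lit 304) (nat_lit 5442868534) (nat_lit 76) (nat_lit 933746838) (nat_lit 127) (nat_lit 5) (nat_lit 131) (nat_lit 5) (nat_lit 128) (nat_lit 5) (nat_lit 458) (nat_lit 387) (nat_lit 355)) (XT.nd (nat_lit 78) (nat_lit 76) (nat_lit 0) (XT.lf (nat_lit 0) (nat_lit 2405167660) (nat_lit 304) (nat_lit 5786062728) (nat_lit 380) (nat_lit 2595743860) (nat_lit 123) (nat_lit 5) (nat_lit 127) (nat_lit 5) (nat_lit 128) (nat_lit 5) (nat_lit 459) (nat_lit 387) (nat_lit 354)) (XT.lf (nat_lit 0) (nat_lit 1264165580) (nat_lit 380) (nat_lit 475178071) (nat_lit 76) (nat_lit 9221015962) (nat_lit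 122) (nat_lit 5) (nat_lit 127) (nat_lit 5) (nat_lit 123) (nat_lit 5) (nat_lit 460) (nat_lit 387) (nat_lit 353)))) (XT.nd (nat_lit 156) (nat_lit 304) (nat_lit 0) (XT.nd (nat_lit 78) (nat_lit 228) (nat_lit 0) (XT.lf (nat_lit 0) (nat_lit 5222939979) (nat_lit 304) (nat_lit 3469304121) (nat_lit 76) (nat_lit 2444881672) (nat_lit 119) (nat_lit 5) (nat_lit 123) (nat_lit 5) (nat_lit 120) (nat_lit 5) (nat_lit 461) (nat_lit 387) (nat_lit 352)) (XT.lf (nat_lit 0) (nat_lit 4719568109) (nat_lit 228) (nat_lit 4586174504) (nat_lit 304) (nat_lit 2013301568) (nat_lit 116) (nat_lit 5) (nat_lit 119) (nat_lit 5) (nat_lit 120) (nat_lit 5) (nat_lit 462) (nat_lit 387) (nat_lit 351))) (XT.nd (nat_lit 78) (nat_lit 0) (nat_lit 0) (XT.lf (nat_lit 0) (nat_lit 1630751478) (nat_lit 228) (nat_lit 323861731) (nat_lit 304) (nat_lit 9551562016) (nat_lit 112) (nat_lit 5) (nat_lit 115) (nat_lit 5) (nat_lit 116) (nat_lit 5) (nat_lit 463) (nat_lit 387)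 (nat_lit 350)) (XT.lf (nat_lit 0) (nat_lit 6046017586) (nat_lit 304) (nat_lit 1615211636) (nat_lit 76) (nat_lit 4035752045) (nat_lit 112) (nat_lit 5) (nat_lit 116) (nat_lit 5) (nat_lit 113) (nat_lit 5) (nat_lit 464) (nat_lit 387) (nat_lit 349))))) (XT.nd (nat_lit 312) (nat_lit 684) (nat_lit 0) (XT.nd (nat_lit 156) (nat_lit 228) (nat_lit 0) (XT.nd (nat_lit 78) (nat_lit 228) (nat_lit 0) (XT.lf (nat_lit 0) (nat_lit 6925936786) (nat_lit 228) (nat_lit 3344328623) (nat_lit 304) (nat_lit 1622949452) (nat_lit 109) (nat_lit 5) (nat_lit 112) (nat_lit 5) (nat_lit 113) (nat_lit 5) (nat_lit 465) (nat_lit 387) (nat_lit 348)) (XT.lf (nat_lit 0) (nat_lit 2479262547) (nat_lit 228) (nat_lit 8497300381) (nat_lit 76) (nat_lit 1117970758) (nat_lit 106) (nat_lit 5) (nat_lit 109) (nat_lit 5) (nat_lit 107) (nat_lit 5) (nat_lit 466) (nat_lit 387) (nat_lit 347))) (XT.nd (nat_lit 78) (nat_lit 0) (nat_lit 0) (XT.lf (nat_lit 0) (nat_lit 72400995)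 (nat_lit 228) (nat_lit 6624922858) (nat_lit 304) (nat_lit 5603329947) (nat_lit 103) (nat_lit 5) (nat_lit 106) (nat_lit 5) (nat_lit 107) (nat_lit 5) (nat_lit 467) (nat_lit 387) (nat_lit 346)) (XT.lf (nat_lit 0) (nat_lit 8974903472) (nat_lit 228) (nat_lit 2094541333) (nat_lit 304) (nat_lit 1442692876) (nat_lit 103) (nat_lit 5) (nat_lit 106) (nat_lit 5) (nat_lit 107) (nat_lit 5) (nat_lit 468) (nat_lit 387) (nat_lit 345)))) (XT.nd (nat_lit 156) (nat_lit 228) (nat_lit 0) (XT.nd (nat_lit 78) (nat_lit 228) (nat_lit 0) (XT.lf (nat_lit 0) (nat_lit 2807126250) (nat_lit 228) (nat_lit 7358707342) (nat_lit 76) (nat_lit 2562722999) (nat_lit 100) (nat_lit 5) (nat_lit 103) (nat_lit 5) (nat_lit 101) (nat_lit 5) (nat_lit 469) (nat_lit 387) (nat_lit 344)) (XT.lf (nat_lit 0) (nat_lit 1564286306) (nat_lit 228) (nat_lit 5606213557) (nat_lit 304) (nat_lit 5780093196) (nat_lit 97) (nat_lit 5) (nat_lit 100) (nat_lit 5) (nat_lit 101) (nat_lit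 5) (nat_lit 470) (nat_lit 387) (nat_lit 343))) (XT.nd (nat_lit 78) (nat_lit 228) (nat_lit 0) (XT.lf (nat_lit 0) (nat_lit 10809646894) (nat_lit 228) (nat_lit 873374899) (nat_lit 304) (nat_lit 1495726479) (nat_lit 97) (nat_lit 5) (nat_lit 100) (nat_lit 5) (nat_lit 101) (nat_lit 5) (nat_lit 471) (nat_lit 387) (nat_lit 342)) (XT.lf (nat_lit 0) (nat_lit 2910925054) (nat_lit 228) (nat_lit 6520216504) (nat_lit 76) (nat_lit 3980249754) (nat_lit 94) (nat_lit 5) (nat_lit 97) (nat_lit 5) (nat_lit 95) (nat_lit 5) (nat_lit 472) (nat_lit 387) (nat_lit 341)))))) (XT.nd (nat_lit 624) (nat_lit 1140) (nat_lit 0) (XT.nd (nat_lit 312) (nat_lit 380) (nat_lit 0) (XT.nd (nat_lit 156) (nat_lit 380) (nat_lit 0) (XT.nd (nat_lit 78) (nat_lit 0) (nat_lit 0) (XT.lf (nat_lit 0) (nat_lit 2762953408) (nat_lit 228) (nat_lit 4661478926) (nat_lit 304) (nat_lit 6226000101) (nat_lit 91) (nat_lit 5) (nat_lit 94) (nat_lit 5) (nat_lit 95) (nat_lit 5)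 (nat_lit 473) (nat_lit 387) (nat_lit 340)) (XT.lf (nat_lit 0) (nat_lit 12087911485) (nat_lit 304) (nat_lit 1534566675) (nat_lit 76) (nat_lit 273734129) (nat_lit 91) (nat_lit 5) (nat_lit 95) (nat_lit 5) (nat_lit 92) (nat_lit 4) (nat_lit 474) (nat_lit 387) (nat_lit 339))) (XT.nd (nat_lit 78) (nat_lit 152) (nat_lit 0) (XT.lf (nat_lit 0) (nat_lit 2760565131) (nat_lit 228) (nat_lit 6055419129) (nat_lit 76) (nat_lit 5330430588) (nat_lit 88) (nat_lit 5) (nat_lit 91) (nat_lit 5) (nat_lit 89) (nat_lit 5) (nat_lit 475) (nat_lit 387) (nat_lit 338)) (XT.lf (nat_lit 0) (nat_lit 3592690087) (nat_lit 152) (nat_lit 3835025092) (nat_lit 228) (nat_lit 6975948405) (nat_lit 86) (nat_lit 5) (nat_lit 88) (nat_lit 5) (nat_lit 89) (nat_lit 5) (nat_lit 476) (nat_lit 387) (nat_lit 337)))) (XT.nd (nat_lit 156) (nat_lit 152) (nat_lit 0) (XT.nd (nat_lit 78) (nat_lit 228) (nat_lit 0) (XT.lf (nat_lit 0) (nat_lit 12256735008) (nat_lit 228) (nat_lit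 1118237853) (nat_lit 76) (nat_lit 1293005258) (nat_lit 86) (nat_lit 5) (nat_lit 89) (nat_lit 5) (nat_lit 87) (nat_lit 4) (nat_lit 477) (nat_lit 387) (nat_lit 336)) (XT.lf (nat_lit 0) (nat_lit 2319231173) (nat_lit 228) (nat_lit 6049637912) (nat_lit 76) (nat_lit 6568490612) (nat_lit 83) (nat_lit 5) (nat_lit 86) (nat_lit 5) (nat_lit 84) (nat_lit 5) (nat_lit 478) (nat_lit 387) (nat_lit 335))) (XT.nd (nat_lit 78) (nat_lit 0) (nat_lit 0) (XT.lf (nat_lit 0) (nat_lit 3965508750) (nat_lit 152) (nat_lit 3176467382) (nat_lit 228) (nat_lit 8072169435) (nat_lit 81) (nat_lit 5) (nat_lit 83) (nat_lit 5) (nat_lit 84) (nat_lit 5) (nat_lit 479) (nat_lit 387) (nat_lit 334)) (XT.lf (nat_lit 0) (nat_lit 12141512244) (nat_lit 228) (nat_lit 1204192546) (nat_lit 76) (nat_lit 2152570510) (nat_lit 81) (nat_lit 5) (nat_lit 84) (nat_lit 5) (nat_lit 82) (nat_lit 4) (nat_lit 480) (nat_lit 387) (nat_lit 333))))) (XT.nd (nat_lit 312) (nat_lit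 532) (nat_lit 0) (XT.nd (nat_lit 156) (nat_lit 228) (nat_lit 0) (XT.nd (nat_lit 78) (nat_lit 152) (nat_lit 0) (XT.lf (nat_lit 0) (nat_lit 1542444694) (nat_lit 228) (nat_lit 6602027044) (nat_lit 76) (nat_lit 7643879585) (nat_lit 78) (nat_lit 5) (nat_lit 81) (nat_lit 5) (nat_lit 79) (nat_lit 5) (nat_lit 481) (nat_lit 387) (nat_lit 332)) (XT.lf (nat_lit 0) (nat_lit 3778949286) (nat_lit 152) (nat_lit 2741934942) (nat_lit 228) (nat_lit 9565259894) (nat_lit 76) (nat_lit 5) (nat_lit 78) (nat_lit 5) (nat_lit 79) (nat_lit 5) (nat_lit 482) (nat_lit 387) (nat_lit 331))) (XT.nd (nat_lit 78) (nat_lit 228) (nat_lit 0) (XT.lf (nat_lit 0) (nat_lit 11694469524) (nat_lit 228) (nat_lit 1900104180) (nat_lit 76) (nat_lit 2796926379) (nat_lit 76) (nat_lit 5) (nat_lit 79) (nat_lit 5) (nat_lit 77) (nat_lit 4) (nat_lit 483) (nat_lit 387) (nat_lit 330)) (XT.lf (nat_lit 0) (nat_lit 376952919) (nat_lit 228) (nat_lit 7827993458) (nat_lit 76)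 (nat_lit 8499004895) (nat_lit 73) (nat_lit 5) (nat_lit 76) (nat_lit 5) (nat_lit 74) (nat_lit 5) (nat_lit 484) (nat_lit 387) (nat_lit 329)))) (XT.nd (nat_lit 156) (nat_lit 380) (nat_lit 0) (XT.nd (nat_lit 78) (nat_lit 0) (nat_lit 0) (XT.lf (nat_lit 0) (nat_lit 2913544380) (nat_lit 152) (nat_lit 2595435751) (nat_lit 228) (nat_lit 11515396698) (nat_lit 71) (nat_lit 5) (nat_lit 73) (nat_lit 5) (nat_lit 74) (nat_lit 5) (nat_lit 485) (nat_lit 387) (nat_lit 328)) (XT.lf (nat_lit 0) (nat_lit 10858425344) (nat_lit 228) (nat_lit 3331481669) (nat_lit 76) (nat_lit 3162607227) (nat_lit 71) (nat_lit 5) (nat_lit 74) (nat_lit 5) (nat_lit 72) (nat_lit 4) (nat_lit 486) (nat_lit 387) (nat_lit 327))) (XT.nd (nat_lit 78) (nat_lit 228) (nat_lit 0) (XT.lf (nat_lit 0) (nat_lit 7814686640) (nat_lit 152) (nat_lit 8608888436) (nat_lit 228) (nat_lit 1265266782) (nat_lit 69) (nat_lit 5) (nat_lit 71) (nat_lit 5) (nat_lit 72) (nat_lit 4) (nat_lit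 487) (nat_lit 387) (nat_lit 326)) (XT.lf (nat_lit 0) (nat_lit 1229891213) (nat_lit 152) (nat_lit 2810411617) (nat_lit 228) (nat_lit 13993762188) (nat_lit 66) (nat_lit 5) (nat_lit 68) (nat_lit 5) (nat_lit 69) (nat_lit 5) (nat_lit 488) (nat_lit 387) (nat_lit 325))))))))
noncomputable def xc68 : XT := (XT.nd (nat_lit 2340) (nat_lit 1292) (nat_lit 0) (XT.nd (nat_lit 1170) (nat_lit 988) (nat_lit 0) (XT.nd (nat_lit 546) (nat_lit 608) (nat_lit 0) (XT.nd (nat_lit 234) (nat_lit 456) (nat_lit 0) (XT.nd (nat_lit 78) (nat_lit 152) (nat_lit 0) (XT.lf (nat_lit 0) (nat_lit 9565360398) (nat_lit 228) (nat_lit 5644715064) (nat_lit 76) (nat_lit 3176623534) (nat_lit 66) (nat_lit 5) (nat_lit 69) (nat_lit 5) (nat_lit 67) (nat_lit 4) (nat_lit 489) (nat_lit 387) (nat_lit 324)) (XT.nd (nat_lit 78) (nat_lit 76) (nat_lit 0) (XT.lf (nat_lit 0) (nat_lit 5854763536) (nat_lit 76) (nat_lit 9441491563) (nat_lit 152) (nat_lit 3452456751) (nat_lit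 65) (nat_lit 5) (nat_lit 66) (nat_lit 5) (nat_lit 67) (nat_lit 4) (nat_lit 490) (nat_lit 387) (nat_lit 323)) (XT.lf (nat_lit 0) (nat_lit 2050573386) (nat_lit 152) (nat_lit 1406738412) (nat_lit 76) (nat_lit 15663267830) (nat_lit 64) (nat_lit 5) (nat_lit 66) (nat_lit 5) (nat_lit 65) (nat_lit 5) (nat_lit 491) (nat_lit 387) (nat_lit 322)))) (XT.nd (nat_lit 156) (nat_lit 228) (nat_lit 0) (XT.nd (nat_lit 78) (nat_lit 76) (nat_lit 0) (XT.lf (nat_lit 0) (nat_lit 7734744339) (nat_lit 228) (nat_lit 9010599061) (nat_lit 76) (nat_lit 2754673543) (nat_lit 62) (nat_lit 5) (nat_lit 65) (nat_lit 5) (nat_lit 63) (nat_lit 4) (nat_lit 492) (nat_lit 387) (nat_lit 321)) (XT.lf (nat_lit 0) (nat_lit 2822543262) (nat_lit 76) (nat_lit 10800088136) (nat_lit 152) (nat_lit 6267212399) (nat_lit 61) (nat_lit 5) (nat_lit 62) (nat_lit 5) (nat_lit 63) (nat_lit 4) (nat_lit 493) (nat_lit 387) (nat_lit 320))) (XT.nd (nat_lit 78) (nat_lit 228) (nat_lit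 0) (XT.lf (nat_lit 0) (nat_lit 15117115608) (nat_lit 76) (nat_lit 4618997028) (nat_lit 152) (nat_lit 553786177) (nat_lit 61) (nat_lit 5) (nat_lit 62) (nat_lit 5) (nat_lit 63) (nat_lit 4) (nat_lit 494) (nat_lit 387) (nat_lit 319)) (XT.lf (nat_lit 0) (nat_lit 5271581751) (nat_lit 228) (nat_lit 13628412303) (nat_lit 76) (nat_lit 1799089032) (nat_lit 58) (nat_lit 5) (nat_lit 61) (nat_lit 5) (nat_lit 59) (nat_lit 4) (nat_lit 495) (nat_lit 387) (nat_lit 318))))) (XT.nd (nat_lit 312) (nat_lit 304) (nat_lit 0) (XT.nd (nat_lit 156) (nat_lit 228) (nat_lit 0) (XT.nd (nat_lit 78) (nat_lit 76) (nat_lit 0) (XT.lf (nat_lit 0) (nat_lit 11317981092) (nat_lit 228) (nat_lit 1460190073) (nat_lit 76) (nat_lit 8340487111) (nat_lit 58) (nat_lit 5) (nat_lit 61) (nat_lit 5) (nat_lit 59) (nat_lit 4) (nat_lit 496) (nat_lit 387) (nat_lit 317)) (XT.lf (nat_lit 0) (nat_lit 11217262424) (nat_lit 76) (nat_lit 6396449935) (nat_lit 152) (nat_lit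 3935072018) (nat_lit 57) (nat_lit 5) (nat_lit 58) (nat_lit 5) (nat_lit 59) (nat_lit 4) (nat_lit 497) (nat_lit 387) (nat_lit 316))) (XT.nd (nat_lit 78) (nat_lit 0) (nat_lit 0) (XT.lf (nat_lit 0) (nat_lit 2064133698) (nat_lit 228) (nat_lit 19730642649) (nat_lit 76) (nat_lit 196470056) (nat_lit 54) (nat_lit 5) (nat_lit 57) (nat_lit 5) (nat_lit 55) (nat_lit 4) (nat_lit 498) (nat_lit 387) (nat_lit 315)) (XT.lf (nat_lit 0) (nat_lit 8293203286) (nat_lit 228) (nat_lit 7179782965) (nat_lit 76) (nat_lit 6968959538) (nat_lit 54) (nat_lit 5) (nat_lit 57) (nat_lit 5) (nat_lit 55) (nat_lit 4) (nat_lit 499) (nat_lit 387) (nat_lit 314)))) (XT.nd (nat_lit 156) (nat_lit 228) (nat_lit 0) (XT.nd (nat_lit 78) (nat_lit 0) (nat_lit 0) (XT.lf (nat_lit 0) (nat_lit 5787840656) (nat_lit 76) (nat_lit 8938383774) (nat_lit 152) (nat_lit 8179430988) (nat_lit 53) (nat_lit 5) (nat_lit 54) (nat_lit 5) (nat_lit 55) (nat_lit 4) (nat_lit 500) (nat_lit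 387) (nat_lit 313)) (XT.lf (nat_lit 0) (nat_lit 19219680806) (nat_lit 76) (nat_lit 2166931331) (nat_lit 152) (nat_lit 1995634520) (nat_lit 53) (nat_lit 5) (nat_lit 54) (nat_lit 5) (nat_lit 55) (nat_lit 4) (nat_lit 501) (nat_lit 387) (nat_lit 312))) (XT.nd (nat_lit 78) (nat_lit 0) (nat_lit 0) (XT.lf (nat_lit 0) (nat_lit 4387045818) (nat_lit 228) (nat_lit 14668378411) (nat_lit 76) (nat_lit 4813490152) (nat_lit 50) (nat_lit 5) (nat_lit 53) (nat_lit 5) (nat_lit 51) (nat_lit 4) (nat_lit 502) (nat_lit 387) (nat_lit 311)) (XT.lf (nat_lit 0) (nat_lit 10947717074) (nat_lit 228) (nat_lit 1431431743) (nat_lit 76) (nat_lit 11989643398) (nat_lit 50) (nat_lit 5) (nat_lit 53) (nat_lit 5) (nat_lit 51) (nat_lit 4) (nat_lit 503) (nat_lit 387) (nat_lit 310)))))) (XT.nd (nat_lit 546) (nat_lit 456) (nat_lit 0) (XT.nd (nat_lit 234) (nat_lit 228) (nat_lit 0) (XT.nd (nat_lit 78) (nat_lit 228) (nat_lit 0) (XT.lf (nat_lit 0) (nat_lit 12375432700)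 (nat_lit 76) (nat_lit 5412538024) (nat_lit 152) (nat_lit 7093214211) (nat_lit 49) (nat_lit 5) (nat_lit 50) (nat_lit 5) (nat_lit 51) (nat_lit 4) (nat_lit 504) (nat_lit 387) (nat_lit 309)) (XT.nd (nat_lit 78) (nat_lit 76) (nat_lit 0) (XT.lf (nat_lit 0) (nat_lit 1153985565) (nat_lit 152) (nat_lit 23685977724) (nat_lit 152) (nat_lit 568791586) (nat_lit 47) (nat_lit 4) (nat_lit 49) (nat_lit 5) (nat_lit 49) (nat_lit 4) (nat_lit 505) (nat_lit 387) (nat_lit 308)) (XT.lf (nat_lit 0) (nat_lit 6176387035) (nat_lit 228) (nat_lit 10651279802) (nat_lit 76) (nat_lit 9118360699) (nat_lit 46) (nat_lit 5) (nat_lit 49) (nat_lit 5) (nat_lit 47) (nat_lit 4) (nat_lit 506) (nat_lit 387) (nat_lit 307)))) (XT.nd (nat_lit 156) (nat_lit 152) (nat_lit 0) (XT.nd (nat_lit 78) (nat_lit 0) (nat_lit 0) (XT.lf (nat_lit 0) (nat_lit 3353305167) (nat_lit 76) (nat_lit 9756403339) (nat_lit 152) (nat_lit 13389625595) (nat_lit 45) (nat_lit 5) (nat_lit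 46) (nat_lit 5) (nat_lit 47) (nat_lit 4) (nat_lit 507) (nat_lit 387) (nat_lit 306)) (XT.lf (nat_lit 0) (nat_lit 17930210821) (nat_lit 76) (nat_lit 2393745350) (nat_lit 152) (nat_lit 6743097121) (nat_lit 45) (nat_lit 5) (nat_lit 46) (nat_lit 5) (nat_lit 47) (nat_lit 4) (nat_lit 508) (nat_lit 387) (nat_lit 305))) (XT.nd (nat_lit 78) (nat_lit 0) (nat_lit 0) (XT.lf (nat_lit 0) (nat_lit 168214239) (nat_lit 152) (nat_lit 22370618523) (nat_lit 76) (nat_lit 5110920992) (nat_lit 43) (nat_lit 5) (nat_lit 45) (nat_lit 5) (nat_lit 44) (nat_lit 4) (nat_lit 509) (nat_lit 387) (nat_lit 304)) (XT.lf (nat_lit 0) (nat_lit 7234333834) (nat_lit 152) (nat_lit 8088641031) (nat_lit 76) (nat_lit 12922468630) (nat_lit 43) (nat_lit 5) (nat_lit 45) (nat_lit 5) (nat_lit 44) (nat_lit 4) (nat_lit 510) (nat_lit 387) (nat_lit 303))))) (XT.nd (nat_lit 312) (nat_lit 228) (nat_lit 0) (XT.nd (nat_lit 156) (nat_lit 152) (nat_lit 0) (XT.nd (nat_lit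 78) (nat_lit 0) (nat_lit 0) (XT.lf (nat_lit 0) (nat_lit 6689234598) (nat_lit 76) (nat_lit 7854610539) (nat_lit 152) (nat_lit 14314217636) (nat_lit 42) (nat_lit 5) (nat_lit 43) (nat_lit 5) (nat_lit 44) (nat_lit 4) (nat_lit 511) (nat_lit 387) (nat_lit 302)) (XT.lf (nat_lit 0) (nat_lit 22013782013) (nat_lit 76) (nat_lit 108003798) (nat_lit 152) (nat_lit 7365801554) (nat_lit 42) (nat_lit 5) (nat_lit 43) (nat_lit 5) (nat_lit 44) (nat_lit 4) (nat_lit 512) (nat_lit 387) (nat_lit 301))) (XT.nd (nat_lit 78) (nat_lit 76) (nat_lit 0) (XT.lf (nat_lit 0) (nat_lit 7674847874) (nat_lit 76) (nat_lit 22369785888) (nat_lit 76) (nat_lit 87837888) (nat_lit 41) (nat_lit 4) (nat_lit 42) (nat_lit 5) (nat_lit 42) (nat_lit 4) (nat_lit 513) (nat_lit 387) (nat_lit 300)) (XT.lf (nat_lit 0) (nat_lit 7309350451) (nat_lit 152) (nat_lit 7497659913) (nat_lit 76) (nat_lit 15986193076) (nat_lit 40) (nat_lit 5) (nat_lit 42) (nat_lit 5) (nat_lit 41)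 (nat_lit 4) (nat_lit 514) (nat_lit 387) (nat_lit 299)))) (XT.nd (nat_lit 156) (nat_lit 152) (nat_lit 0) (XT.nd (nat_lit 78) (nat_lit 0) (nat_lit 0) (XT.lf (nat_lit 0) (nat_lit 8006907189) (nat_lit 76) (nat_lit 6965840577) (nat_lit 152) (nat_lit 16499602504) (nat_lit 39) (nat_lit 5) (nat_lit 40) (nat_lit 5) (nat_lit 41) (nat_lit 4) (nat_lit 515) (nat_lit 387) (nat_lit 298)) (XT.lf (nat_lit 0) (nat_lit 22922335345) (nat_lit 152) (nat_lit 8110349864) (nat_lit 0) (nat_lit 1137498557) (nat_lit 39) (nat_lit 5) (nat_lit 41) (nat_lit 4) (nat_lit 39) (nat_lit 4) (nat_lit 516) (nat_lit 387) (nat_lit 297))) (XT.nd (nat_lit 78) (nat_lit 76) (nat_lit 0) (XT.lf (nat_lit 0) (nat_lit 7729361274) (nat_lit 76) (nat_lit 23494367474) (nat_lit 76) (nat_lit 1661824857) (nat_lit 38) (nat_lit 4) (nat_lit 39) (nat_lit 5) (nat_lit 39) (nat_lit 4) (nat_lit 517) (nat_lit 387) (nat_lit 296)) (XT.lf (nat_lit 0) (nat_lit 6084522756) (nat_lit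 152) (nat_lit 9527277760) (nat_lit 76) (nat_lit 18007227217) (nat_lit 37) (nat_lit 5) (nat_lit 39) (nat_lit 5) (nat_lit 38) (nat_lit 4) (nat_lit 518) (nat_lit 387) (nat_lit 295))))))) (XT.nd (nat_lit 1170) (nat_lit 532) (nat_lit 0) (XT.nd (nat_lit 546) (nat_lit 456) (nat_lit 0) (XT.nd (nat_lit 234) (nat_lit 152) (nat_lit 0) (XT.nd (nat_lit 78) (nat_lit 76) (nat_lit 0) (XT.lf (nat_lit 0) (nat_lit 6627134258) (nat_lit 76) (nat_lit 7437378319) (nat_lit 152) (nat_lit 20308461120) (nat_lit 36) (nat_lit 5) (nat_lit 37) (nat_lit 5) (nat_lit 38) (nat_lit 4) (nat_lit 519) (nat_lit 387) (nat_lit 294)) (XT.nd (nat_lit 78) (nat_lit 76) (nat_lit 0) (XT.lf (nat_lit 0) (nat_lit 22361504332) (nat_lit 152) (nat_lit 11751856336) (nat_lit 0) (nat_lit 1033850092) (nat_lit 36) (nat_lit 5) (nat_lit 38) (nat_lit 4) (nat_lit 36) (nat_lit 4) (nat_lit 520) (nat_lit 387) (nat_lit 293)) (XT.lf (nat_lit 0) (nat_lit 4685082951) (nat_lit 76)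 (nat_lit 26312841449) (nat_lit 76) (nat_lit 4944035742) (nat_lit 35) (nat_lit 4) (nat_lit 36) (nat_lit 5) (nat_lit 36) (nat_lit 4) (nat_lit 521) (nat_lit 387) (nat_lit 292)))) (XT.nd (nat_lit 156) (nat_lit 0) (nat_lit 0) (XT.nd (nat_lit 78) (nat_lit 76) (nat_lit 0) (XT.lf (nat_lit 0) (nat_lit 3163465482) (nat_lit 152) (nat_lit 14986923658) (nat_lit 76) (nat_lit 18606508699) (nat_lit 34) (nat_lit 5) (nat_lit 36) (nat_lit 5) (nat_lit 35) (nat_lit 4) (nat_lit 522) (nat_lit 387) (nat_lit 291)) (XT.lf (nat_lit 0) (nat_lit 1702314798) (nat_lit 76) (nat_lit 9701558398) (nat_lit 152) (nat_lit 26191271093) (nat_lit 33) (nat_lit 5) (nat_lit 34) (nat_lit 5) (nat_lit 35) (nat_lit 4) (nat_lit 523) (nat_lit 387) (nat_lit 290))) (XT.nd (nat_lit 78) (nat_lit 0) (nat_lit 0) (XT.lf (nat_lit 0) (nat_lit 19146886929) (nat_lit 76) (nat_lit 868922993) (nat_lit 152) (nat_lit 18438999387) (nat_lit 33) (nat_lit 5) (nat_lit 34) (nat_lit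 5) (nat_lit 35) (nat_lit 4) (nat_lit 524) (nat_lit 387) (nat_lit 289)) (XT.lf (nat_lit 0) (nat_lit 28938730897) (nat_lit 152) (nat_lit 2356146455) (nat_lit 0) (nat_lit 8043808801) (nat_lit 33) (nat_lit 5) (nat_lit 35) (nat_lit 4) (nat_lit 33) (nat_lit 4) (nat_lit 525) (nat_lit 387) (nat_lit 288))))) (XT.nd (nat_lit 312) (nat_lit 228) (nat_lit 0) (XT.nd (nat_lit 156) (nat_lit 76) (nat_lit 0) (XT.nd (nat_lit 78) (nat_lit 76) (nat_lit 0) (XT.lf (nat_lit 0) (nat_lit 15344937677) (nat_lit 76) (nat_lit 22914807941) (nat_lit 76) (nat_lit 1985422139) (nat_lit 32) (nat_lit 4) (nat_lit 33) (nat_lit 5) (nat_lit 33) (nat_lit 4) (nat_lit 526) (nat_lit 387) (nat_lit 287)) (XT.lf (nat_lit 0) (nat_lit 6549511504) (nat_lit 152) (nat_lit 7667337356) (nat_lit 76) (nat_lit 26960118372) (nat_lit 31) (nat_lit 5) (nat_lit 33) (nat_lit 5) (nat_lit 32) (nat_lit 4) (nat_lit 527) (nat_lit 387) (nat_lit 286))) (XT.nd (nat_lit 78) (nat_lit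 0) (nat_lit 0) (XT.lf (nat_lit 0) (nat_lit 10213549131) (nat_lit 76) (nat_lit 5160283474) (nat_lit 152) (nat_lit 26760101607) (nat_lit 30) (nat_lit 5) (nat_lit 31) (nat_lit 5) (nat_lit 32) (nat_lit 4) (nat_lit 528) (nat_lit 387) (nat_lit 285)) (XT.lf (nat_lit 0) (nat_lit 24556243227) (nat_lit 152) (nat_lit 14418760639) (nat_lit 0) (nat_lit 4141806108) (nat_lit 30) (nat_lit 5) (nat_lit 32) (nat_lit 4) (nat_lit 30) (nat_lit 4) (nat_lit 529) (nat_lit 387) (nat_lit 284)))) (XT.nd (nat_lit 156) (nat_lit 152) (nat_lit 0) (XT.nd (nat_lit 78) (nat_lit 0) (nat_lit 0) (XT.lf (nat_lit 0) (nat_lit 3579408993) (nat_lit 76) (nat_lit 30496044776) (nat_lit 76) (nat_lit 10051878962) (nat_lit 29) (nat_lit 4) (nat_lit 30) (nat_lit 5) (nat_lit 30) (nat_lit 4) (nat_lit 530) (nat_lit 387) (nat_lit 283)) (XT.lf (nat_lit 0) (nat_lit 22366298704) (nat_lit 76) (nat_lit 21635625559) (nat_lit 76) (nat_lit 1162596934) (nat_lit 29) (nat_lit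 4) (nat_lit 30) (nat_lit 5) (nat_lit 30) (nat_lit 4) (nat_lit 531) (nat_lit 387) (nat_lit 282))) (XT.nd (nat_lit 78) (nat_lit 76) (nat_lit 0) (XT.lf (nat_lit 0) (nat_lit 7813932873) (nat_lit 152) (nat_lit 4638767038) (nat_lit 76) (nat_lit 33778524339) (nat_lit 28) (nat_lit 5) (nat_lit 30) (nat_lit 5) (nat_lit 29) (nat_lit 4) (nat_lit 532) (nat_lit 387) (nat_lit 281)) (XT.lf (nat_lit 0) (nat_lit 14288212875) (nat_lit 76) (nat_lit 2862757377) (nat_lit 152) (nat_lit 30175175945) (nat_lit 27) (nat_lit 5) (nat_lit 28) (nat_lit 5) (nat_lit 29) (nat_lit 4) (nat_lit 533) (nat_lit 387) (nat_lit 280)))))) (XT.nd (nat_lit 546) (nat_lit 304) (nat_lit 0) (XT.nd (nat_lit 234) (nat_lit 152) (nat_lit 0) (XT.nd (nat_lit 78) (nat_lit 76) (nat_lit 0) (XT.lf (nat_lit 0) (nat_lit 26860119416) (nat_lit 152) (nat_lit 14686908009) (nat_lit 0) (nat_lit 6904128833) (nat_lit 27) (nat_lit 5) (nat_lit 29) (nat_lit 4) (nat_lit 27) (nat_lit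 4) (nat_lit 534) (nat_lit 387) (nat_lit 279)) (XT.nd (nat_lit 78) (nat_lit 0) (nat_lit 0) (XT.lf (nat_lit 0) (nat_lit 4225462084) (nat_lit 76) (nat_lit 32681968141) (nat_lit 76) (nat_lit 12701080244) (nat_lit 26) (nat_lit 4) (nat_lit 27) (nat_lit 5) (nat_lit 27) (nat_lit 4) (nat_lit 535) (nat_lit 387) (nat_lit 278)) (XT.lf (nat_lit 0) (nat_lit 23963399134) (nat_lit 76) (nat_lit 23419226356) (nat_lit 76) (nat_lit 3414166309) (nat_lit 26) (nat_lit 4) (nat_lit 27) (nat_lit 5) (nat_lit 27) (nat_lit 4) (nat_lit 536) (nat_lit 387) (nat_lit 277)))) (XT.nd (nat_lit 156) (nat_lit 0) (nat_lit 0) (XT.nd (nat_lit 78) (nat_lit 76) (nat_lit 0) (XT.lf (nat_lit 0) (nat_lit 6009901934) (nat_lit 152) (nat_lit 7828427226) (nat_lit 76) (nat_lit 38181261454) (nat_lit 25) (nat_lit 5) (nat_lit 27) (nat_lit 5) (nat_lit 26) (nat_lit 4) (nat_lit 537) (nat_lit 387) (nat_lit 276)) (XT.lf (nat_lit 0) (nat_lit 11904355782) (nat_lit 76) (nat_lit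 3837352841) (nat_lit 152) (nat_lit 37533541941) (nat_lit 24) (nat_lit 5) (nat_lit 25) (nat_lit 5) (nat_lit 26) (nat_lit 4) (nat_lit 538) (nat_lit 387) (nat_lit 275))) (XT.nd (nat_lit 78) (nat_lit 0) (nat_lit 0) (XT.lf (nat_lit 0) (nat_lit 25886668651) (nat_lit 152) (nat_lit 22280377982) (nat_lit 0) (nat_lit 6397898102) (nat_lit 24) (nat_lit 5) (nat_lit 26) (nat_lit 4) (nat_lit 24) (nat_lit 4) (nat_lit 539) (nat_lit 387) (nat_lit 274)) (XT.lf (nat_lit 0) (nat_lit 36353808060) (nat_lit 152) (nat_lit 2694800739) (nat_lit 0) (nat_lit 16844186402) (nat_lit 24) (nat_lit 5) (nat_lit 26) (nat_lit 4) (nat_lit 24) (nat_lit 4) (nat_lit 540) (nat_lit 387) (nat_lit 273))))) (XT.nd (nat_lit 312) (nat_lit 76) (nat_lit 0) (XT.nd (nat_lit 156) (nat_lit 152) (nat_lit 0) (XT.nd (nat_lit 78) (nat_lit 0) (nat_lit 0) (XT.lf (nat_lit 0) (nat_lit 17786924504) (nat_lit 76) (nat_lit 29499440206) (nat_lit 76) (nat_lit 9969574754) (nat_lit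 23) (nat_lit 4) (nat_lit 24) (nat_lit 5) (nat_lit 24) (nat_lit 4) (nat_lit 541) (nat_lit 387) (nat_lit 272)) (XT.lf (nat_lit 0) (nat_lit 38900213511) (nat_lit 76) (nat_lit 19654524664) (nat_lit 76) (nat_lit 105005042) (nat_lit 23) (nat_lit 4) (nat_lit 24) (nat_lit 5) (nat_lit 24) (nat_lit 4) (nat_lit 542) (nat_lit 387) (nat_lit 271))) (XT.nd (nat_lit 78) (nat_lit 0) (nat_lit 0) (XT.lf (nat_lit 0) (nat_lit 415287636) (nat_lit 76) (nat_lit 9428992647) (nat_lit 152) (nat_lit 50258931427) (nat_lit 21) (nat_lit 5) (nat_lit 22) (nat_lit 5) (nat_lit 23) (nat_lit 4) (nat_lit 543) (nat_lit 387) (nat_lit 270)) (XT.lf (nat_lit 0) (nat_lit 20283074993) (nat_lit 152) (nat_lit 40034637604) (nat_lit 0) (nat_lit 1266446565) (nat_lit 21) (nat_lit 5) (nat_lit 23) (nat_lit 4) (nat_lit 21) (nat_lit 4) (nat_lit 544) (nat_lit 387) (nat_lit 269)))) (XT.nd (nat_lit 156) (nat_lit 0) (nat_lit 0) (XT.nd (nat_lit 78) (nat_lit 76) (nat_lit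 0) (XT.lf (nat_lit 0) (nat_lit 31109970099) (nat_lit 152) (nat_lit 19921437969) (nat_lit 0) (nat_lit 12075879196) (nat_lit 21) (nat_lit 5) (nat_lit 23) (nat_lit 4) (nat_lit 21) (nat_lit 4) (nat_lit 545) (nat_lit 387) (nat_lit 268)) (XT.lf (nat_lit 0) (nat_lit 775009949) (nat_lit 76) (nat_lit 41476228671) (nat_lit 76) (nat_lit 22425183908) (nat_lit 20) (nat_lit 4) (nat_lit 21) (nat_lit 5) (nat_lit 21) (nat_lit 4) (nat_lit 546) (nat_lit 387) (nat_lit 267))) (XT.nd (nat_lit 78) (nat_lit 0) (nat_lit 0) (XT.lf (nat_lit 0) (nat_lit 22465796107) (nat_lit 76) (nat_lit 31444418394) (nat_lit 76) (nat_lit 12376913574) (nat_lit 20) (nat_lit 4) (nat_lit 21) (nat_lit 5) (nat_lit 21) (nat_lit 4) (nat_lit 547) (nat_lit 387) (nat_lit 266)) (XT.lf (nat_lit 0) (nat_lit 44773397940) (nat_lit 76) (nat_lit 21128379042) (nat_lit 76) (nat_lit 2044893583) (nat_lit 20) (nat_lit 4) (nat_lit 21) (nat_lit 5) (nat_lit 21) (nat_lit 4) (nat_lit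 548) (nat_lit 387) (nat_lit 265))))))))
noncomputable def xc69 : XT := (XT.nd (nat_lit 54756) (nat_lit 0) (nat_lit 4788) (XT.nd (nat_lit 53586) (nat_lit 0) (nat_lit 10488) (XT.nd (nat_lit 52962) (nat_lit 0) (nat_lit 15504) (XT.nd (nat_lit 234) (nat_lit 0) (nat_lit 0) (XT.nd (nat_lit 78) (nat_lit 76) (nat_lit 0) (XT.lf (nat_lit 0) (nat_lit 8412479212) (nat_lit 152) (nat_lit 2021667841) (nat_lit 76) (nat_lit 59219878772) (nat_lit 19) (nat_lit 5) (nat_lit 21) (nat_lit 5) (nat_lit 20) (nat_lit 4) (nat_lit 549) (nat_lit 387) (nat_lit 264)) (XT.nd (nat_lit 78) (nat_lit 0) (nat_lit 0) (XT.lf (nat_lit 0) (nat_lit 19326915144) (nat_lit 152) (nat_lit 51309974682) (nat_lit 0) (nat_lit 769571526) (nat_lit 18) (nat_lit 5) (nat_lit 20) (nat_lit 4) (nat_lit 18) (nat_lit 4) (nat_lit 550) (nat_lit 387) (nat_lit 263)) (XT.lf (nat_lit 0) (nat_lit 30676369975) (nat_lit 152) (nat_lit 30427044892) (nat_lit 0) (nat_lit 12104827766) (nat_lit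 18) (nat_lit 5) (nat_lit 20) (nat_lit 4) (nat_lit 18) (nat_lit 4) (nat_lit 551) (nat_lit 387) (nat_lit 262)))) (XT.nd (nat_lit 52572) (nat_lit 0) (nat_lit 19380) (XT.nd (nat_lit 52494) (nat_lit 0) (nat_lit 21812) (XT.lf (nat_lit 0) (nat_lit 42350444786) (nat_lit 152) (nat_lit 8948991194) (nat_lit 0) (nat_lit 23765117538) (nat_lit 18) (nat_lit 5) (nat_lit 20) (nat_lit 4) (nat_lit 18) (nat_lit 4) (nat_lit 552) (nat_lit 387) (nat_lit 261)) (XT.lf (nat_lit 0) (nat_lit 1383026897) (nat_lit 1140) (nat_lit 764344845) (nat_lit 0) (nat_lit 1383026897) (nat_lit 305) (nat_lit 5) (nat_lit 320) (nat_lit 4) (nat_lit 305) (nat_lit 4) (nat_lit 424) (nat_lit 388) (nat_lit 388))) (XT.nd (nat_lit 78) (nat_lit 1292) (nat_lit 0) (XT.lf (nat_lit 0) (nat_lit 3657618508) (nat_lit 1140) (nat_lit 2606692473) (nat_lit 1140) (nat_lit 849930747) (nat_lit 290) (nat_lit 4) (nat_lit 305) (nat_lit 5) (nat_lit 305) (nat_lit 4) (nat_lit 425) (nat_lit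 388) (nat_lit 387)) (XT.lf (nat_lit 0) (nat_lit 1766640471) (nat_lit 1216) (nat_lit 809219679) (nat_lit 1292) (nat_lit 4594773386) (nat_lit 273) (nat_lit 5) (nat_lit 289) (nat_lit 5) (nat_lit 290) (nat_lit 4) (nat_lit 426) (nat_lit 388) (nat_lit 386))))) (XT.nd (nat_lit 312) (nat_lit 1748) (nat_lit 0) (XT.nd (nat_lit 156) (nat_lit 1292) (nat_lit 0) (XT.nd (nat_lit 78) (nat_lit 836) (nat_lit 0) (XT.lf (nat_lit 0) (nat_lit 6032292878) (nat_lit 1292) (nat_lit 134756348) (nat_lit 0) (nat_lit 1063096712) (nat_lit 273) (nat_lit 5) (nat_lit 290) (nat_lit 4) (nat_lit 273) (nat_lit 4) (nat_lit 427) (nat_lit 388) (nat_lit 385)) (XT.lf (nat_lit 0) (nat_lit 2217082792) (nat_lit 836) (nat_lit 2029378137) (nat_lit 76) (nat_lit 3045517093) (nat_lit 262) (nat_lit 5) (nat_lit 273) (nat_lit 5) (nat_lit 263) (nat_lit 4) (nat_lit 428) (nat_lit 388) (nat_lit 384))) (XT.nd (nat_lit 78) (nat_lit 684) (nat_lit 0) (XT.lf (nat_lit 0) (nat_lit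 3420255255) (nat_lit 608) (nat_lit 2227877531) (nat_lit 684) (nat_lit 1709071521) (nat_lit 254) (nat_lit 5) (nat_lit 262) (nat_lit 5) (nat_lit 263) (nat_lit 4) (nat_lit 429) (nat_lit 388) (nat_lit 383)) (XT.lf (nat_lit 0) (nat_lit 1560006270) (nat_lit 608) (nat_lit 103463461) (nat_lit 684) (nat_lit 5762235211) (nat_lit 245) (nat_lit 5) (nat_lit 253) (nat_lit 5) (nat_lit 254) (nat_lit 5) (nat_lit 430) (nat_lit 388) (nat_lit 382)))) (XT.nd (nat_lit 156) (nat_lit 1140) (nat_lit 0) (XT.nd (nat_lit 78) (nat_lit 608) (nat_lit 0) (XT.lf (nat_lit 0) (nat_lit 5069073943) (nat_lit 684) (nat_lit 336112552) (nat_lit 76) (nat_lit 2091604307) (nat_lit 245) (nat_lit 5) (nat_lit 254) (nat_lit 5) (nat_lit 246) (nat_lit 4) (nat_lit 431) (nat_lit 388) (nat_lit 381)) (XT.lf (nat_lit 0) (nat_lit 948114502) (nat_lit 608) (nat_lit 2220732923) (nat_lit 76) (nat_lit 4402067269) (nat_lit 237) (nat_lit 5) (nat_lit 245) (nat_lit 5) (nat_lit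 238) (nat_lit 5) (nat_lit 432) (nat_lit 388) (nat_lit 380))) (XT.nd (nat_lit 78) (nat_lit 608) (nat_lit 0) (XT.lf (nat_lit 0) (nat_lit 3507181208) (nat_lit 532) (nat_lit 815936335) (nat_lit 608) (nat_lit 3325045767) (nat_lit 230) (nat_lit 5) (nat_lit 237) (nat_lit 5) (nat_lit 238) (nat_lit 5) (nat_lit 433) (nat_lit 388) (nat_lit 379)) (XT.lf (nat_lit 0) (nat_lit 34760655) (nat_lit 608) (nat_lit 6093006084) (nat_lit 76) (nat_lit 1601028008) (nat_lit 222) (nat_lit 5) (nat_lit 230) (nat_lit 5) (nat_lit 223) (nat_lit 5) (nat_lit 434) (nat_lit 388) (nat_lit 378)))))) (XT.nd (nat_lit 546) (nat_lit 2508) (nat_lit 0) (XT.nd (nat_lit 234) (nat_lit 1444) (nat_lit 0) (XT.nd (nat_lit 78) (nat_lit 1064) (nat_lit 0) (XT.lf (nat_lit 0) (nat_lit 3390598963) (nat_lit 608) (nat_lit 287509896) (nat_lit 76) (nat_lit 4133907511) (nat_lit 222) (nat_lit 5) (nat_lit 230) (nat_lit 5) (nat_lit 223) (nat_lit 5) (nat_lit 435) (nat_lit 388)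 (nat_lit 377)) (XT.nd (nat_lit 78) (nat_lit 532) (nat_lit 0) (XT.lf (nat_lit 0) (nat_lit 5700223826) (nat_lit 532) (nat_lit 1116012171) (nat_lit 608) (nat_lit 1082445243) (nat_lit 215) (nat_lit 5) (nat_lit 222) (nat_lit 5) (nat_lit 223) (nat_lit 5) (nat_lit 436) (nat_lit 388) (nat_lit 376)) (XT.lf (nat_lit 0) (nat_lit 2280561085) (nat_lit 532) (nat_lit 4169823069) (nat_lit 76) (nat_lit 1537805843) (nat_lit 208) (nat_lit 5) (nat_lit 215) (nat_lit 5) (nat_lit 209) (nat_lit 5) (nat_lit 437) (nat_lit 388) (nat_lit 375)))) (XT.nd (nat_lit 156) (nat_lit 912) (nat_lit 0) (XT.nd (nat_lit 78) (nat_lit 76) (nat_lit 0) (XT.lf (nat_lit 0) (nat_lit 1890774105) (nat_lit 456) (nat_lit 3799864297) (nat_lit 532) (nat_lit 2390404573) (nat_lit 202) (nat_lit 5) (nat_lit 208) (nat_lit 5) (nat_lit 209) (nat_lit 5) (nat_lit 438) (nat_lit 388) (nat_lit 374)) (XT.lf (nat_lit 0) (nat_lit 965729680) (nat_lit 532) (nat_lit 72854001) (nat_lit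 76) (nat_lit 7139036782) (nat_lit 201) (nat_lit 5) (nat_lit 208) (nat_lit 5) (nat_lit 202) (nat_lit 5) (nat_lit 439) (nat_lit 388) (nat_lit 373))) (XT.nd (nat_lit 78) (nat_lit 456) (nat_lit 0) (XT.lf (nat_lit 0) (nat_lit 4371611345) (nat_lit 532) (nat_lit 2071884697) (nat_lit 76) (nat_lit 1832992975) (nat_lit 195) (nat_lit 5) (nat_lit 202) (nat_lit 5) (nat_lit 196) (nat_lit 5) (nat_lit 440) (nat_lit 388) (nat_lit 372)) (XT.lf (nat_lit 0) (nat_lit 4262555342) (nat_lit 456) (nat_lit 3589588211) (nat_lit 532) (nat_lit 527022362) (nat_lit 189) (nat_lit 5) (nat_lit 195) (nat_lit 5) (nat_lit 196) (nat_lit 5) (nat_lit 441) (nat_lit 388) (nat_lit 371))))) (XT.nd (nat_lit 312) (nat_lit 1216) (nat_lit 0) (XT.nd (nat_lit 156) (nat_lit 456) (nat_lit 0) (XT.nd (nat_lit 78) (nat_lit 380) (nat_lit 0) (XT.lf (nat_lit 0) (nat_lit 2256166143) (nat_lit 380) (nat_lit 602222897) (nat_lit 456) (nat_lit 5626783464) (nat_lit 183) (nat_lit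 5) (nat_lit 188) (nat_lit 5) (nat_lit 189) (nat_lit 5) (nat_lit 442) (nat_lit 388) (nat_lit 370)) (XT.lf (nat_lit 0) (nat_lit 179940304) (nat_lit 380) (nat_lit 6144399308) (nat_lit 456) (nat_lit 2270191164) (nat_lit 178) (nat_lit 5) (nat_lit 183) (nat_lit 5) (nat_lit 184) (nat_lit 5) (nat_lit 443) (nat_lit 388) (nat_lit 369))) (XT.nd (nat_lit 78) (nat_lit 380) (nat_lit 0) (XT.lf (nat_lit 0) (nat_lit 1155981685) (nat_lit 456) (nat_lit 1920508835) (nat_lit 76) (nat_lit 5630589764) (nat_lit 177) (nat_lit 5) (nat_lit 183) (nat_lit 5) (nat_lit 178) (nat_lit 5) (nat_lit 444) (nat_lit 388) (nat_lit 368)) (XT.lf (nat_lit 0) (nat_lit 4610855029) (nat_lit 456) (nat_lit 4089106264) (nat_lit 76) (nat_lit 123238180) (nat_lit 172) (nat_lit 5) (nat_lit 178) (nat_lit 5) (nat_lit 173) (nat_lit 5) (nat_lit 445) (nat_lit 388) (nat_lit 367)))) (XT.nd (nat_lit 156) (nat_lit 456) (nat_lit 0) (XT.nd (nat_lit 78) (nat_lit 380) (nat_lit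 0) (XT.lf (nat_lit 0) (nat_lit 2601659086) (nat_lit 380) (nat_lit 5568527043) (nat_lit 456) (nat_lit 772605186) (nat_lit 167) (nat_lit 5) (nat_lit 172) (nat_lit 5) (nat_lit 173) (nat_lit 5) (nat_lit 446) (nat_lit 388) (nat_lit 366)) (XT.lf (nat_lit 0) (nat_lit 388377347) (nat_lit 304) (nat_lit 2299517947) (nat_lit 380) (nat_lit 6378140528) (nat_lit 162) (nat_lit 5) (nat_lit 166) (nat_lit 5) (nat_lit 167) (nat_lit 5) (nat_lit 447) (nat_lit 388) (nat_lit 365))) (XT.nd (nat_lit 78) (nat_lit 456) (nat_lit 0) (XT.lf (nat_lit 0) (nat_lit 6238665823) (nat_lit 380) (nat_lit 1865116263) (nat_lit 76) (nat_lit 1088918867) (nat_lit 162) (nat_lit 5) (nat_lit 167) (nat_lit 5) (nat_lit 163) (nat_lit 5) (nat_lit 448) (nat_lit 388) (nat_lit 364)) (XT.lf (nat_lit 0) (nat_lit 562845981) (nat_lit 456) (nat_lit 4201787732) (nat_lit 76) (nat_lit 4558341831) (nat_lit 156) (nat_lit 5) (nat_lit 162) (nat_lit 5) (nat_lit 157) (nat_lit 5)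 (nat_lit 449) (nat_lit 388) (nat_lit 363))))))) (XT.nd (nat_lit 1170) (nat_lit 2356) (nat_lit 0) (XT.nd (nat_lit 546) (nat_lit 1748) (nat_lit 0) (XT.nd (nat_lit 234) (nat_lit 912) (nat_lit 0) (XT.nd (nat_lit 78) (nat_lit 380) (nat_lit 0) (XT.lf (nat_lit 0) (nat_lit 2821730547) (nat_lit 304) (nat_lit 1279841841) (nat_lit 380) (nat_lit 5355448429) (nat_lit 152) (nat_lit 5) (nat_lit 156) (nat_lit 5) (nat_lit 157) (nat_lit 5) (nat_lit 450) (nat_lit 388) (nat_lit 362)) (XT.nd (nat_lit 78) (nat_lit 76) (nat_lit 0) (XT.lf (nat_lit 0) (nat_lit 430662258) (nat_lit 304) (nat_lit 7315320286) (nat_lit 380) (nat_lit 1849130161) (nat_lit 148) (nat_lit 5) (nat_lit 152) (nat_lit 5) (nat_lit 153) (nat_lit 5) (nat_lit 451) (nat_lit 388) (nat_lit 361)) (XT.lf (nat_lit 0) (nat_lit 1739013028) (nat_lit 380) (nat_lit 2024772679) (nat_lit 76) (nat_lit 5972732929) (nat_lit 147) (nat_lit 5) (nat_lit 152) (nat_lit 5) (nat_lit 148) (nat_lit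 5) (nat_lit 452) (nat_lit 388) (nat_lit 360)))) (XT.nd (nat_lit 156) (nat_lit 304) (nat_lit 0) (XT.nd (nat_lit 78) (nat_lit 304) (nat_lit 0) (XT.lf (nat_lit 0) (nat_lit 5313730045) (nat_lit 304) (nat_lit 67689613) (nat_lit 380) (nat_lit 4500694283) (nat_lit 143) (nat_lit 5) (nat_lit 147) (nat_lit 5) (nat_lit 148) (nat_lit 5) (nat_lit 453) (nat_lit 388) (nat_lit 359)) (XT.lf (nat_lit 0) (nat_lit 2799474808) (nat_lit 304) (nat_lit 6350512329) (nat_lit 380) (nat_lit 881593007) (nat_lit 139) (nat_lit 5) (nat_lit 143) (nat_lit 5) (nat_lit 144) (nat_lit 5) (nat_lit 454) (nat_lit 388) (nat_lit 358))) (XT.nd (nat_lit 78) (nat_lit 0) (nat_lit 0) (XT.lf (nat_lit 0) (nat_lit 170950536) (nat_lit 228) (nat_lit 2602196385) (nat_lit 304) (nat_lit 7412093719) (nat_lit 135) (nat_lit 5) (nat_lit 138) (nat_lit 5) (nat_lit 139) (nat_lit 5) (nat_lit 455) (nat_lit 388) (nat_lit 357)) (XT.lf (nat_lit 0) (nat_lit 6539983880) (nat_lit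 304) (nat_lit 2520921725) (nat_lit 76) (nat_lit 1281747143) (nat_lit 135) (nat_lit 5) (nat_lit 139) (nat_lit 5) (nat_lit 136) (nat_lit 5) (nat_lit 456) (nat_lit 388) (nat_lit 356))))) (XT.nd (nat_lit 312) (nat_lit 760) (nat_lit 0) (XT.nd (nat_lit 156) (nat_lit 380) (nat_lit 0) (XT.nd (nat_lit 78) (nat_lit 304) (nat_lit 0) (XT.lf (nat_lit 0) (nat_lit 5173008994) (nat_lit 304) (nat_lit 5258543020) (nat_lit 380) (nat_lit 72892039) (nat_lit 131) (nat_lit 5) (nat_lit 135) (nat_lit 5) (nat_lit 136) (nat_lit 5) (nat_lit 457) (nat_lit 388) (nat_lit 355)) (XT.lf (nat_lit 0) (nat_lit 2389542063) (nat_lit 228) (nat_lit 1290887764) (nat_lit 304) (nat_lit 6990024733) (nat_lit 127) (nat_lit 5) (nat_lit 130) (nat_lit 5) (nat_lit 131) (nat_lit 5) (nat_lit 458) (nat_lit 388) (nat_lit 354))) (XT.nd (nat_lit 78) (nat_lit 380) (nat_lit 0) (XT.lf (nat_lit 0) (nat_lit 7563199694) (nat_lit 304) (nat_lit 516797827) (nat_lit 76) (nat_lit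 2760884693) (nat_lit 127) (nat_lit 5) (nat_lit 131) (nat_lit 5) (nat_lit 128) (nat_lit 5) (nat_lit 459) (nat_lit 388) (nat_lit 353)) (XT.lf (nat_lit 0) (nat_lit 559542812) (nat_lit 380) (nat_lit 3504414120) (nat_lit 76) (nat_lit 6951590700) (nat_lit 122) (nat_lit 5) (nat_lit 127) (nat_lit 5) (nat_lit 123) (nat_lit 5) (nat_lit 460) (nat_lit 388) (nat_lit 352)))) (XT.nd (nat_lit 156) (nat_lit 304) (nat_lit 0) (XT.nd (nat_lit 78) (nat_lit 228) (nat_lit 0) (XT.lf (nat_lit 0) (nat_lit 4435353814) (nat_lit 304) (nat_lit 6642050489) (nat_lit 76) (nat_lit 117401945) (nat_lit 119) (nat_lit 5) (nat_lit 123) (nat_lit 5) (nat_lit 120) (nat_lit 5) (nat_lit 461) (nat_lit 388) (nat_lit 351)) (XT.lf (nat_lit 0) (nat_lit 1434382678) (nat_lit 228) (nat_lit 7022461203) (nat_lit 304) (nat_lit 2921723605) (nat_lit 116) (nat_lit 5) (nat_lit 119) (nat_lit 5) (nat_lit 120) (nat_lit 5) (nat_lit 462) (nat_lit 388) (nat_lit 350))) (XT.nd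 (nat_lit 78) (nat_lit 228) (nat_lit 0) (XT.lf (nat_lit 0) (nat_lit 1018620933) (nat_lit 304) (nat_lit 1785498960) (nat_lit 76) (nat_lit 8763202762) (nat_lit 115) (nat_lit 5) (nat_lit 119) (nat_lit 5) (nat_lit 116) (nat_lit 5) (nat_lit 463) (nat_lit 388) (nat_lit 349)) (XT.lf (nat_lit 0) (nat_lit 5039105553) (nat_lit 304) (nat_lit 5153331096) (nat_lit 76) (nat_lit 1567822800) (nat_lit 112) (nat_lit 5) (nat_lit 116) (nat_lit 5) (nat_lit 113) (nat_lit 5) (nat_lit 464) (nat_lit 388) (nat_lit 348)))))) (XT.nd (nat_lit 624) (nat_lit 988) (nat_lit 0) (XT.nd (nat_lit 312) (nat_lit 684) (nat_lit 0) (XT.nd (nat_lit 156) (nat_lit 380) (nat_lit 0) (XT.nd (nat_lit 78) (nat_lit 76) (nat_lit 0) (XT.lf (nat_lit 0) (nat_lit 3269202445) (nat_lit 228) (nat_lit 5930456677) (nat_lit 304) (nat_lit 2758747816) (nat_lit 109) (nat_lit 5) (nat_lit 112) (nat_lit 5) (nat_lit 113) (nat_lit 5) (nat_lit 465) (nat_lit 388) (nat_lit 347)) (XT.lf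 (nat_lit 0) (nat_lit 1291536176) (nat_lit 304) (nat_lit 220265561) (nat_lit 76) (nat_lit 10650477203) (nat_lit 108) (nat_lit 5) (nat_lit 112) (nat_lit 5) (nat_lit 109) (nat_lit 5) (nat_lit 466) (nat_lit 388) (nat_lit 346))) (XT.nd (nat_lit 78) (nat_lit 228) (nat_lit 0) (XT.lf (nat_lit 0) (nat_lit 5463941190) (nat_lit 228) (nat_lit 3851714548) (nat_lit 76) (nat_lit 3054115811) (nat_lit 106) (nat_lit 5) (nat_lit 109) (nat_lit 5) (nat_lit 107) (nat_lit 5) (nat_lit 467) (nat_lit 388) (nat_lit 345)) (XT.lf (nat_lit 0) (nat_lit 4927033705) (nat_lit 228) (nat_lit 4843389409) (nat_lit 304) (nat_lit 2812804209) (nat_lit 103) (nat_lit 5) (nat_lit 106) (nat_lit 5) (nat_lit 107) (nat_lit 5) (nat_lit 468) (nat_lit 388) (nat_lit 344)))) (XT.nd (nat_lit 156) (nat_lit 456) (nat_lit 0) (XT.nd (nat_lit 78) (nat_lit 0) (nat_lit 0) (XT.lf (nat_lit 0) (nat_lit 1161032120) (nat_lit 152) (nat_lit 209551653) (nat_lit 228) (nat_lit 11432255148)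 (nat_lit 100) (nat_lit 5) (nat_lit 102) (nat_lit 5) (nat_lit 103) (nat_lit 5) (nat_lit 469) (nat_lit 388) (nat_lit 343)) (XT.lf (nat_lit 0) (nat_lit 5689745102) (nat_lit 228) (nat_lit 2793773206) (nat_lit 76) (nat_lit 4542685944) (nat_lit 100) (nat_lit 5) (nat_lit 103) (nat_lit 5) (nat_lit 101) (nat_lit 5) (nat_lit 470) (nat_lit 388) (nat_lit 342))) (XT.nd (nat_lit 78) (nat_lit 228) (nat_lit 0) (XT.lf (nat_lit 0) (nat_lit 6349991671) (nat_lit 228) (nat_lit 3798073332) (nat_lit 304) (nat_lit 3107922943) (nat_lit 97) (nat_lit 5) (nat_lit 100) (nat_lit 5) (nat_lit 101) (nat_lit 5) (nat_lit 471) (nat_lit 388) (nat_lit 341)) (XT.lf (nat_lit 0) (nat_lit 1230234512) (nat_lit 228) (nat_lit 11228624318) (nat_lit 76) (nat_lit 1033237975) (nat_lit 94) (nat_lit 5) (nat_lit 97) (nat_lit 5) (nat_lit 95) (nat_lit 5) (nat_lit 472) (nat_lit 388) (nat_lit 340))))) (XT.nd (nat_lit 312) (nat_lit 532) (nat_lit 0) (XT.nd (nat_lit 156)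 (nat_lit 228) (nat_lit 0) (XT.nd (nat_lit 78) (nat_lit 228) (nat_lit 0) (XT.lf (nat_lit 0) (nat_lit 5691046577) (nat_lit 228) (nat_lit 2044707014) (nat_lit 76) (nat_lit 5996967409) (nat_lit 94) (nat_lit 5) (nat_lit 97) (nat_lit 5) (nat_lit 95) (nat_lit 5) (nat_lit 473) (nat_lit 388) (nat_lit 339)) (XT.lf (nat_lit 0) (nat_lit 7471162740) (nat_lit 228) (nat_lit 2834826861) (nat_lit 304) (nat_lit 3673969488) (nat_lit 91) (nat_lit 5) (nat_lit 94) (nat_lit 5) (nat_lit 95) (nat_lit 5) (nat_lit 474) (nat_lit 388) (nat_lit 338))) (XT.nd (nat_lit 78) (nat_lit 0) (nat_lit 0) (XT.lf (nat_lit 0) (nat_lit 828880560) (nat_lit 228) (nat_lit 11213746458) (nat_lit 76) (nat_lit 2191147329) (nat_lit 88) (nat_lit 5) (nat_lit 91) (nat_lit 5) (nat_lit 89) (nat_lit 5) (nat_lit 475) (nat_lit 388) (nat_lit 337)) (XT.lf (nat_lit 0) (nat_lit 5436328566) (nat_lit 228) (nat_lit 1679974443) (nat_lit 76) (nat_lit 7376513103) (nat_lit 88) (nat_lit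 5) (nat_lit 91) (nat_lit 5) (nat_lit 89) (nat_lit 5) (nat_lit 476) (nat_lit 388) (nat_lit 336)))) (XT.nd (nat_lit 156) (nat_lit 152) (nat_lit 0) (XT.nd (nat_lit 78) (nat_lit 228) (nat_lit 0) (XT.lf (nat_lit 0) (nat_lit 8212900527) (nat_lit 152) (nat_lit 1998446110) (nat_lit 228) (nat_lit 4547405973) (nat_lit 86) (nat_lit 5) (nat_lit 88) (nat_lit 5) (nat_lit 89) (nat_lit 5) (nat_lit 477) (nat_lit 388) (nat_lit 335)) (XT.lf (nat_lit 0) (nat_lit 126826820) (nat_lit 228) (nat_lit 11681798587) (nat_lit 76) (nat_lit 3223064378) (nat_lit 83) (nat_lit 5) (nat_lit 86) (nat_lit 5) (nat_lit 84) (nat_lit 5) (nat_lit 478) (nat_lit 388) (nat_lit 334))) (XT.nd (nat_lit 78) (nat_lit 152) (nat_lit 0) (XT.lf (nat_lit 0) (nat_lit 4887203679) (nat_lit 228) (nat_lit 1787165973) (nat_lit 76) (nat_lit 8635978795) (nat_lit 83) (nat_lit 5) (nat_lit 86) (nat_lit 5) (nat_lit 84) (nat_lit 5) (nat_lit 479) (nat_lit 388) (nat_lit 333)) (XT.lf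 (nat_lit 0) (nat_lit 8484866843) (nat_lit 152) (nat_lit 1339294609) (nat_lit 228) (nat_lit 5772195776) (nat_lit 81) (nat_lit 5) (nat_lit 83) (nat_lit 5) (nat_lit 84) (nat_lit 5) (nat_lit 480) (nat_lit 388) (nat_lit 332))))))))
noncomputable def xc70 : XT := (XT.nd (nat_lit 2340) (nat_lit 1444) (nat_lit 0) (XT.nd (nat_lit 1170) (nat_lit 1292) (nat_lit 0) (XT.nd (nat_lit 546) (nat_lit 684) (nat_lit 0) (XT.nd (nat_lit 234) (nat_lit 532) (nat_lit 0) (XT.nd (nat_lit 78) (nat_lit 228) (nat_lit 0) (XT.lf (nat_lit 0) (nat_lit 3147339830) (nat_lit 152) (nat_lit 11802751634) (nat_lit 228) (nat_lit 939632248) (nat_lit 79) (nat_lit 5) (nat_lit 81) (nat_lit 5) (nat_lit 82) (nat_lit 4) (nat_lit 481) (nat_lit 388) (nat_lit 331)) (XT.nd (nat_lit 78) (nat_lit 152) (nat_lit 0) (XT.lf (nat_lit 0) (nat_lit 3997438496) (nat_lit 228) (nat_lit 2468161435) (nat_lit 76) (nat_lit 9723980236) (nat_lit 78) (nat_lit 5) (nat_lit 81) (nat_lit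 5) (nat_lit 79) (nat_lit 5) (nat_lit 482) (nat_lit 388) (nat_lit 330)) (XT.lf (nat_lit 0) (nat_lit 8181774318) (nat_lit 152) (nat_lit 914532873) (nat_lit 228) (nat_lit 7400871943) (nat_lit 76) (nat_lit 5) (nat_lit 78) (nat_lit 5) (nat_lit 79) (nat_lit 5) (nat_lit 483) (nat_lit 388) (nat_lit 329)))) (XT.nd (nat_lit 156) (nat_lit 304) (nat_lit 0) (XT.nd (nat_lit 78) (nat_lit 76) (nat_lit 0) (XT.lf (nat_lit 0) (nat_lit 2304016475) (nat_lit 152) (nat_lit 12091738883) (nat_lit 228) (nat_lit 2416825283) (nat_lit 74) (nat_lit 5) (nat_lit 76) (nat_lit 5) (nat_lit 77) (nat_lit 4) (nat_lit 484) (nat_lit 388) (nat_lit 328)) (XT.lf (nat_lit 0) (nat_lit 2711804027) (nat_lit 228) (nat_lit 3841618801) (nat_lit 76) (nat_lit 10581798476) (nat_lit 73) (nat_lit 5) (nat_lit 76) (nat_lit 5) (nat_lit 74) (nat_lit 5) (nat_lit 485) (nat_lit 388) (nat_lit 327))) (XT.nd (nat_lit 78) (nat_lit 152) (nat_lit 0) (XT.lf (nat_lit 0) (nat_lit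 7180780717) (nat_lit 152) (nat_lit 789514425) (nat_lit 228) (nat_lit 9495793536) (nat_lit 71) (nat_lit 5) (nat_lit 73) (nat_lit 5) (nat_lit 74) (nat_lit 5) (nat_lit 486) (nat_lit 388) (nat_lit 326)) (XT.lf (nat_lit 0) (nat_lit 689545289) (nat_lit 152) (nat_lit 12748012307) (nat_lit 228) (nat_lit 4367796621) (nat_lit 69) (nat_lit 5) (nat_lit 71) (nat_lit 5) (nat_lit 72) (nat_lit 4) (nat_lit 487) (nat_lit 388) (nat_lit 325))))) (XT.nd (nat_lit 312) (nat_lit 380) (nat_lit 0) (XT.nd (nat_lit 156) (nat_lit 76) (nat_lit 0) (XT.nd (nat_lit 78) (nat_lit 152) (nat_lit 0) (XT.lf (nat_lit 0) (nat_lit 964726353) (nat_lit 228) (nat_lit 6045849423) (nat_lit 76) (nat_lit 11141905174) (nat_lit 68) (nat_lit 5) (nat_lit 71) (nat_lit 5) (nat_lit 69) (nat_lit 5) (nat_lit 488) (nat_lit 388) (nat_lit 324)) (XT.lf (nat_lit 0) (nat_lit 5338477253) (nat_lit 152) (nat_lit 1039378628) (nat_lit 228) (nat_lit 12130618079) (nat_lit 66) (nat_lit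 5) (nat_lit 68) (nat_lit 5) (nat_lit 69) (nat_lit 5) (nat_lit 489) (nat_lit 388) (nat_lit 323))) (XT.nd (nat_lit 78) (nat_lit 76) (nat_lit 0) (XT.lf (nat_lit 0) (nat_lit 12021426726) (nat_lit 228) (nat_lit 1813602538) (nat_lit 76) (nat_lit 5038078421) (nat_lit 66) (nat_lit 5) (nat_lit 69) (nat_lit 5) (nat_lit 67) (nat_lit 4) (nat_lit 490) (nat_lit 388) (nat_lit 322)) (XT.lf (nat_lit 0) (nat_lit 9991640283) (nat_lit 76) (nat_lit 7907507956) (nat_lit 152) (nat_lit 1347589155) (nat_lit 65) (nat_lit 5) (nat_lit 66) (nat_lit 5) (nat_lit 67) (nat_lit 4) (nat_lit 491) (nat_lit 388) (nat_lit 321)))) (XT.nd (nat_lit 156) (nat_lit 152) (nat_lit 0) (XT.nd (nat_lit 78) (nat_lit 0) (nat_lit 0) (XT.lf (nat_lit 0) (nat_lit 2487404217) (nat_lit 152) (nat_lit 1750875127) (nat_lit 228) (nat_lit 15392023003) (nat_lit 62) (nat_lit 5) (nat_lit 64) (nat_lit 5) (nat_lit 65) (nat_lit 5) (nat_lit 492) (nat_lit 388) (nat_lit 320)) (XT.lf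 (nat_lit 0) (nat_lit 10061869223) (nat_lit 228) (nat_lit 5385808881) (nat_lit 76) (nat_lit 4574381038) (nat_lit 62) (nat_lit 5) (nat_lit 65) (nat_lit 5) (nat_lit 63) (nat_lit 4) (nat_lit 493) (nat_lit 388) (nat_lit 319))) (XT.nd (nat_lit 78) (nat_lit 76) (nat_lit 0) (XT.lf (nat_lit 0) (nat_lit 6764140377) (nat_lit 76) (nat_lit 9338305776) (nat_lit 152) (nat_lit 4321856132) (nat_lit 61) (nat_lit 5) (nat_lit 62) (nat_lit 5) (nat_lit 63) (nat_lit 4) (nat_lit 494) (nat_lit 388) (nat_lit 318)) (XT.lf (nat_lit 0) (nat_lit 1471549095) (nat_lit 152) (nat_lit 1537386235) (nat_lit 76) (nat_lit 17828803537) (nat_lit 60) (nat_lit 5) (nat_lit 62) (nat_lit 5) (nat_lit 61) (nat_lit 5) (nat_lit 495) (nat_lit 388) (nat_lit 317)))))) (XT.nd (nat_lit 546) (nat_lit 760) (nat_lit 0) (XT.nd (nat_lit 234) (nat_lit 304) (nat_lit 0) (XT.nd (nat_lit 78) (nat_lit 76) (nat_lit 0) (XT.lf (nat_lit 0) (nat_lit 7454154176) (nat_lit 228) (nat_lit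 10245679872) (nat_lit 76) (nat_lit 3559394751) (nat_lit 58) (nat_lit 5) (nat_lit 61) (nat_lit 5) (nat_lit 59) (nat_lit 4) (nat_lit 496) (nat_lit 388) (nat_lit 316)) (XT.nd (nat_lit 78) (nat_lit 0) (nat_lit 0) (XT.lf (nat_lit 0) (nat_lit 2220484159) (nat_lit 76) (nat_lit 11423842156) (nat_lit 152) (nat_lit 8048196243) (nat_lit 57) (nat_lit 5) (nat_lit 58) (nat_lit 5) (nat_lit 59) (nat_lit 4) (nat_lit 497) (nat_lit 388) (nat_lit 315)) (XT.lf (nat_lit 0) (nat_lit 15198840879) (nat_lit 76) (nat_lit 4886536100) (nat_lit 152) (nat_lit 2051484698) (nat_lit 57) (nat_lit 5) (nat_lit 58) (nat_lit 5) (nat_lit 59) (nat_lit 4) (nat_lit 498) (nat_lit 388) (nat_lit 314)))) (XT.nd (nat_lit 156) (nat_lit 76) (nat_lit 0) (XT.nd (nat_lit 78) (nat_lit 0) (nat_lit 0) (XT.lf (nat_lit 0) (nat_lit 4082957600) (nat_lit 228) (nat_lit 16632592159) (nat_lit 76) (nat_lit 1876643493) (nat_lit 54) (nat_lit 5) (nat_lit 57) (nat_lit 5) (nat_lit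 55) (nat_lit 4) (nat_lit 499) (nat_lit 388) (nat_lit 313)) (XT.lf (nat_lit 0) (nat_lit 10441902192) (nat_lit 228) (nat_lit 3812681532) (nat_lit 76) (nat_lit 8803542242) (nat_lit 54) (nat_lit 5) (nat_lit 57) (nat_lit 5) (nat_lit 55) (nat_lit 4) (nat_lit 500) (nat_lit 388) (nat_lit 312))) (XT.nd (nat_lit 78) (nat_lit 0) (nat_lit 0) (XT.lf (nat_lit 0) (nat_lit 9508848298) (nat_lit 76) (nat_lit 7537828211) (nat_lit 152) (nat_lit 6489709862) (nat_lit 53) (nat_lit 5) (nat_lit 54) (nat_lit 5) (nat_lit 55) (nat_lit 4) (nat_lit 501) (nat_lit 388) (nat_lit 311)) (XT.lf (nat_lit 0) (nat_lit 23240322126) (nat_lit 76) (nat_lit 611835313) (nat_lit 152) (nat_lit 176761754) (nat_lit 53) (nat_lit 5) (nat_lit 54) (nat_lit 5) (nat_lit 55) (nat_lit 4) (nat_lit 502) (nat_lit 388) (nat_lit 310))))) (XT.nd (nat_lit 312) (nat_lit 228) (nat_lit 0) (XT.nd (nat_lit 156) (nat_lit 228) (nat_lit 0) (XT.nd (nat_lit 78) (nat_lit 76) (nat_lit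 0) (XT.lf (nat_lit 0) (nat_lit 6355838018) (nat_lit 228) (nat_lit 11622671595) (nat_lit 76) (nat_lit 6551284708) (nat_lit 50) (nat_lit 5) (nat_lit 53) (nat_lit 5) (nat_lit 51) (nat_lit 4) (nat_lit 503) (nat_lit 388) (nat_lit 309)) (XT.lf (nat_lit 0) (nat_lit 1947866425) (nat_lit 76) (nat_lit 11130676949) (nat_lit 152) (nat_lit 11967170796) (nat_lit 49) (nat_lit 5) (nat_lit 50) (nat_lit 5) (nat_lit 51) (nat_lit 4) (nat_lit 504) (nat_lit 388) (nat_lit 308))) (XT.nd (nat_lit 78) (nat_lit 228) (nat_lit 0) (XT.lf (nat_lit 0) (nat_lit 16097748175) (nat_lit 76) (nat_lit 3987793168) (nat_lit 152) (nat_lit 5489093265) (nat_lit 49) (nat_lit 5) (nat_lit 50) (nat_lit 5) (nat_lit 51) (nat_lit 4) (nat_lit 505) (nat_lit 388) (nat_lit 307)) (XT.lf (nat_lit 0) (nat_lit 1202686034) (nat_lit 228) (nat_lit 21585790164) (nat_lit 76) (nat_lit 3329332965) (nat_lit 46) (nat_lit 5) (nat_lit 49) (nat_lit 5) (nat_lit 47) (nat_lit 4) (nat_lit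 506) (nat_lit 388) (nat_lit 306)))) (XT.nd (nat_lit 156) (nat_lit 152) (nat_lit 0) (XT.nd (nat_lit 78) (nat_lit 76) (nat_lit 0) (XT.lf (nat_lit 0) (nat_lit 8087027404) (nat_lit 228) (nat_lit 7678594287) (nat_lit 76) (nat_lit 10906964043) (nat_lit 46) (nat_lit 5) (nat_lit 49) (nat_lit 5) (nat_lit 47) (nat_lit 4) (nat_lit 507) (nat_lit 388) (nat_lit 305)) (XT.lf (nat_lit 0) (nat_lit 6713851526) (nat_lit 76) (nat_lit 8495580724) (nat_lit 152) (nat_lit 12033628545) (nat_lit 45) (nat_lit 5) (nat_lit 46) (nat_lit 5) (nat_lit 47) (nat_lit 4) (nat_lit 508) (nat_lit 388) (nat_lit 304))) (XT.nd (nat_lit 78) (nat_lit 152) (nat_lit 0) (XT.lf (nat_lit 0) (nat_lit 21633114432) (nat_lit 76) (nat_lit 957290996) (nat_lit 152) (nat_lit 5238898949) (nat_lit 45) (nat_lit 5) (nat_lit 46) (nat_lit 5) (nat_lit 47) (nat_lit 4) (nat_lit 509) (nat_lit 388) (nat_lit 303)) (XT.lf (nat_lit 0) (nat_lit 1842696555) (nat_lit 152) (nat_lit 19839572472)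 (nat_lit 76) (nat_lit 6746839029) (nat_lit 43) (nat_lit 5) (nat_lit 45) (nat_lit 5) (nat_lit 44) (nat_lit 4) (nat_lit 510) (nat_lit 388) (nat_lit 302))))))) (XT.nd (nat_lit 1170) (nat_lit 684) (nat_lit 0) (XT.nd (nat_lit 546) (nat_lit 456) (nat_lit 0) (XT.nd (nat_lit 234) (nat_lit 228) (nat_lit 0) (XT.nd (nat_lit 78) (nat_lit 76) (nat_lit 0) (XT.lf (nat_lit 0) (nat_lit 9072175392) (nat_lit 152) (nat_lit 5222402586) (nat_lit 76) (nat_lit 14749550851) (nat_lit 43) (nat_lit 5) (nat_lit 45) (nat_lit 5) (nat_lit 44) (nat_lit 4) (nat_lit 511) (nat_lit 388) (nat_lit 301)) (XT.nd (nat_lit 78) (nat_lit 0) (nat_lit 0) (XT.lf (nat_lit 0) (nat_lit 9968329923) (nat_lit 76) (nat_lit 6615025648) (nat_lit 152) (nat_lit 13092301170) (nat_lit 42) (nat_lit 5) (nat_lit 43) (nat_lit 5) (nat_lit 44) (nat_lit 4) (nat_lit 512) (nat_lit 388) (nat_lit 300)) (XT.lf (nat_lit 0) (nat_lit 24354637835) (nat_lit 152) (nat_lit 4675216718) (nat_lit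 0) (nat_lit 1295233934) (nat_lit 42) (nat_lit 5) (nat_lit 44) (nat_lit 4) (nat_lit 42) (nat_lit 4) (nat_lit 513) (nat_lit 388) (nat_lit 299)))) (XT.nd (nat_lit 156) (nat_lit 76) (nat_lit 0) (XT.nd (nat_lit 78) (nat_lit 0) (nat_lit 0) (XT.lf (nat_lit 0) (nat_lit 1480013509) (nat_lit 152) (nat_lit 20107105924) (nat_lit 76) (nat_lit 9402243180) (nat_lit 40) (nat_lit 5) (nat_lit 42) (nat_lit 5) (nat_lit 41) (nat_lit 4) (nat_lit 514) (nat_lit 388) (nat_lit 298)) (XT.lf (nat_lit 0) (nat_lit 9051661139) (nat_lit 152) (nat_lit 4787272348) (nat_lit 76) (nat_lit 17832328894) (nat_lit 40) (nat_lit 5) (nat_lit 42) (nat_lit 5) (nat_lit 41) (nat_lit 4) (nat_lit 515) (nat_lit 388) (nat_lit 297))) (XT.nd (nat_lit 78) (nat_lit 0) (nat_lit 0) (XT.lf (nat_lit 0) (nat_lit 11153654146) (nat_lit 76) (nat_lit 5774885564) (nat_lit 152) (nat_lit 15442737874) (nat_lit 39) (nat_lit 5) (nat_lit 40) (nat_lit 5) (nat_lit 41) (nat_lit 4) (nat_lit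 516) (nat_lit 388) (nat_lit 296)) (XT.lf (nat_lit 0) (nat_lit 25085798120) (nat_lit 152) (nat_lit 5500916719) (nat_lit 0) (nat_lit 2504257057) (nat_lit 39) (nat_lit 5) (nat_lit 41) (nat_lit 4) (nat_lit 39) (nat_lit 4) (nat_lit 517) (nat_lit 388) (nat_lit 295))))) (XT.nd (nat_lit 312) (nat_lit 228) (nat_lit 0) (XT.nd (nat_lit 156) (nat_lit 76) (nat_lit 0) (XT.nd (nat_lit 78) (nat_lit 76) (nat_lit 0) (XT.lf (nat_lit 0) (nat_lit 10786017679) (nat_lit 76) (nat_lit 22834384863) (nat_lit 76) (nat_lit 207876481) (nat_lit 38) (nat_lit 4) (nat_lit 39) (nat_lit 5) (nat_lit 39) (nat_lit 4) (nat_lit 518) (nat_lit 388) (nat_lit 294)) (XT.lf (nat_lit 0) (nat_lit 7698571551) (nat_lit 152) (nat_lit 7042065723) (nat_lit 76) (nat_lit 19843975995) (nat_lit 37) (nat_lit 5) (nat_lit 39) (nat_lit 5) (nat_lit 38) (nat_lit 4) (nat_lit 519) (nat_lit 388) (nat_lit 293))) (XT.nd (nat_lit 78) (nat_lit 0) (nat_lit 0) (XT.lf (nat_lit 0) (nat_lit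 9569811691) (nat_lit 76) (nat_lit 6332830513) (nat_lit 152) (nat_lit 19458996137) (nat_lit 36) (nat_lit 5) (nat_lit 37) (nat_lit 5) (nat_lit 38) (nat_lit 4) (nat_lit 520) (nat_lit 388) (nat_lit 292)) (XT.lf (nat_lit 0) (nat_lit 24419685984) (nat_lit 152) (nat_lit 9411571634) (nat_lit 0) (nat_lit 2328711758) (nat_lit 36) (nat_lit 5) (nat_lit 38) (nat_lit 4) (nat_lit 36) (nat_lit 4) (nat_lit 521) (nat_lit 388) (nat_lit 291)))) (XT.nd (nat_lit 156) (nat_lit 76) (nat_lit 0) (XT.nd (nat_lit 78) (nat_lit 76) (nat_lit 0) (XT.lf (nat_lit 0) (nat_lit 7492075436) (nat_lit 76) (nat_lit 25808346810) (nat_lit 76) (nat_lit 3678583380) (nat_lit 35) (nat_lit 4) (nat_lit 36) (nat_lit 5) (nat_lit 36) (nat_lit 4) (nat_lit 522) (nat_lit 388) (nat_lit 290)) (XT.lf (nat_lit 0) (nat_lit 4604180730) (nat_lit 152) (nat_lit 12820935969) (nat_lit 76) (nat_lit 20394079317) (nat_lit 34) (nat_lit 5) (nat_lit 36) (nat_lit 5) (nat_lit 35) (nat_lit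 4) (nat_lit 523) (nat_lit 388) (nat_lit 289))) (XT.nd (nat_lit 78) (nat_lit 0) (nat_lit 0) (XT.lf (nat_lit 0) (nat_lit 4343336549) (nat_lit 76) (nat_lit 8734161946) (nat_lit 152) (nat_lit 25605521433) (nat_lit 33) (nat_lit 5) (nat_lit 34) (nat_lit 5) (nat_lit 35) (nat_lit 4) (nat_lit 524) (nat_lit 388) (nat_lit 288)) (XT.lf (nat_lit 0) (nat_lit 21912152894) (nat_lit 152) (nat_lit 17336970378) (nat_lit 0) (nat_lit 320421812) (nat_lit 33) (nat_lit 5) (nat_lit 35) (nat_lit 4) (nat_lit 33) (nat_lit 4) (nat_lit 525) (nat_lit 388) (nat_lit 287)))))) (XT.nd (nat_lit 624) (nat_lit 304) (nat_lit 0) (XT.nd (nat_lit 312) (nat_lit 152) (nat_lit 0) (XT.nd (nat_lit 156) (nat_lit 152) (nat_lit 0) (XT.nd (nat_lit 78) (nat_lit 0) (nat_lit 0) (XT.lf (nat_lit 0) (nat_lit 41539420) (nat_lit 76) (nat_lit 31032230252) (nat_lit 76) (nat_lit 9407039261) (nat_lit 32) (nat_lit 4) (nat_lit 33) (nat_lit 5) (nat_lit 33) (nat_lit 4) (nat_lit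 526) (nat_lit 388) (nat_lit 286)) (XT.lf (nat_lit 0) (nat_lit 18248653732) (nat_lit 76) (nat_lit 22411961253) (nat_lit 76) (nat_lit 754284914) (nat_lit 32) (nat_lit 4) (nat_lit 33) (nat_lit 5) (nat_lit 33) (nat_lit 4) (nat_lit 527) (nat_lit 388) (nat_lit 285))) (XT.nd (nat_lit 78) (nat_lit 76) (nat_lit 0) (XT.lf (nat_lit 0) (nat_lit 7974650913) (nat_lit 152) (nat_lit 5500674157) (nat_lit 76) (nat_lit 28900062731) (nat_lit 31) (nat_lit 5) (nat_lit 33) (nat_lit 5) (nat_lit 32) (nat_lit 4) (nat_lit 528) (nat_lit 388) (nat_lit 284)) (XT.lf (nat_lit 0) (nat_lit 12893142029) (nat_lit 76) (nat_lit 4157586097) (nat_lit 152) (nat_lit 26310725710) (nat_lit 30) (nat_lit 5) (nat_lit 31) (nat_lit 5) (nat_lit 32) (nat_lit 4) (nat_lit 529) (nat_lit 388) (nat_lit 283)))) (XT.nd (nat_lit 156) (nat_lit 76) (nat_lit 0) (XT.nd (nat_lit 78) (nat_lit 76) (nat_lit 0) (XT.lf (nat_lit 0) (nat_lit 26484005472) (nat_lit 152) (nat_lit 12522626204)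 (nat_lit 0) (nat_lit 5367923177) (nat_lit 30) (nat_lit 5) (nat_lit 32) (nat_lit 4) (nat_lit 30) (nat_lit 4) (nat_lit 530) (nat_lit 388) (nat_lit 282)) (XT.lf (nat_lit 0) (nat_lit 5992658152) (nat_lit 76) (nat_lit 30283608079) (nat_lit 76) (nat_lit 9139503637) (nat_lit 29) (nat_lit 4) (nat_lit 30) (nat_lit 5) (nat_lit 30) (nat_lit 4) (nat_lit 531) (nat_lit 388) (nat_lit 281))) (XT.nd (nat_lit 78) (nat_lit 76) (nat_lit 0) (XT.lf (nat_lit 0) (nat_lit 25275993383) (nat_lit 76) (nat_lit 21190210791) (nat_lit 76) (nat_lit 18900382) (nat_lit 29) (nat_lit 4) (nat_lit 30) (nat_lit 5) (nat_lit 30) (nat_lit 4) (nat_lit 532) (nat_lit 388) (nat_lit 280)) (XT.lf (nat_lit 0) (nat_lit 9170269526) (nat_lit 152) (nat_lit 2582076830) (nat_lit 76) (nat_lit 35832132920) (nat_lit 28) (nat_lit 5) (nat_lit 30) (nat_lit 5) (nat_lit 29) (nat_lit 4) (nat_lit 533) (nat_lit 388) (nat_lit 279))))) (XT.nd (nat_lit 312) (nat_lit 152) (nat_lit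 0) (XT.nd (nat_lit 156) (nat_lit 76) (nat_lit 0) (XT.nd (nat_lit 78) (nat_lit 0) (nat_lit 0) (XT.lf (nat_lit 0) (nat_lit 16891184508) (nat_lit 76) (nat_lit 1884457221) (nat_lit 152) (nat_lit 29936961145) (nat_lit 27) (nat_lit 5) (nat_lit 28) (nat_lit 5) (nat_lit 29) (nat_lit 4) (nat_lit 534) (nat_lit 388) (nat_lit 278)) (XT.lf (nat_lit 0) (nat_lit 28753662752) (nat_lit 152) (nat_lit 12994094493) (nat_lit 0) (nat_lit 8124278753) (nat_lit 27) (nat_lit 5) (nat_lit 29) (nat_lit 4) (nat_lit 27) (nat_lit 4) (nat_lit 535) (nat_lit 388) (nat_lit 277))) (XT.nd (nat_lit 78) (nat_lit 0) (nat_lit 0) (XT.lf (nat_lit 0) (nat_lit 6464730813) (nat_lit 76) (nat_lit 32626287020) (nat_lit 76) (nat_lit 11973434915) (nat_lit 26) (nat_lit 4) (nat_lit 27) (nat_lit 5) (nat_lit 27) (nat_lit 4) (nat_lit 536) (nat_lit 388) (nat_lit 276)) (XT.lf (nat_lit 0) (nat_lit 26733276707) (nat_lit 76) (nat_lit 23115841822) (nat_lit 76) (nat_lit 2440205147)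 (nat_lit 26) (nat_lit 4) (nat_lit 27) (nat_lit 5) (nat_lit 27) (nat_lit 4) (nat_lit 537) (nat_lit 388) (nat_lit 275)))) (XT.nd (nat_lit 156) (nat_lit 0) (nat_lit 0) (XT.nd (nat_lit 78) (nat_lit 76) (nat_lit 0) (XT.lf (nat_lit 0) (nat_lit 7214841691) (nat_lit 152) (nat_lit 6051628981) (nat_lit 76) (nat_lit 40282948162) (nat_lit 25) (nat_lit 5) (nat_lit 27) (nat_lit 5) (nat_lit 26) (nat_lit 4) (nat_lit 538) (nat_lit 388) (nat_lit 274)) (XT.lf (nat_lit 0) (nat_lit 14253415448) (nat_lit 76) (nat_lit 2974490811) (nat_lit 152) (nat_lit 37615163802) (nat_lit 24) (nat_lit 5) (nat_lit 25) (nat_lit 5) (nat_lit 26) (nat_lit 4) (nat_lit 539) (nat_lit 388) (nat_lit 273))) (XT.nd (nat_lit 78) (nat_lit 0) (nat_lit 0) (XT.lf (nat_lit 0) (nat_lit 27656809821) (nat_lit 152) (nat_lit 20994453355) (nat_lit 0) (nat_lit 7520804610) (nat_lit 24) (nat_lit 5) (nat_lit 26) (nat_lit 4) (nat_lit 24) (nat_lit 4) (nat_lit 540) (nat_lit 388)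 (nat_lit 272)) (XT.lf (nat_lit 0) (nat_lit 38409025322) (nat_lit 152) (nat_lit 878231201) (nat_lit 0) (nat_lit 18253365941) (nat_lit 24) (nat_lit 5) (nat_lit 26) (nat_lit 4) (nat_lit 24) (nat_lit 4) (nat_lit 541) (nat_lit 388) (nat_lit 271))))))))
noncomputable def xc71 : XT := (XT.nd (nat_lit 54600) (nat_lit 0) (nat_lit 6004) (XT.nd (nat_lit 53430) (nat_lit 0) (nat_lit 13452) (XT.nd (nat_lit 546) (nat_lit 152) (nat_lit 0) (XT.nd (nat_lit 234) (nat_lit 76) (nat_lit 0) (XT.nd (nat_lit 78) (nat_lit 152) (nat_lit 0) (XT.lf (nat_lit 0) (nat_lit 20199343705) (nat_lit 76) (nat_lit 29460180018) (nat_lit 76) (nat_lit 9285438920) (nat_lit 23) (nat_lit 4) (nat_lit 24) (nat_lit 5) (nat_lit 24) (nat_lit 4) (nat_lit 542) (nat_lit 388) (nat_lit 270)) (XT.nd (nat_lit 78) (nat_lit 76) (nat_lit 0) (XT.lf (nat_lit 0) (nat_lit 829913413) (nat_lit 152) (nat_lit 18508542809) (nat_lit 76) (nat_lit 41053014806) (nat_lit 22) (nat_lit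 5) (nat_lit 24) (nat_lit 5) (nat_lit 23) (nat_lit 4) (nat_lit 543) (nat_lit 388) (nat_lit 269)) (XT.lf (nat_lit 0) (nat_lit 2252413390) (nat_lit 76) (nat_lit 8813432313) (nat_lit 152) (nat_lit 50812658809) (nat_lit 21) (nat_lit 5) (nat_lit 22) (nat_lit 5) (nat_lit 23) (nat_lit 4) (nat_lit 544) (nat_lit 388) (nat_lit 268)))) (XT.nd (nat_lit 156) (nat_lit 76) (nat_lit 0) (XT.nd (nat_lit 78) (nat_lit 0) (nat_lit 0) (XT.lf (nat_lit 0) (nat_lit 21799211195) (nat_lit 152) (nat_lit 39445546232) (nat_lit 0) (nat_lit 2159681230) (nat_lit 21) (nat_lit 5) (nat_lit 23) (nat_lit 4) (nat_lit 21) (nat_lit 4) (nat_lit 545) (nat_lit 388) (nat_lit 267)) (XT.lf (nat_lit 0) (nat_lit 32924476923) (nat_lit 152) (nat_lit 18781090333) (nat_lit 0) (nat_lit 13268486900) (nat_lit 21) (nat_lit 5) (nat_lit 23) (nat_lit 4) (nat_lit 21) (nat_lit 4) (nat_lit 546) (nat_lit 388) (nat_lit 266))) (XT.nd (nat_lit 78) (nat_lit 0) (nat_lit 0) (XT.lf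 (nat_lit 0) (nat_lit 2519211898) (nat_lit 76) (nat_lit 41871648197) (nat_lit 76) (nat_lit 22199677535) (nat_lit 20) (nat_lit 4) (nat_lit 21) (nat_lit 5) (nat_lit 21) (nat_lit 4) (nat_lit 547) (nat_lit 388) (nat_lit 265)) (XT.lf (nat_lit 0) (nat_lit 24810596835) (nat_lit 76) (nat_lit 31563607903) (nat_lit 76) (nat_lit 11876122058) (nat_lit 20) (nat_lit 4) (nat_lit 21) (nat_lit 5) (nat_lit 21) (nat_lit 4) (nat_lit 548) (nat_lit 388) (nat_lit 264))))) (XT.nd (nat_lit 52572) (nat_lit 0) (nat_lit 20596) (XT.nd (nat_lit 156) (nat_lit 76) (nat_lit 0) (XT.nd (nat_lit 78) (nat_lit 76) (nat_lit 0) (XT.lf (nat_lit 0) (nat_lit 47738761864) (nat_lit 76) (nat_lit 20962091537) (nat_lit 76) (nat_lit 1259542407) (nat_lit 20) (nat_lit 4) (nat_lit 21) (nat_lit 5) (nat_lit 21) (nat_lit 4) (nat_lit 549) (nat_lit 388) (nat_lit 263)) (XT.lf (nat_lit 0) (nat_lit 9470849564) (nat_lit 152) (nat_lit 491349060) (nat_lit 76) (nat_lit 61757254729)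 (nat_lit 19) (nat_lit 5) (nat_lit 21) (nat_lit 5) (nat_lit 20) (nat_lit 4) (nat_lit 550) (nat_lit 388) (nat_lit 262))) (XT.nd (nat_lit 78) (nat_lit 0) (nat_lit 0) (XT.lf (nat_lit 0) (nat_lit 20711862193) (nat_lit 152) (nat_lit 51257435748) (nat_lit 0) (nat_lit 1555190087) (nat_lit 18) (nat_lit 5) (nat_lit 20) (nat_lit 4) (nat_lit 18) (nat_lit 4) (nat_lit 551) (nat_lit 388) (nat_lit 261)) (XT.lf (nat_lit 0) (nat_lit 32378350001) (nat_lit 152) (nat_lit 29794382282) (nat_lit 0) (nat_lit 13208294362) (nat_lit 18) (nat_lit 5) (nat_lit 20) (nat_lit 4) (nat_lit 18) (nat_lit 4) (nat_lit 552) (nat_lit 388) (nat_lit 260)))) (XT.nd (nat_lit 156) (nat_lit 1216) (nat_lit 0) (XT.nd (nat_lit 78) (nat_lit 1140) (nat_lit 0) (XT.lf (nat_lit 0) (nat_lit 1203714132) (nat_lit 988) (nat_lit 1138488520) (nat_lit 988) (nat_lit 1138488520) (nat_lit 320) (nat_lit 4) (nat_lit 333) (nat_lit 5) (nat_lit 333) (nat_lit 4) (nat_lit 422) (nat_lit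 389) (nat_lit 389)) (XT.lf (nat_lit 0) (nat_lit 409528195) (nat_lit 1064) (nat_lit 710312548) (nat_lit 1140) (nat_lit 5890879702) (nat_lit 305) (nat_lit 5) (nat_lit 319) (nat_lit 5) (nat_lit 320) (nat_lit 4) (nat_lit 423) (nat_lit 389) (nat_lit 388))) (XT.nd (nat_lit 78) (nat_lit 1216) (nat_lit 0) (XT.lf (nat_lit 0) (nat_lit 4524640128) (nat_lit 1140) (nat_lit 1579285726) (nat_lit 0) (nat_lit 958413825) (nat_lit 305) (nat_lit 5) (nat_lit 320) (nat_lit 4) (nat_lit 305) (nat_lit 4) (nat_lit 424) (nat_lit 389) (nat_lit 387)) (XT.lf (nat_lit 0) (nat_lit 838524124) (nat_lit 1216) (nat_lit 3569616238) (nat_lit 76) (nat_lit 2708923943) (nat_lit 289) (nat_lit 5) (nat_lit 305) (nat_lit 5) (nat_lit 290) (nat_lit 4) (nat_lit 425) (nat_lit 389) (nat_lit 386)))))) (XT.nd (nat_lit 546) (nat_lit 3192) (nat_lit 0) (XT.nd (nat_lit 234) (nat_lit 1900) (nat_lit 0) (XT.nd (nat_lit 78) (nat_lit 836) (nat_lit 0) (XT.lf (nat_lit 0) (nat_lit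 1592449245) (nat_lit 1216) (nat_lit 2604686653) (nat_lit 1292) (nat_lit 2977607622) (nat_lit 273) (nat_lit 5) (nat_lit 289) (nat_lit 5) (nat_lit 290) (nat_lit 4) (nat_lit 426) (nat_lit 389) (nat_lit 385)) (XT.nd (nat_lit 78) (nat_lit 760) (nat_lit 0) (XT.lf (nat_lit 0) (nat_lit 352148757) (nat_lit 1292) (nat_lit 356683248) (nat_lit 76) (nat_lit 6527086291) (nat_lit 272) (nat_lit 5) (nat_lit 289) (nat_lit 5) (nat_lit 273) (nat_lit 5) (nat_lit 427) (nat_lit 389) (nat_lit 384)) (XT.lf (nat_lit 0) (nat_lit 3687157235) (nat_lit 836) (nat_lit 2317286840) (nat_lit 76) (nat_lit 1294670901) (nat_lit 262) (nat_lit 5) (nat_lit 273) (nat_lit 5) (nat_lit 263) (nat_lit 4) (nat_lit 428) (nat_lit 389) (nat_lit 383)))) (XT.nd (nat_lit 156) (nat_lit 608) (nat_lit 0) (XT.nd (nat_lit 78) (nat_lit 684) (nat_lit 0) (XT.lf (nat_lit 0) (nat_lit 3076068913) (nat_lit 608) (nat_lit 3992672579) (nat_lit 684) (nat_lit 297096793) (nat_lit 254)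 (nat_lit 5) (nat_lit 262) (nat_lit 5) (nat_lit 263) (nat_lit 4) (nat_lit 429) (nat_lit 389) (nat_lit 382)) (XT.lf (nat_lit 0) (nat_lit 1135328030) (nat_lit 608) (nat_lit 1862736096) (nat_lit 684) (nat_lit 4437374742) (nat_lit 245) (nat_lit 5) (nat_lit 253) (nat_lit 5) (nat_lit 254) (nat_lit 5) (nat_lit 430) (nat_lit 389) (nat_lit 381))) (XT.nd (nat_lit 78) (nat_lit 608) (nat_lit 0) (XT.lf (nat_lit 0) (nat_lit 6341823867) (nat_lit 684) (nat_lit 804435697) (nat_lit 76) (nat_lit 362132443) (nat_lit 245) (nat_lit 5) (nat_lit 254) (nat_lit 5) (nat_lit 246) (nat_lit 4) (nat_lit 431) (nat_lit 389) (nat_lit 380)) (XT.lf (nat_lit 0) (nat_lit 2135460445) (nat_lit 608) (nat_lit 2773414980) (nat_lit 76) (nat_lit 2674763840) (nat_lit 237) (nat_lit 5) (nat_lit 245) (nat_lit 5) (nat_lit 238) (nat_lit 5) (nat_lit 432) (nat_lit 389) (nat_lit 379))))) (XT.nd (nat_lit 312) (nat_lit 1520) (nat_lit 0) (XT.nd (nat_lit 156) (nat_lit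 532) (nat_lit 0) (XT.nd (nat_lit 78) (nat_lit 608) (nat_lit 0) (XT.lf (nat_lit 0) (nat_lit 2892779927) (nat_lit 532) (nat_lit 2568518956) (nat_lit 608) (nat_lit 2201074867) (nat_lit 230) (nat_lit 5) (nat_lit 237) (nat_lit 5) (nat_lit 238) (nat_lit 5) (nat_lit 433) (nat_lit 389) (nat_lit 378)) (XT.lf (nat_lit 0) (nat_lit 948710389) (nat_lit 532) (nat_lit 122729155) (nat_lit 608) (nat_lit 6673212596) (nat_lit 222) (nat_lit 5) (nat_lit 229) (nat_lit 5) (nat_lit 230) (nat_lit 5) (nat_lit 434) (nat_lit 389) (nat_lit 377))) (XT.nd (nat_lit 78) (nat_lit 532) (nat_lit 0) (XT.lf (nat_lit 0) (nat_lit 4383895906) (nat_lit 608) (nat_lit 1040083179) (nat_lit 76) (nat_lit 2405206138) (nat_lit 222) (nat_lit 5) (nat_lit 230) (nat_lit 5) (nat_lit 223) (nat_lit 5) (nat_lit 435) (nat_lit 389) (nat_lit 376)) (XT.lf (nat_lit 0) (nat_lit 4882353703) (nat_lit 532) (nat_lit 2878344362) (nat_lit 608) (nat_lit 156626786) (nat_lit 215) (nat_lit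 5) (nat_lit 222) (nat_lit 5) (nat_lit 223) (nat_lit 5) (nat_lit 436) (nat_lit 389) (nat_lit 375)))) (XT.nd (nat_lit 156) (nat_lit 532) (nat_lit 0) (XT.nd (nat_lit 78) (nat_lit 456) (nat_lit 0) (XT.lf (nat_lit 0) (nat_lit 2920996679) (nat_lit 456) (nat_lit 202807956) (nat_lit 532) (nat_lit 4884706406) (nat_lit 208) (nat_lit 5) (nat_lit 214) (nat_lit 5) (nat_lit 215) (nat_lit 5) (nat_lit 437) (nat_lit 389) (nat_lit 374)) (XT.lf (nat_lit 0) (nat_lit 905502814) (nat_lit 456) (nat_lit 5576924188) (nat_lit 532) (nat_lit 1620489553) (nat_lit 202) (nat_lit 5) (nat_lit 208) (nat_lit 5) (nat_lit 209) (nat_lit 5) (nat_lit 438) (nat_lit 389) (nat_lit 373))) (XT.nd (nat_lit 78) (nat_lit 456) (nat_lit 0) (XT.lf (nat_lit 0) (nat_lit 1680875688) (nat_lit 532) (nat_lit 1138009301) (nat_lit 76) (nat_lit 5381587762) (nat_lit 201) (nat_lit 5) (nat_lit 208) (nat_lit 5) (nat_lit 202) (nat_lit 5) (nat_lit 439) (nat_lit 389) (nat_lit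 372)) (XT.lf (nat_lit 0) (nat_lit 5019922462) (nat_lit 532) (nat_lit 3215374917) (nat_lit 76) (nat_lit 66057105) (nat_lit 195) (nat_lit 5) (nat_lit 202) (nat_lit 5) (nat_lit 196) (nat_lit 5) (nat_lit 440) (nat_lit 389) (nat_lit 371))))))) (XT.nd (nat_lit 1170) (nat_lit 3116) (nat_lit 0) (XT.nd (nat_lit 546) (nat_lit 2128) (nat_lit 0) (XT.nd (nat_lit 234) (nat_lit 1292) (nat_lit 0) (XT.nd (nat_lit 78) (nat_lit 380) (nat_lit 0) (XT.lf (nat_lit 0) (nat_lit 44309251) (nat_lit 532) (nat_lit 5360343803) (nat_lit 76) (nat_lit 3000865162) (nat_lit 188) (nat_lit 5) (nat_lit 195) (nat_lit 5) (nat_lit 189) (nat_lit 5) (nat_lit 441) (nat_lit 389) (nat_lit 370)) (XT.nd (nat_lit 78) (nat_lit 0) (nat_lit 0) (XT.lf (nat_lit 0) (nat_lit 931550242) (nat_lit 380) (nat_lit 2437375829) (nat_lit 456) (nat_lit 5143969511) (nat_lit 183) (nat_lit 5) (nat_lit 188) (nat_lit 5) (nat_lit 189) (nat_lit 5) (nat_lit 442) (nat_lit 389) (nat_lit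 369)) (XT.lf (nat_lit 0) (nat_lit 6778235083) (nat_lit 456) (nat_lit 1208751365) (nat_lit 76) (nat_lit 636973878) (nat_lit 183) (nat_lit 5) (nat_lit 189) (nat_lit 5) (nat_lit 184) (nat_lit 5) (nat_lit 443) (nat_lit 389) (nat_lit 368)))) (XT.nd (nat_lit 156) (nat_lit 456) (nat_lit 0) (XT.nd (nat_lit 78) (nat_lit 380) (nat_lit 0) (XT.lf (nat_lit 0) (nat_lit 1523160814) (nat_lit 456) (nat_lit 3417735987) (nat_lit 76) (nat_lit 3796967555) (nat_lit 177) (nat_lit 5) (nat_lit 183) (nat_lit 5) (nat_lit 178) (nat_lit 5) (nat_lit 444) (nat_lit 389) (nat_lit 367)) (XT.lf (nat_lit 0) (nat_lit 3158079126) (nat_lit 380) (nat_lit 1767627864) (nat_lit 456) (nat_lit 3929852984) (nat_lit 172) (nat_lit 5) (nat_lit 177) (nat_lit 5) (nat_lit 178) (nat_lit 5) (nat_lit 445) (nat_lit 389) (nat_lit 366))) (XT.nd (nat_lit 78) (nat_lit 76) (nat_lit 0) (XT.lf (nat_lit 0) (nat_lit 927905480) (nat_lit 380) (nat_lit 7488544332) (nat_lit 456)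 (nat_lit 560766073) (nat_lit 167) (nat_lit 5) (nat_lit 172) (nat_lit 5) (nat_lit 173) (nat_lit 5) (nat_lit 446) (nat_lit 389) (nat_lit 365)) (XT.lf (nat_lit 0) (nat_lit 2856568659) (nat_lit 456) (nat_lit 1379346593) (nat_lit 76) (nat_lit 4865661062) (nat_lit 166) (nat_lit 5) (nat_lit 172) (nat_lit 5) (nat_lit 167) (nat_lit 5) (nat_lit 447) (nat_lit 389) (nat_lit 364))))) (XT.nd (nat_lit 312) (nat_lit 1064) (nat_lit 0) (XT.nd (nat_lit 156) (nat_lit 304) (nat_lit 0) (XT.nd (nat_lit 78) (nat_lit 456) (nat_lit 0) (XT.lf (nat_lit 0) (nat_lit 5493963714) (nat_lit 304) (nat_lit 854430966) (nat_lit 380) (nat_lit 2881620977) (nat_lit 162) (nat_lit 5) (nat_lit 166) (nat_lit 5) (nat_lit 167) (nat_lit 5) (nat_lit 448) (nat_lit 389) (nat_lit 363)) (XT.lf (nat_lit 0) (nat_lit 572413759) (nat_lit 456) (nat_lit 6190675557) (nat_lit 76) (nat_lit 2599028586) (nat_lit 156) (nat_lit 5) (nat_lit 162) (nat_lit 5) (nat_lit 157) (nat_lit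 5) (nat_lit 449) (nat_lit 389) (nat_lit 362))) (XT.nd (nat_lit 78) (nat_lit 0) (nat_lit 0) (XT.lf (nat_lit 0) (nat_lit 743204837) (nat_lit 304) (nat_lit 3314269941) (nat_lit 380) (nat_lit 5440303736) (nat_lit 152) (nat_lit 5) (nat_lit 156) (nat_lit 5) (nat_lit 157) (nat_lit 5) (nat_lit 450) (nat_lit 389) (nat_lit 361)) (XT.lf (nat_lit 0) (nat_lit 7644869347) (nat_lit 380) (nat_lit 1726918031) (nat_lit 76) (nat_lit 265798711) (nat_lit 152) (nat_lit 5) (nat_lit 157) (nat_lit 5) (nat_lit 153) (nat_lit 5) (nat_lit 451) (nat_lit 389) (nat_lit 360)))) (XT.nd (nat_lit 156) (nat_lit 380) (nat_lit 0) (XT.nd (nat_lit 78) (nat_lit 304) (nat_lit 0) (XT.lf (nat_lit 0) (nat_lit 1547980389) (nat_lit 380) (nat_lit 4307784601) (nat_lit 76) (nat_lit 3924780796) (nat_lit 147) (nat_lit 5) (nat_lit 152) (nat_lit 5) (nat_lit 148) (nat_lit 5) (nat_lit 452) (nat_lit 389) (nat_lit 359)) (XT.lf (nat_lit 0) (nat_lit 2936139120) (nat_lit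 304) (nat_lit 2199208817) (nat_lit 380) (nat_lit 4792449104) (nat_lit 143) (nat_lit 5) (nat_lit 147) (nat_lit 5) (nat_lit 148) (nat_lit 5) (nat_lit 453) (nat_lit 389) (nat_lit 358))) (XT.nd (nat_lit 78) (nat_lit 76) (nat_lit 0) (XT.lf (nat_lit 0) (nat_lit 299391423) (nat_lit 304) (nat_lit 8528142890) (nat_lit 380) (nat_lit 1252025004) (nat_lit 139) (nat_lit 5) (nat_lit 143) (nat_lit 5) (nat_lit 144) (nat_lit 5) (nat_lit 454) (nat_lit 389) (nat_lit 357)) (XT.lf (nat_lit 0) (nat_lit 2376591736) (nat_lit 380) (nat_lit 2425560067) (nat_lit 76) (nat_lit 5432179755) (nat_lit 138) (nat_lit 5) (nat_lit 143) (nat_lit 5) (nat_lit 139) (nat_lit 5) (nat_lit 455) (nat_lit 389) (nat_lit 356)))))) (XT.nd (nat_lit 624) (nat_lit 1368) (nat_lit 0) (XT.nd (nat_lit 312) (nat_lit 912) (nat_lit 0) (XT.nd (nat_lit 156) (nat_lit 304) (nat_lit 0) (XT.nd (nat_lit 78) (nat_lit 304) (nat_lit 0) (XT.lf (nat_lit 0) (nat_lit 5141694331) (nat_lit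 228) (nat_lit 934140100) (nat_lit 304) (nat_lit 4317941307) (nat_lit 135) (nat_lit 5) (nat_lit 138) (nat_lit 5) (nat_lit 139) (nat_lit 5) (nat_lit 456) (nat_lit 389) (nat_lit 355)) (XT.lf (nat_lit 0) (nat_lit 2348157661) (nat_lit 304) (nat_lit 7552615038) (nat_lit 380) (nat_lit 656797360) (nat_lit 131) (nat_lit 5) (nat_lit 135) (nat_lit 5) (nat_lit 136) (nat_lit 5) (nat_lit 457) (nat_lit 389) (nat_lit 354))) (XT.nd (nat_lit 78) (nat_lit 228) (nat_lit 0) (XT.lf (nat_lit 0) (nat_lit 3054586826) (nat_lit 380) (nat_lit 577141135) (nat_lit 76) (nat_lit 7093624830) (nat_lit 130) (nat_lit 5) (nat_lit 135) (nat_lit 5) (nat_lit 131) (nat_lit 5) (nat_lit 458) (nat_lit 389) (nat_lit 353)) (XT.lf (nat_lit 0) (nat_lit 6879042988) (nat_lit 304) (nat_lit 3575435734) (nat_lit 76) (nat_lit 443054906) (nat_lit 127) (nat_lit 5) (nat_lit 131) (nat_lit 5) (nat_lit 128) (nat_lit 5) (nat_lit 459) (nat_lit 389) (nat_lit 352)))) (XT.nd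 (nat_lit 156) (nat_lit 304) (nat_lit 0) (XT.nd (nat_lit 78) (nat_lit 304) (nat_lit 0) (XT.lf (nat_lit 0) (nat_lit 4349785076) (nat_lit 304) (nat_lit 6492784892) (nat_lit 380) (nat_lit 231587241) (nat_lit 123) (nat_lit 5) (nat_lit 127) (nat_lit 5) (nat_lit 128) (nat_lit 5) (nat_lit 460) (nat_lit 389) (nat_lit 351)) (XT.lf (nat_lit 0) (nat_lit 1224553670) (nat_lit 228) (nat_lit 2361932019) (nat_lit 304) (nat_lit 7668868087) (nat_lit 119) (nat_lit 5) (nat_lit 122) (nat_lit 5) (nat_lit 123) (nat_lit 5) (nat_lit 461) (nat_lit 389) (nat_lit 350))) (XT.nd (nat_lit 78) (nat_lit 304) (nat_lit 0) (XT.lf (nat_lit 0) (nat_lit 7542615923) (nat_lit 304) (nat_lit 2006578071) (nat_lit 76) (nat_lit 1891885165) (nat_lit 119) (nat_lit 5) (nat_lit 123) (nat_lit 5) (nat_lit 120) (nat_lit 5) (nat_lit 462) (nat_lit 389) (nat_lit 349)) (XT.lf (nat_lit 0) (nat_lit 12315605) (nat_lit 304) (nat_lit 5366953545) (nat_lit 76) (nat_lit 6252308770)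 (nat_lit 115) (nat_lit 5) (nat_lit 119) (nat_lit 5) (nat_lit 116) (nat_lit 5) (nat_lit 463) (nat_lit 389) (nat_lit 348))))) (XT.nd (nat_lit 312) (nat_lit 684) (nat_lit 0) (XT.nd (nat_lit 156) (nat_lit 456) (nat_lit 0) (XT.nd (nat_lit 78) (nat_lit 0) (nat_lit 0) (XT.lf (nat_lit 0) (nat_lit 2923447973) (nat_lit 228) (nat_lit 1030500710) (nat_lit 304) (nat_lit 7872934643) (nat_lit 112) (nat_lit 5) (nat_lit 115) (nat_lit 5) (nat_lit 116) (nat_lit 5) (nat_lit 464) (nat_lit 389) (nat_lit 347)) (XT.lf (nat_lit 0) (nat_lit 8045458754) (nat_lit 304) (nat_lit 580672275) (nat_lit 76) (nat_lit 3400974068) (nat_lit 112) (nat_lit 5) (nat_lit 116) (nat_lit 5) (nat_lit 113) (nat_lit 5) (nat_lit 465) (nat_lit 389) (nat_lit 346))) (XT.nd (nat_lit 78) (nat_lit 152) (nat_lit 0) (XT.lf (nat_lit 0) (nat_lit 59136329) (nat_lit 304) (nat_lit 4184739060) (nat_lit 76) (nat_lit 7988458108) (nat_lit 108) (nat_lit 5) (nat_lit 112) (nat_lit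 5) (nat_lit 109) (nat_lit 5) (nat_lit 466) (nat_lit 389) (nat_lit 345)) (XT.lf (nat_lit 0) (nat_lit 4138602379) (nat_lit 228) (nat_lit 7985840741) (nat_lit 76) (nat_lit 318173879) (nat_lit 106) (nat_lit 5) (nat_lit 109) (nat_lit 5) (nat_lit 107) (nat_lit 5) (nat_lit 467) (nat_lit 389) (nat_lit 344)))) (XT.nd (nat_lit 156) (nat_lit 456) (nat_lit 0) (XT.nd (nat_lit 78) (nat_lit 0) (nat_lit 0) (XT.lf (nat_lit 0) (nat_lit 664904516) (nat_lit 228) (nat_lit 7712583974) (nat_lit 304) (nat_lit 4280614804) (nat_lit 103) (nat_lit 5) (nat_lit 106) (nat_lit 5) (nat_lit 107) (nat_lit 5) (nat_lit 468) (nat_lit 389) (nat_lit 343)) (XT.lf (nat_lit 0) (nat_lit 9648754302) (nat_lit 228) (nat_lit 3122086195) (nat_lit 304) (nat_lit 108399915) (nat_lit 103) (nat_lit 5) (nat_lit 106) (nat_lit 5) (nat_lit 107) (nat_lit 5) (nat_lit 469) (nat_lit 389) (nat_lit 342))) (XT.nd (nat_lit 78) (nat_lit 228) (nat_lit 0) (XT.lf (nat_lit 0) (nat_lit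 4126524640) (nat_lit 228) (nat_lit 7342680065) (nat_lit 76) (nat_lit 1636025281) (nat_lit 100) (nat_lit 5) (nat_lit 103) (nat_lit 5) (nat_lit 101) (nat_lit 5) (nat_lit 470) (nat_lit 389) (nat_lit 341)) (XT.lf (nat_lit 0) (nat_lit 1665898136) (nat_lit 228) (nat_lit 6848318118) (nat_lit 304) (nat_lit 4822918624) (nat_lit 97) (nat_lit 5) (nat_lit 100) (nat_lit 5) (nat_lit 101) (nat_lit 5) (nat_lit 471) (nat_lit 389) (nat_lit 340))))))))
noncomputable def xc72 : XT := (XT.nd (nat_lit 2340) (nat_lit 1824) (nat_lit 0) (XT.nd (nat_lit 1170) (nat_lit 1292) (nat_lit 0) (XT.nd (nat_lit 546) (nat_lit 1140) (nat_lit 0) (XT.nd (nat_lit 234) (nat_lit 380) (nat_lit 0) (XT.nd (nat_lit 78) (nat_lit 456) (nat_lit 0) (XT.lf (nat_lit 0) (nat_lit 11007243023) (nat_lit 228) (nat_lit 2049138133) (nat_lit 304) (nat_lit 518935116) (nat_lit 97) (nat_lit 5) (nat_lit 100) (nat_lit 5) (nat_lit 101) (nat_lit 5) (nat_lit 472) (nat_lit 389) (nat_lit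 339)) (XT.nd (nat_lit 78) (nat_lit 228) (nat_lit 0) (XT.lf (nat_lit 0) (nat_lit 3881504431) (nat_lit 228) (nat_lit 7030418985) (nat_lit 76) (nat_lit 2906283815) (nat_lit 94) (nat_lit 5) (nat_lit 97) (nat_lit 5) (nat_lit 95) (nat_lit 5) (nat_lit 473) (nat_lit 389) (nat_lit 338)) (XT.lf (nat_lit 0) (nat_lit 2342639936) (nat_lit 228) (nat_lit 6079873319) (nat_lit 304) (nat_lit 5645152180) (nat_lit 91) (nat_lit 5) (nat_lit 94) (nat_lit 5) (nat_lit 95) (nat_lit 5) (nat_lit 474) (nat_lit 389) (nat_lit 337)))) (XT.nd (nat_lit 156) (nat_lit 152) (nat_lit 0) (XT.nd (nat_lit 78) (nat_lit 228) (nat_lit 0) (XT.lf (nat_lit 0) (nat_lit 12055106021) (nat_lit 228) (nat_lit 1066260173) (nat_lit 304) (nat_lit 1202596890) (nat_lit 91) (nat_lit 5) (nat_lit 94) (nat_lit 5) (nat_lit 95) (nat_lit 5) (nat_lit 475) (nat_lit 389) (nat_lit 336)) (XT.lf (nat_lit 0) (nat_lit 3371170745) (nat_lit 228) (nat_lit 7125782871) (nat_lit 76) (nat_lit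 4088114368) (nat_lit 88) (nat_lit 5) (nat_lit 91) (nat_lit 5) (nat_lit 89) (nat_lit 5) (nat_lit 476) (nat_lit 389) (nat_lit 335))) (XT.nd (nat_lit 78) (nat_lit 0) (nat_lit 0) (XT.lf (nat_lit 0) (nat_lit 2616188240) (nat_lit 152) (nat_lit 5452479330) (nat_lit 228) (nat_lit 6784664405) (nat_lit 86) (nat_lit 5) (nat_lit 88) (nat_lit 5) (nat_lit 89) (nat_lit 5) (nat_lit 477) (nat_lit 389) (nat_lit 334)) (XT.lf (nat_lit 0) (nat_lit 12712685354) (nat_lit 152) (nat_lit 218801289) (nat_lit 228) (nat_lit 2197428978) (nat_lit 86) (nat_lit 5) (nat_lit 88) (nat_lit 5) (nat_lit 89) (nat_lit 5) (nat_lit 478) (nat_lit 389) (nat_lit 333))))) (XT.nd (nat_lit 312) (nat_lit 532) (nat_lit 0) (XT.nd (nat_lit 156) (nat_lit 228) (nat_lit 0) (XT.nd (nat_lit 78) (nat_lit 152) (nat_lit 0) (XT.lf (nat_lit 0) (nat_lit 2556258393) (nat_lit 228) (nat_lit 7717727228) (nat_lit 76) (nat_lit 5135711129) (nat_lit 83) (nat_lit 5) (nat_lit 86) (nat_lit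 5) (nat_lit 84) (nat_lit 5) (nat_lit 479) (nat_lit 389) (nat_lit 332)) (XT.lf (nat_lit 0) (nat_lit 2394809945) (nat_lit 152) (nat_lit 5017007667) (nat_lit 228) (nat_lit 8286331524) (nat_lit 81) (nat_lit 5) (nat_lit 83) (nat_lit 5) (nat_lit 84) (nat_lit 5) (nat_lit 480) (nat_lit 389) (nat_lit 331))) (XT.nd (nat_lit 78) (nat_lit 228) (nat_lit 0) (XT.lf (nat_lit 0) (nat_lit 12449392650) (nat_lit 228) (nat_lit 3111339591) (nat_lit 76) (nat_lit 433435628) (nat_lit 81) (nat_lit 5) (nat_lit 84) (nat_lit 5) (nat_lit 82) (nat_lit 4) (nat_lit 481) (nat_lit 389) (nat_lit 330)) (XT.lf (nat_lit 0) (nat_lit 1389628016) (nat_lit 228) (nat_lit 8909598304) (nat_lit 76) (nat_lit 5997155877) (nat_lit 78) (nat_lit 5) (nat_lit 81) (nat_lit 5) (nat_lit 79) (nat_lit 5) (nat_lit 482) (nat_lit 389) (nat_lit 329)))) (XT.nd (nat_lit 156) (nat_lit 380) (nat_lit 0) (XT.nd (nat_lit 78) (nat_lit 0) (nat_lit 0) (XT.lf (nat_lit 0) (nat_lit 1571719756)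 (nat_lit 152) (nat_lit 4831200279) (nat_lit 228) (nat_lit 10203629892) (nat_lit 76) (nat_lit 5) (nat_lit 78) (nat_lit 5) (nat_lit 79) (nat_lit 5) (nat_lit 483) (nat_lit 389) (nat_lit 328)) (XT.lf (nat_lit 0) (nat_lit 11620631075) (nat_lit 228) (nat_lit 4462448956) (nat_lit 76) (nat_lit 841324940) (nat_lit 76) (nat_lit 5) (nat_lit 79) (nat_lit 5) (nat_lit 77) (nat_lit 4) (nat_lit 484) (nat_lit 389) (nat_lit 327))) (XT.nd (nat_lit 78) (nat_lit 228) (nat_lit 0) (XT.lf (nat_lit 0) (nat_lit 6426369181) (nat_lit 152) (nat_lit 10634870935) (nat_lit 228) (nat_lit 188567350) (nat_lit 74) (nat_lit 5) (nat_lit 76) (nat_lit 5) (nat_lit 77) (nat_lit 4) (nat_lit 485) (nat_lit 389) (nat_lit 326)) (XT.lf (nat_lit 0) (nat_lit 22470599) (nat_lit 152) (nat_lit 4961065224) (nat_lit 228) (nat_lit 12599896724) (nat_lit 71) (nat_lit 5) (nat_lit 73) (nat_lit 5) (nat_lit 74) (nat_lit 5) (nat_lit 486) (nat_lit 389) (nat_lit 325)))))) (XT.nd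 (nat_lit 546) (nat_lit 608) (nat_lit 0) (XT.nd (nat_lit 234) (nat_lit 456) (nat_lit 0) (XT.nd (nat_lit 78) (nat_lit 228) (nat_lit 0) (XT.lf (nat_lit 0) (nat_lit 10382898829) (nat_lit 228) (nat_lit 6598170714) (nat_lit 76) (nat_lit 943666789) (nat_lit 71) (nat_lit 5) (nat_lit 74) (nat_lit 5) (nat_lit 72) (nat_lit 4) (nat_lit 487) (nat_lit 389) (nat_lit 324)) (XT.nd (nat_lit 78) (nat_lit 76) (nat_lit 0) (XT.lf (nat_lit 0) (nat_lit 4659014301) (nat_lit 152) (nat_lit 11337406590) (nat_lit 228) (nat_lit 2278295485) (nat_lit 69) (nat_lit 5) (nat_lit 71) (nat_lit 5) (nat_lit 72) (nat_lit 4) (nat_lit 488) (nat_lit 389) (nat_lit 323)) (XT.lf (nat_lit 0) (nat_lit 3107458821) (nat_lit 228) (nat_lit 2351267644) (nat_lit 76) (nat_lit 13174796077) (nat_lit 68) (nat_lit 5) (nat_lit 71) (nat_lit 5) (nat_lit 69) (nat_lit 5) (nat_lit 489) (nat_lit 389) (nat_lit 322)))) (XT.nd (nat_lit 156) (nat_lit 228) (nat_lit 0) (XT.nd (nat_lit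 78) (nat_lit 76) (nat_lit 0) (XT.lf (nat_lit 0) (nat_lit 8664828366) (nat_lit 228) (nat_lit 9670869831) (nat_lit 76) (nat_lit 665045232) (nat_lit 66) (nat_lit 5) (nat_lit 69) (nat_lit 5) (nat_lit 67) (nat_lit 4) (nat_lit 490) (nat_lit 389) (nat_lit 321)) (XT.lf (nat_lit 0) (nat_lit 1940670409) (nat_lit 76) (nat_lit 12504644015) (nat_lit 152) (nat_lit 4931976867) (nat_lit 65) (nat_lit 5) (nat_lit 66) (nat_lit 5) (nat_lit 67) (nat_lit 4) (nat_lit 491) (nat_lit 389) (nat_lit 320))) (XT.nd (nat_lit 78) (nat_lit 152) (nat_lit 0) (XT.lf (nat_lit 0) (nat_lit 680115276) (nat_lit 152) (nat_lit 5744838076) (nat_lit 76) (nat_lit 13338249198) (nat_lit 64) (nat_lit 5) (nat_lit 66) (nat_lit 5) (nat_lit 65) (nat_lit 5) (nat_lit 492) (nat_lit 389) (nat_lit 319)) (XT.lf (nat_lit 0) (nat_lit 6299590242) (nat_lit 152) (nat_lit 83364163) (nat_lit 228) (nat_lit 13775628460) (nat_lit 62) (nat_lit 5) (nat_lit 64) (nat_lit 5) (nat_lit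 65) (nat_lit 5) (nat_lit 493) (nat_lit 389) (nat_lit 318))))) (XT.nd (nat_lit 312) (nat_lit 304) (nat_lit 0) (XT.nd (nat_lit 156) (nat_lit 228) (nat_lit 0) (XT.nd (nat_lit 78) (nat_lit 76) (nat_lit 0) (XT.lf (nat_lit 0) (nat_lit 12338541544) (nat_lit 228) (nat_lit 1875870138) (nat_lit 76) (nat_lit 6348964990) (nat_lit 62) (nat_lit 5) (nat_lit 65) (nat_lit 5) (nat_lit 63) (nat_lit 4) (nat_lit 494) (nat_lit 389) (nat_lit 317)) (XT.lf (nat_lit 0) (nat_lit 10602582372) (nat_lit 76) (nat_lit 7935181311) (nat_lit 152) (nat_lit 2440603494) (nat_lit 61) (nat_lit 5) (nat_lit 62) (nat_lit 5) (nat_lit 63) (nat_lit 4) (nat_lit 495) (nat_lit 389) (nat_lit 316))) (XT.nd (nat_lit 78) (nat_lit 0) (nat_lit 0) (XT.lf (nat_lit 0) (nat_lit 2023801186) (nat_lit 152) (nat_lit 1425589423) (nat_lit 228) (nat_lit 17955378280) (nat_lit 58) (nat_lit 5) (nat_lit 60) (nat_lit 5) (nat_lit 61) (nat_lit 5) (nat_lit 496) (nat_lit 389) (nat_lit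 315)) (XT.lf (nat_lit 0) (nat_lit 9585993498) (nat_lit 228) (nat_lit 6979117947) (nat_lit 76) (nat_lit 5274559143) (nat_lit 58) (nat_lit 5) (nat_lit 61) (nat_lit 5) (nat_lit 59) (nat_lit 4) (nat_lit 497) (nat_lit 389) (nat_lit 314)))) (XT.nd (nat_lit 156) (nat_lit 228) (nat_lit 0) (XT.nd (nat_lit 78) (nat_lit 0) (nat_lit 0) (XT.lf (nat_lit 0) (nat_lit 5825992453) (nat_lit 76) (nat_lit 10114317292) (nat_lit 152) (nat_lit 6346302829) (nat_lit 57) (nat_lit 5) (nat_lit 58) (nat_lit 5) (nat_lit 59) (nat_lit 4) (nat_lit 498) (nat_lit 389) (nat_lit 313)) (XT.lf (nat_lit 0) (nat_lit 19090625299) (nat_lit 76) (nat_lit 3429015553) (nat_lit 152) (nat_lit 226292053) (nat_lit 57) (nat_lit 5) (nat_lit 58) (nat_lit 5) (nat_lit 59) (nat_lit 4) (nat_lit 499) (nat_lit 389) (nat_lit 312))) (XT.nd (nat_lit 78) (nat_lit 0) (nat_lit 0) (XT.lf (nat_lit 0) (nat_lit 6050012160) (nat_lit 228) (nat_lit 13653419515) (nat_lit 76) (nat_lit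 3511111651) (nat_lit 54) (nat_lit 5) (nat_lit 57) (nat_lit 5) (nat_lit 55) (nat_lit 4) (nat_lit 500) (nat_lit 389) (nat_lit 311)) (XT.lf (nat_lit 0) (nat_lit 12545999871) (nat_lit 228) (nat_lit 550216921) (nat_lit 76) (nat_lit 10599851279) (nat_lit 54) (nat_lit 5) (nat_lit 57) (nat_lit 5) (nat_lit 55) (nat_lit 4) (nat_lit 501) (nat_lit 389) (nat_lit 310))))))) (XT.nd (nat_lit 1170) (nat_lit 760) (nat_lit 0) (XT.nd (nat_lit 546) (nat_lit 456) (nat_lit 0) (XT.nd (nat_lit 234) (nat_lit 304) (nat_lit 0) (XT.nd (nat_lit 78) (nat_lit 228) (nat_lit 0) (XT.lf (nat_lit 0) (nat_lit 13137852480) (nat_lit 76) (nat_lit 6191046594) (nat_lit 152) (nat_lit 4860379991) (nat_lit 53) (nat_lit 5) (nat_lit 54) (nat_lit 5) (nat_lit 55) (nat_lit 4) (nat_lit 502) (nat_lit 389) (nat_lit 309)) (XT.nd (nat_lit 78) (nat_lit 0) (nat_lit 0) (XT.lf (nat_lit 0) (nat_lit 1591058928) (nat_lit 228) (nat_lit 22186328148) (nat_lit 76) (nat_lit 919295104)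 (nat_lit 50) (nat_lit 5) (nat_lit 53) (nat_lit 5) (nat_lit 51) (nat_lit 4) (nat_lit 503) (nat_lit 389) (nat_lit 308)) (XT.lf (nat_lit 0) (nat_lit 8278232289) (nat_lit 228) (nat_lit 8685690354) (nat_lit 76) (nat_lit 8249746005) (nat_lit 50) (nat_lit 5) (nat_lit 53) (nat_lit 5) (nat_lit 51) (nat_lit 4) (nat_lit 504) (nat_lit 389) (nat_lit 307)))) (XT.nd (nat_lit 156) (nat_lit 228) (nat_lit 0) (XT.nd (nat_lit 78) (nat_lit 0) (nat_lit 0) (XT.lf (nat_lit 0) (nat_lit 5259751440) (nat_lit 76) (nat_lit 9923703085) (nat_lit 152) (nat_lit 10562188472) (nat_lit 49) (nat_lit 5) (nat_lit 50) (nat_lit 5) (nat_lit 51) (nat_lit 4) (nat_lit 505) (nat_lit 389) (nat_lit 306)) (XT.lf (nat_lit 0) (nat_lit 19739368992) (nat_lit 76) (nat_lit 2611413204) (nat_lit 152) (nat_lit 3941147181) (nat_lit 49) (nat_lit 5) (nat_lit 50) (nat_lit 5) (nat_lit 51) (nat_lit 4) (nat_lit 506) (nat_lit 389) (nat_lit 305))) (XT.nd (nat_lit 78) (nat_lit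 0) (nat_lit 0) (XT.lf (nat_lit 0) (nat_lit 2913862497) (nat_lit 228) (nat_lit 19037029976) (nat_lit 76) (nat_lit 4900137733) (nat_lit 46) (nat_lit 5) (nat_lit 49) (nat_lit 5) (nat_lit 47) (nat_lit 4) (nat_lit 507) (nat_lit 389) (nat_lit 304)) (XT.lf (nat_lit 0) (nat_lit 9955944908) (nat_lit 228) (nat_lit 4805715327) (nat_lit 76) (nat_lit 12662255274) (nat_lit 46) (nat_lit 5) (nat_lit 49) (nat_lit 5) (nat_lit 47) (nat_lit 4) (nat_lit 508) (nat_lit 389) (nat_lit 303))))) (XT.nd (nat_lit 312) (nat_lit 228) (nat_lit 0) (XT.nd (nat_lit 156) (nat_lit 152) (nat_lit 0) (XT.nd (nat_lit 78) (nat_lit 0) (nat_lit 0) (XT.lf (nat_lit 0) (nat_lit 9988079971) (nat_lit 76) (nat_lit 7286111530) (nat_lit 152) (nat_lit 10737849939) (nat_lit 45) (nat_lit 5) (nat_lit 46) (nat_lit 5) (nat_lit 47) (nat_lit 4) (nat_lit 509) (nat_lit 389) (nat_lit 302)) (XT.lf (nat_lit 0) (nat_lit 24833933037) (nat_lit 152) (nat_lit 3356046080) (nat_lit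 0) (nat_lit 427174694) (nat_lit 45) (nat_lit 5) (nat_lit 47) (nat_lit 4) (nat_lit 45) (nat_lit 4) (nat_lit 510) (nat_lit 389) (nat_lit 301))) (XT.nd (nat_lit 78) (nat_lit 0) (nat_lit 0) (XT.lf (nat_lit 0) (nat_lit 3471580891) (nat_lit 152) (nat_lit 17416412388) (nat_lit 76) (nat_lit 8346727853) (nat_lit 43) (nat_lit 5) (nat_lit 45) (nat_lit 5) (nat_lit 44) (nat_lit 4) (nat_lit 511) (nat_lit 389) (nat_lit 300)) (XT.lf (nat_lit 0) (nat_lit 10872110983) (nat_lit 152) (nat_lit 2448640432) (nat_lit 76) (nat_lit 16548817622) (nat_lit 43) (nat_lit 5) (nat_lit 45) (nat_lit 5) (nat_lit 44) (nat_lit 4) (nat_lit 512) (nat_lit 389) (nat_lit 299)))) (XT.nd (nat_lit 156) (nat_lit 152) (nat_lit 0) (XT.nd (nat_lit 78) (nat_lit 0) (nat_lit 0) (XT.lf (nat_lit 0) (nat_lit 13169084305) (nat_lit 76) (nat_lit 5422937056) (nat_lit 152) (nat_lit 11928521054) (nat_lit 42) (nat_lit 5) (nat_lit 43) (nat_lit 5) (nat_lit 44) (nat_lit 4) (nat_lit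 513) (nat_lit 389) (nat_lit 298)) (XT.lf (nat_lit 0) (nat_lit 26565404968) (nat_lit 152) (nat_lit 1967199630) (nat_lit 0) (nat_lit 2657785058) (nat_lit 42) (nat_lit 5) (nat_lit 44) (nat_lit 4) (nat_lit 42) (nat_lit 4) (nat_lit 514) (nat_lit 389) (nat_lit 297))) (XT.nd (nat_lit 78) (nat_lit 0) (nat_lit 0) (XT.lf (nat_lit 0) (nat_lit 3003083986) (nat_lit 152) (nat_lit 17860496420) (nat_lit 76) (nat_lit 11011058072) (nat_lit 40) (nat_lit 5) (nat_lit 42) (nat_lit 5) (nat_lit 41) (nat_lit 4) (nat_lit 515) (nat_lit 389) (nat_lit 296)) (XT.lf (nat_lit 0) (nat_lit 10758812985) (nat_lit 152) (nat_lit 2164072381) (nat_lit 76) (nat_lit 19655403224) (nat_lit 40) (nat_lit 5) (nat_lit 42) (nat_lit 5) (nat_lit 41) (nat_lit 4) (nat_lit 516) (nat_lit 389) (nat_lit 295)))))) (XT.nd (nat_lit 546) (nat_lit 380) (nat_lit 0) (XT.nd (nat_lit 234) (nat_lit 152) (nat_lit 0) (XT.nd (nat_lit 78) (nat_lit 152) (nat_lit 0) (XT.lf (nat_lit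 0) (nat_lit 14227956240) (nat_lit 76) (nat_lit 4628563622) (nat_lit 152) (nat_lit 14443249998) (nat_lit 39) (nat_lit 5) (nat_lit 40) (nat_lit 5) (nat_lit 41) (nat_lit 4) (nat_lit 517) (nat_lit 389) (nat_lit 294)) (XT.nd (nat_lit 78) (nat_lit 152) (nat_lit 0) (XT.lf (nat_lit 0) (nat_lit 27229448239) (nat_lit 152) (nat_lit 2976959734) (nat_lit 0) (nat_lit 3835519695) (nat_lit 39) (nat_lit 5) (nat_lit 41) (nat_lit 4) (nat_lit 39) (nat_lit 4) (nat_lit 518) (nat_lit 389) (nat_lit 293)) (XT.lf (nat_lit 0) (nat_lit 1179883891) (nat_lit 152) (nat_lit 21041150255) (nat_lit 76) (nat_lit 12580421697) (nat_lit 37) (nat_lit 5) (nat_lit 39) (nat_lit 5) (nat_lit 38) (nat_lit 4) (nat_lit 519) (nat_lit 389) (nat_lit 292)))) (XT.nd (nat_lit 156) (nat_lit 76) (nat_lit 0) (XT.nd (nat_lit 78) (nat_lit 76) (nat_lit 0) (XT.lf (nat_lit 0) (nat_lit 9278867102) (nat_lit 152) (nat_lit 4641365804) (nat_lit 76) (nat_lit 21661400997) (nat_lit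 37) (nat_lit 5) (nat_lit 39) (nat_lit 5) (nat_lit 38) (nat_lit 4) (nat_lit 520) (nat_lit 389) (nat_lit 291)) (XT.lf (nat_lit 0) (nat_lit 12443260463) (nat_lit 76) (nat_lit 5271359914) (nat_lit 152) (nat_lit 18667783631) (nat_lit 36) (nat_lit 5) (nat_lit 37) (nat_lit 5) (nat_lit 38) (nat_lit 4) (nat_lit 521) (nat_lit 389) (nat_lit 290))) (XT.nd (nat_lit 78) (nat_lit 76) (nat_lit 0) (XT.lf (nat_lit 0) (nat_lit 26459974294) (nat_lit 152) (nat_lit 7155658445) (nat_lit 0) (nat_lit 3589869334) (nat_lit 36) (nat_lit 5) (nat_lit 38) (nat_lit 4) (nat_lit 36) (nat_lit 4) (nat_lit 522) (nat_lit 389) (nat_lit 289)) (XT.lf (nat_lit 0) (nat_lit 10230213131) (nat_lit 76) (nat_lit 25362991331) (nat_lit 76) (nat_lit 2456323826) (nat_lit 35) (nat_lit 4) (nat_lit 36) (nat_lit 5) (nat_lit 36) (nat_lit 4) (nat_lit 523) (nat_lit 389) (nat_lit 288))))) (XT.nd (nat_lit 312) (nat_lit 152) (nat_lit 0) (XT.nd (nat_lit 156) (nat_lit 76) (nat_lit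 0) (XT.nd (nat_lit 78) (nat_lit 76) (nat_lit 0) (XT.lf (nat_lit 0) (nat_lit 6010862362) (nat_lit 152) (nat_lit 10740114526) (nat_lit 76) (nat_lit 22164705878) (nat_lit 34) (nat_lit 5) (nat_lit 36) (nat_lit 5) (nat_lit 35) (nat_lit 4) (nat_lit 524) (nat_lit 389) (nat_lit 287)) (XT.lf (nat_lit 0) (nat_lit 6914915094) (nat_lit 76) (nat_lit 7809983389) (nat_lit 152) (nat_lit 25080928293) (nat_lit 33) (nat_lit 5) (nat_lit 34) (nat_lit 5) (nat_lit 35) (nat_lit 4) (nat_lit 525) (nat_lit 389) (nat_lit 286))) (XT.nd (nat_lit 78) (nat_lit 76) (nat_lit 0) (XT.lf (nat_lit 0) (nat_lit 23799107332) (nat_lit 152) (nat_lit 15461390474) (nat_lit 0) (nat_lit 1459215354) (nat_lit 33) (nat_lit 5) (nat_lit 35) (nat_lit 4) (nat_lit 33) (nat_lit 4) (nat_lit 526) (nat_lit 389) (nat_lit 285)) (XT.lf (nat_lit 0) (nat_lit 2414987471) (nat_lit 76) (nat_lit 30807574901) (nat_lit 76) (nat_lit 8436143750) (nat_lit 32) (nat_lit 4) (nat_lit 33)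 (nat_lit 5) (nat_lit 33) (nat_lit 4) (nat_lit 527) (nat_lit 389) (nat_lit 284)))) (XT.nd (nat_lit 156) (nat_lit 76) (nat_lit 0) (XT.nd (nat_lit 78) (nat_lit 0) (nat_lit 0) (XT.lf (nat_lit 0) (nat_lit 431114940) (nat_lit 152) (nat_lit 21526888376) (nat_lit 76) (nat_lit 20663753597) (nat_lit 31) (nat_lit 5) (nat_lit 33) (nat_lit 5) (nat_lit 32) (nat_lit 4) (nat_lit 528) (nat_lit 389) (nat_lit 283)) (XT.lf (nat_lit 0) (nat_lit 9372014734) (nat_lit 152) (nat_lit 3406590490) (nat_lit 76) (nat_lit 30833273311) (nat_lit 31) (nat_lit 5) (nat_lit 33) (nat_lit 5) (nat_lit 32) (nat_lit 4) (nat_lit 529) (nat_lit 389) (nat_lit 282))) (XT.nd (nat_lit 78) (nat_lit 0) (nat_lit 0) (XT.lf (nat_lit 0) (nat_lit 15516892105) (nat_lit 76) (nat_lit 3191253371) (nat_lit 152) (nat_lit 25919748730) (nat_lit 30) (nat_lit 5) (nat_lit 31) (nat_lit 5) (nat_lit 32) (nat_lit 4) (nat_lit 530) (nat_lit 389) (nat_lit 281)) (XT.lf (nat_lit 0) (nat_lit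 28401228010) (nat_lit 152) (nat_lit 10703284484) (nat_lit 0) (nat_lit 6567572321) (nat_lit 30) (nat_lit 5) (nat_lit 32) (nat_lit 4) (nat_lit 30) (nat_lit 4) (nat_lit 531) (nat_lit 389) (nat_lit 280))))))))
noncomputable def xc73 : XT := (XT.nd (nat_lit 54444) (nat_lit 0) (nat_lit 8284) (XT.nd (nat_lit 1170) (nat_lit 228) (nat_lit 0) (XT.nd (nat_lit 546) (nat_lit 380) (nat_lit 0) (XT.nd (nat_lit 234) (nat_lit 152) (nat_lit 0) (XT.nd (nat_lit 78) (nat_lit 76) (nat_lit 0) (XT.lf (nat_lit 0) (nat_lit 8345938593) (nat_lit 76) (nat_lit 30129510948) (nat_lit 76) (nat_lit 8269441698) (nat_lit 29) (nat_lit 4) (nat_lit 30) (nat_lit 5) (nat_lit 30) (nat_lit 4) (nat_lit 532) (nat_lit 389) (nat_lit 279)) (XT.nd (nat_lit 78) (nat_lit 0) (nat_lit 0) (XT.lf (nat_lit 0) (nat_lit 1070153909) (nat_lit 152) (nat_lit 19713301048) (nat_lit 76) (nat_lit 27063507670) (nat_lit 28) (nat_lit 5) (nat_lit 30) (nat_lit 5) (nat_lit 29) (nat_lit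 4) (nat_lit 533) (nat_lit 389) (nat_lit 278)) (XT.lf (nat_lit 0) (nat_lit 10502893558) (nat_lit 152) (nat_lit 589736874) (nat_lit 76) (nat_lit 37887634989) (nat_lit 28) (nat_lit 5) (nat_lit 30) (nat_lit 5) (nat_lit 29) (nat_lit 4) (nat_lit 534) (nat_lit 389) (nat_lit 277)))) (XT.nd (nat_lit 156) (nat_lit 76) (nat_lit 0) (XT.nd (nat_lit 78) (nat_lit 0) (nat_lit 0) (XT.lf (nat_lit 0) (nat_lit 19447430126) (nat_lit 76) (nat_lit 937896511) (nat_lit 152) (nat_lit 29757239762) (nat_lit 27) (nat_lit 5) (nat_lit 28) (nat_lit 5) (nat_lit 29) (nat_lit 4) (nat_lit 535) (nat_lit 389) (nat_lit 276)) (XT.lf (nat_lit 0) (nat_lit 30641571676) (nat_lit 152) (nat_lit 11372963651) (nat_lit 0) (nat_lit 9322881331) (nat_lit 27) (nat_lit 5) (nat_lit 29) (nat_lit 4) (nat_lit 27) (nat_lit 4) (nat_lit 536) (nat_lit 389) (nat_lit 275))) (XT.nd (nat_lit 78) (nat_lit 0) (nat_lit 0) (XT.lf (nat_lit 0) (nat_lit 8649911182) (nat_lit 76) (nat_lit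 32628414151) (nat_lit 76) (nat_lit 11287602865) (nat_lit 26) (nat_lit 4) (nat_lit 27) (nat_lit 5) (nat_lit 27) (nat_lit 4) (nat_lit 537) (nat_lit 389) (nat_lit 274)) (XT.lf (nat_lit 0) (nat_lit 29468516216) (nat_lit 76) (nat_lit 22861102047) (nat_lit 76) (nat_lit 1498814119) (nat_lit 26) (nat_lit 4) (nat_lit 27) (nat_lit 5) (nat_lit 27) (nat_lit 4) (nat_lit 538) (nat_lit 389) (nat_lit 273))))) (XT.nd (nat_lit 312) (nat_lit 152) (nat_lit 0) (XT.nd (nat_lit 156) (nat_lit 76) (nat_lit 0) (XT.nd (nat_lit 78) (nat_lit 76) (nat_lit 0) (XT.lf (nat_lit 0) (nat_lit 8397110959) (nat_lit 152) (nat_lit 4337003789) (nat_lit 76) (nat_lit 42392792873) (nat_lit 25) (nat_lit 5) (nat_lit 27) (nat_lit 5) (nat_lit 26) (nat_lit 4) (nat_lit 539) (nat_lit 389) (nat_lit 272)) (XT.lf (nat_lit 0) (nat_lit 16558602031) (nat_lit 76) (nat_lit 2141883123) (nat_lit 152) (nat_lit 37759186255) (nat_lit 24) (nat_lit 5) (nat_lit 25) (nat_lit 5)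 (nat_lit 26) (nat_lit 4) (nat_lit 540) (nat_lit 389) (nat_lit 271))) (XT.nd (nat_lit 78) (nat_lit 76) (nat_lit 0) (XT.lf (nat_lit 0) (nat_lit 29423021902) (nat_lit 152) (nat_lit 19782137868) (nat_lit 0) (nat_lit 8623956852) (nat_lit 24) (nat_lit 5) (nat_lit 26) (nat_lit 4) (nat_lit 24) (nat_lit 4) (nat_lit 541) (nat_lit 389) (nat_lit 270)) (XT.lf (nat_lit 0) (nat_lit 901507785) (nat_lit 76) (nat_lit 39577685001) (nat_lit 76) (nat_lit 18760094011) (nat_lit 23) (nat_lit 4) (nat_lit 24) (nat_lit 5) (nat_lit 24) (nat_lit 4) (nat_lit 542) (nat_lit 389) (nat_lit 269)))) (XT.nd (nat_lit 156) (nat_lit 76) (nat_lit 0) (XT.nd (nat_lit 78) (nat_lit 76) (nat_lit 0) (XT.lf (nat_lit 0) (nat_lit 22576284018) (nat_lit 76) (nat_lit 29472797377) (nat_lit 76) (nat_lit 8637220037) (nat_lit 23) (nat_lit 4) (nat_lit 24) (nat_lit 5) (nat_lit 24) (nat_lit 4) (nat_lit 543) (nat_lit 389) (nat_lit 268)) (XT.lf (nat_lit 0) (nat_lit 1737041102)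 (nat_lit 152) (nat_lit 17326846378) (nat_lit 76) (nat_lit 43112844811) (nat_lit 22) (nat_lit 5) (nat_lit 24) (nat_lit 5) (nat_lit 23) (nat_lit 4) (nat_lit 544) (nat_lit 389) (nat_lit 267))) (XT.nd (nat_lit 78) (nat_lit 0) (nat_lit 0) (XT.lf (nat_lit 0) (nat_lit 4039909559) (nat_lit 76) (nat_lit 8230978733) (nat_lit 152) (nat_lit 51437763844) (nat_lit 21) (nat_lit 5) (nat_lit 22) (nat_lit 5) (nat_lit 23) (nat_lit 4) (nat_lit 545) (nat_lit 389) (nat_lit 266)) (XT.lf (nat_lit 0) (nat_lit 23308729008) (nat_lit 152) (nat_lit 38941542934) (nat_lit 0) (nat_lit 3030618587) (nat_lit 21) (nat_lit 5) (nat_lit 23) (nat_lit 4) (nat_lit 21) (nat_lit 4) (nat_lit 546) (nat_lit 389) (nat_lit 265)))))) (XT.nd (nat_lit 52650) (nat_lit 0) (nat_lit 18544) (XT.nd (nat_lit 234) (nat_lit 152) (nat_lit 0) (XT.nd (nat_lit 78) (nat_lit 76) (nat_lit 0) (XT.lf (nat_lit 0) (nat_lit 34742834023) (nat_lit 152) (nat_lit 17706300047) (nat_lit 0)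 (nat_lit 14449208420) (nat_lit 21) (nat_lit 5) (nat_lit 23) (nat_lit 4) (nat_lit 21) (nat_lit 4) (nat_lit 547) (nat_lit 389) (nat_lit 264)) (XT.nd (nat_lit 78) (nat_lit 0) (nat_lit 0) (XT.lf (nat_lit 0) (nat_lit 4216950240) (nat_lit 76) (nat_lit 42327658766) (nat_lit 76) (nat_lit 22018969878) (nat_lit 20) (nat_lit 4) (nat_lit 21) (nat_lit 5) (nat_lit 21) (nat_lit 4) (nat_lit 548) (nat_lit 389) (nat_lit 263)) (XT.lf (nat_lit 0) (nat_lit 27129829289) (nat_lit 76) (nat_lit 31733682280) (nat_lit 76) (nat_lit 11410368843) (nat_lit 20) (nat_lit 4) (nat_lit 21) (nat_lit 5) (nat_lit 21) (nat_lit 4) (nat_lit 549) (nat_lit 389) (nat_lit 262)))) (XT.nd (nat_lit 156) (nat_lit 0) (nat_lit 0) (XT.nd (nat_lit 78) (nat_lit 152) (nat_lit 0) (XT.lf (nat_lit 0) (nat_lit 50699967972) (nat_lit 76) (nat_lit 20836746651) (nat_lit 76) (nat_lit 499234624) (nat_lit 20) (nat_lit 4) (nat_lit 21) (nat_lit 5) (nat_lit 21) (nat_lit 4) (nat_lit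 550) (nat_lit 389) (nat_lit 261)) (XT.lf (nat_lit 0) (nat_lit 1013324781) (nat_lit 76) (nat_lit 9511119478) (nat_lit 152) (nat_lit 63323496021) (nat_lit 18) (nat_lit 5) (nat_lit 19) (nat_lit 5) (nat_lit 20) (nat_lit 4) (nat_lit 551) (nat_lit 389) (nat_lit 260))) (XT.nd (nat_lit 52182) (nat_lit 0) (nat_lit 24928) (XT.lf (nat_lit 0) (nat_lit 22092139346) (nat_lit 152) (nat_lit 51294698668) (nat_lit 0) (nat_lit 2320604784) (nat_lit 18) (nat_lit 5) (nat_lit 20) (nat_lit 4) (nat_lit 18) (nat_lit 4) (nat_lit 552) (nat_lit 389) (nat_lit 259)) (XT.lf (nat_lit 0) (nat_lit 3232115417) (nat_lit 836) (nat_lit 101781702) (nat_lit 836) (nat_lit 101781702) (nat_lit 346) (nat_lit 4) (nat_lit 357) (nat_lit 5) (nat_lit 357) (nat_lit 4) (nat_lit 420) (nat_lit 390) (nat_lit 390))))) (XT.nd (nat_lit 312) (nat_lit 3268) (nat_lit 0) (XT.nd (nat_lit 156) (nat_lit 1140) (nat_lit 0) (XT.nd (nat_lit 78) (nat_lit 988) (nat_lit 0) (XT.lf (nat_lit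 0) (nat_lit 3163375663) (nat_lit 988) (nat_lit 2508293234) (nat_lit 0) (nat_lit 1243714693) (nat_lit 333) (nat_lit 5) (nat_lit 346) (nat_lit 4) (nat_lit 333) (nat_lit 4) (nat_lit 421) (nat_lit 390) (nat_lit 389)) (XT.lf (nat_lit 0) (nat_lit 2358957749) (nat_lit 988) (nat_lit 4193696734) (nat_lit 988) (nat_lit 410287248) (nat_lit 320) (nat_lit 4) (nat_lit 333) (nat_lit 5) (nat_lit 333) (nat_lit 4) (nat_lit 422) (nat_lit 390) (nat_lit 388))) (XT.nd (nat_lit 78) (nat_lit 0) (nat_lit 0) (XT.lf (nat_lit 0) (nat_lit 291166510) (nat_lit 1064) (nat_lit 2607375643) (nat_lit 1140) (nat_lit 4114762289) (nat_lit 305) (nat_lit 5) (nat_lit 319) (nat_lit 5) (nat_lit 320) (nat_lit 4) (nat_lit 423) (nat_lit 390) (nat_lit 387)) (XT.lf (nat_lit 0) (nat_lit 5326763369) (nat_lit 1064) (nat_lit 917768236) (nat_lit 1140) (nat_lit 822171955) (nat_lit 305) (nat_lit 5) (nat_lit 319) (nat_lit 5) (nat_lit 320) (nat_lit 4) (nat_lit 424) (nat_lit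 390) (nat_lit 386)))) (XT.nd (nat_lit 156) (nat_lit 836) (nat_lit 0) (XT.nd (nat_lit 78) (nat_lit 1216) (nat_lit 0) (XT.lf (nat_lit 0) (nat_lit 2461243328) (nat_lit 1216) (nat_lit 3795161186) (nat_lit 76) (nat_lit 866323608) (nat_lit 289) (nat_lit 5) (nat_lit 305) (nat_lit 5) (nat_lit 290) (nat_lit 4) (nat_lit 425) (nat_lit 390) (nat_lit 385)) (XT.lf (nat_lit 0) (nat_lit 1313273015) (nat_lit 1216) (nat_lit 4456403831) (nat_lit 1292) (nat_lit 1412250099) (nat_lit 273) (nat_lit 5) (nat_lit 289) (nat_lit 5) (nat_lit 290) (nat_lit 4) (nat_lit 426) (nat_lit 390) (nat_lit 384))) (XT.nd (nat_lit 78) (nat_lit 760) (nat_lit 0) (XT.lf (nat_lit 0) (nat_lit 1839915920) (nat_lit 1292) (nat_lit 706750962) (nat_lit 76) (nat_lit 4697408205) (nat_lit 272) (nat_lit 5) (nat_lit 289) (nat_lit 5) (nat_lit 273) (nat_lit 5) (nat_lit 427) (nat_lit 390) (nat_lit 383)) (XT.lf (nat_lit 0) (nat_lit 4589683210) (nat_lit 760) (nat_lit 522978761)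 (nat_lit 836) (nat_lit 2196490721) (nat_lit 262) (nat_lit 5) (nat_lit 272) (nat_lit 5) (nat_lit 273) (nat_lit 5) (nat_lit 428) (nat_lit 390) (nat_lit 382))))))) (XT.nd (nat_lit 1170) (nat_lit 4256) (nat_lit 0) (XT.nd (nat_lit 546) (nat_lit 2964) (nat_lit 0) (XT.nd (nat_lit 234) (nat_lit 1672) (nat_lit 0) (XT.nd (nat_lit 78) (nat_lit 684) (nat_lit 0) (XT.lf (nat_lit 0) (nat_lit 1041792244) (nat_lit 684) (nat_lit 4765794624) (nat_lit 76) (nat_lit 1569621558) (nat_lit 253) (nat_lit 5) (nat_lit 262) (nat_lit 5) (nat_lit 254) (nat_lit 5) (nat_lit 429) (nat_lit 390) (nat_lit 381)) (XT.nd (nat_lit 78) (nat_lit 76) (nat_lit 0) (XT.lf (nat_lit 0) (nat_lit 597408253) (nat_lit 608) (nat_lit 3684163704) (nat_lit 684) (nat_lit 3166650832) (nat_lit 245) (nat_lit 5) (nat_lit 253) (nat_lit 5) (nat_lit 254) (nat_lit 5) (nat_lit 430) (nat_lit 390) (nat_lit 380)) (XT.lf (nat_lit 0) (nat_lit 54513554) (nat_lit 684) (nat_lit 1401508558)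 (nat_lit 76) (nat_lit 6066563331) (nat_lit 244) (nat_lit 5) (nat_lit 253) (nat_lit 5) (nat_lit 245) (nat_lit 5) (nat_lit 431) (nat_lit 390) (nat_lit 379)))) (XT.nd (nat_lit 156) (nat_lit 608) (nat_lit 0) (XT.nd (nat_lit 78) (nat_lit 532) (nat_lit 0) (XT.lf (nat_lit 0) (nat_lit 3270611804) (nat_lit 608) (nat_lit 3443629485) (nat_lit 76) (nat_lit 885160922) (nat_lit 237) (nat_lit 5) (nat_lit 245) (nat_lit 5) (nat_lit 238) (nat_lit 5) (nat_lit 432) (nat_lit 390) (nat_lit 378)) (XT.lf (nat_lit 0) (nat_lit 2159984346) (nat_lit 532) (nat_lit 4387423174) (nat_lit 608) (nat_lit 1132211069) (nat_lit 230) (nat_lit 5) (nat_lit 237) (nat_lit 5) (nat_lit 238) (nat_lit 5) (nat_lit 433) (nat_lit 390) (nat_lit 377))) (XT.nd (nat_lit 78) (nat_lit 0) (nat_lit 0) (XT.lf (nat_lit 0) (nat_lit 123648230) (nat_lit 532) (nat_lit 1946213414) (nat_lit 608) (nat_lit 5693224630) (nat_lit 222) (nat_lit 5) (nat_lit 229) (nat_lit 5) (nat_lit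 230) (nat_lit 5) (nat_lit 434) (nat_lit 390) (nat_lit 376)) (XT.lf (nat_lit 0) (nat_lit 5323816553) (nat_lit 608) (nat_lit 1915388274) (nat_lit 76) (nat_lit 610179286) (nat_lit 222) (nat_lit 5) (nat_lit 230) (nat_lit 5) (nat_lit 223) (nat_lit 5) (nat_lit 435) (nat_lit 390) (nat_lit 375))))) (XT.nd (nat_lit 312) (nat_lit 1368) (nat_lit 0) (XT.nd (nat_lit 156) (nat_lit 532) (nat_lit 0) (XT.nd (nat_lit 78) (nat_lit 456) (nat_lit 0) (XT.lf (nat_lit 0) (nat_lit 698880870) (nat_lit 608) (nat_lit 4005075091) (nat_lit 76) (nat_lit 3234836575) (nat_lit 214) (nat_lit 5) (nat_lit 222) (nat_lit 5) (nat_lit 215) (nat_lit 5) (nat_lit 436) (nat_lit 390) (nat_lit 374)) (XT.lf (nat_lit 0) (nat_lit 1880865332) (nat_lit 456) (nat_lit 2045919432) (nat_lit 532) (nat_lit 4104641817) (nat_lit 208) (nat_lit 5) (nat_lit 214) (nat_lit 5) (nat_lit 215) (nat_lit 5) (nat_lit 437) (nat_lit 390) (nat_lit 373))) (XT.nd (nat_lit 78) (nat_lit 532)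 (nat_lit 0) (XT.lf (nat_lit 0) (nat_lit 7220117414) (nat_lit 532) (nat_lit 206334751) (nat_lit 76) (nat_lit 701347250) (nat_lit 208) (nat_lit 5) (nat_lit 215) (nat_lit 5) (nat_lit 209) (nat_lit 5) (nat_lit 438) (nat_lit 390) (nat_lit 372)) (XT.lf (nat_lit 0) (nat_lit 2339143309) (nat_lit 532) (nat_lit 2334864263) (nat_lit 76) (nat_lit 3552369528) (nat_lit 201) (nat_lit 5) (nat_lit 208) (nat_lit 5) (nat_lit 202) (nat_lit 5) (nat_lit 439) (nat_lit 390) (nat_lit 371)))) (XT.nd (nat_lit 156) (nat_lit 380) (nat_lit 0) (XT.nd (nat_lit 78) (nat_lit 532) (nat_lit 0) (XT.lf (nat_lit 0) (nat_lit 3817318143) (nat_lit 456) (nat_lit 1810559100) (nat_lit 532) (nat_lit 2700898873) (nat_lit 195) (nat_lit 5) (nat_lit 201) (nat_lit 5) (nat_lit 202) (nat_lit 5) (nat_lit 440) (nat_lit 390) (nat_lit 370)) (XT.lf (nat_lit 0) (nat_lit 545499940) (nat_lit 532) (nat_lit 6748043297) (nat_lit 76) (nat_lit 1141277065) (nat_lit 188) (nat_lit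 5) (nat_lit 195) (nat_lit 5) (nat_lit 189) (nat_lit 5) (nat_lit 441) (nat_lit 390) (nat_lit 369))) (XT.nd (nat_lit 78) (nat_lit 380) (nat_lit 0) (XT.lf (nat_lit 0) (nat_lit 3824484982) (nat_lit 532) (nat_lit 522840341) (nat_lit 76) (nat_lit 4196248525) (nat_lit 188) (nat_lit 5) (nat_lit 195) (nat_lit 5) (nat_lit 189) (nat_lit 5) (nat_lit 442) (nat_lit 390) (nat_lit 368)) (XT.lf (nat_lit 0) (nat_lit 5908807449) (nat_lit 380) (nat_lit 1277545169) (nat_lit 456) (nat_lit 1469716230) (nat_lit 183) (nat_lit 5) (nat_lit 188) (nat_lit 5) (nat_lit 189) (nat_lit 5) (nat_lit 443) (nat_lit 390) (nat_lit 367)))))) (XT.nd (nat_lit 624) (nat_lit 1900) (nat_lit 0) (XT.nd (nat_lit 312) (nat_lit 1064) (nat_lit 0) (XT.nd (nat_lit 156) (nat_lit 456) (nat_lit 0) (XT.nd (nat_lit 78) (nat_lit 380) (nat_lit 0) (XT.lf (nat_lit 0) (nat_lit 1828361843) (nat_lit 456) (nat_lit 5059864355) (nat_lit 76) (nat_lit 1883548982) (nat_lit 177) (nat_lit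 5) (nat_lit 183) (nat_lit 5) (nat_lit 178) (nat_lit 5) (nat_lit 444) (nat_lit 390) (nat_lit 366)) (XT.lf (nat_lit 0) (nat_lit 1434498661) (nat_lit 380) (nat_lit 3744931174) (nat_lit 456) (nat_lit 3711591728) (nat_lit 172) (nat_lit 5) (nat_lit 177) (nat_lit 5) (nat_lit 178) (nat_lit 5) (nat_lit 445) (nat_lit 390) (nat_lit 365))) (XT.nd (nat_lit 78) (nat_lit 456) (nat_lit 0) (XT.lf (nat_lit 0) (nat_lit 8131294282) (nat_lit 380) (nat_lit 481102975) (nat_lit 456) (nat_lit 402019713) (nat_lit 172) (nat_lit 5) (nat_lit 177) (nat_lit 5) (nat_lit 178) (nat_lit 5) (nat_lit 446) (nat_lit 390) (nat_lit 364)) (XT.lf (nat_lit 0) (nat_lit 2964578294) (nat_lit 456) (nat_lit 3290703552) (nat_lit 76) (nat_lit 2884884820) (nat_lit 166) (nat_lit 5) (nat_lit 172) (nat_lit 5) (nat_lit 167) (nat_lit 5) (nat_lit 447) (nat_lit 390) (nat_lit 363)))) (XT.nd (nat_lit 156) (nat_lit 304) (nat_lit 0) (XT.nd (nat_lit 78) (nat_lit 456) (nat_lit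 0) (XT.lf (nat_lit 0) (nat_lit 3496565761) (nat_lit 304) (nat_lit 2907365947) (nat_lit 380) (nat_lit 2866254182) (nat_lit 162) (nat_lit 5) (nat_lit 166) (nat_lit 5) (nat_lit 167) (nat_lit 5) (nat_lit 448) (nat_lit 390) (nat_lit 362)) (XT.lf (nat_lit 0) (nat_lit 513887355) (nat_lit 456) (nat_lit 8338859091) (nat_lit 76) (nat_lit 551750436) (nat_lit 156) (nat_lit 5) (nat_lit 162) (nat_lit 5) (nat_lit 157) (nat_lit 5) (nat_lit 449) (nat_lit 390) (nat_lit 361))) (XT.nd (nat_lit 78) (nat_lit 304) (nat_lit 0) (XT.lf (nat_lit 0) (nat_lit 3959100033) (nat_lit 456) (nat_lit 1467130195) (nat_lit 76) (nat_lit 4115127936) (nat_lit 156) (nat_lit 5) (nat_lit 162) (nat_lit 5) (nat_lit 157) (nat_lit 5) (nat_lit 450) (nat_lit 390) (nat_lit 360)) (XT.lf (nat_lit 0) (nat_lit 5626636555) (nat_lit 304) (nat_lit 1870663355) (nat_lit 380) (nat_lit 2185346738) (nat_lit 152) (nat_lit 5) (nat_lit 156) (nat_lit 5) (nat_lit 157) (nat_lit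 5) (nat_lit 451) (nat_lit 390) (nat_lit 359))))) (XT.nd (nat_lit 312) (nat_lit 836) (nat_lit 0) (XT.nd (nat_lit 156) (nat_lit 380) (nat_lit 0) (XT.nd (nat_lit 78) (nat_lit 304) (nat_lit 0) (XT.lf (nat_lit 0) (nat_lit 1285882797) (nat_lit 380) (nat_lit 6757099669) (nat_lit 76) (nat_lit 1784881002) (nat_lit 147) (nat_lit 5) (nat_lit 152) (nat_lit 5) (nat_lit 148) (nat_lit 5) (nat_lit 452) (nat_lit 390) (nat_lit 358)) (XT.lf (nat_lit 0) (nat_lit 390366629) (nat_lit 304) (nat_lit 4427165375) (nat_lit 380) (nat_lit 5159258909) (nat_lit 143) (nat_lit 5) (nat_lit 147) (nat_lit 5) (nat_lit 148) (nat_lit 5) (nat_lit 453) (nat_lit 390) (nat_lit 357))) (XT.nd (nat_lit 78) (nat_lit 380) (nat_lit 0) (XT.lf (nat_lit 0) (nat_lit 7796737984) (nat_lit 304) (nat_lit 664138723) (nat_lit 380) (nat_lit 1669146234) (nat_lit 143) (nat_lit 5) (nat_lit 147) (nat_lit 5) (nat_lit 148) (nat_lit 5) (nat_lit 454) (nat_lit 390) (nat_lit 356))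 (XT.lf (nat_lit 0) (nat_lit 1907339279) (nat_lit 380) (nat_lit 5192458404) (nat_lit 76) (nat_lit 3186930156) (nat_lit 138) (nat_lit 5) (nat_lit 143) (nat_lit 5) (nat_lit 139) (nat_lit 5) (nat_lit 455) (nat_lit 390) (nat_lit 355)))) (XT.nd (nat_lit 156) (nat_lit 608) (nat_lit 0) (XT.nd (nat_lit 78) (nat_lit 0) (nat_lit 0) (XT.lf (nat_lit 0) (nat_lit 2272937234) (nat_lit 228) (nat_lit 3276180312) (nat_lit 304) (nat_lit 4898782526) (nat_lit 135) (nat_lit 5) (nat_lit 138) (nat_lit 5) (nat_lit 139) (nat_lit 5) (nat_lit 456) (nat_lit 390) (nat_lit 354)) (XT.lf (nat_lit 0) (nat_lit 9299362860) (nat_lit 304) (nat_lit 644194913) (nat_lit 76) (nat_lit 670381411) (nat_lit 135) (nat_lit 5) (nat_lit 139) (nat_lit 5) (nat_lit 136) (nat_lit 5) (nat_lit 457) (nat_lit 390) (nat_lit 353))) (XT.nd (nat_lit 78) (nat_lit 228) (nat_lit 0) (XT.lf (nat_lit 0) (nat_lit 2373787626) (nat_lit 380) (nat_lit 3678788649) (nat_lit 76) (nat_lit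 4730414777) (nat_lit 130) (nat_lit 5) (nat_lit 135) (nat_lit 5) (nat_lit 131) (nat_lit 5) (nat_lit 458) (nat_lit 390) (nat_lit 352)) (XT.lf (nat_lit 0) (nat_lit 4117348322) (nat_lit 228) (nat_lit 2017083639) (nat_lit 304) (nat_lit 4822657944) (nat_lit 127) (nat_lit 5) (nat_lit 130) (nat_lit 5) (nat_lit 131) (nat_lit 5) (nat_lit 459) (nat_lit 390) (nat_lit 351))))))))
noncomputable def xc74 : XT := (XT.nd (nat_lit 2340) (nat_lit 2280) (nat_lit 0) (XT.nd (nat_lit 1170) (nat_lit 1900) (nat_lit 0) (XT.nd (nat_lit 546) (nat_lit 1140) (nat_lit 0) (XT.nd (nat_lit 234) (nat_lit 760) (nat_lit 0) (XT.nd (nat_lit 78) (nat_lit 304) (nat_lit 0) (XT.lf (nat_lit 0) (nat_lit 994183690) (nat_lit 304) (nat_lit 9023759607) (nat_lit 380) (nat_lit 1118174213) (nat_lit 123) (nat_lit 5) (nat_lit 127) (nat_lit 5) (nat_lit 128) (nat_lit 5) (nat_lit 460) (nat_lit 390) (nat_lit 350)) (XT.nd (nat_lit 78) (nat_lit 228) (nat_lit 0) (XT.lf (nat_lit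 0) (nat_lit 2677173634) (nat_lit 380) (nat_lit 2253708644) (nat_lit 76) (nat_lit 6387891590) (nat_lit 122) (nat_lit 5) (nat_lit 127) (nat_lit 5) (nat_lit 123) (nat_lit 5) (nat_lit 461) (nat_lit 390) (nat_lit 349)) (XT.lf (nat_lit 0) (nat_lit 5885606680) (nat_lit 228) (nat_lit 679191182) (nat_lit 304) (nat_lit 4941759823) (nat_lit 119) (nat_lit 5) (nat_lit 122) (nat_lit 5) (nat_lit 123) (nat_lit 5) (nat_lit 462) (nat_lit 390) (nat_lit 348)))) (XT.nd (nat_lit 156) (nat_lit 456) (nat_lit 0) (XT.nd (nat_lit 78) (nat_lit 76) (nat_lit 0) (XT.lf (nat_lit 0) (nat_lit 2539989353) (nat_lit 228) (nat_lit 8056791141) (nat_lit 304) (nat_lit 1102369044) (nat_lit 116) (nat_lit 5) (nat_lit 119) (nat_lit 5) (nat_lit 120) (nat_lit 5) (nat_lit 463) (nat_lit 390) (nat_lit 347)) (XT.lf (nat_lit 0) (nat_lit 2805565803) (nat_lit 304) (nat_lit 959549624) (nat_lit 76) (nat_lit 8131316675) (nat_lit 115) (nat_lit 5) (nat_lit 119) (nat_lit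 5) (nat_lit 116) (nat_lit 5) (nat_lit 464) (nat_lit 390) (nat_lit 346))) (XT.nd (nat_lit 78) (nat_lit 228) (nat_lit 0) (XT.lf (nat_lit 0) (nat_lit 6834383619) (nat_lit 304) (nat_lit 4570763831) (nat_lit 76) (nat_lit 693390082) (nat_lit 112) (nat_lit 5) (nat_lit 116) (nat_lit 5) (nat_lit 113) (nat_lit 5) (nat_lit 465) (nat_lit 390) (nat_lit 345)) (XT.lf (nat_lit 0) (nat_lit 3934580149) (nat_lit 228) (nat_lit 7081344980) (nat_lit 304) (nat_lit 1289830918) (nat_lit 109) (nat_lit 5) (nat_lit 112) (nat_lit 5) (nat_lit 113) (nat_lit 5) (nat_lit 466) (nat_lit 390) (nat_lit 344))))) (XT.nd (nat_lit 312) (nat_lit 456) (nat_lit 0) (XT.nd (nat_lit 156) (nat_lit 456) (nat_lit 0) (XT.nd (nat_lit 78) (nat_lit 0) (nat_lit 0) (XT.lf (nat_lit 0) (nat_lit 158671590) (nat_lit 152) (nat_lit 2585636524) (nat_lit 228) (nat_lit 9774220927) (nat_lit 106) (nat_lit 5) (nat_lit 108) (nat_lit 5) (nat_lit 109) (nat_lit 5) (nat_lit 467) (nat_lit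 390) (nat_lit 343)) (XT.lf (nat_lit 0) (nat_lit 6926097922) (nat_lit 228) (nat_lit 3740759828) (nat_lit 76) (nat_lit 2068873044) (nat_lit 106) (nat_lit 5) (nat_lit 109) (nat_lit 5) (nat_lit 107) (nat_lit 5) (nat_lit 468) (nat_lit 390) (nat_lit 342))) (XT.nd (nat_lit 78) (nat_lit 228) (nat_lit 0) (XT.lf (nat_lit 0) (nat_lit 5125540570) (nat_lit 228) (nat_lit 6131723730) (nat_lit 304) (nat_lit 1701471674) (nat_lit 103) (nat_lit 5) (nat_lit 106) (nat_lit 5) (nat_lit 107) (nat_lit 5) (nat_lit 469) (nat_lit 390) (nat_lit 341)) (XT.lf (nat_lit 0) (nat_lit 1057188139) (nat_lit 152) (nat_lit 1420906158) (nat_lit 228) (nat_lit 10709686363) (nat_lit 100) (nat_lit 5) (nat_lit 102) (nat_lit 5) (nat_lit 103) (nat_lit 5) (nat_lit 470) (nat_lit 390) (nat_lit 340)))) (XT.nd (nat_lit 156) (nat_lit 228) (nat_lit 0) (XT.nd (nat_lit 78) (nat_lit 228) (nat_lit 0) (XT.lf (nat_lit 0) (nat_lit 6811257434) (nat_lit 228) (nat_lit 3183371276)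 (nat_lit 76) (nat_lit 3426694978) (nat_lit 100) (nat_lit 5) (nat_lit 103) (nat_lit 5) (nat_lit 101) (nat_lit 5) (nat_lit 471) (nat_lit 390) (nat_lit 339)) (XT.lf (nat_lit 0) (nat_lit 6052527121) (nat_lit 228) (nat_lit 5245148828) (nat_lit 304) (nat_lit 2363503740) (nat_lit 97) (nat_lit 5) (nat_lit 100) (nat_lit 5) (nat_lit 101) (nat_lit 5) (nat_lit 472) (nat_lit 390) (nat_lit 338))) (XT.nd (nat_lit 78) (nat_lit 0) (nat_lit 0) (XT.lf (nat_lit 0) (nat_lit 1652154286) (nat_lit 152) (nat_lit 318573584) (nat_lit 228) (nat_lit 11936942864) (nat_lit 94) (nat_lit 5) (nat_lit 96) (nat_lit 5) (nat_lit 97) (nat_lit 5) (nat_lit 473) (nat_lit 390) (nat_lit 337)) (XT.lf (nat_lit 0) (nat_lit 6462237324) (nat_lit 228) (nat_lit 2966598722) (nat_lit 76) (nat_lit 4729779900) (nat_lit 94) (nat_lit 5) (nat_lit 97) (nat_lit 5) (nat_lit 95) (nat_lit 5) (nat_lit 474) (nat_lit 390) (nat_lit 336)))))) (XT.nd (nat_lit 546) (nat_lit 912)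 (nat_lit 0) (XT.nd (nat_lit 234) (nat_lit 532) (nat_lit 0) (XT.nd (nat_lit 78) (nat_lit 228) (nat_lit 0) (XT.lf (nat_lit 0) (nat_lit 6645742821) (nat_lit 228) (nat_lit 4462646710) (nat_lit 304) (nat_lit 3308107054) (nat_lit 91) (nat_lit 5) (nat_lit 94) (nat_lit 5) (nat_lit 95) (nat_lit 5) (nat_lit 475) (nat_lit 390) (nat_lit 335)) (XT.nd (nat_lit 78) (nat_lit 0) (nat_lit 0) (XT.lf (nat_lit 0) (nat_lit 1195902074) (nat_lit 228) (nat_lit 12819599995) (nat_lit 76) (nat_lit 666033792) (nat_lit 88) (nat_lit 5) (nat_lit 91) (nat_lit 5) (nat_lit 89) (nat_lit 5) (nat_lit 476) (nat_lit 390) (nat_lit 334)) (XT.lf (nat_lit 0) (nat_lit 5845219212) (nat_lit 228) (nat_lit 3169157657) (nat_lit 76) (nat_lit 5936870174) (nat_lit 88) (nat_lit 5) (nat_lit 91) (nat_lit 5) (nat_lit 89) (nat_lit 5) (nat_lit 477) (nat_lit 390) (nat_lit 333)))) (XT.nd (nat_lit 156) (nat_lit 152) (nat_lit 0) (XT.nd (nat_lit 78) (nat_lit 228) (nat_lit 0)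 (XT.lf (nat_lit 0) (nat_lit 6824186325) (nat_lit 152) (nat_lit 3830036036) (nat_lit 228) (nat_lit 4574224557) (nat_lit 86) (nat_lit 5) (nat_lit 88) (nat_lit 5) (nat_lit 89) (nat_lit 5) (nat_lit 478) (nat_lit 390) (nat_lit 332)) (XT.lf (nat_lit 0) (nat_lit 108984629) (nat_lit 228) (nat_lit 13908738417) (nat_lit 76) (nat_lit 1495697806) (nat_lit 83) (nat_lit 5) (nat_lit 86) (nat_lit 5) (nat_lit 84) (nat_lit 5) (nat_lit 479) (nat_lit 390) (nat_lit 331))) (XT.nd (nat_lit 78) (nat_lit 152) (nat_lit 0) (XT.lf (nat_lit 0) (nat_lit 4919332013) (nat_lit 228) (nat_lit 3882405132) (nat_lit 76) (nat_lit 7001494047) (nat_lit 83) (nat_lit 5) (nat_lit 86) (nat_lit 5) (nat_lit 84) (nat_lit 5) (nat_lit 480) (nat_lit 390) (nat_lit 330)) (XT.lf (nat_lit 0) (nat_lit 6493637040) (nat_lit 152) (nat_lit 3399037028) (nat_lit 228) (nat_lit 6208504402) (nat_lit 81) (nat_lit 5) (nat_lit 83) (nat_lit 5) (nat_lit 84) (nat_lit 5) (nat_lit 481)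 (nat_lit 390) (nat_lit 329))))) (XT.nd (nat_lit 312) (nat_lit 532) (nat_lit 0) (XT.nd (nat_lit 156) (nat_lit 152) (nat_lit 0) (XT.nd (nat_lit 78) (nat_lit 76) (nat_lit 0) (XT.lf (nat_lit 0) (nat_lit 769459630) (nat_lit 152) (nat_lit 14270036216) (nat_lit 228) (nat_lit 1367842998) (nat_lit 79) (nat_lit 5) (nat_lit 81) (nat_lit 5) (nat_lit 82) (nat_lit 4) (nat_lit 482) (nat_lit 390) (nat_lit 328)) (XT.lf (nat_lit 0) (nat_lit 3635637296) (nat_lit 228) (nat_lit 5212559921) (nat_lit 76) (nat_lit 7870800335) (nat_lit 78) (nat_lit 5) (nat_lit 81) (nat_lit 5) (nat_lit 79) (nat_lit 5) (nat_lit 483) (nat_lit 390) (nat_lit 327))) (XT.nd (nat_lit 78) (nat_lit 0) (nat_lit 0) (XT.lf (nat_lit 0) (nat_lit 5544331737) (nat_lit 152) (nat_lit 3228526758) (nat_lit 228) (nat_lit 8266410174) (nat_lit 76) (nat_lit 5) (nat_lit 78) (nat_lit 5) (nat_lit 79) (nat_lit 5) (nat_lit 484) (nat_lit 390) (nat_lit 326)) (XT.lf (nat_lit 0) (nat_lit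 14099978114) (nat_lit 228) (nat_lit 737934995) (nat_lit 76) (nat_lit 2530164079) (nat_lit 76) (nat_lit 5) (nat_lit 79) (nat_lit 5) (nat_lit 77) (nat_lit 4) (nat_lit 485) (nat_lit 390) (nat_lit 325)))) (XT.nd (nat_lit 156) (nat_lit 152) (nat_lit 0) (XT.nd (nat_lit 78) (nat_lit 152) (nat_lit 0) (XT.lf (nat_lit 0) (nat_lit 1935936203) (nat_lit 228) (nat_lit 7283265225) (nat_lit 76) (nat_lit 8484234995) (nat_lit 73) (nat_lit 5) (nat_lit 76) (nat_lit 5) (nat_lit 74) (nat_lit 5) (nat_lit 486) (nat_lit 390) (nat_lit 324)) (XT.lf (nat_lit 0) (nat_lit 3848281284) (nat_lit 152) (nat_lit 3385967600) (nat_lit 228) (nat_lit 10813524059) (nat_lit 71) (nat_lit 5) (nat_lit 73) (nat_lit 5) (nat_lit 74) (nat_lit 5) (nat_lit 487) (nat_lit 390) (nat_lit 323))) (XT.nd (nat_lit 78) (nat_lit 152) (nat_lit 0) (XT.lf (nat_lit 0) (nat_lit 12750481379) (nat_lit 228) (nat_lit 3037156922) (nat_lit 76) (nat_lit 2613034564) (nat_lit 71) (nat_lit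 5) (nat_lit 74) (nat_lit 5) (nat_lit 72) (nat_lit 4) (nat_lit 488) (nat_lit 390) (nat_lit 322)) (XT.lf (nat_lit 0) (nat_lit 8520891105) (nat_lit 152) (nat_lit 9987410882) (nat_lit 228) (nat_lit 253577110) (nat_lit 69) (nat_lit 5) (nat_lit 71) (nat_lit 5) (nat_lit 72) (nat_lit 4) (nat_lit 489) (nat_lit 390) (nat_lit 321))))))) (XT.nd (nat_lit 1170) (nat_lit 836) (nat_lit 0) (XT.nd (nat_lit 546) (nat_lit 836) (nat_lit 0) (XT.nd (nat_lit 234) (nat_lit 304) (nat_lit 0) (XT.nd (nat_lit 78) (nat_lit 76) (nat_lit 0) (XT.lf (nat_lit 0) (nat_lit 1256168150) (nat_lit 152) (nat_lit 3949039938) (nat_lit 228) (nat_lit 13927072088) (nat_lit 66) (nat_lit 5) (nat_lit 68) (nat_lit 5) (nat_lit 69) (nat_lit 5) (nat_lit 490) (nat_lit 390) (nat_lit 320)) (XT.nd (nat_lit 78) (nat_lit 76) (nat_lit 0) (XT.lf (nat_lit 0) (nat_lit 10909812037) (nat_lit 228) (nat_lit 6300013834) (nat_lit 76) (nat_lit 2301279688) (nat_lit 66) (nat_lit 5)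 (nat_lit 69) (nat_lit 5) (nat_lit 67) (nat_lit 4) (nat_lit 491) (nat_lit 390) (nat_lit 319)) (XT.lf (nat_lit 0) (nat_lit 5623980632) (nat_lit 76) (nat_lit 11216761964) (nat_lit 152) (nat_lit 3058899538) (nat_lit 65) (nat_lit 5) (nat_lit 66) (nat_lit 5) (nat_lit 67) (nat_lit 4) (nat_lit 492) (nat_lit 390) (nat_lit 318)))) (XT.nd (nat_lit 156) (nat_lit 76) (nat_lit 0) (XT.nd (nat_lit 78) (nat_lit 152) (nat_lit 0) (XT.lf (nat_lit 0) (nat_lit 2624401191) (nat_lit 152) (nat_lit 2359289466) (nat_lit 76) (nat_lit 15314591738) (nat_lit 64) (nat_lit 5) (nat_lit 66) (nat_lit 5) (nat_lit 65) (nat_lit 5) (nat_lit 493) (nat_lit 390) (nat_lit 317)) (XT.lf (nat_lit 0) (nat_lit 8490914974) (nat_lit 228) (nat_lit 10709361277) (nat_lit 76) (nat_lit 1505473090) (nat_lit 62) (nat_lit 5) (nat_lit 65) (nat_lit 5) (nat_lit 63) (nat_lit 4) (nat_lit 494) (nat_lit 390) (nat_lit 316))) (XT.nd (nat_lit 78) (nat_lit 0) (nat_lit 0) (XT.lf (nat_lit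 0) (nat_lit 1559029175) (nat_lit 76) (nat_lit 13026108670) (nat_lit 152) (nat_lit 6538752894) (nat_lit 61) (nat_lit 5) (nat_lit 62) (nat_lit 5) (nat_lit 63) (nat_lit 4) (nat_lit 495) (nat_lit 390) (nat_lit 315)) (XT.lf (nat_lit 0) (nat_lit 14347484034) (nat_lit 76) (nat_lit 6586589905) (nat_lit 152) (nat_lit 618347641) (nat_lit 61) (nat_lit 5) (nat_lit 62) (nat_lit 5) (nat_lit 63) (nat_lit 4) (nat_lit 496) (nat_lit 390) (nat_lit 314))))) (XT.nd (nat_lit 312) (nat_lit 456) (nat_lit 0) (XT.nd (nat_lit 156) (nat_lit 152) (nat_lit 0) (XT.nd (nat_lit 78) (nat_lit 0) (nat_lit 0) (XT.lf (nat_lit 0) (nat_lit 5391393210) (nat_lit 228) (nat_lit 16478444783) (nat_lit 76) (nat_lit 121832285) (nat_lit 58) (nat_lit 5) (nat_lit 61) (nat_lit 5) (nat_lit 59) (nat_lit 4) (nat_lit 497) (nat_lit 390) (nat_lit 313)) (XT.lf (nat_lit 0) (nat_lit 11672248671) (nat_lit 228) (nat_lit 3819717499) (nat_lit 76) (nat_lit 6948850729) (nat_lit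 58) (nat_lit 5) (nat_lit 61) (nat_lit 5) (nat_lit 59) (nat_lit 4) (nat_lit 498) (nat_lit 390) (nat_lit 312))) (XT.nd (nat_lit 78) (nat_lit 76) (nat_lit 0) (XT.lf (nat_lit 0) (nat_lit 9336519017) (nat_lit 76) (nat_lit 8860352024) (nat_lit 152) (nat_lit 4704908239) (nat_lit 57) (nat_lit 5) (nat_lit 58) (nat_lit 5) (nat_lit 59) (nat_lit 4) (nat_lit 499) (nat_lit 390) (nat_lit 311)) (XT.lf (nat_lit 0) (nat_lit 1515194594) (nat_lit 152) (nat_lit 489357157) (nat_lit 76) (nat_lit 21371438086) (nat_lit 56) (nat_lit 5) (nat_lit 58) (nat_lit 5) (nat_lit 57) (nat_lit 5) (nat_lit 500) (nat_lit 390) (nat_lit 310)))) (XT.nd (nat_lit 156) (nat_lit 228) (nat_lit 0) (XT.nd (nat_lit 78) (nat_lit 76) (nat_lit 0) (XT.lf (nat_lit 0) (nat_lit 7970192732) (nat_lit 228) (nat_lit 10784531754) (nat_lit 76) (nat_lit 5104020504) (nat_lit 54) (nat_lit 5) (nat_lit 57) (nat_lit 5) (nat_lit 55) (nat_lit 4) (nat_lit 501) (nat_lit 390) (nat_lit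 309)) (XT.lf (nat_lit 0) (nat_lit 2668345948) (nat_lit 76) (nat_lit 11967722729) (nat_lit 152) (nat_lit 9719398705) (nat_lit 53) (nat_lit 5) (nat_lit 54) (nat_lit 5) (nat_lit 55) (nat_lit 4) (nat_lit 502) (nat_lit 390) (nat_lit 308))) (XT.nd (nat_lit 78) (nat_lit 228) (nat_lit 0) (XT.lf (nat_lit 0) (nat_lit 16683782506) (nat_lit 76) (nat_lit 4894153367) (nat_lit 152) (nat_lit 3286876501) (nat_lit 53) (nat_lit 5) (nat_lit 54) (nat_lit 5) (nat_lit 55) (nat_lit 4) (nat_lit 503) (nat_lit 390) (nat_lit 307)) (XT.lf (nat_lit 0) (nat_lit 3320071405) (nat_lit 228) (nat_lit 19661955478) (nat_lit 76) (nat_lit 2405051389) (nat_lit 50) (nat_lit 5) (nat_lit 53) (nat_lit 5) (nat_lit 51) (nat_lit 4) (nat_lit 504) (nat_lit 390) (nat_lit 306)))))) (XT.nd (nat_lit 546) (nat_lit 456) (nat_lit 0) (XT.nd (nat_lit 234) (nat_lit 304) (nat_lit 0) (XT.nd (nat_lit 78) (nat_lit 76) (nat_lit 0) (XT.lf (nat_lit 0) (nat_lit 10158890625) (nat_lit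 228) (nat_lit 5849210080) (nat_lit 76) (nat_lit 9912944630) (nat_lit 50) (nat_lit 5) (nat_lit 53) (nat_lit 5) (nat_lit 51) (nat_lit 4) (nat_lit 505) (nat_lit 390) (nat_lit 305)) (XT.nd (nat_lit 78) (nat_lit 0) (nat_lit 0) (XT.lf (nat_lit 0) (nat_lit 8484231723) (nat_lit 76) (nat_lit 8768973635) (nat_lit 152) (nat_lit 9216317348) (nat_lit 49) (nat_lit 5) (nat_lit 50) (nat_lit 5) (nat_lit 51) (nat_lit 4) (nat_lit 506) (nat_lit 390) (nat_lit 304)) (XT.lf (nat_lit 0) (nat_lit 23308916799) (nat_lit 76) (nat_lit 1279619150) (nat_lit 152) (nat_lit 2445074045) (nat_lit 49) (nat_lit 5) (nat_lit 50) (nat_lit 5) (nat_lit 51) (nat_lit 4) (nat_lit 507) (nat_lit 390) (nat_lit 303)))) (XT.nd (nat_lit 156) (nat_lit 76) (nat_lit 0) (XT.nd (nat_lit 78) (nat_lit 0) (nat_lit 0) (XT.lf (nat_lit 0) (nat_lit 4580216897) (nat_lit 228) (nat_lit 16595289624) (nat_lit 76) (nat_lit 6433629545) (nat_lit 46) (nat_lit 5) (nat_lit 49) (nat_lit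 5) (nat_lit 47) (nat_lit 4) (nat_lit 508) (nat_lit 390) (nat_lit 302)) (XT.lf (nat_lit 0) (nat_lit 11787573280) (nat_lit 228) (nat_lit 2024788484) (nat_lit 76) (nat_lit 14388227476) (nat_lit 46) (nat_lit 5) (nat_lit 49) (nat_lit 5) (nat_lit 47) (nat_lit 4) (nat_lit 509) (nat_lit 390) (nat_lit 301))) (XT.nd (nat_lit 78) (nat_lit 0) (nat_lit 0) (XT.lf (nat_lit 0) (nat_lit 13184143238) (nat_lit 76) (nat_lit 6124417172) (nat_lit 152) (nat_lit 9498304354) (nat_lit 45) (nat_lit 5) (nat_lit 46) (nat_lit 5) (nat_lit 47) (nat_lit 4) (nat_lit 510) (nat_lit 390) (nat_lit 300)) (XT.lf (nat_lit 0) (nat_lit 27063816308) (nat_lit 152) (nat_lit 613338420) (nat_lit 0) (nat_lit 1753915676) (nat_lit 45) (nat_lit 5) (nat_lit 47) (nat_lit 4) (nat_lit 45) (nat_lit 4) (nat_lit 511) (nat_lit 390) (nat_lit 299))))) (XT.nd (nat_lit 312) (nat_lit 152) (nat_lit 0) (XT.nd (nat_lit 156) (nat_lit 76) (nat_lit 0) (XT.nd (nat_lit 78) (nat_lit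 76) (nat_lit 0) (XT.lf (nat_lit 0) (nat_lit 5059000483) (nat_lit 152) (nat_lit 15093822982) (nat_lit 76) (nat_lit 9914392062) (nat_lit 43) (nat_lit 5) (nat_lit 45) (nat_lit 5) (nat_lit 44) (nat_lit 4) (nat_lit 512) (nat_lit 390) (nat_lit 298)) (XT.lf (nat_lit 0) (nat_lit 244894445) (nat_lit 76) (nat_lit 12395804005) (nat_lit 152) (nat_lit 18081637290) (nat_lit 42) (nat_lit 5) (nat_lit 43) (nat_lit 5) (nat_lit 44) (nat_lit 4) (nat_lit 513) (nat_lit 390) (nat_lit 297))) (XT.nd (nat_lit 78) (nat_lit 76) (nat_lit 0) (XT.lf (nat_lit 0) (nat_lit 16299291610) (nat_lit 76) (nat_lit 4274908455) (nat_lit 152) (nat_lit 10819179824) (nat_lit 42) (nat_lit 5) (nat_lit 43) (nat_lit 5) (nat_lit 44) (nat_lit 4) (nat_lit 514) (nat_lit 390) (nat_lit 296)) (XT.lf (nat_lit 0) (nat_lit 671661957) (nat_lit 76) (nat_lit 28092324181) (nat_lit 76) (nat_lit 3320021727) (nat_lit 41) (nat_lit 4) (nat_lit 42) (nat_lit 5) (nat_lit 42) (nat_lit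 4) (nat_lit 515) (nat_lit 390) (nat_lit 295)))) (XT.nd (nat_lit 156) (nat_lit 0) (nat_lit 0) (XT.nd (nat_lit 78) (nat_lit 76) (nat_lit 0) (XT.lf (nat_lit 0) (nat_lit 4486964867) (nat_lit 152) (nat_lit 15710080111) (nat_lit 76) (nat_lit 12591976672) (nat_lit 40) (nat_lit 5) (nat_lit 42) (nat_lit 5) (nat_lit 41) (nat_lit 4) (nat_lit 516) (nat_lit 390) (nat_lit 294)) (XT.lf (nat_lit 0) (nat_lit 386539686) (nat_lit 76) (nat_lit 12051945928) (nat_lit 152) (nat_lit 21076403288) (nat_lit 39) (nat_lit 5) (nat_lit 40) (nat_lit 5) (nat_lit 41) (nat_lit 4) (nat_lit 517) (nat_lit 390) (nat_lit 293))) (XT.nd (nat_lit 78) (nat_lit 0) (nat_lit 0) (XT.lf (nat_lit 0) (nat_lit 17237217842) (nat_lit 76) (nat_lit 3523600653) (nat_lit 152) (nat_lit 13497746468) (nat_lit 39) (nat_lit 5) (nat_lit 40) (nat_lit 5) (nat_lit 41) (nat_lit 4) (nat_lit 518) (nat_lit 390) (nat_lit 292)) (XT.lf (nat_lit 0) (nat_lit 29357554399) (nat_lit 152)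 (nat_lit 531642750) (nat_lit 0) (nat_lit 5134612928) (nat_lit 39) (nat_lit 5) (nat_lit 41) (nat_lit 4) (nat_lit 39) (nat_lit 4) (nat_lit 519) (nat_lit 390) (nat_lit 291))))))))
noncomputable def xc75 : XT := (XT.nd (nat_lit 2340) (nat_lit 152) (nat_lit 0) (XT.nd (nat_lit 1170) (nat_lit 608) (nat_lit 0) (XT.nd (nat_lit 546) (nat_lit 380) (nat_lit 0) (XT.nd (nat_lit 234) (nat_lit 228) (nat_lit 0) (XT.nd (nat_lit 78) (nat_lit 76) (nat_lit 0) (XT.lf (nat_lit 0) (nat_lit 2525317694) (nat_lit 152) (nat_lit 19136499432) (nat_lit 76) (nat_lit 14144344759) (nat_lit 37) (nat_lit 5) (nat_lit 39) (nat_lit 5) (nat_lit 38) (nat_lit 4) (nat_lit 520) (nat_lit 390) (nat_lit 290)) (XT.nd (nat_lit 78) (nat_lit 76) (nat_lit 0) (XT.lf (nat_lit 0) (nat_lit 10829113975) (nat_lit 152) (nat_lit 2318582186) (nat_lit 76) (nat_lit 23463194882) (nat_lit 37) (nat_lit 5) (nat_lit 39) (nat_lit 5) (nat_lit 38) (nat_lit 4) (nat_lit 521) (nat_lit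 390) (nat_lit 289)) (XT.lf (nat_lit 0) (nat_lit 15254445374) (nat_lit 76) (nat_lit 4249883863) (nat_lit 152) (nat_lit 17931764365) (nat_lit 36) (nat_lit 5) (nat_lit 37) (nat_lit 5) (nat_lit 38) (nat_lit 4) (nat_lit 522) (nat_lit 390) (nat_lit 288)))) (XT.nd (nat_lit 156) (nat_lit 152) (nat_lit 0) (XT.nd (nat_lit 78) (nat_lit 76) (nat_lit 0) (XT.lf (nat_lit 0) (nat_lit 28486404054) (nat_lit 152) (nat_lit 4977774387) (nat_lit 0) (nat_lit 4820476361) (nat_lit 36) (nat_lit 5) (nat_lit 38) (nat_lit 4) (nat_lit 36) (nat_lit 4) (nat_lit 523) (nat_lit 390) (nat_lit 287)) (XT.lf (nat_lit 0) (nat_lit 12906216926) (nat_lit 76) (nat_lit 24974285555) (nat_lit 76) (nat_lit 1273894156) (nat_lit 35) (nat_lit 4) (nat_lit 36) (nat_lit 5) (nat_lit 36) (nat_lit 4) (nat_lit 524) (nat_lit 390) (nat_lit 286))) (XT.nd (nat_lit 78) (nat_lit 76) (nat_lit 0) (XT.lf (nat_lit 0) (nat_lit 7386924127) (nat_lit 152) (nat_lit 8738395327) (nat_lit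 76) (nat_lit 23921931136) (nat_lit 34) (nat_lit 5) (nat_lit 36) (nat_lit 5) (nat_lit 35) (nat_lit 4) (nat_lit 525) (nat_lit 390) (nat_lit 285)) (XT.lf (nat_lit 0) (nat_lit 9423501626) (nat_lit 76) (nat_lit 6926172404) (nat_lit 152) (nat_lit 24614807001) (nat_lit 33) (nat_lit 5) (nat_lit 34) (nat_lit 5) (nat_lit 35) (nat_lit 4) (nat_lit 526) (nat_lit 390) (nat_lit 284))))) (XT.nd (nat_lit 312) (nat_lit 228) (nat_lit 0) (XT.nd (nat_lit 156) (nat_lit 76) (nat_lit 0) (XT.nd (nat_lit 78) (nat_lit 76) (nat_lit 0) (XT.lf (nat_lit 0) (nat_lit 25672086915) (nat_lit 152) (nat_lit 13667065522) (nat_lit 0) (nat_lit 2567353101) (nat_lit 33) (nat_lit 5) (nat_lit 35) (nat_lit 4) (nat_lit 33) (nat_lit 4) (nat_lit 527) (nat_lit 390) (nat_lit 283)) (XT.lf (nat_lit 0) (nat_lit 4723464871) (nat_lit 76) (nat_lit 30642517334) (nat_lit 76) (nat_lit 7508054825) (nat_lit 32) (nat_lit 4) (nat_lit 33) (nat_lit 5) (nat_lit 33) (nat_lit 4)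 (nat_lit 528) (nat_lit 390) (nat_lit 282))) (XT.nd (nat_lit 78) (nat_lit 0) (nat_lit 0) (XT.lf (nat_lit 0) (nat_lit 1568440907) (nat_lit 152) (nat_lit 19979390278) (nat_lit 76) (nat_lit 22318820281) (nat_lit 31) (nat_lit 5) (nat_lit 33) (nat_lit 5) (nat_lit 32) (nat_lit 4) (nat_lit 529) (nat_lit 390) (nat_lit 281)) (XT.lf (nat_lit 0) (nat_lit 10744818398) (nat_lit 152) (nat_lit 1379366118) (nat_lit 76) (nat_lit 32763275467) (nat_lit 31) (nat_lit 5) (nat_lit 33) (nat_lit 5) (nat_lit 32) (nat_lit 4) (nat_lit 530) (nat_lit 390) (nat_lit 280)))) (XT.nd (nat_lit 156) (nat_lit 152) (nat_lit 0) (XT.nd (nat_lit 78) (nat_lit 0) (nat_lit 0) (XT.lf (nat_lit 0) (nat_lit 18090944268) (nat_lit 76) (nat_lit 2258561989) (nat_lit 152) (nat_lit 25584796418) (nat_lit 30) (nat_lit 5) (nat_lit 31) (nat_lit 5) (nat_lit 32) (nat_lit 4) (nat_lit 531) (nat_lit 390) (nat_lit 279)) (XT.lf (nat_lit 0) (nat_lit 30311519516) (nat_lit 152) (nat_lit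 8955365670) (nat_lit 0) (nat_lit 7743590394) (nat_lit 30) (nat_lit 5) (nat_lit 32) (nat_lit 4) (nat_lit 30) (nat_lit 4) (nat_lit 532) (nat_lit 390) (nat_lit 278))) (XT.nd (nat_lit 78) (nat_lit 76) (nat_lit 0) (XT.lf (nat_lit 0) (nat_lit 10645049616) (nat_lit 76) (nat_lit 30031788798) (nat_lit 76) (nat_lit 7438962362) (nat_lit 29) (nat_lit 4) (nat_lit 30) (nat_lit 5) (nat_lit 30) (nat_lit 4) (nat_lit 533) (nat_lit 390) (nat_lit 277)) (XT.lf (nat_lit 0) (nat_lit 2128973037) (nat_lit 152) (nat_lit 18295183320) (nat_lit 76) (nat_lit 28827391620) (nat_lit 28) (nat_lit 5) (nat_lit 30) (nat_lit 5) (nat_lit 29) (nat_lit 4) (nat_lit 534) (nat_lit 390) (nat_lit 276)))))) (XT.nd (nat_lit 546) (nat_lit 304) (nat_lit 0) (XT.nd (nat_lit 234) (nat_lit 228) (nat_lit 0) (XT.nd (nat_lit 78) (nat_lit 0) (nat_lit 0) (XT.lf (nat_lit 0) (nat_lit 1370297605) (nat_lit 76) (nat_lit 10457665103) (nat_lit 152) (nat_lit 38591389757) (nat_lit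 27) (nat_lit 5) (nat_lit 28) (nat_lit 5) (nat_lit 29) (nat_lit 4) (nat_lit 535) (nat_lit 390) (nat_lit 275)) (XT.nd (nat_lit 78) (nat_lit 0) (nat_lit 0) (XT.lf (nat_lit 0) (nat_lit 21962712849) (nat_lit 76) (nat_lit 20520703) (nat_lit 152) (nat_lit 29633998600) (nat_lit 27) (nat_lit 5) (nat_lit 28) (nat_lit 5) (nat_lit 29) (nat_lit 4) (nat_lit 536) (nat_lit 390) (nat_lit 274)) (XT.lf (nat_lit 0) (nat_lit 32527261508) (nat_lit 152) (nat_lit 9818635851) (nat_lit 0) (nat_lit 10502628300) (nat_lit 27) (nat_lit 5) (nat_lit 29) (nat_lit 4) (nat_lit 27) (nat_lit 4) (nat_lit 537) (nat_lit 390) (nat_lit 273)))) (XT.nd (nat_lit 156) (nat_lit 152) (nat_lit 0) (XT.nd (nat_lit 78) (nat_lit 0) (nat_lit 0) (XT.lf (nat_lit 0) (nat_lit 10786341730) (nat_lit 76) (nat_lit 32686669459) (nat_lit 76) (nat_lit 10641185143) (nat_lit 26) (nat_lit 4) (nat_lit 27) (nat_lit 5) (nat_lit 27) (nat_lit 4) (nat_lit 538) (nat_lit 390) (nat_lit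 272)) (XT.lf (nat_lit 0) (nat_lit 32174836958) (nat_lit 76) (nat_lit 22653151501) (nat_lit 76) (nat_lit 587423389) (nat_lit 26) (nat_lit 4) (nat_lit 27) (nat_lit 5) (nat_lit 27) (nat_lit 4) (nat_lit 539) (nat_lit 390) (nat_lit 271))) (XT.nd (nat_lit 78) (nat_lit 76) (nat_lit 0) (XT.lf (nat_lit 0) (nat_lit 9559406055) (nat_lit 152) (nat_lit 2679787989) (nat_lit 76) (nat_lit 44514191389) (nat_lit 25) (nat_lit 5) (nat_lit 27) (nat_lit 5) (nat_lit 26) (nat_lit 4) (nat_lit 540) (nat_lit 390) (nat_lit 270)) (XT.lf (nat_lit 0) (nat_lit 18825163202) (nat_lit 76) (nat_lit 1337214729) (nat_lit 152) (nat_lit 37964039832) (nat_lit 24) (nat_lit 5) (nat_lit 25) (nat_lit 5) (nat_lit 26) (nat_lit 4) (nat_lit 541) (nat_lit 390) (nat_lit 269))))) (XT.nd (nat_lit 312) (nat_lit 152) (nat_lit 0) (XT.nd (nat_lit 156) (nat_lit 76) (nat_lit 0) (XT.nd (nat_lit 78) (nat_lit 76) (nat_lit 0) (XT.lf (nat_lit 0) (nat_lit 31188460968) (nat_lit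 152) (nat_lit 18639199811) (nat_lit 0) (nat_lit 9709829958) (nat_lit 24) (nat_lit 5) (nat_lit 26) (nat_lit 4) (nat_lit 24) (nat_lit 4) (nat_lit 542) (nat_lit 390) (nat_lit 268)) (XT.lf (nat_lit 0) (nat_lit 2647931662) (nat_lit 76) (nat_lit 39919201918) (nat_lit 76) (nat_lit 18423108432) (nat_lit 23) (nat_lit 4) (nat_lit 24) (nat_lit 5) (nat_lit 24) (nat_lit 4) (nat_lit 543) (nat_lit 390) (nat_lit 267))) (XT.nd (nat_lit 78) (nat_lit 76) (nat_lit 0) (XT.lf (nat_lit 0) (nat_lit 24922872192) (nat_lit 76) (nat_lit 29535803013) (nat_lit 76) (nat_lit 8022755668) (nat_lit 23) (nat_lit 4) (nat_lit 24) (nat_lit 5) (nat_lit 24) (nat_lit 4) (nat_lit 544) (nat_lit 390) (nat_lit 266)) (XT.lf (nat_lit 0) (nat_lit 2620738993) (nat_lit 152) (nat_lit 16209407245) (nat_lit 76) (nat_lit 45186925377) (nat_lit 22) (nat_lit 5) (nat_lit 24) (nat_lit 5) (nat_lit 23) (nat_lit 4) (nat_lit 545) (nat_lit 390) (nat_lit 265)))) (XT.nd (nat_lit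 156) (nat_lit 76) (nat_lit 0) (XT.nd (nat_lit 78) (nat_lit 0) (nat_lit 0) (XT.lf (nat_lit 0) (nat_lit 5782299953) (nat_lit 76) (nat_lit 7679664576) (nat_lit 152) (nat_lit 52133244078) (nat_lit 21) (nat_lit 5) (nat_lit 22) (nat_lit 5) (nat_lit 23) (nat_lit 4) (nat_lit 546) (nat_lit 390) (nat_lit 264)) (XT.lf (nat_lit 0) (nat_lit 24814420774) (nat_lit 152) (nat_lit 38519281459) (nat_lit 0) (nat_lit 3881407934) (nat_lit 21) (nat_lit 5) (nat_lit 23) (nat_lit 4) (nat_lit 21) (nat_lit 4) (nat_lit 547) (nat_lit 390) (nat_lit 263))) (XT.nd (nat_lit 78) (nat_lit 76) (nat_lit 0) (XT.lf (nat_lit 0) (nat_lit 36568060690) (nat_lit 152) (nat_lit 16693306755) (nat_lit 0) (nat_lit 15620423303) (nat_lit 21) (nat_lit 5) (nat_lit 23) (nat_lit 4) (nat_lit 21) (nat_lit 4) (nat_lit 548) (nat_lit 390) (nat_lit 262)) (XT.lf (nat_lit 0) (nat_lit 5872501999) (nat_lit 76) (nat_lit 42843280898) (nat_lit 76) (nat_lit 21881444919) (nat_lit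 20) (nat_lit 4) (nat_lit 21) (nat_lit 5) (nat_lit 21) (nat_lit 4) (nat_lit 549) (nat_lit 390) (nat_lit 261))))))) (XT.nd (nat_lit 53118) (nat_lit 0) (nat_lit 12084) (XT.nd (nat_lit 52494) (nat_lit 0) (nat_lit 17860) (XT.nd (nat_lit 52182) (nat_lit 0) (nat_lit 23940) (XT.nd (nat_lit 78) (nat_lit 152) (nat_lit 0) (XT.lf (nat_lit 0) (nat_lit 29428232180) (nat_lit 76) (nat_lit 31953452329) (nat_lit 76) (nat_lit 10977831312) (nat_lit 20) (nat_lit 4) (nat_lit 21) (nat_lit 5) (nat_lit 21) (nat_lit 4) (nat_lit 550) (nat_lit 390) (nat_lit 260)) (XT.nd (nat_lit 78) (nat_lit 76) (nat_lit 0) (XT.lf (nat_lit 0) (nat_lit 233422953) (nat_lit 152) (nat_lit 20515155955) (nat_lit 76) (nat_lit 53426456857) (nat_lit 19) (nat_lit 5) (nat_lit 21) (nat_lit 5) (nat_lit 20) (nat_lit 4) (nat_lit 551) (nat_lit 390) (nat_lit 259)) (XT.lf (nat_lit 0) (nat_lit 2485412231) (nat_lit 76) (nat_lit 9084740726) (nat_lit 152) (nat_lit 64471314395)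 (nat_lit 18) (nat_lit 5) (nat_lit 19) (nat_lit 5) (nat_lit 20) (nat_lit 4) (nat_lit 552) (nat_lit 390) (nat_lit 258)))) (XT.nd (nat_lit 156) (nat_lit 988) (nat_lit 0) (XT.nd (nat_lit 78) (nat_lit 836) (nat_lit 0) (XT.lf (nat_lit 0) (nat_lit 967895293) (nat_lit 836) (nat_lit 1458714241) (nat_lit 0) (nat_lit 967895293) (nat_lit 357) (nat_lit 5) (nat_lit 368) (nat_lit 4) (nat_lit 357) (nat_lit 4) (nat_lit 418) (nat_lit 391) (nat_lit 391)) (XT.lf (nat_lit 0) (nat_lit 1697618233) (nat_lit 836) (nat_lit 3584083458) (nat_lit 836) (nat_lit 1547515134) (nat_lit 346) (nat_lit 4) (nat_lit 357) (nat_lit 5) (nat_lit 357) (nat_lit 4) (nat_lit 419) (nat_lit 391) (nat_lit 390))) (XT.nd (nat_lit 78) (nat_lit 912) (nat_lit 0) (XT.lf (nat_lit 0) (nat_lit 1745166739) (nat_lit 912) (nat_lit 471130641) (nat_lit 76) (nat_lit 4656111292) (nat_lit 345) (nat_lit 5) (nat_lit 357) (nat_lit 5) (nat_lit 346) (nat_lit 4) (nat_lit 420) (nat_lit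 391) (nat_lit 389)) (XT.lf (nat_lit 0) (nat_lit 4306446957) (nat_lit 912) (nat_lit 737852082) (nat_lit 988) (nat_lit 1874008942) (nat_lit 333) (nat_lit 5) (nat_lit 345) (nat_lit 5) (nat_lit 346) (nat_lit 4) (nat_lit 421) (nat_lit 391) (nat_lit 388))))) (XT.nd (nat_lit 312) (nat_lit 2736) (nat_lit 0) (XT.nd (nat_lit 156) (nat_lit 1216) (nat_lit 0) (XT.nd (nat_lit 78) (nat_lit 1064) (nat_lit 0) (XT.lf (nat_lit 0) (nat_lit 1380528508) (nat_lit 1064) (nat_lit 4767651991) (nat_lit 76) (nat_lit 819034706) (nat_lit 319) (nat_lit 5) (nat_lit 333) (nat_lit 5) (nat_lit 320) (nat_lit 4) (nat_lit 422) (nat_lit 391) (nat_lit 387)) (XT.lf (nat_lit 0) (nat_lit 72611763) (nat_lit 1064) (nat_lit 4557682991) (nat_lit 1140) (nat_lit 2388712138) (nat_lit 305) (nat_lit 5) (nat_lit 319) (nat_lit 5) (nat_lit 320) (nat_lit 4) (nat_lit 423) (nat_lit 391) (nat_lit 386))) (XT.nd (nat_lit 78) (nat_lit 1140) (nat_lit 0) (XT.lf (nat_lit 0)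 (nat_lit 837775960) (nat_lit 1140) (nat_lit 2020085631) (nat_lit 76) (nat_lit 4215752377) (nat_lit 304) (nat_lit 5) (nat_lit 319) (nat_lit 5) (nat_lit 305) (nat_lit 5) (nat_lit 424) (nat_lit 391) (nat_lit 385)) (XT.lf (nat_lit 0) (nat_lit 2995796841) (nat_lit 1140) (nat_lit 1050531494) (nat_lit 1216) (nat_lit 3084851942) (nat_lit 289) (nat_lit 5) (nat_lit 304) (nat_lit 5) (nat_lit 305) (nat_lit 5) (nat_lit 425) (nat_lit 391) (nat_lit 384)))) (XT.nd (nat_lit 156) (nat_lit 1444) (nat_lit 0) (XT.nd (nat_lit 78) (nat_lit 0) (nat_lit 0) (XT.lf (nat_lit 0) (nat_lit 100663567) (nat_lit 1292) (nat_lit 6264309148) (nat_lit 76) (nat_lit 827187768) (nat_lit 272) (nat_lit 5) (nat_lit 289) (nat_lit 5) (nat_lit 273) (nat_lit 5) (nat_lit 426) (nat_lit 391) (nat_lit 383)) (XT.lf (nat_lit 0) (nat_lit 3279597134) (nat_lit 1292) (nat_lit 1163225169) (nat_lit 76) (nat_lit 2812462343) (nat_lit 272) (nat_lit 5) (nat_lit 289) (nat_lit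 5) (nat_lit 273) (nat_lit 5) (nat_lit 427) (nat_lit 391) (nat_lit 382))) (XT.nd (nat_lit 78) (nat_lit 684) (nat_lit 0) (XT.lf (nat_lit 0) (nat_lit 4077343867) (nat_lit 760) (nat_lit 2425730354) (nat_lit 836) (nat_lit 818778769) (nat_lit 262) (nat_lit 5) (nat_lit 272) (nat_lit 5) (nat_lit 273) (nat_lit 5) (nat_lit 428) (nat_lit 391) (nat_lit 381)) (XT.lf (nat_lit 0) (nat_lit 2031042280) (nat_lit 608) (nat_lit 296526397) (nat_lit 684) (nat_lit 5063906231) (nat_lit 253) (nat_lit 5) (nat_lit 261) (nat_lit 5) (nat_lit 262) (nat_lit 5) (nat_lit 429) (nat_lit 391) (nat_lit 380)))))) (XT.nd (nat_lit 624) (nat_lit 2356) (nat_lit 0) (XT.nd (nat_lit 312) (nat_lit 1672) (nat_lit 0) (XT.nd (nat_lit 156) (nat_lit 1064) (nat_lit 0) (XT.nd (nat_lit 78) (nat_lit 684) (nat_lit 0) (XT.lf (nat_lit 0) (nat_lit 5515635964) (nat_lit 684) (nat_lit 53164998) (nat_lit 76) (nat_lit 1895251279) (nat_lit 253) (nat_lit 5) (nat_lit 262) (nat_lit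 5) (nat_lit 254) (nat_lit 5) (nat_lit 430) (nat_lit 391) (nat_lit 379)) (XT.lf (nat_lit 0) (nat_lit 1205707548) (nat_lit 684) (nat_lit 2128217837) (nat_lit 76) (nat_lit 4205447180) (nat_lit 244) (nat_lit 5) (nat_lit 253) (nat_lit 5) (nat_lit 245) (nat_lit 5) (nat_lit 431) (nat_lit 391) (nat_lit 378))) (XT.nd (nat_lit 78) (nat_lit 532) (nat_lit 0) (XT.lf (nat_lit 0) (nat_lit 3376477259) (nat_lit 532) (nat_lit 987576388) (nat_lit 608) (nat_lit 3253878863) (nat_lit 237) (nat_lit 5) (nat_lit 244) (nat_lit 5) (nat_lit 245) (nat_lit 5) (nat_lit 432) (nat_lit 391) (nat_lit 377)) (XT.lf (nat_lit 0) (nat_lit 1308154159) (nat_lit 532) (nat_lit 6274238322) (nat_lit 608) (nat_lit 117520417) (nat_lit 230) (nat_lit 5) (nat_lit 237) (nat_lit 5) (nat_lit 238) (nat_lit 5) (nat_lit 433) (nat_lit 391) (nat_lit 376)))) (XT.nd (nat_lit 156) (nat_lit 1064) (nat_lit 0) (XT.nd (nat_lit 78) (nat_lit 532) (nat_lit 0) (XT.lf (nat_lit 0)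 (nat_lit 3023123337) (nat_lit 608) (nat_lit 807873235) (nat_lit 76) (nat_lit 3953349968) (nat_lit 229) (nat_lit 5) (nat_lit 237) (nat_lit 5) (nat_lit 230) (nat_lit 5) (nat_lit 434) (nat_lit 391) (nat_lit 375)) (XT.lf (nat_lit 0) (nat_lit 4945790448) (nat_lit 532) (nat_lit 1277673524) (nat_lit 608) (nat_lit 1648798263) (nat_lit 222) (nat_lit 5) (nat_lit 229) (nat_lit 5) (nat_lit 230) (nat_lit 5) (nat_lit 435) (nat_lit 391) (nat_lit 374))) (XT.nd (nat_lit 78) (nat_lit 456) (nat_lit 0) (XT.lf (nat_lit 0) (nat_lit 1496775936) (nat_lit 608) (nat_lit 5103729871) (nat_lit 76) (nat_lit 1362773856) (nat_lit 214) (nat_lit 5) (nat_lit 222) (nat_lit 5) (nat_lit 215) (nat_lit 5) (nat_lit 436) (nat_lit 391) (nat_lit 373)) (XT.lf (nat_lit 0) (nat_lit 712592860) (nat_lit 456) (nat_lit 3962533717) (nat_lit 532) (nat_lit 3382282359) (nat_lit 208) (nat_lit 5) (nat_lit 214) (nat_lit 5) (nat_lit 215) (nat_lit 5) (nat_lit 437) (nat_lit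 391) (nat_lit 372))))) (XT.nd (nat_lit 312) (nat_lit 836) (nat_lit 0) (XT.nd (nat_lit 156) (nat_lit 988) (nat_lit 0) (XT.nd (nat_lit 78) (nat_lit 532) (nat_lit 0) (XT.lf (nat_lit 0) (nat_lit 6713912959) (nat_lit 456) (nat_lit 1210017761) (nat_lit 532) (nat_lit 231195280) (nat_lit 208) (nat_lit 5) (nat_lit 214) (nat_lit 5) (nat_lit 215) (nat_lit 5) (nat_lit 438) (nat_lit 391) (nat_lit 371)) (XT.lf (nat_lit 0) (nat_lit 2941107729) (nat_lit 532) (nat_lit 3664464683) (nat_lit 76) (nat_lit 1649783734) (nat_lit 201) (nat_lit 5) (nat_lit 208) (nat_lit 5) (nat_lit 202) (nat_lit 5) (nat_lit 439) (nat_lit 391) (nat_lit 370))) (XT.nd (nat_lit 78) (nat_lit 532) (nat_lit 0) (XT.lf (nat_lit 0) (nat_lit 2414019417) (nat_lit 456) (nat_lit 3765960394) (nat_lit 532) (nat_lit 2179278872) (nat_lit 195) (nat_lit 5) (nat_lit 201) (nat_lit 5) (nat_lit 202) (nat_lit 5) (nat_lit 440) (nat_lit 391) (nat_lit 369)) (XT.lf (nat_lit 0) (nat_lit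 183357407) (nat_lit 456) (nat_lit 811717054) (nat_lit 532) (nat_lit 7471941215) (nat_lit 188) (nat_lit 5) (nat_lit 194) (nat_lit 5) (nat_lit 195) (nat_lit 5) (nat_lit 441) (nat_lit 391) (nat_lit 368)))) (XT.nd (nat_lit 156) (nat_lit 456) (nat_lit 0) (XT.nd (nat_lit 78) (nat_lit 380) (nat_lit 0) (XT.lf (nat_lit 0) (nat_lit 4230647902) (nat_lit 532) (nat_lit 2097752774) (nat_lit 76) (nat_lit 2248677908) (nat_lit 188) (nat_lit 5) (nat_lit 195) (nat_lit 5) (nat_lit 189) (nat_lit 5) (nat_lit 442) (nat_lit 391) (nat_lit 367)) (XT.lf (nat_lit 0) (nat_lit 4255912753) (nat_lit 380) (nat_lit 3286142422) (nat_lit 456) (nat_lit 1149039034) (nat_lit 183) (nat_lit 5) (nat_lit 188) (nat_lit 5) (nat_lit 189) (nat_lit 5) (nat_lit 443) (nat_lit 391) (nat_lit 366))) (XT.nd (nat_lit 78) (nat_lit 0) (nat_lit 0) (XT.lf (nat_lit 0) (nat_lit 1959389284) (nat_lit 380) (nat_lit 113553717) (nat_lit 456) (nat_lit 6735866638) (nat_lit 177)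 (nat_lit 5) (nat_lit 182) (nat_lit 5) (nat_lit 183) (nat_lit 5) (nat_lit 444) (nat_lit 391) (nat_lit 365)) (XT.lf (nat_lit 0) (nat_lit 5375236891) (nat_lit 456) (nat_lit 428384079) (nat_lit 76) (nat_lit 3125904508) (nat_lit 177) (nat_lit 5) (nat_lit 183) (nat_lit 5) (nat_lit 178) (nat_lit 5) (nat_lit 445) (nat_lit 391) (nat_lit 364))))))))
noncomputable def xc76 : XT := (XT.nd (nat_lit 2340) (nat_lit 3116) (nat_lit 0) (XT.nd (nat_lit 1170) (nat_lit 2736) (nat_lit 0) (XT.nd (nat_lit 546) (nat_lit 1520) (nat_lit 0) (XT.nd (nat_lit 234) (nat_lit 1140) (nat_lit 0) (XT.nd (nat_lit 78) (nat_lit 760) (nat_lit 0) (XT.lf (nat_lit 0) (nat_lit 6213914963) (nat_lit 380) (nat_lit 2556741512) (nat_lit 456) (nat_lit 283396897) (nat_lit 172) (nat_lit 5) (nat_lit 177) (nat_lit 5) (nat_lit 178) (nat_lit 5) (nat_lit 446) (nat_lit 391) (nat_lit 363)) (XT.nd (nat_lit 78) (nat_lit 304) (nat_lit 0) (XT.lf (nat_lit 0) (nat_lit 3008285256)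 (nat_lit 456) (nat_lit 5354942287) (nat_lit 76) (nat_lit 818725054) (nat_lit 166) (nat_lit 5) (nat_lit 172) (nat_lit 5) (nat_lit 167) (nat_lit 5) (nat_lit 447) (nat_lit 391) (nat_lit 362)) (XT.lf (nat_lit 0) (nat_lit 1344641480) (nat_lit 304) (nat_lit 5050008282) (nat_lit 380) (nat_lit 2918917266) (nat_lit 162) (nat_lit 5) (nat_lit 166) (nat_lit 5) (nat_lit 167) (nat_lit 5) (nat_lit 448) (nat_lit 391) (nat_lit 361)))) (XT.nd (nat_lit 156) (nat_lit 684) (nat_lit 0) (XT.nd (nat_lit 78) (nat_lit 380) (nat_lit 0) (XT.lf (nat_lit 0) (nat_lit 414428029) (nat_lit 380) (nat_lit 1190383148) (nat_lit 76) (nat_lit 7844521966) (nat_lit 161) (nat_lit 5) (nat_lit 166) (nat_lit 5) (nat_lit 162) (nat_lit 5) (nat_lit 449) (nat_lit 391) (nat_lit 360)) (XT.lf (nat_lit 0) (nat_lit 3800676657) (nat_lit 456) (nat_lit 3822747554) (nat_lit 76) (nat_lit 1964544204) (nat_lit 156) (nat_lit 5) (nat_lit 162) (nat_lit 5) (nat_lit 157) (nat_lit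 5) (nat_lit 450) (nat_lit 391) (nat_lit 359))) (XT.nd (nat_lit 78) (nat_lit 380) (nat_lit 0) (XT.lf (nat_lit 0) (nat_lit 3178330269) (nat_lit 304) (nat_lit 4106184802) (nat_lit 380) (nat_lit 2446377594) (nat_lit 152) (nat_lit 5) (nat_lit 156) (nat_lit 5) (nat_lit 157) (nat_lit 5) (nat_lit 451) (nat_lit 391) (nat_lit 358)) (XT.lf (nat_lit 0) (nat_lit 499122602) (nat_lit 304) (nat_lit 457768988) (nat_lit 380) (nat_lit 8921489428) (nat_lit 147) (nat_lit 5) (nat_lit 151) (nat_lit 5) (nat_lit 152) (nat_lit 5) (nat_lit 452) (nat_lit 391) (nat_lit 357))))) (XT.nd (nat_lit 312) (nat_lit 836) (nat_lit 0) (XT.nd (nat_lit 156) (nat_lit 380) (nat_lit 0) (XT.nd (nat_lit 78) (nat_lit 304) (nat_lit 0) (XT.lf (nat_lit 0) (nat_lit 4450051282) (nat_lit 380) (nat_lit 2280426921) (nat_lit 76) (nat_lit 3297989448) (nat_lit 147) (nat_lit 5) (nat_lit 152) (nat_lit 5) (nat_lit 148) (nat_lit 5) (nat_lit 453) (nat_lit 391) (nat_lit 356))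 (XT.lf (nat_lit 0) (nat_lit 5035587036) (nat_lit 304) (nat_lit 3005566396) (nat_lit 380) (nat_lit 2142117896) (nat_lit 143) (nat_lit 5) (nat_lit 147) (nat_lit 5) (nat_lit 148) (nat_lit 5) (nat_lit 454) (nat_lit 391) (nat_lit 355))) (XT.nd (nat_lit 78) (nat_lit 0) (nat_lit 0) (XT.lf (nat_lit 0) (nat_lit 1363336243) (nat_lit 380) (nat_lit 8135498013) (nat_lit 76) (nat_lit 843690308) (nat_lit 138) (nat_lit 5) (nat_lit 143) (nat_lit 5) (nat_lit 139) (nat_lit 5) (nat_lit 455) (nat_lit 391) (nat_lit 354)) (XT.lf (nat_lit 0) (nat_lit 4954247997) (nat_lit 380) (nat_lit 758998261) (nat_lit 76) (nat_lit 4791980536) (nat_lit 138) (nat_lit 5) (nat_lit 143) (nat_lit 5) (nat_lit 139) (nat_lit 5) (nat_lit 456) (nat_lit 391) (nat_lit 353)))) (XT.nd (nat_lit 156) (nat_lit 228) (nat_lit 0) (XT.nd (nat_lit 78) (nat_lit 380) (nat_lit 0) (XT.lf (nat_lit 0) (nat_lit 6885366757) (nat_lit 228) (nat_lit 1776516576) (nat_lit 304) (nat_lit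 2010664756) (nat_lit 135) (nat_lit 5) (nat_lit 138) (nat_lit 5) (nat_lit 139) (nat_lit 5) (nat_lit 457) (nat_lit 391) (nat_lit 352)) (XT.lf (nat_lit 0) (nat_lit 1614467614) (nat_lit 380) (nat_lit 6964739230) (nat_lit 76) (nat_lit 2264901955) (nat_lit 130) (nat_lit 5) (nat_lit 135) (nat_lit 5) (nat_lit 131) (nat_lit 5) (nat_lit 458) (nat_lit 391) (nat_lit 351))) (XT.nd (nat_lit 78) (nat_lit 0) (nat_lit 0) (XT.lf (nat_lit 0) (nat_lit 721489061) (nat_lit 228) (nat_lit 4593194248) (nat_lit 304) (nat_lit 5705340758) (nat_lit 127) (nat_lit 5) (nat_lit 130) (nat_lit 5) (nat_lit 131) (nat_lit 5) (nat_lit 459) (nat_lit 391) (nat_lit 350)) (XT.lf (nat_lit 0) (nat_lit 8693347346) (nat_lit 228) (nat_lit 447283211) (nat_lit 304) (nat_lit 2060151488) (nat_lit 127) (nat_lit 5) (nat_lit 130) (nat_lit 5) (nat_lit 131) (nat_lit 5) (nat_lit 460) (nat_lit 391) (nat_lit 349)))))) (XT.nd (nat_lit 546) (nat_lit 1292) (nat_lit 0) (XT.nd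 (nat_lit 234) (nat_lit 836) (nat_lit 0) (XT.nd (nat_lit 78) (nat_lit 228) (nat_lit 0) (XT.lf (nat_lit 0) (nat_lit 1697020598) (nat_lit 380) (nat_lit 5901041473) (nat_lit 76) (nat_lit 3787347945) (nat_lit 122) (nat_lit 5) (nat_lit 127) (nat_lit 5) (nat_lit 123) (nat_lit 5) (nat_lit 461) (nat_lit 391) (nat_lit 348)) (XT.nd (nat_lit 78) (nat_lit 0) (nat_lit 0) (XT.lf (nat_lit 0) (nat_lit 2122108851) (nat_lit 228) (nat_lit 3399726422) (nat_lit 304) (nat_lit 6053246005) (nat_lit 119) (nat_lit 5) (nat_lit 122) (nat_lit 5) (nat_lit 123) (nat_lit 5) (nat_lit 462) (nat_lit 391) (nat_lit 347)) (XT.lf (nat_lit 0) (nat_lit 9476832824) (nat_lit 304) (nat_lit 1358388436) (nat_lit 76) (nat_lit 934764489) (nat_lit 119) (nat_lit 5) (nat_lit 123) (nat_lit 5) (nat_lit 120) (nat_lit 5) (nat_lit 463) (nat_lit 391) (nat_lit 346)))) (XT.nd (nat_lit 156) (nat_lit 304) (nat_lit 0) (XT.nd (nat_lit 78) (nat_lit 228) (nat_lit 0) (XT.lf (nat_lit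 0) (nat_lit 1598251100) (nat_lit 304) (nat_lit 4987668477) (nat_lit 76) (nat_lit 5382888043) (nat_lit 115) (nat_lit 5) (nat_lit 119) (nat_lit 5) (nat_lit 116) (nat_lit 5) (nat_lit 464) (nat_lit 391) (nat_lit 345)) (XT.lf (nat_lit 0) (nat_lit 3383862185) (nat_lit 228) (nat_lit 2170956296) (nat_lit 304) (nat_lit 6618264888) (nat_lit 112) (nat_lit 5) (nat_lit 115) (nat_lit 5) (nat_lit 116) (nat_lit 5) (nat_lit 465) (nat_lit 391) (nat_lit 344))) (XT.nd (nat_lit 78) (nat_lit 304) (nat_lit 0) (XT.lf (nat_lit 0) (nat_lit 9652309323) (nat_lit 304) (nat_lit 381775326) (nat_lit 76) (nat_lit 2348741479) (nat_lit 112) (nat_lit 5) (nat_lit 116) (nat_lit 5) (nat_lit 113) (nat_lit 5) (nat_lit 466) (nat_lit 391) (nat_lit 343)) (XT.lf (nat_lit 0) (nat_lit 1301158136) (nat_lit 304) (nat_lit 4273757496) (nat_lit 76) (nat_lit 7022018833) (nat_lit 108) (nat_lit 5) (nat_lit 112) (nat_lit 5) (nat_lit 109) (nat_lit 5) (nat_lit 467) (nat_lit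 391) (nat_lit 342))))) (XT.nd (nat_lit 312) (nat_lit 684) (nat_lit 0) (XT.nd (nat_lit 156) (nat_lit 228) (nat_lit 0) (XT.nd (nat_lit 78) (nat_lit 228) (nat_lit 0) (XT.lf (nat_lit 0) (nat_lit 4456707137) (nat_lit 152) (nat_lit 939121809) (nat_lit 228) (nat_lit 7420923335) (nat_lit 106) (nat_lit 5) (nat_lit 108) (nat_lit 5) (nat_lit 109) (nat_lit 5) (nat_lit 468) (nat_lit 391) (nat_lit 341)) (XT.lf (nat_lit 0) (nat_lit 381683931) (nat_lit 228) (nat_lit 9266316914) (nat_lit 304) (nat_lit 3394128871) (nat_lit 103) (nat_lit 5) (nat_lit 106) (nat_lit 5) (nat_lit 107) (nat_lit 5) (nat_lit 469) (nat_lit 391) (nat_lit 340))) (XT.nd (nat_lit 78) (nat_lit 152) (nat_lit 0) (XT.lf (nat_lit 0) (nat_lit 784017159) (nat_lit 304) (nat_lit 3815533344) (nat_lit 76) (nat_lit 8673147800) (nat_lit 102) (nat_lit 5) (nat_lit 106) (nat_lit 5) (nat_lit 103) (nat_lit 5) (nat_lit 470) (nat_lit 391) (nat_lit 339)) (XT.lf (nat_lit 0) (nat_lit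 5024715404) (nat_lit 228) (nat_lit 8228413580) (nat_lit 76) (nat_lit 255888509) (nat_lit 100) (nat_lit 5) (nat_lit 103) (nat_lit 5) (nat_lit 101) (nat_lit 5) (nat_lit 471) (nat_lit 391) (nat_lit 338)))) (XT.nd (nat_lit 156) (nat_lit 380) (nat_lit 0) (XT.nd (nat_lit 78) (nat_lit 76) (nat_lit 0) (XT.lf (nat_lit 0) (nat_lit 866213382) (nat_lit 228) (nat_lit 8571637139) (nat_lit 304) (nat_lit 4313223626) (nat_lit 97) (nat_lit 5) (nat_lit 100) (nat_lit 5) (nat_lit 101) (nat_lit 5) (nat_lit 472) (nat_lit 391) (nat_lit 337)) (XT.lf (nat_lit 0) (nat_lit 19813135) (nat_lit 304) (nat_lit 3677693369) (nat_lit 76) (nat_lit 10301800199) (nat_lit 96) (nat_lit 5) (nat_lit 100) (nat_lit 5) (nat_lit 97) (nat_lit 5) (nat_lit 473) (nat_lit 391) (nat_lit 336))) (XT.nd (nat_lit 78) (nat_lit 228) (nat_lit 0) (XT.lf (nat_lit 0) (nat_lit 4419207901) (nat_lit 228) (nat_lit 8469801697) (nat_lit 76) (nat_lit 1364007726) (nat_lit 94) (nat_lit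 5) (nat_lit 97) (nat_lit 5) (nat_lit 95) (nat_lit 5) (nat_lit 474) (nat_lit 391) (nat_lit 335)) (XT.lf (nat_lit 0) (nat_lit 993128511) (nat_lit 228) (nat_lit 7995350052) (nat_lit 304) (nat_lit 5524727756) (nat_lit 91) (nat_lit 5) (nat_lit 94) (nat_lit 5) (nat_lit 95) (nat_lit 5) (nat_lit 475) (nat_lit 391) (nat_lit 334))))))) (XT.nd (nat_lit 1170) (nat_lit 1368) (nat_lit 0) (XT.nd (nat_lit 546) (nat_lit 988) (nat_lit 0) (XT.nd (nat_lit 234) (nat_lit 380) (nat_lit 0) (XT.nd (nat_lit 78) (nat_lit 380) (nat_lit 0) (XT.lf (nat_lit 0) (nat_lit 10834957398) (nat_lit 228) (nat_lit 2900209013) (nat_lit 304) (nat_lit 1044828169) (nat_lit 91) (nat_lit 5) (nat_lit 94) (nat_lit 5) (nat_lit 95) (nat_lit 5) (nat_lit 476) (nat_lit 391) (nat_lit 333)) (XT.nd (nat_lit 78) (nat_lit 152) (nat_lit 0) (XT.lf (nat_lit 0) (nat_lit 3535578501) (nat_lit 228) (nat_lit 9155257218) (nat_lit 76) (nat_lit 2361852063) (nat_lit 88) (nat_lit 5)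 (nat_lit 91) (nat_lit 5) (nat_lit 89) (nat_lit 5) (nat_lit 477) (nat_lit 391) (nat_lit 332)) (XT.lf (nat_lit 0) (nat_lit 680038364) (nat_lit 152) (nat_lit 7583772781) (nat_lit 228) (nat_lit 7068501324) (nat_lit 86) (nat_lit 5) (nat_lit 88) (nat_lit 5) (nat_lit 89) (nat_lit 5) (nat_lit 478) (nat_lit 391) (nat_lit 331)))) (XT.nd (nat_lit 156) (nat_lit 152) (nat_lit 0) (XT.nd (nat_lit 78) (nat_lit 228) (nat_lit 0) (XT.lf (nat_lit 0) (nat_lit 10921373446) (nat_lit 152) (nat_lit 2261444164) (nat_lit 228) (nat_lit 2436043827) (nat_lit 86) (nat_lit 5) (nat_lit 88) (nat_lit 5) (nat_lit 89) (nat_lit 5) (nat_lit 479) (nat_lit 391) (nat_lit 330)) (XT.lf (nat_lit 0) (nat_lit 2332046274) (nat_lit 228) (nat_lit 10377598712) (nat_lit 76) (nat_lit 3202424647) (nat_lit 83) (nat_lit 5) (nat_lit 86) (nat_lit 5) (nat_lit 84) (nat_lit 5) (nat_lit 480) (nat_lit 391) (nat_lit 329))) (XT.nd (nat_lit 78) (nat_lit 152) (nat_lit 0) (XT.lf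 (nat_lit 0) (nat_lit 7222049940) (nat_lit 228) (nat_lit 165477424) (nat_lit 76) (nat_lit 8824991206) (nat_lit 83) (nat_lit 5) (nat_lit 86) (nat_lit 5) (nat_lit 84) (nat_lit 5) (nat_lit 481) (nat_lit 391) (nat_lit 328)) (XT.lf (nat_lit 0) (nat_lit 10484263661) (nat_lit 152) (nat_lit 1834045306) (nat_lit 228) (nat_lit 4201888324) (nat_lit 81) (nat_lit 5) (nat_lit 83) (nat_lit 5) (nat_lit 84) (nat_lit 5) (nat_lit 482) (nat_lit 391) (nat_lit 327))))) (XT.nd (nat_lit 312) (nat_lit 456) (nat_lit 0) (XT.nd (nat_lit 156) (nat_lit 304) (nat_lit 0) (XT.nd (nat_lit 78) (nat_lit 0) (nat_lit 0) (XT.lf (nat_lit 0) (nat_lit 758730933) (nat_lit 228) (nat_lit 12244612074) (nat_lit 76) (nat_lit 3832276554) (nat_lit 78) (nat_lit 5) (nat_lit 81) (nat_lit 5) (nat_lit 79) (nat_lit 5) (nat_lit 483) (nat_lit 391) (nat_lit 326)) (XT.lf (nat_lit 0) (nat_lit 5822489844) (nat_lit 228) (nat_lit 1632178935) (nat_lit 76) (nat_lit 9703427109)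 (nat_lit 78) (nat_lit 5) (nat_lit 81) (nat_lit 5) (nat_lit 79) (nat_lit 5) (nat_lit 484) (nat_lit 391) (nat_lit 325))) (XT.nd (nat_lit 78) (nat_lit 152) (nat_lit 0) (XT.lf (nat_lit 0) (nat_lit 9410784592) (nat_lit 152) (nat_lit 1678092968) (nat_lit 228) (nat_lit 6399850104) (nat_lit 76) (nat_lit 5) (nat_lit 78) (nat_lit 5) (nat_lit 79) (nat_lit 5) (nat_lit 485) (nat_lit 391) (nat_lit 324)) (XT.lf (nat_lit 0) (nat_lit 2934081662) (nat_lit 152) (nat_lit 13625515580) (nat_lit 228) (nat_lit 1268293507) (nat_lit 74) (nat_lit 5) (nat_lit 76) (nat_lit 5) (nat_lit 77) (nat_lit 4) (nat_lit 486) (nat_lit 391) (nat_lit 323)))) (XT.nd (nat_lit 156) (nat_lit 228) (nat_lit 0) (XT.nd (nat_lit 78) (nat_lit 152) (nat_lit 0) (XT.lf (nat_lit 0) (nat_lit 3998322478) (nat_lit 228) (nat_lit 3860506506) (nat_lit 76) (nat_lit 10315458595) (nat_lit 73) (nat_lit 5) (nat_lit 76) (nat_lit 5) (nat_lit 74) (nat_lit 5) (nat_lit 487) (nat_lit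 391) (nat_lit 322)) (XT.lf (nat_lit 0) (nat_lit 7569287803) (nat_lit 152) (nat_lit 1862577659) (nat_lit 228) (nat_lit 9097803881) (nat_lit 71) (nat_lit 5) (nat_lit 73) (nat_lit 5) (nat_lit 74) (nat_lit 5) (nat_lit 488) (nat_lit 391) (nat_lit 321))) (XT.nd (nat_lit 78) (nat_lit 76) (nat_lit 0) (XT.lf (nat_lit 0) (nat_lit 423165140) (nat_lit 152) (nat_lit 14651965690) (nat_lit 228) (nat_lit 3819182524) (nat_lit 69) (nat_lit 5) (nat_lit 71) (nat_lit 5) (nat_lit 72) (nat_lit 4) (nat_lit 489) (nat_lit 391) (nat_lit 320)) (XT.lf (nat_lit 0) (nat_lit 1678330133) (nat_lit 228) (nat_lit 6998657007) (nat_lit 76) (nat_lit 10589682104) (nat_lit 68) (nat_lit 5) (nat_lit 71) (nat_lit 5) (nat_lit 69) (nat_lit 5) (nat_lit 490) (nat_lit 391) (nat_lit 319)))))) (XT.nd (nat_lit 546) (nat_lit 760) (nat_lit 0) (XT.nd (nat_lit 234) (nat_lit 380) (nat_lit 0) (XT.nd (nat_lit 78) (nat_lit 76) (nat_lit 0) (XT.lf (nat_lit 0) (nat_lit 4806128155)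 (nat_lit 152) (nat_lit 2467073950) (nat_lit 228) (nat_lit 12375585510) (nat_lit 66) (nat_lit 5) (nat_lit 68) (nat_lit 5) (nat_lit 69) (nat_lit 5) (nat_lit 491) (nat_lit 391) (nat_lit 318)) (XT.nd (nat_lit 78) (nat_lit 76) (nat_lit 0) (XT.lf (nat_lit 0) (nat_lit 13108195870) (nat_lit 228) (nat_lit 3038187506) (nat_lit 76) (nat_lit 3893819915) (nat_lit 66) (nat_lit 5) (nat_lit 69) (nat_lit 5) (nat_lit 67) (nat_lit 4) (nat_lit 492) (nat_lit 391) (nat_lit 317)) (XT.lf (nat_lit 0) (nat_lit 9209695159) (nat_lit 76) (nat_lit 9985707683) (nat_lit 152) (nat_lit 1245645660) (nat_lit 65) (nat_lit 5) (nat_lit 66) (nat_lit 5) (nat_lit 67) (nat_lit 4) (nat_lit 493) (nat_lit 391) (nat_lit 316)))) (XT.nd (nat_lit 156) (nat_lit 152) (nat_lit 0) (XT.nd (nat_lit 78) (nat_lit 0) (nat_lit 0) (XT.lf (nat_lit 0) (nat_lit 941969156) (nat_lit 152) (nat_lit 3583662587) (nat_lit 228) (nat_lit 16326830136) (nat_lit 62) (nat_lit 5) (nat_lit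 64) (nat_lit 5) (nat_lit 65) (nat_lit 5) (nat_lit 494) (nat_lit 391) (nat_lit 315)) (XT.lf (nat_lit 0) (nat_lit 10552879038) (nat_lit 228) (nat_lit 7670687608) (nat_lit 76) (nat_lit 3049046785) (nat_lit 62) (nat_lit 5) (nat_lit 65) (nat_lit 5) (nat_lit 63) (nat_lit 4) (nat_lit 495) (nat_lit 391) (nat_lit 314))) (XT.nd (nat_lit 78) (nat_lit 76) (nat_lit 0) (XT.lf (nat_lit 0) (nat_lit 4932813827) (nat_lit 76) (nat_lit 11876458099) (nat_lit 152) (nat_lit 4894649503) (nat_lit 61) (nat_lit 5) (nat_lit 62) (nat_lit 5) (nat_lit 63) (nat_lit 4) (nat_lit 496) (nat_lit 391) (nat_lit 313)) (XT.lf (nat_lit 0) (nat_lit 1127331813) (nat_lit 152) (nat_lit 4149905121) (nat_lit 76) (nat_lit 16869303364) (nat_lit 60) (nat_lit 5) (nat_lit 62) (nat_lit 5) (nat_lit 61) (nat_lit 5) (nat_lit 497) (nat_lit 391) (nat_lit 312))))) (XT.nd (nat_lit 312) (nat_lit 304) (nat_lit 0) (XT.nd (nat_lit 156) (nat_lit 304) (nat_lit 0) (XT.nd (nat_lit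 78) (nat_lit 0) (nat_lit 0) (XT.lf (nat_lit 0) (nat_lit 7299421771) (nat_lit 228) (nat_lit 13702143772) (nat_lit 76) (nat_lit 1597385129) (nat_lit 58) (nat_lit 5) (nat_lit 61) (nat_lit 5) (nat_lit 59) (nat_lit 4) (nat_lit 498) (nat_lit 391) (nat_lit 311)) (XT.lf (nat_lit 0) (nat_lit 13717840174) (nat_lit 228) (nat_lit 758916447) (nat_lit 76) (nat_lit 8586343314) (nat_lit 58) (nat_lit 5) (nat_lit 61) (nat_lit 5) (nat_lit 59) (nat_lit 4) (nat_lit 499) (nat_lit 391) (nat_lit 310))) (XT.nd (nat_lit 78) (nat_lit 228) (nat_lit 0) (XT.lf (nat_lit 0) (nat_lit 12760875865) (nat_lit 76) (nat_lit 7658168630) (nat_lit 152) (nat_lit 3119423687) (nat_lit 57) (nat_lit 5) (nat_lit 58) (nat_lit 5) (nat_lit 59) (nat_lit 4) (nat_lit 500) (nat_lit 391) (nat_lit 309)) (XT.lf (nat_lit 0) (nat_lit 2632801957) (nat_lit 152) (nat_lit 596786668) (nat_lit 228) (nat_lit 20797540694) (nat_lit 54) (nat_lit 5) (nat_lit 56) (nat_lit 5) (nat_lit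 57) (nat_lit 5) (nat_lit 501) (nat_lit 391) (nat_lit 308)))) (XT.nd (nat_lit 156) (nat_lit 228) (nat_lit 0) (XT.nd (nat_lit 78) (nat_lit 76) (nat_lit 0) (XT.lf (nat_lit 0) (nat_lit 9848171365) (nat_lit 228) (nat_lit 8017776117) (nat_lit 76) (nat_lit 6659323704) (nat_lit 54) (nat_lit 5) (nat_lit 57) (nat_lit 5) (nat_lit 55) (nat_lit 4) (nat_lit 502) (nat_lit 391) (nat_lit 307)) (XT.lf (nat_lit 0) (nat_lit 5808390939) (nat_lit 76) (nat_lit 10887313028) (nat_lit 152) (nat_lit 8341742909) (nat_lit 53) (nat_lit 5) (nat_lit 54) (nat_lit 5) (nat_lit 55) (nat_lit 4) (nat_lit 503) (nat_lit 391) (nat_lit 306))) (XT.nd (nat_lit 78) (nat_lit 228) (nat_lit 0) (XT.lf (nat_lit 0) (nat_lit 20155164537) (nat_lit 76) (nat_lit 3643462063) (nat_lit 152) (nat_lit 1764863614) (nat_lit 53) (nat_lit 5) (nat_lit 54) (nat_lit 5) (nat_lit 55) (nat_lit 4) (nat_lit 504) (nat_lit 391) (nat_lit 305)) (XT.lf (nat_lit 0) (nat_lit 5004441866) (nat_lit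 228) (nat_lit 17244968527) (nat_lit 76) (nat_lit 3851675013) (nat_lit 50) (nat_lit 5) (nat_lit 53) (nat_lit 5) (nat_lit 51) (nat_lit 4) (nat_lit 505) (nat_lit 391) (nat_lit 304))))))))
noncomputable def xc77 : XT := (XT.nd (nat_lit 2340) (nat_lit 684) (nat_lit 0) (XT.nd (nat_lit 1170) (nat_lit 760) (nat_lit 0) (XT.nd (nat_lit 546) (nat_lit 456) (nat_lit 0) (XT.nd (nat_lit 234) (nat_lit 380) (nat_lit 0) (XT.nd (nat_lit 78) (nat_lit 76) (nat_lit 0) (XT.lf (nat_lit 0) (nat_lit 12002267362) (nat_lit 228) (nat_lit 3105418794) (nat_lit 76) (nat_lit 11544771884) (nat_lit 50) (nat_lit 5) (nat_lit 53) (nat_lit 5) (nat_lit 51) (nat_lit 4) (nat_lit 506) (nat_lit 391) (nat_lit 303)) (XT.nd (nat_lit 78) (nat_lit 0) (nat_lit 0) (XT.lf (nat_lit 0) (nat_lit 11629405993) (nat_lit 76) (nat_lit 7662978330) (nat_lit 152) (nat_lit 7925517983) (nat_lit 49) (nat_lit 5) (nat_lit 50) (nat_lit 5) (nat_lit 51) (nat_lit 4) (nat_lit 507) (nat_lit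 391) (nat_lit 302)) (XT.lf (nat_lit 0) (nat_lit 26803564367) (nat_lit 152) (nat_lit 985712929) (nat_lit 0) (nat_lit 10962939) (nat_lit 49) (nat_lit 5) (nat_lit 51) (nat_lit 4) (nat_lit 49) (nat_lit 4) (nat_lit 508) (nat_lit 391) (nat_lit 301)))) (XT.nd (nat_lit 156) (nat_lit 76) (nat_lit 0) (XT.nd (nat_lit 78) (nat_lit 76) (nat_lit 0) (XT.lf (nat_lit 0) (nat_lit 6205924399) (nat_lit 228) (nat_lit 14253247049) (nat_lit 76) (nat_lit 7933536046) (nat_lit 46) (nat_lit 5) (nat_lit 49) (nat_lit 5) (nat_lit 47) (nat_lit 4) (nat_lit 509) (nat_lit 391) (nat_lit 300)) (XT.lf (nat_lit 0) (nat_lit 685020776) (nat_lit 76) (nat_lit 12907716963) (nat_lit 152) (nat_lit 15410270998) (nat_lit 45) (nat_lit 5) (nat_lit 46) (nat_lit 5) (nat_lit 47) (nat_lit 4) (nat_lit 510) (nat_lit 391) (nat_lit 299))) (XT.nd (nat_lit 78) (nat_lit 76) (nat_lit 0) (XT.lf (nat_lit 0) (nat_lit 16309821996) (nat_lit 76) (nat_lit 5007105570) (nat_lit 152)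 (nat_lit 8311219283) (nat_lit 45) (nat_lit 5) (nat_lit 46) (nat_lit 5) (nat_lit 47) (nat_lit 4) (nat_lit 511) (nat_lit 391) (nat_lit 298)) (XT.lf (nat_lit 0) (nat_lit 2089196046) (nat_lit 76) (nat_lit 27206245320) (nat_lit 76) (nat_lit 975920760) (nat_lit 44) (nat_lit 4) (nat_lit 45) (nat_lit 5) (nat_lit 45) (nat_lit 4) (nat_lit 512) (nat_lit 391) (nat_lit 297))))) (XT.nd (nat_lit 312) (nat_lit 228) (nat_lit 0) (XT.nd (nat_lit 156) (nat_lit 76) (nat_lit 0) (XT.nd (nat_lit 78) (nat_lit 76) (nat_lit 0) (XT.lf (nat_lit 0) (nat_lit 6608896772) (nat_lit 152) (nat_lit 12864875226) (nat_lit 76) (nat_lit 11453469950) (nat_lit 43) (nat_lit 5) (nat_lit 45) (nat_lit 5) (nat_lit 44) (nat_lit 4) (nat_lit 513) (nat_lit 391) (nat_lit 296)) (XT.lf (nat_lit 0) (nat_lit 2907711935) (nat_lit 76) (nat_lit 11495137627) (nat_lit 152) (nat_lit 17199623435) (nat_lit 42) (nat_lit 5) (nat_lit 43) (nat_lit 5) (nat_lit 44) (nat_lit 4) (nat_lit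 514) (nat_lit 391) (nat_lit 295))) (XT.nd (nat_lit 78) (nat_lit 76) (nat_lit 0) (XT.lf (nat_lit 0) (nat_lit 19366397209) (nat_lit 76) (nat_lit 3167679497) (nat_lit 152) (nat_lit 9760781458) (nat_lit 42) (nat_lit 5) (nat_lit 43) (nat_lit 5) (nat_lit 44) (nat_lit 4) (nat_lit 515) (nat_lit 391) (nat_lit 294)) (XT.lf (nat_lit 0) (nat_lit 3272830990) (nat_lit 76) (nat_lit 27693959624) (nat_lit 76) (nat_lit 2039498609) (nat_lit 41) (nat_lit 4) (nat_lit 42) (nat_lit 5) (nat_lit 42) (nat_lit 4) (nat_lit 516) (nat_lit 391) (nat_lit 293)))) (XT.nd (nat_lit 156) (nat_lit 76) (nat_lit 0) (XT.nd (nat_lit 78) (nat_lit 76) (nat_lit 0) (XT.lf (nat_lit 0) (nat_lit 5935353021) (nat_lit 152) (nat_lit 13649351972) (nat_lit 76) (nat_lit 14148534029) (nat_lit 40) (nat_lit 5) (nat_lit 42) (nat_lit 5) (nat_lit 41) (nat_lit 4) (nat_lit 517) (nat_lit 391) (nat_lit 292)) (XT.lf (nat_lit 0) (nat_lit 2905342590) (nat_lit 76) (nat_lit 11205912191)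 (nat_lit 152) (nat_lit 20370053611) (nat_lit 39) (nat_lit 5) (nat_lit 40) (nat_lit 5) (nat_lit 41) (nat_lit 4) (nat_lit 518) (nat_lit 391) (nat_lit 291))) (XT.nd (nat_lit 78) (nat_lit 76) (nat_lit 0) (XT.lf (nat_lit 0) (nat_lit 20188515652) (nat_lit 76) (nat_lit 2456889144) (nat_lit 152) (nat_lit 12603026653) (nat_lit 39) (nat_lit 5) (nat_lit 40) (nat_lit 5) (nat_lit 41) (nat_lit 4) (nat_lit 519) (nat_lit 391) (nat_lit 290)) (XT.lf (nat_lit 0) (nat_lit 1878186029) (nat_lit 76) (nat_lit 29614102440) (nat_lit 76) (nat_lit 4544579172) (nat_lit 38) (nat_lit 4) (nat_lit 39) (nat_lit 5) (nat_lit 39) (nat_lit 4) (nat_lit 520) (nat_lit 391) (nat_lit 289)))))) (XT.nd (nat_lit 546) (nat_lit 380) (nat_lit 0) (XT.nd (nat_lit 234) (nat_lit 228) (nat_lit 0) (XT.nd (nat_lit 78) (nat_lit 76) (nat_lit 0) (XT.lf (nat_lit 0) (nat_lit 3835913011) (nat_lit 152) (nat_lit 17320279277) (nat_lit 76) (nat_lit 15687074961) (nat_lit 37) (nat_lit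 5) (nat_lit 39) (nat_lit 5) (nat_lit 38) (nat_lit 4) (nat_lit 521) (nat_lit 391) (nat_lit 288)) (XT.nd (nat_lit 78) (nat_lit 76) (nat_lit 0) (XT.lf (nat_lit 0) (nat_lit 12352857089) (nat_lit 152) (nat_lit 67445342) (nat_lit 76) (nat_lit 25252915835) (nat_lit 37) (nat_lit 5) (nat_lit 39) (nat_lit 5) (nat_lit 38) (nat_lit 4) (nat_lit 522) (nat_lit 391) (nat_lit 287)) (XT.lf (nat_lit 0) (nat_lit 18010021139) (nat_lit 76) (nat_lit 3265478363) (nat_lit 152) (nat_lit 17248063252) (nat_lit 36) (nat_lit 5) (nat_lit 37) (nat_lit 5) (nat_lit 38) (nat_lit 4) (nat_lit 523) (nat_lit 391) (nat_lit 286)))) (XT.nd (nat_lit 156) (nat_lit 152) (nat_lit 0) (XT.nd (nat_lit 78) (nat_lit 76) (nat_lit 0) (XT.lf (nat_lit 0) (nat_lit 30502868672) (nat_lit 152) (nat_lit 2871896185) (nat_lit 0) (nat_lit 6023541916) (nat_lit 36) (nat_lit 5) (nat_lit 38) (nat_lit 4) (nat_lit 36) (nat_lit 4) (nat_lit 524) (nat_lit 391) (nat_lit 285)) (XT.lf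 (nat_lit 0) (nat_lit 15526504952) (nat_lit 76) (nat_lit 24639910091) (nat_lit 76) (nat_lit 128097987) (nat_lit 35) (nat_lit 4) (nat_lit 36) (nat_lit 5) (nat_lit 36) (nat_lit 4) (nat_lit 525) (nat_lit 391) (nat_lit 284))) (XT.nd (nat_lit 78) (nat_lit 76) (nat_lit 0) (XT.lf (nat_lit 0) (nat_lit 8735627614) (nat_lit 152) (nat_lit 6810027219) (nat_lit 76) (nat_lit 25669171577) (nat_lit 34) (nat_lit 5) (nat_lit 36) (nat_lit 5) (nat_lit 35) (nat_lit 4) (nat_lit 526) (nat_lit 391) (nat_lit 283)) (XT.lf (nat_lit 0) (nat_lit 11875250957) (nat_lit 76) (nat_lit 6080031205) (nat_lit 152) (nat_lit 24204651777) (nat_lit 33) (nat_lit 5) (nat_lit 34) (nat_lit 5) (nat_lit 35) (nat_lit 4) (nat_lit 527) (nat_lit 391) (nat_lit 282))))) (XT.nd (nat_lit 312) (nat_lit 152) (nat_lit 0) (XT.nd (nat_lit 156) (nat_lit 152) (nat_lit 0) (XT.nd (nat_lit 78) (nat_lit 76) (nat_lit 0) (XT.lf (nat_lit 0) (nat_lit 27534724179) (nat_lit 152) (nat_lit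 11948538827) (nat_lit 0) (nat_lit 3647636287) (nat_lit 33) (nat_lit 5) (nat_lit 35) (nat_lit 4) (nat_lit 33) (nat_lit 4) (nat_lit 528) (nat_lit 391) (nat_lit 281)) (XT.lf (nat_lit 0) (nat_lit 6972839452) (nat_lit 76) (nat_lit 30535037445) (nat_lit 76) (nat_lit 6619927407) (nat_lit 32) (nat_lit 4) (nat_lit 33) (nat_lit 5) (nat_lit 33) (nat_lit 4) (nat_lit 529) (nat_lit 391) (nat_lit 280))) (XT.nd (nat_lit 78) (nat_lit 76) (nat_lit 0) (XT.lf (nat_lit 0) (nat_lit 2675341922) (nat_lit 152) (nat_lit 18511371902) (nat_lit 76) (nat_lit 23964116887) (nat_lit 31) (nat_lit 5) (nat_lit 33) (nat_lit 5) (nat_lit 32) (nat_lit 4) (nat_lit 530) (nat_lit 391) (nat_lit 279)) (XT.lf (nat_lit 0) (nat_lit 598108701) (nat_lit 76) (nat_lit 11503782071) (nat_lit 152) (nat_lit 34101127035) (nat_lit 30) (nat_lit 5) (nat_lit 31) (nat_lit 5) (nat_lit 32) (nat_lit 4) (nat_lit 531) (nat_lit 391) (nat_lit 278)))) (XT.nd (nat_lit 156) (nat_lit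 152) (nat_lit 0) (XT.nd (nat_lit 78) (nat_lit 0) (nat_lit 0) (XT.lf (nat_lit 0) (nat_lit 20621178864) (nat_lit 76) (nat_lit 1356925896) (nat_lit 152) (nat_lit 25303660157) (nat_lit 30) (nat_lit 5) (nat_lit 31) (nat_lit 5) (nat_lit 32) (nat_lit 4) (nat_lit 532) (nat_lit 391) (nat_lit 277)) (XT.lf (nat_lit 0) (nat_lit 32218371619) (nat_lit 152) (nat_lit 7273779351) (nat_lit 0) (nat_lit 8898690925) (nat_lit 30) (nat_lit 5) (nat_lit 32) (nat_lit 4) (nat_lit 30) (nat_lit 4) (nat_lit 533) (nat_lit 391) (nat_lit 276))) (XT.nd (nat_lit 78) (nat_lit 76) (nat_lit 0) (XT.lf (nat_lit 0) (nat_lit 12895528322) (nat_lit 76) (nat_lit 29988631351) (nat_lit 76) (nat_lit 6645482550) (nat_lit 29) (nat_lit 4) (nat_lit 30) (nat_lit 5) (nat_lit 30) (nat_lit 4) (nat_lit 534) (nat_lit 391) (nat_lit 275)) (XT.lf (nat_lit 0) (nat_lit 3160619125) (nat_lit 152) (nat_lit 16949876544) (nat_lit 76) (nat_lit 30589544616) (nat_lit 28) (nat_lit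 5) (nat_lit 30) (nat_lit 5) (nat_lit 29) (nat_lit 4) (nat_lit 535) (nat_lit 391) (nat_lit 274))))))) (XT.nd (nat_lit 1170) (nat_lit 76) (nat_lit 0) (XT.nd (nat_lit 546) (nat_lit 304) (nat_lit 0) (XT.nd (nat_lit 234) (nat_lit 228) (nat_lit 0) (XT.nd (nat_lit 78) (nat_lit 0) (nat_lit 0) (XT.lf (nat_lit 0) (nat_lit 3286998591) (nat_lit 76) (nat_lit 9853421557) (nat_lit 152) (nat_lit 38762764115) (nat_lit 27) (nat_lit 5) (nat_lit 28) (nat_lit 5) (nat_lit 29) (nat_lit 4) (nat_lit 536) (nat_lit 391) (nat_lit 273)) (XT.nd (nat_lit 78) (nat_lit 0) (nat_lit 0) (XT.lf (nat_lit 0) (nat_lit 23580821250) (nat_lit 152) (nat_lit 28703644223) (nat_lit 0) (nat_lit 853121295) (nat_lit 27) (nat_lit 5) (nat_lit 29) (nat_lit 4) (nat_lit 27) (nat_lit 4) (nat_lit 537) (nat_lit 391) (nat_lit 272)) (XT.lf (nat_lit 0) (nat_lit 34414044272) (nat_lit 152) (nat_lit 8326488631) (nat_lit 0) (nat_lit 11666100522) (nat_lit 27) (nat_lit 5) (nat_lit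 29) (nat_lit 4) (nat_lit 27) (nat_lit 4) (nat_lit 538) (nat_lit 391) (nat_lit 271)))) (XT.nd (nat_lit 156) (nat_lit 76) (nat_lit 0) (XT.nd (nat_lit 78) (nat_lit 76) (nat_lit 0) (XT.lf (nat_lit 0) (nat_lit 12879121549) (nat_lit 76) (nat_lit 32799518468) (nat_lit 76) (nat_lit 10031920548) (nat_lit 26) (nat_lit 4) (nat_lit 27) (nat_lit 5) (nat_lit 27) (nat_lit 4) (nat_lit 539) (nat_lit 391) (nat_lit 270)) (XT.lf (nat_lit 0) (nat_lit 290626330) (nat_lit 152) (nat_lit 22196708186) (nat_lit 76) (nat_lit 34564180754) (nat_lit 25) (nat_lit 5) (nat_lit 27) (nat_lit 5) (nat_lit 26) (nat_lit 4) (nat_lit 540) (nat_lit 391) (nat_lit 269))) (XT.nd (nat_lit 78) (nat_lit 76) (nat_lit 0) (XT.lf (nat_lit 0) (nat_lit 10704310365) (nat_lit 152) (nat_lit 1075455535) (nat_lit 76) (nat_lit 46650460500) (nat_lit 25) (nat_lit 5) (nat_lit 27) (nat_lit 5) (nat_lit 26) (nat_lit 4) (nat_lit 541) (nat_lit 391) (nat_lit 268)) (XT.lf (nat_lit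 0) (nat_lit 21058127269) (nat_lit 76) (nat_lit 558286128) (nat_lit 152) (nat_lit 38228305537) (nat_lit 24) (nat_lit 5) (nat_lit 25) (nat_lit 5) (nat_lit 26) (nat_lit 4) (nat_lit 542) (nat_lit 391) (nat_lit 267))))) (XT.nd (nat_lit 312) (nat_lit 152) (nat_lit 0) (XT.nd (nat_lit 156) (nat_lit 76) (nat_lit 0) (XT.nd (nat_lit 78) (nat_lit 76) (nat_lit 0) (XT.lf (nat_lit 0) (nat_lit 32956189836) (nat_lit 152) (nat_lit 17561650201) (nat_lit 0) (nat_lit 10780797211) (nat_lit 24) (nat_lit 5) (nat_lit 26) (nat_lit 4) (nat_lit 24) (nat_lit 4) (nat_lit 543) (nat_lit 391) (nat_lit 266)) (XT.lf (nat_lit 0) (nat_lit 4348048886) (nat_lit 76) (nat_lit 40319517504) (nat_lit 76) (nat_lit 18127664822) (nat_lit 23) (nat_lit 4) (nat_lit 24) (nat_lit 5) (nat_lit 24) (nat_lit 4) (nat_lit 544) (nat_lit 391) (nat_lit 265))) (XT.nd (nat_lit 78) (nat_lit 76) (nat_lit 0) (XT.lf (nat_lit 0) (nat_lit 27244033382) (nat_lit 76) (nat_lit 29647837811)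 (nat_lit 76) (nat_lit 7440004490) (nat_lit 23) (nat_lit 4) (nat_lit 24) (nat_lit 5) (nat_lit 24) (nat_lit 4) (nat_lit 545) (nat_lit 391) (nat_lit 264)) (XT.lf (nat_lit 0) (nat_lit 3483211345) (nat_lit 152) (nat_lit 15152429472) (nat_lit 76) (nat_lit 47278413260) (nat_lit 22) (nat_lit 5) (nat_lit 24) (nat_lit 5) (nat_lit 23) (nat_lit 4) (nat_lit 546) (nat_lit 391) (nat_lit 263)))) (XT.nd (nat_lit 156) (nat_lit 76) (nat_lit 0) (XT.nd (nat_lit 78) (nat_lit 0) (nat_lit 0) (XT.lf (nat_lit 0) (nat_lit 7483898942) (nat_lit 76) (nat_lit 7157633437) (nat_lit 152) (nat_lit 52898247450) (nat_lit 21) (nat_lit 5) (nat_lit 22) (nat_lit 5) (nat_lit 23) (nat_lit 4) (nat_lit 547) (nat_lit 391) (nat_lit 262)) (XT.lf (nat_lit 0) (nat_lit 26318990918) (nat_lit 152) (nat_lit 38175653793) (nat_lit 0) (nat_lit 4714101270) (nat_lit 21) (nat_lit 5) (nat_lit 23) (nat_lit 4) (nat_lit 21) (nat_lit 4) (nat_lit 548) (nat_lit 391) (nat_lit 261)))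 (XT.nd (nat_lit 78) (nat_lit 76) (nat_lit 0) (XT.lf (nat_lit 0) (nat_lit 38403100104) (nat_lit 152) (nat_lit 15738566044) (nat_lit 0) (nat_lit 16784425417) (nat_lit 21) (nat_lit 5) (nat_lit 23) (nat_lit 4) (nat_lit 21) (nat_lit 4) (nat_lit 549) (nat_lit 391) (nat_lit 260)) (XT.lf (nat_lit 0) (nat_lit 7489946973) (nat_lit 76) (nat_lit 43417666296) (nat_lit 76) (nat_lit 21785608076) (nat_lit 20) (nat_lit 4) (nat_lit 21) (nat_lit 5) (nat_lit 21) (nat_lit 4) (nat_lit 550) (nat_lit 391) (nat_lit 259)))))) (XT.nd (nat_lit 52416) (nat_lit 0) (nat_lit 17784) (XT.nd (nat_lit 52104) (nat_lit 0) (nat_lit 23864) (XT.nd (nat_lit 51948) (nat_lit 0) (nat_lit 26448) (XT.nd (nat_lit 78) (nat_lit 76) (nat_lit 0) (XT.lf (nat_lit 0) (nat_lit 31710370324) (nat_lit 76) (nat_lit 32221849075) (nat_lit 76) (nat_lit 10576797133) (nat_lit 20) (nat_lit 4) (nat_lit 21) (nat_lit 5) (nat_lit 21) (nat_lit 4) (nat_lit 551) (nat_lit 391) (nat_lit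 258)) (XT.lf (nat_lit 0) (nat_lit 935684851) (nat_lit 152) (nat_lit 19758226957) (nat_lit 76) (nat_lit 55685505724) (nat_lit 19) (nat_lit 5) (nat_lit 21) (nat_lit 5) (nat_lit 20) (nat_lit 4) (nat_lit 552) (nat_lit 391) (nat_lit 257))) (XT.nd (nat_lit 78) (nat_lit 76) (nat_lit 0) (XT.lf (nat_lit 0) (nat_lit 788679563) (nat_lit 684) (nat_lit 1284643632) (nat_lit 684) (nat_lit 1284643632) (nat_lit 368) (nat_lit 4) (nat_lit 377) (nat_lit 5) (nat_lit 377) (nat_lit 4) (nat_lit 416) (nat_lit 392) (nat_lit 392)) (XT.lf (nat_lit 0) (nat_lit 717726095) (nat_lit 760) (nat_lit 703611360) (nat_lit 76) (nat_lit 5330690967) (nat_lit 367) (nat_lit 5) (nat_lit 377) (nat_lit 5) (nat_lit 368) (nat_lit 4) (nat_lit 417) (nat_lit 392) (nat_lit 391)))) (XT.nd (nat_lit 156) (nat_lit 912) (nat_lit 0) (XT.nd (nat_lit 78) (nat_lit 912) (nat_lit 0) (XT.lf (nat_lit 0) (nat_lit 3825850894) (nat_lit 760) (nat_lit 156470091) (nat_lit 836) (nat_lit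 2808241330) (nat_lit 357) (nat_lit 5) (nat_lit 367) (nat_lit 5) (nat_lit 368) (nat_lit 4) (nat_lit 418) (nat_lit 392) (nat_lit 390)) (XT.lf (nat_lit 0) (nat_lit 433713433) (nat_lit 912) (nat_lit 5231046225) (nat_lit 76) (nat_lit 1167505162) (nat_lit 345) (nat_lit 5) (nat_lit 357) (nat_lit 5) (nat_lit 346) (nat_lit 4) (nat_lit 419) (nat_lit 392) (nat_lit 389))) (XT.nd (nat_lit 78) (nat_lit 912) (nat_lit 0) (XT.lf (nat_lit 0) (nat_lit 3645644654) (nat_lit 912) (nat_lit 630486818) (nat_lit 76) (nat_lit 2600412548) (nat_lit 345) (nat_lit 5) (nat_lit 357) (nat_lit 5) (nat_lit 346) (nat_lit 4) (nat_lit 420) (nat_lit 392) (nat_lit 388)) (XT.lf (nat_lit 0) (nat_lit 4099327897) (nat_lit 912) (nat_lit 2794377461) (nat_lit 988) (nat_lit 30286652) (nat_lit 333) (nat_lit 5) (nat_lit 345) (nat_lit 5) (nat_lit 346) (nat_lit 4) (nat_lit 421) (nat_lit 392) (nat_lit 387))))) (XT.nd (nat_lit 312) (nat_lit 2736) (nat_lit 0) (XT.nd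 (nat_lit 156) (nat_lit 2280) (nat_lit 0) (XT.nd (nat_lit 78) (nat_lit 0) (nat_lit 0) (XT.lf (nat_lit 0) (nat_lit 1927564105) (nat_lit 988) (nat_lit 1201426240) (nat_lit 1064) (nat_lit 3845171267) (nat_lit 319) (nat_lit 5) (nat_lit 332) (nat_lit 5) (nat_lit 333) (nat_lit 5) (nat_lit 422) (nat_lit 392) (nat_lit 386)) (XT.lf (nat_lit 0) (nat_lit 6318979572) (nat_lit 1064) (nat_lit 241520288) (nat_lit 76) (nat_lit 467261880) (nat_lit 319) (nat_lit 5) (nat_lit 333) (nat_lit 5) (nat_lit 320) (nat_lit 4) (nat_lit 423) (nat_lit 392) (nat_lit 385))) (XT.nd (nat_lit 78) (nat_lit 1140) (nat_lit 0) (XT.lf (nat_lit 0) (nat_lit 2435480421) (nat_lit 1140) (nat_lit 2409800233) (nat_lit 76) (nat_lit 2238101289) (nat_lit 304) (nat_lit 5) (nat_lit 319) (nat_lit 5) (nat_lit 305) (nat_lit 5) (nat_lit 424) (nat_lit 392) (nat_lit 384)) (XT.lf (nat_lit 0) (nat_lit 2552950550) (nat_lit 1140) (nat_lit 3041143071) (nat_lit 1216) (nat_lit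 1548366653) (nat_lit 289) (nat_lit 5) (nat_lit 304) (nat_lit 5) (nat_lit 305) (nat_lit 5) (nat_lit 425) (nat_lit 392) (nat_lit 383)))) (XT.nd (nat_lit 156) (nat_lit 1444) (nat_lit 0) (XT.nd (nat_lit 78) (nat_lit 0) (nat_lit 0) (XT.lf (nat_lit 0) (nat_lit 412114267) (nat_lit 1216) (nat_lit 1136672981) (nat_lit 1292) (nat_lit 5655974572) (nat_lit 272) (nat_lit 5) (nat_lit 288) (nat_lit 5) (nat_lit 289) (nat_lit 5) (nat_lit 426) (nat_lit 392) (nat_lit 382)) (XT.lf (nat_lit 0) (nat_lit 4672450375) (nat_lit 1292) (nat_lit 1726504728) (nat_lit 76) (nat_lit 870601663) (nat_lit 272) (nat_lit 5) (nat_lit 289) (nat_lit 5) (nat_lit 273) (nat_lit 5) (nat_lit 427) (nat_lit 392) (nat_lit 381))) (XT.nd (nat_lit 78) (nat_lit 608) (nat_lit 0) (XT.lf (nat_lit 0) (nat_lit 499369863) (nat_lit 836) (nat_lit 3885067467) (nat_lit 76) (nat_lit 2953023552) (nat_lit 261) (nat_lit 5) (nat_lit 272) (nat_lit 5) (nat_lit 262) (nat_lit 5) (nat_lit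 428) (nat_lit 392) (nat_lit 380)) (XT.lf (nat_lit 0) (nat_lit 1323858150) (nat_lit 608) (nat_lit 2256431814) (nat_lit 684) (nat_lit 3828051815) (nat_lit 253) (nat_lit 5) (nat_lit 261) (nat_lit 5) (nat_lit 262) (nat_lit 5) (nat_lit 429) (nat_lit 392) (nat_lit 379))))))))
noncomputable def xc78 : XT := (XT.nd (nat_lit 2340) (nat_lit 4636) (nat_lit 0) (XT.nd (nat_lit 1170) (nat_lit 3572) (nat_lit 0) (XT.nd (nat_lit 546) (nat_lit 2812) (nat_lit 0) (XT.nd (nat_lit 234) (nat_lit 1748) (nat_lit 0) (XT.nd (nat_lit 78) (nat_lit 1216) (nat_lit 0) (XT.lf (nat_lit 0) (nat_lit 6678326699) (nat_lit 608) (nat_lit 29611910) (nat_lit 684) (nat_lit 774804318) (nat_lit 253) (nat_lit 5) (nat_lit 261) (nat_lit 5) (nat_lit 262) (nat_lit 5) (nat_lit 430) (nat_lit 392) (nat_lit 378)) (XT.nd (nat_lit 78) (nat_lit 532) (nat_lit 0) (XT.lf (nat_lit 0) (nat_lit 2307198215) (nat_lit 684) (nat_lit 2970399286) (nat_lit 76) (nat_lit 2281614515)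 (nat_lit 244) (nat_lit 5) (nat_lit 253) (nat_lit 5) (nat_lit 245) (nat_lit 5) (nat_lit 431) (nat_lit 392) (nat_lit 377)) (XT.lf (nat_lit 0) (nat_lit 2471843836) (nat_lit 532) (nat_lit 2944716125) (nat_lit 608) (nat_lit 2222691834) (nat_lit 237) (nat_lit 5) (nat_lit 244) (nat_lit 5) (nat_lit 245) (nat_lit 5) (nat_lit 432) (nat_lit 392) (nat_lit 376)))) (XT.nd (nat_lit 156) (nat_lit 1140) (nat_lit 0) (XT.nd (nat_lit 78) (nat_lit 0) (nat_lit 0) (XT.lf (nat_lit 0) (nat_lit 323148552) (nat_lit 532) (nat_lit 509162330) (nat_lit 608) (nat_lit 6890573334) (nat_lit 229) (nat_lit 5) (nat_lit 236) (nat_lit 5) (nat_lit 237) (nat_lit 5) (nat_lit 433) (nat_lit 392) (nat_lit 375)) (XT.lf (nat_lit 0) (nat_lit 3926504769) (nat_lit 608) (nat_lit 1857940140) (nat_lit 76) (nat_lit 2024173186) (nat_lit 229) (nat_lit 5) (nat_lit 237) (nat_lit 5) (nat_lit 230) (nat_lit 5) (nat_lit 434) (nat_lit 392) (nat_lit 374))) (XT.nd (nat_lit 78)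 (nat_lit 608) (nat_lit 0) (XT.lf (nat_lit 0) (nat_lit 3829420026) (nat_lit 532) (nat_lit 3248575461) (nat_lit 608) (nat_lit 820012956) (nat_lit 222) (nat_lit 5) (nat_lit 229) (nat_lit 5) (nat_lit 230) (nat_lit 5) (nat_lit 435) (nat_lit 392) (nat_lit 373)) (XT.lf (nat_lit 0) (nat_lit 1654602523) (nat_lit 532) (nat_lit 591899125) (nat_lit 608) (nat_lit 5744180458) (nat_lit 214) (nat_lit 5) (nat_lit 221) (nat_lit 5) (nat_lit 222) (nat_lit 5) (nat_lit 436) (nat_lit 392) (nat_lit 372))))) (XT.nd (nat_lit 312) (nat_lit 1368) (nat_lit 0) (XT.nd (nat_lit 156) (nat_lit 912) (nat_lit 0) (XT.nd (nat_lit 78) (nat_lit 532) (nat_lit 0) (XT.lf (nat_lit 0) (nat_lit 5375105818) (nat_lit 608) (nat_lit 573429194) (nat_lit 76) (nat_lit 2137777138) (nat_lit 214) (nat_lit 5) (nat_lit 222) (nat_lit 5) (nat_lit 215) (nat_lit 5) (nat_lit 437) (nat_lit 392) (nat_lit 371)) (XT.lf (nat_lit 0) (nat_lit 388693781) (nat_lit 532) (nat_lit 2817645995)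 (nat_lit 76) (nat_lit 4978848583) (nat_lit 207) (nat_lit 5) (nat_lit 214) (nat_lit 5) (nat_lit 208) (nat_lit 5) (nat_lit 438) (nat_lit 392) (nat_lit 370))) (XT.nd (nat_lit 78) (nat_lit 456) (nat_lit 0) (XT.lf (nat_lit 0) (nat_lit 3156152402) (nat_lit 456) (nat_lit 334356573) (nat_lit 532) (nat_lit 4796829814) (nat_lit 201) (nat_lit 5) (nat_lit 207) (nat_lit 5) (nat_lit 208) (nat_lit 5) (nat_lit 439) (nat_lit 392) (nat_lit 369)) (XT.lf (nat_lit 0) (nat_lit 875524255) (nat_lit 456) (nat_lit 5800540714) (nat_lit 532) (nat_lit 1716783283) (nat_lit 195) (nat_lit 5) (nat_lit 201) (nat_lit 5) (nat_lit 202) (nat_lit 5) (nat_lit 440) (nat_lit 392) (nat_lit 368)))) (XT.nd (nat_lit 156) (nat_lit 836) (nat_lit 0) (XT.nd (nat_lit 78) (nat_lit 456) (nat_lit 0) (XT.lf (nat_lit 0) (nat_lit 1411719220) (nat_lit 532) (nat_lit 1441980995) (nat_lit 76) (nat_lit 5647883449) (nat_lit 194) (nat_lit 5) (nat_lit 201) (nat_lit 5) (nat_lit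 195) (nat_lit 5) (nat_lit 441) (nat_lit 392) (nat_lit 367)) (XT.lf (nat_lit 0) (nat_lit 4578815100) (nat_lit 532) (nat_lit 3812741097) (nat_lit 76) (nat_lit 222151513) (nat_lit 188) (nat_lit 5) (nat_lit 195) (nat_lit 5) (nat_lit 189) (nat_lit 5) (nat_lit 442) (nat_lit 392) (nat_lit 366))) (XT.nd (nat_lit 78) (nat_lit 456) (nat_lit 0) (XT.lf (nat_lit 0) (nat_lit 2461512785) (nat_lit 380) (nat_lit 5377895933) (nat_lit 456) (nat_lit 889845639) (nat_lit 183) (nat_lit 5) (nat_lit 188) (nat_lit 5) (nat_lit 189) (nat_lit 5) (nat_lit 443) (nat_lit 392) (nat_lit 365)) (XT.lf (nat_lit 0) (nat_lit 42297269) (nat_lit 380) (nat_lit 2233010192) (nat_lit 456) (nat_lit 6573146948) (nat_lit 177) (nat_lit 5) (nat_lit 182) (nat_lit 5) (nat_lit 183) (nat_lit 5) (nat_lit 444) (nat_lit 392) (nat_lit 364)))))) (XT.nd (nat_lit 546) (nat_lit 1672) (nat_lit 0) (XT.nd (nat_lit 234) (nat_lit 1064) (nat_lit 0) (XT.nd (nat_lit 78) (nat_lit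 836) (nat_lit 0) (XT.lf (nat_lit 0) (nat_lit 5524321746) (nat_lit 456) (nat_lit 2409821190) (nat_lit 76) (nat_lit 1036631752) (nat_lit 177) (nat_lit 5) (nat_lit 183) (nat_lit 5) (nat_lit 178) (nat_lit 5) (nat_lit 445) (nat_lit 392) (nat_lit 363)) (XT.nd (nat_lit 78) (nat_lit 456) (nat_lit 0) (XT.lf (nat_lit 0) (nat_lit 4148411431) (nat_lit 380) (nat_lit 4719527353) (nat_lit 456) (nat_lit 228923750) (nat_lit 172) (nat_lit 5) (nat_lit 177) (nat_lit 5) (nat_lit 178) (nat_lit 5) (nat_lit 446) (nat_lit 392) (nat_lit 362)) (XT.lf (nat_lit 0) (nat_lit 1639627036) (nat_lit 380) (nat_lit 1361185244) (nat_lit 456) (nat_lit 6225765803) (nat_lit 166) (nat_lit 5) (nat_lit 171) (nat_lit 5) (nat_lit 172) (nat_lit 5) (nat_lit 447) (nat_lit 392) (nat_lit 361)))) (XT.nd (nat_lit 156) (nat_lit 684) (nat_lit 0) (XT.nd (nat_lit 78) (nat_lit 380) (nat_lit 0) (XT.lf (nat_lit 0) (nat_lit 6329804302) (nat_lit 456) (nat_lit 944884399) (nat_lit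 76) (nat_lit 2085230364) (nat_lit 166) (nat_lit 5) (nat_lit 172) (nat_lit 5) (nat_lit 167) (nat_lit 5) (nat_lit 448) (nat_lit 392) (nat_lit 360)) (XT.lf (nat_lit 0) (nat_lit 264863112) (nat_lit 380) (nat_lit 3588736996) (nat_lit 76) (nat_lit 5643338326) (nat_lit 161) (nat_lit 5) (nat_lit 166) (nat_lit 5) (nat_lit 162) (nat_lit 5) (nat_lit 449) (nat_lit 392) (nat_lit 359))) (XT.nd (nat_lit 78) (nat_lit 304) (nat_lit 0) (XT.lf (nat_lit 0) (nat_lit 3294856325) (nat_lit 380) (nat_lit 282784049) (nat_lit 456) (nat_lit 6060142394) (nat_lit 156) (nat_lit 5) (nat_lit 161) (nat_lit 5) (nat_lit 162) (nat_lit 5) (nat_lit 450) (nat_lit 392) (nat_lit 358)) (XT.lf (nat_lit 0) (nat_lit 566293947) (nat_lit 304) (nat_lit 6437429079) (nat_lit 380) (nat_lit 2778721441) (nat_lit 152) (nat_lit 5) (nat_lit 156) (nat_lit 5) (nat_lit 157) (nat_lit 5) (nat_lit 451) (nat_lit 392) (nat_lit 357))))) (XT.nd (nat_lit 312) (nat_lit 912) (nat_lit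 0) (XT.nd (nat_lit 156) (nat_lit 380) (nat_lit 0) (XT.nd (nat_lit 78) (nat_lit 304) (nat_lit 0) (XT.lf (nat_lit 0) (nat_lit 596466432) (nat_lit 380) (nat_lit 2214785451) (nat_lit 76) (nat_lit 7119818279) (nat_lit 151) (nat_lit 5) (nat_lit 156) (nat_lit 5) (nat_lit 152) (nat_lit 5) (nat_lit 452) (nat_lit 392) (nat_lit 356)) (XT.lf (nat_lit 0) (nat_lit 4015621313) (nat_lit 380) (nat_lit 5113010852) (nat_lit 76) (nat_lit 954749146) (nat_lit 147) (nat_lit 5) (nat_lit 152) (nat_lit 5) (nat_lit 148) (nat_lit 5) (nat_lit 453) (nat_lit 392) (nat_lit 355))) (XT.nd (nat_lit 78) (nat_lit 76) (nat_lit 0) (XT.lf (nat_lit 0) (nat_lit 2102966578) (nat_lit 304) (nat_lit 5446971477) (nat_lit 380) (nat_lit 2689954739) (nat_lit 143) (nat_lit 5) (nat_lit 147) (nat_lit 5) (nat_lit 148) (nat_lit 5) (nat_lit 454) (nat_lit 392) (nat_lit 354)) (XT.lf (nat_lit 0) (nat_lit 768168180) (nat_lit 380) (nat_lit 854623994) (nat_lit 76) (nat_lit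 8778256488) (nat_lit 142) (nat_lit 5) (nat_lit 147) (nat_lit 5) (nat_lit 143) (nat_lit 5) (nat_lit 455) (nat_lit 392) (nat_lit 353)))) (XT.nd (nat_lit 156) (nat_lit 380) (nat_lit 0) (XT.nd (nat_lit 78) (nat_lit 228) (nat_lit 0) (XT.lf (nat_lit 0) (nat_lit 4306846562) (nat_lit 380) (nat_lit 3923996065) (nat_lit 76) (nat_lit 2334479149) (nat_lit 138) (nat_lit 5) (nat_lit 143) (nat_lit 5) (nat_lit 139) (nat_lit 5) (nat_lit 456) (nat_lit 392) (nat_lit 352)) (XT.lf (nat_lit 0) (nat_lit 3614557930) (nat_lit 228) (nat_lit 4341131035) (nat_lit 304) (nat_lit 2778721667) (nat_lit 135) (nat_lit 5) (nat_lit 138) (nat_lit 5) (nat_lit 139) (nat_lit 5) (nat_lit 457) (nat_lit 392) (nat_lit 351))) (XT.nd (nat_lit 78) (nat_lit 0) (nat_lit 0) (XT.lf (nat_lit 0) (nat_lit 467814752) (nat_lit 304) (nat_lit 311139417) (nat_lit 380) (nat_lit 10129715540) (nat_lit 130) (nat_lit 5) (nat_lit 134) (nat_lit 5) (nat_lit 135) (nat_lit 5) (nat_lit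 458) (nat_lit 392) (nat_lit 350)) (XT.lf (nat_lit 0) (nat_lit 4442267332) (nat_lit 380) (nat_lit 2808086727) (nat_lit 76) (nat_lit 3835341445) (nat_lit 130) (nat_lit 5) (nat_lit 135) (nat_lit 5) (nat_lit 131) (nat_lit 5) (nat_lit 459) (nat_lit 392) (nat_lit 349))))))) (XT.nd (nat_lit 1170) (nat_lit 1900) (nat_lit 0) (XT.nd (nat_lit 546) (nat_lit 1368) (nat_lit 0) (XT.nd (nat_lit 234) (nat_lit 760) (nat_lit 0) (XT.nd (nat_lit 78) (nat_lit 380) (nat_lit 0) (XT.lf (nat_lit 0) (nat_lit 5065928465) (nat_lit 228) (nat_lit 3148161981) (nat_lit 304) (nat_lit 3053990112) (nat_lit 127) (nat_lit 5) (nat_lit 130) (nat_lit 5) (nat_lit 131) (nat_lit 5) (nat_lit 460) (nat_lit 392) (nat_lit 348)) (XT.nd (nat_lit 78) (nat_lit 0) (nat_lit 0) (XT.lf (nat_lit 0) (nat_lit 633398977) (nat_lit 380) (nat_lit 9744527258) (nat_lit 76) (nat_lit 1077747344) (nat_lit 122) (nat_lit 5) (nat_lit 127) (nat_lit 5) (nat_lit 123) (nat_lit 5) (nat_lit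 461) (nat_lit 392) (nat_lit 347)) (XT.lf (nat_lit 0) (nat_lit 4411957839) (nat_lit 380) (nat_lit 1804268088) (nat_lit 76) (nat_lit 5430509655) (nat_lit 122) (nat_lit 5) (nat_lit 127) (nat_lit 5) (nat_lit 123) (nat_lit 5) (nat_lit 462) (nat_lit 392) (nat_lit 346)))) (XT.nd (nat_lit 156) (nat_lit 228) (nat_lit 0) (XT.nd (nat_lit 78) (nat_lit 304) (nat_lit 0) (XT.lf (nat_lit 0) (nat_lit 6417676701) (nat_lit 228) (nat_lit 1896926901) (nat_lit 304) (nat_lit 3528609983) (nat_lit 119) (nat_lit 5) (nat_lit 122) (nat_lit 5) (nat_lit 123) (nat_lit 5) (nat_lit 463) (nat_lit 392) (nat_lit 345)) (XT.lf (nat_lit 0) (nat_lit 302847668) (nat_lit 304) (nat_lit 9221475299) (nat_lit 76) (nat_lit 2520593211) (nat_lit 115) (nat_lit 5) (nat_lit 119) (nat_lit 5) (nat_lit 116) (nat_lit 5) (nat_lit 464) (nat_lit 392) (nat_lit 344))) (XT.nd (nat_lit 78) (nat_lit 228) (nat_lit 0) (XT.lf (nat_lit 0) (nat_lit 4202080138) (nat_lit 304) (nat_lit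 956553911) (nat_lit 76) (nat_lit 7092280650) (nat_lit 115) (nat_lit 5) (nat_lit 119) (nat_lit 5) (nat_lit 116) (nat_lit 5) (nat_lit 465) (nat_lit 392) (nat_lit 343)) (XT.lf (nat_lit 0) (nat_lit 7625134979) (nat_lit 228) (nat_lit 617560288) (nat_lit 304) (nat_lit 4219671108) (nat_lit 112) (nat_lit 5) (nat_lit 115) (nat_lit 5) (nat_lit 116) (nat_lit 5) (nat_lit 466) (nat_lit 392) (nat_lit 342))))) (XT.nd (nat_lit 312) (nat_lit 684) (nat_lit 0) (XT.nd (nat_lit 156) (nat_lit 380) (nat_lit 0) (XT.nd (nat_lit 78) (nat_lit 76) (nat_lit 0) (XT.lf (nat_lit 0) (nat_lit 3757876036) (nat_lit 228) (nat_lit 8683028948) (nat_lit 304) (nat_lit 238170545) (nat_lit 109) (nat_lit 5) (nat_lit 112) (nat_lit 5) (nat_lit 113) (nat_lit 5) (nat_lit 467) (nat_lit 392) (nat_lit 341)) (XT.lf (nat_lit 0) (nat_lit 3794486083) (nat_lit 304) (nat_lit 315078831) (nat_lit 76) (nat_lit 8791399388) (nat_lit 108) (nat_lit 5) (nat_lit 112) (nat_lit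 5) (nat_lit 109) (nat_lit 5) (nat_lit 468) (nat_lit 392) (nat_lit 340))) (XT.nd (nat_lit 78) (nat_lit 228) (nat_lit 0) (XT.lf (nat_lit 0) (nat_lit 7985736653) (nat_lit 228) (nat_lit 4497452606) (nat_lit 76) (nat_lit 644982468) (nat_lit 106) (nat_lit 5) (nat_lit 109) (nat_lit 5) (nat_lit 107) (nat_lit 5) (nat_lit 469) (nat_lit 392) (nat_lit 339)) (XT.lf (nat_lit 0) (nat_lit 4456993874) (nat_lit 228) (nat_lit 7885852147) (nat_lit 304) (nat_lit 1018150346) (nat_lit 103) (nat_lit 5) (nat_lit 106) (nat_lit 5) (nat_lit 107) (nat_lit 5) (nat_lit 470) (nat_lit 392) (nat_lit 338)))) (XT.nd (nat_lit 156) (nat_lit 456) (nat_lit 0) (XT.nd (nat_lit 78) (nat_lit 0) (nat_lit 0) (XT.lf (nat_lit 0) (nat_lit 63906450) (nat_lit 152) (nat_lit 3102936348) (nat_lit 228) (nat_lit 10433035709) (nat_lit 100) (nat_lit 5) (nat_lit 102) (nat_lit 5) (nat_lit 103) (nat_lit 5) (nat_lit 471) (nat_lit 392) (nat_lit 337)) (XT.lf (nat_lit 0) (nat_lit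 7519077052) (nat_lit 228) (nat_lit 4467321468) (nat_lit 76) (nat_lit 1857365755) (nat_lit 100) (nat_lit 5) (nat_lit 103) (nat_lit 5) (nat_lit 101) (nat_lit 5) (nat_lit 472) (nat_lit 392) (nat_lit 336))) (XT.nd (nat_lit 78) (nat_lit 228) (nat_lit 0) (XT.lf (nat_lit 0) (nat_lit 4860850728) (nat_lit 228) (nat_lit 7173643813) (nat_lit 304) (nat_lit 2059497705) (nat_lit 97) (nat_lit 5) (nat_lit 100) (nat_lit 5) (nat_lit 101) (nat_lit 5) (nat_lit 473) (nat_lit 392) (nat_lit 335)) (XT.lf (nat_lit 0) (nat_lit 112577512) (nat_lit 152) (nat_lit 2177474631) (nat_lit 228) (nat_lit 12060947542) (nat_lit 94) (nat_lit 5) (nat_lit 96) (nat_lit 5) (nat_lit 97) (nat_lit 5) (nat_lit 474) (nat_lit 392) (nat_lit 334)))))) (XT.nd (nat_lit 624) (nat_lit 912) (nat_lit 0) (XT.nd (nat_lit 312) (nat_lit 532) (nat_lit 0) (XT.nd (nat_lit 156) (nat_lit 228) (nat_lit 0) (XT.nd (nat_lit 78) (nat_lit 228) (nat_lit 0) (XT.lf (nat_lit 0) (nat_lit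 6806956528) (nat_lit 228) (nat_lit 4811909649) (nat_lit 76) (nat_lit 2993895349) (nat_lit 94) (nat_lit 5) (nat_lit 97) (nat_lit 5) (nat_lit 95) (nat_lit 5) (nat_lit 475) (nat_lit 392) (nat_lit 333)) (XT.lf (nat_lit 0) (nat_lit 4896555660) (nat_lit 228) (nat_lit 6588300750) (nat_lit 304) (nat_lit 3396758816) (nat_lit 91) (nat_lit 5) (nat_lit 94) (nat_lit 5) (nat_lit 95) (nat_lit 5) (nat_lit 476) (nat_lit 392) (nat_lit 332))) (XT.nd (nat_lit 78) (nat_lit 152) (nat_lit 0) (XT.lf (nat_lit 0) (nat_lit 1128275749) (nat_lit 304) (nat_lit 248604605) (nat_lit 76) (nat_lit 13781146021) (nat_lit 90) (nat_lit 5) (nat_lit 94) (nat_lit 5) (nat_lit 91) (nat_lit 5) (nat_lit 477) (nat_lit 392) (nat_lit 331)) (XT.lf (nat_lit 0) (nat_lit 5813197712) (nat_lit 228) (nat_lit 5613409349) (nat_lit 76) (nat_lit 4012344969) (nat_lit 88) (nat_lit 5) (nat_lit 91) (nat_lit 5) (nat_lit 89) (nat_lit 5) (nat_lit 478) (nat_lit 392) (nat_lit 330))))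 (XT.nd (nat_lit 156) (nat_lit 380) (nat_lit 0) (XT.nd (nat_lit 78) (nat_lit 0) (nat_lit 0) (XT.lf (nat_lit 0) (nat_lit 4479528380) (nat_lit 152) (nat_lit 6176826787) (nat_lit 228) (nat_lit 5071422902) (nat_lit 86) (nat_lit 5) (nat_lit 88) (nat_lit 5) (nat_lit 89) (nat_lit 5) (nat_lit 479) (nat_lit 392) (nat_lit 329)) (XT.lf (nat_lit 0) (nat_lit 14918032965) (nat_lit 152) (nat_lit 742433918) (nat_lit 228) (nat_lit 364335373) (nat_lit 86) (nat_lit 5) (nat_lit 88) (nat_lit 5) (nat_lit 89) (nat_lit 5) (nat_lit 480) (nat_lit 392) (nat_lit 328))) (XT.nd (nat_lit 78) (nat_lit 152) (nat_lit 0) (XT.lf (nat_lit 0) (nat_lit 4494374619) (nat_lit 228) (nat_lit 6967179234) (nat_lit 76) (nat_lit 4864955966) (nat_lit 83) (nat_lit 5) (nat_lit 86) (nat_lit 5) (nat_lit 84) (nat_lit 5) (nat_lit 481) (nat_lit 392) (nat_lit 327)) (XT.lf (nat_lit 0) (nat_lit 3511425846) (nat_lit 152) (nat_lit 5992463796) (nat_lit 228) (nat_lit 7132902642)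 (nat_lit 81) (nat_lit 5) (nat_lit 83) (nat_lit 5) (nat_lit 84) (nat_lit 5) (nat_lit 482) (nat_lit 392) (nat_lit 326))))) (XT.nd (nat_lit 312) (nat_lit 532) (nat_lit 0) (XT.nd (nat_lit 156) (nat_lit 152) (nat_lit 0) (XT.nd (nat_lit 78) (nat_lit 228) (nat_lit 0) (XT.lf (nat_lit 0) (nat_lit 14376713628) (nat_lit 152) (nat_lit 317794319) (nat_lit 228) (nat_lit 2260953541) (nat_lit 81) (nat_lit 5) (nat_lit 83) (nat_lit 5) (nat_lit 84) (nat_lit 5) (nat_lit 483) (nat_lit 392) (nat_lit 325)) (XT.lf (nat_lit 0) (nat_lit 2798758326) (nat_lit 228) (nat_lit 8984030258) (nat_lit 76) (nat_lit 5497247533) (nat_lit 78) (nat_lit 5) (nat_lit 81) (nat_lit 5) (nat_lit 79) (nat_lit 5) (nat_lit 484) (nat_lit 392) (nat_lit 324))) (XT.nd (nat_lit 78) (nat_lit 0) (nat_lit 0) (XT.lf (nat_lit 0) (nat_lit 1877749961) (nat_lit 152) (nat_lit 6095974820) (nat_lit 228) (nat_lit 9639687015) (nat_lit 76) (nat_lit 5) (nat_lit 78) (nat_lit 5) (nat_lit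 79) (nat_lit 5) (nat_lit 485) (nat_lit 392) (nat_lit 323)) (XT.lf (nat_lit 0) (nat_lit 13180828842) (nat_lit 152) (nat_lit 175707326) (nat_lit 228) (nat_lit 4598677189) (nat_lit 76) (nat_lit 5) (nat_lit 78) (nat_lit 5) (nat_lit 79) (nat_lit 5) (nat_lit 486) (nat_lit 392) (nat_lit 322)))) (XT.nd (nat_lit 156) (nat_lit 304) (nat_lit 0) (XT.nd (nat_lit 78) (nat_lit 0) (nat_lit 0) (XT.lf (nat_lit 0) (nat_lit 665079411) (nat_lit 228) (nat_lit 11792865344) (nat_lit 76) (nat_lit 5846662413) (nat_lit 73) (nat_lit 5) (nat_lit 76) (nat_lit 5) (nat_lit 74) (nat_lit 5) (nat_lit 487) (nat_lit 392) (nat_lit 321)) (XT.lf (nat_lit 0) (nat_lit 6007524852) (nat_lit 228) (nat_lit 544088056) (nat_lit 76) (nat_lit 12111110072) (nat_lit 73) (nat_lit 5) (nat_lit 76) (nat_lit 5) (nat_lit 74) (nat_lit 5) (nat_lit 488) (nat_lit 392) (nat_lit 320))) (XT.nd (nat_lit 78) (nat_lit 152) (nat_lit 0) (XT.lf (nat_lit 0) (nat_lit 11194950733) (nat_lit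 152) (nat_lit 386765885) (nat_lit 228) (nat_lit 7447723671) (nat_lit 71) (nat_lit 5) (nat_lit 73) (nat_lit 5) (nat_lit 74) (nat_lit 5) (nat_lit 489) (nat_lit 392) (nat_lit 319)) (XT.lf (nat_lit 0) (nat_lit 3842114699) (nat_lit 152) (nat_lit 13544827356) (nat_lit 228) (nat_lit 2018304973) (nat_lit 69) (nat_lit 5) (nat_lit 71) (nat_lit 5) (nat_lit 72) (nat_lit 4) (nat_lit 490) (nat_lit 392) (nat_lit 318))))))))
noncomputable def xc79 : XT := (XT.nd (nat_lit 2340) (nat_lit 1444) (nat_lit 0) (XT.nd (nat_lit 1170) (nat_lit 1064) (nat_lit 0) (XT.nd (nat_lit 546) (nat_lit 608) (nat_lit 0) (XT.nd (nat_lit 234) (nat_lit 304) (nat_lit 0) (XT.nd (nat_lit 78) (nat_lit 228) (nat_lit 0) (XT.lf (nat_lit 0) (nat_lit 3552054444) (nat_lit 228) (nat_lit 3865181936) (nat_lit 76) (nat_lit 12372628959) (nat_lit 68) (nat_lit 5) (nat_lit 71) (nat_lit 5) (nat_lit 69) (nat_lit 5) (nat_lit 491) (nat_lit 392) (nat_lit 317)) (XT.nd (nat_lit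 78) (nat_lit 76) (nat_lit 0) (XT.lf (nat_lit 0) (nat_lit 8260968009) (nat_lit 152) (nat_lit 1032520625) (nat_lit 228) (nat_lit 10890600138) (nat_lit 66) (nat_lit 5) (nat_lit 68) (nat_lit 5) (nat_lit 69) (nat_lit 5) (nat_lit 492) (nat_lit 392) (nat_lit 316)) (XT.lf (nat_lit 0) (nat_lit 125857982) (nat_lit 76) (nat_lit 15140474870) (nat_lit 152) (nat_lit 5322032953) (nat_lit 65) (nat_lit 5) (nat_lit 66) (nat_lit 5) (nat_lit 67) (nat_lit 4) (nat_lit 493) (nat_lit 392) (nat_lit 315)))) (XT.nd (nat_lit 156) (nat_lit 76) (nat_lit 0) (XT.nd (nat_lit 78) (nat_lit 152) (nat_lit 0) (XT.lf (nat_lit 0) (nat_lit 502646197) (nat_lit 152) (nat_lit 8299984026) (nat_lit 76) (nat_lit 12199109685) (nat_lit 64) (nat_lit 5) (nat_lit 66) (nat_lit 5) (nat_lit 65) (nat_lit 5) (nat_lit 494) (nat_lit 392) (nat_lit 314)) (XT.lf (nat_lit 0) (nat_lit 4194283682) (nat_lit 152) (nat_lit 2207453252) (nat_lit 228) (nat_lit 15024000082) (nat_lit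 62) (nat_lit 5) (nat_lit 64) (nat_lit 5) (nat_lit 65) (nat_lit 5) (nat_lit 495) (nat_lit 392) (nat_lit 313))) (XT.nd (nat_lit 78) (nat_lit 76) (nat_lit 0) (XT.lf (nat_lit 0) (nat_lit 12572959249) (nat_lit 228) (nat_lit 4733728862) (nat_lit 76) (nat_lit 4552912856) (nat_lit 62) (nat_lit 5) (nat_lit 65) (nat_lit 5) (nat_lit 63) (nat_lit 4) (nat_lit 496) (nat_lit 392) (nat_lit 312)) (XT.lf (nat_lit 0) (nat_lit 8216827818) (nat_lit 76) (nat_lit 10780745215) (nat_lit 152) (nat_lit 3306861805) (nat_lit 61) (nat_lit 5) (nat_lit 62) (nat_lit 5) (nat_lit 63) (nat_lit 4) (nat_lit 497) (nat_lit 392) (nat_lit 311))))) (XT.nd (nat_lit 312) (nat_lit 304) (nat_lit 0) (XT.nd (nat_lit 156) (nat_lit 76) (nat_lit 0) (XT.nd (nat_lit 78) (nat_lit 152) (nat_lit 0) (XT.lf (nat_lit 0) (nat_lit 2812392892) (nat_lit 152) (nat_lit 1196771680) (nat_lit 76) (nat_lit 18752155951) (nat_lit 60) (nat_lit 5) (nat_lit 62) (nat_lit 5) (nat_lit 61)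 (nat_lit 5) (nat_lit 498) (nat_lit 392) (nat_lit 310)) (XT.lf (nat_lit 0) (nat_lit 9164447184) (nat_lit 228) (nat_lit 11030302669) (nat_lit 76) (nat_lit 3032711599) (nat_lit 58) (nat_lit 5) (nat_lit 61) (nat_lit 5) (nat_lit 59) (nat_lit 4) (nat_lit 499) (nat_lit 392) (nat_lit 309))) (XT.nd (nat_lit 78) (nat_lit 0) (nat_lit 0) (XT.lf (nat_lit 0) (nat_lit 2255439868) (nat_lit 76) (nat_lit 13493715946) (nat_lit 152) (nat_lit 7957169477) (nat_lit 57) (nat_lit 5) (nat_lit 58) (nat_lit 5) (nat_lit 59) (nat_lit 4) (nat_lit 500) (nat_lit 392) (nat_lit 308)) (XT.lf (nat_lit 0) (nat_lit 16107469959) (nat_lit 76) (nat_lit 6504188593) (nat_lit 152) (nat_lit 1585490327) (nat_lit 57) (nat_lit 5) (nat_lit 58) (nat_lit 5) (nat_lit 59) (nat_lit 4) (nat_lit 501) (nat_lit 392) (nat_lit 307)))) (XT.nd (nat_lit 156) (nat_lit 76) (nat_lit 0) (XT.nd (nat_lit 78) (nat_lit 0) (nat_lit 0) (XT.lf (nat_lit 0) (nat_lit 4911706195) (nat_lit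 228) (nat_lit 19029965308) (nat_lit 76) (nat_lit 758646868) (nat_lit 54) (nat_lit 5) (nat_lit 57) (nat_lit 5) (nat_lit 55) (nat_lit 4) (nat_lit 502) (nat_lit 392) (nat_lit 306)) (XT.lf (nat_lit 0) (nat_lit 11688411350) (nat_lit 228) (nat_lit 5345413191) (nat_lit 76) (nat_lit 8180794984) (nat_lit 54) (nat_lit 5) (nat_lit 57) (nat_lit 5) (nat_lit 55) (nat_lit 4) (nat_lit 503) (nat_lit 392) (nat_lit 305))) (XT.nd (nat_lit 78) (nat_lit 0) (nat_lit 0) (XT.lf (nat_lit 0) (nat_lit 8866981071) (nat_lit 76) (nat_lit 9857120860) (nat_lit 152) (nat_lit 7018578514) (nat_lit 53) (nat_lit 5) (nat_lit 54) (nat_lit 5) (nat_lit 55) (nat_lit 4) (nat_lit 504) (nat_lit 392) (nat_lit 304)) (XT.lf (nat_lit 0) (nat_lit 23560148021) (nat_lit 76) (nat_lit 2435473150) (nat_lit 152) (nat_lit 290220511) (nat_lit 53) (nat_lit 5) (nat_lit 54) (nat_lit 5) (nat_lit 55) (nat_lit 4) (nat_lit 505) (nat_lit 392) (nat_lit 303)))))) (XT.nd (nat_lit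 546) (nat_lit 456) (nat_lit 0) (XT.nd (nat_lit 234) (nat_lit 304) (nat_lit 0) (XT.nd (nat_lit 78) (nat_lit 76) (nat_lit 0) (XT.lf (nat_lit 0) (nat_lit 6648371255) (nat_lit 228) (nat_lit 14928077205) (nat_lit 76) (nat_lit 5262797026) (nat_lit 50) (nat_lit 5) (nat_lit 53) (nat_lit 5) (nat_lit 51) (nat_lit 4) (nat_lit 506) (nat_lit 392) (nat_lit 302)) (XT.nd (nat_lit 78) (nat_lit 76) (nat_lit 0) (XT.lf (nat_lit 0) (nat_lit 13812622891) (nat_lit 228) (nat_lit 446891671) (nat_lit 76) (nat_lit 13148951703) (nat_lit 50) (nat_lit 5) (nat_lit 53) (nat_lit 5) (nat_lit 51) (nat_lit 4) (nat_lit 507) (nat_lit 392) (nat_lit 301)) (XT.lf (nat_lit 0) (nat_lit 14703000509) (nat_lit 76) (nat_lit 6602393070) (nat_lit 152) (nat_lit 6685963430) (nat_lit 49) (nat_lit 5) (nat_lit 50) (nat_lit 5) (nat_lit 51) (nat_lit 4) (nat_lit 508) (nat_lit 392) (nat_lit 300)))) (XT.nd (nat_lit 156) (nat_lit 76) (nat_lit 0) (XT.nd (nat_lit 78) (nat_lit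 0) (nat_lit 0) (XT.lf (nat_lit 0) (nat_lit 428356156) (nat_lit 228) (nat_lit 26902884197) (nat_lit 76) (nat_lit 1260204065) (nat_lit 46) (nat_lit 5) (nat_lit 49) (nat_lit 5) (nat_lit 47) (nat_lit 4) (nat_lit 509) (nat_lit 392) (nat_lit 299)) (XT.lf (nat_lit 0) (nat_lit 7794968561) (nat_lit 228) (nat_lit 12003965146) (nat_lit 76) (nat_lit 9403418472) (nat_lit 46) (nat_lit 5) (nat_lit 49) (nat_lit 5) (nat_lit 47) (nat_lit 4) (nat_lit 510) (nat_lit 392) (nat_lit 298))) (XT.nd (nat_lit 78) (nat_lit 0) (nat_lit 0) (XT.lf (nat_lit 0) (nat_lit 3356206799) (nat_lit 76) (nat_lit 12031798843) (nat_lit 152) (nat_lit 14443419709) (nat_lit 45) (nat_lit 5) (nat_lit 46) (nat_lit 5) (nat_lit 47) (nat_lit 4) (nat_lit 511) (nat_lit 392) (nat_lit 297)) (XT.lf (nat_lit 0) (nat_lit 19372549083) (nat_lit 76) (nat_lit 3930959875) (nat_lit 152) (nat_lit 7173022446) (nat_lit 45) (nat_lit 5) (nat_lit 46) (nat_lit 5) (nat_lit 47) (nat_lit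 4) (nat_lit 512) (nat_lit 392) (nat_lit 296))))) (XT.nd (nat_lit 312) (nat_lit 228) (nat_lit 0) (XT.nd (nat_lit 156) (nat_lit 76) (nat_lit 0) (XT.nd (nat_lit 78) (nat_lit 0) (nat_lit 0) (XT.lf (nat_lit 0) (nat_lit 371820807) (nat_lit 152) (nat_lit 26414315622) (nat_lit 76) (nat_lit 4352889404) (nat_lit 43) (nat_lit 5) (nat_lit 45) (nat_lit 5) (nat_lit 44) (nat_lit 4) (nat_lit 513) (nat_lit 392) (nat_lit 295)) (XT.lf (nat_lit 0) (nat_lit 8125031782) (nat_lit 152) (nat_lit 10723003173) (nat_lit 76) (nat_lit 12967444606) (nat_lit 43) (nat_lit 5) (nat_lit 45) (nat_lit 5) (nat_lit 44) (nat_lit 4) (nat_lit 514) (nat_lit 392) (nat_lit 294))) (XT.nd (nat_lit 78) (nat_lit 0) (nat_lit 0) (XT.lf (nat_lit 0) (nat_lit 5497979070) (nat_lit 76) (nat_lit 10640500288) (nat_lit 152) (nat_lit 16372919167) (nat_lit 42) (nat_lit 5) (nat_lit 43) (nat_lit 5) (nat_lit 44) (nat_lit 4) (nat_lit 515) (nat_lit 392) (nat_lit 293)) (XT.lf (nat_lit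 0) (nat_lit 22377520949) (nat_lit 76) (nat_lit 2098155059) (nat_lit 152) (nat_lit 8750019493) (nat_lit 42) (nat_lit 5) (nat_lit 43) (nat_lit 5) (nat_lit 44) (nat_lit 4) (nat_lit 516) (nat_lit 392) (nat_lit 292)))) (XT.nd (nat_lit 156) (nat_lit 76) (nat_lit 0) (XT.nd (nat_lit 78) (nat_lit 76) (nat_lit 0) (XT.lf (nat_lit 0) (nat_lit 5803874034) (nat_lit 76) (nat_lit 27354890316) (nat_lit 76) (nat_lit 799784548) (nat_lit 41) (nat_lit 4) (nat_lit 42) (nat_lit 5) (nat_lit 42) (nat_lit 4) (nat_lit 517) (nat_lit 392) (nat_lit 291)) (XT.lf (nat_lit 0) (nat_lit 7351776518) (nat_lit 152) (nat_lit 11672150901) (nat_lit 76) (nat_lit 15684120275) (nat_lit 40) (nat_lit 5) (nat_lit 42) (nat_lit 5) (nat_lit 41) (nat_lit 4) (nat_lit 518) (nat_lit 392) (nat_lit 290))) (XT.nd (nat_lit 78) (nat_lit 0) (nat_lit 0) (XT.lf (nat_lit 0) (nat_lit 5355785659) (nat_lit 76) (nat_lit 10403818170) (nat_lit 152) (nat_lit 19719356957) (nat_lit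 39) (nat_lit 5) (nat_lit 40) (nat_lit 5) (nat_lit 41) (nat_lit 4) (nat_lit 519) (nat_lit 392) (nat_lit 289)) (XT.lf (nat_lit 0) (nat_lit 23088620433) (nat_lit 76) (nat_lit 1425477967) (nat_lit 152) (nat_lit 11756070596) (nat_lit 39) (nat_lit 5) (nat_lit 40) (nat_lit 5) (nat_lit 41) (nat_lit 4) (nat_lit 520) (nat_lit 392) (nat_lit 288))))))) (XT.nd (nat_lit 1170) (nat_lit 684) (nat_lit 0) (XT.nd (nat_lit 546) (nat_lit 380) (nat_lit 0) (XT.nd (nat_lit 234) (nat_lit 152) (nat_lit 0) (XT.nd (nat_lit 78) (nat_lit 152) (nat_lit 0) (XT.lf (nat_lit 0) (nat_lit 4231332644) (nat_lit 76) (nat_lit 29392807132) (nat_lit 76) (nat_lit 3458186995) (nat_lit 38) (nat_lit 4) (nat_lit 39) (nat_lit 5) (nat_lit 39) (nat_lit 4) (nat_lit 521) (nat_lit 392) (nat_lit 287)) (XT.nd (nat_lit 78) (nat_lit 76) (nat_lit 0) (XT.lf (nat_lit 0) (nat_lit 5114941561) (nat_lit 152) (nat_lit 15586786384) (nat_lit 76) (nat_lit 17211886342) (nat_lit 37)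 (nat_lit 5) (nat_lit 39) (nat_lit 5) (nat_lit 38) (nat_lit 4) (nat_lit 522) (nat_lit 392) (nat_lit 286)) (XT.lf (nat_lit 0) (nat_lit 2160160777) (nat_lit 76) (nat_lit 11714096482) (nat_lit 152) (nat_lit 24894601623) (nat_lit 36) (nat_lit 5) (nat_lit 37) (nat_lit 5) (nat_lit 38) (nat_lit 4) (nat_lit 523) (nat_lit 392) (nat_lit 285)))) (XT.nd (nat_lit 156) (nat_lit 152) (nat_lit 0) (XT.nd (nat_lit 78) (nat_lit 0) (nat_lit 0) (XT.lf (nat_lit 0) (nat_lit 20716352883) (nat_lit 76) (nat_lit 2315368423) (nat_lit 152) (nat_lit 16613979045) (nat_lit 36) (nat_lit 5) (nat_lit 37) (nat_lit 5) (nat_lit 38) (nat_lit 4) (nat_lit 524) (nat_lit 392) (nat_lit 284)) (XT.lf (nat_lit 0) (nat_lit 32513130994) (nat_lit 152) (nat_lit 832299998) (nat_lit 0) (nat_lit 7201940006) (nat_lit 36) (nat_lit 5) (nat_lit 38) (nat_lit 4) (nat_lit 36) (nat_lit 4) (nat_lit 525) (nat_lit 392) (nat_lit 283))) (XT.nd (nat_lit 78) (nat_lit 0) (nat_lit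 0) (XT.lf (nat_lit 0) (nat_lit 964901445) (nat_lit 152) (nat_lit 23383061608) (nat_lit 76) (nat_lit 17122567398) (nat_lit 34) (nat_lit 5) (nat_lit 36) (nat_lit 5) (nat_lit 35) (nat_lit 4) (nat_lit 526) (nat_lit 392) (nat_lit 282)) (XT.lf (nat_lit 0) (nat_lit 10060092297) (nat_lit 152) (nat_lit 4949552874) (nat_lit 76) (nat_lit 27409726984) (nat_lit 34) (nat_lit 5) (nat_lit 36) (nat_lit 5) (nat_lit 35) (nat_lit 4) (nat_lit 527) (nat_lit 392) (nat_lit 281))))) (XT.nd (nat_lit 312) (nat_lit 152) (nat_lit 0) (XT.nd (nat_lit 156) (nat_lit 152) (nat_lit 0) (XT.nd (nat_lit 78) (nat_lit 0) (nat_lit 0) (XT.lf (nat_lit 0) (nat_lit 14276040753) (nat_lit 76) (nat_lit 5269005455) (nat_lit 152) (nat_lit 23848126201) (nat_lit 33) (nat_lit 5) (nat_lit 34) (nat_lit 5) (nat_lit 35) (nat_lit 4) (nat_lit 528) (nat_lit 392) (nat_lit 280)) (XT.lf (nat_lit 0) (nat_lit 29390528046) (nat_lit 152) (nat_lit 10300643157) (nat_lit 0) (nat_lit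 4702736593) (nat_lit 33) (nat_lit 5) (nat_lit 35) (nat_lit 4) (nat_lit 33) (nat_lit 4) (nat_lit 529) (nat_lit 392) (nat_lit 279))) (XT.nd (nat_lit 78) (nat_lit 76) (nat_lit 0) (XT.lf (nat_lit 0) (nat_lit 9168706354) (nat_lit 76) (nat_lit 30483273120) (nat_lit 76) (nat_lit 5769068106) (nat_lit 32) (nat_lit 4) (nat_lit 33) (nat_lit 5) (nat_lit 33) (nat_lit 4) (nat_lit 530) (nat_lit 392) (nat_lit 278)) (XT.lf (nat_lit 0) (nat_lit 3754610369) (nat_lit 152) (nat_lit 17117990197) (nat_lit 76) (nat_lit 25602761382) (nat_lit 31) (nat_lit 5) (nat_lit 33) (nat_lit 5) (nat_lit 32) (nat_lit 4) (nat_lit 531) (nat_lit 392) (nat_lit 277)))) (XT.nd (nat_lit 156) (nat_lit 76) (nat_lit 0) (XT.nd (nat_lit 78) (nat_lit 0) (nat_lit 0) (XT.lf (nat_lit 0) (nat_lit 2545669698) (nat_lit 76) (nat_lit 10907737326) (nat_lit 152) (nat_lit 34106024776) (nat_lit 30) (nat_lit 5) (nat_lit 31) (nat_lit 5) (nat_lit 32) (nat_lit 4) (nat_lit 532)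 (nat_lit 392) (nat_lit 276)) (XT.lf (nat_lit 0) (nat_lit 23113229507) (nat_lit 76) (nat_lit 483887842) (nat_lit 152) (nat_lit 25074288340) (nat_lit 30) (nat_lit 5) (nat_lit 31) (nat_lit 5) (nat_lit 32) (nat_lit 4) (nat_lit 533) (nat_lit 392) (nat_lit 275))) (XT.nd (nat_lit 78) (nat_lit 76) (nat_lit 0) (XT.lf (nat_lit 0) (nat_lit 34125168331) (nat_lit 152) (nat_lit 5653697616) (nat_lit 0) (nat_lit 10035472390) (nat_lit 30) (nat_lit 5) (nat_lit 32) (nat_lit 4) (nat_lit 30) (nat_lit 4) (nat_lit 534) (nat_lit 392) (nat_lit 274)) (XT.lf (nat_lit 0) (nat_lit 15102666787) (nat_lit 76) (nat_lit 29998375021) (nat_lit 76) (nat_lit 5886558138) (nat_lit 29) (nat_lit 4) (nat_lit 30) (nat_lit 5) (nat_lit 30) (nat_lit 4) (nat_lit 535) (nat_lit 392) (nat_lit 273)))))) (XT.nd (nat_lit 624) (nat_lit 304) (nat_lit 0) (XT.nd (nat_lit 312) (nat_lit 228) (nat_lit 0) (XT.nd (nat_lit 156) (nat_lit 0) (nat_lit 0) (XT.nd (nat_lit 78) (nat_lit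 76) (nat_lit 0) (XT.lf (nat_lit 0) (nat_lit 4167660244) (nat_lit 152) (nat_lit 15672943228) (nat_lit 76) (nat_lit 32353051717) (nat_lit 28) (nat_lit 5) (nat_lit 30) (nat_lit 5) (nat_lit 29) (nat_lit 4) (nat_lit 536) (nat_lit 392) (nat_lit 272)) (XT.lf (nat_lit 0) (nat_lit 5153533949) (nat_lit 76) (nat_lit 9283746140) (nat_lit 152) (nat_lit 38995901225) (nat_lit 27) (nat_lit 5) (nat_lit 28) (nat_lit 5) (nat_lit 29) (nat_lit 4) (nat_lit 537) (nat_lit 392) (nat_lit 271))) (XT.nd (nat_lit 78) (nat_lit 0) (nat_lit 0) (XT.lf (nat_lit 0) (nat_lit 25172677847) (nat_lit 152) (nat_lit 27830087243) (nat_lit 0) (nat_lit 1702397819) (nat_lit 27) (nat_lit 5) (nat_lit 29) (nat_lit 4) (nat_lit 27) (nat_lit 4) (nat_lit 538) (nat_lit 392) (nat_lit 270)) (XT.lf (nat_lit 0) (nat_lit 36305137406) (nat_lit 152) (nat_lit 6892141244) (nat_lit 0) (nat_lit 12815775660) (nat_lit 27) (nat_lit 5) (nat_lit 29) (nat_lit 4) (nat_lit 27) (nat_lit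 4) (nat_lit 539) (nat_lit 392) (nat_lit 269)))) (XT.nd (nat_lit 156) (nat_lit 76) (nat_lit 0) (XT.nd (nat_lit 78) (nat_lit 76) (nat_lit 0) (XT.lf (nat_lit 0) (nat_lit 14933126045) (nat_lit 76) (nat_lit 32965565408) (nat_lit 76) (nat_lit 9457677722) (nat_lit 26) (nat_lit 4) (nat_lit 27) (nat_lit 5) (nat_lit 27) (nat_lit 4) (nat_lit 540) (nat_lit 392) (nat_lit 268)) (XT.lf (nat_lit 0) (nat_lit 1132473401) (nat_lit 152) (nat_lit 21226953030) (nat_lit 76) (nat_lit 36378624010) (nat_lit 25) (nat_lit 5) (nat_lit 27) (nat_lit 5) (nat_lit 26) (nat_lit 4) (nat_lit 541) (nat_lit 392) (nat_lit 267))) (XT.nd (nat_lit 78) (nat_lit 0) (nat_lit 0) (XT.lf (nat_lit 0) (nat_lit 489855569) (nat_lit 76) (nat_lit 11349155307) (nat_lit 152) (nat_lit 48319699220) (nat_lit 24) (nat_lit 5) (nat_lit 25) (nat_lit 5) (nat_lit 26) (nat_lit 4) (nat_lit 542) (nat_lit 392) (nat_lit 266)) (XT.lf (nat_lit 0) (nat_lit 23067218058) (nat_lit 152)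 (nat_lit 38355607845) (nat_lit 0) (nat_lit 193149737) (nat_lit 24) (nat_lit 5) (nat_lit 26) (nat_lit 4) (nat_lit 24) (nat_lit 4) (nat_lit 543) (nat_lit 392) (nat_lit 265))))) (XT.nd (nat_lit 312) (nat_lit 152) (nat_lit 0) (XT.nd (nat_lit 156) (nat_lit 76) (nat_lit 0) (XT.nd (nat_lit 78) (nat_lit 76) (nat_lit 0) (XT.lf (nat_lit 0) (nat_lit 34729186059) (nat_lit 152) (nat_lit 16545728848) (nat_lit 0) (nat_lit 11839137099) (nat_lit 24) (nat_lit 5) (nat_lit 26) (nat_lit 4) (nat_lit 24) (nat_lit 4) (nat_lit 544) (nat_lit 392) (nat_lit 264)) (XT.lf (nat_lit 0) (nat_lit 6006136007) (nat_lit 76) (nat_lit 40777608571) (nat_lit 76) (nat_lit 17872044428) (nat_lit 23) (nat_lit 4) (nat_lit 24) (nat_lit 5) (nat_lit 24) (nat_lit 4) (nat_lit 545) (nat_lit 392) (nat_lit 263))) (XT.nd (nat_lit 78) (nat_lit 76) (nat_lit 0) (XT.lf (nat_lit 0) (nat_lit 29544505504) (nat_lit 76) (nat_lit 29807666676) (nat_lit 76) (nat_lit 6887039248)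 (nat_lit 23) (nat_lit 4) (nat_lit 24) (nat_lit 5) (nat_lit 24) (nat_lit 4) (nat_lit 546) (nat_lit 392) (nat_lit 262)) (XT.lf (nat_lit 0) (nat_lit 4326561661) (nat_lit 152) (nat_lit 14152331802) (nat_lit 76) (nat_lit 49390403251) (nat_lit 22) (nat_lit 5) (nat_lit 24) (nat_lit 5) (nat_lit 23) (nat_lit 4) (nat_lit 547) (nat_lit 392) (nat_lit 261)))) (XT.nd (nat_lit 156) (nat_lit 76) (nat_lit 0) (XT.nd (nat_lit 78) (nat_lit 0) (nat_lit 0) (XT.lf (nat_lit 0) (nat_lit 9148824988) (nat_lit 76) (nat_lit 6663133412) (nat_lit 152) (nat_lit 53732066445) (nat_lit 21) (nat_lit 5) (nat_lit 22) (nat_lit 5) (nat_lit 23) (nat_lit 4) (nat_lit 548) (nat_lit 392) (nat_lit 260)) (XT.lf (nat_lit 0) (nat_lit 27825063163) (nat_lit 152) (nat_lit 37907777860) (nat_lit 0) (nat_lit 5530659663) (nat_lit 21) (nat_lit 5) (nat_lit 23) (nat_lit 4) (nat_lit 21) (nat_lit 4) (nat_lit 549) (nat_lit 392) (nat_lit 259))) (XT.nd (nat_lit 78) (nat_lit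 76) (nat_lit 0) (XT.lf (nat_lit 0) (nat_lit 40250826620) (nat_lit 152) (nat_lit 14838737058) (nat_lit 0) (nat_lit 17943429397) (nat_lit 21) (nat_lit 5) (nat_lit 23) (nat_lit 4) (nat_lit 21) (nat_lit 4) (nat_lit 550) (nat_lit 392) (nat_lit 258)) (XT.lf (nat_lit 0) (nat_lit 9073180507) (nat_lit 76) (nat_lit 44050092573) (nat_lit 76) (nat_lit 21730080087) (nat_lit 20) (nat_lit 4) (nat_lit 21) (nat_lit 5) (nat_lit 21) (nat_lit 4) (nat_lit 551) (nat_lit 392) (nat_lit 257))))))))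
noncomputable def xc80 : XT := (XT.nd (nat_lit 53976) (nat_lit 0) (nat_lit 6080) (XT.nd (nat_lit 52806) (nat_lit 0) (nat_lit 12768) (XT.nd (nat_lit 52182) (nat_lit 0) (nat_lit 19152) (XT.nd (nat_lit 51870) (nat_lit 0) (nat_lit 24700) (XT.nd (nat_lit 51714) (nat_lit 0) (nat_lit 27132) (XT.lf (nat_lit 0) (nat_lit 33980647574) (nat_lit 76) (nat_lit 32537918419) (nat_lit 76) (nat_lit 10205658104) (nat_lit 20) (nat_lit 4) (nat_lit 21) (nat_lit 5) (nat_lit 21) (nat_lit 4) (nat_lit 552) (nat_lit 392) (nat_lit 256)) (XT.nd (nat_lit 78) (nat_lit 684) (nat_lit 0) (XT.lf (nat_lit 0) (nat_lit 3122516625) (nat_lit 532) (nat_lit 101755973) (nat_lit 532) (nat_lit 101755973) (nat_lit 386) (nat_lit 4) (nat_lit 393) (nat_lit 5) (nat_lit 393) (nat_lit 4) (nat_lit 414) (nat_lit 393) (nat_lit 393)) (XT.lf (nat_lit 0) (nat_lit 3054036247) (nat_lit 684) (nat_lit 2800393805) (nat_lit 0) (nat_lit 828623052) (nat_lit 377) (nat_lit 5) (nat_lit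 386) (nat_lit 4) (nat_lit 377) (nat_lit 4) (nat_lit 415) (nat_lit 393) (nat_lit 392)))) (XT.nd (nat_lit 156) (nat_lit 1672) (nat_lit 0) (XT.nd (nat_lit 78) (nat_lit 76) (nat_lit 0) (XT.lf (nat_lit 0) (nat_lit 1533918099) (nat_lit 684) (nat_lit 4784821710) (nat_lit 684) (nat_lit 398813181) (nat_lit 368) (nat_lit 4) (nat_lit 377) (nat_lit 5) (nat_lit 377) (nat_lit 4) (nat_lit 416) (nat_lit 393) (nat_lit 391)) (XT.lf (nat_lit 0) (nat_lit 2793548303) (nat_lit 760) (nat_lit 812770845) (nat_lit 76) (nat_lit 3148290243) (nat_lit 367) (nat_lit 5) (nat_lit 377) (nat_lit 5) (nat_lit 368) (nat_lit 4) (nat_lit 417) (nat_lit 393) (nat_lit 390))) (XT.nd (nat_lit 78) (nat_lit 912) (nat_lit 0) (XT.lf (nat_lit 0) (nat_lit 3671707598) (nat_lit 760) (nat_lit 2334179014) (nat_lit 836) (nat_lit 788842435) (nat_lit 357) (nat_lit 5) (nat_lit 367) (nat_lit 5) (nat_lit 368) (nat_lit 4) (nat_lit 418) (nat_lit 393) (nat_lit 389)) (XT.lf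 (nat_lit 0) (nat_lit 1388321342) (nat_lit 836) (nat_lit 961574527) (nat_lit 912) (nat_lit 4487884685) (nat_lit 345) (nat_lit 5) (nat_lit 356) (nat_lit 5) (nat_lit 357) (nat_lit 5) (nat_lit 419) (nat_lit 393) (nat_lit 388))))) (XT.nd (nat_lit 312) (nat_lit 3496) (nat_lit 0) (XT.nd (nat_lit 156) (nat_lit 1064) (nat_lit 0) (XT.nd (nat_lit 78) (nat_lit 988) (nat_lit 0) (XT.lf (nat_lit 0) (nat_lit 5503503207) (nat_lit 912) (nat_lit 883377806) (nat_lit 76) (nat_lit 496944989) (nat_lit 345) (nat_lit 5) (nat_lit 357) (nat_lit 5) (nat_lit 346) (nat_lit 4) (nat_lit 420) (nat_lit 393) (nat_lit 387)) (XT.lf (nat_lit 0) (nat_lit 1733706720) (nat_lit 988) (nat_lit 3151692288) (nat_lit 76) (nat_lit 2046897518) (nat_lit 332) (nat_lit 5) (nat_lit 345) (nat_lit 5) (nat_lit 333) (nat_lit 5) (nat_lit 421) (nat_lit 393) (nat_lit 386))) (XT.nd (nat_lit 78) (nat_lit 76) (nat_lit 0) (XT.lf (nat_lit 0) (nat_lit 1549889959) (nat_lit 988)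 (nat_lit 3291727746) (nat_lit 1064) (nat_lit 2142378071) (nat_lit 319) (nat_lit 5) (nat_lit 332) (nat_lit 5) (nat_lit 333) (nat_lit 5) (nat_lit 422) (nat_lit 393) (nat_lit 385)) (XT.lf (nat_lit 0) (nat_lit 923335718) (nat_lit 1064) (nat_lit 677463650) (nat_lit 76) (nat_lit 5438062503) (nat_lit 318) (nat_lit 5) (nat_lit 332) (nat_lit 5) (nat_lit 319) (nat_lit 5) (nat_lit 423) (nat_lit 393) (nat_lit 384)))) (XT.nd (nat_lit 156) (nat_lit 1292) (nat_lit 0) (XT.nd (nat_lit 78) (nat_lit 1140) (nat_lit 0) (XT.lf (nat_lit 0) (nat_lit 3988381017) (nat_lit 1140) (nat_lit 2901521304) (nat_lit 76) (nat_lit 206350795) (nat_lit 304) (nat_lit 5) (nat_lit 319) (nat_lit 5) (nat_lit 305) (nat_lit 5) (nat_lit 424) (nat_lit 393) (nat_lit 383)) (XT.lf (nat_lit 0) (nat_lit 2007389281) (nat_lit 1140) (nat_lit 5090008952) (nat_lit 1216) (nat_lit 59434535) (nat_lit 289) (nat_lit 5) (nat_lit 304) (nat_lit 5) (nat_lit 305) (nat_lit 5) (nat_lit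 425) (nat_lit 393) (nat_lit 382))) (XT.nd (nat_lit 78) (nat_lit 1216) (nat_lit 0) (XT.lf (nat_lit 0) (nat_lit 2960789183) (nat_lit 1216) (nat_lit 213831366) (nat_lit 76) (nat_lit 4045533333) (nat_lit 288) (nat_lit 5) (nat_lit 304) (nat_lit 5) (nat_lit 289) (nat_lit 5) (nat_lit 426) (nat_lit 393) (nat_lit 381)) (XT.lf (nat_lit 0) (nat_lit 4878412616) (nat_lit 1216) (nat_lit 1152357245) (nat_lit 1292) (nat_lit 1255801744) (nat_lit 272) (nat_lit 5) (nat_lit 288) (nat_lit 5) (nat_lit 289) (nat_lit 5) (nat_lit 427) (nat_lit 393) (nat_lit 380)))))) (XT.nd (nat_lit 546) (nat_lit 3116) (nat_lit 0) (XT.nd (nat_lit 234) (nat_lit 1748) (nat_lit 0) (XT.nd (nat_lit 78) (nat_lit 684) (nat_lit 0) (XT.lf (nat_lit 0) (nat_lit 1754022474) (nat_lit 836) (nat_lit 4644208896) (nat_lit 76) (nat_lit 957683494) (nat_lit 261) (nat_lit 5) (nat_lit 272) (nat_lit 5) (nat_lit 262) (nat_lit 5) (nat_lit 428) (nat_lit 393) (nat_lit 379)) (XT.nd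 (nat_lit 78) (nat_lit 76) (nat_lit 0) (XT.lf (nat_lit 0) (nat_lit 505093584) (nat_lit 608) (nat_lit 4280568683) (nat_lit 684) (nat_lit 2642623161) (nat_lit 253) (nat_lit 5) (nat_lit 261) (nat_lit 5) (nat_lit 262) (nat_lit 5) (nat_lit 429) (nat_lit 393) (nat_lit 378)) (XT.lf (nat_lit 0) (nat_lit 361579517) (nat_lit 684) (nat_lit 1691117037) (nat_lit 76) (nat_lit 5451113182) (nat_lit 252) (nat_lit 5) (nat_lit 261) (nat_lit 5) (nat_lit 253) (nat_lit 5) (nat_lit 430) (nat_lit 393) (nat_lit 377)))) (XT.nd (nat_lit 156) (nat_lit 608) (nat_lit 0) (XT.nd (nat_lit 78) (nat_lit 532) (nat_lit 0) (XT.lf (nat_lit 0) (nat_lit 3359948023) (nat_lit 684) (nat_lit 3928788793) (nat_lit 76) (nat_lit 293384319) (nat_lit 244) (nat_lit 5) (nat_lit 253) (nat_lit 5) (nat_lit 245) (nat_lit 5) (nat_lit 431) (nat_lit 393) (nat_lit 376)) (XT.lf (nat_lit 0) (nat_lit 1450020391) (nat_lit 532) (nat_lit 4970351973) (nat_lit 608) (nat_lit 1243266673)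 (nat_lit 237) (nat_lit 5) (nat_lit 244) (nat_lit 5) (nat_lit 245) (nat_lit 5) (nat_lit 432) (nat_lit 393) (nat_lit 375))) (XT.nd (nat_lit 78) (nat_lit 532) (nat_lit 0) (XT.lf (nat_lit 0) (nat_lit 1750738274) (nat_lit 608) (nat_lit 782632041) (nat_lit 76) (nat_lit 5214884699) (nat_lit 236) (nat_lit 5) (nat_lit 244) (nat_lit 5) (nat_lit 237) (nat_lit 5) (nat_lit 433) (nat_lit 393) (nat_lit 374)) (XT.lf (nat_lit 0) (nat_lit 4779606721) (nat_lit 608) (nat_lit 3029882842) (nat_lit 76) (nat_lit 26468246) (nat_lit 229) (nat_lit 5) (nat_lit 237) (nat_lit 5) (nat_lit 230) (nat_lit 5) (nat_lit 434) (nat_lit 393) (nat_lit 373))))) (XT.nd (nat_lit 312) (nat_lit 1444) (nat_lit 0) (XT.nd (nat_lit 156) (nat_lit 532) (nat_lit 0) (XT.nd (nat_lit 78) (nat_lit 608) (nat_lit 0) (XT.lf (nat_lit 0) (nat_lit 2590070721) (nat_lit 532) (nat_lit 5292104907) (nat_lit 608) (nat_lit 44649071) (nat_lit 222) (nat_lit 5) (nat_lit 229) (nat_lit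 5) (nat_lit 230) (nat_lit 5) (nat_lit 435) (nat_lit 393) (nat_lit 372)) (XT.lf (nat_lit 0) (nat_lit 309192222) (nat_lit 532) (nat_lit 2647900061) (nat_lit 608) (nat_lit 5063680150) (nat_lit 214) (nat_lit 5) (nat_lit 221) (nat_lit 5) (nat_lit 222) (nat_lit 5) (nat_lit 436) (nat_lit 393) (nat_lit 371))) (XT.nd (nat_lit 78) (nat_lit 532) (nat_lit 0) (XT.lf (nat_lit 0) (nat_lit 6029809713) (nat_lit 608) (nat_lit 1973299085) (nat_lit 76) (nat_lit 114978415) (nat_lit 214) (nat_lit 5) (nat_lit 222) (nat_lit 5) (nat_lit 215) (nat_lit 5) (nat_lit 437) (nat_lit 393) (nat_lit 370)) (XT.lf (nat_lit 0) (nat_lit 949756649) (nat_lit 532) (nat_lit 4327836205) (nat_lit 76) (nat_lit 2940689906) (nat_lit 207) (nat_lit 5) (nat_lit 214) (nat_lit 5) (nat_lit 208) (nat_lit 5) (nat_lit 438) (nat_lit 393) (nat_lit 369)))) (XT.nd (nat_lit 156) (nat_lit 988) (nat_lit 0) (XT.nd (nat_lit 78) (nat_lit 0) (nat_lit 0) (XT.lf (nat_lit 0) (nat_lit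 1571920665) (nat_lit 456) (nat_lit 2429616476) (nat_lit 532) (nat_lit 4320404535) (nat_lit 201) (nat_lit 5) (nat_lit 207) (nat_lit 5) (nat_lit 208) (nat_lit 5) (nat_lit 439) (nat_lit 393) (nat_lit 368)) (XT.lf (nat_lit 0) (nat_lit 7124251584) (nat_lit 532) (nat_lit 783910307) (nat_lit 76) (nat_lit 521181720) (nat_lit 201) (nat_lit 5) (nat_lit 208) (nat_lit 5) (nat_lit 202) (nat_lit 5) (nat_lit 440) (nat_lit 393) (nat_lit 367))) (XT.nd (nat_lit 78) (nat_lit 456) (nat_lit 0) (XT.lf (nat_lit 0) (nat_lit 1773573338) (nat_lit 532) (nat_lit 3201536707) (nat_lit 76) (nat_lit 3564111172) (nat_lit 194) (nat_lit 5) (nat_lit 201) (nat_lit 5) (nat_lit 195) (nat_lit 5) (nat_lit 441) (nat_lit 393) (nat_lit 366)) (XT.lf (nat_lit 0) (nat_lit 2965153561) (nat_lit 456) (nat_lit 1922618626) (nat_lit 532) (nat_lit 3765166601) (nat_lit 188) (nat_lit 5) (nat_lit 194) (nat_lit 5) (nat_lit 195) (nat_lit 5) (nat_lit 442) (nat_lit 393)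 (nat_lit 365))))))) (XT.nd (nat_lit 1170) (nat_lit 2660) (nat_lit 0) (XT.nd (nat_lit 546) (nat_lit 1976) (nat_lit 0) (XT.nd (nat_lit 234) (nat_lit 1216) (nat_lit 0) (XT.nd (nat_lit 78) (nat_lit 456) (nat_lit 0) (XT.lf (nat_lit 0) (nat_lit 524039621) (nat_lit 380) (nat_lit 7554633450) (nat_lit 456) (nat_lit 691909566) (nat_lit 183) (nat_lit 5) (nat_lit 188) (nat_lit 5) (nat_lit 189) (nat_lit 5) (nat_lit 443) (nat_lit 393) (nat_lit 364)) (XT.nd (nat_lit 78) (nat_lit 380) (nat_lit 0) (XT.lf (nat_lit 0) (nat_lit 2436602777) (nat_lit 456) (nat_lit 1982563299) (nat_lit 76) (nat_lit 4471548934) (nat_lit 182) (nat_lit 5) (nat_lit 188) (nat_lit 5) (nat_lit 183) (nat_lit 5) (nat_lit 444) (nat_lit 393) (nat_lit 363)) (XT.lf (nat_lit 0) (nat_lit 4464197726) (nat_lit 380) (nat_lit 1159978085) (nat_lit 456) (nat_lit 3390708592) (nat_lit 177) (nat_lit 5) (nat_lit 182) (nat_lit 5) (nat_lit 183) (nat_lit 5) (nat_lit 445) (nat_lit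 393) (nat_lit 362)))) (XT.nd (nat_lit 156) (nat_lit 760) (nat_lit 0) (XT.nd (nat_lit 78) (nat_lit 76) (nat_lit 0) (XT.lf (nat_lit 0) (nat_lit 1932978879) (nat_lit 380) (nat_lit 6971350309) (nat_lit 456) (nat_lit 238552675) (nat_lit 172) (nat_lit 5) (nat_lit 177) (nat_lit 5) (nat_lit 178) (nat_lit 5) (nat_lit 446) (nat_lit 393) (nat_lit 361)) (XT.lf (nat_lit 0) (nat_lit 2944784425) (nat_lit 456) (nat_lit 696416064) (nat_lit 76) (nat_lit 5632802681) (nat_lit 171) (nat_lit 5) (nat_lit 177) (nat_lit 5) (nat_lit 172) (nat_lit 5) (nat_lit 447) (nat_lit 393) (nat_lit 360))) (XT.nd (nat_lit 78) (nat_lit 380) (nat_lit 0) (XT.lf (nat_lit 0) (nat_lit 6043918024) (nat_lit 380) (nat_lit 172253160) (nat_lit 456) (nat_lit 3192906347) (nat_lit 166) (nat_lit 5) (nat_lit 171) (nat_lit 5) (nat_lit 172) (nat_lit 5) (nat_lit 448) (nat_lit 393) (nat_lit 359)) (XT.lf (nat_lit 0) (nat_lit 49355479) (nat_lit 380) (nat_lit 6146850958) (nat_lit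 76) (nat_lit 3351619109) (nat_lit 161) (nat_lit 5) (nat_lit 166) (nat_lit 5) (nat_lit 162) (nat_lit 5) (nat_lit 449) (nat_lit 393) (nat_lit 358))))) (XT.nd (nat_lit 312) (nat_lit 912) (nat_lit 0) (XT.nd (nat_lit 156) (nat_lit 684) (nat_lit 0) (XT.nd (nat_lit 78) (nat_lit 0) (nat_lit 0) (XT.lf (nat_lit 0) (nat_lit 642999046) (nat_lit 380) (nat_lit 2664250403) (nat_lit 456) (nat_lit 6383071708) (nat_lit 156) (nat_lit 5) (nat_lit 161) (nat_lit 5) (nat_lit 162) (nat_lit 5) (nat_lit 450) (nat_lit 393) (nat_lit 357)) (XT.lf (nat_lit 0) (nat_lit 6675939167) (nat_lit 456) (nat_lit 2168595469) (nat_lit 76) (nat_lit 992174647) (nat_lit 156) (nat_lit 5) (nat_lit 162) (nat_lit 5) (nat_lit 157) (nat_lit 5) (nat_lit 451) (nat_lit 393) (nat_lit 356))) (XT.nd (nat_lit 78) (nat_lit 304) (nat_lit 0) (XT.lf (nat_lit 0) (nat_lit 171500044) (nat_lit 380) (nat_lit 5086353763) (nat_lit 76) (nat_lit 4729106903) (nat_lit 151) (nat_lit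 5) (nat_lit 156) (nat_lit 5) (nat_lit 152) (nat_lit 5) (nat_lit 452) (nat_lit 393) (nat_lit 355)) (XT.lf (nat_lit 0) (nat_lit 2009210125) (nat_lit 304) (nat_lit 1515467531) (nat_lit 380) (nat_lit 6616577765) (nat_lit 147) (nat_lit 5) (nat_lit 151) (nat_lit 5) (nat_lit 152) (nat_lit 5) (nat_lit 453) (nat_lit 393) (nat_lit 354)))) (XT.nd (nat_lit 156) (nat_lit 532) (nat_lit 0) (XT.nd (nat_lit 78) (nat_lit 380) (nat_lit 0) (XT.lf (nat_lit 0) (nat_lit 6996449403) (nat_lit 380) (nat_lit 984100348) (nat_lit 76) (nat_lit 2319097625) (nat_lit 147) (nat_lit 5) (nat_lit 152) (nat_lit 5) (nat_lit 148) (nat_lit 5) (nat_lit 454) (nat_lit 393) (nat_lit 353)) (XT.lf (nat_lit 0) (nat_lit 129523855) (nat_lit 380) (nat_lit 4057039877) (nat_lit 76) (nat_lit 6275541271) (nat_lit 142) (nat_lit 5) (nat_lit 147) (nat_lit 5) (nat_lit 143) (nat_lit 5) (nat_lit 455) (nat_lit 393) (nat_lit 352))) (XT.nd (nat_lit 78) (nat_lit 228) (nat_lit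 0) (XT.lf (nat_lit 0) (nat_lit 3357448253) (nat_lit 304) (nat_lit 229254168) (nat_lit 380) (nat_lit 7042124464) (nat_lit 138) (nat_lit 5) (nat_lit 142) (nat_lit 5) (nat_lit 143) (nat_lit 5) (nat_lit 456) (nat_lit 393) (nat_lit 351)) (XT.lf (nat_lit 0) (nat_lit 161229339) (nat_lit 228) (nat_lit 7012360986) (nat_lit 304) (nat_lit 3626187711) (nat_lit 135) (nat_lit 5) (nat_lit 138) (nat_lit 5) (nat_lit 139) (nat_lit 5) (nat_lit 457) (nat_lit 393) (nat_lit 350)))))) (XT.nd (nat_lit 546) (nat_lit 1444) (nat_lit 0) (XT.nd (nat_lit 234) (nat_lit 608) (nat_lit 0) (XT.nd (nat_lit 78) (nat_lit 608) (nat_lit 0) (XT.lf (nat_lit 0) (nat_lit 7881619288) (nat_lit 228) (nat_lit 3009015134) (nat_lit 304) (nat_lit 84554029) (nat_lit 135) (nat_lit 5) (nat_lit 138) (nat_lit 5) (nat_lit 139) (nat_lit 5) (nat_lit 458) (nat_lit 393) (nat_lit 349)) (XT.nd (nat_lit 78) (nat_lit 228) (nat_lit 0) (XT.lf (nat_lit 0) (nat_lit 3497655497) (nat_lit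 380) (nat_lit 6512558581) (nat_lit 76) (nat_lit 1144510510) (nat_lit 130) (nat_lit 5) (nat_lit 135) (nat_lit 5) (nat_lit 131) (nat_lit 5) (nat_lit 459) (nat_lit 393) (nat_lit 348)) (XT.lf (nat_lit 0) (nat_lit 1246995735) (nat_lit 228) (nat_lit 5960345231) (nat_lit 304) (nat_lit 4131636059) (nat_lit 127) (nat_lit 5) (nat_lit 130) (nat_lit 5) (nat_lit 131) (nat_lit 5) (nat_lit 460) (nat_lit 393) (nat_lit 347)))) (XT.nd (nat_lit 156) (nat_lit 228) (nat_lit 0) (XT.nd (nat_lit 78) (nat_lit 380) (nat_lit 0) (XT.lf (nat_lit 0) (nat_lit 9292554950) (nat_lit 228) (nat_lit 1750639554) (nat_lit 304) (nat_lit 485122618) (nat_lit 127) (nat_lit 5) (nat_lit 130) (nat_lit 5) (nat_lit 131) (nat_lit 5) (nat_lit 461) (nat_lit 393) (nat_lit 346)) (XT.lf (nat_lit 0) (nat_lit 3238834561) (nat_lit 380) (nat_lit 5887538193) (nat_lit 76) (nat_lit 2595071290) (nat_lit 122) (nat_lit 5) (nat_lit 127) (nat_lit 5) (nat_lit 123) (nat_lit 5)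 (nat_lit 462) (nat_lit 393) (nat_lit 345))) (XT.nd (nat_lit 78) (nat_lit 0) (nat_lit 0) (XT.lf (nat_lit 0) (nat_lit 2213263369) (nat_lit 228) (nat_lit 4863429043) (nat_lit 304) (nat_lit 4843176163) (nat_lit 119) (nat_lit 5) (nat_lit 122) (nat_lit 5) (nat_lit 123) (nat_lit 5) (nat_lit 463) (nat_lit 393) (nat_lit 344)) (XT.lf (nat_lit 0) (nat_lit 10599182950) (nat_lit 228) (nat_lit 441164981) (nat_lit 304) (nat_lit 1083583749) (nat_lit 119) (nat_lit 5) (nat_lit 122) (nat_lit 5) (nat_lit 123) (nat_lit 5) (nat_lit 464) (nat_lit 393) (nat_lit 343))))) (XT.nd (nat_lit 312) (nat_lit 608) (nat_lit 0) (XT.nd (nat_lit 156) (nat_lit 304) (nat_lit 0) (XT.nd (nat_lit 78) (nat_lit 228) (nat_lit 0) (XT.lf (nat_lit 0) (nat_lit 2793371453) (nat_lit 304) (nat_lit 5439144198) (nat_lit 76) (nat_lit 4099032333) (nat_lit 115) (nat_lit 5) (nat_lit 119) (nat_lit 5) (nat_lit 116) (nat_lit 5) (nat_lit 465) (nat_lit 393) (nat_lit 342)) (XT.lf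 (nat_lit 0) (nat_lit 3014322538) (nat_lit 228) (nat_lit 3751958968) (nat_lit 304) (nat_lit 5778751875) (nat_lit 112) (nat_lit 5) (nat_lit 115) (nat_lit 5) (nat_lit 116) (nat_lit 5) (nat_lit 466) (nat_lit 393) (nat_lit 341))) (XT.nd (nat_lit 78) (nat_lit 304) (nat_lit 0) (XT.lf (nat_lit 0) (nat_lit 10875029997) (nat_lit 304) (nat_lit 1017229096) (nat_lit 76) (nat_lit 872169772) (nat_lit 112) (nat_lit 5) (nat_lit 116) (nat_lit 5) (nat_lit 113) (nat_lit 5) (nat_lit 467) (nat_lit 393) (nat_lit 340)) (XT.lf (nat_lit 0) (nat_lit 2142280264) (nat_lit 304) (nat_lit 5218621635) (nat_lit 76) (nat_lit 5626890234) (nat_lit 108) (nat_lit 5) (nat_lit 112) (nat_lit 5) (nat_lit 109) (nat_lit 5) (nat_lit 468) (nat_lit 393) (nat_lit 339)))) (XT.nd (nat_lit 156) (nat_lit 456) (nat_lit 0) (XT.nd (nat_lit 78) (nat_lit 0) (nat_lit 0) (XT.lf (nat_lit 0) (nat_lit 3597965169) (nat_lit 152) (nat_lit 2658348070) (nat_lit 228) (nat_lit 6961005128)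 (nat_lit 106) (nat_lit 5) (nat_lit 108) (nat_lit 5) (nat_lit 109) (nat_lit 5) (nat_lit 469) (nat_lit 393) (nat_lit 338)) (XT.lf (nat_lit 0) (nat_lit 10522727052) (nat_lit 228) (nat_lit 763872407) (nat_lit 76) (nat_lit 2166266632) (nat_lit 106) (nat_lit 5) (nat_lit 109) (nat_lit 5) (nat_lit 107) (nat_lit 5) (nat_lit 470) (nat_lit 393) (nat_lit 337))) (XT.nd (nat_lit 78) (nat_lit 152) (nat_lit 0) (XT.lf (nat_lit 0) (nat_lit 1261760041) (nat_lit 304) (nat_lit 5284674153) (nat_lit 76) (nat_lit 7146779616) (nat_lit 102) (nat_lit 5) (nat_lit 106) (nat_lit 5) (nat_lit 103) (nat_lit 5) (nat_lit 471) (nat_lit 393) (nat_lit 336)) (XT.lf (nat_lit 0) (nat_lit 3904187758) (nat_lit 152) (nat_lit 1617849344) (nat_lit 228) (nat_lit 8417823220) (nat_lit 100) (nat_lit 5) (nat_lit 102) (nat_lit 5) (nat_lit 103) (nat_lit 5) (nat_lit 472) (nat_lit 393) (nat_lit 335))))))))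
noncomputable def xc81 : XT := (XT.nd (nat_lit 2340) (nat_lit 2052) (nat_lit 0) (XT.nd (nat_lit 1170) (nat_lit 1444) (nat_lit 0) (XT.nd (nat_lit 546) (nat_lit 912) (nat_lit 0) (XT.nd (nat_lit 234) (nat_lit 456) (nat_lit 0) (XT.nd (nat_lit 78) (nat_lit 456) (nat_lit 0) (XT.lf (nat_lit 0) (nat_lit 9953736164) (nat_lit 228) (nat_lit 823469005) (nat_lit 76) (nat_lit 3415396644) (nat_lit 100) (nat_lit 5) (nat_lit 103) (nat_lit 5) (nat_lit 101) (nat_lit 5) (nat_lit 473) (nat_lit 393) (nat_lit 334)) (XT.nd (nat_lit 78) (nat_lit 152) (nat_lit 0) (XT.lf (nat_lit 0) (nat_lit 122599044) (nat_lit 304) (nat_lit 5704885580) (nat_lit 76) (nat_lit 8623673341) (nat_lit 96) (nat_lit 5) (nat_lit 100) (nat_lit 5) (nat_lit 97) (nat_lit 5) (nat_lit 474) (nat_lit 393) (nat_lit 333)) (XT.lf (nat_lit 0) (nat_lit 3863707494) (nat_lit 152) (nat_lit 669409591) (nat_lit 228) (nat_lit 10182996112) (nat_lit 94) (nat_lit 5) (nat_lit 96) (nat_lit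 5) (nat_lit 97) (nat_lit 5) (nat_lit 475) (nat_lit 393) (nat_lit 332)))) (XT.nd (nat_lit 156) (nat_lit 228) (nat_lit 0) (XT.nd (nat_lit 78) (nat_lit 228) (nat_lit 0) (XT.lf (nat_lit 0) (nat_lit 9136881492) (nat_lit 228) (nat_lit 1268844846) (nat_lit 76) (nat_lit 4581466371) (nat_lit 94) (nat_lit 5) (nat_lit 97) (nat_lit 5) (nat_lit 95) (nat_lit 5) (nat_lit 476) (nat_lit 393) (nat_lit 331)) (XT.lf (nat_lit 0) (nat_lit 8694723226) (nat_lit 228) (nat_lit 5233579329) (nat_lit 304) (nat_lit 1336619189) (nat_lit 91) (nat_lit 5) (nat_lit 94) (nat_lit 5) (nat_lit 95) (nat_lit 5) (nat_lit 477) (nat_lit 393) (nat_lit 330))) (XT.nd (nat_lit 78) (nat_lit 0) (nat_lit 0) (XT.lf (nat_lit 0) (nat_lit 3254259041) (nat_lit 228) (nat_lit 12154998810) (nat_lit 76) (nat_lit 140580380) (nat_lit 88) (nat_lit 5) (nat_lit 91) (nat_lit 5) (nat_lit 89) (nat_lit 5) (nat_lit 478) (nat_lit 393) (nat_lit 329)) (XT.lf (nat_lit 0) (nat_lit 8034489540)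 (nat_lit 228) (nat_lit 2184389076) (nat_lit 76) (nat_lit 5621675016) (nat_lit 88) (nat_lit 5) (nat_lit 91) (nat_lit 5) (nat_lit 89) (nat_lit 5) (nat_lit 479) (nat_lit 393) (nat_lit 328))))) (XT.nd (nat_lit 312) (nat_lit 380) (nat_lit 0) (XT.nd (nat_lit 156) (nat_lit 152) (nat_lit 0) (XT.nd (nat_lit 78) (nat_lit 228) (nat_lit 0) (XT.lf (nat_lit 0) (nat_lit 8176067935) (nat_lit 152) (nat_lit 4821497056) (nat_lit 228) (nat_lit 3141245425) (nat_lit 86) (nat_lit 5) (nat_lit 88) (nat_lit 5) (nat_lit 89) (nat_lit 5) (nat_lit 480) (nat_lit 393) (nat_lit 327)) (XT.lf (nat_lit 0) (nat_lit 1644843889) (nat_lit 228) (nat_lit 14044125872) (nat_lit 76) (nat_lit 756154686) (nat_lit 83) (nat_lit 5) (nat_lit 86) (nat_lit 5) (nat_lit 84) (nat_lit 5) (nat_lit 481) (nat_lit 393) (nat_lit 326))) (XT.nd (nat_lit 78) (nat_lit 152) (nat_lit 0) (XT.lf (nat_lit 0) (nat_lit 6601462393) (nat_lit 228) (nat_lit 3668090701) (nat_lit 76) (nat_lit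 6487442094) (nat_lit 83) (nat_lit 5) (nat_lit 86) (nat_lit 5) (nat_lit 84) (nat_lit 5) (nat_lit 482) (nat_lit 393) (nat_lit 325)) (XT.lf (nat_lit 0) (nat_lit 7090479356) (nat_lit 152) (nat_lit 4646730577) (nat_lit 228) (nat_lit 5340101923) (nat_lit 81) (nat_lit 5) (nat_lit 83) (nat_lit 5) (nat_lit 84) (nat_lit 5) (nat_lit 483) (nat_lit 393) (nat_lit 324)))) (XT.nd (nat_lit 156) (nat_lit 152) (nat_lit 0) (XT.nd (nat_lit 78) (nat_lit 76) (nat_lit 0) (XT.lf (nat_lit 0) (nat_lit 777381246) (nat_lit 152) (nat_lit 16267984931) (nat_lit 228) (nat_lit 361324400) (nat_lit 79) (nat_lit 5) (nat_lit 81) (nat_lit 5) (nat_lit 82) (nat_lit 4) (nat_lit 484) (nat_lit 393) (nat_lit 323)) (XT.lf (nat_lit 0) (nat_lit 4784187251) (nat_lit 228) (nat_lit 5833888447) (nat_lit 76) (nat_lit 7123191147) (nat_lit 78) (nat_lit 5) (nat_lit 81) (nat_lit 5) (nat_lit 79) (nat_lit 5) (nat_lit 485) (nat_lit 393) (nat_lit 322))) (XT.nd (nat_lit 78)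 (nat_lit 0) (nat_lit 0) (XT.lf (nat_lit 0) (nat_lit 5320219073) (nat_lit 152) (nat_lit 4771350732) (nat_lit 228) (nat_lit 7993762656) (nat_lit 76) (nat_lit 5) (nat_lit 78) (nat_lit 5) (nat_lit 79) (nat_lit 5) (nat_lit 486) (nat_lit 393) (nat_lit 321)) (XT.lf (nat_lit 0) (nat_lit 15593477359) (nat_lit 228) (nat_lit 1587597483) (nat_lit 76) (nat_lit 1257588445) (nat_lit 76) (nat_lit 5) (nat_lit 79) (nat_lit 5) (nat_lit 77) (nat_lit 4) (nat_lit 487) (nat_lit 393) (nat_lit 320)))))) (XT.nd (nat_lit 546) (nat_lit 608) (nat_lit 0) (XT.nd (nat_lit 234) (nat_lit 456) (nat_lit 0) (XT.nd (nat_lit 78) (nat_lit 152) (nat_lit 0) (XT.lf (nat_lit 0) (nat_lit 2519257715) (nat_lit 228) (nat_lit 8814385628) (nat_lit 76) (nat_lit 7464962984) (nat_lit 73) (nat_lit 5) (nat_lit 76) (nat_lit 5) (nat_lit 74) (nat_lit 5) (nat_lit 488) (nat_lit 393) (nat_lit 319)) (XT.nd (nat_lit 78) (nat_lit 0) (nat_lit 0) (XT.lf (nat_lit 0) (nat_lit 2728032434)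 (nat_lit 152) (nat_lit 5266743545) (nat_lit 228) (nat_lit 11173508920) (nat_lit 71) (nat_lit 5) (nat_lit 73) (nat_lit 5) (nat_lit 74) (nat_lit 5) (nat_lit 489) (nat_lit 393) (nat_lit 318)) (XT.lf (nat_lit 0) (nat_lit 13698944866) (nat_lit 228) (nat_lit 4823183899) (nat_lit 76) (nat_lit 1024995598) (nat_lit 71) (nat_lit 5) (nat_lit 74) (nat_lit 5) (nat_lit 72) (nat_lit 4) (nat_lit 490) (nat_lit 393) (nat_lit 317)))) (XT.nd (nat_lit 156) (nat_lit 228) (nat_lit 0) (XT.nd (nat_lit 78) (nat_lit 76) (nat_lit 0) (XT.lf (nat_lit 0) (nat_lit 7168099795) (nat_lit 152) (nat_lit 12493261625) (nat_lit 228) (nat_lit 273355935) (nat_lit 69) (nat_lit 5) (nat_lit 71) (nat_lit 5) (nat_lit 72) (nat_lit 4) (nat_lit 491) (nat_lit 393) (nat_lit 316)) (XT.lf (nat_lit 0) (nat_lit 5377321334) (nat_lit 228) (nat_lit 829629446) (nat_lit 76) (nat_lit 14124952509) (nat_lit 68) (nat_lit 5) (nat_lit 71) (nat_lit 5) (nat_lit 69) (nat_lit 5) (nat_lit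 492) (nat_lit 393) (nat_lit 315))) (XT.nd (nat_lit 78) (nat_lit 76) (nat_lit 0) (XT.lf (nat_lit 0) (nat_lit 11274382241) (nat_lit 228) (nat_lit 9112596098) (nat_lit 76) (nat_lit 351476397) (nat_lit 66) (nat_lit 5) (nat_lit 69) (nat_lit 5) (nat_lit 67) (nat_lit 4) (nat_lit 493) (nat_lit 393) (nat_lit 314)) (XT.lf (nat_lit 0) (nat_lit 3256668295) (nat_lit 76) (nat_lit 14160152273) (nat_lit 152) (nat_lit 3738329987) (nat_lit 65) (nat_lit 5) (nat_lit 66) (nat_lit 5) (nat_lit 67) (nat_lit 4) (nat_lit 494) (nat_lit 393) (nat_lit 313))))) (XT.nd (nat_lit 312) (nat_lit 304) (nat_lit 0) (XT.nd (nat_lit 156) (nat_lit 76) (nat_lit 0) (XT.nd (nat_lit 78) (nat_lit 152) (nat_lit 0) (XT.lf (nat_lit 0) (nat_lit 2177283491) (nat_lit 152) (nat_lit 5479913142) (nat_lit 76) (nat_lit 13924722684) (nat_lit 64) (nat_lit 5) (nat_lit 66) (nat_lit 5) (nat_lit 65) (nat_lit 5) (nat_lit 495) (nat_lit 393) (nat_lit 312)) (XT.lf (nat_lit 0)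 (nat_lit 7359093672) (nat_lit 152) (nat_lit 875129189) (nat_lit 228) (nat_lit 13784989706) (nat_lit 62) (nat_lit 5) (nat_lit 64) (nat_lit 5) (nat_lit 65) (nat_lit 5) (nat_lit 496) (nat_lit 393) (nat_lit 311))) (XT.nd (nat_lit 78) (nat_lit 76) (nat_lit 0) (XT.lf (nat_lit 0) (nat_lit 14555854351) (nat_lit 228) (nat_lit 1890464666) (nat_lit 76) (nat_lit 6020817677) (nat_lit 62) (nat_lit 5) (nat_lit 65) (nat_lit 5) (nat_lit 63) (nat_lit 4) (nat_lit 497) (nat_lit 393) (nat_lit 310)) (XT.lf (nat_lit 0) (nat_lit 11419341302) (nat_lit 76) (nat_lit 9735512064) (nat_lit 152) (nat_lit 1771015172) (nat_lit 61) (nat_lit 5) (nat_lit 62) (nat_lit 5) (nat_lit 63) (nat_lit 4) (nat_lit 498) (nat_lit 393) (nat_lit 309)))) (XT.nd (nat_lit 156) (nat_lit 76) (nat_lit 0) (XT.nd (nat_lit 78) (nat_lit 0) (nat_lit 0) (XT.lf (nat_lit 0) (nat_lit 1701489363) (nat_lit 152) (nat_lit 2768084202) (nat_lit 228) (nat_lit 18927328079) (nat_lit 58)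 (nat_lit 5) (nat_lit 60) (nat_lit 5) (nat_lit 61) (nat_lit 5) (nat_lit 499) (nat_lit 393) (nat_lit 308)) (XT.lf (nat_lit 0) (nat_lit 10990933772) (nat_lit 228) (nat_lit 8455277717) (nat_lit 76) (nat_lit 4431455145) (nat_lit 58) (nat_lit 5) (nat_lit 61) (nat_lit 5) (nat_lit 59) (nat_lit 4) (nat_lit 500) (nat_lit 393) (nat_lit 307))) (XT.nd (nat_lit 78) (nat_lit 0) (nat_lit 0) (XT.lf (nat_lit 0) (nat_lit 5200547548) (nat_lit 76) (nat_lit 12555105001) (nat_lit 152) (nat_lit 6615771872) (nat_lit 57) (nat_lit 5) (nat_lit 58) (nat_lit 5) (nat_lit 59) (nat_lit 4) (nat_lit 501) (nat_lit 393) (nat_lit 306)) (XT.lf (nat_lit 0) (nat_lit 19384329478) (nat_lit 76) (nat_lit 5395020635) (nat_lit 152) (nat_lit 98965047) (nat_lit 57) (nat_lit 5) (nat_lit 58) (nat_lit 5) (nat_lit 59) (nat_lit 4) (nat_lit 502) (nat_lit 393) (nat_lit 305))))))) (XT.nd (nat_lit 1170) (nat_lit 912) (nat_lit 0) (XT.nd (nat_lit 546) (nat_lit 532) (nat_lit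 0) (XT.nd (nat_lit 234) (nat_lit 304) (nat_lit 0) (XT.nd (nat_lit 78) (nat_lit 76) (nat_lit 0) (XT.lf (nat_lit 0) (nat_lit 6558858201) (nat_lit 228) (nat_lit 16772809695) (nat_lit 76) (nat_lit 2064601971) (nat_lit 54) (nat_lit 5) (nat_lit 57) (nat_lit 5) (nat_lit 55) (nat_lit 4) (nat_lit 503) (nat_lit 393) (nat_lit 304)) (XT.nd (nat_lit 78) (nat_lit 76) (nat_lit 0) (XT.lf (nat_lit 0) (nat_lit 13495180992) (nat_lit 228) (nat_lit 2760091535) (nat_lit 76) (nat_lit 9672039899) (nat_lit 54) (nat_lit 5) (nat_lit 57) (nat_lit 5) (nat_lit 55) (nat_lit 4) (nat_lit 504) (nat_lit 393) (nat_lit 303)) (XT.lf (nat_lit 0) (nat_lit 11851756083) (nat_lit 76) (nat_lit 8873909462) (nat_lit 152) (nat_lit 5746039743) (nat_lit 53) (nat_lit 5) (nat_lit 54) (nat_lit 5) (nat_lit 55) (nat_lit 4) (nat_lit 505) (nat_lit 393) (nat_lit 302)))) (XT.nd (nat_lit 156) (nat_lit 76) (nat_lit 0) (XT.nd (nat_lit 78) (nat_lit 152) (nat_lit 0) (XT.lf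 (nat_lit 0) (nat_lit 1118707551) (nat_lit 152) (nat_lit 136858259) (nat_lit 76) (nat_lit 25776526390) (nat_lit 52) (nat_lit 5) (nat_lit 54) (nat_lit 5) (nat_lit 53) (nat_lit 5) (nat_lit 506) (nat_lit 393) (nat_lit 301)) (XT.lf (nat_lit 0) (nat_lit 8255868518) (nat_lit 228) (nat_lit 12704376137) (nat_lit 76) (nat_lit 6641881580) (nat_lit 50) (nat_lit 5) (nat_lit 53) (nat_lit 5) (nat_lit 51) (nat_lit 4) (nat_lit 507) (nat_lit 393) (nat_lit 300))) (XT.nd (nat_lit 78) (nat_lit 0) (nat_lit 0) (XT.lf (nat_lit 0) (nat_lit 2175892520) (nat_lit 76) (nat_lit 13439060140) (nat_lit 152) (nat_lit 12574075436) (nat_lit 49) (nat_lit 5) (nat_lit 50) (nat_lit 5) (nat_lit 51) (nat_lit 4) (nat_lit 508) (nat_lit 393) (nat_lit 299)) (XT.lf (nat_lit 0) (nat_lit 17712393227) (nat_lit 76) (nat_lit 5584068774) (nat_lit 152) (nat_lit 5494026458) (nat_lit 49) (nat_lit 5) (nat_lit 50) (nat_lit 5) (nat_lit 51) (nat_lit 4) (nat_lit 509) (nat_lit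 393) (nat_lit 298))))) (XT.nd (nat_lit 312) (nat_lit 228) (nat_lit 0) (XT.nd (nat_lit 156) (nat_lit 76) (nat_lit 0) (XT.nd (nat_lit 78) (nat_lit 0) (nat_lit 0) (XT.lf (nat_lit 0) (nat_lit 1803213083) (nat_lit 228) (nat_lit 25111058767) (nat_lit 76) (nat_lit 2494006638) (nat_lit 46) (nat_lit 5) (nat_lit 49) (nat_lit 5) (nat_lit 47) (nat_lit 4) (nat_lit 510) (nat_lit 393) (nat_lit 297)) (XT.lf (nat_lit 0) (nat_lit 9351153775) (nat_lit 228) (nat_lit 9840868610) (nat_lit 76) (nat_lit 10846682630) (nat_lit 46) (nat_lit 5) (nat_lit 49) (nat_lit 5) (nat_lit 47) (nat_lit 4) (nat_lit 511) (nat_lit 393) (nat_lit 296))) (XT.nd (nat_lit 78) (nat_lit 0) (nat_lit 0) (XT.lf (nat_lit 0) (nat_lit 5955371087) (nat_lit 76) (nat_lit 11202113137) (nat_lit 152) (nat_lit 13529602479) (nat_lit 45) (nat_lit 5) (nat_lit 46) (nat_lit 5) (nat_lit 47) (nat_lit 4) (nat_lit 512) (nat_lit 393) (nat_lit 295)) (XT.lf (nat_lit 0) (nat_lit 22379432433)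 (nat_lit 76) (nat_lit 2892927825) (nat_lit 152) (nat_lit 6080329797) (nat_lit 45) (nat_lit 5) (nat_lit 46) (nat_lit 5) (nat_lit 47) (nat_lit 4) (nat_lit 513) (nat_lit 393) (nat_lit 294)))) (XT.nd (nat_lit 156) (nat_lit 76) (nat_lit 0) (XT.nd (nat_lit 78) (nat_lit 0) (nat_lit 0) (XT.lf (nat_lit 0) (nat_lit 1662459030) (nat_lit 152) (nat_lit 24752552556) (nat_lit 76) (nat_lit 5619758181) (nat_lit 43) (nat_lit 5) (nat_lit 45) (nat_lit 5) (nat_lit 44) (nat_lit 4) (nat_lit 514) (nat_lit 393) (nat_lit 293)) (XT.lf (nat_lit 0) (nat_lit 9610999821) (nat_lit 152) (nat_lit 8661982070) (nat_lit 76) (nat_lit 14459654445) (nat_lit 43) (nat_lit 5) (nat_lit 45) (nat_lit 5) (nat_lit 44) (nat_lit 4) (nat_lit 515) (nat_lit 393) (nat_lit 292))) (XT.nd (nat_lit 78) (nat_lit 0) (nat_lit 0) (XT.lf (nat_lit 0) (nat_lit 8022269727) (nat_lit 76) (nat_lit 9829079547) (nat_lit 152) (nat_lit 15598489840) (nat_lit 42) (nat_lit 5) (nat_lit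 43) (nat_lit 5) (nat_lit 44) (nat_lit 4) (nat_lit 516) (nat_lit 393) (nat_lit 291)) (XT.lf (nat_lit 0) (nat_lit 25339478892) (nat_lit 76) (nat_lit 1063395099) (nat_lit 152) (nat_lit 7783765804) (nat_lit 42) (nat_lit 5) (nat_lit 43) (nat_lit 5) (nat_lit 44) (nat_lit 4) (nat_lit 517) (nat_lit 393) (nat_lit 290)))))) (XT.nd (nat_lit 624) (nat_lit 456) (nat_lit 0) (XT.nd (nat_lit 312) (nat_lit 228) (nat_lit 0) (XT.nd (nat_lit 156) (nat_lit 76) (nat_lit 0) (XT.nd (nat_lit 78) (nat_lit 0) (nat_lit 0) (XT.lf (nat_lit 0) (nat_lit 394590876) (nat_lit 152) (nat_lit 26674229820) (nat_lit 76) (nat_lit 7872616890) (nat_lit 40) (nat_lit 5) (nat_lit 42) (nat_lit 5) (nat_lit 41) (nat_lit 4) (nat_lit 518) (nat_lit 393) (nat_lit 289)) (XT.lf (nat_lit 0) (nat_lit 8739605624) (nat_lit 152) (nat_lit 9772639087) (nat_lit 76) (nat_lit 17201990689) (nat_lit 40) (nat_lit 5) (nat_lit 42) (nat_lit 5) (nat_lit 41) (nat_lit 4) (nat_lit 519)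 (nat_lit 393) (nat_lit 288))) (XT.nd (nat_lit 78) (nat_lit 0) (nat_lit 0) (XT.lf (nat_lit 0) (nat_lit 7744079919) (nat_lit 76) (nat_lit 9643002762) (nat_lit 152) (nat_lit 19121571786) (nat_lit 39) (nat_lit 5) (nat_lit 40) (nat_lit 5) (nat_lit 41) (nat_lit 4) (nat_lit 520) (nat_lit 393) (nat_lit 287)) (XT.lf (nat_lit 0) (nat_lit 25944017581) (nat_lit 76) (nat_lit 426562740) (nat_lit 152) (nat_lit 10954028559) (nat_lit 39) (nat_lit 5) (nat_lit 40) (nat_lit 5) (nat_lit 41) (nat_lit 4) (nat_lit 521) (nat_lit 393) (nat_lit 286)))) (XT.nd (nat_lit 156) (nat_lit 76) (nat_lit 0) (XT.nd (nat_lit 78) (nat_lit 76) (nat_lit 0) (XT.lf (nat_lit 0) (nat_lit 6523227883) (nat_lit 76) (nat_lit 29228575340) (nat_lit 76) (nat_lit 2409392730) (nat_lit 38) (nat_lit 4) (nat_lit 39) (nat_lit 5) (nat_lit 39) (nat_lit 4) (nat_lit 522) (nat_lit 393) (nat_lit 285)) (XT.lf (nat_lit 0) (nat_lit 6365525410) (nat_lit 152) (nat_lit 13930625934)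 (nat_lit 76) (nat_lit 18721926721) (nat_lit 37) (nat_lit 5) (nat_lit 39) (nat_lit 5) (nat_lit 38) (nat_lit 4) (nat_lit 523) (nat_lit 393) (nat_lit 284))) (XT.nd (nat_lit 78) (nat_lit 0) (nat_lit 0) (XT.lf (nat_lit 0) (nat_lit 4327908425) (nat_lit 76) (nat_lit 11047971521) (nat_lit 152) (nat_lit 24523453162) (nat_lit 36) (nat_lit 5) (nat_lit 37) (nat_lit 5) (nat_lit 38) (nat_lit 4) (nat_lit 524) (nat_lit 393) (nat_lit 283)) (XT.lf (nat_lit 0) (nat_lit 23379535533) (nat_lit 76) (nat_lit 1396918936) (nat_lit 152) (nat_lit 16026974621) (nat_lit 36) (nat_lit 5) (nat_lit 37) (nat_lit 5) (nat_lit 38) (nat_lit 4) (nat_lit 525) (nat_lit 393) (nat_lit 282))))) (XT.nd (nat_lit 312) (nat_lit 228) (nat_lit 0) (XT.nd (nat_lit 156) (nat_lit 76) (nat_lit 0) (XT.nd (nat_lit 78) (nat_lit 76) (nat_lit 0) (XT.lf (nat_lit 0) (nat_lit 1169273896) (nat_lit 76) (nat_lit 33362799467) (nat_lit 76) (nat_lit 7200384325) (nat_lit 35) (nat_lit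 4) (nat_lit 36) (nat_lit 5) (nat_lit 36) (nat_lit 4) (nat_lit 526) (nat_lit 393) (nat_lit 281)) (XT.lf (nat_lit 0) (nat_lit 2025300775) (nat_lit 152) (nat_lit 22079917378) (nat_lit 76) (nat_lit 18578458264) (nat_lit 34) (nat_lit 5) (nat_lit 36) (nat_lit 5) (nat_lit 35) (nat_lit 4) (nat_lit 527) (nat_lit 393) (nat_lit 280))) (XT.nd (nat_lit 78) (nat_lit 76) (nat_lit 0) (XT.lf (nat_lit 0) (nat_lit 11363305053) (nat_lit 152) (nat_lit 3151790841) (nat_lit 76) (nat_lit 29146789515) (nat_lit 34) (nat_lit 5) (nat_lit 36) (nat_lit 5) (nat_lit 35) (nat_lit 4) (nat_lit 528) (nat_lit 393) (nat_lit 279)) (XT.lf (nat_lit 0) (nat_lit 16631489727) (nat_lit 76) (nat_lit 4490675688) (nat_lit 152) (nat_lit 23543054266) (nat_lit 33) (nat_lit 5) (nat_lit 34) (nat_lit 5) (nat_lit 35) (nat_lit 4) (nat_lit 529) (nat_lit 393) (nat_lit 278)))) (XT.nd (nat_lit 156) (nat_lit 152) (nat_lit 0) (XT.nd (nat_lit 78) (nat_lit 76) (nat_lit 0) (XT.lf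 (nat_lit 0) (nat_lit 31242893470) (nat_lit 152) (nat_lit 8718483421) (nat_lit 0) (nat_lit 5735204510) (nat_lit 33) (nat_lit 5) (nat_lit 35) (nat_lit 4) (nat_lit 33) (nat_lit 4) (nat_lit 530) (nat_lit 393) (nat_lit 277)) (XT.lf (nat_lit 0) (nat_lit 11316405605) (nat_lit 76) (nat_lit 30485512431) (nat_lit 76) (nat_lit 4952926158) (nat_lit 32) (nat_lit 4) (nat_lit 33) (nat_lit 5) (nat_lit 33) (nat_lit 4) (nat_lit 531) (nat_lit 393) (nat_lit 276))) (XT.nd (nat_lit 78) (nat_lit 76) (nat_lit 0) (XT.lf (nat_lit 0) (nat_lit 4808909713) (nat_lit 152) (nat_lit 15794671705) (nat_lit 76) (nat_lit 27237769465) (nat_lit 31) (nat_lit 5) (nat_lit 33) (nat_lit 5) (nat_lit 32) (nat_lit 4) (nat_lit 532) (nat_lit 393) (nat_lit 275)) (XT.lf (nat_lit 0) (nat_lit 4440889573) (nat_lit 76) (nat_lit 10347837571) (nat_lit 152) (nat_lit 34169514623) (nat_lit 30) (nat_lit 5) (nat_lit 31) (nat_lit 5) (nat_lit 32) (nat_lit 4) (nat_lit 533) (nat_lit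 393) (nat_lit 274))))))))
noncomputable def xc82 : XT := (XT.nd (nat_lit 53820) (nat_lit 0) (nat_lit 10032) (XT.nd (nat_lit 1170) (nat_lit 152) (nat_lit 0) (XT.nd (nat_lit 546) (nat_lit 380) (nat_lit 0) (XT.nd (nat_lit 234) (nat_lit 152) (nat_lit 0) (XT.nd (nat_lit 78) (nat_lit 76) (nat_lit 0) (XT.lf (nat_lit 0) (nat_lit 25213099671) (nat_lit 152) (nat_lit 24535377959) (nat_lit 0) (nat_lit 355807341) (nat_lit 30) (nat_lit 5) (nat_lit 32) (nat_lit 4) (nat_lit 30) (nat_lit 4) (nat_lit 534) (nat_lit 393) (nat_lit 273)) (XT.nd (nat_lit 78) (nat_lit 76) (nat_lit 0) (XT.lf (nat_lit 0) (nat_lit 36035195003) (nat_lit 152) (nat_lit 4090539088) (nat_lit 0) (nat_lit 11156426030) (nat_lit 30) (nat_lit 5) (nat_lit 32) (nat_lit 4) (nat_lit 30) (nat_lit 4) (nat_lit 535) (nat_lit 393) (nat_lit 272)) (XT.lf (nat_lit 0) (nat_lit 17271528311) (nat_lit 76) (nat_lit 30059495777) (nat_lit 76) (nat_lit 5159875696) (nat_lit 29) (nat_lit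 4) (nat_lit 30) (nat_lit 5) (nat_lit 30) (nat_lit 4) (nat_lit 536) (nat_lit 393) (nat_lit 271)))) (XT.nd (nat_lit 156) (nat_lit 0) (nat_lit 0) (XT.nd (nat_lit 78) (nat_lit 76) (nat_lit 0) (XT.lf (nat_lit 0) (nat_lit 5152547290) (nat_lit 152) (nat_lit 14460192876) (nat_lit 76) (nat_lit 34120910459) (nat_lit 28) (nat_lit 5) (nat_lit 30) (nat_lit 5) (nat_lit 29) (nat_lit 4) (nat_lit 537) (nat_lit 393) (nat_lit 270)) (XT.lf (nat_lit 0) (nat_lit 6974579218) (nat_lit 76) (nat_lit 8746650961) (nat_lit 152) (nat_lit 39289403661) (nat_lit 27) (nat_lit 5) (nat_lit 28) (nat_lit 5) (nat_lit 29) (nat_lit 4) (nat_lit 538) (nat_lit 393) (nat_lit 269))) (XT.nd (nat_lit 78) (nat_lit 0) (nat_lit 0) (XT.lf (nat_lit 0) (nat_lit 26761520129) (nat_lit 152) (nat_lit 27029900496) (nat_lit 0) (nat_lit 2529869873) (nat_lit 27) (nat_lit 5) (nat_lit 29) (nat_lit 4) (nat_lit 27) (nat_lit 4) (nat_lit 539) (nat_lit 393) (nat_lit 268)) (XT.lf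 (nat_lit 0) (nat_lit 38203672059) (nat_lit 152) (nat_lit 5511440079) (nat_lit 0) (nat_lit 13954035453) (nat_lit 27) (nat_lit 5) (nat_lit 29) (nat_lit 4) (nat_lit 27) (nat_lit 4) (nat_lit 540) (nat_lit 393) (nat_lit 267))))) (XT.nd (nat_lit 312) (nat_lit 152) (nat_lit 0) (XT.nd (nat_lit 156) (nat_lit 76) (nat_lit 0) (XT.nd (nat_lit 78) (nat_lit 76) (nat_lit 0) (XT.lf (nat_lit 0) (nat_lit 16953021842) (nat_lit 76) (nat_lit 33183546779) (nat_lit 76) (nat_lit 8916447697) (nat_lit 26) (nat_lit 4) (nat_lit 27) (nat_lit 5) (nat_lit 27) (nat_lit 4) (nat_lit 541) (nat_lit 393) (nat_lit 266)) (XT.lf (nat_lit 0) (nat_lit 1951750912) (nat_lit 152) (nat_lit 20321998588) (nat_lit 76) (nat_lit 38202867860) (nat_lit 25) (nat_lit 5) (nat_lit 27) (nat_lit 5) (nat_lit 26) (nat_lit 4) (nat_lit 542) (nat_lit 393) (nat_lit 265))) (XT.nd (nat_lit 78) (nat_lit 0) (nat_lit 0) (XT.lf (nat_lit 0) (nat_lit 2031198945) (nat_lit 76) (nat_lit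 10940087726) (nat_lit 152) (nat_lit 48968856520) (nat_lit 24) (nat_lit 5) (nat_lit 25) (nat_lit 5) (nat_lit 26) (nat_lit 4) (nat_lit 543) (nat_lit 393) (nat_lit 264)) (XT.lf (nat_lit 0) (nat_lit 24520701131) (nat_lit 152) (nat_lit 38008440295) (nat_lit 0) (nat_lit 912454881) (nat_lit 24) (nat_lit 5) (nat_lit 26) (nat_lit 4) (nat_lit 24) (nat_lit 4) (nat_lit 544) (nat_lit 393) (nat_lit 263)))) (XT.nd (nat_lit 156) (nat_lit 76) (nat_lit 0) (XT.nd (nat_lit 78) (nat_lit 76) (nat_lit 0) (XT.lf (nat_lit 0) (nat_lit 36510349535) (nat_lit 152) (nat_lit 15587891213) (nat_lit 0) (nat_lit 12887040000) (nat_lit 24) (nat_lit 5) (nat_lit 26) (nat_lit 4) (nat_lit 24) (nat_lit 4) (nat_lit 545) (nat_lit 393) (nat_lit 262)) (XT.lf (nat_lit 0) (nat_lit 7626272632) (nat_lit 76) (nat_lit 41292581226) (nat_lit 76) (nat_lit 17654647143) (nat_lit 23) (nat_lit 4) (nat_lit 24) (nat_lit 5) (nat_lit 24) (nat_lit 4) (nat_lit 546) (nat_lit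 393) (nat_lit 261))) (XT.nd (nat_lit 78) (nat_lit 76) (nat_lit 0) (XT.lf (nat_lit 0) (nat_lit 31828852848) (nat_lit 76) (nat_lit 30014172791) (nat_lit 76) (nat_lit 6362040117) (nat_lit 23) (nat_lit 4) (nat_lit 24) (nat_lit 5) (nat_lit 24) (nat_lit 4) (nat_lit 547) (nat_lit 393) (nat_lit 260)) (XT.lf (nat_lit 0) (nat_lit 5152799246) (nat_lit 152) (nat_lit 13205735243) (nat_lit 76) (nat_lit 51525935306) (nat_lit 22) (nat_lit 5) (nat_lit 24) (nat_lit 5) (nat_lit 23) (nat_lit 4) (nat_lit 548) (nat_lit 393) (nat_lit 259)))))) (XT.nd (nat_lit 52026) (nat_lit 0) (nat_lit 22724) (XT.nd (nat_lit 234) (nat_lit 76) (nat_lit 0) (XT.nd (nat_lit 78) (nat_lit 0) (nat_lit 0) (XT.lf (nat_lit 0) (nat_lit 10781013442) (nat_lit 76) (nat_lit 6194511034) (nat_lit 152) (nat_lit 54634132663) (nat_lit 21) (nat_lit 5) (nat_lit 22) (nat_lit 5) (nat_lit 23) (nat_lit 4) (nat_lit 549) (nat_lit 393) (nat_lit 258)) (XT.nd (nat_lit 78) (nat_lit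 0) (nat_lit 0) (XT.lf (nat_lit 0) (nat_lit 29335187400) (nat_lit 152) (nat_lit 37712985984) (nat_lit 0) (nat_lit 6332959276) (nat_lit 21) (nat_lit 5) (nat_lit 23) (nat_lit 4) (nat_lit 21) (nat_lit 4) (nat_lit 550) (nat_lit 393) (nat_lit 257)) (XT.lf (nat_lit 0) (nat_lit 42114052721) (nat_lit 152) (nat_lit 13990670809) (nat_lit 0) (nat_lit 19099576768) (nat_lit 21) (nat_lit 5) (nat_lit 23) (nat_lit 4) (nat_lit 21) (nat_lit 4) (nat_lit 551) (nat_lit 393) (nat_lit 256)))) (XT.nd (nat_lit 51636) (nat_lit 0) (nat_lit 27740) (XT.nd (nat_lit 51558) (nat_lit 0) (nat_lit 28348) (XT.lf (nat_lit 0) (nat_lit 10625925574) (nat_lit 76) (nat_lit 44739958332) (nat_lit 76) (nat_lit 21713591283) (nat_lit 20) (nat_lit 4) (nat_lit 21) (nat_lit 5) (nat_lit 21) (nat_lit 4) (nat_lit 552) (nat_lit 393) (nat_lit 255)) (XT.lf (nat_lit 0) (nat_lit 1121901047) (nat_lit 532) (nat_lit 1054090311) (nat_lit 0) (nat_lit 1121901047) (nat_lit 393)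 (nat_lit 5) (nat_lit 400) (nat_lit 4) (nat_lit 393) (nat_lit 4) (nat_lit 412) (nat_lit 394) (nat_lit 394))) (XT.nd (nat_lit 78) (nat_lit 76) (nat_lit 0) (XT.lf (nat_lit 0) (nat_lit 2005797253) (nat_lit 532) (nat_lit 3489068034) (nat_lit 532) (nat_lit 1128127176) (nat_lit 386) (nat_lit 4) (nat_lit 393) (nat_lit 5) (nat_lit 393) (nat_lit 4) (nat_lit 413) (nat_lit 394) (nat_lit 393)) (XT.lf (nat_lit 0) (nat_lit 2061124733) (nat_lit 608) (nat_lit 469033240) (nat_lit 76) (nat_lit 4122923497) (nat_lit 385) (nat_lit 5) (nat_lit 393) (nat_lit 5) (nat_lit 386) (nat_lit 4) (nat_lit 414) (nat_lit 394) (nat_lit 392))))) (XT.nd (nat_lit 312) (nat_lit 2812) (nat_lit 0) (XT.nd (nat_lit 156) (nat_lit 836) (nat_lit 0) (XT.nd (nat_lit 78) (nat_lit 760) (nat_lit 0) (XT.lf (nat_lit 0) (nat_lit 3784921894) (nat_lit 608) (nat_lit 1468009897) (nat_lit 684) (nat_lit 1432959789) (nat_lit 377) (nat_lit 5) (nat_lit 385) (nat_lit 5) (nat_lit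 386) (nat_lit 4) (nat_lit 415) (nat_lit 394) (nat_lit 391)) (XT.lf (nat_lit 0) (nat_lit 1383329752) (nat_lit 684) (nat_lit 314460904) (nat_lit 760) (nat_lit 5024032608) (nat_lit 367) (nat_lit 5) (nat_lit 376) (nat_lit 5) (nat_lit 377) (nat_lit 5) (nat_lit 416) (nat_lit 394) (nat_lit 390))) (XT.nd (nat_lit 78) (nat_lit 836) (nat_lit 0) (XT.lf (nat_lit 0) (nat_lit 4828572208) (nat_lit 760) (nat_lit 1010416232) (nat_lit 76) (nat_lit 921408212) (nat_lit 367) (nat_lit 5) (nat_lit 377) (nat_lit 5) (nat_lit 368) (nat_lit 4) (nat_lit 417) (nat_lit 394) (nat_lit 389)) (XT.lf (nat_lit 0) (nat_lit 1164028006) (nat_lit 836) (nat_lit 3384930596) (nat_lit 76) (nat_lit 2252781882) (nat_lit 356) (nat_lit 5) (nat_lit 367) (nat_lit 5) (nat_lit 357) (nat_lit 5) (nat_lit 418) (nat_lit 394) (nat_lit 388)))) (XT.nd (nat_lit 156) (nat_lit 1900) (nat_lit 0) (XT.nd (nat_lit 78) (nat_lit 76) (nat_lit 0) (XT.lf (nat_lit 0) (nat_lit 1071302803)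 (nat_lit 836) (nat_lit 3164280491) (nat_lit 912) (nat_lit 2610551439) (nat_lit 345) (nat_lit 5) (nat_lit 356) (nat_lit 5) (nat_lit 357) (nat_lit 5) (nat_lit 419) (nat_lit 394) (nat_lit 387)) (XT.lf (nat_lit 0) (nat_lit 434187269) (nat_lit 912) (nat_lit 1250517879) (nat_lit 76) (nat_lit 5208941033) (nat_lit 344) (nat_lit 5) (nat_lit 356) (nat_lit 5) (nat_lit 345) (nat_lit 5) (nat_lit 420) (nat_lit 394) (nat_lit 386))) (XT.nd (nat_lit 78) (nat_lit 988) (nat_lit 0) (XT.lf (nat_lit 0) (nat_lit 3366777115) (nat_lit 912) (nat_lit 88380121) (nat_lit 988) (nat_lit 3488560280) (nat_lit 332) (nat_lit 5) (nat_lit 344) (nat_lit 5) (nat_lit 345) (nat_lit 5) (nat_lit 421) (nat_lit 394) (nat_lit 385)) (XT.lf (nat_lit 0) (nat_lit 1074481414) (nat_lit 988) (nat_lit 5437395891) (nat_lit 1064) (nat_lit 485089876) (nat_lit 319) (nat_lit 5) (nat_lit 332) (nat_lit 5) (nat_lit 333) (nat_lit 5) (nat_lit 422) (nat_lit 394) (nat_lit 384)))))))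 (XT.nd (nat_lit 1170) (nat_lit 4712) (nat_lit 0) (XT.nd (nat_lit 546) (nat_lit 3572) (nat_lit 0) (XT.nd (nat_lit 234) (nat_lit 2052) (nat_lit 0) (XT.nd (nat_lit 78) (nat_lit 2280) (nat_lit 0) (XT.lf (nat_lit 0) (nat_lit 2502990836) (nat_lit 1064) (nat_lit 1224013658) (nat_lit 76) (nat_lit 3325723505) (nat_lit 318) (nat_lit 5) (nat_lit 332) (nat_lit 5) (nat_lit 319) (nat_lit 5) (nat_lit 423) (nat_lit 394) (nat_lit 383)) (XT.nd (nat_lit 78) (nat_lit 1216) (nat_lit 0) (XT.lf (nat_lit 0) (nat_lit 3597563046) (nat_lit 1064) (nat_lit 1918715469) (nat_lit 1140) (nat_lit 1595406899) (nat_lit 304) (nat_lit 5) (nat_lit 318) (nat_lit 5) (nat_lit 319) (nat_lit 5) (nat_lit 424) (nat_lit 394) (nat_lit 382)) (XT.lf (nat_lit 0) (nat_lit 1344826597) (nat_lit 1140) (nat_lit 11537627) (nat_lit 1216) (nat_lit 5817543870) (nat_lit 288) (nat_lit 5) (nat_lit 303) (nat_lit 5) (nat_lit 304) (nat_lit 5) (nat_lit 425) (nat_lit 394) (nat_lit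 381)))) (XT.nd (nat_lit 156) (nat_lit 760) (nat_lit 0) (XT.nd (nat_lit 78) (nat_lit 1292) (nat_lit 0) (XT.lf (nat_lit 0) (nat_lit 4332682051) (nat_lit 1216) (nat_lit 936315723) (nat_lit 76) (nat_lit 1969508980) (nat_lit 288) (nat_lit 5) (nat_lit 304) (nat_lit 5) (nat_lit 289) (nat_lit 5) (nat_lit 426) (nat_lit 394) (nat_lit 380)) (XT.lf (nat_lit 0) (nat_lit 46455328) (nat_lit 1292) (nat_lit 3207279246) (nat_lit 76) (nat_lit 4052654584) (nat_lit 271) (nat_lit 5) (nat_lit 288) (nat_lit 5) (nat_lit 272) (nat_lit 5) (nat_lit 427) (nat_lit 394) (nat_lit 379))) (XT.nd (nat_lit 78) (nat_lit 0) (nat_lit 0) (XT.lf (nat_lit 0) (nat_lit 1851638134) (nat_lit 760) (nat_lit 1121394075) (nat_lit 836) (nat_lit 4404111584) (nat_lit 261) (nat_lit 5) (nat_lit 271) (nat_lit 5) (nat_lit 272) (nat_lit 5) (nat_lit 428) (nat_lit 394) (nat_lit 378)) (XT.lf (nat_lit 0) (nat_lit 5948833478) (nat_lit 836) (nat_lit 417654695) (nat_lit 76)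 (nat_lit 1084712270) (nat_lit 261) (nat_lit 5) (nat_lit 272) (nat_lit 5) (nat_lit 262) (nat_lit 5) (nat_lit 429) (nat_lit 394) (nat_lit 377))))) (XT.nd (nat_lit 312) (nat_lit 1672) (nat_lit 0) (XT.nd (nat_lit 156) (nat_lit 608) (nat_lit 0) (XT.nd (nat_lit 78) (nat_lit 608) (nat_lit 0) (XT.lf (nat_lit 0) (nat_lit 1435613064) (nat_lit 684) (nat_lit 2698898162) (nat_lit 76) (nat_lit 3393214168) (nat_lit 252) (nat_lit 5) (nat_lit 261) (nat_lit 5) (nat_lit 253) (nat_lit 5) (nat_lit 430) (nat_lit 394) (nat_lit 376)) (XT.lf (nat_lit 0) (nat_lit 2586113701) (nat_lit 608) (nat_lit 1796027665) (nat_lit 684) (nat_lit 3225460635) (nat_lit 244) (nat_lit 5) (nat_lit 252) (nat_lit 5) (nat_lit 253) (nat_lit 5) (nat_lit 431) (nat_lit 394) (nat_lit 375))) (XT.nd (nat_lit 78) (nat_lit 76) (nat_lit 0) (XT.lf (nat_lit 0) (nat_lit 310114069) (nat_lit 532) (nat_lit 7066253906) (nat_lit 608) (nat_lit 314747573) (nat_lit 237) (nat_lit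 5) (nat_lit 244) (nat_lit 5) (nat_lit 245) (nat_lit 5) (nat_lit 432) (nat_lit 394) (nat_lit 374)) (XT.lf (nat_lit 0) (nat_lit 2623488763) (nat_lit 608) (nat_lit 2001512482) (nat_lit 76) (nat_lit 3151601162) (nat_lit 236) (nat_lit 5) (nat_lit 244) (nat_lit 5) (nat_lit 237) (nat_lit 5) (nat_lit 433) (nat_lit 394) (nat_lit 373)))) (XT.nd (nat_lit 156) (nat_lit 532) (nat_lit 0) (XT.nd (nat_lit 78) (nat_lit 608) (nat_lit 0) (XT.lf (nat_lit 0) (nat_lit 3521048950) (nat_lit 532) (nat_lit 2082140481) (nat_lit 608) (nat_lit 2262599694) (nat_lit 229) (nat_lit 5) (nat_lit 236) (nat_lit 5) (nat_lit 237) (nat_lit 5) (nat_lit 434) (nat_lit 394) (nat_lit 372)) (XT.lf (nat_lit 0) (nat_lit 664741239) (nat_lit 608) (nat_lit 6738593646) (nat_lit 76) (nat_lit 555205782) (nat_lit 221) (nat_lit 5) (nat_lit 229) (nat_lit 5) (nat_lit 222) (nat_lit 5) (nat_lit 435) (nat_lit 394) (nat_lit 371))) (XT.nd (nat_lit 78) (nat_lit 532) (nat_lit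 0) (XT.lf (nat_lit 0) (nat_lit 3626998213) (nat_lit 608) (nat_lit 1141379674) (nat_lit 76) (nat_lit 3285264166) (nat_lit 221) (nat_lit 5) (nat_lit 229) (nat_lit 5) (nat_lit 222) (nat_lit 5) (nat_lit 436) (nat_lit 394) (nat_lit 370)) (XT.lf (nat_lit 0) (nat_lit 4630806421) (nat_lit 532) (nat_lit 2021586762) (nat_lit 608) (nat_lit 1499991220) (nat_lit 214) (nat_lit 5) (nat_lit 221) (nat_lit 5) (nat_lit 222) (nat_lit 5) (nat_lit 437) (nat_lit 394) (nat_lit 369)))))) (XT.nd (nat_lit 546) (nat_lit 2280) (nat_lit 0) (XT.nd (nat_lit 234) (nat_lit 1444) (nat_lit 0) (XT.nd (nat_lit 78) (nat_lit 456) (nat_lit 0) (XT.lf (nat_lit 0) (nat_lit 1456995024) (nat_lit 532) (nat_lit 5970880865) (nat_lit 76) (nat_lit 826628906) (nat_lit 207) (nat_lit 5) (nat_lit 214) (nat_lit 5) (nat_lit 208) (nat_lit 5) (nat_lit 438) (nat_lit 394) (nat_lit 368)) (XT.nd (nat_lit 78) (nat_lit 456) (nat_lit 0) (XT.lf (nat_lit 0) (nat_lit 4459872924)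 (nat_lit 532) (nat_lit 143669149) (nat_lit 76) (nat_lit 3756095940) (nat_lit 207) (nat_lit 5) (nat_lit 214) (nat_lit 5) (nat_lit 208) (nat_lit 5) (nat_lit 439) (nat_lit 394) (nat_lit 367)) (XT.lf (nat_lit 0) (nat_lit 5890786288) (nat_lit 456) (nat_lit 1652076301) (nat_lit 532) (nat_lit 925376119) (nat_lit 201) (nat_lit 5) (nat_lit 207) (nat_lit 5) (nat_lit 208) (nat_lit 5) (nat_lit 440) (nat_lit 394) (nat_lit 366)))) (XT.nd (nat_lit 156) (nat_lit 456) (nat_lit 0) (XT.nd (nat_lit 78) (nat_lit 456) (nat_lit 0) (XT.lf (nat_lit 0) (nat_lit 2079190457) (nat_lit 532) (nat_lit 5100425168) (nat_lit 76) (nat_lit 1400398476) (nat_lit 194) (nat_lit 5) (nat_lit 201) (nat_lit 5) (nat_lit 195) (nat_lit 5) (nat_lit 441) (nat_lit 394) (nat_lit 365)) (XT.lf (nat_lit 0) (nat_lit 986257937) (nat_lit 456) (nat_lit 4156021097) (nat_lit 532) (nat_lit 3552992366) (nat_lit 188) (nat_lit 5) (nat_lit 194) (nat_lit 5) (nat_lit 195) (nat_lit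 5) (nat_lit 442) (nat_lit 394) (nat_lit 364))) (XT.nd (nat_lit 78) (nat_lit 456) (nat_lit 0) (XT.lf (nat_lit 0) (nat_lit 7276893712) (nat_lit 456) (nat_lit 1007829834) (nat_lit 532) (nat_lit 529651628) (nat_lit 188) (nat_lit 5) (nat_lit 194) (nat_lit 5) (nat_lit 195) (nat_lit 5) (nat_lit 443) (nat_lit 394) (nat_lit 363)) (XT.lf (nat_lit 0) (nat_lit 2539355154) (nat_lit 456) (nat_lit 4152719622) (nat_lit 76) (nat_lit 2244082034) (nat_lit 182) (nat_lit 5) (nat_lit 188) (nat_lit 5) (nat_lit 183) (nat_lit 5) (nat_lit 444) (nat_lit 394) (nat_lit 362))))) (XT.nd (nat_lit 312) (nat_lit 1064) (nat_lit 0) (XT.nd (nat_lit 156) (nat_lit 836) (nat_lit 0) (XT.nd (nat_lit 78) (nat_lit 0) (nat_lit 0) (XT.lf (nat_lit 0) (nat_lit 2209194478) (nat_lit 380) (nat_lit 3465543784) (nat_lit 456) (nat_lit 3387159344) (nat_lit 177) (nat_lit 5) (nat_lit 182) (nat_lit 5) (nat_lit 183) (nat_lit 5) (nat_lit 445) (nat_lit 394) (nat_lit 361))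 (XT.lf (nat_lit 0) (nat_lit 8764992862) (nat_lit 380) (nat_lit 120196964) (nat_lit 456) (nat_lit 306801832) (nat_lit 177) (nat_lit 5) (nat_lit 182) (nat_lit 5) (nat_lit 183) (nat_lit 5) (nat_lit 446) (nat_lit 394) (nat_lit 360))) (XT.nd (nat_lit 78) (nat_lit 380) (nat_lit 0) (XT.lf (nat_lit 0) (nat_lit 2842556046) (nat_lit 456) (nat_lit 3153719719) (nat_lit 76) (nat_lit 3327921433) (nat_lit 171) (nat_lit 5) (nat_lit 177) (nat_lit 5) (nat_lit 172) (nat_lit 5) (nat_lit 447) (nat_lit 394) (nat_lit 359)) (XT.lf (nat_lit 0) (nat_lit 3496670147) (nat_lit 380) (nat_lit 2563730748) (nat_lit 456) (nat_lit 3400481990) (nat_lit 166) (nat_lit 5) (nat_lit 171) (nat_lit 5) (nat_lit 172) (nat_lit 5) (nat_lit 448) (nat_lit 394) (nat_lit 358)))) (XT.nd (nat_lit 156) (nat_lit 684) (nat_lit 0) (XT.nd (nat_lit 78) (nat_lit 76) (nat_lit 0) (XT.lf (nat_lit 0) (nat_lit 732733061) (nat_lit 304) (nat_lit 8632331497) (nat_lit 380) (nat_lit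 236906068) (nat_lit 162) (nat_lit 5) (nat_lit 166) (nat_lit 5) (nat_lit 167) (nat_lit 5) (nat_lit 449) (nat_lit 394) (nat_lit 357)) (XT.lf (nat_lit 0) (nat_lit 2990893953) (nat_lit 380) (nat_lit 2130430346) (nat_lit 76) (nat_lit 4624256400) (nat_lit 161) (nat_lit 5) (nat_lit 166) (nat_lit 5) (nat_lit 162) (nat_lit 5) (nat_lit 450) (nat_lit 394) (nat_lit 356))) (XT.nd (nat_lit 78) (nat_lit 304) (nat_lit 0) (XT.lf (nat_lit 0) (nat_lit 4821930589) (nat_lit 380) (nat_lit 1478946420) (nat_lit 456) (nat_lit 3592857518) (nat_lit 156) (nat_lit 5) (nat_lit 161) (nat_lit 5) (nat_lit 162) (nat_lit 5) (nat_lit 451) (nat_lit 394) (nat_lit 355)) (XT.lf (nat_lit 0) (nat_lit 1915150833) (nat_lit 304) (nat_lit 7801390922) (nat_lit 380) (nat_lit 329608626) (nat_lit 152) (nat_lit 5) (nat_lit 156) (nat_lit 5) (nat_lit 157) (nat_lit 5) (nat_lit 452) (nat_lit 394) (nat_lit 354))))))))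
noncomputable def xc83 : XT := (XT.nd (nat_lit 2340) (nat_lit 2888) (nat_lit 0) (XT.nd (nat_lit 1170) (nat_lit 2204) (nat_lit 0) (XT.nd (nat_lit 546) (nat_lit 1368) (nat_lit 0) (XT.nd (nat_lit 234) (nat_lit 988) (nat_lit 0) (XT.nd (nat_lit 78) (nat_lit 608) (nat_lit 0) (XT.lf (nat_lit 0) (nat_lit 2983444535) (nat_lit 380) (nat_lit 1111534459) (nat_lit 76) (nat_lit 6106961961) (nat_lit 151) (nat_lit 5) (nat_lit 156) (nat_lit 5) (nat_lit 152) (nat_lit 5) (nat_lit 453) (nat_lit 394) (nat_lit 353)) (XT.nd (nat_lit 78) (nat_lit 304) (nat_lit 0) (XT.lf (nat_lit 0) (nat_lit 6156431542) (nat_lit 304) (nat_lit 238320709) (nat_lit 380) (nat_lit 3967398581) (nat_lit 147) (nat_lit 5) (nat_lit 151) (nat_lit 5) (nat_lit 152) (nat_lit 5) (nat_lit 454) (nat_lit 394) (nat_lit 352)) (XT.lf (nat_lit 0) (nat_lit 3083016644) (nat_lit 304) (nat_lit 6849125199) (nat_lit 380) (nat_lit 594320768) (nat_lit 143) (nat_lit 5) (nat_lit 147)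 (nat_lit 5) (nat_lit 148) (nat_lit 5) (nat_lit 455) (nat_lit 394) (nat_lit 351)))) (XT.nd (nat_lit 156) (nat_lit 608) (nat_lit 0) (XT.nd (nat_lit 78) (nat_lit 304) (nat_lit 0) (XT.lf (nat_lit 0) (nat_lit 2816142919) (nat_lit 380) (nat_lit 128076259) (nat_lit 76) (nat_lit 7750889732) (nat_lit 142) (nat_lit 5) (nat_lit 147) (nat_lit 5) (nat_lit 143) (nat_lit 5) (nat_lit 456) (nat_lit 394) (nat_lit 350)) (XT.lf (nat_lit 0) (nat_lit 6348333195) (nat_lit 380) (nat_lit 3409775272) (nat_lit 76) (nat_lit 1109596077) (nat_lit 138) (nat_lit 5) (nat_lit 143) (nat_lit 5) (nat_lit 139) (nat_lit 5) (nat_lit 457) (nat_lit 394) (nat_lit 349))) (XT.nd (nat_lit 78) (nat_lit 380) (nat_lit 0) (XT.lf (nat_lit 0) (nat_lit 4203565851) (nat_lit 228) (nat_lit 5802974696) (nat_lit 304) (nat_lit 1038342966) (nat_lit 135) (nat_lit 5) (nat_lit 138) (nat_lit 5) (nat_lit 139) (nat_lit 5) (nat_lit 458) (nat_lit 394) (nat_lit 348)) (XT.lf (nat_lit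 0) (nat_lit 801425684) (nat_lit 304) (nat_lit 1687886333) (nat_lit 380) (nat_lit 8737580931) (nat_lit 130) (nat_lit 5) (nat_lit 134) (nat_lit 5) (nat_lit 135) (nat_lit 5) (nat_lit 459) (nat_lit 394) (nat_lit 347))))) (XT.nd (nat_lit 312) (nat_lit 760) (nat_lit 0) (XT.nd (nat_lit 156) (nat_lit 380) (nat_lit 0) (XT.nd (nat_lit 78) (nat_lit 228) (nat_lit 0) (XT.lf (nat_lit 0) (nat_lit 6146098491) (nat_lit 380) (nat_lit 2712797779) (nat_lit 76) (nat_lit 2553839243) (nat_lit 130) (nat_lit 5) (nat_lit 135) (nat_lit 5) (nat_lit 131) (nat_lit 5) (nat_lit 460) (nat_lit 394) (nat_lit 346)) (XT.lf (nat_lit 0) (nat_lit 5240375152) (nat_lit 228) (nat_lit 4690643659) (nat_lit 304) (nat_lit 1672587861) (nat_lit 127) (nat_lit 5) (nat_lit 130) (nat_lit 5) (nat_lit 131) (nat_lit 5) (nat_lit 461) (nat_lit 394) (nat_lit 345))) (XT.nd (nat_lit 78) (nat_lit 0) (nat_lit 0) (XT.lf (nat_lit 0) (nat_lit 1623631500) (nat_lit 304) (nat_lit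 360878860) (nat_lit 380) (nat_lit 9815269486) (nat_lit 122) (nat_lit 5) (nat_lit 126) (nat_lit 5) (nat_lit 127) (nat_lit 5) (nat_lit 462) (nat_lit 394) (nat_lit 344)) (XT.lf (nat_lit 0) (nat_lit 5773961342) (nat_lit 380) (nat_lit 2153027679) (nat_lit 76) (nat_lit 4072670367) (nat_lit 122) (nat_lit 5) (nat_lit 127) (nat_lit 5) (nat_lit 123) (nat_lit 5) (nat_lit 463) (nat_lit 394) (nat_lit 343)))) (XT.nd (nat_lit 156) (nat_lit 228) (nat_lit 0) (XT.nd (nat_lit 78) (nat_lit 304) (nat_lit 0) (XT.lf (nat_lit 0) (nat_lit 6152453453) (nat_lit 228) (nat_lit 3540720529) (nat_lit 304) (nat_lit 2511884522) (nat_lit 119) (nat_lit 5) (nat_lit 122) (nat_lit 5) (nat_lit 123) (nat_lit 5) (nat_lit 464) (nat_lit 394) (nat_lit 342)) (XT.lf (nat_lit 0) (nat_lit 1294933762) (nat_lit 304) (nat_lit 10133856843) (nat_lit 76) (nat_lit 987238909) (nat_lit 115) (nat_lit 5) (nat_lit 119) (nat_lit 5) (nat_lit 116) (nat_lit 5) (nat_lit 465)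 (nat_lit 394) (nat_lit 341))) (XT.nd (nat_lit 78) (nat_lit 228) (nat_lit 0) (XT.lf (nat_lit 0) (nat_lit 5216166239) (nat_lit 304) (nat_lit 1776344955) (nat_lit 76) (nat_lit 5638556537) (nat_lit 115) (nat_lit 5) (nat_lit 119) (nat_lit 5) (nat_lit 116) (nat_lit 5) (nat_lit 466) (nat_lit 394) (nat_lit 340)) (XT.lf (nat_lit 0) (nat_lit 6893216239) (nat_lit 228) (nat_lit 2383338360) (nat_lit 304) (nat_lit 3575361841) (nat_lit 112) (nat_lit 5) (nat_lit 115) (nat_lit 5) (nat_lit 116) (nat_lit 5) (nat_lit 467) (nat_lit 394) (nat_lit 339)))))) (XT.nd (nat_lit 546) (nat_lit 1064) (nat_lit 0) (XT.nd (nat_lit 234) (nat_lit 684) (nat_lit 0) (XT.nd (nat_lit 78) (nat_lit 152) (nat_lit 0) (XT.lf (nat_lit 0) (nat_lit 394927220) (nat_lit 304) (nat_lit 10345172334) (nat_lit 76) (nat_lit 2338497310) (nat_lit 108) (nat_lit 5) (nat_lit 112) (nat_lit 5) (nat_lit 109) (nat_lit 5) (nat_lit 468) (nat_lit 394) (nat_lit 338)) (XT.nd (nat_lit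 78) (nat_lit 152) (nat_lit 0) (XT.lf (nat_lit 0) (nat_lit 4452574626) (nat_lit 304) (nat_lit 1635095716) (nat_lit 76) (nat_lit 7222146539) (nat_lit 108) (nat_lit 5) (nat_lit 112) (nat_lit 5) (nat_lit 109) (nat_lit 5) (nat_lit 469) (nat_lit 394) (nat_lit 337)) (XT.lf (nat_lit 0) (nat_lit 7409321197) (nat_lit 152) (nat_lit 1250888672) (nat_lit 228) (nat_lit 4886920242) (nat_lit 106) (nat_lit 5) (nat_lit 108) (nat_lit 5) (nat_lit 109) (nat_lit 5) (nat_lit 470) (nat_lit 394) (nat_lit 336)))) (XT.nd (nat_lit 156) (nat_lit 380) (nat_lit 0) (XT.nd (nat_lit 78) (nat_lit 76) (nat_lit 0) (XT.lf (nat_lit 0) (nat_lit 2916559842) (nat_lit 228) (nat_lit 10115421868) (nat_lit 304) (nat_lit 758448041) (nat_lit 103) (nat_lit 5) (nat_lit 106) (nat_lit 5) (nat_lit 107) (nat_lit 5) (nat_lit 471) (nat_lit 394) (nat_lit 335)) (XT.lf (nat_lit 0) (nat_lit 3458149071) (nat_lit 304) (nat_lit 1789366023) (nat_lit 76) (nat_lit 8791536257)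 (nat_lit 102) (nat_lit 5) (nat_lit 106) (nat_lit 5) (nat_lit 103) (nat_lit 5) (nat_lit 472) (nat_lit 394) (nat_lit 334))) (XT.nd (nat_lit 78) (nat_lit 228) (nat_lit 0) (XT.lf (nat_lit 0) (nat_lit 7639339702) (nat_lit 152) (nat_lit 178803436) (nat_lit 228) (nat_lit 6475802765) (nat_lit 100) (nat_lit 5) (nat_lit 102) (nat_lit 5) (nat_lit 103) (nat_lit 5) (nat_lit 473) (nat_lit 394) (nat_lit 333)) (XT.lf (nat_lit 0) (nat_lit 2766824428) (nat_lit 228) (nat_lit 9594396410) (nat_lit 304) (nat_lit 2193701706) (nat_lit 97) (nat_lit 5) (nat_lit 100) (nat_lit 5) (nat_lit 101) (nat_lit 5) (nat_lit 474) (nat_lit 394) (nat_lit 332))))) (XT.nd (nat_lit 312) (nat_lit 532) (nat_lit 0) (XT.nd (nat_lit 156) (nat_lit 304) (nat_lit 0) (XT.nd (nat_lit 78) (nat_lit 152) (nat_lit 0) (XT.lf (nat_lit 0) (nat_lit 2202333021) (nat_lit 304) (nat_lit 2308439426) (nat_lit 76) (nat_lit 10311458403) (nat_lit 96) (nat_lit 5) (nat_lit 100) (nat_lit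 5) (nat_lit 97) (nat_lit 5) (nat_lit 475) (nat_lit 394) (nat_lit 331)) (XT.lf (nat_lit 0) (nat_lit 6726284982) (nat_lit 228) (nat_lit 7591328607) (nat_lit 76) (nat_lit 778092845) (nat_lit 94) (nat_lit 5) (nat_lit 97) (nat_lit 5) (nat_lit 95) (nat_lit 5) (nat_lit 476) (nat_lit 394) (nat_lit 330))) (XT.nd (nat_lit 78) (nat_lit 76) (nat_lit 0) (XT.lf (nat_lit 0) (nat_lit 2212002932) (nat_lit 228) (nat_lit 9223939589) (nat_lit 304) (nat_lit 3939947502) (nat_lit 91) (nat_lit 5) (nat_lit 94) (nat_lit 5) (nat_lit 95) (nat_lit 5) (nat_lit 477) (nat_lit 394) (nat_lit 329)) (XT.lf (nat_lit 0) (nat_lit 648311871) (nat_lit 304) (nat_lit 3272470130) (nat_lit 76) (nat_lit 11742379382) (nat_lit 90) (nat_lit 5) (nat_lit 94) (nat_lit 5) (nat_lit 91) (nat_lit 5) (nat_lit 478) (nat_lit 394) (nat_lit 328)))) (XT.nd (nat_lit 156) (nat_lit 228) (nat_lit 0) (XT.nd (nat_lit 78) (nat_lit 152) (nat_lit 0) (XT.lf (nat_lit 0) (nat_lit 5339164381)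 (nat_lit 228) (nat_lit 9027005519) (nat_lit 76) (nat_lit 1590389732) (nat_lit 88) (nat_lit 5) (nat_lit 91) (nat_lit 5) (nat_lit 89) (nat_lit 5) (nat_lit 479) (nat_lit 394) (nat_lit 327)) (XT.lf (nat_lit 0) (nat_lit 1163703071) (nat_lit 152) (nat_lit 9052403079) (nat_lit 228) (nat_lit 6041295741) (nat_lit 86) (nat_lit 5) (nat_lit 88) (nat_lit 5) (nat_lit 89) (nat_lit 5) (nat_lit 480) (nat_lit 394) (nat_lit 326))) (XT.nd (nat_lit 78) (nat_lit 228) (nat_lit 0) (XT.lf (nat_lit 0) (nat_lit 11779021483) (nat_lit 152) (nat_lit 3513946158) (nat_lit 228) (nat_lit 1272696319) (nat_lit 86) (nat_lit 5) (nat_lit 88) (nat_lit 5) (nat_lit 89) (nat_lit 5) (nat_lit 481) (nat_lit 394) (nat_lit 325)) (XT.lf (nat_lit 0) (nat_lit 3609001376) (nat_lit 228) (nat_lit 11059523522) (nat_lit 76) (nat_lit 2212370831) (nat_lit 83) (nat_lit 5) (nat_lit 86) (nat_lit 5) (nat_lit 84) (nat_lit 5) (nat_lit 482) (nat_lit 394) (nat_lit 324)))))))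 (XT.nd (nat_lit 1170) (nat_lit 1292) (nat_lit 0) (XT.nd (nat_lit 546) (nat_lit 836) (nat_lit 0) (XT.nd (nat_lit 234) (nat_lit 380) (nat_lit 0) (XT.nd (nat_lit 78) (nat_lit 380) (nat_lit 0) (XT.lf (nat_lit 0) (nat_lit 8658547206) (nat_lit 228) (nat_lit 471409027) (nat_lit 76) (nat_lit 8073843516) (nat_lit 83) (nat_lit 5) (nat_lit 86) (nat_lit 5) (nat_lit 84) (nat_lit 5) (nat_lit 483) (nat_lit 394) (nat_lit 323)) (XT.nd (nat_lit 78) (nat_lit 228) (nat_lit 0) (XT.lf (nat_lit 0) (nat_lit 10577499265) (nat_lit 152) (nat_lit 3348195712) (nat_lit 228) (nat_lit 3608715011) (nat_lit 81) (nat_lit 5) (nat_lit 83) (nat_lit 5) (nat_lit 84) (nat_lit 5) (nat_lit 484) (nat_lit 394) (nat_lit 322)) (XT.lf (nat_lit 0) (nat_lit 1481181795) (nat_lit 228) (nat_lit 13804550251) (nat_lit 76) (nat_lit 2587761374) (nat_lit 78) (nat_lit 5) (nat_lit 81) (nat_lit 5) (nat_lit 79) (nat_lit 5) (nat_lit 485) (nat_lit 394) (nat_lit 321)))) (XT.nd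 (nat_lit 156) (nat_lit 228) (nat_lit 0) (XT.nd (nat_lit 78) (nat_lit 152) (nat_lit 0) (XT.lf (nat_lit 0) (nat_lit 6720027107) (nat_lit 228) (nat_lit 2785545012) (nat_lit 76) (nat_lit 8714044190) (nat_lit 78) (nat_lit 5) (nat_lit 81) (nat_lit 5) (nat_lit 79) (nat_lit 5) (nat_lit 486) (nat_lit 394) (nat_lit 320)) (XT.lf (nat_lit 0) (nat_lit 8671584165) (nat_lit 152) (nat_lit 3493524781) (nat_lit 228) (nat_lit 6409544082) (nat_lit 76) (nat_lit 5) (nat_lit 78) (nat_lit 5) (nat_lit 79) (nat_lit 5) (nat_lit 487) (nat_lit 394) (nat_lit 319))) (XT.nd (nat_lit 78) (nat_lit 76) (nat_lit 0) (XT.lf (nat_lit 0) (nat_lit 1531889336) (nat_lit 152) (nat_lit 16276594738) (nat_lit 228) (nat_lit 1130810763) (nat_lit 74) (nat_lit 5) (nat_lit 76) (nat_lit 5) (nat_lit 77) (nat_lit 4) (nat_lit 488) (nat_lit 394) (nat_lit 318)) (XT.lf (nat_lit 0) (nat_lit 4323769297) (nat_lit 228) (nat_lit 5937837203) (nat_lit 76) (nat_lit 9048984169)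 (nat_lit 73) (nat_lit 5) (nat_lit 76) (nat_lit 5) (nat_lit 74) (nat_lit 5) (nat_lit 489) (nat_lit 394) (nat_lit 317))))) (XT.nd (nat_lit 312) (nat_lit 304) (nat_lit 0) (XT.nd (nat_lit 156) (nat_lit 380) (nat_lit 0) (XT.nd (nat_lit 78) (nat_lit 0) (nat_lit 0) (XT.lf (nat_lit 0) (nat_lit 5920059480) (nat_lit 152) (nat_lit 4023033344) (nat_lit 228) (nat_lit 9748883666) (nat_lit 71) (nat_lit 5) (nat_lit 73) (nat_lit 5) (nat_lit 74) (nat_lit 5) (nat_lit 490) (nat_lit 394) (nat_lit 316)) (XT.lf (nat_lit 0) (nat_lit 15781707079) (nat_lit 228) (nat_lit 1911501832) (nat_lit 76) (nat_lit 2390075609) (nat_lit 71) (nat_lit 5) (nat_lit 74) (nat_lit 5) (nat_lit 72) (nat_lit 4) (nat_lit 491) (nat_lit 394) (nat_lit 315))) (XT.nd (nat_lit 78) (nat_lit 152) (nat_lit 0) (XT.lf (nat_lit 0) (nat_lit 1392583450) (nat_lit 228) (nat_lit 10087193139) (nat_lit 76) (nat_lit 9002910075) (nat_lit 68) (nat_lit 5) (nat_lit 71) (nat_lit 5) (nat_lit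 69) (nat_lit 5) (nat_lit 492) (nat_lit 394) (nat_lit 314)) (XT.lf (nat_lit 0) (nat_lit 2158194313) (nat_lit 152) (nat_lit 5021237089) (nat_lit 228) (nat_lit 13713113981) (nat_lit 66) (nat_lit 5) (nat_lit 68) (nat_lit 5) (nat_lit 69) (nat_lit 5) (nat_lit 493) (nat_lit 394) (nat_lit 313)))) (XT.nd (nat_lit 156) (nat_lit 228) (nat_lit 0) (XT.nd (nat_lit 78) (nat_lit 76) (nat_lit 0) (XT.lf (nat_lit 0) (nat_lit 13226631923) (nat_lit 228) (nat_lit 6409260519) (nat_lit 76) (nat_lit 1676206756) (nat_lit 66) (nat_lit 5) (nat_lit 69) (nat_lit 5) (nat_lit 67) (nat_lit 4) (nat_lit 494) (nat_lit 394) (nat_lit 312)) (XT.lf (nat_lit 0) (nat_lit 6301898340) (nat_lit 76) (nat_lit 13232768282) (nat_lit 152) (nat_lit 2207192154) (nat_lit 65) (nat_lit 5) (nat_lit 66) (nat_lit 5) (nat_lit 67) (nat_lit 4) (nat_lit 495) (nat_lit 394) (nat_lit 311))) (XT.nd (nat_lit 78) (nat_lit 152) (nat_lit 0) (XT.lf (nat_lit 0) (nat_lit 3806894490)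 (nat_lit 152) (nat_lit 2751417328) (nat_lit 76) (nat_lit 15624055191) (nat_lit 64) (nat_lit 5) (nat_lit 66) (nat_lit 5) (nat_lit 65) (nat_lit 5) (nat_lit 496) (nat_lit 394) (nat_lit 310)) (XT.lf (nat_lit 0) (nat_lit 10031523081) (nat_lit 228) (nat_lit 12192931543) (nat_lit 76) (nat_lit 408747364) (nat_lit 62) (nat_lit 5) (nat_lit 65) (nat_lit 5) (nat_lit 63) (nat_lit 4) (nat_lit 497) (nat_lit 394) (nat_lit 309)))))) (XT.nd (nat_lit 624) (nat_lit 684) (nat_lit 0) (XT.nd (nat_lit 312) (nat_lit 304) (nat_lit 0) (XT.nd (nat_lit 156) (nat_lit 228) (nat_lit 0) (XT.nd (nat_lit 78) (nat_lit 0) (nat_lit 0) (XT.lf (nat_lit 0) (nat_lit 883980031) (nat_lit 76) (nat_lit 15630579520) (nat_lit 152) (nat_lit 6580853901) (nat_lit 61) (nat_lit 5) (nat_lit 62) (nat_lit 5) (nat_lit 63) (nat_lit 4) (nat_lit 498) (nat_lit 394) (nat_lit 308)) (XT.lf (nat_lit 0) (nat_lit 14548243202) (nat_lit 76) (nat_lit 8737488344) (nat_lit 152) (nat_lit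 282951843) (nat_lit 61) (nat_lit 5) (nat_lit 62) (nat_lit 5) (nat_lit 63) (nat_lit 4) (nat_lit 499) (nat_lit 394) (nat_lit 307))) (XT.nd (nat_lit 78) (nat_lit 0) (nat_lit 0) (XT.lf (nat_lit 0) (nat_lit 4541389582) (nat_lit 152) (nat_lit 1556185728) (nat_lit 228) (nat_lit 17956345979) (nat_lit 58) (nat_lit 5) (nat_lit 60) (nat_lit 5) (nat_lit 61) (nat_lit 5) (nat_lit 500) (nat_lit 394) (nat_lit 306)) (XT.lf (nat_lit 0) (nat_lit 12783149458) (nat_lit 228) (nat_lit 5969814517) (nat_lit 76) (nat_lit 5797090098) (nat_lit 58) (nat_lit 5) (nat_lit 61) (nat_lit 5) (nat_lit 59) (nat_lit 4) (nat_lit 501) (nat_lit 394) (nat_lit 305)))) (XT.nd (nat_lit 156) (nat_lit 152) (nat_lit 0) (XT.nd (nat_lit 78) (nat_lit 76) (nat_lit 0) (XT.lf (nat_lit 0) (nat_lit 8068831373) (nat_lit 76) (nat_lit 11665453670) (nat_lit 152) (nat_lit 5324837271) (nat_lit 57) (nat_lit 5) (nat_lit 58) (nat_lit 5) (nat_lit 59) (nat_lit 4) (nat_lit 502)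 (nat_lit 394) (nat_lit 304)) (XT.lf (nat_lit 0) (nat_lit 1317864854) (nat_lit 152) (nat_lit 2996276723) (nat_lit 76) (nat_lit 21267955976) (nat_lit 56) (nat_lit 5) (nat_lit 58) (nat_lit 5) (nat_lit 57) (nat_lit 5) (nat_lit 503) (nat_lit 394) (nat_lit 303))) (XT.nd (nat_lit 78) (nat_lit 0) (nat_lit 0) (XT.lf (nat_lit 0) (nat_lit 8169330065) (nat_lit 228) (nat_lit 14610281315) (nat_lit 76) (nat_lit 3336075045) (nat_lit 54) (nat_lit 5) (nat_lit 57) (nat_lit 5) (nat_lit 55) (nat_lit 4) (nat_lit 504) (nat_lit 394) (nat_lit 302)) (XT.lf (nat_lit 0) (nat_lit 15272566633) (nat_lit 228) (nat_lit 254823727) (nat_lit 76) (nat_lit 11136506935) (nat_lit 54) (nat_lit 5) (nat_lit 57) (nat_lit 5) (nat_lit 55) (nat_lit 4) (nat_lit 505) (nat_lit 394) (nat_lit 301))))) (XT.nd (nat_lit 312) (nat_lit 304) (nat_lit 0) (XT.nd (nat_lit 156) (nat_lit 76) (nat_lit 0) (XT.nd (nat_lit 78) (nat_lit 228) (nat_lit 0) (XT.lf (nat_lit 0) (nat_lit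 14770006080) (nat_lit 76) (nat_lit 7934617249) (nat_lit 152) (nat_lit 4520460593) (nat_lit 53) (nat_lit 5) (nat_lit 54) (nat_lit 5) (nat_lit 55) (nat_lit 4) (nat_lit 506) (nat_lit 394) (nat_lit 300)) (XT.lf (nat_lit 0) (nat_lit 2420869853) (nat_lit 152) (nat_lit 85428157) (nat_lit 228) (nat_lit 25296082455) (nat_lit 50) (nat_lit 5) (nat_lit 52) (nat_lit 5) (nat_lit 53) (nat_lit 5) (nat_lit 507) (nat_lit 394) (nat_lit 299))) (XT.nd (nat_lit 78) (nat_lit 76) (nat_lit 0) (XT.lf (nat_lit 0) (nat_lit 9830763090) (nat_lit 228) (nat_lit 10567321555) (nat_lit 76) (nat_lit 7992236758) (nat_lit 50) (nat_lit 5) (nat_lit 53) (nat_lit 5) (nat_lit 51) (nat_lit 4) (nat_lit 508) (nat_lit 394) (nat_lit 298)) (XT.lf (nat_lit 0) (nat_lit 4734667064) (nat_lit 76) (nat_lit 12661264868) (nat_lit 152) (nat_lit 11599340539) (nat_lit 49) (nat_lit 5) (nat_lit 50) (nat_lit 5) (nat_lit 51) (nat_lit 4) (nat_lit 509) (nat_lit 394) (nat_lit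 297)))) (XT.nd (nat_lit 156) (nat_lit 76) (nat_lit 0) (XT.nd (nat_lit 78) (nat_lit 228) (nat_lit 0) (XT.lf (nat_lit 0) (nat_lit 20664636644) (nat_lit 76) (nat_lit 4605020860) (nat_lit 152) (nat_lit 4346267485) (nat_lit 49) (nat_lit 5) (nat_lit 50) (nat_lit 5) (nat_lit 51) (nat_lit 4) (nat_lit 510) (nat_lit 394) (nat_lit 296)) (XT.lf (nat_lit 0) (nat_lit 3141130987) (nat_lit 228) (nat_lit 23414666753) (nat_lit 76) (nat_lit 3696168200) (nat_lit 46) (nat_lit 5) (nat_lit 49) (nat_lit 5) (nat_lit 47) (nat_lit 4) (nat_lit 511) (nat_lit 394) (nat_lit 295))) (XT.nd (nat_lit 78) (nat_lit 76) (nat_lit 0) (XT.lf (nat_lit 0) (nat_lit 10878117041) (nat_lit 228) (nat_lit 7757722068) (nat_lit 76) (nat_lit 12266589287) (nat_lit 46) (nat_lit 5) (nat_lit 49) (nat_lit 5) (nat_lit 47) (nat_lit 4) (nat_lit 512) (nat_lit 394) (nat_lit 294)) (XT.lf (nat_lit 0) (nat_lit 8489087440) (nat_lit 76) (nat_lit 10415884447) (nat_lit 152) (nat_lit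 12665700921) (nat_lit 45) (nat_lit 5) (nat_lit 46) (nat_lit 5) (nat_lit 47) (nat_lit 4) (nat_lit 513) (nat_lit 394) (nat_lit 293))))))))
noncomputable def xc84 : XT := (XT.nd (nat_lit 2340) (nat_lit 304) (nat_lit 0) (XT.nd (nat_lit 1170) (nat_lit 684) (nat_lit 0) (XT.nd (nat_lit 546) (nat_lit 456) (nat_lit 0) (XT.nd (nat_lit 234) (nat_lit 228) (nat_lit 0) (XT.nd (nat_lit 78) (nat_lit 152) (nat_lit 0) (XT.lf (nat_lit 0) (nat_lit 25337276786) (nat_lit 76) (nat_lit 1890111694) (nat_lit 152) (nat_lit 5029934223) (nat_lit 45) (nat_lit 5) (nat_lit 46) (nat_lit 5) (nat_lit 47) (nat_lit 4) (nat_lit 514) (nat_lit 394) (nat_lit 292)) (XT.nd (nat_lit 78) (nat_lit 0) (nat_lit 0) (XT.lf (nat_lit 0) (nat_lit 2918368807) (nat_lit 152) (nat_lit 23181817290) (nat_lit 76) (nat_lit 6859405781) (nat_lit 43) (nat_lit 5) (nat_lit 45) (nat_lit 5) (nat_lit 44) (nat_lit 4) (nat_lit 515) (nat_lit 394) (nat_lit 291)) (XT.lf (nat_lit 0) (nat_lit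 11070238560) (nat_lit 152) (nat_lit 6675907704) (nat_lit 76) (nat_lit 15933303161) (nat_lit 43) (nat_lit 5) (nat_lit 45) (nat_lit 5) (nat_lit 44) (nat_lit 4) (nat_lit 516) (nat_lit 394) (nat_lit 290)))) (XT.nd (nat_lit 156) (nat_lit 152) (nat_lit 0) (XT.nd (nat_lit 78) (nat_lit 0) (nat_lit 0) (XT.lf (nat_lit 0) (nat_lit 10486852688) (nat_lit 76) (nat_lit 9058219300) (nat_lit 152) (nat_lit 14873479221) (nat_lit 42) (nat_lit 5) (nat_lit 43) (nat_lit 5) (nat_lit 44) (nat_lit 4) (nat_lit 517) (nat_lit 394) (nat_lit 289)) (XT.lf (nat_lit 0) (nat_lit 28258803908) (nat_lit 76) (nat_lit 60605075) (nat_lit 152) (nat_lit 6859060027) (nat_lit 42) (nat_lit 5) (nat_lit 43) (nat_lit 5) (nat_lit 44) (nat_lit 4) (nat_lit 518) (nat_lit 394) (nat_lit 288))) (XT.nd (nat_lit 78) (nat_lit 0) (nat_lit 0) (XT.lf (nat_lit 0) (nat_lit 1539706087) (nat_lit 152) (nat_lit 25290304927) (nat_lit 76) (nat_lit 9125636955) (nat_lit 40) (nat_lit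 5) (nat_lit 42) (nat_lit 5) (nat_lit 41) (nat_lit 4) (nat_lit 519) (nat_lit 394) (nat_lit 287)) (XT.lf (nat_lit 0) (nat_lit 10102063195) (nat_lit 152) (nat_lit 7945282543) (nat_lit 76) (nat_lit 18705275223) (nat_lit 40) (nat_lit 5) (nat_lit 42) (nat_lit 5) (nat_lit 41) (nat_lit 4) (nat_lit 520) (nat_lit 394) (nat_lit 286))))) (XT.nd (nat_lit 312) (nat_lit 228) (nat_lit 0) (XT.nd (nat_lit 156) (nat_lit 152) (nat_lit 0) (XT.nd (nat_lit 78) (nat_lit 0) (nat_lit 0) (XT.lf (nat_lit 0) (nat_lit 10076148467) (nat_lit 76) (nat_lit 8920953461) (nat_lit 152) (nat_lit 18574127527) (nat_lit 39) (nat_lit 5) (nat_lit 40) (nat_lit 5) (nat_lit 41) (nat_lit 4) (nat_lit 521) (nat_lit 394) (nat_lit 285)) (XT.lf (nat_lit 0) (nat_lit 28223618394) (nat_lit 152) (nat_lit 9656902941) (nat_lit 0) (nat_lit 531936691) (nat_lit 39) (nat_lit 5) (nat_lit 41) (nat_lit 4) (nat_lit 39) (nat_lit 4) (nat_lit 522) (nat_lit 394) (nat_lit 284))) (XT.nd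 (nat_lit 78) (nat_lit 76) (nat_lit 0) (XT.lf (nat_lit 0) (nat_lit 8759602690) (nat_lit 76) (nat_lit 29119462192) (nat_lit 76) (nat_lit 1395295141) (nat_lit 38) (nat_lit 4) (nat_lit 39) (nat_lit 5) (nat_lit 39) (nat_lit 4) (nat_lit 523) (nat_lit 394) (nat_lit 283)) (XT.lf (nat_lit 0) (nat_lit 7590646703) (nat_lit 152) (nat_lit 12346693415) (nat_lit 76) (nat_lit 20220226798) (nat_lit 37) (nat_lit 5) (nat_lit 39) (nat_lit 5) (nat_lit 38) (nat_lit 4) (nat_lit 524) (nat_lit 394) (nat_lit 282)))) (XT.nd (nat_lit 156) (nat_lit 152) (nat_lit 0) (XT.nd (nat_lit 78) (nat_lit 0) (nat_lit 0) (XT.lf (nat_lit 0) (nat_lit 6439970982) (nat_lit 76) (nat_lit 10420274221) (nat_lit 152) (nat_lit 24205347247) (nat_lit 36) (nat_lit 5) (nat_lit 37) (nat_lit 5) (nat_lit 38) (nat_lit 4) (nat_lit 525) (nat_lit 394) (nat_lit 281)) (XT.lf (nat_lit 0) (nat_lit 26005412185) (nat_lit 76) (nat_lit 507626071) (nat_lit 152) (nat_lit 15484667831)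 (nat_lit 36) (nat_lit 5) (nat_lit 37) (nat_lit 5) (nat_lit 38) (nat_lit 4) (nat_lit 526) (nat_lit 394) (nat_lit 280))) (XT.nd (nat_lit 78) (nat_lit 76) (nat_lit 0) (XT.lf (nat_lit 0) (nat_lit 3130645099) (nat_lit 76) (nat_lit 33428957095) (nat_lit 76) (nat_lit 6395055845) (nat_lit 35) (nat_lit 4) (nat_lit 36) (nat_lit 5) (nat_lit 36) (nat_lit 4) (nat_lit 527) (nat_lit 394) (nat_lit 279)) (XT.lf (nat_lit 0) (nat_lit 3058302504) (nat_lit 152) (nat_lit 20852753133) (nat_lit 76) (nat_lit 20023938927) (nat_lit 34) (nat_lit 5) (nat_lit 36) (nat_lit 5) (nat_lit 35) (nat_lit 4) (nat_lit 528) (nat_lit 394) (nat_lit 278)))))) (XT.nd (nat_lit 546) (nat_lit 380) (nat_lit 0) (XT.nd (nat_lit 234) (nat_lit 228) (nat_lit 0) (XT.nd (nat_lit 78) (nat_lit 76) (nat_lit 0) (XT.lf (nat_lit 0) (nat_lit 12648129162) (nat_lit 152) (nat_lit 1411818579) (nat_lit 76) (nat_lit 30883452341) (nat_lit 34) (nat_lit 5) (nat_lit 36) (nat_lit 5)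 (nat_lit 35) (nat_lit 4) (nat_lit 529) (nat_lit 394) (nat_lit 277)) (XT.nd (nat_lit 78) (nat_lit 0) (nat_lit 0) (XT.lf (nat_lit 0) (nat_lit 18946974857) (nat_lit 76) (nat_lit 3742749216) (nat_lit 152) (nat_lit 23287411950) (nat_lit 33) (nat_lit 5) (nat_lit 34) (nat_lit 5) (nat_lit 35) (nat_lit 4) (nat_lit 530) (nat_lit 394) (nat_lit 276)) (XT.lf (nat_lit 0) (nat_lit 33095110600) (nat_lit 152) (nat_lit 7197420305) (nat_lit 0) (nat_lit 6747477273) (nat_lit 33) (nat_lit 5) (nat_lit 35) (nat_lit 4) (nat_lit 33) (nat_lit 4) (nat_lit 531) (nat_lit 394) (nat_lit 275)))) (XT.nd (nat_lit 156) (nat_lit 76) (nat_lit 0) (XT.nd (nat_lit 78) (nat_lit 76) (nat_lit 0) (XT.lf (nat_lit 0) (nat_lit 13421038749) (nat_lit 76) (nat_lit 30540186314) (nat_lit 76) (nat_lit 4169084881) (nat_lit 32) (nat_lit 4) (nat_lit 33) (nat_lit 5) (nat_lit 33) (nat_lit 4) (nat_lit 532) (nat_lit 394) (nat_lit 274)) (XT.lf (nat_lit 0) (nat_lit 5840782842)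 (nat_lit 152) (nat_lit 14537096833) (nat_lit 76) (nat_lit 28872062736) (nat_lit 31) (nat_lit 5) (nat_lit 33) (nat_lit 5) (nat_lit 32) (nat_lit 4) (nat_lit 533) (nat_lit 394) (nat_lit 273))) (XT.nd (nat_lit 78) (nat_lit 0) (nat_lit 0) (XT.lf (nat_lit 0) (nat_lit 6288556626) (nat_lit 76) (nat_lit 9822065821) (nat_lit 152) (nat_lit 34289999350) (nat_lit 30) (nat_lit 5) (nat_lit 31) (nat_lit 5) (nat_lit 32) (nat_lit 4) (nat_lit 534) (nat_lit 394) (nat_lit 272)) (XT.lf (nat_lit 0) (nat_lit 26829950546) (nat_lit 152) (nat_lit 23589138854) (nat_lit 0) (nat_lit 1162490754) (nat_lit 30) (nat_lit 5) (nat_lit 32) (nat_lit 4) (nat_lit 30) (nat_lit 4) (nat_lit 535) (nat_lit 394) (nat_lit 271))))) (XT.nd (nat_lit 312) (nat_lit 152) (nat_lit 0) (XT.nd (nat_lit 156) (nat_lit 152) (nat_lit 0) (XT.nd (nat_lit 78) (nat_lit 76) (nat_lit 0) (XT.lf (nat_lit 0) (nat_lit 37951646857) (nat_lit 152) (nat_lit 2579953859) (nat_lit 0) (nat_lit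 12263943270) (nat_lit 30) (nat_lit 5) (nat_lit 32) (nat_lit 4) (nat_lit 30) (nat_lit 4) (nat_lit 536) (nat_lit 394) (nat_lit 270)) (XT.lf (nat_lit 0) (nat_lit 19406962803) (nat_lit 76) (nat_lit 30170602458) (nat_lit 76) (nat_lit 4463244701) (nat_lit 29) (nat_lit 4) (nat_lit 30) (nat_lit 5) (nat_lit 30) (nat_lit 4) (nat_lit 537) (nat_lit 394) (nat_lit 269))) (XT.nd (nat_lit 78) (nat_lit 76) (nat_lit 0) (XT.lf (nat_lit 0) (nat_lit 6117621625) (nat_lit 152) (nat_lit 13307667576) (nat_lit 76) (nat_lit 35896038565) (nat_lit 28) (nat_lit 5) (nat_lit 30) (nat_lit 5) (nat_lit 29) (nat_lit 4) (nat_lit 538) (nat_lit 394) (nat_lit 268)) (XT.lf (nat_lit 0) (nat_lit 8754595415) (nat_lit 76) (nat_lit 8240262136) (nat_lit 152) (nat_lit 39642018658) (nat_lit 27) (nat_lit 5) (nat_lit 28) (nat_lit 5) (nat_lit 29) (nat_lit 4) (nat_lit 539) (nat_lit 394) (nat_lit 267)))) (XT.nd (nat_lit 156) (nat_lit 152) (nat_lit 0) (XT.nd (nat_lit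 78) (nat_lit 0) (nat_lit 0) (XT.lf (nat_lit 0) (nat_lit 28350172074) (nat_lit 152) (nat_lit 26299568964) (nat_lit 0) (nat_lit 3337597545) (nat_lit 27) (nat_lit 5) (nat_lit 29) (nat_lit 4) (nat_lit 27) (nat_lit 4) (nat_lit 540) (nat_lit 394) (nat_lit 266)) (XT.lf (nat_lit 0) (nat_lit 40112700998) (nat_lit 152) (nat_lit 4180444887) (nat_lit 0) (nat_lit 15083172609) (nat_lit 27) (nat_lit 5) (nat_lit 29) (nat_lit 4) (nat_lit 27) (nat_lit 4) (nat_lit 541) (nat_lit 394) (nat_lit 265))) (XT.nd (nat_lit 78) (nat_lit 76) (nat_lit 0) (XT.lf (nat_lit 0) (nat_lit 18943280908) (nat_lit 76) (nat_lit 33452325318) (nat_lit 76) (nat_lit 8406336871) (nat_lit 26) (nat_lit 4) (nat_lit 27) (nat_lit 5) (nat_lit 27) (nat_lit 4) (nat_lit 542) (nat_lit 394) (nat_lit 264)) (XT.lf (nat_lit 0) (nat_lit 2750527127) (nat_lit 152) (nat_lit 19478399017) (nat_lit 76) (nat_lit 40039768421) (nat_lit 25) (nat_lit 5) (nat_lit 27) (nat_lit 5) (nat_lit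 26) (nat_lit 4) (nat_lit 543) (nat_lit 394) (nat_lit 263))))))) (XT.nd (nat_lit 52494) (nat_lit 0) (nat_lit 17556) (XT.nd (nat_lit 546) (nat_lit 0) (nat_lit 0) (XT.nd (nat_lit 234) (nat_lit 228) (nat_lit 0) (XT.nd (nat_lit 78) (nat_lit 0) (nat_lit 0) (XT.lf (nat_lit 0) (nat_lit 3531146799) (nat_lit 76) (nat_lit 10561774908) (nat_lit 152) (nat_lit 49683436706) (nat_lit 24) (nat_lit 5) (nat_lit 25) (nat_lit 5) (nat_lit 26) (nat_lit 4) (nat_lit 544) (nat_lit 394) (nat_lit 262)) (XT.nd (nat_lit 78) (nat_lit 0) (nat_lit 0) (XT.lf (nat_lit 0) (nat_lit 25974077403) (nat_lit 152) (nat_lit 37736839619) (nat_lit 0) (nat_lit 1612380749) (nat_lit 24) (nat_lit 5) (nat_lit 26) (nat_lit 4) (nat_lit 24) (nat_lit 4) (nat_lit 545) (nat_lit 394) (nat_lit 261)) (XT.lf (nat_lit 0) (nat_lit 38302509767) (nat_lit 152) (nat_lit 14684796023) (nat_lit 0) (nat_lit 13926614522) (nat_lit 24) (nat_lit 5) (nat_lit 26) (nat_lit 4) (nat_lit 24)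 (nat_lit 4) (nat_lit 546) (nat_lit 394) (nat_lit 260)))) (XT.nd (nat_lit 156) (nat_lit 152) (nat_lit 0) (XT.nd (nat_lit 78) (nat_lit 0) (nat_lit 0) (XT.lf (nat_lit 0) (nat_lit 9212354189) (nat_lit 76) (nat_lit 41863665570) (nat_lit 76) (nat_lit 17473985287) (nat_lit 23) (nat_lit 4) (nat_lit 24) (nat_lit 5) (nat_lit 24) (nat_lit 4) (nat_lit 547) (nat_lit 394) (nat_lit 259)) (XT.lf (nat_lit 0) (nat_lit 34101478995) (nat_lit 76) (nat_lit 30266352253) (nat_lit 76) (nat_lit 5863288436) (nat_lit 23) (nat_lit 4) (nat_lit 24) (nat_lit 5) (nat_lit 24) (nat_lit 4) (nat_lit 548) (nat_lit 394) (nat_lit 258))) (XT.nd (nat_lit 78) (nat_lit 76) (nat_lit 0) (XT.lf (nat_lit 0) (nat_lit 5963845410) (nat_lit 152) (nat_lit 12309451354) (nat_lit 76) (nat_lit 53688001382) (nat_lit 22) (nat_lit 5) (nat_lit 24) (nat_lit 5) (nat_lit 23) (nat_lit 4) (nat_lit 549) (nat_lit 394) (nat_lit 257)) (XT.lf (nat_lit 0) (nat_lit 12384228654) (nat_lit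 76) (nat_lit 5750205560) (nat_lit 152) (nat_lit 55604011789) (nat_lit 21) (nat_lit 5) (nat_lit 22) (nat_lit 5) (nat_lit 23) (nat_lit 4) (nat_lit 550) (nat_lit 394) (nat_lit 256))))) (XT.nd (nat_lit 51636) (nat_lit 0) (nat_lit 26980) (XT.nd (nat_lit 51480) (nat_lit 0) (nat_lit 28272) (XT.nd (nat_lit 78) (nat_lit 0) (nat_lit 0) (XT.lf (nat_lit 0) (nat_lit 30851846229) (nat_lit 152) (nat_lit 37588814049) (nat_lit 0) (nat_lit 7122797072) (nat_lit 21) (nat_lit 5) (nat_lit 23) (nat_lit 4) (nat_lit 21) (nat_lit 4) (nat_lit 551) (nat_lit 394) (nat_lit 255)) (XT.lf (nat_lit 0) (nat_lit 43995535669) (nat_lit 152) (nat_lit 13191399171) (nat_lit 0) (nat_lit 20254941758) (nat_lit 21) (nat_lit 5) (nat_lit 23) (nat_lit 4) (nat_lit 21) (nat_lit 4) (nat_lit 552) (nat_lit 394) (nat_lit 254))) (XT.nd (nat_lit 78) (nat_lit 532) (nat_lit 0) (XT.lf (nat_lit 0) (nat_lit 1515440103) (nat_lit 380) (nat_lit 879455547) (nat_lit 380) (nat_lit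 879455547) (nat_lit 400) (nat_lit 4) (nat_lit 405) (nat_lit 5) (nat_lit 405) (nat_lit 4) (nat_lit 410) (nat_lit 395) (nat_lit 395)) (XT.lf (nat_lit 0) (nat_lit 417685629) (nat_lit 456) (nat_lit 1021924117) (nat_lit 532) (nat_lit 5132190072) (nat_lit 393) (nat_lit 5) (nat_lit 399) (nat_lit 5) (nat_lit 400) (nat_lit 4) (nat_lit 411) (nat_lit 395) (nat_lit 394)))) (XT.nd (nat_lit 156) (nat_lit 684) (nat_lit 0) (XT.nd (nat_lit 78) (nat_lit 608) (nat_lit 0) (XT.lf (nat_lit 0) (nat_lit 4446965373) (nat_lit 456) (nat_lit 175427047) (nat_lit 532) (nat_lit 1975009329) (nat_lit 393) (nat_lit 5) (nat_lit 399) (nat_lit 5) (nat_lit 400) (nat_lit 4) (nat_lit 412) (nat_lit 395) (nat_lit 393)) (XT.lf (nat_lit 0) (nat_lit 1168167070) (nat_lit 608) (nat_lit 4713506378) (nat_lit 76) (nat_lit 744285432) (nat_lit 385) (nat_lit 5) (nat_lit 393) (nat_lit 5) (nat_lit 386) (nat_lit 4) (nat_lit 413) (nat_lit 395) (nat_lit 392))) (XT.nd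 (nat_lit 78) (nat_lit 684) (nat_lit 0) (XT.lf (nat_lit 0) (nat_lit 4282778971) (nat_lit 608) (nat_lit 616257414) (nat_lit 76) (nat_lit 1758284702) (nat_lit 385) (nat_lit 5) (nat_lit 393) (nat_lit 5) (nat_lit 386) (nat_lit 4) (nat_lit 414) (nat_lit 395) (nat_lit 391)) (XT.lf (nat_lit 0) (nat_lit 715686411) (nat_lit 684) (nat_lit 3103662699) (nat_lit 76) (nat_lit 2872178302) (nat_lit 376) (nat_lit 5) (nat_lit 385) (nat_lit 5) (nat_lit 377) (nat_lit 5) (nat_lit 415) (nat_lit 395) (nat_lit 390)))))) (XT.nd (nat_lit 546) (nat_lit 5016) (nat_lit 0) (XT.nd (nat_lit 234) (nat_lit 2888) (nat_lit 0) (XT.nd (nat_lit 78) (nat_lit 836) (nat_lit 0) (XT.lf (nat_lit 0) (nat_lit 1122223934) (nat_lit 684) (nat_lit 2643252249) (nat_lit 760) (nat_lit 2963177699) (nat_lit 367) (nat_lit 5) (nat_lit 376) (nat_lit 5) (nat_lit 377) (nat_lit 5) (nat_lit 416) (nat_lit 395) (nat_lit 389)) (XT.nd (nat_lit 78) (nat_lit 760) (nat_lit 0) (XT.lf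 (nat_lit 0) (nat_lit 67489105) (nat_lit 760) (nat_lit 1310635811) (nat_lit 76) (nat_lit 5390852880) (nat_lit 366) (nat_lit 5) (nat_lit 376) (nat_lit 5) (nat_lit 367) (nat_lit 5) (nat_lit 417) (nat_lit 395) (nat_lit 388)) (XT.lf (nat_lit 0) (nat_lit 3060682369) (nat_lit 836) (nat_lit 3746428315) (nat_lit 76) (nat_lit 4619250) (nat_lit 356) (nat_lit 5) (nat_lit 367) (nat_lit 5) (nat_lit 357) (nat_lit 5) (nat_lit 418) (nat_lit 395) (nat_lit 387)))) (XT.nd (nat_lit 156) (nat_lit 1976) (nat_lit 0) (XT.nd (nat_lit 78) (nat_lit 76) (nat_lit 0) (XT.lf (nat_lit 0) (nat_lit 661675486) (nat_lit 836) (nat_lit 5419301783) (nat_lit 912) (nat_lit 776700777) (nat_lit 345) (nat_lit 5) (nat_lit 356) (nat_lit 5) (nat_lit 357) (nat_lit 5) (nat_lit 419) (nat_lit 395) (nat_lit 386)) (XT.lf (nat_lit 0) (nat_lit 2185452444) (nat_lit 912) (nat_lit 1730005954) (nat_lit 76) (nat_lit 2990621396) (nat_lit 344) (nat_lit 5) (nat_lit 356) (nat_lit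 5) (nat_lit 345) (nat_lit 5) (nat_lit 420) (nat_lit 395) (nat_lit 385))) (XT.nd (nat_lit 78) (nat_lit 1064) (nat_lit 0) (XT.lf (nat_lit 0) (nat_lit 2837455850) (nat_lit 912) (nat_lit 2318441065) (nat_lit 988) (nat_lit 1801784668) (nat_lit 332) (nat_lit 5) (nat_lit 344) (nat_lit 5) (nat_lit 345) (nat_lit 5) (nat_lit 421) (nat_lit 395) (nat_lit 384)) (XT.lf (nat_lit 0) (nat_lit 483529179) (nat_lit 988) (nat_lit 628641033) (nat_lit 1064) (nat_lit 5900410333) (nat_lit 318) (nat_lit 5) (nat_lit 331) (nat_lit 5) (nat_lit 332) (nat_lit 5) (nat_lit 422) (nat_lit 395) (nat_lit 383))))) (XT.nd (nat_lit 312) (nat_lit 2736) (nat_lit 0) (XT.nd (nat_lit 156) (nat_lit 1216) (nat_lit 0) (XT.nd (nat_lit 78) (nat_lit 1064) (nat_lit 0) (XT.lf (nat_lit 0) (nat_lit 4040768002) (nat_lit 1064) (nat_lit 1870208277) (nat_lit 76) (nat_lit 1158739150) (nat_lit 318) (nat_lit 5) (nat_lit 332) (nat_lit 5) (nat_lit 319) (nat_lit 5) (nat_lit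 423) (nat_lit 395) (nat_lit 382)) (XT.lf (nat_lit 0) (nat_lit 2897901014) (nat_lit 1064) (nat_lit 4106735701) (nat_lit 1140) (nat_lit 125531750) (nat_lit 304) (nat_lit 5) (nat_lit 318) (nat_lit 5) (nat_lit 319) (nat_lit 5) (nat_lit 424) (nat_lit 395) (nat_lit 381))) (XT.nd (nat_lit 78) (nat_lit 0) (nat_lit 0) (XT.lf (nat_lit 0) (nat_lit 556899462) (nat_lit 1140) (nat_lit 2190827884) (nat_lit 1216) (nat_lit 4445747105) (nat_lit 288) (nat_lit 5) (nat_lit 303) (nat_lit 5) (nat_lit 304) (nat_lit 5) (nat_lit 425) (nat_lit 395) (nat_lit 380)) (XT.lf (nat_lit 0) (nat_lit 5494269535) (nat_lit 1140) (nat_lit 169058660) (nat_lit 1216) (nat_lit 1596578368) (nat_lit 288) (nat_lit 5) (nat_lit 303) (nat_lit 5) (nat_lit 304) (nat_lit 5) (nat_lit 426) (nat_lit 395) (nat_lit 379)))) (XT.nd (nat_lit 156) (nat_lit 684) (nat_lit 0) (XT.nd (nat_lit 78) (nat_lit 760) (nat_lit 0) (XT.lf (nat_lit 0) (nat_lit 1279324744) (nat_lit 1292)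 (nat_lit 4127204117) (nat_lit 76) (nat_lit 1922418670) (nat_lit 271) (nat_lit 5) (nat_lit 288) (nat_lit 5) (nat_lit 272) (nat_lit 5) (nat_lit 427) (nat_lit 395) (nat_lit 378)) (XT.lf (nat_lit 0) (nat_lit 872237515) (nat_lit 760) (nat_lit 3284450862) (nat_lit 836) (nat_lit 3244501117) (nat_lit 261) (nat_lit 5) (nat_lit 271) (nat_lit 5) (nat_lit 272) (nat_lit 5) (nat_lit 428) (nat_lit 395) (nat_lit 377))) (XT.nd (nat_lit 78) (nat_lit 684) (nat_lit 0) (XT.lf (nat_lit 0) (nat_lit 6025130210) (nat_lit 760) (nat_lit 1057701335) (nat_lit 836) (nat_lit 393914954) (nat_lit 261) (nat_lit 5) (nat_lit 271) (nat_lit 5) (nat_lit 272) (nat_lit 5) (nat_lit 429) (nat_lit 395) (nat_lit 376)) (XT.lf (nat_lit 0) (nat_lit 2463354019) (nat_lit 684) (nat_lit 3821192296) (nat_lit 76) (nat_lit 1270187919) (nat_lit 252) (nat_lit 5) (nat_lit 261) (nat_lit 5) (nat_lit 253) (nat_lit 5) (nat_lit 430) (nat_lit 395) (nat_lit 375))))))))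
noncomputable def xc85 : XT := (XT.nd (nat_lit 2340) (nat_lit 4484) (nat_lit 0) (XT.nd (nat_lit 1170) (nat_lit 3952) (nat_lit 0) (XT.nd (nat_lit 546) (nat_lit 2432) (nat_lit 0) (XT.nd (nat_lit 234) (nat_lit 1672) (nat_lit 0) (XT.nd (nat_lit 78) (nat_lit 608) (nat_lit 0) (XT.lf (nat_lit 0) (nat_lit 1400373710) (nat_lit 608) (nat_lit 3960560409) (nat_lit 684) (nat_lit 2275154881) (nat_lit 244) (nat_lit 5) (nat_lit 252) (nat_lit 5) (nat_lit 253) (nat_lit 5) (nat_lit 431) (nat_lit 395) (nat_lit 374)) (XT.nd (nat_lit 78) (nat_lit 532) (nat_lit 0) (XT.lf (nat_lit 0) (nat_lit 576774282) (nat_lit 684) (nat_lit 950749399) (nat_lit 76) (nat_lit 6193296194) (nat_lit 243) (nat_lit 5) (nat_lit 252) (nat_lit 5) (nat_lit 244) (nat_lit 5) (nat_lit 432) (nat_lit 395) (nat_lit 373)) (XT.lf (nat_lit 0) (nat_lit 3448218646) (nat_lit 608) (nat_lit 3340863606) (nat_lit 76) (nat_lit 1018962107) (nat_lit 236) (nat_lit 5) (nat_lit 244)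 (nat_lit 5) (nat_lit 237) (nat_lit 5) (nat_lit 433) (nat_lit 395) (nat_lit 372)))) (XT.nd (nat_lit 156) (nat_lit 1064) (nat_lit 0) (XT.nd (nat_lit 78) (nat_lit 76) (nat_lit 0) (XT.lf (nat_lit 0) (nat_lit 2114115178) (nat_lit 532) (nat_lit 4264791224) (nat_lit 608) (nat_lit 1519803690) (nat_lit 229) (nat_lit 5) (nat_lit 236) (nat_lit 5) (nat_lit 237) (nat_lit 5) (nat_lit 434) (nat_lit 395) (nat_lit 371)) (XT.lf (nat_lit 0) (nat_lit 1340628609) (nat_lit 608) (nat_lit 285799771) (nat_lit 76) (nat_lit 6366399602) (nat_lit 228) (nat_lit 5) (nat_lit 236) (nat_lit 5) (nat_lit 229) (nat_lit 5) (nat_lit 435) (nat_lit 395) (nat_lit 370))) (XT.nd (nat_lit 78) (nat_lit 532) (nat_lit 0) (XT.lf (nat_lit 0) (nat_lit 4249818773) (nat_lit 608) (nat_lit 2712562278) (nat_lit 76) (nat_lit 1127148218) (nat_lit 221) (nat_lit 5) (nat_lit 229) (nat_lit 5) (nat_lit 222) (nat_lit 5) (nat_lit 436) (nat_lit 395) (nat_lit 369)) (XT.lf (nat_lit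 0) (nat_lit 2987718113) (nat_lit 532) (nat_lit 4238106225) (nat_lit 608) (nat_lit 963936629) (nat_lit 214) (nat_lit 5) (nat_lit 221) (nat_lit 5) (nat_lit 222) (nat_lit 5) (nat_lit 437) (nat_lit 395) (nat_lit 368))))) (XT.nd (nat_lit 312) (nat_lit 912) (nat_lit 0) (XT.nd (nat_lit 156) (nat_lit 988) (nat_lit 0) (XT.nd (nat_lit 78) (nat_lit 0) (nat_lit 0) (XT.lf (nat_lit 0) (nat_lit 531884810) (nat_lit 456) (nat_lit 1392351447) (nat_lit 532) (nat_lit 6369248331) (nat_lit 207) (nat_lit 5) (nat_lit 213) (nat_lit 5) (nat_lit 214) (nat_lit 5) (nat_lit 438) (nat_lit 395) (nat_lit 367)) (XT.lf (nat_lit 0) (nat_lit 4880921939) (nat_lit 532) (nat_lit 1961655696) (nat_lit 76) (nat_lit 1557432955) (nat_lit 207) (nat_lit 5) (nat_lit 214) (nat_lit 5) (nat_lit 208) (nat_lit 5) (nat_lit 439) (nat_lit 395) (nat_lit 366))) (XT.nd (nat_lit 78) (nat_lit 532) (nat_lit 0) (XT.lf (nat_lit 0) (nat_lit 3996365023) (nat_lit 456) (nat_lit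 3917483734) (nat_lit 532) (nat_lit 596271224) (nat_lit 201) (nat_lit 5) (nat_lit 207) (nat_lit 5) (nat_lit 208) (nat_lit 5) (nat_lit 440) (nat_lit 395) (nat_lit 365)) (XT.lf (nat_lit 0) (nat_lit 1475158049) (nat_lit 456) (nat_lit 861965308) (nat_lit 532) (nat_lit 6286626029) (nat_lit 194) (nat_lit 5) (nat_lit 200) (nat_lit 5) (nat_lit 201) (nat_lit 5) (nat_lit 441) (nat_lit 395) (nat_lit 364)))) (XT.nd (nat_lit 156) (nat_lit 456) (nat_lit 0) (XT.nd (nat_lit 78) (nat_lit 456) (nat_lit 0) (XT.lf (nat_lit 0) (nat_lit 5351292367) (nat_lit 532) (nat_lit 1113054135) (nat_lit 76) (nat_lit 2276134005) (nat_lit 194) (nat_lit 5) (nat_lit 201) (nat_lit 5) (nat_lit 195) (nat_lit 5) (nat_lit 442) (nat_lit 395) (nat_lit 363)) (XT.lf (nat_lit 0) (nat_lit 5115637466) (nat_lit 456) (nat_lit 3336558672) (nat_lit 532) (nat_lit 408640417) (nat_lit 188) (nat_lit 5) (nat_lit 194) (nat_lit 5) (nat_lit 195) (nat_lit 5) (nat_lit 443) (nat_lit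 395) (nat_lit 362))) (XT.nd (nat_lit 78) (nat_lit 0) (nat_lit 0) (XT.lf (nat_lit 0) (nat_lit 2513238501) (nat_lit 380) (nat_lit 70688791) (nat_lit 456) (nat_lit 6400884037) (nat_lit 182) (nat_lit 5) (nat_lit 187) (nat_lit 5) (nat_lit 188) (nat_lit 5) (nat_lit 444) (nat_lit 395) (nat_lit 361)) (XT.lf (nat_lit 0) (nat_lit 5667770054) (nat_lit 456) (nat_lit 191742633) (nat_lit 76) (nat_lit 3252591186) (nat_lit 182) (nat_lit 5) (nat_lit 188) (nat_lit 5) (nat_lit 183) (nat_lit 5) (nat_lit 445) (nat_lit 395) (nat_lit 360)))))) (XT.nd (nat_lit 546) (nat_lit 1976) (nat_lit 0) (XT.nd (nat_lit 234) (nat_lit 760) (nat_lit 0) (XT.nd (nat_lit 78) (nat_lit 836) (nat_lit 0) (XT.lf (nat_lit 0) (nat_lit 6320974394) (nat_lit 380) (nat_lit 2526228094) (nat_lit 456) (nat_lit 395931388) (nat_lit 177) (nat_lit 5) (nat_lit 182) (nat_lit 5) (nat_lit 183) (nat_lit 5) (nat_lit 446) (nat_lit 395) (nat_lit 359)) (XT.nd (nat_lit 78) (nat_lit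 380) (nat_lit 0) (XT.lf (nat_lit 0) (nat_lit 2678276719) (nat_lit 456) (nat_lit 5766426115) (nat_lit 76) (nat_lit 932974025) (nat_lit 171) (nat_lit 5) (nat_lit 177) (nat_lit 5) (nat_lit 172) (nat_lit 5) (nat_lit 447) (nat_lit 395) (nat_lit 358)) (XT.lf (nat_lit 0) (nat_lit 792122022) (nat_lit 380) (nat_lit 5049791867) (nat_lit 456) (nat_lit 3674079807) (nat_lit 166) (nat_lit 5) (nat_lit 171) (nat_lit 5) (nat_lit 172) (nat_lit 5) (nat_lit 448) (nat_lit 395) (nat_lit 357)))) (XT.nd (nat_lit 156) (nat_lit 380) (nat_lit 0) (XT.nd (nat_lit 78) (nat_lit 380) (nat_lit 0) (XT.lf (nat_lit 0) (nat_lit 7587105684) (nat_lit 380) (nat_lit 1515231070) (nat_lit 456) (nat_lit 556076685) (nat_lit 166) (nat_lit 5) (nat_lit 171) (nat_lit 5) (nat_lit 172) (nat_lit 5) (nat_lit 449) (nat_lit 395) (nat_lit 356)) (XT.lf (nat_lit 0) (nat_lit 2615173384) (nat_lit 380) (nat_lit 5054497106) (nat_lit 76) (nat_lit 2134332910) (nat_lit 161)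 (nat_lit 5) (nat_lit 166) (nat_lit 5) (nat_lit 162) (nat_lit 5) (nat_lit 450) (nat_lit 395) (nat_lit 355))) (XT.nd (nat_lit 78) (nat_lit 0) (nat_lit 0) (XT.lf (nat_lit 0) (nat_lit 1800471972) (nat_lit 380) (nat_lit 4068742500) (nat_lit 456) (nat_lit 4084625387) (nat_lit 156) (nat_lit 5) (nat_lit 161) (nat_lit 5) (nat_lit 162) (nat_lit 5) (nat_lit 451) (nat_lit 395) (nat_lit 354)) (XT.lf (nat_lit 0) (nat_lit 8887449635) (nat_lit 380) (nat_lit 330712782) (nat_lit 456) (nat_lit 890099044) (nat_lit 156) (nat_lit 5) (nat_lit 161) (nat_lit 5) (nat_lit 162) (nat_lit 5) (nat_lit 452) (nat_lit 395) (nat_lit 353))))) (XT.nd (nat_lit 312) (nat_lit 912) (nat_lit 0) (XT.nd (nat_lit 156) (nat_lit 380) (nat_lit 0) (XT.nd (nat_lit 78) (nat_lit 304) (nat_lit 0) (XT.lf (nat_lit 0) (nat_lit 2392175971) (nat_lit 380) (nat_lit 4364471989) (nat_lit 76) (nat_lit 3508821171) (nat_lit 151) (nat_lit 5) (nat_lit 156) (nat_lit 5) (nat_lit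 152) (nat_lit 5) (nat_lit 453) (nat_lit 395) (nat_lit 352)) (XT.lf (nat_lit 0) (nat_lit 2800242017) (nat_lit 304) (nat_lit 2945301210) (nat_lit 380) (nat_lit 4681877878) (nat_lit 147) (nat_lit 5) (nat_lit 151) (nat_lit 5) (nat_lit 152) (nat_lit 5) (nat_lit 454) (nat_lit 395) (nat_lit 351))) (XT.nd (nat_lit 78) (nat_lit 380) (nat_lit 0) (XT.lf (nat_lit 0) (nat_lit 9201869302) (nat_lit 380) (nat_lit 410619370) (nat_lit 76) (nat_lit 981679889) (nat_lit 147) (nat_lit 5) (nat_lit 152) (nat_lit 5) (nat_lit 148) (nat_lit 5) (nat_lit 455) (nat_lit 395) (nat_lit 350)) (XT.lf (nat_lit 0) (nat_lit 2004390352) (nat_lit 380) (nat_lit 3728170987) (nat_lit 76) (nat_lit 5031367561) (nat_lit 142) (nat_lit 5) (nat_lit 147) (nat_lit 5) (nat_lit 143) (nat_lit 5) (nat_lit 456) (nat_lit 395) (nat_lit 349)))) (XT.nd (nat_lit 156) (nat_lit 380) (nat_lit 0) (XT.nd (nat_lit 78) (nat_lit 228) (nat_lit 0) (XT.lf (nat_lit 0) (nat_lit 3759594187)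 (nat_lit 304) (nat_lit 1705906019) (nat_lit 380) (nat_lit 5473160193) (nat_lit 138) (nat_lit 5) (nat_lit 142) (nat_lit 5) (nat_lit 143) (nat_lit 5) (nat_lit 457) (nat_lit 395) (nat_lit 348)) (XT.lf (nat_lit 0) (nat_lit 337936974) (nat_lit 228) (nat_lit 8707911758) (nat_lit 304) (nat_lit 2072329752) (nat_lit 135) (nat_lit 5) (nat_lit 138) (nat_lit 5) (nat_lit 139) (nat_lit 5) (nat_lit 458) (nat_lit 395) (nat_lit 347))) (XT.nd (nat_lit 78) (nat_lit 304) (nat_lit 0) (XT.lf (nat_lit 0) (nat_lit 1443608858) (nat_lit 304) (nat_lit 3180620208) (nat_lit 76) (nat_lit 6677216985) (nat_lit 134) (nat_lit 5) (nat_lit 138) (nat_lit 5) (nat_lit 135) (nat_lit 5) (nat_lit 459) (nat_lit 395) (nat_lit 346)) (XT.lf (nat_lit 0) (nat_lit 4643324264) (nat_lit 304) (nat_lit 377009833) (nat_lit 380) (nat_lit 6469359422) (nat_lit 130) (nat_lit 5) (nat_lit 134) (nat_lit 5) (nat_lit 135) (nat_lit 5) (nat_lit 460) (nat_lit 395) (nat_lit 345)))))))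 (XT.nd (nat_lit 1170) (nat_lit 1976) (nat_lit 0) (XT.nd (nat_lit 546) (nat_lit 1140) (nat_lit 0) (XT.nd (nat_lit 234) (nat_lit 760) (nat_lit 0) (XT.nd (nat_lit 78) (nat_lit 380) (nat_lit 0) (XT.lf (nat_lit 0) (nat_lit 990955722) (nat_lit 228) (nat_lit 7746556654) (nat_lit 304) (nat_lit 2945087540) (nat_lit 127) (nat_lit 5) (nat_lit 130) (nat_lit 5) (nat_lit 131) (nat_lit 5) (nat_lit 461) (nat_lit 395) (nat_lit 344)) (XT.nd (nat_lit 78) (nat_lit 304) (nat_lit 0) (XT.lf (nat_lit 0) (nat_lit 698064323) (nat_lit 304) (nat_lit 2760888147) (nat_lit 76) (nat_lit 8421353711) (nat_lit 126) (nat_lit 5) (nat_lit 130) (nat_lit 5) (nat_lit 127) (nat_lit 5) (nat_lit 462) (nat_lit 395) (nat_lit 343)) (XT.lf (nat_lit 0) (nat_lit 4407425763) (nat_lit 380) (nat_lit 6680639681) (nat_lit 76) (nat_lit 994525690) (nat_lit 122) (nat_lit 5) (nat_lit 127) (nat_lit 5) (nat_lit 123) (nat_lit 5) (nat_lit 463) (nat_lit 395) (nat_lit 342))))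 (XT.nd (nat_lit 156) (nat_lit 532) (nat_lit 0) (XT.nd (nat_lit 78) (nat_lit 0) (nat_lit 0) (XT.lf (nat_lit 0) (nat_lit 1498238943) (nat_lit 228) (nat_lit 6761355995) (nat_lit 304) (nat_lit 4030409260) (nat_lit 119) (nat_lit 5) (nat_lit 122) (nat_lit 5) (nat_lit 123) (nat_lit 5) (nat_lit 464) (nat_lit 395) (nat_lit 341)) (XT.lf (nat_lit 0) (nat_lit 9987505125) (nat_lit 228) (nat_lit 2262635061) (nat_lit 304) (nat_lit 252820353) (nat_lit 119) (nat_lit 5) (nat_lit 122) (nat_lit 5) (nat_lit 123) (nat_lit 5) (nat_lit 465) (nat_lit 395) (nat_lit 340))) (XT.nd (nat_lit 78) (nat_lit 228) (nat_lit 0) (XT.lf (nat_lit 0) (nat_lit 3604649389) (nat_lit 304) (nat_lit 6723335102) (nat_lit 76) (nat_lit 2392150478) (nat_lit 115) (nat_lit 5) (nat_lit 119) (nat_lit 5) (nat_lit 116) (nat_lit 5) (nat_lit 466) (nat_lit 395) (nat_lit 339)) (XT.lf (nat_lit 0) (nat_lit 1812071778) (nat_lit 228) (nat_lit 5782724029) (nat_lit 304) (nat_lit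 5348297480) (nat_lit 112) (nat_lit 5) (nat_lit 115) (nat_lit 5) (nat_lit 116) (nat_lit 5) (nat_lit 467) (nat_lit 395) (nat_lit 338))))) (XT.nd (nat_lit 312) (nat_lit 684) (nat_lit 0) (XT.nd (nat_lit 156) (nat_lit 152) (nat_lit 0) (XT.nd (nat_lit 78) (nat_lit 304) (nat_lit 0) (XT.lf (nat_lit 0) (nat_lit 10671003418) (nat_lit 228) (nat_lit 1058684889) (nat_lit 304) (nat_lit 1442305429) (nat_lit 112) (nat_lit 5) (nat_lit 115) (nat_lit 5) (nat_lit 116) (nat_lit 5) (nat_lit 468) (nat_lit 395) (nat_lit 337)) (XT.lf (nat_lit 0) (nat_lit 2587382758) (nat_lit 304) (nat_lit 7024377437) (nat_lit 76) (nat_lit 3793554752) (nat_lit 108) (nat_lit 5) (nat_lit 112) (nat_lit 5) (nat_lit 109) (nat_lit 5) (nat_lit 469) (nat_lit 395) (nat_lit 336))) (XT.nd (nat_lit 78) (nat_lit 0) (nat_lit 0) (XT.lf (nat_lit 0) (nat_lit 1877884109) (nat_lit 152) (nat_lit 4843414001) (nat_lit 228) (nat_lit 6923543752) (nat_lit 106) (nat_lit 5) (nat_lit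 108) (nat_lit 5) (nat_lit 109) (nat_lit 5) (nat_lit 470) (nat_lit 395) (nat_lit 335)) (XT.lf (nat_lit 0) (nat_lit 11010094324) (nat_lit 228) (nat_lit 2769329179) (nat_lit 76) (nat_lit 111209296) (nat_lit 106) (nat_lit 5) (nat_lit 109) (nat_lit 5) (nat_lit 107) (nat_lit 5) (nat_lit 471) (nat_lit 395) (nat_lit 334)))) (XT.nd (nat_lit 156) (nat_lit 228) (nat_lit 0) (XT.nd (nat_lit 78) (nat_lit 152) (nat_lit 0) (XT.lf (nat_lit 0) (nat_lit 1329708813) (nat_lit 304) (nat_lit 7645151034) (nat_lit 76) (nat_lit 5166441211) (nat_lit 102) (nat_lit 5) (nat_lit 106) (nat_lit 5) (nat_lit 103) (nat_lit 5) (nat_lit 472) (nat_lit 395) (nat_lit 333)) (XT.lf (nat_lit 0) (nat_lit 1632919650) (nat_lit 152) (nat_lit 3979297934) (nat_lit 228) (nat_lit 8786304440) (nat_lit 100) (nat_lit 5) (nat_lit 102) (nat_lit 5) (nat_lit 103) (nat_lit 5) (nat_lit 473) (nat_lit 395) (nat_lit 332))) (XT.nd (nat_lit 78) (nat_lit 228) (nat_lit 0) (XT.lf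 (nat_lit 0) (nat_lit 10072544462) (nat_lit 228) (nat_lit 3395185907) (nat_lit 76) (nat_lit 1194252622) (nat_lit 100) (nat_lit 5) (nat_lit 103) (nat_lit 5) (nat_lit 101) (nat_lit 5) (nat_lit 474) (nat_lit 395) (nat_lit 331)) (XT.lf (nat_lit 0) (nat_lit 6273222328) (nat_lit 228) (nat_lit 8454487894) (nat_lit 304) (nat_lit 203810242) (nat_lit 97) (nat_lit 5) (nat_lit 100) (nat_lit 5) (nat_lit 101) (nat_lit 5) (nat_lit 475) (nat_lit 395) (nat_lit 330)))))) (XT.nd (nat_lit 624) (nat_lit 912) (nat_lit 0) (XT.nd (nat_lit 312) (nat_lit 532) (nat_lit 0) (XT.nd (nat_lit 156) (nat_lit 304) (nat_lit 0) (XT.nd (nat_lit 78) (nat_lit 0) (nat_lit 0) (XT.lf (nat_lit 0) (nat_lit 1004711229) (nat_lit 152) (nat_lit 3230231578) (nat_lit 228) (nat_lit 10972788943) (nat_lit 94) (nat_lit 5) (nat_lit 96) (nat_lit 5) (nat_lit 97) (nat_lit 5) (nat_lit 476) (nat_lit 395) (nat_lit 329)) (XT.lf (nat_lit 0) (nat_lit 8873405045) (nat_lit 228)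 (nat_lit 4444554892) (nat_lit 76) (nat_lit 2172092860) (nat_lit 94) (nat_lit 5) (nat_lit 97) (nat_lit 5) (nat_lit 95) (nat_lit 5) (nat_lit 477) (nat_lit 395) (nat_lit 328))) (XT.nd (nat_lit 78) (nat_lit 76) (nat_lit 0) (XT.lf (nat_lit 0) (nat_lit 5619793126) (nat_lit 228) (nat_lit 8080018913) (nat_lit 304) (nat_lit 2079570865) (nat_lit 91) (nat_lit 5) (nat_lit 94) (nat_lit 5) (nat_lit 95) (nat_lit 5) (nat_lit 478) (nat_lit 395) (nat_lit 327)) (XT.lf (nat_lit 0) (nat_lit 2551223301) (nat_lit 304) (nat_lit 88901853) (nat_lit 76) (nat_lit 13436276315) (nat_lit 90) (nat_lit 5) (nat_lit 94) (nat_lit 5) (nat_lit 91) (nat_lit 5) (nat_lit 479) (nat_lit 395) (nat_lit 326)))) (XT.nd (nat_lit 156) (nat_lit 228) (nat_lit 0) (XT.nd (nat_lit 78) (nat_lit 152) (nat_lit 0) (XT.lf (nat_lit 0) (nat_lit 7372539020) (nat_lit 228) (nat_lit 6005664440) (nat_lit 76) (nat_lit 3000710472) (nat_lit 88) (nat_lit 5) (nat_lit 91) (nat_lit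 5) (nat_lit 89) (nat_lit 5) (nat_lit 480) (nat_lit 395) (nat_lit 325)) (XT.lf (nat_lit 0) (nat_lit 4458489415) (nat_lit 152) (nat_lit 7914076327) (nat_lit 228) (nat_lit 4316916683) (nat_lit 86) (nat_lit 5) (nat_lit 88) (nat_lit 5) (nat_lit 89) (nat_lit 5) (nat_lit 481) (nat_lit 395) (nat_lit 324))) (XT.nd (nat_lit 78) (nat_lit 152) (nat_lit 0) (XT.lf (nat_lit 0) (nat_lit 528714824) (nat_lit 228) (nat_lit 1716476906) (nat_lit 76) (nat_lit 14763265749) (nat_lit 85) (nat_lit 5) (nat_lit 88) (nat_lit 5) (nat_lit 86) (nat_lit 5) (nat_lit 482) (nat_lit 395) (nat_lit 323)) (XT.lf (nat_lit 0) (nat_lit 5522165535) (nat_lit 228) (nat_lit 8180897194) (nat_lit 76) (nat_lit 3629982887) (nat_lit 83) (nat_lit 5) (nat_lit 86) (nat_lit 5) (nat_lit 84) (nat_lit 5) (nat_lit 483) (nat_lit 395) (nat_lit 322))))) (XT.nd (nat_lit 312) (nat_lit 380) (nat_lit 0) (XT.nd (nat_lit 156) (nat_lit 380) (nat_lit 0) (XT.nd (nat_lit 78) (nat_lit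 0) (nat_lit 0) (XT.lf (nat_lit 0) (nat_lit 2683722684) (nat_lit 152) (nat_lit 8012702908) (nat_lit 228) (nat_lit 6970018120) (nat_lit 81) (nat_lit 5) (nat_lit 83) (nat_lit 5) (nat_lit 84) (nat_lit 5) (nat_lit 484) (nat_lit 395) (nat_lit 321)) (XT.lf (nat_lit 0) (nat_lit 13981171239) (nat_lit 152) (nat_lit 2093248255) (nat_lit 228) (nat_lit 1933971495) (nat_lit 81) (nat_lit 5) (nat_lit 83) (nat_lit 5) (nat_lit 84) (nat_lit 5) (nat_lit 485) (nat_lit 395) (nat_lit 320))) (XT.nd (nat_lit 78) (nat_lit 152) (nat_lit 0) (XT.lf (nat_lit 0) (nat_lit 3265728159) (nat_lit 228) (nat_lit 11089210944) (nat_lit 76) (nat_lit 4002440145) (nat_lit 78) (nat_lit 5) (nat_lit 81) (nat_lit 5) (nat_lit 79) (nat_lit 5) (nat_lit 486) (nat_lit 395) (nat_lit 319)) (XT.lf (nat_lit 0) (nat_lit 172582374) (nat_lit 152) (nat_lit 8440132581) (nat_lit 228) (nat_lit 10102644953) (nat_lit 76) (nat_lit 5) (nat_lit 78) (nat_lit 5) (nat_lit 79) (nat_lit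 5) (nat_lit 487) (nat_lit 395) (nat_lit 318)))) (XT.nd (nat_lit 156) (nat_lit 152) (nat_lit 0) (XT.nd (nat_lit 78) (nat_lit 228) (nat_lit 0) (XT.lf (nat_lit 0) (nat_lit 11940270213) (nat_lit 152) (nat_lit 2258933340) (nat_lit 228) (nat_lit 4882505818) (nat_lit 76) (nat_lit 5) (nat_lit 78) (nat_lit 5) (nat_lit 79) (nat_lit 5) (nat_lit 488) (nat_lit 395) (nat_lit 317)) (XT.lf (nat_lit 0) (nat_lit 536569644) (nat_lit 228) (nat_lit 14868936380) (nat_lit 76) (nat_lit 4051843495) (nat_lit 73) (nat_lit 5) (nat_lit 76) (nat_lit 5) (nat_lit 74) (nat_lit 5) (nat_lit 489) (nat_lit 395) (nat_lit 316))) (XT.nd (nat_lit 78) (nat_lit 152) (nat_lit 0) (XT.lf (nat_lit 0) (nat_lit 6083168351) (nat_lit 228) (nat_lit 3155297426) (nat_lit 76) (nat_lit 10602452275) (nat_lit 73) (nat_lit 5) (nat_lit 76) (nat_lit 5) (nat_lit 74) (nat_lit 5) (nat_lit 490) (nat_lit 395) (nat_lit 315)) (XT.lf (nat_lit 0) (nat_lit 9029309933) (nat_lit 152)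 (nat_lit 2822475869) (nat_lit 228) (nat_lit 8382541125) (nat_lit 71) (nat_lit 5) (nat_lit 73) (nat_lit 5) (nat_lit 74) (nat_lit 5) (nat_lit 491) (nat_lit 395) (nat_lit 314))))))))
noncomputable def xc86 : XT := (XT.nd (nat_lit 2340) (nat_lit 1444) (nat_lit 0) (XT.nd (nat_lit 1170) (nat_lit 988) (nat_lit 0) (XT.nd (nat_lit 546) (nat_lit 684) (nat_lit 0) (XT.nd (nat_lit 234) (nat_lit 304) (nat_lit 0) (XT.nd (nat_lit 78) (nat_lit 228) (nat_lit 0) (XT.lf (nat_lit 0) (nat_lit 930234343) (nat_lit 152) (nat_lit 16909691990) (nat_lit 228) (nat_lit 2798219651) (nat_lit 69) (nat_lit 5) (nat_lit 71) (nat_lit 5) (nat_lit 72) (nat_lit 4) (nat_lit 492) (nat_lit 395) (nat_lit 313)) (XT.nd (nat_lit 78) (nat_lit 152) (nat_lit 0) (XT.lf (nat_lit 0) (nat_lit 3007219734) (nat_lit 228) (nat_lit 7505732720) (nat_lit 76) (nat_lit 10536940412) (nat_lit 68) (nat_lit 5) (nat_lit 71) (nat_lit 5) (nat_lit 69) (nat_lit 5) (nat_lit 493) (nat_lit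 395) (nat_lit 312)) (XT.lf (nat_lit 0) (nat_lit 5078741098) (nat_lit 152) (nat_lit 3870572311) (nat_lit 228) (nat_lit 12523287311) (nat_lit 66) (nat_lit 5) (nat_lit 68) (nat_lit 5) (nat_lit 69) (nat_lit 5) (nat_lit 494) (nat_lit 395) (nat_lit 311)))) (XT.nd (nat_lit 156) (nat_lit 228) (nat_lit 0) (XT.nd (nat_lit 78) (nat_lit 76) (nat_lit 0) (XT.lf (nat_lit 0) (nat_lit 15144797847) (nat_lit 228) (nat_lit 3795700402) (nat_lit 76) (nat_lit 2965239369) (nat_lit 66) (nat_lit 5) (nat_lit 69) (nat_lit 5) (nat_lit 67) (nat_lit 4) (nat_lit 495) (nat_lit 395) (nat_lit 310)) (XT.lf (nat_lit 0) (nat_lit 9269285007) (nat_lit 76) (nat_lit 12355183926) (nat_lit 152) (nat_lit 724451625) (nat_lit 65) (nat_lit 5) (nat_lit 66) (nat_lit 5) (nat_lit 67) (nat_lit 4) (nat_lit 496) (nat_lit 395) (nat_lit 309))) (XT.nd (nat_lit 78) (nat_lit 152) (nat_lit 0) (XT.lf (nat_lit 0) (nat_lit 5395597031) (nat_lit 152) (nat_lit 107130544) (nat_lit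 76) (nat_lit 17300799118) (nat_lit 64) (nat_lit 5) (nat_lit 66) (nat_lit 5) (nat_lit 65) (nat_lit 5) (nat_lit 497) (nat_lit 395) (nat_lit 308)) (XT.lf (nat_lit 0) (nat_lit 11801917523) (nat_lit 228) (nat_lit 9826769000) (nat_lit 76) (nat_lit 1639353832) (nat_lit 62) (nat_lit 5) (nat_lit 65) (nat_lit 5) (nat_lit 63) (nat_lit 4) (nat_lit 498) (nat_lit 395) (nat_lit 307))))) (XT.nd (nat_lit 312) (nat_lit 380) (nat_lit 0) (XT.nd (nat_lit 156) (nat_lit 152) (nat_lit 0) (XT.nd (nat_lit 78) (nat_lit 76) (nat_lit 0) (XT.lf (nat_lit 0) (nat_lit 3615666092) (nat_lit 76) (nat_lit 14846983234) (nat_lit 152) (nat_lit 5281974873) (nat_lit 61) (nat_lit 5) (nat_lit 62) (nat_lit 5) (nat_lit 63) (nat_lit 4) (nat_lit 499) (nat_lit 395) (nat_lit 306)) (XT.lf (nat_lit 0) (nat_lit 1138621753) (nat_lit 152) (nat_lit 6633460704) (nat_lit 76) (nat_lit 16460946296) (nat_lit 60) (nat_lit 5) (nat_lit 62) (nat_lit 5) (nat_lit 61) (nat_lit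 5) (nat_lit 500) (nat_lit 395) (nat_lit 305))) (XT.nd (nat_lit 78) (nat_lit 0) (nat_lit 0) (XT.lf (nat_lit 0) (nat_lit 7306395091) (nat_lit 152) (nat_lit 382265210) (nat_lit 228) (nat_lit 17044567943) (nat_lit 58) (nat_lit 5) (nat_lit 60) (nat_lit 5) (nat_lit 61) (nat_lit 5) (nat_lit 501) (nat_lit 395) (nat_lit 304)) (XT.lf (nat_lit 0) (nat_lit 14545178839) (nat_lit 228) (nat_lit 3567024202) (nat_lit 76) (nat_lit 7132932576) (nat_lit 58) (nat_lit 5) (nat_lit 61) (nat_lit 5) (nat_lit 59) (nat_lit 4) (nat_lit 502) (nat_lit 395) (nat_lit 303)))) (XT.nd (nat_lit 156) (nat_lit 228) (nat_lit 0) (XT.nd (nat_lit 78) (nat_lit 76) (nat_lit 0) (XT.lf (nat_lit 0) (nat_lit 10867468468) (nat_lit 76) (nat_lit 10821803857) (nat_lit 152) (nat_lit 4080672730) (nat_lit 57) (nat_lit 5) (nat_lit 58) (nat_lit 5) (nat_lit 59) (nat_lit 4) (nat_lit 503) (nat_lit 395) (nat_lit 302)) (XT.lf (nat_lit 0) (nat_lit 2693822474) (nat_lit 152)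 (nat_lit 577400127) (nat_lit 76) (nat_lit 23038186630) (nat_lit 56) (nat_lit 5) (nat_lit 58) (nat_lit 5) (nat_lit 57) (nat_lit 5) (nat_lit 504) (nat_lit 395) (nat_lit 301))) (XT.nd (nat_lit 78) (nat_lit 76) (nat_lit 0) (XT.lf (nat_lit 0) (nat_lit 9746963570) (nat_lit 228) (nat_lit 12535899895) (nat_lit 76) (nat_lit 4576260054) (nat_lit 54) (nat_lit 5) (nat_lit 57) (nat_lit 5) (nat_lit 55) (nat_lit 4) (nat_lit 505) (nat_lit 395) (nat_lit 300)) (XT.lf (nat_lit 0) (nat_lit 2220363568) (nat_lit 76) (nat_lit 14825464918) (nat_lit 152) (nat_lit 10378477948) (nat_lit 53) (nat_lit 5) (nat_lit 54) (nat_lit 5) (nat_lit 55) (nat_lit 4) (nat_lit 506) (nat_lit 395) (nat_lit 299)))))) (XT.nd (nat_lit 546) (nat_lit 456) (nat_lit 0) (XT.nd (nat_lit 234) (nat_lit 304) (nat_lit 0) (XT.nd (nat_lit 78) (nat_lit 228) (nat_lit 0) (XT.lf (nat_lit 0) (nat_lit 17628694266) (nat_lit 76) (nat_lit 7036347447) (nat_lit 152) (nat_lit 3338362711)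 (nat_lit 53) (nat_lit 5) (nat_lit 54) (nat_lit 5) (nat_lit 55) (nat_lit 4) (nat_lit 507) (nat_lit 395) (nat_lit 298)) (XT.nd (nat_lit 78) (nat_lit 0) (nat_lit 0) (XT.lf (nat_lit 0) (nat_lit 3869202794) (nat_lit 228) (nat_lit 23697269461) (nat_lit 76) (nat_lit 1031297602) (nat_lit 50) (nat_lit 5) (nat_lit 53) (nat_lit 5) (nat_lit 51) (nat_lit 4) (nat_lit 508) (nat_lit 395) (nat_lit 297)) (XT.lf (nat_lit 0) (nat_lit 11376716728) (nat_lit 228) (nat_lit 8510709506) (nat_lit 76) (nat_lit 9317024815) (nat_lit 50) (nat_lit 5) (nat_lit 53) (nat_lit 5) (nat_lit 51) (nat_lit 4) (nat_lit 509) (nat_lit 395) (nat_lit 296)))) (XT.nd (nat_lit 156) (nat_lit 228) (nat_lit 0) (XT.nd (nat_lit 78) (nat_lit 0) (nat_lit 0) (XT.lf (nat_lit 0) (nat_lit 7227067873) (nat_lit 76) (nat_lit 11927928079) (nat_lit 152) (nat_lit 10672971467) (nat_lit 49) (nat_lit 5) (nat_lit 50) (nat_lit 5) (nat_lit 51) (nat_lit 4) (nat_lit 510) (nat_lit 395)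 (nat_lit 295)) (XT.lf (nat_lit 0) (nat_lit 23566479429) (nat_lit 76) (nat_lit 3662419316) (nat_lit 152) (nat_lit 3239423191) (nat_lit 49) (nat_lit 5) (nat_lit 50) (nat_lit 5) (nat_lit 51) (nat_lit 4) (nat_lit 511) (nat_lit 395) (nat_lit 294))) (XT.nd (nat_lit 78) (nat_lit 0) (nat_lit 0) (XT.lf (nat_lit 0) (nat_lit 4445489822) (nat_lit 228) (nat_lit 21808007144) (nat_lit 76) (nat_lit 4869680603) (nat_lit 46) (nat_lit 5) (nat_lit 49) (nat_lit 5) (nat_lit 47) (nat_lit 4) (nat_lit 512) (nat_lit 395) (nat_lit 293)) (XT.lf (nat_lit 0) (nat_lit 12379339101) (nat_lit 228) (nat_lit 5748609448) (nat_lit 76) (nat_lit 13666264011) (nat_lit 46) (nat_lit 5) (nat_lit 49) (nat_lit 5) (nat_lit 47) (nat_lit 4) (nat_lit 513) (nat_lit 395) (nat_lit 292))))) (XT.nd (nat_lit 312) (nat_lit 228) (nat_lit 0) (XT.nd (nat_lit 156) (nat_lit 152) (nat_lit 0) (XT.nd (nat_lit 78) (nat_lit 0) (nat_lit 0) (XT.lf (nat_lit 0) (nat_lit 10963625481)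 (nat_lit 76) (nat_lit 9670493053) (nat_lit 152) (nat_lit 11848773435) (nat_lit 45) (nat_lit 5) (nat_lit 46) (nat_lit 5) (nat_lit 47) (nat_lit 4) (nat_lit 514) (nat_lit 395) (nat_lit 291)) (XT.lf (nat_lit 0) (nat_lit 28252604232) (nat_lit 76) (nat_lit 919758805) (nat_lit 152) (nat_lit 4018794858) (nat_lit 45) (nat_lit 5) (nat_lit 46) (nat_lit 5) (nat_lit 47) (nat_lit 4) (nat_lit 515) (nat_lit 395) (nat_lit 290))) (XT.nd (nat_lit 78) (nat_lit 0) (nat_lit 0) (XT.lf (nat_lit 0) (nat_lit 4142724477) (nat_lit 152) (nat_lit 21696753529) (nat_lit 76) (nat_lit 8074759879) (nat_lit 43) (nat_lit 5) (nat_lit 45) (nat_lit 5) (nat_lit 44) (nat_lit 4) (nat_lit 516) (nat_lit 395) (nat_lit 289)) (XT.lf (nat_lit 0) (nat_lit 12506039509) (nat_lit 152) (nat_lit 4759176896) (nat_lit 76) (nat_lit 17391469172) (nat_lit 43) (nat_lit 5) (nat_lit 45) (nat_lit 5) (nat_lit 44) (nat_lit 4) (nat_lit 517) (nat_lit 395) (nat_lit 288)))) (XT.nd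 (nat_lit 156) (nat_lit 152) (nat_lit 0) (XT.nd (nat_lit 78) (nat_lit 0) (nat_lit 0) (XT.lf (nat_lit 0) (nat_lit 12897711326) (nat_lit 76) (nat_lit 8325410659) (nat_lit 152) (nat_lit 14195199373) (nat_lit 42) (nat_lit 5) (nat_lit 43) (nat_lit 5) (nat_lit 44) (nat_lit 4) (nat_lit 518) (nat_lit 395) (nat_lit 287)) (XT.lf (nat_lit 0) (nat_lit 30237667161) (nat_lit 152) (nat_lit 5069001563) (nat_lit 0) (nat_lit 895059660) (nat_lit 42) (nat_lit 5) (nat_lit 44) (nat_lit 4) (nat_lit 42) (nat_lit 4) (nat_lit 519) (nat_lit 395) (nat_lit 286))) (XT.nd (nat_lit 78) (nat_lit 0) (nat_lit 0) (XT.lf (nat_lit 0) (nat_lit 2654119991) (nat_lit 152) (nat_lit 23990241535) (nat_lit 76) (nat_lit 10357876757) (nat_lit 40) (nat_lit 5) (nat_lit 42) (nat_lit 5) (nat_lit 41) (nat_lit 4) (nat_lit 520) (nat_lit 395) (nat_lit 285)) (XT.lf (nat_lit 0) (nat_lit 11442234530) (nat_lit 152) (nat_lit 6184832728) (nat_lit 76) (nat_lit 20196987551)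 (nat_lit 40) (nat_lit 5) (nat_lit 42) (nat_lit 5) (nat_lit 41) (nat_lit 4) (nat_lit 521) (nat_lit 395) (nat_lit 284))))))) (XT.nd (nat_lit 1170) (nat_lit 684) (nat_lit 0) (XT.nd (nat_lit 546) (nat_lit 380) (nat_lit 0) (XT.nd (nat_lit 234) (nat_lit 228) (nat_lit 0) (XT.nd (nat_lit 78) (nat_lit 76) (nat_lit 0) (XT.lf (nat_lit 0) (nat_lit 12357645053) (nat_lit 76) (nat_lit 8235297698) (nat_lit 152) (nat_lit 18074615174) (nat_lit 39) (nat_lit 5) (nat_lit 40) (nat_lit 5) (nat_lit 41) (nat_lit 4) (nat_lit 522) (nat_lit 395) (nat_lit 283)) (XT.nd (nat_lit 78) (nat_lit 76) (nat_lit 0) (XT.lf (nat_lit 0) (nat_lit 30075269973) (nat_lit 152) (nat_lit 8004030424) (nat_lit 0) (nat_lit 1455353389) (nat_lit 39) (nat_lit 5) (nat_lit 41) (nat_lit 4) (nat_lit 39) (nat_lit 4) (nat_lit 523) (nat_lit 395) (nat_lit 282)) (XT.lf (nat_lit 0) (nat_lit 10945925478) (nat_lit 76) (nat_lit 29063674384) (nat_lit 76) (nat_lit 413137244) (nat_lit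 38) (nat_lit 4) (nat_lit 39) (nat_lit 5) (nat_lit 39) (nat_lit 4) (nat_lit 524) (nat_lit 395) (nat_lit 281)))) (XT.nd (nat_lit 156) (nat_lit 76) (nat_lit 0) (XT.nd (nat_lit 78) (nat_lit 76) (nat_lit 0) (XT.lf (nat_lit 0) (nat_lit 8793156877) (nat_lit 152) (nat_lit 10830157374) (nat_lit 76) (nat_lit 21709708778) (nat_lit 37) (nat_lit 5) (nat_lit 39) (nat_lit 5) (nat_lit 38) (nat_lit 4) (nat_lit 525) (nat_lit 395) (nat_lit 280)) (XT.lf (nat_lit 0) (nat_lit 8501607574) (nat_lit 76) (nat_lit 9828804357) (nat_lit 152) (nat_lit 23938191132) (nat_lit 36) (nat_lit 5) (nat_lit 37) (nat_lit 5) (nat_lit 38) (nat_lit 4) (nat_lit 526) (nat_lit 395) (nat_lit 279))) (XT.nd (nat_lit 78) (nat_lit 76) (nat_lit 0) (XT.lf (nat_lit 0) (nat_lit 28248112067) (nat_lit 152) (nat_lit 14633343445) (nat_lit 0) (nat_lit 347965666) (nat_lit 36) (nat_lit 5) (nat_lit 38) (nat_lit 4) (nat_lit 36) (nat_lit 4) (nat_lit 527) (nat_lit 395) (nat_lit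 278)) (XT.lf (nat_lit 0) (nat_lit 5040280341) (nat_lit 76) (nat_lit 33550756569) (nat_lit 76) (nat_lit 5624196606) (nat_lit 35) (nat_lit 4) (nat_lit 36) (nat_lit 5) (nat_lit 36) (nat_lit 4) (nat_lit 528) (nat_lit 395) (nat_lit 277))))) (XT.nd (nat_lit 312) (nat_lit 228) (nat_lit 0) (XT.nd (nat_lit 156) (nat_lit 0) (nat_lit 0) (XT.nd (nat_lit 78) (nat_lit 76) (nat_lit 0) (XT.lf (nat_lit 0) (nat_lit 4066483576) (nat_lit 152) (nat_lit 19697242535) (nat_lit 76) (nat_lit 21461801891) (nat_lit 34) (nat_lit 5) (nat_lit 36) (nat_lit 5) (nat_lit 35) (nat_lit 4) (nat_lit 529) (nat_lit 395) (nat_lit 276)) (XT.lf (nat_lit 0) (nat_lit 280517460) (nat_lit 76) (nat_lit 13639491884) (nat_lit 152) (nat_lit 32344896895) (nat_lit 33) (nat_lit 5) (nat_lit 34) (nat_lit 5) (nat_lit 35) (nat_lit 4) (nat_lit 530) (nat_lit 395) (nat_lit 275))) (XT.nd (nat_lit 78) (nat_lit 0) (nat_lit 0) (XT.lf (nat_lit 0) (nat_lit 21227647689) (nat_lit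 76) (nat_lit 3023052482) (nat_lit 152) (nat_lit 23079319309) (nat_lit 33) (nat_lit 5) (nat_lit 34) (nat_lit 5) (nat_lit 35) (nat_lit 4) (nat_lit 531) (nat_lit 395) (nat_lit 274)) (XT.lf (nat_lit 0) (nat_lit 34950373500) (nat_lit 152) (nat_lit 5733054840) (nat_lit 0) (nat_lit 7741886347) (nat_lit 33) (nat_lit 5) (nat_lit 35) (nat_lit 4) (nat_lit 33) (nat_lit 4) (nat_lit 532) (nat_lit 395) (nat_lit 273)))) (XT.nd (nat_lit 156) (nat_lit 76) (nat_lit 0) (XT.nd (nat_lit 78) (nat_lit 76) (nat_lit 0) (XT.lf (nat_lit 0) (nat_lit 15487484573) (nat_lit 76) (nat_lit 30645861702) (nat_lit 76) (nat_lit 3415253608) (nat_lit 32) (nat_lit 4) (nat_lit 33) (nat_lit 5) (nat_lit 33) (nat_lit 4) (nat_lit 533) (nat_lit 395) (nat_lit 272)) (XT.lf (nat_lit 0) (nat_lit 6852659958) (nat_lit 152) (nat_lit 13341185020) (nat_lit 76) (nat_lit 30508476467) (nat_lit 31) (nat_lit 5) (nat_lit 33) (nat_lit 5) (nat_lit 32) (nat_lit 4) (nat_lit 534)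 (nat_lit 395) (nat_lit 271))) (XT.nd (nat_lit 78) (nat_lit 0) (nat_lit 0) (XT.lf (nat_lit 0) (nat_lit 8093237800) (nat_lit 76) (nat_lit 9328522615) (nat_lit 152) (nat_lit 34466026400) (nat_lit 30) (nat_lit 5) (nat_lit 31) (nat_lit 5) (nat_lit 32) (nat_lit 4) (nat_lit 535) (nat_lit 395) (nat_lit 270)) (XT.lf (nat_lit 0) (nat_lit 28445913145) (nat_lit 152) (nat_lit 22711083504) (nat_lit 0) (nat_lit 1947680485) (nat_lit 30) (nat_lit 5) (nat_lit 32) (nat_lit 4) (nat_lit 30) (nat_lit 4) (nat_lit 536) (nat_lit 395) (nat_lit 269)))))) (XT.nd (nat_lit 624) (nat_lit 304) (nat_lit 0) (XT.nd (nat_lit 312) (nat_lit 152) (nat_lit 0) (XT.nd (nat_lit 156) (nat_lit 152) (nat_lit 0) (XT.nd (nat_lit 78) (nat_lit 76) (nat_lit 0) (XT.lf (nat_lit 0) (nat_lit 39877637120) (nat_lit 152) (nat_lit 1117809256) (nat_lit 0) (nat_lit 13360322742) (nat_lit 30) (nat_lit 5) (nat_lit 32) (nat_lit 4) (nat_lit 30) (nat_lit 4) (nat_lit 537) (nat_lit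 395) (nat_lit 268)) (XT.lf (nat_lit 0) (nat_lit 21513621345) (nat_lit 76) (nat_lit 30330430503) (nat_lit 76) (nat_lit 3794590184) (nat_lit 29) (nat_lit 4) (nat_lit 30) (nat_lit 5) (nat_lit 30) (nat_lit 4) (nat_lit 538) (nat_lit 395) (nat_lit 267))) (XT.nd (nat_lit 78) (nat_lit 76) (nat_lit 0) (XT.lf (nat_lit 0) (nat_lit 7065122293) (nat_lit 152) (nat_lit 12211628412) (nat_lit 76) (nat_lit 37681281294) (nat_lit 28) (nat_lit 5) (nat_lit 30) (nat_lit 5) (nat_lit 29) (nat_lit 4) (nat_lit 539) (nat_lit 395) (nat_lit 266)) (XT.lf (nat_lit 0) (nat_lit 10497842967) (nat_lit 76) (nat_lit 7762813244) (nat_lit 152) (nat_lit 40052631735) (nat_lit 27) (nat_lit 5) (nat_lit 28) (nat_lit 5) (nat_lit 29) (nat_lit 4) (nat_lit 540) (nat_lit 395) (nat_lit 265)))) (XT.nd (nat_lit 156) (nat_lit 152) (nat_lit 0) (XT.nd (nat_lit 78) (nat_lit 0) (nat_lit 0) (XT.lf (nat_lit 0) (nat_lit 29941375079) (nat_lit 152) (nat_lit 25635800311) (nat_lit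 0) (nat_lit 4127546921) (nat_lit 27) (nat_lit 5) (nat_lit 29) (nat_lit 4) (nat_lit 27) (nat_lit 4) (nat_lit 541) (nat_lit 395) (nat_lit 264)) (XT.lf (nat_lit 0) (nat_lit 42035206147) (nat_lit 152) (nat_lit 2895415785) (nat_lit 0) (nat_lit 16205397350) (nat_lit 27) (nat_lit 5) (nat_lit 29) (nat_lit 4) (nat_lit 27) (nat_lit 4) (nat_lit 542) (nat_lit 395) (nat_lit 263))) (XT.nd (nat_lit 78) (nat_lit 76) (nat_lit 0) (XT.lf (nat_lit 0) (nat_lit 20908193917) (nat_lit 76) (nat_lit 33770884365) (nat_lit 76) (nat_lit 7925560385) (nat_lit 26) (nat_lit 4) (nat_lit 27) (nat_lit 5) (nat_lit 27) (nat_lit 4) (nat_lit 543) (nat_lit 395) (nat_lit 262)) (XT.lf (nat_lit 0) (nat_lit 3530774759) (nat_lit 152) (nat_lit 18692914502) (nat_lit 76) (nat_lit 41892120418) (nat_lit 25) (nat_lit 5) (nat_lit 27) (nat_lit 5) (nat_lit 26) (nat_lit 4) (nat_lit 544) (nat_lit 395) (nat_lit 261))))) (XT.nd (nat_lit 312) (nat_lit 152) (nat_lit 0) (XT.nd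 (nat_lit 156) (nat_lit 76) (nat_lit 0) (XT.nd (nat_lit 78) (nat_lit 0) (nat_lit 0) (XT.lf (nat_lit 0) (nat_lit 4993487920) (nat_lit 76) (nat_lit 10212669583) (nat_lit 152) (nat_lit 50462764852) (nat_lit 24) (nat_lit 5) (nat_lit 25) (nat_lit 5) (nat_lit 26) (nat_lit 4) (nat_lit 545) (nat_lit 395) (nat_lit 260)) (XT.lf (nat_lit 0) (nat_lit 27429852876) (nat_lit 152) (nat_lit 37538137113) (nat_lit 0) (nat_lit 2294697144) (nat_lit 24) (nat_lit 5) (nat_lit 26) (nat_lit 4) (nat_lit 24) (nat_lit 4) (nat_lit 546) (nat_lit 395) (nat_lit 259))) (XT.nd (nat_lit 78) (nat_lit 76) (nat_lit 0) (XT.lf (nat_lit 0) (nat_lit 40108432779) (nat_lit 152) (nat_lit 13833293598) (nat_lit 0) (nat_lit 14959893514) (nat_lit 24) (nat_lit 5) (nat_lit 26) (nat_lit 4) (nat_lit 24) (nat_lit 4) (nat_lit 547) (nat_lit 395) (nat_lit 258)) (XT.lf (nat_lit 0) (nat_lit 10768104000) (nat_lit 76) (nat_lit 42490210760) (nat_lit 76) (nat_lit 17328677773)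 (nat_lit 23) (nat_lit 4) (nat_lit 24) (nat_lit 5) (nat_lit 24) (nat_lit 4) (nat_lit 548) (nat_lit 395) (nat_lit 257)))) (XT.nd (nat_lit 156) (nat_lit 76) (nat_lit 0) (XT.nd (nat_lit 78) (nat_lit 76) (nat_lit 0) (XT.lf (nat_lit 0) (nat_lit 36366639079) (nat_lit 76) (nat_lit 30563309056) (nat_lit 76) (nat_lit 5389160806) (nat_lit 23) (nat_lit 4) (nat_lit 24) (nat_lit 5) (nat_lit 24) (nat_lit 4) (nat_lit 549) (nat_lit 395) (nat_lit 256)) (XT.lf (nat_lit 0) (nat_lit 6761539345) (nat_lit 152) (nat_lit 11460471208) (nat_lit 76) (nat_lit 55879551988) (nat_lit 22) (nat_lit 5) (nat_lit 24) (nat_lit 5) (nat_lit 23) (nat_lit 4) (nat_lit 550) (nat_lit 395) (nat_lit 255))) (XT.nd (nat_lit 78) (nat_lit 0) (nat_lit 0) (XT.lf (nat_lit 0) (nat_lit 13962075440) (nat_lit 76) (nat_lit 5328743582) (nat_lit 152) (nat_lit 56641398940) (nat_lit 21) (nat_lit 5) (nat_lit 22) (nat_lit 5) (nat_lit 23) (nat_lit 4) (nat_lit 551) (nat_lit 395)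 (nat_lit 254)) (XT.lf (nat_lit 0) (nat_lit 32377461194) (nat_lit 152) (nat_lit 37532991323) (nat_lit 0) (nat_lit 7901896215) (nat_lit 21) (nat_lit 5) (nat_lit 23) (nat_lit 4) (nat_lit 21) (nat_lit 4) (nat_lit 552) (nat_lit 395) (nat_lit 253))))))))
noncomputable def xc87 : XT := (XT.nd (nat_lit 2340) (nat_lit 7752) (nat_lit 0) (XT.nd (nat_lit 1170) (nat_lit 8892) (nat_lit 0) (XT.nd (nat_lit 546) (nat_lit 4104) (nat_lit 0) (XT.nd (nat_lit 234) (nat_lit 1064) (nat_lit 0) (XT.nd (nat_lit 78) (nat_lit 456) (nat_lit 0) (XT.lf (nat_lit 0) (nat_lit 465305616) (nat_lit 380) (nat_lit 2324576779) (nat_lit 0) (nat_lit 465305616) (nat_lit 405) (nat_lit 5) (nat_lit 410) (nat_lit 4) (nat_lit 405) (nat_lit 4) (nat_lit 408) (nat_lit 396) (nat_lit 396)) (XT.nd (nat_lit 78) (nat_lit 456) (nat_lit 0) (XT.lf (nat_lit 0) (nat_lit 4116285703) (nat_lit 380) (nat_lit 876124862) (nat_lit 0) (nat_lit 1536421882) (nat_lit 405) (nat_lit 5)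 (nat_lit 410) (nat_lit 4) (nat_lit 405) (nat_lit 4) (nat_lit 409) (nat_lit 396) (nat_lit 395)) (XT.lf (nat_lit 0) (nat_lit 748644333) (nat_lit 456) (nat_lit 3564837980) (nat_lit 76) (nat_lit 2236694216) (nat_lit 399) (nat_lit 5) (nat_lit 405) (nat_lit 5) (nat_lit 400) (nat_lit 4) (nat_lit 410) (nat_lit 396) (nat_lit 394)))) (XT.nd (nat_lit 156) (nat_lit 532) (nat_lit 0) (XT.nd (nat_lit 78) (nat_lit 76) (nat_lit 0) (XT.lf (nat_lit 0) (nat_lit 313749184) (nat_lit 456) (nat_lit 3543445025) (nat_lit 532) (nat_lit 2717263531) (nat_lit 393) (nat_lit 5) (nat_lit 399) (nat_lit 5) (nat_lit 400) (nat_lit 4) (nat_lit 411) (nat_lit 396) (nat_lit 393)) (XT.lf (nat_lit 0) (nat_lit 377364403) (nat_lit 532) (nat_lit 2299966257) (nat_lit 76) (nat_lit 3924241534) (nat_lit 392) (nat_lit 5) (nat_lit 399) (nat_lit 5) (nat_lit 393) (nat_lit 5) (nat_lit 412) (nat_lit 396) (nat_lit 392))) (XT.nd (nat_lit 78) (nat_lit 0) (nat_lit 0) (XT.lf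 (nat_lit 0) (nat_lit 1709772388) (nat_lit 532) (nat_lit 1710514879) (nat_lit 608) (nat_lit 3211143671) (nat_lit 385) (nat_lit 5) (nat_lit 392) (nat_lit 5) (nat_lit 393) (nat_lit 5) (nat_lit 413) (nat_lit 396) (nat_lit 391)) (XT.lf (nat_lit 0) (nat_lit 5811412009) (nat_lit 532) (nat_lit 662317866) (nat_lit 608) (nat_lit 190917516) (nat_lit 385) (nat_lit 5) (nat_lit 392) (nat_lit 5) (nat_lit 393) (nat_lit 5) (nat_lit 414) (nat_lit 396) (nat_lit 390))))) (XT.nd (nat_lit 312) (nat_lit 1900) (nat_lit 0) (XT.nd (nat_lit 156) (nat_lit 836) (nat_lit 0) (XT.nd (nat_lit 78) (nat_lit 684) (nat_lit 0) (XT.lf (nat_lit 0) (nat_lit 2797499151) (nat_lit 684) (nat_lit 3406896928) (nat_lit 76) (nat_lit 495622037) (nat_lit 376) (nat_lit 5) (nat_lit 385) (nat_lit 5) (nat_lit 377) (nat_lit 5) (nat_lit 415) (nat_lit 396) (nat_lit 389)) (XT.lf (nat_lit 0) (nat_lit 773799224) (nat_lit 684) (nat_lit 5021122411) (nat_lit 760) (nat_lit 943811510)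 (nat_lit 367) (nat_lit 5) (nat_lit 376) (nat_lit 5) (nat_lit 377) (nat_lit 5) (nat_lit 416) (nat_lit 396) (nat_lit 388))) (XT.nd (nat_lit 78) (nat_lit 760) (nat_lit 0) (XT.lf (nat_lit 0) (nat_lit 1999002946) (nat_lit 760) (nat_lit 1727546968) (nat_lit 76) (nat_lit 3053394752) (nat_lit 366) (nat_lit 5) (nat_lit 376) (nat_lit 5) (nat_lit 367) (nat_lit 5) (nat_lit 417) (nat_lit 396) (nat_lit 387)) (XT.lf (nat_lit 0) (nat_lit 2601526267) (nat_lit 760) (nat_lit 2339129961) (nat_lit 836) (nat_lit 1883602828) (nat_lit 356) (nat_lit 5) (nat_lit 366) (nat_lit 5) (nat_lit 367) (nat_lit 5) (nat_lit 418) (nat_lit 396) (nat_lit 386)))) (XT.nd (nat_lit 156) (nat_lit 988) (nat_lit 0) (XT.nd (nat_lit 78) (nat_lit 0) (nat_lit 0) (XT.lf (nat_lit 0) (nat_lit 140482018) (nat_lit 836) (nat_lit 863274430) (nat_lit 912) (nat_lit 5868122399) (nat_lit 344) (nat_lit 5) (nat_lit 355) (nat_lit 5) (nat_lit 356) (nat_lit 5) (nat_lit 419) (nat_lit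 396) (nat_lit 385)) (XT.lf (nat_lit 0) (nat_lit 3897017784) (nat_lit 912) (nat_lit 2304072248) (nat_lit 76) (nat_lit 720593339) (nat_lit 344) (nat_lit 5) (nat_lit 356) (nat_lit 5) (nat_lit 345) (nat_lit 5) (nat_lit 420) (nat_lit 396) (nat_lit 384))) (XT.nd (nat_lit 78) (nat_lit 76) (nat_lit 0) (XT.lf (nat_lit 0) (nat_lit 2212847583) (nat_lit 912) (nat_lit 4604496638) (nat_lit 988) (nat_lit 157458742) (nat_lit 332) (nat_lit 5) (nat_lit 344) (nat_lit 5) (nat_lit 345) (nat_lit 5) (nat_lit 421) (nat_lit 396) (nat_lit 383)) (XT.lf (nat_lit 0) (nat_lit 2676126088) (nat_lit 988) (nat_lit 222301602) (nat_lit 76) (nat_lit 4132261988) (nat_lit 331) (nat_lit 5) (nat_lit 344) (nat_lit 5) (nat_lit 332) (nat_lit 5) (nat_lit 422) (nat_lit 396) (nat_lit 382)))))) (XT.nd (nat_lit 546) (nat_lit 3496) (nat_lit 0) (XT.nd (nat_lit 234) (nat_lit 3268) (nat_lit 0) (XT.nd (nat_lit 78) (nat_lit 1140) (nat_lit 0) (XT.lf (nat_lit 0) (nat_lit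 4462474629) (nat_lit 988) (nat_lit 1085975336) (nat_lit 1064) (nat_lit 1541075866) (nat_lit 318) (nat_lit 5) (nat_lit 331) (nat_lit 5) (nat_lit 332) (nat_lit 5) (nat_lit 423) (nat_lit 396) (nat_lit 381)) (XT.nd (nat_lit 78) (nat_lit 0) (nat_lit 0) (XT.lf (nat_lit 0) (nat_lit 1275567668) (nat_lit 1140) (nat_lit 5067066574) (nat_lit 76) (nat_lit 808769697) (nat_lit 303) (nat_lit 5) (nat_lit 318) (nat_lit 5) (nat_lit 304) (nat_lit 5) (nat_lit 424) (nat_lit 396) (nat_lit 380)) (XT.lf (nat_lit 0) (nat_lit 4099999240) (nat_lit 1140) (nat_lit 329077750) (nat_lit 76) (nat_lit 2787000016) (nat_lit 303) (nat_lit 5) (nat_lit 318) (nat_lit 5) (nat_lit 304) (nat_lit 5) (nat_lit 425) (nat_lit 396) (nat_lit 379)))) (XT.nd (nat_lit 156) (nat_lit 836) (nat_lit 0) (XT.nd (nat_lit 78) (nat_lit 1292) (nat_lit 0) (XT.lf (nat_lit 0) (nat_lit 4563022116) (nat_lit 1140) (nat_lit 2409149714) (nat_lit 1216) (nat_lit 311651733) (nat_lit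 288) (nat_lit 5) (nat_lit 303) (nat_lit 5) (nat_lit 304) (nat_lit 5) (nat_lit 426) (nat_lit 396) (nat_lit 378)) (XT.lf (nat_lit 0) (nat_lit 2195231923) (nat_lit 1216) (nat_lit 275808298) (nat_lit 1292) (nat_lit 4883508825) (nat_lit 271) (nat_lit 5) (nat_lit 287) (nat_lit 5) (nat_lit 288) (nat_lit 5) (nat_lit 427) (nat_lit 396) (nat_lit 377))) (XT.nd (nat_lit 78) (nat_lit 836) (nat_lit 0) (XT.lf (nat_lit 0) (nat_lit 5298728670) (nat_lit 1292) (nat_lit 213433207) (nat_lit 76) (nat_lit 1916129999) (nat_lit 271) (nat_lit 5) (nat_lit 288) (nat_lit 5) (nat_lit 272) (nat_lit 5) (nat_lit 428) (nat_lit 396) (nat_lit 376)) (XT.lf (nat_lit 0) (nat_lit 666567725) (nat_lit 836) (nat_lit 2615186061) (nat_lit 76) (nat_lit 4223108736) (nat_lit 260) (nat_lit 5) (nat_lit 271) (nat_lit 5) (nat_lit 261) (nat_lit 5) (nat_lit 429) (nat_lit 396) (nat_lit 375))))) (XT.nd (nat_lit 312) (nat_lit 1672) (nat_lit 0) (XT.nd (nat_lit 156) (nat_lit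 608) (nat_lit 0) (XT.nd (nat_lit 78) (nat_lit 608) (nat_lit 0) (XT.lf (nat_lit 0) (nat_lit 2516591388) (nat_lit 608) (nat_lit 938126870) (nat_lit 684) (nat_lit 4129871064) (nat_lit 252) (nat_lit 5) (nat_lit 260) (nat_lit 5) (nat_lit 261) (nat_lit 5) (nat_lit 430) (nat_lit 396) (nat_lit 374)) (XT.lf (nat_lit 0) (nat_lit 98038892) (nat_lit 608) (nat_lit 6196266326) (nat_lit 684) (nat_lit 1373388092) (nat_lit 244) (nat_lit 5) (nat_lit 252) (nat_lit 5) (nat_lit 253) (nat_lit 5) (nat_lit 431) (nat_lit 396) (nat_lit 373))) (XT.nd (nat_lit 78) (nat_lit 532) (nat_lit 0) (XT.lf (nat_lit 0) (nat_lit 1424814144) (nat_lit 684) (nat_lit 2332834931) (nat_lit 76) (nat_lit 3995607854) (nat_lit 243) (nat_lit 5) (nat_lit 252) (nat_lit 5) (nat_lit 244) (nat_lit 5) (nat_lit 432) (nat_lit 396) (nat_lit 372)) (XT.lf (nat_lit 0) (nat_lit 3028787498) (nat_lit 532) (nat_lit 1208477688) (nat_lit 608) (nat_lit 3604994656) (nat_lit 236) (nat_lit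 5) (nat_lit 243) (nat_lit 5) (nat_lit 244) (nat_lit 5) (nat_lit 433) (nat_lit 396) (nat_lit 371)))) (XT.nd (nat_lit 156) (nat_lit 1064) (nat_lit 0) (XT.nd (nat_lit 78) (nat_lit 76) (nat_lit 0) (XT.lf (nat_lit 0) (nat_lit 584311570) (nat_lit 532) (nat_lit 6522864383) (nat_lit 608) (nat_lit 827581309) (nat_lit 229) (nat_lit 5) (nat_lit 236) (nat_lit 5) (nat_lit 237) (nat_lit 5) (nat_lit 434) (nat_lit 396) (nat_lit 370)) (XT.lf (nat_lit 0) (nat_lit 1985178147) (nat_lit 608) (nat_lit 1897570024) (nat_lit 76) (nat_lit 4146960209) (nat_lit 228) (nat_lit 5) (nat_lit 236) (nat_lit 5) (nat_lit 229) (nat_lit 5) (nat_lit 435) (nat_lit 396) (nat_lit 369))) (XT.nd (nat_lit 78) (nat_lit 532) (nat_lit 0) (XT.lf (nat_lit 0) (nat_lit 3705620883) (nat_lit 532) (nat_lit 1128351551) (nat_lit 608) (nat_lit 3294256776) (nat_lit 221) (nat_lit 5) (nat_lit 228) (nat_lit 5) (nat_lit 229) (nat_lit 5) (nat_lit 436) (nat_lit 396) (nat_lit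 368)) (XT.lf (nat_lit 0) (nat_lit 1215248550) (nat_lit 532) (nat_lit 6534228443) (nat_lit 608) (nat_lit 480806386) (nat_lit 214) (nat_lit 5) (nat_lit 221) (nat_lit 5) (nat_lit 222) (nat_lit 5) (nat_lit 437) (nat_lit 396) (nat_lit 367))))))) (XT.nd (nat_lit 1170) (nat_lit 3344) (nat_lit 0) (XT.nd (nat_lit 546) (nat_lit 1976) (nat_lit 0) (XT.nd (nat_lit 234) (nat_lit 1444) (nat_lit 0) (XT.nd (nat_lit 78) (nat_lit 912) (nat_lit 0) (XT.lf (nat_lit 0) (nat_lit 2360467089) (nat_lit 608) (nat_lit 1335084732) (nat_lit 76) (nat_lit 4639447027) (nat_lit 213) (nat_lit 5) (nat_lit 221) (nat_lit 5) (nat_lit 214) (nat_lit 5) (nat_lit 438) (nat_lit 396) (nat_lit 366)) (XT.nd (nat_lit 78) (nat_lit 456) (nat_lit 0) (XT.lf (nat_lit 0) (nat_lit 4521969037) (nat_lit 456) (nat_lit 735038429) (nat_lit 532) (nat_lit 3186328553) (nat_lit 207) (nat_lit 5) (nat_lit 213) (nat_lit 5) (nat_lit 214) (nat_lit 5) (nat_lit 439) (nat_lit 396) (nat_lit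 365)) (XT.lf (nat_lit 0) (nat_lit 1965777102) (nat_lit 456) (nat_lit 6266647522) (nat_lit 532) (nat_lit 322752688) (nat_lit 201) (nat_lit 5) (nat_lit 207) (nat_lit 5) (nat_lit 208) (nat_lit 5) (nat_lit 440) (nat_lit 396) (nat_lit 364)))) (XT.nd (nat_lit 156) (nat_lit 912) (nat_lit 0) (XT.nd (nat_lit 78) (nat_lit 456) (nat_lit 0) (XT.lf (nat_lit 0) (nat_lit 2560428494) (nat_lit 532) (nat_lit 670461741) (nat_lit 76) (nat_lit 5439190123) (nat_lit 200) (nat_lit 5) (nat_lit 207) (nat_lit 5) (nat_lit 201) (nat_lit 5) (nat_lit 441) (nat_lit 396) (nat_lit 363)) (XT.lf (nat_lit 0) (nat_lit 5453265941) (nat_lit 456) (nat_lit 62274453) (nat_lit 532) (nat_lit 3273048849) (nat_lit 194) (nat_lit 5) (nat_lit 200) (nat_lit 5) (nat_lit 201) (nat_lit 5) (nat_lit 442) (nat_lit 396) (nat_lit 362))) (XT.nd (nat_lit 78) (nat_lit 456) (nat_lit 0) (XT.lf (nat_lit 0) (nat_lit 2811118101) (nat_lit 456) (nat_lit 5753210005) (nat_lit 532)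 (nat_lit 346186542) (nat_lit 188) (nat_lit 5) (nat_lit 194) (nat_lit 5) (nat_lit 195) (nat_lit 5) (nat_lit 443) (nat_lit 396) (nat_lit 361)) (XT.lf (nat_lit 0) (nat_lit 72723571) (nat_lit 380) (nat_lit 2519817489) (nat_lit 456) (nat_lit 6443514533) (nat_lit 182) (nat_lit 5) (nat_lit 187) (nat_lit 5) (nat_lit 188) (nat_lit 5) (nat_lit 444) (nat_lit 396) (nat_lit 360))))) (XT.nd (nat_lit 312) (nat_lit 1140) (nat_lit 0) (XT.nd (nat_lit 156) (nat_lit 456) (nat_lit 0) (XT.nd (nat_lit 78) (nat_lit 380) (nat_lit 0) (XT.lf (nat_lit 0) (nat_lit 5624079441) (nat_lit 456) (nat_lit 2698458398) (nat_lit 76) (nat_lit 842384806) (nat_lit 182) (nat_lit 5) (nat_lit 188) (nat_lit 5) (nat_lit 183) (nat_lit 5) (nat_lit 445) (nat_lit 396) (nat_lit 359)) (XT.lf (nat_lit 0) (nat_lit 3726248417) (nat_lit 380) (nat_lit 5024397231) (nat_lit 456) (nat_lit 546898208) (nat_lit 177) (nat_lit 5) (nat_lit 182) (nat_lit 5) (nat_lit 183) (nat_lit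 5) (nat_lit 446) (nat_lit 396) (nat_lit 358))) (XT.nd (nat_lit 78) (nat_lit 0) (nat_lit 0) (XT.lf (nat_lit 0) (nat_lit 881976995) (nat_lit 380) (nat_lit 1585062494) (nat_lit 456) (nat_lit 6966992294) (nat_lit 171) (nat_lit 5) (nat_lit 176) (nat_lit 5) (nat_lit 177) (nat_lit 5) (nat_lit 447) (nat_lit 396) (nat_lit 357)) (XT.lf (nat_lit 0) (nat_lit 5580437448) (nat_lit 456) (nat_lit 2031655617) (nat_lit 76) (nat_lit 1961767509) (nat_lit 171) (nat_lit 5) (nat_lit 177) (nat_lit 5) (nat_lit 172) (nat_lit 5) (nat_lit 448) (nat_lit 396) (nat_lit 356)))) (XT.nd (nat_lit 156) (nat_lit 380) (nat_lit 0) (XT.nd (nat_lit 78) (nat_lit 380) (nat_lit 0) (XT.lf (nat_lit 0) (nat_lit 4685337559) (nat_lit 380) (nat_lit 4108653002) (nat_lit 456) (nat_lit 923700488) (nat_lit 166) (nat_lit 5) (nat_lit 171) (nat_lit 5) (nat_lit 172) (nat_lit 5) (nat_lit 449) (nat_lit 396) (nat_lit 355)) (XT.lf (nat_lit 0) (nat_lit 1716957385) (nat_lit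 304) (nat_lit 461053082) (nat_lit 380) (nat_lit 7687682312) (nat_lit 161) (nat_lit 5) (nat_lit 165) (nat_lit 5) (nat_lit 166) (nat_lit 5) (nat_lit 450) (nat_lit 396) (nat_lit 354))) (XT.nd (nat_lit 78) (nat_lit 380) (nat_lit 0) (XT.lf (nat_lit 0) (nat_lit 5384197967) (nat_lit 380) (nat_lit 1361781013) (nat_lit 76) (nat_lit 3270990111) (nat_lit 161) (nat_lit 5) (nat_lit 166) (nat_lit 5) (nat_lit 162) (nat_lit 5) (nat_lit 451) (nat_lit 396) (nat_lit 353)) (XT.lf (nat_lit 0) (nat_lit 5661147422) (nat_lit 380) (nat_lit 3032938726) (nat_lit 456) (nat_lit 1478480460) (nat_lit 156) (nat_lit 5) (nat_lit 161) (nat_lit 5) (nat_lit 162) (nat_lit 5) (nat_lit 452) (nat_lit 396) (nat_lit 352)))))) (XT.nd (nat_lit 624) (nat_lit 1368) (nat_lit 0) (XT.nd (nat_lit 312) (nat_lit 912) (nat_lit 0) (XT.nd (nat_lit 156) (nat_lit 684) (nat_lit 0) (XT.nd (nat_lit 78) (nat_lit 0) (nat_lit 0) (XT.lf (nat_lit 0) (nat_lit 1731041563) (nat_lit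 380) (nat_lit 7791651763) (nat_lit 76) (nat_lit 809781544) (nat_lit 151) (nat_lit 5) (nat_lit 156) (nat_lit 5) (nat_lit 152) (nat_lit 5) (nat_lit 453) (nat_lit 396) (nat_lit 351)) (XT.lf (nat_lit 0) (nat_lit 5032560393) (nat_lit 380) (nat_lit 718241388) (nat_lit 76) (nat_lit 4745184288) (nat_lit 151) (nat_lit 5) (nat_lit 156) (nat_lit 5) (nat_lit 152) (nat_lit 5) (nat_lit 454) (nat_lit 396) (nat_lit 350))) (XT.nd (nat_lit 78) (nat_lit 380) (nat_lit 0) (XT.lf (nat_lit 0) (nat_lit 6624383011) (nat_lit 304) (nat_lit 1823283960) (nat_lit 380) (nat_lit 2216306801) (nat_lit 147) (nat_lit 5) (nat_lit 151) (nat_lit 5) (nat_lit 152) (nat_lit 5) (nat_lit 455) (nat_lit 396) (nat_lit 349)) (XT.lf (nat_lit 0) (nat_lit 1118461574) (nat_lit 380) (nat_lit 7511497554) (nat_lit 76) (nat_lit 2206356077) (nat_lit 142) (nat_lit 5) (nat_lit 147) (nat_lit 5) (nat_lit 143) (nat_lit 5) (nat_lit 456) (nat_lit 396) (nat_lit 348)))) (XT.nd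 (nat_lit 156) (nat_lit 608) (nat_lit 0) (XT.nd (nat_lit 78) (nat_lit 304) (nat_lit 0) (XT.lf (nat_lit 0) (nat_lit 4519603111) (nat_lit 380) (nat_lit 133074845) (nat_lit 76) (nat_lit 6360171148) (nat_lit 142) (nat_lit 5) (nat_lit 147) (nat_lit 5) (nat_lit 143) (nat_lit 5) (nat_lit 457) (nat_lit 396) (nat_lit 347)) (XT.lf (nat_lit 0) (nat_lit 7542980723) (nat_lit 304) (nat_lit 505342364) (nat_lit 380) (nat_lit 3145596213) (nat_lit 138) (nat_lit 5) (nat_lit 142) (nat_lit 5) (nat_lit 143) (nat_lit 5) (nat_lit 458) (nat_lit 396) (nat_lit 346))) (XT.nd (nat_lit 78) (nat_lit 304) (nat_lit 0) (XT.lf (nat_lit 0) (nat_lit 326795284) (nat_lit 304) (nat_lit 7339774948) (nat_lit 76) (nat_lit 3712863919) (nat_lit 134) (nat_lit 5) (nat_lit 138) (nat_lit 5) (nat_lit 135) (nat_lit 5) (nat_lit 459) (nat_lit 396) (nat_lit 345)) (XT.lf (nat_lit 0) (nat_lit 365417715) (nat_lit 304) (nat_lit 3474180138) (nat_lit 380) (nat_lit 7730004425)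 (nat_lit 130) (nat_lit 5) (nat_lit 134) (nat_lit 5) (nat_lit 135) (nat_lit 5) (nat_lit 460) (nat_lit 396) (nat_lit 344))))) (XT.nd (nat_lit 312) (nat_lit 760) (nat_lit 0) (XT.nd (nat_lit 156) (nat_lit 380) (nat_lit 0) (XT.nd (nat_lit 78) (nat_lit 228) (nat_lit 0) (XT.lf (nat_lit 0) (nat_lit 7494886358) (nat_lit 380) (nat_lit 3391910748) (nat_lit 76) (nat_lit 877571153) (nat_lit 130) (nat_lit 5) (nat_lit 135) (nat_lit 5) (nat_lit 131) (nat_lit 5) (nat_lit 461) (nat_lit 396) (nat_lit 343)) (XT.lf (nat_lit 0) (nat_lit 4640956927) (nat_lit 228) (nat_lit 6653359744) (nat_lit 304) (nat_lit 669631750) (nat_lit 127) (nat_lit 5) (nat_lit 130) (nat_lit 5) (nat_lit 131) (nat_lit 5) (nat_lit 462) (nat_lit 396) (nat_lit 342))) (XT.nd (nat_lit 78) (nat_lit 0) (nat_lit 0) (XT.lf (nat_lit 0) (nat_lit 730421522) (nat_lit 304) (nat_lit 2245782688) (nat_lit 380) (nat_lit 9192522689) (nat_lit 122) (nat_lit 5) (nat_lit 126) (nat_lit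 5) (nat_lit 127) (nat_lit 5) (nat_lit 463) (nat_lit 396) (nat_lit 341)) (XT.lf (nat_lit 0) (nat_lit 6770728892) (nat_lit 380) (nat_lit 3301814778) (nat_lit 76) (nat_lit 2305328196) (nat_lit 122) (nat_lit 5) (nat_lit 127) (nat_lit 5) (nat_lit 123) (nat_lit 5) (nat_lit 464) (nat_lit 396) (nat_lit 340)))) (XT.nd (nat_lit 156) (nat_lit 228) (nat_lit 0) (XT.nd (nat_lit 78) (nat_lit 304) (nat_lit 0) (XT.lf (nat_lit 0) (nat_lit 5087339577) (nat_lit 228) (nat_lit 5620209214) (nat_lit 304) (nat_lit 1884893669) (nat_lit 119) (nat_lit 5) (nat_lit 122) (nat_lit 5) (nat_lit 123) (nat_lit 5) (nat_lit 465) (nat_lit 396) (nat_lit 339)) (XT.lf (nat_lit 0) (nat_lit 913515943) (nat_lit 228) (nat_lit 997419182) (nat_lit 304) (nat_lit 10901959428) (nat_lit 115) (nat_lit 5) (nat_lit 118) (nat_lit 5) (nat_lit 119) (nat_lit 5) (nat_lit 466) (nat_lit 396) (nat_lit 338))) (XT.nd (nat_lit 78) (nat_lit 228) (nat_lit 0) (XT.lf (nat_lit 0)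 (nat_lit 5853299394) (nat_lit 304) (nat_lit 3423727354) (nat_lit 76) (nat_lit 3760261869) (nat_lit 115) (nat_lit 5) (nat_lit 119) (nat_lit 5) (nat_lit 116) (nat_lit 5) (nat_lit 467) (nat_lit 396) (nat_lit 337)) (XT.lf (nat_lit 0) (nat_lit 5333415186) (nat_lit 228) (nat_lit 4600716797) (nat_lit 304) (nat_lit 3333681096) (nat_lit 112) (nat_lit 5) (nat_lit 115) (nat_lit 5) (nat_lit 116) (nat_lit 5) (nat_lit 468) (nat_lit 396) (nat_lit 336))))))))
noncomputable def xc88 : XT := (XT.nd (nat_lit 2340) (nat_lit 1976) (nat_lit 0) (XT.nd (nat_lit 1170) (nat_lit 1596) (nat_lit 0) (XT.nd (nat_lit 546) (nat_lit 1292) (nat_lit 0) (XT.nd (nat_lit 234) (nat_lit 456) (nat_lit 0) (XT.nd (nat_lit 78) (nat_lit 152) (nat_lit 0) (XT.lf (nat_lit 0) (nat_lit 624522017) (nat_lit 304) (nat_lit 12644798335) (nat_lit 76) (nat_lit 235613236) (nat_lit 108) (nat_lit 5) (nat_lit 112) (nat_lit 5) (nat_lit 109) (nat_lit 5) (nat_lit 469) (nat_lit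 396) (nat_lit 335)) (XT.nd (nat_lit 78) (nat_lit 152) (nat_lit 0) (XT.lf (nat_lit 0) (nat_lit 4720436159) (nat_lit 304) (nat_lit 3812401561) (nat_lit 76) (nat_lit 5212764846) (nat_lit 108) (nat_lit 5) (nat_lit 112) (nat_lit 5) (nat_lit 109) (nat_lit 5) (nat_lit 470) (nat_lit 396) (nat_lit 334)) (XT.lf (nat_lit 0) (nat_lit 5323371878) (nat_lit 152) (nat_lit 3627708740) (nat_lit 228) (nat_lit 5042059407) (nat_lit 106) (nat_lit 5) (nat_lit 108) (nat_lit 5) (nat_lit 109) (nat_lit 5) (nat_lit 471) (nat_lit 396) (nat_lit 333)))) (XT.nd (nat_lit 156) (nat_lit 152) (nat_lit 0) (XT.nd (nat_lit 78) (nat_lit 76) (nat_lit 0) (XT.lf (nat_lit 0) (nat_lit 494240701) (nat_lit 228) (nat_lit 12832680602) (nat_lit 304) (nat_lit 920637875) (nat_lit 103) (nat_lit 5) (nat_lit 106) (nat_lit 5) (nat_lit 107) (nat_lit 5) (nat_lit 472) (nat_lit 396) (nat_lit 332)) (XT.lf (nat_lit 0) (nat_lit 3344966503) (nat_lit 304) (nat_lit 4530716719)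 (nat_lit 76) (nat_lit 6630410296) (nat_lit 102) (nat_lit 5) (nat_lit 106) (nat_lit 5) (nat_lit 103) (nat_lit 5) (nat_lit 473) (nat_lit 396) (nat_lit 331))) (XT.nd (nat_lit 78) (nat_lit 0) (nat_lit 0) (XT.lf (nat_lit 0) (nat_lit 4992913842) (nat_lit 152) (nat_lit 2737329172) (nat_lit 228) (nat_lit 7041564730) (nat_lit 100) (nat_lit 5) (nat_lit 102) (nat_lit 5) (nat_lit 103) (nat_lit 5) (nat_lit 474) (nat_lit 396) (nat_lit 330)) (XT.lf (nat_lit 0) (nat_lit 12280298474) (nat_lit 228) (nat_lit 238215818) (nat_lit 76) (nat_lit 2525985931) (nat_lit 100) (nat_lit 5) (nat_lit 103) (nat_lit 5) (nat_lit 101) (nat_lit 5) (nat_lit 475) (nat_lit 396) (nat_lit 329))))) (XT.nd (nat_lit 312) (nat_lit 608) (nat_lit 0) (XT.nd (nat_lit 156) (nat_lit 228) (nat_lit 0) (XT.nd (nat_lit 78) (nat_lit 152) (nat_lit 0) (XT.lf (nat_lit 0) (nat_lit 1694057171) (nat_lit 304) (nat_lit 5651176435) (nat_lit 76) (nat_lit 7977131565) (nat_lit 96)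 (nat_lit 5) (nat_lit 100) (nat_lit 5) (nat_lit 97) (nat_lit 5) (nat_lit 476) (nat_lit 396) (nat_lit 328)) (XT.lf (nat_lit 0) (nat_lit 4267696929) (nat_lit 152) (nat_lit 1969919112) (nat_lit 228) (nat_lit 9369918832) (nat_lit 94) (nat_lit 5) (nat_lit 96) (nat_lit 5) (nat_lit 97) (nat_lit 5) (nat_lit 477) (nat_lit 396) (nat_lit 327))) (XT.nd (nat_lit 78) (nat_lit 228) (nat_lit 0) (XT.lf (nat_lit 0) (nat_lit 10973268723) (nat_lit 228) (nat_lit 1397088850) (nat_lit 76) (nat_lit 3529231543) (nat_lit 94) (nat_lit 5) (nat_lit 97) (nat_lit 5) (nat_lit 95) (nat_lit 5) (nat_lit 478) (nat_lit 396) (nat_lit 326)) (XT.lf (nat_lit 0) (nat_lit 8938005269) (nat_lit 228) (nat_lit 6983331099) (nat_lit 304) (nat_lit 276961232) (nat_lit 91) (nat_lit 5) (nat_lit 94) (nat_lit 5) (nat_lit 95) (nat_lit 5) (nat_lit 479) (nat_lit 396) (nat_lit 325)))) (XT.nd (nat_lit 156) (nat_lit 380) (nat_lit 0) (XT.nd (nat_lit 78) (nat_lit 0) (nat_lit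 0) (XT.lf (nat_lit 0) (nat_lit 3061529500) (nat_lit 152) (nat_lit 1371003439) (nat_lit 228) (nat_lit 12071875155) (nat_lit 88) (nat_lit 5) (nat_lit 90) (nat_lit 5) (nat_lit 91) (nat_lit 5) (nat_lit 480) (nat_lit 396) (nat_lit 324)) (XT.lf (nat_lit 0) (nat_lit 9359385571) (nat_lit 228) (nat_lit 3082666078) (nat_lit 76) (nat_lit 4375121501) (nat_lit 88) (nat_lit 5) (nat_lit 91) (nat_lit 5) (nat_lit 89) (nat_lit 5) (nat_lit 481) (nat_lit 396) (nat_lit 323))) (XT.nd (nat_lit 78) (nat_lit 228) (nat_lit 0) (XT.lf (nat_lit 0) (nat_lit 7664989174) (nat_lit 152) (nat_lit 6822533733) (nat_lit 228) (nat_lit 2650196519) (nat_lit 86) (nat_lit 5) (nat_lit 88) (nat_lit 5) (nat_lit 89) (nat_lit 5) (nat_lit 482) (nat_lit 396) (nat_lit 322)) (XT.lf (nat_lit 0) (nat_lit 1274298938) (nat_lit 152) (nat_lit 992407053) (nat_lit 228) (nat_lit 15200214950) (nat_lit 83) (nat_lit 5) (nat_lit 85) (nat_lit 5) (nat_lit 86) (nat_lit 5) (nat_lit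 483) (nat_lit 396) (nat_lit 321)))))) (XT.nd (nat_lit 546) (nat_lit 836) (nat_lit 0) (XT.nd (nat_lit 234) (nat_lit 608) (nat_lit 0) (XT.nd (nat_lit 78) (nat_lit 152) (nat_lit 0) (XT.lf (nat_lit 0) (nat_lit 7389116313) (nat_lit 228) (nat_lit 5400202860) (nat_lit 76) (nat_lit 5012556547) (nat_lit 83) (nat_lit 5) (nat_lit 86) (nat_lit 5) (nat_lit 84) (nat_lit 5) (nat_lit 484) (nat_lit 396) (nat_lit 320)) (XT.nd (nat_lit 78) (nat_lit 0) (nat_lit 0) (XT.lf (nat_lit 0) (nat_lit 5760687758) (nat_lit 152) (nat_lit 6937168142) (nat_lit 228) (nat_lit 5448045881) (nat_lit 81) (nat_lit 5) (nat_lit 83) (nat_lit 5) (nat_lit 84) (nat_lit 5) (nat_lit 485) (nat_lit 396) (nat_lit 319)) (XT.lf (nat_lit 0) (nat_lit 17309784428) (nat_lit 152) (nat_lit 878457495) (nat_lit 228) (nat_lit 311337452) (nat_lit 81) (nat_lit 5) (nat_lit 83) (nat_lit 5) (nat_lit 84) (nat_lit 5) (nat_lit 486) (nat_lit 396) (nat_lit 318)))) (XT.nd (nat_lit 156)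 (nat_lit 228) (nat_lit 0) (XT.nd (nat_lit 78) (nat_lit 152) (nat_lit 0) (XT.lf (nat_lit 0) (nat_lit 5003921430) (nat_lit 228) (nat_lit 8472056171) (nat_lit 76) (nat_lit 5382807373) (nat_lit 78) (nat_lit 5) (nat_lit 81) (nat_lit 5) (nat_lit 79) (nat_lit 5) (nat_lit 487) (nat_lit 396) (nat_lit 317)) (XT.lf (nat_lit 0) (nat_lit 3098671033) (nat_lit 152) (nat_lit 7392950942) (nat_lit 228) (nat_lit 8736477130) (nat_lit 76) (nat_lit 5) (nat_lit 78) (nat_lit 5) (nat_lit 79) (nat_lit 5) (nat_lit 488) (nat_lit 396) (nat_lit 316))) (XT.nd (nat_lit 78) (nat_lit 228) (nat_lit 0) (XT.lf (nat_lit 0) (nat_lit 15134314424) (nat_lit 152) (nat_lit 1064191033) (nat_lit 228) (nat_lit 3408352670) (nat_lit 76) (nat_lit 5) (nat_lit 78) (nat_lit 5) (nat_lit 79) (nat_lit 5) (nat_lit 489) (nat_lit 396) (nat_lit 315)) (XT.lf (nat_lit 0) (nat_lit 2134886126) (nat_lit 228) (nat_lit 12440562828) (nat_lit 76) (nat_lit 5418057617) (nat_lit 73)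 (nat_lit 5) (nat_lit 76) (nat_lit 5) (nat_lit 74) (nat_lit 5) (nat_lit 490) (nat_lit 396) (nat_lit 314))))) (XT.nd (nat_lit 312) (nat_lit 456) (nat_lit 0) (XT.nd (nat_lit 156) (nat_lit 228) (nat_lit 0) (XT.nd (nat_lit 78) (nat_lit 152) (nat_lit 0) (XT.lf (nat_lit 0) (nat_lit 7801798734) (nat_lit 228) (nat_lit 459236307) (nat_lit 76) (nat_lit 12128932462) (nat_lit 73) (nat_lit 5) (nat_lit 76) (nat_lit 5) (nat_lit 74) (nat_lit 5) (nat_lit 491) (nat_lit 396) (nat_lit 313)) (XT.lf (nat_lit 0) (nat_lit 12063549272) (nat_lit 152) (nat_lit 1661746737) (nat_lit 228) (nat_lit 7070430733) (nat_lit 71) (nat_lit 5) (nat_lit 73) (nat_lit 5) (nat_lit 74) (nat_lit 5) (nat_lit 492) (nat_lit 396) (nat_lit 312))) (XT.nd (nat_lit 78) (nat_lit 76) (nat_lit 0) (XT.lf (nat_lit 0) (nat_lit 3727738077) (nat_lit 152) (nat_lit 16159376300) (nat_lit 228) (nat_lit 1324727644) (nat_lit 69) (nat_lit 5) (nat_lit 71) (nat_lit 5) (nat_lit 72)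 (nat_lit 4) (nat_lit 493) (nat_lit 396) (nat_lit 311)) (XT.lf (nat_lit 0) (nat_lit 4580006578) (nat_lit 228) (nat_lit 5012386262) (nat_lit 76) (nat_lit 12044436159) (nat_lit 68) (nat_lit 5) (nat_lit 71) (nat_lit 5) (nat_lit 69) (nat_lit 5) (nat_lit 494) (nat_lit 396) (nat_lit 310)))) (XT.nd (nat_lit 156) (nat_lit 304) (nat_lit 0) (XT.nd (nat_lit 78) (nat_lit 0) (nat_lit 0) (XT.lf (nat_lit 0) (nat_lit 7922969630) (nat_lit 152) (nat_lit 2760087643) (nat_lit 228) (nat_lit 11389682424) (nat_lit 66) (nat_lit 5) (nat_lit 68) (nat_lit 5) (nat_lit 69) (nat_lit 5) (nat_lit 495) (nat_lit 396) (nat_lit 309)) (XT.lf (nat_lit 0) (nat_lit 17033176061) (nat_lit 228) (nat_lit 1264800058) (nat_lit 76) (nat_lit 4221833850) (nat_lit 66) (nat_lit 5) (nat_lit 69) (nat_lit 5) (nat_lit 67) (nat_lit 4) (nat_lit 496) (nat_lit 396) (nat_lit 308))) (XT.nd (nat_lit 78) (nat_lit 152) (nat_lit 0) (XT.lf (nat_lit 0) (nat_lit 699924815) (nat_lit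 152) (nat_lit 10817444738) (nat_lit 76) (nat_lit 11459213099) (nat_lit 64) (nat_lit 5) (nat_lit 66) (nat_lit 5) (nat_lit 65) (nat_lit 5) (nat_lit 497) (nat_lit 396) (nat_lit 307)) (XT.lf (nat_lit 0) (nat_lit 2508911587) (nat_lit 152) (nat_lit 4462524168) (nat_lit 228) (nat_lit 16473705547) (nat_lit 62) (nat_lit 5) (nat_lit 64) (nat_lit 5) (nat_lit 65) (nat_lit 5) (nat_lit 498) (nat_lit 396) (nat_lit 306))))))) (XT.nd (nat_lit 1170) (nat_lit 760) (nat_lit 0) (XT.nd (nat_lit 546) (nat_lit 608) (nat_lit 0) (XT.nd (nat_lit 234) (nat_lit 456) (nat_lit 0) (XT.nd (nat_lit 78) (nat_lit 152) (nat_lit 0) (XT.lf (nat_lit 0) (nat_lit 13541071430) (nat_lit 228) (nat_lit 7546446715) (nat_lit 76) (nat_lit 2836940562) (nat_lit 62) (nat_lit 5) (nat_lit 65) (nat_lit 5) (nat_lit 63) (nat_lit 4) (nat_lit 499) (nat_lit 396) (nat_lit 305)) (XT.nd (nat_lit 78) (nat_lit 76) (nat_lit 0) (XT.lf (nat_lit 0) (nat_lit 6274015103) (nat_lit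 76) (nat_lit 14111778468) (nat_lit 152) (nat_lit 4030023481) (nat_lit 61) (nat_lit 5) (nat_lit 62) (nat_lit 5) (nat_lit 63) (nat_lit 4) (nat_lit 500) (nat_lit 396) (nat_lit 304)) (XT.lf (nat_lit 0) (nat_lit 2515390547) (nat_lit 152) (nat_lit 4330069213) (nat_lit 76) (nat_lit 18074217520) (nat_lit 60) (nat_lit 5) (nat_lit 62) (nat_lit 5) (nat_lit 61) (nat_lit 5) (nat_lit 501) (nat_lit 396) (nat_lit 303)))) (XT.nd (nat_lit 156) (nat_lit 304) (nat_lit 0) (XT.nd (nat_lit 78) (nat_lit 0) (nat_lit 0) (XT.lf (nat_lit 0) (nat_lit 9253918703) (nat_lit 228) (nat_lit 15439169121) (nat_lit 76) (nat_lit 742037145) (nat_lit 58) (nat_lit 5) (nat_lit 61) (nat_lit 5) (nat_lit 59) (nat_lit 4) (nat_lit 502) (nat_lit 396) (nat_lit 302)) (XT.lf (nat_lit 0) (nat_lit 16280935560) (nat_lit 228) (nat_lit 1240360925) (nat_lit 76) (nat_lit 8442150806) (nat_lit 58) (nat_lit 5) (nat_lit 61) (nat_lit 5) (nat_lit 59) (nat_lit 4) (nat_lit 503)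 (nat_lit 396) (nat_lit 301))) (XT.nd (nat_lit 78) (nat_lit 228) (nat_lit 0) (XT.lf (nat_lit 0) (nat_lit 13603306977) (nat_lit 76) (nat_lit 10021362843) (nat_lit 152) (nat_lit 2879773411) (nat_lit 57) (nat_lit 5) (nat_lit 58) (nat_lit 5) (nat_lit 59) (nat_lit 4) (nat_lit 504) (nat_lit 396) (nat_lit 300)) (XT.lf (nat_lit 0) (nat_lit 1805256452) (nat_lit 152) (nat_lit 2246439529) (nat_lit 228) (nat_lit 23008628530) (nat_lit 54) (nat_lit 5) (nat_lit 56) (nat_lit 5) (nat_lit 57) (nat_lit 5) (nat_lit 505) (nat_lit 396) (nat_lit 299))))) (XT.nd (nat_lit 312) (nat_lit 304) (nat_lit 0) (XT.nd (nat_lit 156) (nat_lit 228) (nat_lit 0) (XT.nd (nat_lit 78) (nat_lit 76) (nat_lit 0) (XT.lf (nat_lit 0) (nat_lit 11295432052) (nat_lit 228) (nat_lit 10543525710) (nat_lit 76) (nat_lit 5788204050) (nat_lit 54) (nat_lit 5) (nat_lit 57) (nat_lit 5) (nat_lit 55) (nat_lit 4) (nat_lit 506) (nat_lit 396) (nat_lit 298)) (XT.lf (nat_lit 0)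 (nat_lit 4632205548) (nat_lit 76) (nat_lit 14167016905) (nat_lit 152) (nat_lit 9410500539) (nat_lit 53) (nat_lit 5) (nat_lit 54) (nat_lit 5) (nat_lit 55) (nat_lit 4) (nat_lit 507) (nat_lit 396) (nat_lit 297))) (XT.nd (nat_lit 78) (nat_lit 228) (nat_lit 0) (XT.lf (nat_lit 0) (nat_lit 20434478465) (nat_lit 76) (nat_lit 6176358297) (nat_lit 152) (nat_lit 2196443934) (nat_lit 53) (nat_lit 5) (nat_lit 54) (nat_lit 5) (nat_lit 55) (nat_lit 4) (nat_lit 508) (nat_lit 396) (nat_lit 296)) (XT.lf (nat_lit 0) (nat_lit 5199871834) (nat_lit 228) (nat_lit 22103690753) (nat_lit 76) (nat_lit 2115654932) (nat_lit 50) (nat_lit 5) (nat_lit 53) (nat_lit 5) (nat_lit 51) (nat_lit 4) (nat_lit 509) (nat_lit 396) (nat_lit 295)))) (XT.nd (nat_lit 156) (nat_lit 228) (nat_lit 0) (XT.nd (nat_lit 78) (nat_lit 76) (nat_lit 0) (XT.lf (nat_lit 0) (nat_lit 12897234692) (nat_lit 228) (nat_lit 6528655265) (nat_lit 76) (nat_lit 10619271872) (nat_lit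 50) (nat_lit 5) (nat_lit 53) (nat_lit 5) (nat_lit 51) (nat_lit 4) (nat_lit 510) (nat_lit 396) (nat_lit 294)) (XT.lf (nat_lit 0) (nat_lit 9659320381) (nat_lit 76) (nat_lit 11236491971) (nat_lit 152) (nat_lit 9791964184) (nat_lit 49) (nat_lit 5) (nat_lit 50) (nat_lit 5) (nat_lit 51) (nat_lit 4) (nat_lit 511) (nat_lit 396) (nat_lit 293))) (XT.nd (nat_lit 78) (nat_lit 228) (nat_lit 0) (XT.lf (nat_lit 0) (nat_lit 26424386891) (nat_lit 76) (nat_lit 2753579322) (nat_lit 152) (nat_lit 2170395764) (nat_lit 49) (nat_lit 5) (nat_lit 50) (nat_lit 5) (nat_lit 51) (nat_lit 4) (nat_lit 512) (nat_lit 396) (nat_lit 292)) (XT.lf (nat_lit 0) (nat_lit 5719513302) (nat_lit 228) (nat_lit 20285699512) (nat_lit 76) (nat_lit 6017399221) (nat_lit 46) (nat_lit 5) (nat_lit 49) (nat_lit 5) (nat_lit 47) (nat_lit 4) (nat_lit 513) (nat_lit 396) (nat_lit 291)))))) (XT.nd (nat_lit 546) (nat_lit 456) (nat_lit 0) (XT.nd (nat_lit 234) (nat_lit 228)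 (nat_lit 0) (XT.nd (nat_lit 78) (nat_lit 76) (nat_lit 0) (XT.lf (nat_lit 0) (nat_lit 13858154988) (nat_lit 228) (nat_lit 3807914482) (nat_lit 76) (nat_lit 15048706494) (nat_lit 46) (nat_lit 5) (nat_lit 49) (nat_lit 5) (nat_lit 47) (nat_lit 4) (nat_lit 514) (nat_lit 396) (nat_lit 290)) (XT.nd (nat_lit 78) (nat_lit 0) (nat_lit 0) (XT.lf (nat_lit 0) (nat_lit 13384970306) (nat_lit 76) (nat_lit 8963465863) (nat_lit 152) (nat_lit 11076044996) (nat_lit 45) (nat_lit 5) (nat_lit 46) (nat_lit 5) (nat_lit 47) (nat_lit 4) (nat_lit 515) (nat_lit 396) (nat_lit 289)) (XT.lf (nat_lit 0) (nat_lit 31111125677) (nat_lit 152) (nat_lit 3023479008) (nat_lit 0) (nat_lit 20342583) (nat_lit 45) (nat_lit 5) (nat_lit 47) (nat_lit 4) (nat_lit 45) (nat_lit 4) (nat_lit 516) (nat_lit 396) (nat_lit 288)))) (XT.nd (nat_lit 156) (nat_lit 76) (nat_lit 0) (XT.nd (nat_lit 78) (nat_lit 0) (nat_lit 0) (XT.lf (nat_lit 0) (nat_lit 5338553582) (nat_lit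 152) (nat_lit 20292308525) (nat_lit 76) (nat_lit 9268621042) (nat_lit 43) (nat_lit 5) (nat_lit 45) (nat_lit 5) (nat_lit 44) (nat_lit 4) (nat_lit 517) (nat_lit 396) (nat_lit 287)) (XT.lf (nat_lit 0) (nat_lit 13921557947) (nat_lit 152) (nat_lit 2906469087) (nat_lit 76) (nat_lit 18837114574) (nat_lit 43) (nat_lit 5) (nat_lit 45) (nat_lit 5) (nat_lit 44) (nat_lit 4) (nat_lit 518) (nat_lit 396) (nat_lit 286))) (XT.nd (nat_lit 78) (nat_lit 0) (nat_lit 0) (XT.lf (nat_lit 0) (nat_lit 15260562222) (nat_lit 76) (nat_lit 7628283338) (nat_lit 152) (nat_lit 13561121124) (nat_lit 42) (nat_lit 5) (nat_lit 43) (nat_lit 5) (nat_lit 44) (nat_lit 4) (nat_lit 519) (nat_lit 396) (nat_lit 285)) (XT.lf (nat_lit 0) (nat_lit 32152692320) (nat_lit 152) (nat_lit 3281535892) (nat_lit 0) (nat_lit 1823282725) (nat_lit 42) (nat_lit 5) (nat_lit 44) (nat_lit 4) (nat_lit 42) (nat_lit 4) (nat_lit 520) (nat_lit 396) (nat_lit 284))))) (XT.nd (nat_lit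 312) (nat_lit 228) (nat_lit 0) (XT.nd (nat_lit 156) (nat_lit 76) (nat_lit 0) (XT.nd (nat_lit 78) (nat_lit 0) (nat_lit 0) (XT.lf (nat_lit 0) (nat_lit 3740645958) (nat_lit 152) (nat_lit 22769358207) (nat_lit 76) (nat_lit 11572063614) (nat_lit 40) (nat_lit 5) (nat_lit 42) (nat_lit 5) (nat_lit 41) (nat_lit 4) (nat_lit 521) (nat_lit 396) (nat_lit 283)) (XT.lf (nat_lit 0) (nat_lit 12763076679) (nat_lit 152) (nat_lit 4486309191) (nat_lit 76) (nat_lit 21680033638) (nat_lit 40) (nat_lit 5) (nat_lit 42) (nat_lit 5) (nat_lit 41) (nat_lit 4) (nat_lit 522) (nat_lit 396) (nat_lit 282))) (XT.nd (nat_lit 78) (nat_lit 0) (nat_lit 0) (XT.lf (nat_lit 0) (nat_lit 14593971663) (nat_lit 76) (nat_lit 7583794685) (nat_lit 152) (nat_lit 17620778429) (nat_lit 39) (nat_lit 5) (nat_lit 40) (nat_lit 5) (nat_lit 41) (nat_lit 4) (nat_lit 523) (nat_lit 396) (nat_lit 281)) (XT.lf (nat_lit 0) (nat_lit 31924783258) (nat_lit 152) (nat_lit 6413083748)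 (nat_lit 0) (nat_lit 2354380752) (nat_lit 39) (nat_lit 5) (nat_lit 41) (nat_lit 4) (nat_lit 39) (nat_lit 4) (nat_lit 524) (nat_lit 396) (nat_lit 280)))) (XT.nd (nat_lit 156) (nat_lit 76) (nat_lit 0) (XT.nd (nat_lit 78) (nat_lit 0) (nat_lit 0) (XT.lf (nat_lit 0) (nat_lit 529171095) (nat_lit 152) (nat_lit 28525047992) (nat_lit 76) (nat_lit 12552904502) (nat_lit 37) (nat_lit 5) (nat_lit 39) (nat_lit 5) (nat_lit 38) (nat_lit 4) (nat_lit 525) (nat_lit 396) (nat_lit 279)) (XT.lf (nat_lit 0) (nat_lit 9975785378) (nat_lit 152) (nat_lit 9376443146) (nat_lit 76) (nat_lit 23193194571) (nat_lit 37) (nat_lit 5) (nat_lit 39) (nat_lit 5) (nat_lit 38) (nat_lit 4) (nat_lit 526) (nat_lit 396) (nat_lit 278))) (XT.nd (nat_lit 78) (nat_lit 0) (nat_lit 0) (XT.lf (nat_lit 0) (nat_lit 10517837310) (nat_lit 76) (nat_lit 9271488178) (nat_lit 152) (nat_lit 23720040765) (nat_lit 36) (nat_lit 5) (nat_lit 37) (nat_lit 5) (nat_lit 38) (nat_lit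 4) (nat_lit 527) (nat_lit 396) (nat_lit 277)) (XT.lf (nat_lit 0) (nat_lit 29986033951) (nat_lit 152) (nat_lit 13343911970) (nat_lit 0) (nat_lit 1169619396) (nat_lit 36) (nat_lit 5) (nat_lit 38) (nat_lit 4) (nat_lit 36) (nat_lit 4) (nat_lit 528) (nat_lit 396) (nat_lit 276))))))))
noncomputable def xc89 : XT := (XT.nd (nat_lit 53352) (nat_lit 0) (nat_lit 13148) (XT.nd (nat_lit 1170) (nat_lit 456) (nat_lit 0) (XT.nd (nat_lit 546) (nat_lit 304) (nat_lit 0) (XT.nd (nat_lit 234) (nat_lit 152) (nat_lit 0) (XT.nd (nat_lit 78) (nat_lit 152) (nat_lit 0) (XT.lf (nat_lit 0) (nat_lit 6902975120) (nat_lit 76) (nat_lit 33726787005) (nat_lit 76) (nat_lit 4885475135) (nat_lit 35) (nat_lit 4) (nat_lit 36) (nat_lit 5) (nat_lit 36) (nat_lit 4) (nat_lit 529) (nat_lit 396) (nat_lit 275)) (XT.nd (nat_lit 78) (nat_lit 76) (nat_lit 0) (XT.lf (nat_lit 0) (nat_lit 5052303135) (nat_lit 152) (nat_lit 18609308655) (nat_lit 76) (nat_lit 22894745208)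 (nat_lit 34) (nat_lit 5) (nat_lit 36) (nat_lit 5) (nat_lit 35) (nat_lit 4) (nat_lit 530) (nat_lit 396) (nat_lit 274)) (XT.lf (nat_lit 0) (nat_lit 1951324815) (nat_lit 76) (nat_lit 13240929835) (nat_lit 152) (nat_lit 32434937976) (nat_lit 33) (nat_lit 5) (nat_lit 34) (nat_lit 5) (nat_lit 35) (nat_lit 4) (nat_lit 531) (nat_lit 396) (nat_lit 273)))) (XT.nd (nat_lit 156) (nat_lit 152) (nat_lit 0) (XT.nd (nat_lit 78) (nat_lit 0) (nat_lit 0) (XT.lf (nat_lit 0) (nat_lit 23478449771) (nat_lit 76) (nat_lit 2329523858) (nat_lit 152) (nat_lit 22917033038) (nat_lit 33) (nat_lit 5) (nat_lit 34) (nat_lit 5) (nat_lit 35) (nat_lit 4) (nat_lit 532) (nat_lit 396) (nat_lit 272)) (XT.lf (nat_lit 0) (nat_lit 36811788449) (nat_lit 152) (nat_lit 4321213820) (nat_lit 0) (nat_lit 8720664529) (nat_lit 33) (nat_lit 5) (nat_lit 35) (nat_lit 4) (nat_lit 33) (nat_lit 4) (nat_lit 533) (nat_lit 396) (nat_lit 271))) (XT.nd (nat_lit 78) (nat_lit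 76) (nat_lit 0) (XT.lf (nat_lit 0) (nat_lit 17520414005) (nat_lit 76) (nat_lit 30801235101) (nat_lit 76) (nat_lit 2689260072) (nat_lit 32) (nat_lit 4) (nat_lit 33) (nat_lit 5) (nat_lit 33) (nat_lit 4) (nat_lit 534) (nat_lit 396) (nat_lit 270)) (XT.lf (nat_lit 0) (nat_lit 7846866046) (nat_lit 152) (nat_lit 12203080748) (nat_lit 76) (nat_lit 32149767002) (nat_lit 31) (nat_lit 5) (nat_lit 33) (nat_lit 5) (nat_lit 32) (nat_lit 4) (nat_lit 535) (nat_lit 396) (nat_lit 269))))) (XT.nd (nat_lit 312) (nat_lit 152) (nat_lit 0) (XT.nd (nat_lit 156) (nat_lit 76) (nat_lit 0) (XT.nd (nat_lit 78) (nat_lit 0) (nat_lit 0) (XT.lf (nat_lit 0) (nat_lit 9859292994) (nat_lit 76) (nat_lit 8865419315) (nat_lit 152) (nat_lit 34696281176) (nat_lit 30) (nat_lit 5) (nat_lit 31) (nat_lit 5) (nat_lit 32) (nat_lit 4) (nat_lit 536) (nat_lit 396) (nat_lit 268)) (XT.lf (nat_lit 0) (nat_lit 30063796226) (nat_lit 152) (nat_lit 21897713855) (nat_lit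 0) (nat_lit 2713354758) (nat_lit 30) (nat_lit 5) (nat_lit 32) (nat_lit 4) (nat_lit 30) (nat_lit 4) (nat_lit 537) (nat_lit 396) (nat_lit 267))) (XT.nd (nat_lit 78) (nat_lit 0) (nat_lit 0) (XT.lf (nat_lit 0) (nat_lit 305790683) (nat_lit 76) (nat_lit 41513353527) (nat_lit 76) (nat_lit 14144925709) (nat_lit 29) (nat_lit 4) (nat_lit 30) (nat_lit 5) (nat_lit 30) (nat_lit 4) (nat_lit 538) (nat_lit 396) (nat_lit 266)) (XT.lf (nat_lit 0) (nat_lit 23595969997) (nat_lit 76) (nat_lit 30537836085) (nat_lit 76) (nat_lit 3151945792) (nat_lit 29) (nat_lit 4) (nat_lit 30) (nat_lit 5) (nat_lit 30) (nat_lit 4) (nat_lit 539) (nat_lit 396) (nat_lit 265)))) (XT.nd (nat_lit 156) (nat_lit 0) (nat_lit 0) (XT.nd (nat_lit 78) (nat_lit 76) (nat_lit 0) (XT.lf (nat_lit 0) (nat_lit 7997192862) (nat_lit 152) (nat_lit 11168542641) (nat_lit 76) (nat_lit 39479418454) (nat_lit 28) (nat_lit 5) (nat_lit 30) (nat_lit 5) (nat_lit 29) (nat_lit 4) (nat_lit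 540) (nat_lit 396) (nat_lit 264)) (XT.lf (nat_lit 0) (nat_lit 12208394893) (nat_lit 76) (nat_lit 7312639147) (nat_lit 152) (nat_lit 40520260756) (nat_lit 27) (nat_lit 5) (nat_lit 28) (nat_lit 5) (nat_lit 29) (nat_lit 4) (nat_lit 541) (nat_lit 396) (nat_lit 263))) (XT.nd (nat_lit 78) (nat_lit 0) (nat_lit 0) (XT.lf (nat_lit 0) (nat_lit 31537795088) (nat_lit 152) (nat_lit 25035512719) (nat_lit 0) (nat_lit 4901596205) (nat_lit 27) (nat_lit 5) (nat_lit 29) (nat_lit 4) (nat_lit 27) (nat_lit 4) (nat_lit 542) (nat_lit 396) (nat_lit 262)) (XT.lf (nat_lit 0) (nat_lit 43974105784) (nat_lit 152) (nat_lit 1652800976) (nat_lit 0) (nat_lit 17322843617) (nat_lit 27) (nat_lit 5) (nat_lit 29) (nat_lit 4) (nat_lit 27) (nat_lit 4) (nat_lit 543) (nat_lit 396) (nat_lit 261)))))) (XT.nd (nat_lit 546) (nat_lit 152) (nat_lit 0) (XT.nd (nat_lit 234) (nat_lit 76) (nat_lit 0) (XT.nd (nat_lit 78) (nat_lit 152) (nat_lit 0) (XT.lf (nat_lit 0)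 (nat_lit 22851882926) (nat_lit 76) (nat_lit 34138322601) (nat_lit 76) (nat_lit 7472435885) (nat_lit 26) (nat_lit 4) (nat_lit 27) (nat_lit 5) (nat_lit 27) (nat_lit 4) (nat_lit 544) (nat_lit 396) (nat_lit 260)) (XT.nd (nat_lit 78) (nat_lit 76) (nat_lit 0) (XT.lf (nat_lit 0) (nat_lit 4294377160) (nat_lit 152) (nat_lit 17962499669) (nat_lit 76) (nat_lit 43762663789) (nat_lit 25) (nat_lit 5) (nat_lit 27) (nat_lit 5) (nat_lit 26) (nat_lit 4) (nat_lit 545) (nat_lit 396) (nat_lit 259)) (XT.lf (nat_lit 0) (nat_lit 6421835980) (nat_lit 76) (nat_lit 9891319845) (nat_lit 152) (nat_lit 51306297194) (nat_lit 24) (nat_lit 5) (nat_lit 25) (nat_lit 5) (nat_lit 26) (nat_lit 4) (nat_lit 546) (nat_lit 396) (nat_lit 258)))) (XT.nd (nat_lit 156) (nat_lit 76) (nat_lit 0) (XT.nd (nat_lit 78) (nat_lit 0) (nat_lit 0) (XT.lf (nat_lit 0) (nat_lit 28890464694) (nat_lit 152) (nat_lit 37409867337) (nat_lit 0) (nat_lit 2961091996) (nat_lit 24)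 (nat_lit 5) (nat_lit 26) (nat_lit 4) (nat_lit 24) (nat_lit 4) (nat_lit 547) (nat_lit 396) (nat_lit 257)) (XT.lf (nat_lit 0) (nat_lit 41930827736) (nat_lit 152) (nat_lit 13030414843) (nat_lit 0) (nat_lit 15988839774) (nat_lit 24) (nat_lit 5) (nat_lit 26) (nat_lit 4) (nat_lit 24) (nat_lit 4) (nat_lit 548) (nat_lit 396) (nat_lit 256))) (XT.nd (nat_lit 78) (nat_lit 0) (nat_lit 0) (XT.lf (nat_lit 0) (nat_lit 12297084707) (nat_lit 76) (nat_lit 43171680418) (nat_lit 76) (nat_lit 17217444627) (nat_lit 23) (nat_lit 4) (nat_lit 24) (nat_lit 5) (nat_lit 24) (nat_lit 4) (nat_lit 549) (nat_lit 396) (nat_lit 255)) (XT.lf (nat_lit 0) (nat_lit 38628451442) (nat_lit 76) (nat_lit 30904250401) (nat_lit 76) (nat_lit 4938123514) (nat_lit 23) (nat_lit 4) (nat_lit 24) (nat_lit 5) (nat_lit 24) (nat_lit 4) (nat_lit 550) (nat_lit 396) (nat_lit 254))))) (XT.nd (nat_lit 51324) (nat_lit 0) (nat_lit 28272) (XT.nd (nat_lit 51168) (nat_lit 0)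 (nat_lit 29488) (XT.nd (nat_lit 78) (nat_lit 76) (nat_lit 0) (XT.lf (nat_lit 0) (nat_lit 7547643676) (nat_lit 152) (nat_lit 10655954976) (nat_lit 76) (nat_lit 58103502468) (nat_lit 22) (nat_lit 5) (nat_lit 24) (nat_lit 5) (nat_lit 23) (nat_lit 4) (nat_lit 551) (nat_lit 396) (nat_lit 253)) (XT.lf (nat_lit 0) (nat_lit 15518009930) (nat_lit 76) (nat_lit 4928733945) (nat_lit 152) (nat_lit 57746114372) (nat_lit 21) (nat_lit 5) (nat_lit 22) (nat_lit 5) (nat_lit 23) (nat_lit 4) (nat_lit 552) (nat_lit 396) (nat_lit 252))) (XT.nd (nat_lit 78) (nat_lit 76) (nat_lit 0) (XT.lf (nat_lit 0) (nat_lit 481189027) (nat_lit 228) (nat_lit 1379480187) (nat_lit 228) (nat_lit 1379480187) (nat_lit 410) (nat_lit 4) (nat_lit 413) (nat_lit 5) (nat_lit 413) (nat_lit 4) (nat_lit 406) (nat_lit 397) (nat_lit 397)) (XT.lf (nat_lit 0) (nat_lit 423332027) (nat_lit 304) (nat_lit 1877613510) (nat_lit 76) (nat_lit 4193707619) (nat_lit 409) (nat_lit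 5) (nat_lit 413) (nat_lit 5) (nat_lit 410) (nat_lit 4) (nat_lit 407) (nat_lit 397) (nat_lit 396)))) (XT.nd (nat_lit 156) (nat_lit 836) (nat_lit 0) (XT.nd (nat_lit 78) (nat_lit 76) (nat_lit 0) (XT.lf (nat_lit 0) (nat_lit 1807368556) (nat_lit 304) (nat_lit 1740220517) (nat_lit 380) (nat_lit 2964018980) (nat_lit 405) (nat_lit 5) (nat_lit 409) (nat_lit 5) (nat_lit 410) (nat_lit 4) (nat_lit 408) (nat_lit 397) (nat_lit 395)) (XT.lf (nat_lit 0) (nat_lit 137119903) (nat_lit 380) (nat_lit 963662410) (nat_lit 76) (nat_lit 5431109206) (nat_lit 404) (nat_lit 5) (nat_lit 409) (nat_lit 5) (nat_lit 405) (nat_lit 5) (nat_lit 409) (nat_lit 397) (nat_lit 394))) (XT.nd (nat_lit 78) (nat_lit 456) (nat_lit 0) (XT.lf (nat_lit 0) (nat_lit 2843339141) (nat_lit 380) (nat_lit 345114541) (nat_lit 456) (nat_lit 3365991158) (nat_lit 399) (nat_lit 5) (nat_lit 404) (nat_lit 5) (nat_lit 405) (nat_lit 5) (nat_lit 410) (nat_lit 397) (nat_lit 393))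 (XT.lf (nat_lit 0) (nat_lit 130341577) (nat_lit 456) (nat_lit 6108524054) (nat_lit 532) (nat_lit 341625502) (nat_lit 393) (nat_lit 5) (nat_lit 399) (nat_lit 5) (nat_lit 400) (nat_lit 4) (nat_lit 411) (nat_lit 397) (nat_lit 392))))))) (XT.nd (nat_lit 1170) (nat_lit 7068) (nat_lit 0) (XT.nd (nat_lit 546) (nat_lit 5244) (nat_lit 0) (XT.nd (nat_lit 234) (nat_lit 2128) (nat_lit 0) (XT.nd (nat_lit 78) (nat_lit 608) (nat_lit 0) (XT.lf (nat_lit 0) (nat_lit 2654248636) (nat_lit 532) (nat_lit 2549822723) (nat_lit 76) (nat_lit 1404440784) (nat_lit 392) (nat_lit 5) (nat_lit 399) (nat_lit 5) (nat_lit 393) (nat_lit 5) (nat_lit 412) (nat_lit 397) (nat_lit 391)) (XT.nd (nat_lit 78) (nat_lit 76) (nat_lit 0) (XT.lf (nat_lit 0) (nat_lit 1417732334) (nat_lit 532) (nat_lit 4225761468) (nat_lit 608) (nat_lit 996506582) (nat_lit 385) (nat_lit 5) (nat_lit 392) (nat_lit 5) (nat_lit 393) (nat_lit 5) (nat_lit 413) (nat_lit 397) (nat_lit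 390)) (XT.lf (nat_lit 0) (nat_lit 1933982791) (nat_lit 608) (nat_lit 1210443326) (nat_lit 76) (nat_lit 3529732589) (nat_lit 384) (nat_lit 5) (nat_lit 392) (nat_lit 5) (nat_lit 385) (nat_lit 5) (nat_lit 414) (nat_lit 397) (nat_lit 389)))) (XT.nd (nat_lit 156) (nat_lit 760) (nat_lit 0) (XT.nd (nat_lit 78) (nat_lit 760) (nat_lit 0) (XT.lf (nat_lit 0) (nat_lit 2895156130) (nat_lit 608) (nat_lit 1966001980) (nat_lit 684) (nat_lit 1850059281) (nat_lit 376) (nat_lit 5) (nat_lit 384) (nat_lit 5) (nat_lit 385) (nat_lit 5) (nat_lit 415) (nat_lit 397) (nat_lit 388)) (XT.lf (nat_lit 0) (nat_lit 320546740) (nat_lit 684) (nat_lit 701817225) (nat_lit 760) (nat_lit 5729204793) (nat_lit 366) (nat_lit 5) (nat_lit 375) (nat_lit 5) (nat_lit 376) (nat_lit 5) (nat_lit 416) (nat_lit 397) (nat_lit 387))) (XT.nd (nat_lit 78) (nat_lit 760) (nat_lit 0) (XT.lf (nat_lit 0) (nat_lit 3892978810) (nat_lit 760) (nat_lit 2233821265) (nat_lit 76)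 (nat_lit 667337555) (nat_lit 366) (nat_lit 5) (nat_lit 376) (nat_lit 5) (nat_lit 367) (nat_lit 5) (nat_lit 417) (nat_lit 397) (nat_lit 386)) (XT.lf (nat_lit 0) (nat_lit 2047687294) (nat_lit 760) (nat_lit 4735954790) (nat_lit 836) (nat_lit 56355221) (nat_lit 356) (nat_lit 5) (nat_lit 366) (nat_lit 5) (nat_lit 367) (nat_lit 5) (nat_lit 418) (nat_lit 397) (nat_lit 385))))) (XT.nd (nat_lit 312) (nat_lit 3344) (nat_lit 0) (XT.nd (nat_lit 156) (nat_lit 988) (nat_lit 0) (XT.nd (nat_lit 78) (nat_lit 836) (nat_lit 0) (XT.lf (nat_lit 0) (nat_lit 2748854248) (nat_lit 836) (nat_lit 486711180) (nat_lit 76) (nat_lit 3652934226) (nat_lit 355) (nat_lit 5) (nat_lit 366) (nat_lit 5) (nat_lit 356) (nat_lit 5) (nat_lit 419) (nat_lit 397) (nat_lit 384)) (XT.lf (nat_lit 0) (nat_lit 3951063735) (nat_lit 836) (nat_lit 1635032023) (nat_lit 912) (nat_lit 1353903277) (nat_lit 344) (nat_lit 5) (nat_lit 355) (nat_lit 5) (nat_lit 356) (nat_lit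 5) (nat_lit 420) (nat_lit 397) (nat_lit 383))) (XT.nd (nat_lit 78) (nat_lit 0) (nat_lit 0) (XT.lf (nat_lit 0) (nat_lit 1417640463) (nat_lit 988) (nat_lit 5516588510) (nat_lit 76) (nat_lit 60450686) (nat_lit 331) (nat_lit 5) (nat_lit 344) (nat_lit 5) (nat_lit 332) (nat_lit 5) (nat_lit 421) (nat_lit 397) (nat_lit 382)) (XT.lf (nat_lit 0) (nat_lit 4205788288) (nat_lit 988) (nat_lit 1016175965) (nat_lit 76) (nat_lit 1829840698) (nat_lit 331) (nat_lit 5) (nat_lit 344) (nat_lit 5) (nat_lit 332) (nat_lit 5) (nat_lit 422) (nat_lit 397) (nat_lit 381)))) (XT.nd (nat_lit 156) (nat_lit 1216) (nat_lit 0) (XT.nd (nat_lit 78) (nat_lit 1140) (nat_lit 0) (XT.lf (nat_lit 0) (nat_lit 3615442846) (nat_lit 988) (nat_lit 3413396629) (nat_lit 1064) (nat_lit 83292481) (nat_lit 318) (nat_lit 5) (nat_lit 331) (nat_lit 5) (nat_lit 332) (nat_lit 5) (nat_lit 423) (nat_lit 397) (nat_lit 380)) (XT.lf (nat_lit 0) (nat_lit 1153437290) (nat_lit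 1064) (nat_lit 1493819097) (nat_lit 1140) (nat_lit 4528074670) (nat_lit 303) (nat_lit 5) (nat_lit 317) (nat_lit 5) (nat_lit 318) (nat_lit 5) (nat_lit 424) (nat_lit 397) (nat_lit 379))) (XT.nd (nat_lit 78) (nat_lit 1216) (nat_lit 0) (XT.lf (nat_lit 0) (nat_lit 5417498659) (nat_lit 1140) (nat_lit 1307510769) (nat_lit 76) (nat_lit 516631970) (nat_lit 303) (nat_lit 5) (nat_lit 318) (nat_lit 5) (nat_lit 304) (nat_lit 5) (nat_lit 425) (nat_lit 397) (nat_lit 378)) (XT.lf (nat_lit 0) (nat_lit 912038420) (nat_lit 1216) (nat_lit 3792276232) (nat_lit 76) (nat_lit 2606275022) (nat_lit 287) (nat_lit 5) (nat_lit 303) (nat_lit 5) (nat_lit 288) (nat_lit 5) (nat_lit 426) (nat_lit 397) (nat_lit 377)))))) (XT.nd (nat_lit 624) (nat_lit 3192) (nat_lit 0) (XT.nd (nat_lit 312) (nat_lit 1216) (nat_lit 0) (XT.nd (nat_lit 156) (nat_lit 1444) (nat_lit 0) (XT.nd (nat_lit 78) (nat_lit 0) (nat_lit 0) (XT.lf (nat_lit 0) (nat_lit 1061364886)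 (nat_lit 1216) (nat_lit 2578104465) (nat_lit 1292) (nat_lit 3743241931) (nat_lit 271) (nat_lit 5) (nat_lit 287) (nat_lit 5) (nat_lit 288) (nat_lit 5) (nat_lit 427) (nat_lit 397) (nat_lit 376)) (XT.lf (nat_lit 0) (nat_lit 6063435550) (nat_lit 1216) (nat_lit 347416708) (nat_lit 1292) (nat_lit 1047301324) (nat_lit 271) (nat_lit 5) (nat_lit 287) (nat_lit 5) (nat_lit 288) (nat_lit 5) (nat_lit 428) (nat_lit 397) (nat_lit 375))) (XT.nd (nat_lit 78) (nat_lit 608) (nat_lit 0) (XT.lf (nat_lit 0) (nat_lit 1675517758) (nat_lit 836) (nat_lit 3895562286) (nat_lit 76) (nat_lit 1964907583) (nat_lit 260) (nat_lit 5) (nat_lit 271) (nat_lit 5) (nat_lit 261) (nat_lit 5) (nat_lit 429) (nat_lit 397) (nat_lit 374)) (XT.lf (nat_lit 0) (nat_lit 1172686606) (nat_lit 608) (nat_lit 3241987960) (nat_lit 684) (nat_lit 3202519103) (nat_lit 252) (nat_lit 5) (nat_lit 260) (nat_lit 5) (nat_lit 261) (nat_lit 5) (nat_lit 430) (nat_lit 397) (nat_lit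 373)))) (XT.nd (nat_lit 156) (nat_lit 532) (nat_lit 0) (XT.nd (nat_lit 78) (nat_lit 684) (nat_lit 0) (XT.lf (nat_lit 0) (nat_lit 6397853207) (nat_lit 608) (nat_lit 805669766) (nat_lit 684) (nat_lit 498305996) (nat_lit 252) (nat_lit 5) (nat_lit 260) (nat_lit 5) (nat_lit 261) (nat_lit 5) (nat_lit 431) (nat_lit 397) (nat_lit 372)) (XT.lf (nat_lit 0) (nat_lit 2227087123) (nat_lit 684) (nat_lit 3834189323) (nat_lit 76) (nat_lit 1727544408) (nat_lit 243) (nat_lit 5) (nat_lit 252) (nat_lit 5) (nat_lit 244) (nat_lit 5) (nat_lit 432) (nat_lit 397) (nat_lit 371))) (XT.nd (nat_lit 78) (nat_lit 0) (nat_lit 0) (XT.lf (nat_lit 0) (nat_lit 1459600754) (nat_lit 532) (nat_lit 3530797242) (nat_lit 608) (nat_lit 2888908353) (nat_lit 236) (nat_lit 5) (nat_lit 243) (nat_lit 5) (nat_lit 244) (nat_lit 5) (nat_lit 433) (nat_lit 397) (nat_lit 370)) (XT.lf (nat_lit 0) (nat_lit 6916002156) (nat_lit 532) (nat_lit 891484372) (nat_lit 608)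 (nat_lit 165910042) (nat_lit 236) (nat_lit 5) (nat_lit 243) (nat_lit 5) (nat_lit 244) (nat_lit 5) (nat_lit 434) (nat_lit 397) (nat_lit 369))))) (XT.nd (nat_lit 312) (nat_lit 1444) (nat_lit 0) (XT.nd (nat_lit 156) (nat_lit 608) (nat_lit 0) (XT.nd (nat_lit 78) (nat_lit 532) (nat_lit 0) (XT.lf (nat_lit 0) (nat_lit 2581729088) (nat_lit 608) (nat_lit 3635080551) (nat_lit 76) (nat_lit 1852921166) (nat_lit 228) (nat_lit 5) (nat_lit 236) (nat_lit 5) (nat_lit 229) (nat_lit 5) (nat_lit 435) (nat_lit 397) (nat_lit 368)) (XT.lf (nat_lit 0) (nat_lit 1895782475) (nat_lit 532) (nat_lit 3485139749) (nat_lit 608) (nat_lit 2788824887) (nat_lit 221) (nat_lit 5) (nat_lit 228) (nat_lit 5) (nat_lit 229) (nat_lit 5) (nat_lit 436) (nat_lit 397) (nat_lit 367))) (XT.nd (nat_lit 78) (nat_lit 608) (nat_lit 0) (XT.lf (nat_lit 0) (nat_lit 7592690408) (nat_lit 532) (nat_lit 643923014) (nat_lit 608) (nat_lit 36989487) (nat_lit 221) (nat_lit 5)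 (nat_lit 228) (nat_lit 5) (nat_lit 229) (nat_lit 5) (nat_lit 437) (nat_lit 397) (nat_lit 366)) (XT.lf (nat_lit 0) (nat_lit 2751275528) (nat_lit 608) (nat_lit 3324147278) (nat_lit 76) (nat_lit 2304104834) (nat_lit 213) (nat_lit 5) (nat_lit 221) (nat_lit 5) (nat_lit 214) (nat_lit 5) (nat_lit 438) (nat_lit 397) (nat_lit 365)))) (XT.nd (nat_lit 156) (nat_lit 988) (nat_lit 0) (XT.nd (nat_lit 78) (nat_lit 0) (nat_lit 0) (XT.lf (nat_lit 0) (nat_lit 2455871188) (nat_lit 456) (nat_lit 3141582661) (nat_lit 532) (nat_lit 2891928437) (nat_lit 207) (nat_lit 5) (nat_lit 213) (nat_lit 5) (nat_lit 214) (nat_lit 5) (nat_lit 439) (nat_lit 397) (nat_lit 364)) (XT.lf (nat_lit 0) (nat_lit 8403624604) (nat_lit 456) (nat_lit 98136276) (nat_lit 532) (nat_lit 101602425) (nat_lit 207) (nat_lit 5) (nat_lit 213) (nat_lit 5) (nat_lit 214) (nat_lit 5) (nat_lit 440) (nat_lit 397) (nat_lit 363))) (XT.nd (nat_lit 78) (nat_lit 456) (nat_lit 0)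 (XT.lf (nat_lit 0) (nat_lit 2744540472) (nat_lit 532) (nat_lit 2926797140) (nat_lit 76) (nat_lit 3047852699) (nat_lit 200) (nat_lit 5) (nat_lit 207) (nat_lit 5) (nat_lit 201) (nat_lit 5) (nat_lit 441) (nat_lit 397) (nat_lit 362)) (XT.lf (nat_lit 0) (nat_lit 3114955500) (nat_lit 456) (nat_lit 2533285727) (nat_lit 532) (nat_lit 3191006179) (nat_lit 194) (nat_lit 5) (nat_lit 200) (nat_lit 5) (nat_lit 201) (nat_lit 5) (nat_lit 442) (nat_lit 397) (nat_lit 361))))))))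
noncomputable def xc90 : XT := (XT.nd (nat_lit 2340) (nat_lit 3648) (nat_lit 0) (XT.nd (nat_lit 1170) (nat_lit 2736) (nat_lit 0) (XT.nd (nat_lit 546) (nat_lit 1824) (nat_lit 0) (XT.nd (nat_lit 234) (nat_lit 1216) (nat_lit 0) (XT.nd (nat_lit 78) (nat_lit 456) (nat_lit 0) (XT.lf (nat_lit 0) (nat_lit 361321960) (nat_lit 456) (nat_lit 8259895471) (nat_lit 532) (nat_lit 342235431) (nat_lit 188) (nat_lit 5) (nat_lit 194) (nat_lit 5) (nat_lit 195) (nat_lit 5) (nat_lit 443) (nat_lit 397) (nat_lit 360)) (XT.nd (nat_lit 78) (nat_lit 380) (nat_lit 0) (XT.lf (nat_lit 0) (nat_lit 2567403693) (nat_lit 532) (nat_lit 2468452223) (nat_lit 76) (nat_lit 4054012470) (nat_lit 187) (nat_lit 5) (nat_lit 194) (nat_lit 5) (nat_lit 188) (nat_lit 5) (nat_lit 444) (nat_lit 397) (nat_lit 359)) (XT.lf (nat_lit 0) (nat_lit 3848046079) (nat_lit 380) (nat_lit 1690597092) (nat_lit 456) (nat_lit 3681906455) (nat_lit 182) (nat_lit 5) (nat_lit 187)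 (nat_lit 5) (nat_lit 188) (nat_lit 5) (nat_lit 445) (nat_lit 397) (nat_lit 358)))) (XT.nd (nat_lit 156) (nat_lit 760) (nat_lit 0) (XT.nd (nat_lit 78) (nat_lit 76) (nat_lit 0) (XT.lf (nat_lit 0) (nat_lit 978547695) (nat_lit 380) (nat_lit 7616887240) (nat_lit 456) (nat_lit 759834203) (nat_lit 177) (nat_lit 5) (nat_lit 182) (nat_lit 5) (nat_lit 183) (nat_lit 5) (nat_lit 446) (nat_lit 397) (nat_lit 357)) (XT.lf (nat_lit 0) (nat_lit 2222845102) (nat_lit 456) (nat_lit 1975086844) (nat_lit 76) (nat_lit 5294953709) (nat_lit 176) (nat_lit 5) (nat_lit 182) (nat_lit 5) (nat_lit 177) (nat_lit 5) (nat_lit 447) (nat_lit 397) (nat_lit 356))) (XT.nd (nat_lit 78) (nat_lit 380) (nat_lit 0) (XT.lf (nat_lit 0) (nat_lit 4629526452) (nat_lit 380) (nat_lit 641621912) (nat_lit 456) (nat_lit 4363523561) (nat_lit 171) (nat_lit 5) (nat_lit 176) (nat_lit 5) (nat_lit 177) (nat_lit 5) (nat_lit 448) (nat_lit 397) (nat_lit 355)) (XT.lf (nat_lit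 0) (nat_lit 1622497160) (nat_lit 380) (nat_lit 6800778698) (nat_lit 456) (nat_lit 1357073814) (nat_lit 166) (nat_lit 5) (nat_lit 171) (nat_lit 5) (nat_lit 172) (nat_lit 5) (nat_lit 449) (nat_lit 397) (nat_lit 354))))) (XT.nd (nat_lit 312) (nat_lit 988) (nat_lit 0) (XT.nd (nat_lit 156) (nat_lit 456) (nat_lit 0) (XT.nd (nat_lit 78) (nat_lit 304) (nat_lit 0) (XT.lf (nat_lit 0) (nat_lit 1710929125) (nat_lit 456) (nat_lit 1473795398) (nat_lit 76) (nat_lit 6745021040) (nat_lit 165) (nat_lit 5) (nat_lit 171) (nat_lit 5) (nat_lit 166) (nat_lit 5) (nat_lit 450) (nat_lit 397) (nat_lit 353)) (XT.lf (nat_lit 0) (nat_lit 4850989183) (nat_lit 380) (nat_lit 4656252957) (nat_lit 76) (nat_lit 575767680) (nat_lit 161) (nat_lit 5) (nat_lit 166) (nat_lit 5) (nat_lit 162) (nat_lit 5) (nat_lit 451) (nat_lit 397) (nat_lit 352))) (XT.nd (nat_lit 78) (nat_lit 76) (nat_lit 0) (XT.lf (nat_lit 0) (nat_lit 2265238040) (nat_lit 380) (nat_lit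 5838380412) (nat_lit 456) (nat_lit 2136710651) (nat_lit 156) (nat_lit 5) (nat_lit 161) (nat_lit 5) (nat_lit 162) (nat_lit 5) (nat_lit 452) (nat_lit 397) (nat_lit 351)) (XT.lf (nat_lit 0) (nat_lit 1028737317) (nat_lit 456) (nat_lit 993401539) (nat_lit 76) (nat_lit 8379999656) (nat_lit 155) (nat_lit 5) (nat_lit 161) (nat_lit 5) (nat_lit 156) (nat_lit 5) (nat_lit 453) (nat_lit 397) (nat_lit 350)))) (XT.nd (nat_lit 156) (nat_lit 380) (nat_lit 0) (XT.nd (nat_lit 78) (nat_lit 304) (nat_lit 0) (XT.lf (nat_lit 0) (nat_lit 4276777803) (nat_lit 380) (nat_lit 4358251063) (nat_lit 76) (nat_lit 1932228857) (nat_lit 151) (nat_lit 5) (nat_lit 156) (nat_lit 5) (nat_lit 152) (nat_lit 5) (nat_lit 454) (nat_lit 397) (nat_lit 349)) (XT.lf (nat_lit 0) (nat_lit 2876685924) (nat_lit 304) (nat_lit 4755673641) (nat_lit 380) (nat_lit 3104675160) (nat_lit 147) (nat_lit 5) (nat_lit 151) (nat_lit 5) (nat_lit 152) (nat_lit 5) (nat_lit 455)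 (nat_lit 397) (nat_lit 348))) (XT.nd (nat_lit 78) (nat_lit 304) (nat_lit 0) (XT.lf (nat_lit 0) (nat_lit 170246533) (nat_lit 380) (nat_lit 565121053) (nat_lit 76) (nat_lit 10176583567) (nat_lit 146) (nat_lit 5) (nat_lit 151) (nat_lit 5) (nat_lit 147) (nat_lit 5) (nat_lit 456) (nat_lit 397) (nat_lit 347)) (XT.lf (nat_lit 0) (nat_lit 3535589255) (nat_lit 380) (nat_lit 4137870372) (nat_lit 76) (nat_lit 3416102644) (nat_lit 142) (nat_lit 5) (nat_lit 147) (nat_lit 5) (nat_lit 143) (nat_lit 5) (nat_lit 457) (nat_lit 397) (nat_lit 346)))))) (XT.nd (nat_lit 546) (nat_lit 1216) (nat_lit 0) (XT.nd (nat_lit 234) (nat_lit 912) (nat_lit 0) (XT.nd (nat_lit 78) (nat_lit 304) (nat_lit 0) (XT.lf (nat_lit 0) (nat_lit 3423893073) (nat_lit 304) (nat_lit 3578360039) (nat_lit 380) (nat_lit 4270244195) (nat_lit 138) (nat_lit 5) (nat_lit 142) (nat_lit 5) (nat_lit 143) (nat_lit 5) (nat_lit 458) (nat_lit 397) (nat_lit 345)) (XT.nd (nat_lit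 78) (nat_lit 304) (nat_lit 0) (XT.lf (nat_lit 0) (nat_lit 10576116711) (nat_lit 380) (nat_lit 238197698) (nat_lit 76) (nat_lit 646516216) (nat_lit 138) (nat_lit 5) (nat_lit 143) (nat_lit 5) (nat_lit 139) (nat_lit 5) (nat_lit 459) (nat_lit 397) (nat_lit 344)) (XT.lf (nat_lit 0) (nat_lit 2617344882) (nat_lit 304) (nat_lit 4031496436) (nat_lit 76) (nat_lit 5003255688) (nat_lit 134) (nat_lit 5) (nat_lit 138) (nat_lit 5) (nat_lit 135) (nat_lit 5) (nat_lit 460) (nat_lit 397) (nat_lit 343)))) (XT.nd (nat_lit 156) (nat_lit 608) (nat_lit 0) (XT.nd (nat_lit 78) (nat_lit 0) (nat_lit 0) (XT.lf (nat_lit 0) (nat_lit 3870259147) (nat_lit 304) (nat_lit 2332428194) (nat_lit 380) (nat_lit 5646276833) (nat_lit 130) (nat_lit 5) (nat_lit 134) (nat_lit 5) (nat_lit 135) (nat_lit 5) (nat_lit 461) (nat_lit 397) (nat_lit 342)) (XT.lf (nat_lit 0) (nat_lit 9913789889) (nat_lit 380) (nat_lit 47427316) (nat_lit 76) (nat_lit 2089979688) (nat_lit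 130) (nat_lit 5) (nat_lit 135) (nat_lit 5) (nat_lit 131) (nat_lit 5) (nat_lit 462) (nat_lit 397) (nat_lit 341))) (XT.nd (nat_lit 78) (nat_lit 304) (nat_lit 0) (XT.lf (nat_lit 0) (nat_lit 1508375804) (nat_lit 304) (nat_lit 4079853980) (nat_lit 76) (nat_lit 6669032272) (nat_lit 126) (nat_lit 5) (nat_lit 130) (nat_lit 5) (nat_lit 127) (nat_lit 5) (nat_lit 463) (nat_lit 397) (nat_lit 340)) (XT.lf (nat_lit 0) (nat_lit 4174647122) (nat_lit 304) (nat_lit 1044747931) (nat_lit 380) (nat_lit 7249519627) (nat_lit 122) (nat_lit 5) (nat_lit 126) (nat_lit 5) (nat_lit 127) (nat_lit 5) (nat_lit 464) (nat_lit 397) (nat_lit 339))))) (XT.nd (nat_lit 312) (nat_lit 684) (nat_lit 0) (XT.nd (nat_lit 156) (nat_lit 228) (nat_lit 0) (XT.nd (nat_lit 78) (nat_lit 304) (nat_lit 0) (XT.lf (nat_lit 0) (nat_lit 9076857976) (nat_lit 380) (nat_lit 27088382) (nat_lit 76) (nat_lit 3581922046) (nat_lit 122) (nat_lit 5) (nat_lit 127) (nat_lit 5) (nat_lit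 123) (nat_lit 5) (nat_lit 465) (nat_lit 397) (nat_lit 338)) (XT.lf (nat_lit 0) (nat_lit 191082246) (nat_lit 304) (nat_lit 4328966607) (nat_lit 76) (nat_lit 8387652519) (nat_lit 118) (nat_lit 5) (nat_lit 122) (nat_lit 5) (nat_lit 119) (nat_lit 5) (nat_lit 466) (nat_lit 397) (nat_lit 337))) (XT.nd (nat_lit 78) (nat_lit 0) (nat_lit 0) (XT.lf (nat_lit 0) (nat_lit 4036553298) (nat_lit 304) (nat_lit 8847156569) (nat_lit 76) (nat_lit 251294581) (nat_lit 115) (nat_lit 5) (nat_lit 119) (nat_lit 5) (nat_lit 116) (nat_lit 5) (nat_lit 467) (nat_lit 397) (nat_lit 336)) (XT.lf (nat_lit 0) (nat_lit 8046534838) (nat_lit 304) (nat_lit 226120765) (nat_lit 76) (nat_lit 5095000988) (nat_lit 115) (nat_lit 5) (nat_lit 119) (nat_lit 5) (nat_lit 116) (nat_lit 5) (nat_lit 468) (nat_lit 397) (nat_lit 335)))) (XT.nd (nat_lit 156) (nat_lit 152) (nat_lit 0) (XT.nd (nat_lit 78) (nat_lit 304) (nat_lit 0) (XT.lf (nat_lit 0) (nat_lit 8761379989)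 (nat_lit 228) (nat_lit 3461059958) (nat_lit 304) (nat_lit 1383483867) (nat_lit 112) (nat_lit 5) (nat_lit 115) (nat_lit 5) (nat_lit 116) (nat_lit 5) (nat_lit 469) (nat_lit 397) (nat_lit 334)) (XT.lf (nat_lit 0) (nat_lit 2638822646) (nat_lit 304) (nat_lit 9701125587) (nat_lit 76) (nat_lit 1510063626) (nat_lit 108) (nat_lit 5) (nat_lit 112) (nat_lit 5) (nat_lit 109) (nat_lit 5) (nat_lit 470) (nat_lit 397) (nat_lit 333))) (XT.nd (nat_lit 78) (nat_lit 152) (nat_lit 0) (XT.lf (nat_lit 0) (nat_lit 6799490962) (nat_lit 304) (nat_lit 700543805) (nat_lit 76) (nat_lit 6599615746) (nat_lit 108) (nat_lit 5) (nat_lit 112) (nat_lit 5) (nat_lit 109) (nat_lit 5) (nat_lit 471) (nat_lit 397) (nat_lit 332)) (XT.lf (nat_lit 0) (nat_lit 8677673134) (nat_lit 152) (nat_lit 2453659729) (nat_lit 228) (nat_lit 3224058621) (nat_lit 106) (nat_lit 5) (nat_lit 108) (nat_lit 5) (nat_lit 109) (nat_lit 5) (nat_lit 472) (nat_lit 397) (nat_lit 331)))))))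 (XT.nd (nat_lit 1170) (nat_lit 1520) (nat_lit 0) (XT.nd (nat_lit 546) (nat_lit 988) (nat_lit 0) (XT.nd (nat_lit 234) (nat_lit 684) (nat_lit 0) (XT.nd (nat_lit 78) (nat_lit 152) (nat_lit 0) (XT.lf (nat_lit 0) (nat_lit 988078379) (nat_lit 304) (nat_lit 10910405868) (nat_lit 76) (nat_lit 2719060046) (nat_lit 102) (nat_lit 5) (nat_lit 106) (nat_lit 5) (nat_lit 103) (nat_lit 5) (nat_lit 473) (nat_lit 397) (nat_lit 330)) (XT.nd (nat_lit 78) (nat_lit 152) (nat_lit 0) (XT.lf (nat_lit 0) (nat_lit 5307287811) (nat_lit 304) (nat_lit 1514796533) (nat_lit 76) (nat_lit 8063157885) (nat_lit 102) (nat_lit 5) (nat_lit 106) (nat_lit 5) (nat_lit 103) (nat_lit 5) (nat_lit 474) (nat_lit 397) (nat_lit 329)) (XT.lf (nat_lit 0) (nat_lit 8263642536) (nat_lit 152) (nat_lit 1536248274) (nat_lit 228) (nat_lit 5359769121) (nat_lit 100) (nat_lit 5) (nat_lit 102) (nat_lit 5) (nat_lit 103) (nat_lit 5) (nat_lit 475) (nat_lit 397) (nat_lit 328))))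 (XT.nd (nat_lit 156) (nat_lit 380) (nat_lit 0) (XT.nd (nat_lit 78) (nat_lit 76) (nat_lit 0) (XT.lf (nat_lit 0) (nat_lit 2882644219) (nat_lit 228) (nat_lit 11589962674) (nat_lit 304) (nat_lit 968346470) (nat_lit 97) (nat_lit 5) (nat_lit 100) (nat_lit 5) (nat_lit 101) (nat_lit 5) (nat_lit 476) (nat_lit 397) (nat_lit 327)) (XT.lf (nat_lit 0) (nat_lit 3535703033) (nat_lit 304) (nat_lit 2743274907) (nat_lit 76) (nat_lit 9449178042) (nat_lit 96) (nat_lit 5) (nat_lit 100) (nat_lit 5) (nat_lit 97) (nat_lit 5) (nat_lit 477) (nat_lit 397) (nat_lit 326))) (XT.nd (nat_lit 78) (nat_lit 228) (nat_lit 0) (XT.lf (nat_lit 0) (nat_lit 7442993708) (nat_lit 152) (nat_lit 749707218) (nat_lit 228) (nat_lit 7829870408) (nat_lit 94) (nat_lit 5) (nat_lit 96) (nat_lit 5) (nat_lit 97) (nat_lit 5) (nat_lit 478) (nat_lit 397) (nat_lit 325)) (XT.lf (nat_lit 0) (nat_lit 1590241424) (nat_lit 228) (nat_lit 11455913588) (nat_lit 304) (nat_lit 3277964634)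 (nat_lit 91) (nat_lit 5) (nat_lit 94) (nat_lit 5) (nat_lit 95) (nat_lit 5) (nat_lit 479) (nat_lit 397) (nat_lit 324))))) (XT.nd (nat_lit 312) (nat_lit 608) (nat_lit 0) (XT.nd (nat_lit 156) (nat_lit 152) (nat_lit 0) (XT.nd (nat_lit 78) (nat_lit 152) (nat_lit 0) (XT.lf (nat_lit 0) (nat_lit 1443931184) (nat_lit 304) (nat_lit 4472099744) (nat_lit 76) (nat_lit 10716450739) (nat_lit 90) (nat_lit 5) (nat_lit 94) (nat_lit 5) (nat_lit 91) (nat_lit 5) (nat_lit 480) (nat_lit 397) (nat_lit 323)) (XT.lf (nat_lit 0) (nat_lit 6127190835) (nat_lit 152) (nat_lit 140335883) (nat_lit 228) (nat_lit 10680819019) (nat_lit 88) (nat_lit 5) (nat_lit 90) (nat_lit 5) (nat_lit 91) (nat_lit 5) (nat_lit 481) (nat_lit 397) (nat_lit 322))) (XT.nd (nat_lit 78) (nat_lit 152) (nat_lit 0) (XT.lf (nat_lit 0) (nat_lit 11304480816) (nat_lit 228) (nat_lit 250112320) (nat_lit 76) (nat_lit 5717035638) (nat_lit 88) (nat_lit 5) (nat_lit 91) (nat_lit 5) (nat_lit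 89) (nat_lit 5) (nat_lit 482) (nat_lit 397) (nat_lit 321)) (XT.lf (nat_lit 0) (nat_lit 10791295788) (nat_lit 152) (nat_lit 5774532883) (nat_lit 228) (nat_lit 1036585565) (nat_lit 86) (nat_lit 5) (nat_lit 88) (nat_lit 5) (nat_lit 89) (nat_lit 5) (nat_lit 483) (nat_lit 397) (nat_lit 320)))) (XT.nd (nat_lit 156) (nat_lit 380) (nat_lit 0) (XT.nd (nat_lit 78) (nat_lit 0) (nat_lit 0) (XT.lf (nat_lit 0) (nat_lit 3976615157) (nat_lit 228) (nat_lit 13730593056) (nat_lit 76) (nat_lit 234344001) (nat_lit 83) (nat_lit 5) (nat_lit 86) (nat_lit 5) (nat_lit 84) (nat_lit 5) (nat_lit 484) (nat_lit 397) (nat_lit 319)) (XT.lf (nat_lit 0) (nat_lit 9214414849) (nat_lit 228) (nat_lit 2709799436) (nat_lit 76) (nat_lit 6363493310) (nat_lit 83) (nat_lit 5) (nat_lit 86) (nat_lit 5) (nat_lit 84) (nat_lit 5) (nat_lit 485) (nat_lit 397) (nat_lit 318))) (XT.nd (nat_lit 78) (nat_lit 228) (nat_lit 0) (XT.lf (nat_lit 0) (nat_lit 8757953103) (nat_lit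 152) (nat_lit 5904906287) (nat_lit 228) (nat_lit 3979785133) (nat_lit 81) (nat_lit 5) (nat_lit 83) (nat_lit 5) (nat_lit 84) (nat_lit 5) (nat_lit 486) (nat_lit 397) (nat_lit 317)) (XT.lf (nat_lit 0) (nat_lit 1257196833) (nat_lit 228) (nat_lit 17428992828) (nat_lit 76) (nat_lit 321215234) (nat_lit 78) (nat_lit 5) (nat_lit 81) (nat_lit 5) (nat_lit 79) (nat_lit 5) (nat_lit 487) (nat_lit 397) (nat_lit 316)))))) (XT.nd (nat_lit 624) (nat_lit 760) (nat_lit 0) (XT.nd (nat_lit 312) (nat_lit 380) (nat_lit 0) (XT.nd (nat_lit 156) (nat_lit 228) (nat_lit 0) (XT.nd (nat_lit 78) (nat_lit 152) (nat_lit 0) (XT.lf (nat_lit 0) (nat_lit 6700105079) (nat_lit 228) (nat_lit 5945719129) (nat_lit 76) (nat_lit 6732239586) (nat_lit 78) (nat_lit 5) (nat_lit 81) (nat_lit 5) (nat_lit 79) (nat_lit 5) (nat_lit 488) (nat_lit 397) (nat_lit 315)) (XT.lf (nat_lit 0) (nat_lit 5944870101) (nat_lit 152) (nat_lit 6389001308) (nat_lit 228) (nat_lit 7425145889)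 (nat_lit 76) (nat_lit 5) (nat_lit 78) (nat_lit 5) (nat_lit 79) (nat_lit 5) (nat_lit 489) (nat_lit 397) (nat_lit 314))) (XT.nd (nat_lit 78) (nat_lit 228) (nat_lit 0) (XT.lf (nat_lit 0) (nat_lit 18168373901) (nat_lit 228) (nat_lit 1889988157) (nat_lit 76) (nat_lit 92087563) (nat_lit 76) (nat_lit 5) (nat_lit 79) (nat_lit 5) (nat_lit 77) (nat_lit 4) (nat_lit 490) (nat_lit 397) (nat_lit 313)) (XT.lf (nat_lit 0) (nat_lit 3690326237) (nat_lit 228) (nat_lit 10104342778) (nat_lit 76) (nat_lit 6753809655) (nat_lit 73) (nat_lit 5) (nat_lit 76) (nat_lit 5) (nat_lit 74) (nat_lit 5) (nat_lit 491) (nat_lit 397) (nat_lit 312)))) (XT.nd (nat_lit 156) (nat_lit 228) (nat_lit 0) (XT.nd (nat_lit 78) (nat_lit 0) (nat_lit 0) (XT.lf (nat_lit 0) (nat_lit 2200446536) (nat_lit 152) (nat_lit 7304513078) (nat_lit 228) (nat_lit 11452545073) (nat_lit 71) (nat_lit 5) (nat_lit 73) (nat_lit 5) (nat_lit 74) (nat_lit 5) (nat_lit 492) (nat_lit 397)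 (nat_lit 311)) (XT.lf (nat_lit 0) (nat_lit 15030187622) (nat_lit 152) (nat_lit 537686982) (nat_lit 228) (nat_lit 5808713298) (nat_lit 71) (nat_lit 5) (nat_lit 73) (nat_lit 5) (nat_lit 74) (nat_lit 5) (nat_lit 493) (nat_lit 397) (nat_lit 310))) (XT.nd (nat_lit 78) (nat_lit 0) (nat_lit 0) (XT.lf (nat_lit 0) (nat_lit 101544835) (nat_lit 228) (nat_lit 15356172656) (nat_lit 76) (nat_lit 6347610504) (nat_lit 68) (nat_lit 5) (nat_lit 71) (nat_lit 5) (nat_lit 69) (nat_lit 5) (nat_lit 494) (nat_lit 397) (nat_lit 309)) (XT.lf (nat_lit 0) (nat_lit 6114871431) (nat_lit 228) (nat_lit 2600293489) (nat_lit 76) (nat_lit 13528766260) (nat_lit 68) (nat_lit 5) (nat_lit 71) (nat_lit 5) (nat_lit 69) (nat_lit 5) (nat_lit 495) (nat_lit 397) (nat_lit 308))))) (XT.nd (nat_lit 312) (nat_lit 304) (nat_lit 0) (XT.nd (nat_lit 156) (nat_lit 228) (nat_lit 0) (XT.nd (nat_lit 78) (nat_lit 76) (nat_lit 0) (XT.lf (nat_lit 0) (nat_lit 10698000879)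 (nat_lit 152) (nat_lit 1686700397) (nat_lit 228) (nat_lit 10308709587) (nat_lit 66) (nat_lit 5) (nat_lit 68) (nat_lit 5) (nat_lit 69) (nat_lit 5) (nat_lit 496) (nat_lit 397) (nat_lit 307)) (XT.lf (nat_lit 0) (nat_lit 1213894045) (nat_lit 76) (nat_lit 17693660834) (nat_lit 152) (nat_lit 4246873653) (nat_lit 65) (nat_lit 5) (nat_lit 66) (nat_lit 5) (nat_lit 67) (nat_lit 4) (nat_lit 497) (nat_lit 397) (nat_lit 306))) (XT.nd (nat_lit 78) (nat_lit 152) (nat_lit 0) (XT.lf (nat_lit 0) (nat_lit 2070295006) (nat_lit 152) (nat_lit 8646532987) (nat_lit 76) (nat_lit 12908500998) (nat_lit 64) (nat_lit 5) (nat_lit 66) (nat_lit 5) (nat_lit 65) (nat_lit 5) (nat_lit 498) (nat_lit 397) (nat_lit 305)) (XT.lf (nat_lit 0) (nat_lit 5055148979) (nat_lit 152) (nat_lit 3459252662) (nat_lit 228) (nat_lit 15594011286) (nat_lit 62) (nat_lit 5) (nat_lit 64) (nat_lit 5) (nat_lit 65) (nat_lit 5) (nat_lit 499) (nat_lit 397) (nat_lit 304)))) (XT.nd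 (nat_lit 156) (nat_lit 228) (nat_lit 0) (XT.nd (nat_lit 78) (nat_lit 76) (nat_lit 0) (XT.lf (nat_lit 0) (nat_lit 15252889755) (nat_lit 228) (nat_lit 5345537492) (nat_lit 76) (nat_lit 4004531685) (nat_lit 62) (nat_lit 5) (nat_lit 65) (nat_lit 5) (nat_lit 63) (nat_lit 4) (nat_lit 500) (nat_lit 397) (nat_lit 303)) (XT.lf (nat_lit 0) (nat_lit 8865741096) (nat_lit 76) (nat_lit 13422289647) (nat_lit 152) (nat_lit 2821476888) (nat_lit 61) (nat_lit 5) (nat_lit 62) (nat_lit 5) (nat_lit 63) (nat_lit 4) (nat_lit 501) (nat_lit 397) (nat_lit 302))) (XT.nd (nat_lit 78) (nat_lit 152) (nat_lit 0) (XT.lf (nat_lit 0) (nat_lit 3856391091) (nat_lit 152) (nat_lit 2101223706) (nat_lit 76) (nat_lit 19671626282) (nat_lit 60) (nat_lit 5) (nat_lit 62) (nat_lit 5) (nat_lit 61) (nat_lit 5) (nat_lit 502) (nat_lit 397) (nat_lit 301)) (XT.lf (nat_lit 0) (nat_lit 10793090977) (nat_lit 228) (nat_lit 13539553900) (nat_lit 76) (nat_lit 1827628601)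 (nat_lit 58) (nat_lit 5) (nat_lit 61) (nat_lit 5) (nat_lit 59) (nat_lit 4) (nat_lit 503) (nat_lit 397) (nat_lit 300))))))))
noncomputable def xc91 : XT := (XT.nd (nat_lit 2340) (nat_lit 760) (nat_lit 0) (XT.nd (nat_lit 1170) (nat_lit 760) (nat_lit 0) (XT.nd (nat_lit 546) (nat_lit 532) (nat_lit 0) (XT.nd (nat_lit 234) (nat_lit 304) (nat_lit 0) (XT.nd (nat_lit 78) (nat_lit 228) (nat_lit 0) (XT.lf (nat_lit 0) (nat_lit 1036627747) (nat_lit 76) (nat_lit 16967510981) (nat_lit 152) (nat_lit 8701111838) (nat_lit 57) (nat_lit 5) (nat_lit 58) (nat_lit 5) (nat_lit 59) (nat_lit 4) (nat_lit 504) (nat_lit 397) (nat_lit 299)) (XT.nd (nat_lit 78) (nat_lit 228) (nat_lit 0) (XT.lf (nat_lit 0) (nat_lit 16282887433) (nat_lit 76) (nat_lit 9261493661) (nat_lit 152) (nat_lit 1718811065) (nat_lit 57) (nat_lit 5) (nat_lit 58) (nat_lit 5) (nat_lit 59) (nat_lit 4) (nat_lit 505) (nat_lit 397) (nat_lit 298)) (XT.lf (nat_lit 0) (nat_lit 4132780835)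 (nat_lit 152) (nat_lit 1249712365) (nat_lit 228) (nat_lit 22453311593) (nat_lit 54) (nat_lit 5) (nat_lit 56) (nat_lit 5) (nat_lit 57) (nat_lit 5) (nat_lit 506) (nat_lit 397) (nat_lit 297)))) (XT.nd (nat_lit 156) (nat_lit 228) (nat_lit 0) (XT.nd (nat_lit 78) (nat_lit 76) (nat_lit 0) (XT.lf (nat_lit 0) (nat_lit 12818251631) (nat_lit 228) (nat_lit 8627339087) (nat_lit 76) (nat_lit 6974816704) (nat_lit 54) (nat_lit 5) (nat_lit 57) (nat_lit 5) (nat_lit 55) (nat_lit 4) (nat_lit 507) (nat_lit 397) (nat_lit 296)) (XT.lf (nat_lit 0) (nat_lit 6981776929) (nat_lit 76) (nat_lit 13552144331) (nat_lit 152) (nat_lit 8486922684) (nat_lit 53) (nat_lit 5) (nat_lit 54) (nat_lit 5) (nat_lit 55) (nat_lit 4) (nat_lit 508) (nat_lit 397) (nat_lit 295))) (XT.nd (nat_lit 78) (nat_lit 228) (nat_lit 0) (XT.lf (nat_lit 0) (nat_lit 23193731474) (nat_lit 76) (nat_lit 5352053821) (nat_lit 152) (nat_lit 1091567474) (nat_lit 53) (nat_lit 5) (nat_lit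 54) (nat_lit 5) (nat_lit 55) (nat_lit 4) (nat_lit 509) (nat_lit 397) (nat_lit 294)) (XT.lf (nat_lit 0) (nat_lit 6500738340) (nat_lit 228) (nat_lit 20594592227) (nat_lit 76) (nat_lit 3172072457) (nat_lit 50) (nat_lit 5) (nat_lit 53) (nat_lit 5) (nat_lit 51) (nat_lit 4) (nat_lit 510) (nat_lit 397) (nat_lit 293))))) (XT.nd (nat_lit 312) (nat_lit 228) (nat_lit 0) (XT.nd (nat_lit 156) (nat_lit 228) (nat_lit 0) (XT.nd (nat_lit 78) (nat_lit 76) (nat_lit 0) (XT.lf (nat_lit 0) (nat_lit 14395676346) (nat_lit 228) (nat_lit 4615573905) (nat_lit 76) (nat_lit 11901877093) (nat_lit 50) (nat_lit 5) (nat_lit 53) (nat_lit 5) (nat_lit 51) (nat_lit 4) (nat_lit 511) (nat_lit 397) (nat_lit 292)) (XT.lf (nat_lit 0) (nat_lit 12037365118) (nat_lit 76) (nat_lit 10584545396) (nat_lit 152) (nat_lit 8953480273) (nat_lit 49) (nat_lit 5) (nat_lit 50) (nat_lit 5) (nat_lit 51) (nat_lit 4) (nat_lit 512) (nat_lit 397) (nat_lit 291))) (XT.nd (nat_lit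 78) (nat_lit 228) (nat_lit 0) (XT.lf (nat_lit 0) (nat_lit 29244560368) (nat_lit 76) (nat_lit 1875952397) (nat_lit 152) (nat_lit 1136242746) (nat_lit 49) (nat_lit 5) (nat_lit 50) (nat_lit 5) (nat_lit 51) (nat_lit 4) (nat_lit 513) (nat_lit 397) (nat_lit 290)) (XT.lf (nat_lit 0) (nat_lit 6966279006) (nat_lit 228) (nat_lit 18842665400) (nat_lit 76) (nat_lit 7142051841) (nat_lit 46) (nat_lit 5) (nat_lit 49) (nat_lit 5) (nat_lit 47) (nat_lit 4) (nat_lit 514) (nat_lit 397) (nat_lit 289)))) (XT.nd (nat_lit 156) (nat_lit 152) (nat_lit 0) (XT.nd (nat_lit 78) (nat_lit 76) (nat_lit 0) (XT.lf (nat_lit 0) (nat_lit 15317764011) (nat_lit 228) (nat_lit 1930302308) (nat_lit 76) (nat_lit 16416799381) (nat_lit 46) (nat_lit 5) (nat_lit 49) (nat_lit 5) (nat_lit 47) (nat_lit 4) (nat_lit 515) (nat_lit 397) (nat_lit 288)) (XT.lf (nat_lit 0) (nat_lit 15758841086) (nat_lit 76) (nat_lit 8292467888) (nat_lit 152) (nat_lit 10344897519) (nat_lit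 45) (nat_lit 5) (nat_lit 46) (nat_lit 5) (nat_lit 47) (nat_lit 4) (nat_lit 516) (nat_lit 397) (nat_lit 287))) (XT.nd (nat_lit 78) (nat_lit 152) (nat_lit 0) (XT.lf (nat_lit 0) (nat_lit 33055580449) (nat_lit 152) (nat_lit 1177973800) (nat_lit 0) (nat_lit 915672355) (nat_lit 45) (nat_lit 5) (nat_lit 47) (nat_lit 4) (nat_lit 45) (nat_lit 4) (nat_lit 517) (nat_lit 397) (nat_lit 286)) (XT.lf (nat_lit 0) (nat_lit 6508746358) (nat_lit 152) (nat_lit 18963715532) (nat_lit 76) (nat_lit 10443671252) (nat_lit 43) (nat_lit 5) (nat_lit 45) (nat_lit 5) (nat_lit 44) (nat_lit 4) (nat_lit 518) (nat_lit 397) (nat_lit 285)))))) (XT.nd (nat_lit 546) (nat_lit 456) (nat_lit 0) (XT.nd (nat_lit 234) (nat_lit 228) (nat_lit 0) (XT.nd (nat_lit 78) (nat_lit 76) (nat_lit 0) (XT.lf (nat_lit 0) (nat_lit 15319822324) (nat_lit 152) (nat_lit 1112728937) (nat_lit 76) (nat_lit 20273093622) (nat_lit 43) (nat_lit 5) (nat_lit 45) (nat_lit 5) (nat_lit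 44) (nat_lit 4) (nat_lit 519) (nat_lit 397) (nat_lit 284)) (XT.nd (nat_lit 78) (nat_lit 0) (nat_lit 0) (XT.lf (nat_lit 0) (nat_lit 17580872780) (nat_lit 76) (nat_lit 6964597536) (nat_lit 152) (nat_lit 12968865089) (nat_lit 42) (nat_lit 5) (nat_lit 43) (nat_lit 5) (nat_lit 44) (nat_lit 4) (nat_lit 520) (nat_lit 397) (nat_lit 283)) (XT.lf (nat_lit 0) (nat_lit 34067310929) (nat_lit 152) (nat_lit 1551783537) (nat_lit 0) (nat_lit 2727610083) (nat_lit 42) (nat_lit 5) (nat_lit 44) (nat_lit 4) (nat_lit 42) (nat_lit 4) (nat_lit 521) (nat_lit 397) (nat_lit 282)))) (XT.nd (nat_lit 156) (nat_lit 76) (nat_lit 0) (XT.nd (nat_lit 78) (nat_lit 0) (nat_lit 0) (XT.lf (nat_lit 0) (nat_lit 4801967390) (nat_lit 152) (nat_lit 21623246216) (nat_lit 76) (nat_lit 12770814319) (nat_lit 40) (nat_lit 5) (nat_lit 42) (nat_lit 5) (nat_lit 41) (nat_lit 4) (nat_lit 522) (nat_lit 397) (nat_lit 281)) (XT.lf (nat_lit 0) (nat_lit 14067427283) (nat_lit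 152) (nat_lit 2844983189) (nat_lit 76) (nat_lit 23157219886) (nat_lit 40) (nat_lit 5) (nat_lit 42) (nat_lit 5) (nat_lit 41) (nat_lit 4) (nat_lit 523) (nat_lit 397) (nat_lit 280))) (XT.nd (nat_lit 78) (nat_lit 0) (nat_lit 0) (XT.lf (nat_lit 0) (nat_lit 16790295157) (nat_lit 76) (nat_lit 6964327713) (nat_lit 152) (nat_lit 17210505373) (nat_lit 39) (nat_lit 5) (nat_lit 40) (nat_lit 5) (nat_lit 41) (nat_lit 4) (nat_lit 524) (nat_lit 397) (nat_lit 279)) (XT.lf (nat_lit 0) (nat_lit 33775405619) (nat_lit 152) (nat_lit 4879519441) (nat_lit 0) (nat_lit 3231277385) (nat_lit 39) (nat_lit 5) (nat_lit 41) (nat_lit 4) (nat_lit 39) (nat_lit 4) (nat_lit 525) (nat_lit 397) (nat_lit 278))))) (XT.nd (nat_lit 312) (nat_lit 228) (nat_lit 0) (XT.nd (nat_lit 156) (nat_lit 76) (nat_lit 0) (XT.nd (nat_lit 78) (nat_lit 0) (nat_lit 0) (XT.lf (nat_lit 0) (nat_lit 1437117873) (nat_lit 152) (nat_lit 27653984918) (nat_lit 76) (nat_lit 13737447492)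 (nat_lit 37) (nat_lit 5) (nat_lit 39) (nat_lit 5) (nat_lit 38) (nat_lit 4) (nat_lit 526) (nat_lit 397) (nat_lit 277)) (XT.lf (nat_lit 0) (nat_lit 11141147915) (nat_lit 152) (nat_lit 7981217495) (nat_lit 76) (nat_lit 24673413568) (nat_lit 37) (nat_lit 5) (nat_lit 39) (nat_lit 5) (nat_lit 38) (nat_lit 4) (nat_lit 527) (nat_lit 397) (nat_lit 276))) (XT.nd (nat_lit 78) (nat_lit 0) (nat_lit 0) (XT.lf (nat_lit 0) (nat_lit 12493454914) (nat_lit 76) (nat_lit 8746371150) (nat_lit 152) (nat_lit 23549093114) (nat_lit 36) (nat_lit 5) (nat_lit 37) (nat_lit 5) (nat_lit 38) (nat_lit 4) (nat_lit 528) (nat_lit 397) (nat_lit 275)) (XT.lf (nat_lit 0) (nat_lit 31724976382) (nat_lit 152) (nat_lit 12115016605) (nat_lit 0) (nat_lit 1969355691) (nat_lit 36) (nat_lit 5) (nat_lit 38) (nat_lit 4) (nat_lit 36) (nat_lit 4) (nat_lit 529) (nat_lit 397) (nat_lit 274)))) (XT.nd (nat_lit 156) (nat_lit 76) (nat_lit 0) (XT.nd (nat_lit 78) (nat_lit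 76) (nat_lit 0) (XT.lf (nat_lit 0) (nat_lit 8723304423) (nat_lit 76) (nat_lit 33955772008) (nat_lit 76) (nat_lit 4176683211) (nat_lit 35) (nat_lit 4) (nat_lit 36) (nat_lit 5) (nat_lit 36) (nat_lit 4) (nat_lit 530) (nat_lit 397) (nat_lit 273)) (XT.lf (nat_lit 0) (nat_lit 6018110188) (nat_lit 152) (nat_lit 17585109683) (nat_lit 76) (nat_lit 24325379874) (nat_lit 34) (nat_lit 5) (nat_lit 36) (nat_lit 5) (nat_lit 35) (nat_lit 4) (nat_lit 531) (nat_lit 397) (nat_lit 272))) (XT.nd (nat_lit 78) (nat_lit 0) (nat_lit 0) (XT.lf (nat_lit 0) (nat_lit 3576828299) (nat_lit 76) (nat_lit 12876778896) (nat_lit 152) (nat_lit 32578213445) (nat_lit 33) (nat_lit 5) (nat_lit 34) (nat_lit 5) (nat_lit 35) (nat_lit 4) (nat_lit 532) (nat_lit 397) (nat_lit 271)) (XT.lf (nat_lit 0) (nat_lit 25704127283) (nat_lit 76) (nat_lit 1660206821) (nat_lit 152) (nat_lit 22798939495) (nat_lit 33) (nat_lit 5) (nat_lit 34) (nat_lit 5) (nat_lit 35) (nat_lit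 4) (nat_lit 533) (nat_lit 397) (nat_lit 270))))))) (XT.nd (nat_lit 1170) (nat_lit 76) (nat_lit 0) (XT.nd (nat_lit 546) (nat_lit 380) (nat_lit 0) (XT.nd (nat_lit 234) (nat_lit 152) (nat_lit 0) (XT.nd (nat_lit 78) (nat_lit 152) (nat_lit 0) (XT.lf (nat_lit 0) (nat_lit 38682381846) (nat_lit 152) (nat_lit 2957936043) (nat_lit 0) (nat_lit 9685952662) (nat_lit 33) (nat_lit 5) (nat_lit 35) (nat_lit 4) (nat_lit 33) (nat_lit 4) (nat_lit 534) (nat_lit 397) (nat_lit 269)) (XT.nd (nat_lit 78) (nat_lit 76) (nat_lit 0) (XT.lf (nat_lit 0) (nat_lit 19524304202) (nat_lit 76) (nat_lit 31005126568) (nat_lit 76) (nat_lit 1989043215) (nat_lit 32) (nat_lit 4) (nat_lit 33) (nat_lit 5) (nat_lit 33) (nat_lit 4) (nat_lit 535) (nat_lit 397) (nat_lit 268)) (XT.lf (nat_lit 0) (nat_lit 8825627942) (nat_lit 152) (nat_lit 11119140347) (nat_lit 76) (nat_lit 33798618804) (nat_lit 31) (nat_lit 5) (nat_lit 33) (nat_lit 5) (nat_lit 32) (nat_lit 4)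 (nat_lit 536) (nat_lit 397) (nat_lit 267)))) (XT.nd (nat_lit 156) (nat_lit 76) (nat_lit 0) (XT.nd (nat_lit 78) (nat_lit 0) (nat_lit 0) (XT.lf (nat_lit 0) (nat_lit 11590888599) (nat_lit 76) (nat_lit 8431071800) (nat_lit 152) (nat_lit 34979580756) (nat_lit 30) (nat_lit 5) (nat_lit 31) (nat_lit 5) (nat_lit 32) (nat_lit 4) (nat_lit 537) (nat_lit 397) (nat_lit 266)) (XT.lf (nat_lit 0) (nat_lit 31686330045) (nat_lit 152) (nat_lit 21145745134) (nat_lit 0) (nat_lit 3461400567) (nat_lit 30) (nat_lit 5) (nat_lit 32) (nat_lit 4) (nat_lit 30) (nat_lit 4) (nat_lit 538) (nat_lit 397) (nat_lit 265))) (XT.nd (nat_lit 78) (nat_lit 0) (nat_lit 0) (XT.lf (nat_lit 0) (nat_lit 1710051794) (nat_lit 76) (nat_lit 42076708178) (nat_lit 76) (nat_lit 13834824841) (nat_lit 29) (nat_lit 4) (nat_lit 30) (nat_lit 5) (nat_lit 30) (nat_lit 4) (nat_lit 539) (nat_lit 397) (nat_lit 264)) (XT.lf (nat_lit 0) (nat_lit 25658302873) (nat_lit 76) (nat_lit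 30791790629) (nat_lit 76) (nat_lit 2533447235) (nat_lit 29) (nat_lit 4) (nat_lit 30) (nat_lit 5) (nat_lit 30) (nat_lit 4) (nat_lit 540) (nat_lit 397) (nat_lit 263))))) (XT.nd (nat_lit 312) (nat_lit 228) (nat_lit 0) (XT.nd (nat_lit 156) (nat_lit 0) (nat_lit 0) (XT.nd (nat_lit 78) (nat_lit 76) (nat_lit 0) (XT.lf (nat_lit 0) (nat_lit 8915887893) (nat_lit 152) (nat_lit 10175071610) (nat_lit 76) (nat_lit 41293171090) (nat_lit 28) (nat_lit 5) (nat_lit 30) (nat_lit 5) (nat_lit 29) (nat_lit 4) (nat_lit 541) (nat_lit 397) (nat_lit 262)) (XT.lf (nat_lit 0) (nat_lit 13890149273) (nat_lit 76) (nat_lit 6888170179) (nat_lit 152) (nat_lit 41044050377) (nat_lit 27) (nat_lit 5) (nat_lit 28) (nat_lit 5) (nat_lit 29) (nat_lit 4) (nat_lit 542) (nat_lit 397) (nat_lit 261))) (XT.nd (nat_lit 78) (nat_lit 0) (nat_lit 0) (XT.lf (nat_lit 0) (nat_lit 33142029380) (nat_lit 152) (nat_lit 24495823457) (nat_lit 0) (nat_lit 5661541514) (nat_lit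 27) (nat_lit 5) (nat_lit 29) (nat_lit 4) (nat_lit 27) (nat_lit 4) (nat_lit 543) (nat_lit 397) (nat_lit 260)) (XT.lf (nat_lit 0) (nat_lit 45932261423) (nat_lit 152) (nat_lit 449225157) (nat_lit 0) (nat_lit 18437574967) (nat_lit 27) (nat_lit 5) (nat_lit 29) (nat_lit 4) (nat_lit 27) (nat_lit 4) (nat_lit 544) (nat_lit 397) (nat_lit 259)))) (XT.nd (nat_lit 156) (nat_lit 76) (nat_lit 0) (XT.nd (nat_lit 78) (nat_lit 76) (nat_lit 0) (XT.lf (nat_lit 0) (nat_lit 24778313381) (nat_lit 76) (nat_lit 34553849134) (nat_lit 76) (nat_lit 7045377639) (nat_lit 26) (nat_lit 4) (nat_lit 27) (nat_lit 5) (nat_lit 27) (nat_lit 4) (nat_lit 545) (nat_lit 397) (nat_lit 258)) (XT.lf (nat_lit 0) (nat_lit 5043134159) (nat_lit 152) (nat_lit 17284292683) (nat_lit 76) (nat_lit 45654089991) (nat_lit 25) (nat_lit 5) (nat_lit 27) (nat_lit 5) (nat_lit 26) (nat_lit 4) (nat_lit 546) (nat_lit 397) (nat_lit 257))) (XT.nd (nat_lit 78) (nat_lit 0) (nat_lit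 0) (XT.lf (nat_lit 0) (nat_lit 7819640858) (nat_lit 76) (nat_lit 9596363874) (nat_lit 152) (nat_lit 52213616374) (nat_lit 24) (nat_lit 5) (nat_lit 25) (nat_lit 5) (nat_lit 26) (nat_lit 4) (nat_lit 547) (nat_lit 397) (nat_lit 256)) (XT.lf (nat_lit 0) (nat_lit 30358287347) (nat_lit 152) (nat_lit 37349757956) (nat_lit 0) (nat_lit 3613176654) (nat_lit 24) (nat_lit 5) (nat_lit 26) (nat_lit 4) (nat_lit 24) (nat_lit 4) (nat_lit 548) (nat_lit 397) (nat_lit 255)))))) (XT.nd (nat_lit 51558) (nat_lit 0) (nat_lit 26752) (XT.nd (nat_lit 51246) (nat_lit 0) (nat_lit 29032) (XT.nd (nat_lit 156) (nat_lit 0) (nat_lit 0) (XT.nd (nat_lit 78) (nat_lit 76) (nat_lit 0) (XT.lf (nat_lit 0) (nat_lit 43772353259) (nat_lit 152) (nat_lit 12273360880) (nat_lit 0) (nat_lit 17015351469) (nat_lit 24) (nat_lit 5) (nat_lit 26) (nat_lit 4) (nat_lit 24) (nat_lit 4) (nat_lit 549) (nat_lit 397) (nat_lit 254)) (XT.lf (nat_lit 0) (nat_lit 13802709083)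 (nat_lit 76) (nat_lit 43907648377) (nat_lit 76) (nat_lit 17139101834) (nat_lit 23) (nat_lit 4) (nat_lit 24) (nat_lit 5) (nat_lit 24) (nat_lit 4) (nat_lit 550) (nat_lit 397) (nat_lit 253))) (XT.nd (nat_lit 51012) (nat_lit 0) (nat_lit 29640) (XT.lf (nat_lit 0) (nat_lit 40890908709) (nat_lit 76) (nat_lit 31288482327) (nat_lit 76) (nat_lit 4508727286) (nat_lit 23) (nat_lit 4) (nat_lit 24) (nat_lit 5) (nat_lit 24) (nat_lit 4) (nat_lit 551) (nat_lit 397) (nat_lit 252)) (XT.lf (nat_lit 0) (nat_lit 91984165) (nat_lit 228) (nat_lit 3045740871) (nat_lit 0) (nat_lit 91984165) (nat_lit 413) (nat_lit 5) (nat_lit 416) (nat_lit 4) (nat_lit 413) (nat_lit 4) (nat_lit 404) (nat_lit 398) (nat_lit 398)))) (XT.nd (nat_lit 156) (nat_lit 304) (nat_lit 0) (XT.nd (nat_lit 78) (nat_lit 304) (nat_lit 0) (XT.lf (nat_lit 0) (nat_lit 3339909081) (nat_lit 228) (nat_lit 2608219884) (nat_lit 0) (nat_lit 520822227) (nat_lit 413) (nat_lit 5) (nat_lit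 416) (nat_lit 4) (nat_lit 413) (nat_lit 4) (nat_lit 405) (nat_lit 398) (nat_lit 397)) (XT.lf (nat_lit 0) (nat_lit 387654) (nat_lit 304) (nat_lit 5555277443) (nat_lit 76) (nat_lit 926397613) (nat_lit 409) (nat_lit 5) (nat_lit 413) (nat_lit 5) (nat_lit 410) (nat_lit 4) (nat_lit 406) (nat_lit 398) (nat_lit 396))) (XT.nd (nat_lit 78) (nat_lit 304) (nat_lit 0) (XT.lf (nat_lit 0) (nat_lit 3071983054) (nat_lit 304) (nat_lit 1977198517) (nat_lit 76) (nat_lit 1448169233) (nat_lit 409) (nat_lit 5) (nat_lit 413) (nat_lit 5) (nat_lit 410) (nat_lit 4) (nat_lit 407) (nat_lit 398) (nat_lit 395)) (XT.lf (nat_lit 0) (nat_lit 1670444189) (nat_lit 304) (nat_lit 4469276070) (nat_lit 380) (nat_lit 376303922) (nat_lit 405) (nat_lit 5) (nat_lit 409) (nat_lit 5) (nat_lit 410) (nat_lit 4) (nat_lit 408) (nat_lit 398) (nat_lit 394))))) (XT.nd (nat_lit 312) (nat_lit 1292) (nat_lit 0) (XT.nd (nat_lit 156) (nat_lit 532) (nat_lit 0) (XT.nd (nat_lit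 78) (nat_lit 380) (nat_lit 0) (XT.lf (nat_lit 0) (nat_lit 2619857872) (nat_lit 380) (nat_lit 1165311060) (nat_lit 76) (nat_lit 2752048489) (nat_lit 404) (nat_lit 5) (nat_lit 409) (nat_lit 5) (nat_lit 405) (nat_lit 5) (nat_lit 409) (nat_lit 398) (nat_lit 393)) (XT.lf (nat_lit 0) (nat_lit 2602591219) (nat_lit 380) (nat_lit 3013391606) (nat_lit 456) (nat_lit 945465126) (nat_lit 399) (nat_lit 5) (nat_lit 404) (nat_lit 5) (nat_lit 405) (nat_lit 5) (nat_lit 410) (nat_lit 398) (nat_lit 392))) (XT.nd (nat_lit 78) (nat_lit 456) (nat_lit 0) (XT.lf (nat_lit 0) (nat_lit 1980194758) (nat_lit 456) (nat_lit 170386639) (nat_lit 76) (nat_lit 4438077246) (nat_lit 398) (nat_lit 5) (nat_lit 404) (nat_lit 5) (nat_lit 399) (nat_lit 5) (nat_lit 411) (nat_lit 398) (nat_lit 391)) (XT.lf (nat_lit 0) (nat_lit 3725858377) (nat_lit 456) (nat_lit 1181673009) (nat_lit 532) (nat_lit 1710925051) (nat_lit 392) (nat_lit 5) (nat_lit 398) (nat_lit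 5) (nat_lit 399) (nat_lit 5) (nat_lit 412) (nat_lit 398) (nat_lit 390)))) (XT.nd (nat_lit 156) (nat_lit 684) (nat_lit 0) (XT.nd (nat_lit 78) (nat_lit 0) (nat_lit 0) (XT.lf (nat_lit 0) (nat_lit 1030636191) (nat_lit 532) (nat_lit 128097349) (nat_lit 608) (nat_lit 5492782690) (nat_lit 384) (nat_lit 5) (nat_lit 391) (nat_lit 5) (nat_lit 392) (nat_lit 5) (nat_lit 413) (nat_lit 398) (nat_lit 389)) (XT.lf (nat_lit 0) (nat_lit 4019762904) (nat_lit 608) (nat_lit 1653466312) (nat_lit 76) (nat_lit 1013675943) (nat_lit 384) (nat_lit 5) (nat_lit 392) (nat_lit 5) (nat_lit 385) (nat_lit 5) (nat_lit 414) (nat_lit 398) (nat_lit 388))) (XT.nd (nat_lit 78) (nat_lit 0) (nat_lit 0) (XT.lf (nat_lit 0) (nat_lit 166042328) (nat_lit 684) (nat_lit 4319563844) (nat_lit 76) (nat_lit 2239887334) (nat_lit 375) (nat_lit 5) (nat_lit 384) (nat_lit 5) (nat_lit 376) (nat_lit 5) (nat_lit 415) (nat_lit 398) (nat_lit 387)) (XT.lf (nat_lit 0) (nat_lit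 2952492042) (nat_lit 684) (nat_lit 242611710) (nat_lit 76) (nat_lit 3571719822) (nat_lit 375) (nat_lit 5) (nat_lit 384) (nat_lit 5) (nat_lit 376) (nat_lit 5) (nat_lit 416) (nat_lit 398) (nat_lit 386))))))))
noncomputable def xc92 : XT := (XT.nd (nat_lit 2340) (nat_lit 6232) (nat_lit 0) (XT.nd (nat_lit 1170) (nat_lit 5244) (nat_lit 0) (XT.nd (nat_lit 546) (nat_lit 5016) (nat_lit 0) (XT.nd (nat_lit 234) (nat_lit 2888) (nat_lit 0) (XT.nd (nat_lit 78) (nat_lit 836) (nat_lit 0) (XT.lf (nat_lit 0) (nat_lit 3963800506) (nat_lit 684) (nat_lit 1804618214) (nat_lit 760) (nat_lit 1042629956) (nat_lit 366) (nat_lit 5) (nat_lit 375) (nat_lit 5) (nat_lit 376) (nat_lit 5) (nat_lit 417) (nat_lit 398) (nat_lit 385)) (XT.nd (nat_lit 78) (nat_lit 0) (nat_lit 0) (XT.lf (nat_lit 0) (nat_lit 1383043389) (nat_lit 760) (nat_lit 318460740) (nat_lit 836) (nat_lit 5156864281) (nat_lit 355) (nat_lit 5) (nat_lit 365) (nat_lit 5) (nat_lit 366)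 (nat_lit 5) (nat_lit 418) (nat_lit 398) (nat_lit 384)) (XT.lf (nat_lit 0) (nat_lit 4458724291) (nat_lit 836) (nat_lit 1203430018) (nat_lit 76) (nat_lit 1246121149) (nat_lit 355) (nat_lit 5) (nat_lit 366) (nat_lit 5) (nat_lit 356) (nat_lit 5) (nat_lit 419) (nat_lit 398) (nat_lit 383)))) (XT.nd (nat_lit 156) (nat_lit 1064) (nat_lit 0) (XT.nd (nat_lit 78) (nat_lit 912) (nat_lit 0) (XT.lf (nat_lit 0) (nat_lit 279199536) (nat_lit 912) (nat_lit 3779811062) (nat_lit 76) (nat_lit 2902193667) (nat_lit 343) (nat_lit 5) (nat_lit 355) (nat_lit 5) (nat_lit 344) (nat_lit 5) (nat_lit 420) (nat_lit 398) (nat_lit 382)) (XT.lf (nat_lit 0) (nat_lit 622428410) (nat_lit 912) (nat_lit 2350998940) (nat_lit 988) (nat_lit 4043607046) (nat_lit 331) (nat_lit 5) (nat_lit 343) (nat_lit 5) (nat_lit 344) (nat_lit 5) (nat_lit 421) (nat_lit 398) (nat_lit 381))) (XT.nd (nat_lit 78) (nat_lit 1064) (nat_lit 0) (XT.lf (nat_lit 0) (nat_lit 5162509470)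 (nat_lit 912) (nat_lit 540531885) (nat_lit 988) (nat_lit 1372887019) (nat_lit 331) (nat_lit 5) (nat_lit 343) (nat_lit 5) (nat_lit 344) (nat_lit 5) (nat_lit 422) (nat_lit 398) (nat_lit 380)) (XT.lf (nat_lit 0) (nat_lit 1307944857) (nat_lit 1064) (nat_lit 4481344680) (nat_lit 76) (nat_lit 1348220134) (nat_lit 317) (nat_lit 5) (nat_lit 331) (nat_lit 5) (nat_lit 318) (nat_lit 5) (nat_lit 423) (nat_lit 398) (nat_lit 379))))) (XT.nd (nat_lit 312) (nat_lit 2736) (nat_lit 0) (XT.nd (nat_lit 156) (nat_lit 1216) (nat_lit 0) (XT.nd (nat_lit 78) (nat_lit 0) (nat_lit 0) (XT.lf (nat_lit 0) (nat_lit 111640723) (nat_lit 1064) (nat_lit 3875706427) (nat_lit 1140) (nat_lit 3214834836) (nat_lit 303) (nat_lit 5) (nat_lit 317) (nat_lit 5) (nat_lit 318) (nat_lit 5) (nat_lit 424) (nat_lit 398) (nat_lit 378)) (XT.lf (nat_lit 0) (nat_lit 4861892947) (nat_lit 1064) (nat_lit 1851932519) (nat_lit 1140) (nat_lit 555991039) (nat_lit 303) (nat_lit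 5) (nat_lit 317) (nat_lit 5) (nat_lit 318) (nat_lit 5) (nat_lit 425) (nat_lit 398) (nat_lit 377))) (XT.nd (nat_lit 78) (nat_lit 0) (nat_lit 0) (XT.lf (nat_lit 0) (nat_lit 2088466676) (nat_lit 1216) (nat_lit 4974640312) (nat_lit 76) (nat_lit 277312013) (nat_lit 287) (nat_lit 5) (nat_lit 303) (nat_lit 5) (nat_lit 288) (nat_lit 5) (nat_lit 426) (nat_lit 398) (nat_lit 376)) (XT.lf (nat_lit 0) (nat_lit 4768529920) (nat_lit 1216) (nat_lit 177895329) (nat_lit 76) (nat_lit 2467546693) (nat_lit 287) (nat_lit 5) (nat_lit 303) (nat_lit 5) (nat_lit 288) (nat_lit 5) (nat_lit 427) (nat_lit 398) (nat_lit 375)))) (XT.nd (nat_lit 156) (nat_lit 684) (nat_lit 0) (XT.nd (nat_lit 78) (nat_lit 760) (nat_lit 0) (XT.lf (nat_lit 0) (nat_lit 10954222) (nat_lit 1292) (nat_lit 2705872237) (nat_lit 76) (nat_lit 4773739701) (nat_lit 270) (nat_lit 5) (nat_lit 287) (nat_lit 5) (nat_lit 271) (nat_lit 5) (nat_lit 428) (nat_lit 398) (nat_lit 374))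 (XT.lf (nat_lit 0) (nat_lit 2276536820) (nat_lit 760) (nat_lit 368508966) (nat_lit 836) (nat_lit 4925110557) (nat_lit 260) (nat_lit 5) (nat_lit 270) (nat_lit 5) (nat_lit 271) (nat_lit 5) (nat_lit 429) (nat_lit 398) (nat_lit 373))) (XT.nd (nat_lit 78) (nat_lit 684) (nat_lit 0) (XT.lf (nat_lit 0) (nat_lit 5334363125) (nat_lit 836) (nat_lit 280929242) (nat_lit 76) (nat_lit 2037574355) (nat_lit 260) (nat_lit 5) (nat_lit 271) (nat_lit 5) (nat_lit 261) (nat_lit 5) (nat_lit 430) (nat_lit 398) (nat_lit 372)) (XT.lf (nat_lit 0) (nat_lit 340703490) (nat_lit 684) (nat_lit 2839180457) (nat_lit 76) (nat_lit 4558639856) (nat_lit 251) (nat_lit 5) (nat_lit 260) (nat_lit 5) (nat_lit 252) (nat_lit 5) (nat_lit 431) (nat_lit 398) (nat_lit 371)))))) (XT.nd (nat_lit 546) (nat_lit 2356) (nat_lit 0) (XT.nd (nat_lit 234) (nat_lit 1672) (nat_lit 0) (XT.nd (nat_lit 78) (nat_lit 608) (nat_lit 0) (XT.lf (nat_lit 0) (nat_lit 2365229443) (nat_lit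 608) (nat_lit 625073378) (nat_lit 684) (nat_lit 4837059646) (nat_lit 243) (nat_lit 5) (nat_lit 251) (nat_lit 5) (nat_lit 252) (nat_lit 5) (nat_lit 432) (nat_lit 398) (nat_lit 370)) (XT.nd (nat_lit 78) (nat_lit 608) (nat_lit 0) (XT.lf (nat_lit 0) (nat_lit 5700510274) (nat_lit 684) (nat_lit 226944453) (nat_lit 76) (nat_lit 1991994471) (nat_lit 243) (nat_lit 5) (nat_lit 252) (nat_lit 5) (nat_lit 244) (nat_lit 5) (nat_lit 433) (nat_lit 398) (nat_lit 369)) (XT.lf (nat_lit 0) (nat_lit 459202314) (nat_lit 608) (nat_lit 2829922921) (nat_lit 76) (nat_lit 4725327121) (nat_lit 235) (nat_lit 5) (nat_lit 243) (nat_lit 5) (nat_lit 236) (nat_lit 5) (nat_lit 434) (nat_lit 398) (nat_lit 368)))) (XT.nd (nat_lit 156) (nat_lit 1140) (nat_lit 0) (XT.nd (nat_lit 78) (nat_lit 0) (nat_lit 0) (XT.lf (nat_lit 0) (nat_lit 2607852685) (nat_lit 532) (nat_lit 528025710) (nat_lit 608) (nat_lit 4976899561) (nat_lit 228) (nat_lit 5) (nat_lit 235)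 (nat_lit 5) (nat_lit 236) (nat_lit 5) (nat_lit 435) (nat_lit 398) (nat_lit 367)) (XT.lf (nat_lit 0) (nat_lit 5880506506) (nat_lit 608) (nat_lit 41913495) (nat_lit 76) (nat_lit 2292018438) (nat_lit 228) (nat_lit 5) (nat_lit 236) (nat_lit 5) (nat_lit 229) (nat_lit 5) (nat_lit 436) (nat_lit 398) (nat_lit 366))) (XT.nd (nat_lit 78) (nat_lit 532) (nat_lit 0) (XT.lf (nat_lit 0) (nat_lit 378325597) (nat_lit 608) (nat_lit 2704364421) (nat_lit 76) (nat_lit 5236433208) (nat_lit 220) (nat_lit 5) (nat_lit 228) (nat_lit 5) (nat_lit 221) (nat_lit 5) (nat_lit 437) (nat_lit 398) (nat_lit 365)) (XT.lf (nat_lit 0) (nat_lit 2978711975) (nat_lit 532) (nat_lit 114276780) (nat_lit 608) (nat_lit 5334241551) (nat_lit 213) (nat_lit 5) (nat_lit 220) (nat_lit 5) (nat_lit 221) (nat_lit 5) (nat_lit 438) (nat_lit 398) (nat_lit 364))))) (XT.nd (nat_lit 312) (nat_lit 912) (nat_lit 0) (XT.nd (nat_lit 156) (nat_lit 912) (nat_lit 0) (XT.nd (nat_lit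 78) (nat_lit 76) (nat_lit 0) (XT.lf (nat_lit 0) (nat_lit 253983039) (nat_lit 456) (nat_lit 5633306576) (nat_lit 532) (nat_lit 2651358082) (nat_lit 207) (nat_lit 5) (nat_lit 213) (nat_lit 5) (nat_lit 214) (nat_lit 5) (nat_lit 439) (nat_lit 398) (nat_lit 363)) (XT.lf (nat_lit 0) (nat_lit 106872165) (nat_lit 532) (nat_lit 2488118285) (nat_lit 76) (nat_lit 6058485762) (nat_lit 206) (nat_lit 5) (nat_lit 213) (nat_lit 5) (nat_lit 207) (nat_lit 5) (nat_lit 440) (nat_lit 398) (nat_lit 362))) (XT.nd (nat_lit 78) (nat_lit 456) (nat_lit 0) (XT.lf (nat_lit 0) (nat_lit 2875440046) (nat_lit 532) (nat_lit 5324605351) (nat_lit 76) (nat_lit 571502169) (nat_lit 200) (nat_lit 5) (nat_lit 207) (nat_lit 5) (nat_lit 201) (nat_lit 5) (nat_lit 441) (nat_lit 398) (nat_lit 361)) (XT.lf (nat_lit 0) (nat_lit 633436359) (nat_lit 456) (nat_lit 5093759423) (nat_lit 532) (nat_lit 3165972934) (nat_lit 194) (nat_lit 5) (nat_lit 200) (nat_lit 5)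 (nat_lit 201) (nat_lit 5) (nat_lit 442) (nat_lit 398) (nat_lit 360)))) (XT.nd (nat_lit 156) (nat_lit 380) (nat_lit 0) (XT.nd (nat_lit 78) (nat_lit 532) (nat_lit 0) (XT.lf (nat_lit 0) (nat_lit 6808437065) (nat_lit 456) (nat_lit 1853789272) (nat_lit 532) (nat_lit 356291742) (nat_lit 194) (nat_lit 5) (nat_lit 200) (nat_lit 5) (nat_lit 201) (nat_lit 5) (nat_lit 443) (nat_lit 398) (nat_lit 359)) (XT.lf (nat_lit 0) (nat_lit 2486432240) (nat_lit 532) (nat_lit 5157293126) (nat_lit 76) (nat_lit 1503233193) (nat_lit 187) (nat_lit 5) (nat_lit 194) (nat_lit 5) (nat_lit 188) (nat_lit 5) (nat_lit 444) (nat_lit 398) (nat_lit 358))) (XT.nd (nat_lit 78) (nat_lit 0) (nat_lit 0) (XT.lf (nat_lit 0) (nat_lit 1070136855) (nat_lit 380) (nat_lit 4334144827) (nat_lit 456) (nat_lit 3874964886) (nat_lit 182) (nat_lit 5) (nat_lit 187) (nat_lit 5) (nat_lit 188) (nat_lit 5) (nat_lit 445) (nat_lit 398) (nat_lit 357)) (XT.lf (nat_lit 0) (nat_lit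 7520034546) (nat_lit 380) (nat_lit 888440160) (nat_lit 456) (nat_lit 1007074258) (nat_lit 182) (nat_lit 5) (nat_lit 187) (nat_lit 5) (nat_lit 188) (nat_lit 5) (nat_lit 446) (nat_lit 398) (nat_lit 356))))))) (XT.nd (nat_lit 1170) (nat_lit 2584) (nat_lit 0) (XT.nd (nat_lit 546) (nat_lit 1596) (nat_lit 0) (XT.nd (nat_lit 234) (nat_lit 1216) (nat_lit 0) (XT.nd (nat_lit 78) (nat_lit 380) (nat_lit 0) (XT.lf (nat_lit 0) (nat_lit 1926970981) (nat_lit 456) (nat_lit 4972021700) (nat_lit 76) (nat_lit 2655852495) (nat_lit 176) (nat_lit 5) (nat_lit 182) (nat_lit 5) (nat_lit 177) (nat_lit 5) (nat_lit 447) (nat_lit 398) (nat_lit 355)) (XT.nd (nat_lit 78) (nat_lit 0) (nat_lit 0) (XT.lf (nat_lit 0) (nat_lit 1537882087) (nat_lit 380) (nat_lit 3382284146) (nat_lit 456) (nat_lit 4778122957) (nat_lit 171) (nat_lit 5) (nat_lit 176) (nat_lit 5) (nat_lit 177) (nat_lit 5) (nat_lit 448) (nat_lit 398) (nat_lit 354)) (XT.lf (nat_lit 0) (nat_lit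 8005288231) (nat_lit 456) (nat_lit 1572790172) (nat_lit 76) (nat_lit 267903069) (nat_lit 171) (nat_lit 5) (nat_lit 177) (nat_lit 5) (nat_lit 172) (nat_lit 5) (nat_lit 449) (nat_lit 398) (nat_lit 353)))) (XT.nd (nat_lit 156) (nat_lit 456) (nat_lit 0) (XT.nd (nat_lit 78) (nat_lit 304) (nat_lit 0) (XT.lf (nat_lit 0) (nat_lit 1196261814) (nat_lit 456) (nat_lit 4796546716) (nat_lit 76) (nat_lit 4003926972) (nat_lit 165) (nat_lit 5) (nat_lit 171) (nat_lit 5) (nat_lit 166) (nat_lit 5) (nat_lit 450) (nat_lit 398) (nat_lit 352)) (XT.lf (nat_lit 0) (nat_lit 2009162758) (nat_lit 304) (nat_lit 2264419195) (nat_lit 380) (nat_lit 5878304004) (nat_lit 161) (nat_lit 5) (nat_lit 165) (nat_lit 5) (nat_lit 166) (nat_lit 5) (nat_lit 451) (nat_lit 398) (nat_lit 351))) (XT.nd (nat_lit 78) (nat_lit 456) (nat_lit 0) (XT.lf (nat_lit 0) (nat_lit 7458770988) (nat_lit 380) (nat_lit 1277814787) (nat_lit 76) (nat_lit 1574646558) (nat_lit 161)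 (nat_lit 5) (nat_lit 166) (nat_lit 5) (nat_lit 162) (nat_lit 5) (nat_lit 452) (nat_lit 398) (nat_lit 350)) (XT.lf (nat_lit 0) (nat_lit 290537873) (nat_lit 456) (nat_lit 4660448630) (nat_lit 76) (nat_lit 5523357774) (nat_lit 155) (nat_lit 5) (nat_lit 161) (nat_lit 5) (nat_lit 156) (nat_lit 5) (nat_lit 453) (nat_lit 398) (nat_lit 349))))) (XT.nd (nat_lit 312) (nat_lit 608) (nat_lit 0) (XT.nd (nat_lit 156) (nat_lit 684) (nat_lit 0) (XT.nd (nat_lit 78) (nat_lit 0) (nat_lit 0) (XT.lf (nat_lit 0) (nat_lit 2454537569) (nat_lit 304) (nat_lit 1005747720) (nat_lit 380) (nat_lit 7181530546) (nat_lit 151) (nat_lit 5) (nat_lit 155) (nat_lit 5) (nat_lit 156) (nat_lit 5) (nat_lit 454) (nat_lit 398) (nat_lit 348)) (XT.lf (nat_lit 0) (nat_lit 6755731522) (nat_lit 380) (nat_lit 1032357769) (nat_lit 76) (nat_lit 3025311064) (nat_lit 151) (nat_lit 5) (nat_lit 156) (nat_lit 5) (nat_lit 152) (nat_lit 5) (nat_lit 455) (nat_lit 398) (nat_lit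 347))) (XT.nd (nat_lit 78) (nat_lit 380) (nat_lit 0) (XT.lf (nat_lit 0) (nat_lit 6385738692) (nat_lit 304) (nat_lit 3790678088) (nat_lit 380) (nat_lit 812931163) (nat_lit 147) (nat_lit 5) (nat_lit 151) (nat_lit 5) (nat_lit 152) (nat_lit 5) (nat_lit 456) (nat_lit 398) (nat_lit 346)) (XT.lf (nat_lit 0) (nat_lit 2476459300) (nat_lit 380) (nat_lit 8331654954) (nat_lit 76) (nat_lit 361836860) (nat_lit 142) (nat_lit 5) (nat_lit 147) (nat_lit 5) (nat_lit 143) (nat_lit 5) (nat_lit 457) (nat_lit 398) (nat_lit 345)))) (XT.nd (nat_lit 156) (nat_lit 304) (nat_lit 0) (XT.nd (nat_lit 78) (nat_lit 304) (nat_lit 0) (XT.lf (nat_lit 0) (nat_lit 5888403877) (nat_lit 380) (nat_lit 869630097) (nat_lit 76) (nat_lit 4596496821) (nat_lit 142) (nat_lit 5) (nat_lit 147) (nat_lit 5) (nat_lit 143) (nat_lit 5) (nat_lit 458) (nat_lit 398) (nat_lit 344)) (XT.lf (nat_lit 0) (nat_lit 6885727660) (nat_lit 304) (nat_lit 2540190654) (nat_lit 380)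 (nat_lit 2118039251) (nat_lit 138) (nat_lit 5) (nat_lit 142) (nat_lit 5) (nat_lit 143) (nat_lit 5) (nat_lit 459) (nat_lit 398) (nat_lit 343))) (XT.nd (nat_lit 78) (nat_lit 0) (nat_lit 0) (XT.lf (nat_lit 0) (nat_lit 1318413647) (nat_lit 304) (nat_lit 8620470056) (nat_lit 76) (nat_lit 1799388888) (nat_lit 134) (nat_lit 5) (nat_lit 138) (nat_lit 5) (nat_lit 135) (nat_lit 5) (nat_lit 460) (nat_lit 398) (nat_lit 342)) (XT.lf (nat_lit 0) (nat_lit 4845686831) (nat_lit 304) (nat_lit 826518281) (nat_lit 76) (nat_lit 6264679450) (nat_lit 134) (nat_lit 5) (nat_lit 138) (nat_lit 5) (nat_lit 135) (nat_lit 5) (nat_lit 461) (nat_lit 398) (nat_lit 341)))))) (XT.nd (nat_lit 546) (nat_lit 1140) (nat_lit 0) (XT.nd (nat_lit 234) (nat_lit 836) (nat_lit 0) (XT.nd (nat_lit 78) (nat_lit 304) (nat_lit 0) (XT.lf (nat_lit 0) (nat_lit 7279682880) (nat_lit 304) (nat_lit 1227947888) (nat_lit 380) (nat_lit 3632963918) (nat_lit 130) (nat_lit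 5) (nat_lit 134) (nat_lit 5) (nat_lit 135) (nat_lit 5) (nat_lit 462) (nat_lit 398) (nat_lit 340)) (XT.nd (nat_lit 78) (nat_lit 76) (nat_lit 0) (XT.lf (nat_lit 0) (nat_lit 3263239863) (nat_lit 228) (nat_lit 9047441077) (nat_lit 304) (nat_lit 38802949) (nat_lit 127) (nat_lit 5) (nat_lit 130) (nat_lit 5) (nat_lit 131) (nat_lit 5) (nat_lit 463) (nat_lit 398) (nat_lit 339)) (XT.lf (nat_lit 0) (nat_lit 3612857516) (nat_lit 304) (nat_lit 944452218) (nat_lit 76) (nat_lit 8005643868) (nat_lit 126) (nat_lit 5) (nat_lit 130) (nat_lit 5) (nat_lit 127) (nat_lit 5) (nat_lit 464) (nat_lit 398) (nat_lit 338)))) (XT.nd (nat_lit 156) (nat_lit 304) (nat_lit 0) (XT.nd (nat_lit 78) (nat_lit 228) (nat_lit 0) (XT.lf (nat_lit 0) (nat_lit 7407387446) (nat_lit 380) (nat_lit 5257236167) (nat_lit 76) (nat_lit 117174053) (nat_lit 122) (nat_lit 5) (nat_lit 127) (nat_lit 5) (nat_lit 123) (nat_lit 5) (nat_lit 465) (nat_lit 398) (nat_lit 337))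 (XT.lf (nat_lit 0) (nat_lit 3214946163) (nat_lit 228) (nat_lit 8147407580) (nat_lit 304) (nat_lit 1643459926) (nat_lit 119) (nat_lit 5) (nat_lit 122) (nat_lit 5) (nat_lit 123) (nat_lit 5) (nat_lit 466) (nat_lit 398) (nat_lit 336))) (XT.nd (nat_lit 78) (nat_lit 228) (nat_lit 0) (XT.lf (nat_lit 0) (nat_lit 2171212140) (nat_lit 304) (nat_lit 1270385185) (nat_lit 76) (nat_lit 9793881574) (nat_lit 118) (nat_lit 5) (nat_lit 122) (nat_lit 5) (nat_lit 119) (nat_lit 5) (nat_lit 467) (nat_lit 398) (nat_lit 335)) (XT.lf (nat_lit 0) (nat_lit 6116520249) (nat_lit 304) (nat_lit 5908378635) (nat_lit 76) (nat_lit 1445174450) (nat_lit 115) (nat_lit 5) (nat_lit 119) (nat_lit 5) (nat_lit 116) (nat_lit 5) (nat_lit 468) (nat_lit 398) (nat_lit 334))))) (XT.nd (nat_lit 312) (nat_lit 456) (nat_lit 0) (XT.nd (nat_lit 156) (nat_lit 380) (nat_lit 0) (XT.nd (nat_lit 78) (nat_lit 76) (nat_lit 0) (XT.lf (nat_lit 0) (nat_lit 2935239335) (nat_lit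 228) (nat_lit 7282722739) (nat_lit 304) (nat_lit 3492614408) (nat_lit 112) (nat_lit 5) (nat_lit 115) (nat_lit 5) (nat_lit 116) (nat_lit 5) (nat_lit 469) (nat_lit 398) (nat_lit 333)) (XT.lf (nat_lit 0) (nat_lit 497625253) (nat_lit 304) (nat_lit 1857907086) (nat_lit 76) (nat_lit 11601939035) (nat_lit 111) (nat_lit 5) (nat_lit 115) (nat_lit 5) (nat_lit 112) (nat_lit 5) (nat_lit 470) (nat_lit 398) (nat_lit 332))) (XT.nd (nat_lit 78) (nat_lit 152) (nat_lit 0) (XT.lf (nat_lit 0) (nat_lit 4598998702) (nat_lit 304) (nat_lit 6859897410) (nat_lit 76) (nat_lit 2749994616) (nat_lit 108) (nat_lit 5) (nat_lit 112) (nat_lit 5) (nat_lit 109) (nat_lit 5) (nat_lit 471) (nat_lit 398) (nat_lit 331)) (XT.lf (nat_lit 0) (nat_lit 2365632913) (nat_lit 152) (nat_lit 6486807325) (nat_lit 228) (nat_lit 5614545274) (nat_lit 106) (nat_lit 5) (nat_lit 108) (nat_lit 5) (nat_lit 109) (nat_lit 5) (nat_lit 472) (nat_lit 398) (nat_lit 330)))) (XT.nd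 (nat_lit 156) (nat_lit 152) (nat_lit 0) (XT.nd (nat_lit 78) (nat_lit 304) (nat_lit 0) (XT.lf (nat_lit 0) (nat_lit 11949220313) (nat_lit 152) (nat_lit 1318031824) (nat_lit 228) (nat_lit 1464561540) (nat_lit 106) (nat_lit 5) (nat_lit 108) (nat_lit 5) (nat_lit 109) (nat_lit 5) (nat_lit 473) (nat_lit 398) (nat_lit 329)) (XT.lf (nat_lit 0) (nat_lit 2825460840) (nat_lit 304) (nat_lit 8177677571) (nat_lit 76) (nat_lit 3998530177) (nat_lit 102) (nat_lit 5) (nat_lit 106) (nat_lit 5) (nat_lit 103) (nat_lit 5) (nat_lit 474) (nat_lit 398) (nat_lit 328))) (XT.nd (nat_lit 78) (nat_lit 0) (nat_lit 0) (XT.lf (nat_lit 0) (nat_lit 1438747802) (nat_lit 152) (nat_lit 5796676251) (nat_lit 228) (nat_lit 8043143030) (nat_lit 100) (nat_lit 5) (nat_lit 102) (nat_lit 5) (nat_lit 103) (nat_lit 5) (nat_lit 475) (nat_lit 398) (nat_lit 327)) (XT.lf (nat_lit 0) (nat_lit 11453338294) (nat_lit 152) (nat_lit 372795924) (nat_lit 228) (nat_lit 3736188029)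 (nat_lit 100) (nat_lit 5) (nat_lit 102) (nat_lit 5) (nat_lit 103) (nat_lit 5) (nat_lit 476) (nat_lit 398) (nat_lit 326))))))))
noncomputable def xc93 : XT := (XT.nd (nat_lit 2340) (nat_lit 1976) (nat_lit 0) (XT.nd (nat_lit 1170) (nat_lit 1292) (nat_lit 0) (XT.nd (nat_lit 546) (nat_lit 912) (nat_lit 0) (XT.nd (nat_lit 234) (nat_lit 608) (nat_lit 0) (XT.nd (nat_lit 78) (nat_lit 152) (nat_lit 0) (XT.lf (nat_lit 0) (nat_lit 760730161) (nat_lit 304) (nat_lit 9937668092) (nat_lit 76) (nat_lit 5153760520) (nat_lit 96) (nat_lit 5) (nat_lit 100) (nat_lit 5) (nat_lit 97) (nat_lit 5) (nat_lit 477) (nat_lit 398) (nat_lit 325)) (XT.nd (nat_lit 78) (nat_lit 0) (nat_lit 0) (XT.lf (nat_lit 0) (nat_lit 76702953) (nat_lit 152) (nat_lit 5253832002) (nat_lit 228) (nat_lit 10818656385) (nat_lit 94) (nat_lit 5) (nat_lit 96) (nat_lit 5) (nat_lit 97) (nat_lit 5) (nat_lit 478) (nat_lit 398) (nat_lit 324)) (XT.lf (nat_lit 0) (nat_lit 10109119163)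 (nat_lit 228) (nat_lit 5918657061) (nat_lit 76) (nat_lit 425210903) (nat_lit 94) (nat_lit 5) (nat_lit 97) (nat_lit 5) (nat_lit 95) (nat_lit 5) (nat_lit 479) (nat_lit 398) (nat_lit 323)))) (XT.nd (nat_lit 156) (nat_lit 304) (nat_lit 0) (XT.nd (nat_lit 78) (nat_lit 76) (nat_lit 0) (XT.lf (nat_lit 0) (nat_lit 4520295628) (nat_lit 228) (nat_lit 10574135433) (nat_lit 304) (nat_lit 1669567344) (nat_lit 91) (nat_lit 5) (nat_lit 94) (nat_lit 5) (nat_lit 95) (nat_lit 5) (nat_lit 480) (nat_lit 398) (nat_lit 322)) (XT.lf (nat_lit 0) (nat_lit 3111940050) (nat_lit 304) (nat_lit 1775402931) (nat_lit 76) (nat_lit 12195242248) (nat_lit 90) (nat_lit 5) (nat_lit 94) (nat_lit 5) (nat_lit 91) (nat_lit 5) (nat_lit 481) (nat_lit 398) (nat_lit 321))) (XT.nd (nat_lit 78) (nat_lit 152) (nat_lit 0) (XT.lf (nat_lit 0) (nat_lit 8070001579) (nat_lit 228) (nat_lit 8304561503) (nat_lit 76) (nat_lit 1033673186) (nat_lit 88) (nat_lit 5) (nat_lit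 91) (nat_lit 5) (nat_lit 89) (nat_lit 5) (nat_lit 482) (nat_lit 398) (nat_lit 320)) (XT.lf (nat_lit 0) (nat_lit 2549254281) (nat_lit 152) (nat_lit 10687641215) (nat_lit 228) (nat_lit 4504961044) (nat_lit 86) (nat_lit 5) (nat_lit 88) (nat_lit 5) (nat_lit 89) (nat_lit 5) (nat_lit 483) (nat_lit 398) (nat_lit 319))))) (XT.nd (nat_lit 312) (nat_lit 532) (nat_lit 0) (XT.nd (nat_lit 156) (nat_lit 152) (nat_lit 0) (XT.nd (nat_lit 78) (nat_lit 152) (nat_lit 0) (XT.lf (nat_lit 0) (nat_lit 517933981) (nat_lit 228) (nat_lit 4243836684) (nat_lit 76) (nat_lit 13321964764) (nat_lit 85) (nat_lit 5) (nat_lit 88) (nat_lit 5) (nat_lit 86) (nat_lit 5) (nat_lit 484) (nat_lit 398) (nat_lit 318)) (XT.lf (nat_lit 0) (nat_lit 5652831133) (nat_lit 228) (nat_lit 11373181225) (nat_lit 76) (nat_lit 1406966618) (nat_lit 83) (nat_lit 5) (nat_lit 86) (nat_lit 5) (nat_lit 84) (nat_lit 5) (nat_lit 485) (nat_lit 398) (nat_lit 317))) (XT.nd (nat_lit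 78) (nat_lit 152) (nat_lit 0) (XT.lf (nat_lit 0) (nat_lit 11002417703) (nat_lit 228) (nat_lit 102423883) (nat_lit 76) (nat_lit 7686041116) (nat_lit 83) (nat_lit 5) (nat_lit 86) (nat_lit 5) (nat_lit 84) (nat_lit 5) (nat_lit 486) (nat_lit 398) (nat_lit 316)) (XT.lf (nat_lit 0) (nat_lit 11683001726) (nat_lit 152) (nat_lit 4912879284) (nat_lit 228) (nat_lit 2561142941) (nat_lit 81) (nat_lit 5) (nat_lit 83) (nat_lit 5) (nat_lit 84) (nat_lit 5) (nat_lit 487) (nat_lit 398) (nat_lit 315)))) (XT.nd (nat_lit 156) (nat_lit 304) (nat_lit 0) (XT.nd (nat_lit 78) (nat_lit 0) (nat_lit 0) (XT.lf (nat_lit 0) (nat_lit 2795947695) (nat_lit 228) (nat_lit 15252349285) (nat_lit 76) (nat_lit 1484199256) (nat_lit 78) (nat_lit 5) (nat_lit 81) (nat_lit 5) (nat_lit 79) (nat_lit 5) (nat_lit 488) (nat_lit 398) (nat_lit 314)) (XT.lf (nat_lit 0) (nat_lit 8358423724) (nat_lit 228) (nat_lit 3503203976) (nat_lit 76) (nat_lit 8053961690) (nat_lit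 78) (nat_lit 5) (nat_lit 81) (nat_lit 5) (nat_lit 79) (nat_lit 5) (nat_lit 489) (nat_lit 398) (nat_lit 313))) (XT.nd (nat_lit 78) (nat_lit 152) (nat_lit 0) (XT.lf (nat_lit 0) (nat_lit 8718407962) (nat_lit 152) (nat_lit 5425295570) (nat_lit 228) (nat_lit 6164795774) (nat_lit 76) (nat_lit 5) (nat_lit 78) (nat_lit 5) (nat_lit 79) (nat_lit 5) (nat_lit 490) (nat_lit 398) (nat_lit 312)) (XT.lf (nat_lit 0) (nat_lit 616184814) (nat_lit 152) (nat_lit 19511825740) (nat_lit 228) (nat_lit 584423700) (nat_lit 74) (nat_lit 5) (nat_lit 76) (nat_lit 5) (nat_lit 77) (nat_lit 4) (nat_lit 491) (nat_lit 398) (nat_lit 311)))))) (XT.nd (nat_lit 546) (nat_lit 608) (nat_lit 0) (XT.nd (nat_lit 234) (nat_lit 456) (nat_lit 0) (XT.nd (nat_lit 78) (nat_lit 152) (nat_lit 0) (XT.lf (nat_lit 0) (nat_lit 5206817461) (nat_lit 228) (nat_lit 7853568891) (nat_lit 76) (nat_lit 8062287182) (nat_lit 73) (nat_lit 5) (nat_lit 76) (nat_lit 5) (nat_lit 74)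 (nat_lit 5) (nat_lit 492) (nat_lit 398) (nat_lit 310)) (XT.nd (nat_lit 78) (nat_lit 0) (nat_lit 0) (XT.lf (nat_lit 0) (nat_lit 4795325826) (nat_lit 152) (nat_lit 6383927929) (nat_lit 228) (nat_lit 10365218166) (nat_lit 71) (nat_lit 5) (nat_lit 73) (nat_lit 5) (nat_lit 74) (nat_lit 5) (nat_lit 493) (nat_lit 398) (nat_lit 309)) (XT.lf (nat_lit 0) (nat_lit 17388908611) (nat_lit 228) (nat_lit 4046353986) (nat_lit 76) (nat_lit 541921896) (nat_lit 71) (nat_lit 5) (nat_lit 74) (nat_lit 5) (nat_lit 72) (nat_lit 4) (nat_lit 494) (nat_lit 398) (nat_lit 308)))) (XT.nd (nat_lit 156) (nat_lit 228) (nat_lit 0) (XT.nd (nat_lit 78) (nat_lit 0) (nat_lit 0) (XT.lf (nat_lit 0) (nat_lit 1461352980) (nat_lit 228) (nat_lit 13329028360) (nat_lit 76) (nat_lit 7628327185) (nat_lit 68) (nat_lit 5) (nat_lit 71) (nat_lit 5) (nat_lit 69) (nat_lit 5) (nat_lit 495) (nat_lit 398) (nat_lit 307)) (XT.lf (nat_lit 0) (nat_lit 7615562040) (nat_lit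 228) (nat_lit 262933871) (nat_lit 76) (nat_lit 14993161641) (nat_lit 68) (nat_lit 5) (nat_lit 71) (nat_lit 5) (nat_lit 69) (nat_lit 5) (nat_lit 496) (nat_lit 398) (nat_lit 306))) (XT.nd (nat_lit 78) (nat_lit 76) (nat_lit 0) (XT.lf (nat_lit 0) (nat_lit 13410629246) (nat_lit 152) (nat_lit 647481563) (nat_lit 228) (nat_lit 9276974258) (nat_lit 66) (nat_lit 5) (nat_lit 68) (nat_lit 5) (nat_lit 69) (nat_lit 5) (nat_lit 497) (nat_lit 398) (nat_lit 305)) (XT.lf (nat_lit 0) (nat_lit 3646922486) (nat_lit 76) (nat_lit 17125017620) (nat_lit 152) (nat_lit 3038136558) (nat_lit 65) (nat_lit 5) (nat_lit 66) (nat_lit 5) (nat_lit 67) (nat_lit 4) (nat_lit 498) (nat_lit 398) (nat_lit 304))))) (XT.nd (nat_lit 312) (nat_lit 304) (nat_lit 0) (XT.nd (nat_lit 156) (nat_lit 76) (nat_lit 0) (XT.nd (nat_lit 78) (nat_lit 152) (nat_lit 0) (XT.lf (nat_lit 0) (nat_lit 3404316805) (nat_lit 152) (nat_lit 6553742065) (nat_lit 76) (nat_lit 14337806650)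 (nat_lit 64) (nat_lit 5) (nat_lit 66) (nat_lit 5) (nat_lit 65) (nat_lit 5) (nat_lit 499) (nat_lit 398) (nat_lit 303)) (XT.lf (nat_lit 0) (nat_lit 7535929703) (nat_lit 152) (nat_lit 2491159913) (nat_lit 228) (nat_lit 14766793989) (nat_lit 62) (nat_lit 5) (nat_lit 64) (nat_lit 5) (nat_lit 65) (nat_lit 5) (nat_lit 500) (nat_lit 398) (nat_lit 302))) (XT.nd (nat_lit 78) (nat_lit 76) (nat_lit 0) (XT.lf (nat_lit 0) (nat_lit 16941116642) (nat_lit 228) (nat_lit 3217938092) (nat_lit 76) (nat_lit 5145011594) (nat_lit 62) (nat_lit 5) (nat_lit 65) (nat_lit 5) (nat_lit 63) (nat_lit 4) (nat_lit 501) (nat_lit 398) (nat_lit 301)) (XT.lf (nat_lit 0) (nat_lit 11397247819) (nat_lit 76) (nat_lit 12775997855) (nat_lit 152) (nat_lit 1652989611) (nat_lit 61) (nat_lit 5) (nat_lit 62) (nat_lit 5) (nat_lit 63) (nat_lit 4) (nat_lit 502) (nat_lit 398) (nat_lit 300)))) (XT.nd (nat_lit 156) (nat_lit 76) (nat_lit 0) (XT.nd (nat_lit 78) (nat_lit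 0) (nat_lit 0) (XT.lf (nat_lit 0) (nat_lit 60261320) (nat_lit 152) (nat_lit 5105292493) (nat_lit 228) (nat_lit 21196703478) (nat_lit 58) (nat_lit 5) (nat_lit 60) (nat_lit 5) (nat_lit 61) (nat_lit 5) (nat_lit 503) (nat_lit 398) (nat_lit 299)) (XT.lf (nat_lit 0) (nat_lit 12306020019) (nat_lit 228) (nat_lit 11718584052) (nat_lit 76) (nat_lit 2884748290) (nat_lit 58) (nat_lit 5) (nat_lit 61) (nat_lit 5) (nat_lit 59) (nat_lit 4) (nat_lit 504) (nat_lit 398) (nat_lit 298))) (XT.nd (nat_lit 78) (nat_lit 0) (nat_lit 0) (XT.lf (nat_lit 0) (nat_lit 3273048178) (nat_lit 76) (nat_lit 16446914886) (nat_lit 152) (nat_lit 7751120389) (nat_lit 57) (nat_lit 5) (nat_lit 58) (nat_lit 5) (nat_lit 59) (nat_lit 4) (nat_lit 505) (nat_lit 398) (nat_lit 297)) (XT.lf (nat_lit 0) (nat_lit 18912462986) (nat_lit 76) (nat_lit 8539706020) (nat_lit 152) (nat_lit 594623159) (nat_lit 57) (nat_lit 5) (nat_lit 58) (nat_lit 5) (nat_lit 59) (nat_lit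 4) (nat_lit 506) (nat_lit 398) (nat_lit 296))))))) (XT.nd (nat_lit 1170) (nat_lit 836) (nat_lit 0) (XT.nd (nat_lit 546) (nat_lit 532) (nat_lit 0) (XT.nd (nat_lit 234) (nat_lit 304) (nat_lit 0) (XT.nd (nat_lit 78) (nat_lit 76) (nat_lit 0) (XT.lf (nat_lit 0) (nat_lit 6399630402) (nat_lit 152) (nat_lit 284168248) (nat_lit 228) (nat_lit 21952836294) (nat_lit 54) (nat_lit 5) (nat_lit 56) (nat_lit 5) (nat_lit 57) (nat_lit 5) (nat_lit 507) (nat_lit 398) (nat_lit 295)) (XT.nd (nat_lit 78) (nat_lit 76) (nat_lit 0) (XT.lf (nat_lit 0) (nat_lit 14318791844) (nat_lit 228) (nat_lit 6781821061) (nat_lit 76) (nat_lit 8138879316) (nat_lit 54) (nat_lit 5) (nat_lit 57) (nat_lit 5) (nat_lit 55) (nat_lit 4) (nat_lit 508) (nat_lit 398) (nat_lit 294)) (XT.lf (nat_lit 0) (nat_lit 9274937668) (nat_lit 76) (nat_lit 12978519123) (nat_lit 152) (nat_lit 7604860677) (nat_lit 53) (nat_lit 5) (nat_lit 54) (nat_lit 5) (nat_lit 55) (nat_lit 4)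 (nat_lit 509) (nat_lit 398) (nat_lit 293)))) (XT.nd (nat_lit 156) (nat_lit 76) (nat_lit 0) (XT.nd (nat_lit 78) (nat_lit 228) (nat_lit 0) (XT.lf (nat_lit 0) (nat_lit 25912560343) (nat_lit 76) (nat_lit 4560975107) (nat_lit 152) (nat_lit 20751695) (nat_lit 53) (nat_lit 5) (nat_lit 54) (nat_lit 5) (nat_lit 55) (nat_lit 4) (nat_lit 510) (nat_lit 398) (nat_lit 292)) (XT.lf (nat_lit 0) (nat_lit 7774910600) (nat_lit 228) (nat_lit 19164914442) (nat_lit 76) (nat_lit 4203183237) (nat_lit 50) (nat_lit 5) (nat_lit 53) (nat_lit 5) (nat_lit 51) (nat_lit 4) (nat_lit 511) (nat_lit 398) (nat_lit 291))) (XT.nd (nat_lit 78) (nat_lit 76) (nat_lit 0) (XT.lf (nat_lit 0) (nat_lit 15875265189) (nat_lit 228) (nat_lit 2766161946) (nat_lit 76) (nat_lit 13167621373) (nat_lit 50) (nat_lit 5) (nat_lit 53) (nat_lit 5) (nat_lit 51) (nat_lit 4) (nat_lit 512) (nat_lit 398) (nat_lit 290)) (XT.lf (nat_lit 0) (nat_lit 14366876236) (nat_lit 76) (nat_lit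 9969815443) (nat_lit 152) (nat_lit 8154837214) (nat_lit 49) (nat_lit 5) (nat_lit 50) (nat_lit 5) (nat_lit 51) (nat_lit 4) (nat_lit 513) (nat_lit 398) (nat_lit 289))))) (XT.nd (nat_lit 312) (nat_lit 228) (nat_lit 0) (XT.nd (nat_lit 156) (nat_lit 76) (nat_lit 0) (XT.nd (nat_lit 78) (nat_lit 228) (nat_lit 0) (XT.lf (nat_lit 0) (nat_lit 32032955591) (nat_lit 76) (nat_lit 1027118042) (nat_lit 152) (nat_lit 134167440) (nat_lit 49) (nat_lit 5) (nat_lit 50) (nat_lit 5) (nat_lit 51) (nat_lit 4) (nat_lit 514) (nat_lit 398) (nat_lit 288)) (XT.lf (nat_lit 0) (nat_lit 8188727933) (nat_lit 228) (nat_lit 17474110791) (nat_lit 76) (nat_lit 8246247078) (nat_lit 46) (nat_lit 5) (nat_lit 49) (nat_lit 5) (nat_lit 47) (nat_lit 4) (nat_lit 515) (nat_lit 398) (nat_lit 287))) (XT.nd (nat_lit 78) (nat_lit 76) (nat_lit 0) (XT.lf (nat_lit 0) (nat_lit 16761239220) (nat_lit 228) (nat_lit 110702084) (nat_lit 76) (nat_lit 17773316646) (nat_lit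 46) (nat_lit 5) (nat_lit 49) (nat_lit 5) (nat_lit 47) (nat_lit 4) (nat_lit 516) (nat_lit 398) (nat_lit 286)) (XT.lf (nat_lit 0) (nat_lit 18090708658) (nat_lit 76) (nat_lit 7655294189) (nat_lit 152) (nat_lit 9652860783) (nat_lit 45) (nat_lit 5) (nat_lit 46) (nat_lit 5) (nat_lit 47) (nat_lit 4) (nat_lit 517) (nat_lit 398) (nat_lit 285)))) (XT.nd (nat_lit 156) (nat_lit 76) (nat_lit 0) (XT.nd (nat_lit 78) (nat_lit 76) (nat_lit 0) (XT.lf (nat_lit 0) (nat_lit 623925242) (nat_lit 76) (nat_lit 34382398691) (nat_lit 76) (nat_lit 1168573770) (nat_lit 44) (nat_lit 4) (nat_lit 45) (nat_lit 5) (nat_lit 45) (nat_lit 4) (nat_lit 518) (nat_lit 398) (nat_lit 284)) (XT.lf (nat_lit 0) (nat_lit 7656064709) (nat_lit 152) (nat_lit 17706477267) (nat_lit 76) (nat_lit 11602481982) (nat_lit 43) (nat_lit 5) (nat_lit 45) (nat_lit 5) (nat_lit 44) (nat_lit 4) (nat_lit 519) (nat_lit 398) (nat_lit 283))) (XT.nd (nat_lit 78) (nat_lit 0) (nat_lit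 0) (XT.lf (nat_lit 0) (nat_lit 639325644) (nat_lit 76) (nat_lit 16070563114) (nat_lit 152) (nat_lit 21068980737) (nat_lit 42) (nat_lit 5) (nat_lit 43) (nat_lit 5) (nat_lit 44) (nat_lit 4) (nat_lit 520) (nat_lit 398) (nat_lit 282)) (XT.lf (nat_lit 0) (nat_lit 19863877897) (nat_lit 76) (nat_lit 6332236280) (nat_lit 152) (nat_lit 12416193206) (nat_lit 42) (nat_lit 5) (nat_lit 43) (nat_lit 5) (nat_lit 44) (nat_lit 4) (nat_lit 521) (nat_lit 398) (nat_lit 281)))))) (XT.nd (nat_lit 624) (nat_lit 380) (nat_lit 0) (XT.nd (nat_lit 312) (nat_lit 228) (nat_lit 0) (XT.nd (nat_lit 156) (nat_lit 76) (nat_lit 0) (XT.nd (nat_lit 78) (nat_lit 76) (nat_lit 0) (XT.lf (nat_lit 0) (nat_lit 127401380) (nat_lit 76) (nat_lit 35858655317) (nat_lit 76) (nat_lit 3484118369) (nat_lit 41) (nat_lit 4) (nat_lit 42) (nat_lit 5) (nat_lit 42) (nat_lit 4) (nat_lit 522) (nat_lit 398) (nat_lit 280)) (XT.lf (nat_lit 0) (nat_lit 5840646123) (nat_lit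 152) (nat_lit 20547754013) (nat_lit 76) (nat_lit 13956642865) (nat_lit 40) (nat_lit 5) (nat_lit 42) (nat_lit 5) (nat_lit 41) (nat_lit 4) (nat_lit 523) (nat_lit 398) (nat_lit 279))) (XT.nd (nat_lit 78) (nat_lit 76) (nat_lit 0) (XT.lf (nat_lit 0) (nat_lit 15358012929) (nat_lit 152) (nat_lit 1256362209) (nat_lit 76) (nat_lit 24631260867) (nat_lit 40) (nat_lit 5) (nat_lit 42) (nat_lit 5) (nat_lit 41) (nat_lit 4) (nat_lit 524) (nat_lit 398) (nat_lit 278)) (XT.lf (nat_lit 0) (nat_lit 18951563012) (nat_lit 76) (nat_lit 6374896895) (nat_lit 152) (nat_lit 16841820621) (nat_lit 39) (nat_lit 5) (nat_lit 40) (nat_lit 5) (nat_lit 41) (nat_lit 4) (nat_lit 525) (nat_lit 398) (nat_lit 277)))) (XT.nd (nat_lit 156) (nat_lit 76) (nat_lit 0) (XT.nd (nat_lit 78) (nat_lit 152) (nat_lit 0) (XT.lf (nat_lit 0) (nat_lit 35630291752) (nat_lit 152) (nat_lit 3399025188) (nat_lit 0) (nat_lit 4088197995) (nat_lit 39) (nat_lit 5) (nat_lit 41)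 (nat_lit 4) (nat_lit 39) (nat_lit 4) (nat_lit 526) (nat_lit 398) (nat_lit 276)) (XT.lf (nat_lit 0) (nat_lit 2321094493) (nat_lit 152) (nat_lit 26855916169) (nat_lit 76) (nat_lit 14911146799) (nat_lit 37) (nat_lit 5) (nat_lit 39) (nat_lit 5) (nat_lit 38) (nat_lit 4) (nat_lit 527) (nat_lit 398) (nat_lit 275))) (XT.nd (nat_lit 78) (nat_lit 76) (nat_lit 0) (XT.lf (nat_lit 0) (nat_lit 12291754278) (nat_lit 152) (nat_lit 6640374120) (nat_lit 76) (nat_lit 26153010036) (nat_lit 37) (nat_lit 5) (nat_lit 39) (nat_lit 5) (nat_lit 38) (nat_lit 4) (nat_lit 528) (nat_lit 398) (nat_lit 274)) (XT.lf (nat_lit 0) (nat_lit 14433045521) (nat_lit 76) (nat_lit 8251611117) (nat_lit 152) (nat_lit 23423678949) (nat_lit 36) (nat_lit 5) (nat_lit 37) (nat_lit 5) (nat_lit 38) (nat_lit 4) (nat_lit 529) (nat_lit 398) (nat_lit 273))))) (XT.nd (nat_lit 312) (nat_lit 152) (nat_lit 0) (XT.nd (nat_lit 156) (nat_lit 152) (nat_lit 0) (XT.nd (nat_lit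 78) (nat_lit 76) (nat_lit 0) (XT.lf (nat_lit 0) (nat_lit 33467904306) (nat_lit 152) (nat_lit 10942777855) (nat_lit 0) (nat_lit 2749190169) (nat_lit 36) (nat_lit 5) (nat_lit 38) (nat_lit 4) (nat_lit 36) (nat_lit 4) (nat_lit 530) (nat_lit 398) (nat_lit 272)) (XT.lf (nat_lit 0) (nat_lit 10505637027) (nat_lit 76) (nat_lit 34236563551) (nat_lit 76) (nat_lit 3495728473) (nat_lit 35) (nat_lit 4) (nat_lit 36) (nat_lit 5) (nat_lit 36) (nat_lit 4) (nat_lit 531) (nat_lit 398) (nat_lit 271))) (XT.nd (nat_lit 78) (nat_lit 76) (nat_lit 0) (XT.lf (nat_lit 0) (nat_lit 6966150864) (nat_lit 152) (nat_lit 16621025466) (nat_lit 76) (nat_lit 25756236858) (nat_lit 34) (nat_lit 5) (nat_lit 36) (nat_lit 5) (nat_lit 35) (nat_lit 4) (nat_lit 532) (nat_lit 398) (nat_lit 270)) (XT.lf (nat_lit 0) (nat_lit 5161146758) (nat_lit 76) (nat_lit 12545409688) (nat_lit 152) (nat_lit 32773419524) (nat_lit 33) (nat_lit 5) (nat_lit 34) (nat_lit 5) (nat_lit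 35) (nat_lit 4) (nat_lit 533) (nat_lit 398) (nat_lit 269)))) (XT.nd (nat_lit 156) (nat_lit 152) (nat_lit 0) (XT.nd (nat_lit 78) (nat_lit 0) (nat_lit 0) (XT.lf (nat_lit 0) (nat_lit 27909244898) (nat_lit 76) (nat_lit 1013243536) (nat_lit 152) (nat_lit 22723548142) (nat_lit 33) (nat_lit 5) (nat_lit 34) (nat_lit 5) (nat_lit 35) (nat_lit 4) (nat_lit 534) (nat_lit 398) (nat_lit 268)) (XT.lf (nat_lit 0) (nat_lit 40565107749) (nat_lit 152) (nat_lit 1639459315) (nat_lit 0) (nat_lit 10639806007) (nat_lit 33) (nat_lit 5) (nat_lit 35) (nat_lit 4) (nat_lit 33) (nat_lit 4) (nat_lit 535) (nat_lit 398) (nat_lit 267))) (XT.nd (nat_lit 78) (nat_lit 76) (nat_lit 0) (XT.lf (nat_lit 0) (nat_lit 21503451914) (nat_lit 76) (nat_lit 31256474082) (nat_lit 76) (nat_lit 1312646399) (nat_lit 32) (nat_lit 4) (nat_lit 33) (nat_lit 5) (nat_lit 33) (nat_lit 4) (nat_lit 536) (nat_lit 398) (nat_lit 266)) (XT.lf (nat_lit 0) (nat_lit 9791081025) (nat_lit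 152) (nat_lit 10085919550) (nat_lit 76) (nat_lit 35457651165) (nat_lit 31) (nat_lit 5) (nat_lit 33) (nat_lit 5) (nat_lit 32) (nat_lit 4) (nat_lit 537) (nat_lit 398) (nat_lit 265))))))))
noncomputable def xc94 : XT := (XT.nd (nat_lit 53118) (nat_lit 0) (nat_lit 11628) (XT.nd (nat_lit 51948) (nat_lit 0) (nat_lit 25992) (XT.nd (nat_lit 546) (nat_lit 304) (nat_lit 0) (XT.nd (nat_lit 234) (nat_lit 152) (nat_lit 0) (XT.nd (nat_lit 78) (nat_lit 76) (nat_lit 0) (XT.lf (nat_lit 0) (nat_lit 13292010314) (nat_lit 76) (nat_lit 8023894524) (nat_lit 152) (nat_lit 35314868024) (nat_lit 30) (nat_lit 5) (nat_lit 31) (nat_lit 5) (nat_lit 32) (nat_lit 4) (nat_lit 538) (nat_lit 398) (nat_lit 264)) (XT.nd (nat_lit 78) (nat_lit 76) (nat_lit 0) (XT.lf (nat_lit 0) (nat_lit 33316173346) (nat_lit 152) (nat_lit 20452093984) (nat_lit 0) (nat_lit 4193619592) (nat_lit 30) (nat_lit 5) (nat_lit 32) (nat_lit 4) (nat_lit 30) (nat_lit 4) (nat_lit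 539) (nat_lit 398) (nat_lit 263)) (XT.lf (nat_lit 0) (nat_lit 3076357014) (nat_lit 76) (nat_lit 42696115698) (nat_lit 76) (nat_lit 13557581304) (nat_lit 29) (nat_lit 4) (nat_lit 30) (nat_lit 5) (nat_lit 30) (nat_lit 4) (nat_lit 540) (nat_lit 398) (nat_lit 262)))) (XT.nd (nat_lit 156) (nat_lit 76) (nat_lit 0) (XT.nd (nat_lit 78) (nat_lit 76) (nat_lit 0) (XT.lf (nat_lit 0) (nat_lit 27704754548) (nat_lit 76) (nat_lit 31091375682) (nat_lit 76) (nat_lit 1937326106) (nat_lit 29) (nat_lit 4) (nat_lit 30) (nat_lit 5) (nat_lit 30) (nat_lit 4) (nat_lit 541) (nat_lit 398) (nat_lit 261)) (XT.lf (nat_lit 0) (nat_lit 9823179069) (nat_lit 152) (nat_lit 9228059350) (nat_lit 76) (nat_lit 43125207888) (nat_lit 28) (nat_lit 5) (nat_lit 30) (nat_lit 5) (nat_lit 29) (nat_lit 4) (nat_lit 542) (nat_lit 398) (nat_lit 260))) (XT.nd (nat_lit 78) (nat_lit 0) (nat_lit 0) (XT.lf (nat_lit 0) (nat_lit 15546841057) (nat_lit 76) (nat_lit 6487926660)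 (nat_lit 152) (nat_lit 41623266880) (nat_lit 27) (nat_lit 5) (nat_lit 28) (nat_lit 5) (nat_lit 29) (nat_lit 4) (nat_lit 543) (nat_lit 398) (nat_lit 259)) (XT.lf (nat_lit 0) (nat_lit 34756613043) (nat_lit 152) (nat_lit 24014038115) (nat_lit 0) (nat_lit 6409102364) (nat_lit 27) (nat_lit 5) (nat_lit 29) (nat_lit 4) (nat_lit 27) (nat_lit 4) (nat_lit 544) (nat_lit 398) (nat_lit 258))))) (XT.nd (nat_lit 312) (nat_lit 76) (nat_lit 0) (XT.nd (nat_lit 156) (nat_lit 152) (nat_lit 0) (XT.nd (nat_lit 78) (nat_lit 0) (nat_lit 0) (XT.lf (nat_lit 0) (nat_lit 732821419) (nat_lit 76) (nat_lit 47186707303) (nat_lit 76) (nat_lit 18825813090) (nat_lit 26) (nat_lit 4) (nat_lit 27) (nat_lit 5) (nat_lit 27) (nat_lit 4) (nat_lit 545) (nat_lit 398) (nat_lit 257)) (XT.lf (nat_lit 0) (nat_lit 26691305507) (nat_lit 76) (nat_lit 35016778921) (nat_lit 76) (nat_lit 6642890986) (nat_lit 26) (nat_lit 4) (nat_lit 27) (nat_lit 5) (nat_lit 27) (nat_lit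 4) (nat_lit 546) (nat_lit 398) (nat_lit 256))) (XT.nd (nat_lit 78) (nat_lit 76) (nat_lit 0) (XT.lf (nat_lit 0) (nat_lit 5778767598) (nat_lit 152) (nat_lit 16655604973) (nat_lit 76) (nat_lit 47569048056) (nat_lit 25) (nat_lit 5) (nat_lit 27) (nat_lit 5) (nat_lit 26) (nat_lit 4) (nat_lit 547) (nat_lit 398) (nat_lit 255)) (XT.lf (nat_lit 0) (nat_lit 9190199355) (nat_lit 76) (nat_lit 9326524970) (nat_lit 152) (nat_lit 53184427037) (nat_lit 24) (nat_lit 5) (nat_lit 25) (nat_lit 5) (nat_lit 26) (nat_lit 4) (nat_lit 548) (nat_lit 398) (nat_lit 254)))) (XT.nd (nat_lit 156) (nat_lit 76) (nat_lit 0) (XT.nd (nat_lit 78) (nat_lit 0) (nat_lit 0) (XT.lf (nat_lit 0) (nat_lit 31835638580) (nat_lit 152) (nat_lit 37355720202) (nat_lit 0) (nat_lit 4252490887) (nat_lit 24) (nat_lit 5) (nat_lit 26) (nat_lit 4) (nat_lit 24) (nat_lit 4) (nat_lit 549) (nat_lit 398) (nat_lit 253)) (XT.lf (nat_lit 0) (nat_lit 45635623480) (nat_lit 152)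 (nat_lit 11559493266) (nat_lit 0) (nat_lit 18041267290) (nat_lit 24) (nat_lit 5) (nat_lit 26) (nat_lit 4) (nat_lit 24) (nat_lit 4) (nat_lit 550) (nat_lit 398) (nat_lit 252))) (XT.nd (nat_lit 50856) (nat_lit 0) (nat_lit 29868) (XT.lf (nat_lit 0) (nat_lit 15288250282) (nat_lit 76) (nat_lit 44697794735) (nat_lit 76) (nat_lit 17092556507) (nat_lit 23) (nat_lit 4) (nat_lit 24) (nat_lit 5) (nat_lit 24) (nat_lit 4) (nat_lit 551) (nat_lit 398) (nat_lit 251)) (XT.lf (nat_lit 0) (nat_lit 13823569) (nat_lit 76) (nat_lit 1604649002) (nat_lit 76) (nat_lit 1604649002) (nat_lit 416) (nat_lit 4) (nat_lit 417) (nat_lit 5) (nat_lit 417) (nat_lit 4) (nat_lit 402) (nat_lit 399) (nat_lit 399)))))) (XT.nd (nat_lit 546) (nat_lit 2964) (nat_lit 0) (XT.nd (nat_lit 234) (nat_lit 684) (nat_lit 0) (XT.nd (nat_lit 78) (nat_lit 228) (nat_lit 0) (XT.lf (nat_lit 0) (nat_lit 3391828434) (nat_lit 76) (nat_lit 3025436401) (nat_lit 76) (nat_lit 34667158)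 (nat_lit 416) (nat_lit 4) (nat_lit 417) (nat_lit 5) (nat_lit 417) (nat_lit 4) (nat_lit 403) (nat_lit 399) (nat_lit 398)) (XT.nd (nat_lit 78) (nat_lit 0) (nat_lit 0) (XT.lf (nat_lit 0) (nat_lit 306592909) (nat_lit 152) (nat_lit 2748097539) (nat_lit 228) (nat_lit 3405741837) (nat_lit 413) (nat_lit 5) (nat_lit 415) (nat_lit 5) (nat_lit 416) (nat_lit 4) (nat_lit 404) (nat_lit 399) (nat_lit 397)) (XT.lf (nat_lit 0) (nat_lit 3769895713) (nat_lit 152) (nat_lit 2379567965) (nat_lit 228) (nat_lit 322361425) (nat_lit 413) (nat_lit 5) (nat_lit 415) (nat_lit 5) (nat_lit 416) (nat_lit 4) (nat_lit 405) (nat_lit 399) (nat_lit 396)))) (XT.nd (nat_lit 156) (nat_lit 380) (nat_lit 0) (XT.nd (nat_lit 78) (nat_lit 0) (nat_lit 0) (XT.lf (nat_lit 0) (nat_lit 774042723) (nat_lit 228) (nat_lit 1916013634) (nat_lit 304) (nat_lit 3795961757) (nat_lit 409) (nat_lit 5) (nat_lit 412) (nat_lit 5) (nat_lit 413) (nat_lit 5) (nat_lit 406) (nat_lit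 399) (nat_lit 395)) (XT.lf (nat_lit 0) (nat_lit 4339914465) (nat_lit 228) (nat_lit 1361200449) (nat_lit 304) (nat_lit 802030285) (nat_lit 409) (nat_lit 5) (nat_lit 412) (nat_lit 5) (nat_lit 413) (nat_lit 5) (nat_lit 407) (nat_lit 399) (nat_lit 394))) (XT.nd (nat_lit 78) (nat_lit 0) (nat_lit 0) (XT.lf (nat_lit 0) (nat_lit 1431155928) (nat_lit 304) (nat_lit 709441439) (nat_lit 380) (nat_lit 4382472439) (nat_lit 404) (nat_lit 5) (nat_lit 408) (nat_lit 5) (nat_lit 409) (nat_lit 5) (nat_lit 408) (nat_lit 399) (nat_lit 393)) (XT.lf (nat_lit 0) (nat_lit 5069701923) (nat_lit 380) (nat_lit 1442844038) (nat_lit 76) (nat_lit 33420938) (nat_lit 404) (nat_lit 5) (nat_lit 409) (nat_lit 5) (nat_lit 405) (nat_lit 5) (nat_lit 409) (nat_lit 399) (nat_lit 392))))) (XT.nd (nat_lit 312) (nat_lit 1444) (nat_lit 0) (XT.nd (nat_lit 156) (nat_lit 1064) (nat_lit 0) (XT.nd (nat_lit 78) (nat_lit 0) (nat_lit 0) (XT.lf (nat_lit 0) (nat_lit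 1411483409) (nat_lit 456) (nat_lit 4300217259) (nat_lit 76) (nat_lit 859734023) (nat_lit 398) (nat_lit 5) (nat_lit 404) (nat_lit 5) (nat_lit 399) (nat_lit 5) (nat_lit 410) (nat_lit 399) (nat_lit 391)) (XT.lf (nat_lit 0) (nat_lit 4268001563) (nat_lit 456) (nat_lit 554935582) (nat_lit 76) (nat_lit 1776975521) (nat_lit 398) (nat_lit 5) (nat_lit 404) (nat_lit 5) (nat_lit 399) (nat_lit 5) (nat_lit 411) (nat_lit 399) (nat_lit 390))) (XT.nd (nat_lit 78) (nat_lit 532) (nat_lit 0) (XT.lf (nat_lit 0) (nat_lit 500733734) (nat_lit 532) (nat_lit 3336347095) (nat_lit 76) (nat_lit 2794100280) (nat_lit 391) (nat_lit 5) (nat_lit 398) (nat_lit 5) (nat_lit 392) (nat_lit 5) (nat_lit 412) (nat_lit 399) (nat_lit 389)) (XT.lf (nat_lit 0) (nat_lit 526843029) (nat_lit 532) (nat_lit 2756728813) (nat_lit 608) (nat_lit 3381796230) (nat_lit 384) (nat_lit 5) (nat_lit 391) (nat_lit 5) (nat_lit 392) (nat_lit 5) (nat_lit 413) (nat_lit 399) (nat_lit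 388)))) (XT.nd (nat_lit 156) (nat_lit 760) (nat_lit 0) (XT.nd (nat_lit 78) (nat_lit 684) (nat_lit 0) (XT.lf (nat_lit 0) (nat_lit 4506446023) (nat_lit 532) (nat_lit 1580719657) (nat_lit 608) (nat_lit 615331416) (nat_lit 384) (nat_lit 5) (nat_lit 391) (nat_lit 5) (nat_lit 392) (nat_lit 5) (nat_lit 414) (nat_lit 399) (nat_lit 387)) (XT.lf (nat_lit 0) (nat_lit 1810742944) (nat_lit 608) (nat_lit 302623109) (nat_lit 684) (nat_lit 4629077212) (nat_lit 375) (nat_lit 5) (nat_lit 383) (nat_lit 5) (nat_lit 384) (nat_lit 5) (nat_lit 415) (nat_lit 399) (nat_lit 386))) (XT.nd (nat_lit 78) (nat_lit 760) (nat_lit 0) (XT.lf (nat_lit 0) (nat_lit 4851478689) (nat_lit 684) (nat_lit 886418749) (nat_lit 76) (nat_lit 1047341592) (nat_lit 375) (nat_lit 5) (nat_lit 384) (nat_lit 5) (nat_lit 376) (nat_lit 5) (nat_lit 416) (nat_lit 399) (nat_lit 385)) (XT.lf (nat_lit 0) (nat_lit 770326807) (nat_lit 760) (nat_lit 3565613961) (nat_lit 76)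 (nat_lit 2494834303) (nat_lit 365) (nat_lit 5) (nat_lit 375) (nat_lit 5) (nat_lit 366) (nat_lit 5) (nat_lit 417) (nat_lit 399) (nat_lit 384))))))) (XT.nd (nat_lit 1170) (nat_lit 5092) (nat_lit 0) (XT.nd (nat_lit 546) (nat_lit 5624) (nat_lit 0) (XT.nd (nat_lit 234) (nat_lit 1976) (nat_lit 0) (XT.nd (nat_lit 78) (nat_lit 912) (nat_lit 0) (XT.lf (nat_lit 0) (nat_lit 605354832) (nat_lit 760) (nat_lit 2837703569) (nat_lit 836) (nat_lit 3436281704) (nat_lit 355) (nat_lit 5) (nat_lit 365) (nat_lit 5) (nat_lit 366) (nat_lit 5) (nat_lit 418) (nat_lit 399) (nat_lit 383)) (XT.nd (nat_lit 78) (nat_lit 912) (nat_lit 0) (XT.lf (nat_lit 0) (nat_lit 4905949958) (nat_lit 760) (nat_lit 1239474872) (nat_lit 836) (nat_lit 785481783) (nat_lit 355) (nat_lit 5) (nat_lit 365) (nat_lit 5) (nat_lit 366) (nat_lit 5) (nat_lit 419) (nat_lit 399) (nat_lit 382)) (XT.lf (nat_lit 0) (nat_lit 1848675695) (nat_lit 912) (nat_lit 4680236078) (nat_lit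 76) (nat_lit 456320453) (nat_lit 343) (nat_lit 5) (nat_lit 355) (nat_lit 5) (nat_lit 344) (nat_lit 5) (nat_lit 420) (nat_lit 399) (nat_lit 381)))) (XT.nd (nat_lit 156) (nat_lit 988) (nat_lit 0) (XT.nd (nat_lit 78) (nat_lit 988) (nat_lit 0) (XT.lf (nat_lit 0) (nat_lit 4496073045) (nat_lit 912) (nat_lit 324777271) (nat_lit 76) (nat_lit 2221629627) (nat_lit 343) (nat_lit 5) (nat_lit 355) (nat_lit 5) (nat_lit 344) (nat_lit 5) (nat_lit 421) (nat_lit 399) (nat_lit 380)) (XT.lf (nat_lit 0) (nat_lit 78276498) (nat_lit 988) (nat_lit 2928903984) (nat_lit 76) (nat_lit 4095477859) (nat_lit 330) (nat_lit 5) (nat_lit 343) (nat_lit 5) (nat_lit 331) (nat_lit 5) (nat_lit 422) (nat_lit 399) (nat_lit 379))) (XT.nd (nat_lit 78) (nat_lit 0) (nat_lit 0) (XT.lf (nat_lit 0) (nat_lit 1585857523) (nat_lit 988) (nat_lit 1083605058) (nat_lit 1064) (nat_lit 4496278417) (nat_lit 317) (nat_lit 5) (nat_lit 330) (nat_lit 5) (nat_lit 331) (nat_lit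 5) (nat_lit 423) (nat_lit 399) (nat_lit 378)) (XT.lf (nat_lit 0) (nat_lit 5299019272) (nat_lit 1064) (nat_lit 1013622577) (nat_lit 76) (nat_lit 919278088) (nat_lit 317) (nat_lit 5) (nat_lit 331) (nat_lit 5) (nat_lit 318) (nat_lit 5) (nat_lit 424) (nat_lit 399) (nat_lit 377))))) (XT.nd (nat_lit 312) (nat_lit 2052) (nat_lit 0) (XT.nd (nat_lit 156) (nat_lit 1292) (nat_lit 0) (XT.nd (nat_lit 78) (nat_lit 1140) (nat_lit 0) (XT.lf (nat_lit 0) (nat_lit 663787000) (nat_lit 1140) (nat_lit 3625661312) (nat_lit 76) (nat_lit 3011347122) (nat_lit 302) (nat_lit 5) (nat_lit 317) (nat_lit 5) (nat_lit 303) (nat_lit 5) (nat_lit 425) (nat_lit 399) (nat_lit 376)) (XT.lf (nat_lit 0) (nat_lit 1086116417) (nat_lit 1140) (nat_lit 2159383324) (nat_lit 1216) (nat_lit 4127305025) (nat_lit 287) (nat_lit 5) (nat_lit 302) (nat_lit 5) (nat_lit 303) (nat_lit 5) (nat_lit 426) (nat_lit 399) (nat_lit 375))) (XT.nd (nat_lit 78) (nat_lit 1292) (nat_lit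 0) (XT.lf (nat_lit 0) (nat_lit 5868722956) (nat_lit 1216) (nat_lit 1504317202) (nat_lit 76) (nat_lit 75032753) (nat_lit 287) (nat_lit 5) (nat_lit 303) (nat_lit 5) (nat_lit 288) (nat_lit 5) (nat_lit 427) (nat_lit 399) (nat_lit 374)) (XT.lf (nat_lit 0) (nat_lit 1007384267) (nat_lit 1292) (nat_lit 4138809942) (nat_lit 76) (nat_lit 2379640672) (nat_lit 270) (nat_lit 5) (nat_lit 287) (nat_lit 5) (nat_lit 271) (nat_lit 5) (nat_lit 428) (nat_lit 399) (nat_lit 373)))) (XT.nd (nat_lit 156) (nat_lit 1292) (nat_lit 0) (XT.nd (nat_lit 78) (nat_lit 0) (nat_lit 0) (XT.lf (nat_lit 0) (nat_lit 779921786) (nat_lit 760) (nat_lit 2812482387) (nat_lit 836) (nat_lit 4014502194) (nat_lit 260) (nat_lit 5) (nat_lit 270) (nat_lit 5) (nat_lit 271) (nat_lit 5) (nat_lit 429) (nat_lit 399) (nat_lit 372)) (XT.lf (nat_lit 0) (nat_lit 5861762943) (nat_lit 760) (nat_lit 365979195) (nat_lit 836) (nat_lit 1463502876) (nat_lit 260) (nat_lit 5) (nat_lit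 270) (nat_lit 5) (nat_lit 271) (nat_lit 5) (nat_lit 430) (nat_lit 399) (nat_lit 371))) (XT.nd (nat_lit 78) (nat_lit 608) (nat_lit 0) (XT.lf (nat_lit 0) (nat_lit 1126482507) (nat_lit 684) (nat_lit 4497433545) (nat_lit 76) (nat_lit 2154323984) (nat_lit 251) (nat_lit 5) (nat_lit 260) (nat_lit 5) (nat_lit 252) (nat_lit 5) (nat_lit 431) (nat_lit 399) (nat_lit 370)) (XT.lf (nat_lit 0) (nat_lit 638825063) (nat_lit 608) (nat_lit 3087955366) (nat_lit 684) (nat_lit 4141785446) (nat_lit 243) (nat_lit 5) (nat_lit 251) (nat_lit 5) (nat_lit 252) (nat_lit 5) (nat_lit 432) (nat_lit 399) (nat_lit 369)))))) (XT.nd (nat_lit 624) (nat_lit 2280) (nat_lit 0) (XT.nd (nat_lit 312) (nat_lit 1672) (nat_lit 0) (XT.nd (nat_lit 156) (nat_lit 532) (nat_lit 0) (XT.nd (nat_lit 78) (nat_lit 608) (nat_lit 0) (XT.lf (nat_lit 0) (nat_lit 5952090550) (nat_lit 608) (nat_lit 433286395) (nat_lit 684) (nat_lit 1576831885) (nat_lit 243) (nat_lit 5) (nat_lit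 251) (nat_lit 5) (nat_lit 252) (nat_lit 5) (nat_lit 433) (nat_lit 399) (nat_lit 368)) (XT.lf (nat_lit 0) (nat_lit 1035139834) (nat_lit 608) (nat_lit 4729076309) (nat_lit 76) (nat_lit 2294427309) (nat_lit 235) (nat_lit 5) (nat_lit 243) (nat_lit 5) (nat_lit 236) (nat_lit 5) (nat_lit 434) (nat_lit 399) (nat_lit 367))) (XT.nd (nat_lit 78) (nat_lit 0) (nat_lit 0) (XT.lf (nat_lit 0) (nat_lit 635876623) (nat_lit 532) (nat_lit 3026090735) (nat_lit 608) (nat_lit 4496504377) (nat_lit 228) (nat_lit 5) (nat_lit 235) (nat_lit 5) (nat_lit 236) (nat_lit 5) (nat_lit 435) (nat_lit 399) (nat_lit 366)) (XT.lf (nat_lit 0) (nat_lit 6189688147) (nat_lit 532) (nat_lit 164116742) (nat_lit 608) (nat_lit 1907918063) (nat_lit 228) (nat_lit 5) (nat_lit 235) (nat_lit 5) (nat_lit 236) (nat_lit 5) (nat_lit 436) (nat_lit 399) (nat_lit 365)))) (XT.nd (nat_lit 156) (nat_lit 532) (nat_lit 0) (XT.nd (nat_lit 78) (nat_lit 532) (nat_lit 0) (XT.lf (nat_lit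 0) (nat_lit 744243668) (nat_lit 608) (nat_lit 4860241729) (nat_lit 76) (nat_lit 2763359584) (nat_lit 220) (nat_lit 5) (nat_lit 228) (nat_lit 5) (nat_lit 221) (nat_lit 5) (nat_lit 437) (nat_lit 399) (nat_lit 364)) (XT.lf (nat_lit 0) (nat_lit 745122553) (nat_lit 532) (nat_lit 2663085553) (nat_lit 608) (nat_lit 5069271335) (nat_lit 213) (nat_lit 5) (nat_lit 220) (nat_lit 5) (nat_lit 221) (nat_lit 5) (nat_lit 438) (nat_lit 399) (nat_lit 363))) (XT.nd (nat_lit 78) (nat_lit 532) (nat_lit 0) (XT.lf (nat_lit 0) (nat_lit 6146816266) (nat_lit 608) (nat_lit 2044921445) (nat_lit 76) (nat_lit 398836136) (nat_lit 213) (nat_lit 5) (nat_lit 221) (nat_lit 5) (nat_lit 214) (nat_lit 5) (nat_lit 439) (nat_lit 399) (nat_lit 362)) (XT.lf (nat_lit 0) (nat_lit 261646729) (nat_lit 532) (nat_lit 4916890235) (nat_lit 76) (nat_lit 3528274655) (nat_lit 206) (nat_lit 5) (nat_lit 213) (nat_lit 5) (nat_lit 207) (nat_lit 5) (nat_lit 440) (nat_lit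 399) (nat_lit 361))))) (XT.nd (nat_lit 312) (nat_lit 836) (nat_lit 0) (XT.nd (nat_lit 156) (nat_lit 988) (nat_lit 0) (XT.nd (nat_lit 78) (nat_lit 0) (nat_lit 0) (XT.lf (nat_lit 0) (nat_lit 941100774) (nat_lit 456) (nat_lit 2031670478) (nat_lit 532) (nat_lit 5853840724) (nat_lit 200) (nat_lit 5) (nat_lit 206) (nat_lit 5) (nat_lit 207) (nat_lit 5) (nat_lit 441) (nat_lit 399) (nat_lit 360)) (XT.lf (nat_lit 0) (nat_lit 5771635401) (nat_lit 532) (nat_lit 1954560220) (nat_lit 76) (nat_lit 1223629792) (nat_lit 200) (nat_lit 5) (nat_lit 207) (nat_lit 5) (nat_lit 201) (nat_lit 5) (nat_lit 442) (nat_lit 399) (nat_lit 359))) (XT.nd (nat_lit 78) (nat_lit 532) (nat_lit 0) (XT.lf (nat_lit 0) (nat_lit 4147617022) (nat_lit 456) (nat_lit 4513081888) (nat_lit 532) (nat_lit 415860255) (nat_lit 194) (nat_lit 5) (nat_lit 200) (nat_lit 5) (nat_lit 201) (nat_lit 5) (nat_lit 443) (nat_lit 399) (nat_lit 358)) (XT.lf (nat_lit 0) (nat_lit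 1198327315) (nat_lit 456) (nat_lit 1161696508) (nat_lit 532) (nat_lit 6847038138) (nat_lit 187) (nat_lit 5) (nat_lit 193) (nat_lit 5) (nat_lit 194) (nat_lit 5) (nat_lit 444) (nat_lit 399) (nat_lit 357)))) (XT.nd (nat_lit 156) (nat_lit 456) (nat_lit 0) (XT.nd (nat_lit 78) (nat_lit 380) (nat_lit 0) (XT.lf (nat_lit 0) (nat_lit 5230509740) (nat_lit 532) (nat_lit 1824865880) (nat_lit 76) (nat_lit 2285400177) (nat_lit 187) (nat_lit 5) (nat_lit 194) (nat_lit 5) (nat_lit 188) (nat_lit 5) (nat_lit 445) (nat_lit 399) (nat_lit 356)) (XT.lf (nat_lit 0) (nat_lit 4555199295) (nat_lit 380) (nat_lit 3636135342) (nat_lit 456) (nat_lit 1287049376) (nat_lit 182) (nat_lit 5) (nat_lit 187) (nat_lit 5) (nat_lit 188) (nat_lit 5) (nat_lit 446) (nat_lit 399) (nat_lit 355))) (XT.nd (nat_lit 78) (nat_lit 0) (nat_lit 0) (XT.lf (nat_lit 0) (nat_lit 1490763088) (nat_lit 380) (nat_lit 80693075) (nat_lit 456) (nat_lit 8048739395) (nat_lit 176)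 (nat_lit 5) (nat_lit 181) (nat_lit 5) (nat_lit 182) (nat_lit 5) (nat_lit 447) (nat_lit 399) (nat_lit 354)) (XT.lf (nat_lit 0) (nat_lit 4524442940) (nat_lit 456) (nat_lit 1682141653) (nat_lit 76) (nat_lit 3558265605) (nat_lit 176) (nat_lit 5) (nat_lit 182) (nat_lit 5) (nat_lit 177) (nat_lit 5) (nat_lit 448) (nat_lit 399) (nat_lit 353))))))))
noncomputable def xc95 : XT := (XT.nd (nat_lit 2340) (nat_lit 3192) (nat_lit 0) (XT.nd (nat_lit 1170) (nat_lit 2584) (nat_lit 0) (XT.nd (nat_lit 546) (nat_lit 1596) (nat_lit 0) (XT.nd (nat_lit 234) (nat_lit 1064) (nat_lit 0) (XT.nd (nat_lit 78) (nat_lit 456) (nat_lit 0) (XT.lf (nat_lit 0) (nat_lit 4989343161) (nat_lit 380) (nat_lit 2576854189) (nat_lit 456) (nat_lit 2347650402) (nat_lit 171) (nat_lit 5) (nat_lit 176) (nat_lit 5) (nat_lit 177) (nat_lit 5) (nat_lit 449) (nat_lit 399) (nat_lit 352)) (XT.nd (nat_lit 78) (nat_lit 0) (nat_lit 0) (XT.lf (nat_lit 0) (nat_lit 617054380)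 (nat_lit 456) (nat_lit 8287703964) (nat_lit 76) (nat_lit 1162457920) (nat_lit 165) (nat_lit 5) (nat_lit 171) (nat_lit 5) (nat_lit 166) (nat_lit 5) (nat_lit 450) (nat_lit 399) (nat_lit 351)) (XT.lf (nat_lit 0) (nat_lit 3651578458) (nat_lit 456) (nat_lit 1554068343) (nat_lit 76) (nat_lit 5018007684) (nat_lit 165) (nat_lit 5) (nat_lit 171) (nat_lit 5) (nat_lit 166) (nat_lit 5) (nat_lit 451) (nat_lit 399) (nat_lit 350)))) (XT.nd (nat_lit 156) (nat_lit 380) (nat_lit 0) (XT.nd (nat_lit 78) (nat_lit 380) (nat_lit 0) (XT.lf (nat_lit 0) (nat_lit 5422612662) (nat_lit 304) (nat_lit 1360369510) (nat_lit 380) (nat_lit 3601636021) (nat_lit 161) (nat_lit 5) (nat_lit 165) (nat_lit 5) (nat_lit 166) (nat_lit 5) (nat_lit 452) (nat_lit 399) (nat_lit 349)) (XT.lf (nat_lit 0) (nat_lit 2039826070) (nat_lit 380) (nat_lit 7983224887) (nat_lit 456) (nat_lit 526925598) (nat_lit 156) (nat_lit 5) (nat_lit 161) (nat_lit 5) (nat_lit 162) (nat_lit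 5) (nat_lit 453) (nat_lit 399) (nat_lit 348))) (XT.nd (nat_lit 78) (nat_lit 304) (nat_lit 0) (XT.lf (nat_lit 0) (nat_lit 2607109676) (nat_lit 456) (nat_lit 1470316180) (nat_lit 76) (nat_lit 6641557492) (nat_lit 155) (nat_lit 5) (nat_lit 161) (nat_lit 5) (nat_lit 156) (nat_lit 5) (nat_lit 454) (nat_lit 399) (nat_lit 347)) (XT.lf (nat_lit 0) (nat_lit 5825473077) (nat_lit 304) (nat_lit 10953000) (nat_lit 380) (nat_lit 5056129036) (nat_lit 151) (nat_lit 5) (nat_lit 155) (nat_lit 5) (nat_lit 156) (nat_lit 5) (nat_lit 455) (nat_lit 399) (nat_lit 346))))) (XT.nd (nat_lit 312) (nat_lit 608) (nat_lit 0) (XT.nd (nat_lit 156) (nat_lit 608) (nat_lit 0) (XT.nd (nat_lit 78) (nat_lit 76) (nat_lit 0) (XT.lf (nat_lit 0) (nat_lit 2238569554) (nat_lit 304) (nat_lit 6957065850) (nat_lit 380) (nat_lit 1874714828) (nat_lit 147) (nat_lit 5) (nat_lit 151) (nat_lit 5) (nat_lit 152) (nat_lit 5) (nat_lit 456) (nat_lit 399) (nat_lit 345))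 (XT.lf (nat_lit 0) (nat_lit 1383135924) (nat_lit 380) (nat_lit 1463214328) (nat_lit 76) (nat_lit 8406480181) (nat_lit 146) (nat_lit 5) (nat_lit 151) (nat_lit 5) (nat_lit 147) (nat_lit 5) (nat_lit 457) (nat_lit 399) (nat_lit 344))) (XT.nd (nat_lit 78) (nat_lit 304) (nat_lit 0) (XT.lf (nat_lit 0) (nat_lit 4732060792) (nat_lit 380) (nat_lit 5288035295) (nat_lit 76) (nat_lit 1419207595) (nat_lit 142) (nat_lit 5) (nat_lit 147) (nat_lit 5) (nat_lit 143) (nat_lit 5) (nat_lit 458) (nat_lit 399) (nat_lit 343)) (XT.lf (nat_lit 0) (nat_lit 2347733847) (nat_lit 304) (nat_lit 5857664479) (nat_lit 380) (nat_lit 3425260324) (nat_lit 138) (nat_lit 5) (nat_lit 142) (nat_lit 5) (nat_lit 143) (nat_lit 5) (nat_lit 459) (nat_lit 399) (nat_lit 342)))) (XT.nd (nat_lit 156) (nat_lit 304) (nat_lit 0) (XT.nd (nat_lit 78) (nat_lit 304) (nat_lit 0) (XT.lf (nat_lit 0) (nat_lit 10258590181) (nat_lit 304) (nat_lit 1536633733) (nat_lit 380) (nat_lit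 32167411) (nat_lit 138) (nat_lit 5) (nat_lit 142) (nat_lit 5) (nat_lit 143) (nat_lit 5) (nat_lit 460) (nat_lit 399) (nat_lit 341)) (XT.lf (nat_lit 0) (nat_lit 3445171496) (nat_lit 304) (nat_lit 5650032655) (nat_lit 76) (nat_lit 2932327925) (nat_lit 134) (nat_lit 5) (nat_lit 138) (nat_lit 5) (nat_lit 135) (nat_lit 5) (nat_lit 461) (nat_lit 399) (nat_lit 340))) (XT.nd (nat_lit 78) (nat_lit 0) (nat_lit 0) (XT.lf (nat_lit 0) (nat_lit 2329137489) (nat_lit 304) (nat_lit 4710722089) (nat_lit 380) (nat_lit 5193402866) (nat_lit 130) (nat_lit 5) (nat_lit 134) (nat_lit 5) (nat_lit 135) (nat_lit 5) (nat_lit 462) (nat_lit 399) (nat_lit 339)) (XT.lf (nat_lit 0) (nat_lit 10602339516) (nat_lit 304) (nat_lit 157751589) (nat_lit 380) (nat_lit 1684547594) (nat_lit 130) (nat_lit 5) (nat_lit 134) (nat_lit 5) (nat_lit 135) (nat_lit 5) (nat_lit 463) (nat_lit 399) (nat_lit 338)))))) (XT.nd (nat_lit 546) (nat_lit 1216) (nat_lit 0) (XT.nd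 (nat_lit 234) (nat_lit 760) (nat_lit 0) (XT.nd (nat_lit 78) (nat_lit 304) (nat_lit 0) (XT.lf (nat_lit 0) (nat_lit 1960065716) (nat_lit 304) (nat_lit 6195537081) (nat_lit 76) (nat_lit 4504157411) (nat_lit 126) (nat_lit 5) (nat_lit 130) (nat_lit 5) (nat_lit 127) (nat_lit 5) (nat_lit 464) (nat_lit 399) (nat_lit 337)) (XT.nd (nat_lit 78) (nat_lit 0) (nat_lit 0) (XT.lf (nat_lit 0) (nat_lit 2139755026) (nat_lit 304) (nat_lit 3543079037) (nat_lit 380) (nat_lit 7197925337) (nat_lit 122) (nat_lit 5) (nat_lit 126) (nat_lit 5) (nat_lit 127) (nat_lit 5) (nat_lit 465) (nat_lit 399) (nat_lit 336)) (XT.lf (nat_lit 0) (nat_lit 9554158583) (nat_lit 380) (nat_lit 2327465856) (nat_lit 76) (nat_lit 1225662433) (nat_lit 122) (nat_lit 5) (nat_lit 127) (nat_lit 5) (nat_lit 123) (nat_lit 5) (nat_lit 466) (nat_lit 399) (nat_lit 335)))) (XT.nd (nat_lit 156) (nat_lit 228) (nat_lit 0) (XT.nd (nat_lit 78) (nat_lit 228) (nat_lit 0) (XT.lf (nat_lit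 0) (nat_lit 257158897) (nat_lit 304) (nat_lit 6972738719) (nat_lit 76) (nat_lit 6108856762) (nat_lit 118) (nat_lit 5) (nat_lit 122) (nat_lit 5) (nat_lit 119) (nat_lit 5) (nat_lit 467) (nat_lit 399) (nat_lit 334)) (XT.lf (nat_lit 0) (nat_lit 1730695688) (nat_lit 228) (nat_lit 2383348258) (nat_lit 304) (nat_lit 9461959586) (nat_lit 115) (nat_lit 5) (nat_lit 118) (nat_lit 5) (nat_lit 119) (nat_lit 5) (nat_lit 468) (nat_lit 399) (nat_lit 333))) (XT.nd (nat_lit 78) (nat_lit 228) (nat_lit 0) (XT.lf (nat_lit 0) (nat_lit 8146439036) (nat_lit 304) (nat_lit 3065371127) (nat_lit 76) (nat_lit 2606769887) (nat_lit 115) (nat_lit 5) (nat_lit 119) (nat_lit 5) (nat_lit 116) (nat_lit 5) (nat_lit 469) (nat_lit 399) (nat_lit 332)) (XT.lf (nat_lit 0) (nat_lit 6013945001) (nat_lit 228) (nat_lit 6331947743) (nat_lit 304) (nat_lit 1721162398) (nat_lit 112) (nat_lit 5) (nat_lit 115) (nat_lit 5) (nat_lit 116) (nat_lit 5) (nat_lit 470) (nat_lit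 399) (nat_lit 331))))) (XT.nd (nat_lit 312) (nat_lit 456) (nat_lit 0) (XT.nd (nat_lit 156) (nat_lit 456) (nat_lit 0) (XT.nd (nat_lit 78) (nat_lit 0) (nat_lit 0) (XT.lf (nat_lit 0) (nat_lit 1046041173) (nat_lit 228) (nat_lit 1262605333) (nat_lit 304) (nat_lit 12013480655) (nat_lit 108) (nat_lit 5) (nat_lit 111) (nat_lit 5) (nat_lit 112) (nat_lit 5) (nat_lit 471) (nat_lit 399) (nat_lit 330)) (XT.lf (nat_lit 0) (nat_lit 6510002292) (nat_lit 304) (nat_lit 4113237036) (nat_lit 76) (nat_lit 3958546940) (nat_lit 108) (nat_lit 5) (nat_lit 112) (nat_lit 5) (nat_lit 109) (nat_lit 5) (nat_lit 472) (nat_lit 399) (nat_lit 329))) (XT.nd (nat_lit 78) (nat_lit 304) (nat_lit 0) (XT.lf (nat_lit 0) (nat_lit 5360113537) (nat_lit 152) (nat_lit 5507394363) (nat_lit 228) (nat_lit 3980827419) (nat_lit 106) (nat_lit 5) (nat_lit 108) (nat_lit 5) (nat_lit 109) (nat_lit 5) (nat_lit 473) (nat_lit 399) (nat_lit 328)) (XT.lf (nat_lit 0) (nat_lit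 21517270) (nat_lit 228) (nat_lit 215149449) (nat_lit 304) (nat_lit 14885899635) (nat_lit 102) (nat_lit 5) (nat_lit 105) (nat_lit 5) (nat_lit 106) (nat_lit 5) (nat_lit 474) (nat_lit 399) (nat_lit 327)))) (XT.nd (nat_lit 156) (nat_lit 304) (nat_lit 0) (XT.nd (nat_lit 78) (nat_lit 152) (nat_lit 0) (XT.lf (nat_lit 0) (nat_lit 4614193096) (nat_lit 304) (nat_lit 5538626266) (nat_lit 76) (nat_lit 5247620148) (nat_lit 102) (nat_lit 5) (nat_lit 106) (nat_lit 5) (nat_lit 103) (nat_lit 5) (nat_lit 475) (nat_lit 399) (nat_lit 326)) (XT.lf (nat_lit 0) (nat_lit 4338013617) (nat_lit 152) (nat_lit 4796266054) (nat_lit 228) (nat_lit 6552035219) (nat_lit 100) (nat_lit 5) (nat_lit 102) (nat_lit 5) (nat_lit 103) (nat_lit 5) (nat_lit 476) (nat_lit 399) (nat_lit 325))) (XT.nd (nat_lit 78) (nat_lit 304) (nat_lit 0) (XT.lf (nat_lit 0) (nat_lit 13820995241) (nat_lit 228) (nat_lit 1417470777) (nat_lit 76) (nat_lit 741372694) (nat_lit 100)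 (nat_lit 5) (nat_lit 103) (nat_lit 5) (nat_lit 101) (nat_lit 5) (nat_lit 477) (nat_lit 399) (nat_lit 324)) (XT.lf (nat_lit 0) (nat_lit 2422409847) (nat_lit 304) (nat_lit 7419507496) (nat_lit 76) (nat_lit 6436498228) (nat_lit 96) (nat_lit 5) (nat_lit 100) (nat_lit 5) (nat_lit 97) (nat_lit 5) (nat_lit 478) (nat_lit 399) (nat_lit 323))))))) (XT.nd (nat_lit 1170) (nat_lit 1444) (nat_lit 0) (XT.nd (nat_lit 546) (nat_lit 912) (nat_lit 0) (XT.nd (nat_lit 234) (nat_lit 456) (nat_lit 0) (XT.nd (nat_lit 78) (nat_lit 228) (nat_lit 0) (XT.lf (nat_lit 0) (nat_lit 2867683987) (nat_lit 152) (nat_lit 4240697574) (nat_lit 228) (nat_lit 9476609514) (nat_lit 94) (nat_lit 5) (nat_lit 96) (nat_lit 5) (nat_lit 97) (nat_lit 5) (nat_lit 479) (nat_lit 399) (nat_lit 322)) (XT.nd (nat_lit 78) (nat_lit 228) (nat_lit 0) (XT.lf (nat_lit 0) (nat_lit 11994125278) (nat_lit 228) (nat_lit 3352428432) (nat_lit 76) (nat_lit 1552436989) (nat_lit 94)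 (nat_lit 5) (nat_lit 97) (nat_lit 5) (nat_lit 95) (nat_lit 5) (nat_lit 480) (nat_lit 399) (nat_lit 321)) (XT.lf (nat_lit 0) (nat_lit 7372792953) (nat_lit 228) (nat_lit 9736250095) (nat_lit 304) (nat_lit 110891777) (nat_lit 91) (nat_lit 5) (nat_lit 94) (nat_lit 5) (nat_lit 95) (nat_lit 5) (nat_lit 481) (nat_lit 399) (nat_lit 320)))) (XT.nd (nat_lit 156) (nat_lit 228) (nat_lit 0) (XT.nd (nat_lit 78) (nat_lit 0) (nat_lit 0) (XT.lf (nat_lit 0) (nat_lit 856403367) (nat_lit 152) (nat_lit 3888554181) (nat_lit 228) (nat_lit 12803792769) (nat_lit 88) (nat_lit 5) (nat_lit 90) (nat_lit 5) (nat_lit 91) (nat_lit 5) (nat_lit 482) (nat_lit 399) (nat_lit 319)) (XT.lf (nat_lit 0) (nat_lit 9835184407) (nat_lit 228) (nat_lit 5876878117) (nat_lit 76) (nat_lit 2172609233) (nat_lit 88) (nat_lit 5) (nat_lit 91) (nat_lit 5) (nat_lit 89) (nat_lit 5) (nat_lit 483) (nat_lit 399) (nat_lit 318))) (XT.nd (nat_lit 78) (nat_lit 76) (nat_lit 0)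 (XT.lf (nat_lit 0) (nat_lit 5276308804) (nat_lit 152) (nat_lit 9861893669) (nat_lit 228) (nat_lit 3090668112) (nat_lit 86) (nat_lit 5) (nat_lit 88) (nat_lit 5) (nat_lit 89) (nat_lit 5) (nat_lit 484) (nat_lit 399) (nat_lit 317)) (XT.lf (nat_lit 0) (nat_lit 2008429839) (nat_lit 228) (nat_lit 1768312597) (nat_lit 76) (nat_lit 14805147314) (nat_lit 85) (nat_lit 5) (nat_lit 88) (nat_lit 5) (nat_lit 86) (nat_lit 5) (nat_lit 485) (nat_lit 399) (nat_lit 316))))) (XT.nd (nat_lit 312) (nat_lit 380) (nat_lit 0) (XT.nd (nat_lit 156) (nat_lit 228) (nat_lit 0) (XT.nd (nat_lit 78) (nat_lit 152) (nat_lit 0) (XT.lf (nat_lit 0) (nat_lit 7289960153) (nat_lit 228) (nat_lit 9104017890) (nat_lit 76) (nat_lit 2547858148) (nat_lit 83) (nat_lit 5) (nat_lit 86) (nat_lit 5) (nat_lit 84) (nat_lit 5) (nat_lit 486) (nat_lit 399) (nat_lit 315)) (XT.lf (nat_lit 0) (nat_lit 2477170830) (nat_lit 152) (nat_lit 10303931568) (nat_lit 228) (nat_lit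 6529945669) (nat_lit 81) (nat_lit 5) (nat_lit 83) (nat_lit 5) (nat_lit 84) (nat_lit 5) (nat_lit 487) (nat_lit 399) (nat_lit 314))) (XT.nd (nat_lit 78) (nat_lit 228) (nat_lit 0) (XT.lf (nat_lit 0) (nat_lit 14542974321) (nat_lit 152) (nat_lit 3958206852) (nat_lit 228) (nat_lit 1188231026) (nat_lit 81) (nat_lit 5) (nat_lit 83) (nat_lit 5) (nat_lit 84) (nat_lit 5) (nat_lit 488) (nat_lit 399) (nat_lit 313)) (XT.lf (nat_lit 0) (nat_lit 4294695536) (nat_lit 228) (nat_lit 13165369544) (nat_lit 76) (nat_lit 2615865929) (nat_lit 78) (nat_lit 5) (nat_lit 81) (nat_lit 5) (nat_lit 79) (nat_lit 5) (nat_lit 489) (nat_lit 399) (nat_lit 312)))) (XT.nd (nat_lit 156) (nat_lit 228) (nat_lit 0) (XT.nd (nat_lit 78) (nat_lit 152) (nat_lit 0) (XT.lf (nat_lit 0) (nat_lit 9982836057) (nat_lit 228) (nat_lit 1137862989) (nat_lit 76) (nat_lit 9351056945) (nat_lit 78) (nat_lit 5) (nat_lit 81) (nat_lit 5) (nat_lit 79) (nat_lit 5) (nat_lit 490)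 (nat_lit 399) (nat_lit 311)) (XT.lf (nat_lit 0) (nat_lit 11426177336) (nat_lit 152) (nat_lit 4499001956) (nat_lit 228) (nat_lit 4951771420) (nat_lit 76) (nat_lit 5) (nat_lit 78) (nat_lit 5) (nat_lit 79) (nat_lit 5) (nat_lit 491) (nat_lit 399) (nat_lit 310))) (XT.nd (nat_lit 78) (nat_lit 0) (nat_lit 0) (XT.lf (nat_lit 0) (nat_lit 774626273) (nat_lit 228) (nat_lit 18213831938) (nat_lit 76) (nat_lit 2304494026) (nat_lit 73) (nat_lit 5) (nat_lit 76) (nat_lit 5) (nat_lit 74) (nat_lit 5) (nat_lit 492) (nat_lit 399) (nat_lit 309)) (XT.lf (nat_lit 0) (nat_lit 6688105817) (nat_lit 228) (nat_lit 5681876334) (nat_lit 76) (nat_lit 9346537962) (nat_lit 73) (nat_lit 5) (nat_lit 76) (nat_lit 5) (nat_lit 74) (nat_lit 5) (nat_lit 493) (nat_lit 399) (nat_lit 308)))))) (XT.nd (nat_lit 624) (nat_lit 608) (nat_lit 0) (XT.nd (nat_lit 312) (nat_lit 304) (nat_lit 0) (XT.nd (nat_lit 156) (nat_lit 380) (nat_lit 0) (XT.nd (nat_lit 78) (nat_lit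 0) (nat_lit 0) (XT.lf (nat_lit 0) (nat_lit 7322884248) (nat_lit 152) (nat_lit 5501149847) (nat_lit 228) (nat_lit 9327411152) (nat_lit 71) (nat_lit 5) (nat_lit 73) (nat_lit 5) (nat_lit 74) (nat_lit 5) (nat_lit 494) (nat_lit 399) (nat_lit 307)) (XT.lf (nat_lit 0) (nat_lit 19191866662) (nat_lit 228) (nat_lit 1825285685) (nat_lit 76) (nat_lit 1580832502) (nat_lit 71) (nat_lit 5) (nat_lit 74) (nat_lit 5) (nat_lit 72) (nat_lit 4) (nat_lit 495) (nat_lit 399) (nat_lit 306))) (XT.nd (nat_lit 78) (nat_lit 152) (nat_lit 0) (XT.lf (nat_lit 0) (nat_lit 2784071693) (nat_lit 228) (nat_lit 11383881324) (nat_lit 76) (nat_lit 8884878353) (nat_lit 68) (nat_lit 5) (nat_lit 71) (nat_lit 5) (nat_lit 69) (nat_lit 5) (nat_lit 496) (nat_lit 399) (nat_lit 305)) (XT.lf (nat_lit 0) (nat_lit 2045815741) (nat_lit 152) (nat_lit 7059508038) (nat_lit 228) (nat_lit 14414574685) (nat_lit 66) (nat_lit 5) (nat_lit 68) (nat_lit 5) (nat_lit 69) (nat_lit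 5) (nat_lit 497) (nat_lit 399) (nat_lit 304)))) (XT.nd (nat_lit 156) (nat_lit 228) (nat_lit 0) (XT.nd (nat_lit 78) (nat_lit 76) (nat_lit 0) (XT.lf (nat_lit 0) (nat_lit 15710453991) (nat_lit 228) (nat_lit 7934375783) (nat_lit 76) (nat_lit 353321919) (nat_lit 66) (nat_lit 5) (nat_lit 69) (nat_lit 5) (nat_lit 67) (nat_lit 4) (nat_lit 498) (nat_lit 399) (nat_lit 303)) (XT.lf (nat_lit 0) (nat_lit 6015366469) (nat_lit 76) (nat_lit 16602428211) (nat_lit 152) (nat_lit 1869837440) (nat_lit 65) (nat_lit 5) (nat_lit 66) (nat_lit 5) (nat_lit 67) (nat_lit 4) (nat_lit 499) (nat_lit 399) (nat_lit 302))) (XT.nd (nat_lit 78) (nat_lit 152) (nat_lit 0) (XT.lf (nat_lit 0) (nat_lit 4705346251) (nat_lit 152) (nat_lit 4533192567) (nat_lit 76) (nat_lit 15750173503) (nat_lit 64) (nat_lit 5) (nat_lit 66) (nat_lit 5) (nat_lit 65) (nat_lit 5) (nat_lit 500) (nat_lit 399) (nat_lit 301)) (XT.lf (nat_lit 0) (nat_lit 9957432474) (nat_lit 152)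 (nat_lit 1555554124) (nat_lit 228) (nat_lit 13989100632) (nat_lit 62) (nat_lit 5) (nat_lit 64) (nat_lit 5) (nat_lit 65) (nat_lit 5) (nat_lit 501) (nat_lit 399) (nat_lit 300))))) (XT.nd (nat_lit 312) (nat_lit 304) (nat_lit 0) (XT.nd (nat_lit 156) (nat_lit 228) (nat_lit 0) (XT.nd (nat_lit 78) (nat_lit 76) (nat_lit 0) (XT.lf (nat_lit 0) (nat_lit 18609346554) (nat_lit 228) (nat_lit 1157849292) (nat_lit 76) (nat_lit 6261133983) (nat_lit 62) (nat_lit 5) (nat_lit 65) (nat_lit 5) (nat_lit 63) (nat_lit 4) (nat_lit 502) (nat_lit 399) (nat_lit 299)) (XT.lf (nat_lit 0) (nat_lit 13874648796) (nat_lit 76) (nat_lit 12170531932) (nat_lit 152) (nat_lit 521382595) (nat_lit 61) (nat_lit 5) (nat_lit 62) (nat_lit 5) (nat_lit 63) (nat_lit 4) (nat_lit 503) (nat_lit 399) (nat_lit 298))) (XT.nd (nat_lit 78) (nat_lit 0) (nat_lit 0) (XT.lf (nat_lit 0) (nat_lit 2199494709) (nat_lit 152) (nat_lit 4265986818) (nat_lit 228) (nat_lit 20653241026)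 (nat_lit 58) (nat_lit 5) (nat_lit 60) (nat_lit 5) (nat_lit 61) (nat_lit 5) (nat_lit 504) (nat_lit 399) (nat_lit 297)) (XT.lf (nat_lit 0) (nat_lit 13796075643) (nat_lit 228) (nat_lit 9970832999) (nat_lit 76) (nat_lit 3916045975) (nat_lit 58) (nat_lit 5) (nat_lit 61) (nat_lit 5) (nat_lit 59) (nat_lit 4) (nat_lit 505) (nat_lit 399) (nat_lit 296)))) (XT.nd (nat_lit 156) (nat_lit 152) (nat_lit 0) (XT.nd (nat_lit 78) (nat_lit 76) (nat_lit 0) (XT.lf (nat_lit 0) (nat_lit 5449966740) (nat_lit 76) (nat_lit 15969805391) (nat_lit 152) (nat_lit 6842146974) (nat_lit 57) (nat_lit 5) (nat_lit 58) (nat_lit 5) (nat_lit 59) (nat_lit 4) (nat_lit 506) (nat_lit 399) (nat_lit 295)) (XT.lf (nat_lit 0) (nat_lit 486122601) (nat_lit 152) (nat_lit 7362616256) (nat_lit 76) (nat_lit 21006987056) (nat_lit 56) (nat_lit 5) (nat_lit 58) (nat_lit 5) (nat_lit 57) (nat_lit 5) (nat_lit 507) (nat_lit 399) (nat_lit 294))) (XT.nd (nat_lit 78) (nat_lit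 0) (nat_lit 0) (XT.lf (nat_lit 0) (nat_lit 7964987085) (nat_lit 228) (nat_lit 20858254337) (nat_lit 76) (nat_lit 640026078) (nat_lit 54) (nat_lit 5) (nat_lit 57) (nat_lit 5) (nat_lit 55) (nat_lit 4) (nat_lit 508) (nat_lit 399) (nat_lit 293)) (XT.lf (nat_lit 0) (nat_lit 15800285718) (nat_lit 228) (nat_lit 5001735115) (nat_lit 76) (nat_lit 9283053340) (nat_lit 54) (nat_lit 5) (nat_lit 57) (nat_lit 5) (nat_lit 55) (nat_lit 4) (nat_lit 509) (nat_lit 399) (nat_lit 292))))))))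
noncomputable def xc96 : XT := (XT.nd (nat_lit 2340) (nat_lit 456) (nat_lit 0) (XT.nd (nat_lit 1170) (nat_lit 760) (nat_lit 0) (XT.nd (nat_lit 546) (nat_lit 456) (nat_lit 0) (XT.nd (nat_lit 234) (nat_lit 304) (nat_lit 0) (XT.nd (nat_lit 78) (nat_lit 228) (nat_lit 0) (XT.lf (nat_lit 0) (nat_lit 11517279900) (nat_lit 76) (nat_lit 12443952047) (nat_lit 152) (nat_lit 6761586300) (nat_lit 53) (nat_lit 5) (nat_lit 54) (nat_lit 5) (nat_lit 55) (nat_lit 4) (nat_lit 510) (nat_lit 399) (nat_lit 291)) (XT.nd (nat_lit 78) (nat_lit 152) (nat_lit 0) (XT.lf (nat_lit 0) (nat_lit 998958308) (nat_lit 152) (nat_lit 2791746251) (nat_lit 76) (nat_lit 27587778801) (nat_lit 52) (nat_lit 5) (nat_lit 54) (nat_lit 5) (nat_lit 53) (nat_lit 5) (nat_lit 511) (nat_lit 399) (nat_lit 290)) (XT.lf (nat_lit 0) (nat_lit 9025360397) (nat_lit 228) (nat_lit 17809882093) (nat_lit 76) (nat_lit 5211500061) (nat_lit 50) (nat_lit 5) (nat_lit 53) (nat_lit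 5) (nat_lit 51) (nat_lit 4) (nat_lit 512) (nat_lit 399) (nat_lit 289)))) (XT.nd (nat_lit 156) (nat_lit 228) (nat_lit 0) (XT.nd (nat_lit 78) (nat_lit 76) (nat_lit 0) (XT.lf (nat_lit 0) (nat_lit 17339098367) (nat_lit 228) (nat_lit 975380026) (nat_lit 76) (nat_lit 14419175575) (nat_lit 50) (nat_lit 5) (nat_lit 53) (nat_lit 5) (nat_lit 51) (nat_lit 4) (nat_lit 513) (nat_lit 399) (nat_lit 288)) (XT.lf (nat_lit 0) (nat_lit 16653279040) (nat_lit 76) (nat_lit 9390159491) (nat_lit 152) (nat_lit 7393499235) (nat_lit 49) (nat_lit 5) (nat_lit 50) (nat_lit 5) (nat_lit 51) (nat_lit 4) (nat_lit 514) (nat_lit 399) (nat_lit 287))) (XT.nd (nat_lit 78) (nat_lit 0) (nat_lit 0) (XT.lf (nat_lit 0) (nat_lit 638105979) (nat_lit 152) (nat_lit 190156076) (nat_lit 228) (nat_lit 33332897912) (nat_lit 46) (nat_lit 5) (nat_lit 48) (nat_lit 5) (nat_lit 49) (nat_lit 5) (nat_lit 515) (nat_lit 399) (nat_lit 286)) (XT.lf (nat_lit 0) (nat_lit 9389673546)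 (nat_lit 228) (nat_lit 16175509559) (nat_lit 76) (nat_lit 9332482338) (nat_lit 46) (nat_lit 5) (nat_lit 49) (nat_lit 5) (nat_lit 47) (nat_lit 4) (nat_lit 516) (nat_lit 399) (nat_lit 285))))) (XT.nd (nat_lit 312) (nat_lit 228) (nat_lit 0) (XT.nd (nat_lit 156) (nat_lit 152) (nat_lit 0) (XT.nd (nat_lit 78) (nat_lit 0) (nat_lit 0) (XT.lf (nat_lit 0) (nat_lit 1688661295) (nat_lit 76) (nat_lit 16519107522) (nat_lit 152) (nat_lit 17448502682) (nat_lit 45) (nat_lit 5) (nat_lit 46) (nat_lit 5) (nat_lit 47) (nat_lit 4) (nat_lit 517) (nat_lit 399) (nat_lit 284)) (XT.lf (nat_lit 0) (nat_lit 20385812177) (nat_lit 76) (nat_lit 7049862304) (nat_lit 152) (nat_lit 8997603867) (nat_lit 45) (nat_lit 5) (nat_lit 46) (nat_lit 5) (nat_lit 47) (nat_lit 4) (nat_lit 518) (nat_lit 399) (nat_lit 283))) (XT.nd (nat_lit 78) (nat_lit 76) (nat_lit 0) (XT.lf (nat_lit 0) (nat_lit 2397177418) (nat_lit 76) (nat_lit 34574569805) (nat_lit 76) (nat_lit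 260908905) (nat_lit 44) (nat_lit 4) (nat_lit 45) (nat_lit 5) (nat_lit 45) (nat_lit 4) (nat_lit 519) (nat_lit 399) (nat_lit 282)) (XT.lf (nat_lit 0) (nat_lit 8783150703) (nat_lit 152) (nat_lit 16516350320) (nat_lit 76) (nat_lit 12747521842) (nat_lit 43) (nat_lit 5) (nat_lit 45) (nat_lit 5) (nat_lit 44) (nat_lit 4) (nat_lit 520) (nat_lit 399) (nat_lit 281)))) (XT.nd (nat_lit 156) (nat_lit 152) (nat_lit 0) (XT.nd (nat_lit 78) (nat_lit 0) (nat_lit 0) (XT.lf (nat_lit 0) (nat_lit 2362950980) (nat_lit 76) (nat_lit 15735884685) (nat_lit 152) (nat_lit 20786741582) (nat_lit 42) (nat_lit 5) (nat_lit 43) (nat_lit 5) (nat_lit 44) (nat_lit 4) (nat_lit 521) (nat_lit 399) (nat_lit 280)) (XT.lf (nat_lit 0) (nat_lit 22114595755) (nat_lit 76) (nat_lit 5729198201) (nat_lit 152) (nat_lit 11901000771) (nat_lit 42) (nat_lit 5) (nat_lit 43) (nat_lit 5) (nat_lit 44) (nat_lit 4) (nat_lit 522) (nat_lit 399) (nat_lit 279))) (XT.nd (nat_lit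 78) (nat_lit 76) (nat_lit 0) (XT.lf (nat_lit 0) (nat_lit 1787881414) (nat_lit 76) (nat_lit 36137778109) (nat_lit 76) (nat_lit 2702792990) (nat_lit 41) (nat_lit 4) (nat_lit 42) (nat_lit 5) (nat_lit 42) (nat_lit 4) (nat_lit 523) (nat_lit 399) (nat_lit 278)) (XT.lf (nat_lit 0) (nat_lit 6859130387) (nat_lit 152) (nat_lit 19538972579) (nat_lit 76) (nat_lit 15131967767) (nat_lit 40) (nat_lit 5) (nat_lit 42) (nat_lit 5) (nat_lit 41) (nat_lit 4) (nat_lit 524) (nat_lit 399) (nat_lit 277)))))) (XT.nd (nat_lit 546) (nat_lit 456) (nat_lit 0) (XT.nd (nat_lit 234) (nat_lit 228) (nat_lit 0) (XT.nd (nat_lit 78) (nat_lit 0) (nat_lit 0) (XT.lf (nat_lit 0) (nat_lit 289473314) (nat_lit 76) (nat_lit 16350766364) (nat_lit 152) (nat_lit 25818095950) (nat_lit 39) (nat_lit 5) (nat_lit 40) (nat_lit 5) (nat_lit 41) (nat_lit 4) (nat_lit 525) (nat_lit 399) (nat_lit 276)) (XT.nd (nat_lit 78) (nat_lit 0) (nat_lit 0) (XT.lf (nat_lit 0) (nat_lit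 21082518236) (nat_lit 76) (nat_lit 5813612320) (nat_lit 152) (nat_lit 16512877941) (nat_lit 39) (nat_lit 5) (nat_lit 40) (nat_lit 5) (nat_lit 41) (nat_lit 4) (nat_lit 526) (nat_lit 399) (nat_lit 275)) (XT.lf (nat_lit 0) (nat_lit 37492511809) (nat_lit 152) (nat_lit 1967505665) (nat_lit 0) (nat_lit 4927200131) (nat_lit 39) (nat_lit 5) (nat_lit 41) (nat_lit 4) (nat_lit 39) (nat_lit 4) (nat_lit 527) (nat_lit 399) (nat_lit 274)))) (XT.nd (nat_lit 156) (nat_lit 76) (nat_lit 0) (XT.nd (nat_lit 78) (nat_lit 0) (nat_lit 0) (XT.lf (nat_lit 0) (nat_lit 3183321430) (nat_lit 152) (nat_lit 26127341325) (nat_lit 76) (nat_lit 16076339515) (nat_lit 37) (nat_lit 5) (nat_lit 39) (nat_lit 5) (nat_lit 38) (nat_lit 4) (nat_lit 528) (nat_lit 399) (nat_lit 273)) (XT.lf (nat_lit 0) (nat_lit 13430015743) (nat_lit 152) (nat_lit 5350019975) (nat_lit 76) (nat_lit 27634550154) (nat_lit 37) (nat_lit 5) (nat_lit 39) (nat_lit 5) (nat_lit 38) (nat_lit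 4) (nat_lit 529) (nat_lit 399) (nat_lit 272))) (XT.nd (nat_lit 78) (nat_lit 0) (nat_lit 0) (XT.lf (nat_lit 0) (nat_lit 16340998673) (nat_lit 76) (nat_lit 7785471857) (nat_lit 152) (nat_lit 23342256074) (nat_lit 36) (nat_lit 5) (nat_lit 37) (nat_lit 5) (nat_lit 38) (nat_lit 4) (nat_lit 530) (nat_lit 399) (nat_lit 271)) (XT.lf (nat_lit 0) (nat_lit 35217703179) (nat_lit 152) (nat_lit 9823526788) (nat_lit 0) (nat_lit 3511045464) (nat_lit 36) (nat_lit 5) (nat_lit 38) (nat_lit 4) (nat_lit 36) (nat_lit 4) (nat_lit 531) (nat_lit 399) (nat_lit 270))))) (XT.nd (nat_lit 312) (nat_lit 228) (nat_lit 0) (XT.nd (nat_lit 156) (nat_lit 76) (nat_lit 0) (XT.nd (nat_lit 78) (nat_lit 76) (nat_lit 0) (XT.lf (nat_lit 0) (nat_lit 12254149027) (nat_lit 76) (nat_lit 34568136265) (nat_lit 76) (nat_lit 2840627441) (nat_lit 35) (nat_lit 4) (nat_lit 36) (nat_lit 5) (nat_lit 36) (nat_lit 4) (nat_lit 532) (nat_lit 399) (nat_lit 269)) (XT.lf (nat_lit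 0) (nat_lit 7898575271) (nat_lit 152) (nat_lit 15713644817) (nat_lit 76) (nat_lit 27189773796) (nat_lit 34) (nat_lit 5) (nat_lit 36) (nat_lit 5) (nat_lit 35) (nat_lit 4) (nat_lit 533) (nat_lit 399) (nat_lit 268))) (XT.nd (nat_lit 78) (nat_lit 0) (nat_lit 0) (XT.lf (nat_lit 0) (nat_lit 6708208148) (nat_lit 76) (nat_lit 12245296746) (nat_lit 152) (nat_lit 33019379840) (nat_lit 33) (nat_lit 5) (nat_lit 34) (nat_lit 5) (nat_lit 35) (nat_lit 4) (nat_lit 534) (nat_lit 399) (nat_lit 267)) (XT.lf (nat_lit 0) (nat_lit 30098198931) (nat_lit 76) (nat_lit 386868771) (nat_lit 152) (nat_lit 22689485392) (nat_lit 33) (nat_lit 5) (nat_lit 34) (nat_lit 5) (nat_lit 35) (nat_lit 4) (nat_lit 535) (nat_lit 399) (nat_lit 266)))) (XT.nd (nat_lit 156) (nat_lit 152) (nat_lit 0) (XT.nd (nat_lit 78) (nat_lit 76) (nat_lit 0) (XT.lf (nat_lit 0) (nat_lit 42462855070) (nat_lit 152) (nat_lit 362208172) (nat_lit 0) (nat_lit 11584200267) (nat_lit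 33) (nat_lit 5) (nat_lit 35) (nat_lit 4) (nat_lit 33) (nat_lit 4) (nat_lit 536) (nat_lit 399) (nat_lit 265)) (XT.lf (nat_lit 0) (nat_lit 23461986130) (nat_lit 76) (nat_lit 31554328279) (nat_lit 76) (nat_lit 658211001) (nat_lit 32) (nat_lit 4) (nat_lit 33) (nat_lit 5) (nat_lit 33) (nat_lit 4) (nat_lit 537) (nat_lit 399) (nat_lit 264))) (XT.nd (nat_lit 78) (nat_lit 76) (nat_lit 0) (XT.lf (nat_lit 0) (nat_lit 10745275558) (nat_lit 152) (nat_lit 9100161754) (nat_lit 76) (nat_lit 37129424622) (nat_lit 31) (nat_lit 5) (nat_lit 33) (nat_lit 5) (nat_lit 32) (nat_lit 4) (nat_lit 538) (nat_lit 399) (nat_lit 263)) (XT.lf (nat_lit 0) (nat_lit 14966475267) (nat_lit 76) (nat_lit 7642394911) (nat_lit 152) (nat_lit 35701206179) (nat_lit 30) (nat_lit 5) (nat_lit 31) (nat_lit 5) (nat_lit 32) (nat_lit 4) (nat_lit 539) (nat_lit 399) (nat_lit 262))))))) (XT.nd (nat_lit 51792) (nat_lit 0) (nat_lit 25916) (XT.nd (nat_lit 546) (nat_lit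 152) (nat_lit 0) (XT.nd (nat_lit 234) (nat_lit 228) (nat_lit 0) (XT.nd (nat_lit 78) (nat_lit 76) (nat_lit 0) (XT.lf (nat_lit 0) (nat_lit 34955920023) (nat_lit 152) (nat_lit 19813867280) (nat_lit 0) (nat_lit 4911733776) (nat_lit 30) (nat_lit 5) (nat_lit 32) (nat_lit 4) (nat_lit 30) (nat_lit 4) (nat_lit 540) (nat_lit 399) (nat_lit 261)) (XT.nd (nat_lit 78) (nat_lit 0) (nat_lit 0) (XT.lf (nat_lit 0) (nat_lit 4408164801) (nat_lit 76) (nat_lit 43371010172) (nat_lit 76) (nat_lit 13311760641) (nat_lit 29) (nat_lit 4) (nat_lit 30) (nat_lit 5) (nat_lit 30) (nat_lit 4) (nat_lit 541) (nat_lit 399) (nat_lit 260)) (XT.lf (nat_lit 0) (nat_lit 29739311822) (nat_lit 76) (nat_lit 31435778121) (nat_lit 76) (nat_lit 1361904041) (nat_lit 29) (nat_lit 4) (nat_lit 30) (nat_lit 5) (nat_lit 30) (nat_lit 4) (nat_lit 542) (nat_lit 399) (nat_lit 259)))) (XT.nd (nat_lit 156) (nat_lit 76) (nat_lit 0) (XT.nd (nat_lit 78) (nat_lit 76) (nat_lit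 0) (XT.lf (nat_lit 0) (nat_lit 10720961008) (nat_lit 152) (nat_lit 8324521823) (nat_lit 76) (nat_lit 44978151291) (nat_lit 28) (nat_lit 5) (nat_lit 30) (nat_lit 5) (nat_lit 29) (nat_lit 4) (nat_lit 543) (nat_lit 399) (nat_lit 258)) (XT.lf (nat_lit 0) (nat_lit 17182053250) (nat_lit 76) (nat_lit 6110513724) (nat_lit 152) (nat_lit 42257293374) (nat_lit 27) (nat_lit 5) (nat_lit 28) (nat_lit 5) (nat_lit 29) (nat_lit 4) (nat_lit 544) (nat_lit 399) (nat_lit 257))) (XT.nd (nat_lit 78) (nat_lit 76) (nat_lit 0) (XT.lf (nat_lit 0) (nat_lit 36384025151) (nat_lit 152) (nat_lit 23587640475) (nat_lit 0) (nat_lit 7145926857) (nat_lit 27) (nat_lit 5) (nat_lit 29) (nat_lit 4) (nat_lit 27) (nat_lit 4) (nat_lit 545) (nat_lit 399) (nat_lit 256)) (XT.lf (nat_lit 0) (nat_lit 1890381522) (nat_lit 76) (nat_lit 48045332127) (nat_lit 76) (nat_lit 18794618569) (nat_lit 26) (nat_lit 4) (nat_lit 27) (nat_lit 5) (nat_lit 27) (nat_lit 4) (nat_lit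 546) (nat_lit 399) (nat_lit 255))))) (XT.nd (nat_lit 312) (nat_lit 0) (nat_lit 0) (XT.nd (nat_lit 156) (nat_lit 76) (nat_lit 0) (XT.nd (nat_lit 78) (nat_lit 76) (nat_lit 0) (XT.lf (nat_lit 0) (nat_lit 28594545120) (nat_lit 76) (nat_lit 35526528507) (nat_lit 76) (nat_lit 6263567120) (nat_lit 26) (nat_lit 4) (nat_lit 27) (nat_lit 5) (nat_lit 27) (nat_lit 4) (nat_lit 547) (nat_lit 399) (nat_lit 254)) (XT.lf (nat_lit 0) (nat_lit 6502926567) (nat_lit 152) (nat_lit 16073911550) (nat_lit 76) (nat_lit 49510150382) (nat_lit 25) (nat_lit 5) (nat_lit 27) (nat_lit 5) (nat_lit 26) (nat_lit 4) (nat_lit 548) (nat_lit 399) (nat_lit 253))) (XT.nd (nat_lit 78) (nat_lit 0) (nat_lit 0) (XT.lf (nat_lit 0) (nat_lit 10536665323) (nat_lit 76) (nat_lit 9080606873) (nat_lit 152) (nat_lit 54218551771) (nat_lit 24) (nat_lit 5) (nat_lit 25) (nat_lit 5) (nat_lit 26) (nat_lit 4) (nat_lit 549) (nat_lit 399) (nat_lit 252)) (XT.lf (nat_lit 0) (nat_lit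 33324785042) (nat_lit 152) (nat_lit 37425839924) (nat_lit 0) (nat_lit 4880507630) (nat_lit 24) (nat_lit 5) (nat_lit 26) (nat_lit 4) (nat_lit 24) (nat_lit 4) (nat_lit 550) (nat_lit 399) (nat_lit 251)))) (XT.nd (nat_lit 50778) (nat_lit 0) (nat_lit 29868) (XT.nd (nat_lit 50700) (nat_lit 0) (nat_lit 29944) (XT.lf (nat_lit 0) (nat_lit 47523213840) (nat_lit 152) (nat_lit 10886324779) (nat_lit 0) (nat_lit 19068371343) (nat_lit 24) (nat_lit 5) (nat_lit 26) (nat_lit 4) (nat_lit 24) (nat_lit 4) (nat_lit 551) (nat_lit 399) (nat_lit 250)) (XT.lf (nat_lit 0) (nat_lit 1073741823) (nat_lit 0) (nat_lit 0) (nat_lit 0) (nat_lit 0) (nat_lit 418) (nat_lit 0) (nat_lit 1) (nat_lit 0) (nat_lit 1) (nat_lit 0) (nat_lit 400) (nat_lit 400) (nat_lit 400))) (XT.nd (nat_lit 78) (nat_lit 0) (nat_lit 0) (XT.lf (nat_lit 0) (nat_lit 3142407165) (nat_lit 76) (nat_lit 3239072076) (nat_lit 0) (nat_lit 61914845) (nat_lit 417) (nat_lit 5) (nat_lit 418)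 (nat_lit 0) (nat_lit 417) (nat_lit 4) (nat_lit 401) (nat_lit 400) (nat_lit 399)) (XT.lf (nat_lit 0) (nat_lit 6257060200) (nat_lit 76) (nat_lit 5222952) (nat_lit 0) (nat_lit 185798637) (nat_lit 417) (nat_lit 5) (nat_lit 418) (nat_lit 0) (nat_lit 417) (nat_lit 4) (nat_lit 402) (nat_lit 400) (nat_lit 398)))))) (XT.nd (nat_lit 546) (nat_lit 2888) (nat_lit 0) (XT.nd (nat_lit 234) (nat_lit 684) (nat_lit 0) (XT.nd (nat_lit 78) (nat_lit 228) (nat_lit 0) (XT.lf (nat_lit 0) (nat_lit 2866061276) (nat_lit 152) (nat_lit 3156816631) (nat_lit 76) (nat_lit 431837891) (nat_lit 415) (nat_lit 5) (nat_lit 417) (nat_lit 5) (nat_lit 416) (nat_lit 4) (nat_lit 403) (nat_lit 400) (nat_lit 397)) (XT.nd (nat_lit 78) (nat_lit 76) (nat_lit 0) (XT.lf (nat_lit 0) (nat_lit 174721779) (nat_lit 152) (nat_lit 5721204159) (nat_lit 228) (nat_lit 569069657) (nat_lit 413) (nat_lit 5) (nat_lit 415) (nat_lit 5) (nat_lit 416) (nat_lit 4) (nat_lit 404)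 (nat_lit 400) (nat_lit 396)) (XT.lf (nat_lit 0) (nat_lit 2408487814) (nat_lit 228) (nat_lit 2895621470) (nat_lit 76) (nat_lit 1173280420) (nat_lit 412) (nat_lit 5) (nat_lit 415) (nat_lit 5) (nat_lit 413) (nat_lit 5) (nat_lit 405) (nat_lit 400) (nat_lit 395)))) (XT.nd (nat_lit 156) (nat_lit 380) (nat_lit 0) (XT.nd (nat_lit 78) (nat_lit 76) (nat_lit 0) (XT.lf (nat_lit 0) (nat_lit 540571238) (nat_lit 228) (nat_lit 4816693171) (nat_lit 304) (nat_lit 1135968751) (nat_lit 409) (nat_lit 5) (nat_lit 412) (nat_lit 5) (nat_lit 413) (nat_lit 5) (nat_lit 406) (nat_lit 400) (nat_lit 394)) (XT.lf (nat_lit 0) (nat_lit 1767345426) (nat_lit 304) (nat_lit 2454690470) (nat_lit 76) (nat_lit 2289440977) (nat_lit 408) (nat_lit 5) (nat_lit 412) (nat_lit 5) (nat_lit 409) (nat_lit 5) (nat_lit 407) (nat_lit 400) (nat_lit 393))) (XT.nd (nat_lit 78) (nat_lit 76) (nat_lit 0) (XT.lf (nat_lit 0) (nat_lit 1093441880) (nat_lit 304) (nat_lit 3544855989)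 (nat_lit 380) (nat_lit 1894574009) (nat_lit 404) (nat_lit 5) (nat_lit 408) (nat_lit 5) (nat_lit 409) (nat_lit 5) (nat_lit 408) (nat_lit 400) (nat_lit 392)) (XT.lf (nat_lit 0) (nat_lit 939486336) (nat_lit 380) (nat_lit 1832451252) (nat_lit 76) (nat_lit 3785131584) (nat_lit 403) (nat_lit 5) (nat_lit 408) (nat_lit 5) (nat_lit 404) (nat_lit 5) (nat_lit 409) (nat_lit 400) (nat_lit 391))))) (XT.nd (nat_lit 312) (nat_lit 1976) (nat_lit 0) (XT.nd (nat_lit 156) (nat_lit 532) (nat_lit 0) (XT.nd (nat_lit 78) (nat_lit 0) (nat_lit 0) (XT.lf (nat_lit 0) (nat_lit 1835350233) (nat_lit 380) (nat_lit 1900147261) (nat_lit 456) (nat_lit 2848520814) (nat_lit 398) (nat_lit 5) (nat_lit 403) (nat_lit 5) (nat_lit 404) (nat_lit 5) (nat_lit 410) (nat_lit 400) (nat_lit 390)) (XT.lf (nat_lit 0) (nat_lit 5586938254) (nat_lit 380) (nat_lit 946696416) (nat_lit 456) (nat_lit 80631651) (nat_lit 398) (nat_lit 5) (nat_lit 403) (nat_lit 5) (nat_lit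 404) (nat_lit 5) (nat_lit 411) (nat_lit 400) (nat_lit 389))) (XT.nd (nat_lit 78) (nat_lit 0) (nat_lit 0) (XT.lf (nat_lit 0) (nat_lit 2645713832) (nat_lit 532) (nat_lit 3878895158) (nat_lit 76) (nat_lit 122165157) (nat_lit 391) (nat_lit 5) (nat_lit 398) (nat_lit 5) (nat_lit 392) (nat_lit 5) (nat_lit 412) (nat_lit 400) (nat_lit 388)) (XT.lf (nat_lit 0) (nat_lit 5376311483) (nat_lit 532) (nat_lit 58768987) (nat_lit 76) (nat_lit 1247464883) (nat_lit 391) (nat_lit 5) (nat_lit 398) (nat_lit 5) (nat_lit 392) (nat_lit 5) (nat_lit 413) (nat_lit 400) (nat_lit 387)))) (XT.nd (nat_lit 156) (nat_lit 760) (nat_lit 0) (XT.nd (nat_lit 78) (nat_lit 608) (nat_lit 0) (XT.lf (nat_lit 0) (nat_lit 1384567816) (nat_lit 608) (nat_lit 2847463371) (nat_lit 76) (nat_lit 2488653206) (nat_lit 383) (nat_lit 5) (nat_lit 391) (nat_lit 5) (nat_lit 384) (nat_lit 5) (nat_lit 414) (nat_lit 400) (nat_lit 386)) (XT.lf (nat_lit 0) (nat_lit 1107255939)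 (nat_lit 608) (nat_lit 2942009678) (nat_lit 684) (nat_lit 2712762851) (nat_lit 375) (nat_lit 5) (nat_lit 383) (nat_lit 5) (nat_lit 384) (nat_lit 5) (nat_lit 415) (nat_lit 400) (nat_lit 385))) (XT.nd (nat_lit 78) (nat_lit 760) (nat_lit 0) (XT.lf (nat_lit 0) (nat_lit 5173795135) (nat_lit 608) (nat_lit 1559093750) (nat_lit 684) (nat_lit 73585158) (nat_lit 375) (nat_lit 5) (nat_lit 383) (nat_lit 5) (nat_lit 384) (nat_lit 5) (nat_lit 416) (nat_lit 400) (nat_lit 384)) (XT.lf (nat_lit 0) (nat_lit 2467734416) (nat_lit 684) (nat_lit 61099092) (nat_lit 760) (nat_lit 4324615497) (nat_lit 365) (nat_lit 5) (nat_lit 374) (nat_lit 5) (nat_lit 375) (nat_lit 5) (nat_lit 417) (nat_lit 400) (nat_lit 383))))))))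
noncomputable def xc97 : XT := (XT.nd (nat_lit 2340) (nat_lit 6384) (nat_lit 0) (XT.nd (nat_lit 1170) (nat_lit 5320) (nat_lit 0) (XT.nd (nat_lit 546) (nat_lit 5016) (nat_lit 0) (XT.nd (nat_lit 234) (nat_lit 1976) (nat_lit 0) (XT.nd (nat_lit 78) (nat_lit 1672) (nat_lit 0) (XT.lf (nat_lit 0) (nat_lit 5152846695) (nat_lit 760) (nat_lit 259102063) (nat_lit 76) (nat_lit 1491540680) (nat_lit 365) (nat_lit 5) (nat_lit 375) (nat_lit 5) (nat_lit 366) (nat_lit 5) (nat_lit 418) (nat_lit 400) (nat_lit 382)) (XT.nd (nat_lit 78) (nat_lit 836) (nat_lit 0) (XT.lf (nat_lit 0) (nat_lit 838208460) (nat_lit 836) (nat_lit 2961074875) (nat_lit 76) (nat_lit 3156857578) (nat_lit 354) (nat_lit 5) (nat_lit 365) (nat_lit 5) (nat_lit 355) (nat_lit 5) (nat_lit 419) (nat_lit 400) (nat_lit 381)) (XT.lf (nat_lit 0) (nat_lit 1313832961) (nat_lit 836) (nat_lit 2088559667) (nat_lit 912) (nat_lit 3609499426) (nat_lit 343) (nat_lit 5) (nat_lit 354)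 (nat_lit 5) (nat_lit 355) (nat_lit 5) (nat_lit 420) (nat_lit 400) (nat_lit 380)))) (XT.nd (nat_lit 156) (nat_lit 988) (nat_lit 0) (XT.nd (nat_lit 78) (nat_lit 988) (nat_lit 0) (XT.lf (nat_lit 0) (nat_lit 5712014657) (nat_lit 836) (nat_lit 280739877) (nat_lit 912) (nat_lit 1078108602) (nat_lit 343) (nat_lit 5) (nat_lit 354) (nat_lit 5) (nat_lit 355) (nat_lit 5) (nat_lit 421) (nat_lit 400) (nat_lit 379)) (XT.lf (nat_lit 0) (nat_lit 1465767375) (nat_lit 988) (nat_lit 4057646253) (nat_lit 76) (nat_lit 1608780745) (nat_lit 330) (nat_lit 5) (nat_lit 343) (nat_lit 5) (nat_lit 331) (nat_lit 5) (nat_lit 422) (nat_lit 400) (nat_lit 378))) (XT.nd (nat_lit 78) (nat_lit 0) (nat_lit 0) (XT.lf (nat_lit 0) (nat_lit 400896750) (nat_lit 988) (nat_lit 3606589774) (nat_lit 1064) (nat_lit 3189285773) (nat_lit 317) (nat_lit 5) (nat_lit 330) (nat_lit 5) (nat_lit 331) (nat_lit 5) (nat_lit 423) (nat_lit 400) (nat_lit 377)) (XT.lf (nat_lit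 0) (nat_lit 5009848311) (nat_lit 988) (nat_lit 1580900010) (nat_lit 1064) (nat_lit 673602693) (nat_lit 317) (nat_lit 5) (nat_lit 330) (nat_lit 5) (nat_lit 331) (nat_lit 5) (nat_lit 424) (nat_lit 400) (nat_lit 376))))) (XT.nd (nat_lit 312) (nat_lit 1444) (nat_lit 0) (XT.nd (nat_lit 156) (nat_lit 2432) (nat_lit 0) (XT.nd (nat_lit 78) (nat_lit 0) (nat_lit 0) (XT.lf (nat_lit 0) (nat_lit 1834179987) (nat_lit 1140) (nat_lit 4955176378) (nat_lit 76) (nat_lit 545447240) (nat_lit 302) (nat_lit 5) (nat_lit 317) (nat_lit 5) (nat_lit 303) (nat_lit 5) (nat_lit 425) (nat_lit 400) (nat_lit 375)) (XT.lf (nat_lit 0) (nat_lit 4369676559) (nat_lit 1140) (nat_lit 297946901) (nat_lit 76) (nat_lit 2740585965) (nat_lit 302) (nat_lit 5) (nat_lit 317) (nat_lit 5) (nat_lit 303) (nat_lit 5) (nat_lit 426) (nat_lit 400) (nat_lit 374))) (XT.nd (nat_lit 78) (nat_lit 1292) (nat_lit 0) (XT.lf (nat_lit 0) (nat_lit 4521493138) (nat_lit 1140) (nat_lit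 2432698751) (nat_lit 1216) (nat_lit 530456628) (nat_lit 287) (nat_lit 5) (nat_lit 302) (nat_lit 5) (nat_lit 303) (nat_lit 5) (nat_lit 427) (nat_lit 400) (nat_lit 373)) (XT.lf (nat_lit 0) (nat_lit 1878731250) (nat_lit 1216) (nat_lit 85385626) (nat_lit 1292) (nat_lit 5600151078) (nat_lit 270) (nat_lit 5) (nat_lit 286) (nat_lit 5) (nat_lit 287) (nat_lit 5) (nat_lit 428) (nat_lit 400) (nat_lit 372)))) (XT.nd (nat_lit 156) (nat_lit 684) (nat_lit 0) (XT.nd (nat_lit 78) (nat_lit 760) (nat_lit 0) (XT.lf (nat_lit 0) (nat_lit 4507143891) (nat_lit 1292) (nat_lit 814672193) (nat_lit 76) (nat_lit 2324792030) (nat_lit 270) (nat_lit 5) (nat_lit 287) (nat_lit 5) (nat_lit 271) (nat_lit 5) (nat_lit 429) (nat_lit 400) (nat_lit 371)) (XT.lf (nat_lit 0) (nat_lit 4217814603) (nat_lit 760) (nat_lit 2883667500) (nat_lit 836) (nat_lit 630703281) (nat_lit 260) (nat_lit 5) (nat_lit 270) (nat_lit 5) (nat_lit 271) (nat_lit 5) (nat_lit 430)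 (nat_lit 400) (nat_lit 370))) (XT.nd (nat_lit 78) (nat_lit 0) (nat_lit 0) (XT.lf (nat_lit 0) (nat_lit 1542493582) (nat_lit 608) (nat_lit 330121146) (nat_lit 684) (nat_lit 5948446143) (nat_lit 251) (nat_lit 5) (nat_lit 259) (nat_lit 5) (nat_lit 260) (nat_lit 5) (nat_lit 431) (nat_lit 400) (nat_lit 369)) (XT.lf (nat_lit 0) (nat_lit 4431844999) (nat_lit 684) (nat_lit 1185060283) (nat_lit 76) (nat_lit 2295721355) (nat_lit 251) (nat_lit 5) (nat_lit 260) (nat_lit 5) (nat_lit 252) (nat_lit 5) (nat_lit 432) (nat_lit 400) (nat_lit 368)))))) (XT.nd (nat_lit 546) (nat_lit 2432) (nat_lit 0) (XT.nd (nat_lit 234) (nat_lit 1672) (nat_lit 0) (XT.nd (nat_lit 78) (nat_lit 608) (nat_lit 0) (XT.lf (nat_lit 0) (nat_lit 4071489061) (nat_lit 608) (nat_lit 2976187052) (nat_lit 684) (nat_lit 959884107) (nat_lit 243) (nat_lit 5) (nat_lit 251) (nat_lit 5) (nat_lit 252) (nat_lit 5) (nat_lit 433) (nat_lit 400) (nat_lit 367)) (XT.nd (nat_lit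 78) (nat_lit 0) (nat_lit 0) (XT.lf (nat_lit 0) (nat_lit 1348971023) (nat_lit 532) (nat_lit 218775244) (nat_lit 608) (nat_lit 6538246961) (nat_lit 235) (nat_lit 5) (nat_lit 242) (nat_lit 5) (nat_lit 243) (nat_lit 5) (nat_lit 434) (nat_lit 400) (nat_lit 366)) (XT.lf (nat_lit 0) (nat_lit 4156365427) (nat_lit 608) (nat_lit 1435716570) (nat_lit 76) (nat_lit 2614892781) (nat_lit 235) (nat_lit 5) (nat_lit 243) (nat_lit 5) (nat_lit 236) (nat_lit 5) (nat_lit 435) (nat_lit 400) (nat_lit 365)))) (XT.nd (nat_lit 156) (nat_lit 532) (nat_lit 0) (XT.nd (nat_lit 78) (nat_lit 608) (nat_lit 0) (XT.lf (nat_lit 0) (nat_lit 4056506205) (nat_lit 532) (nat_lit 2748184390) (nat_lit 608) (nat_lit 1506847582) (nat_lit 228) (nat_lit 5) (nat_lit 235) (nat_lit 5) (nat_lit 236) (nat_lit 5) (nat_lit 436) (nat_lit 400) (nat_lit 364)) (XT.lf (nat_lit 0) (nat_lit 1061806257) (nat_lit 608) (nat_lit 7150072636) (nat_lit 76) (nat_lit 207942520) (nat_lit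 220) (nat_lit 5) (nat_lit 228) (nat_lit 5) (nat_lit 221) (nat_lit 5) (nat_lit 437) (nat_lit 400) (nat_lit 363))) (XT.nd (nat_lit 78) (nat_lit 532) (nat_lit 0) (XT.lf (nat_lit 0) (nat_lit 3690231336) (nat_lit 608) (nat_lit 1592381133) (nat_lit 76) (nat_lit 3247915819) (nat_lit 220) (nat_lit 5) (nat_lit 228) (nat_lit 5) (nat_lit 221) (nat_lit 5) (nat_lit 438) (nat_lit 400) (nat_lit 362)) (XT.lf (nat_lit 0) (nat_lit 4147676746) (nat_lit 532) (nat_lit 2233775361) (nat_lit 608) (nat_lit 2263598259) (nat_lit 213) (nat_lit 5) (nat_lit 220) (nat_lit 5) (nat_lit 221) (nat_lit 5) (nat_lit 439) (nat_lit 400) (nat_lit 361))))) (XT.nd (nat_lit 312) (nat_lit 988) (nat_lit 0) (XT.nd (nat_lit 156) (nat_lit 912) (nat_lit 0) (XT.nd (nat_lit 78) (nat_lit 0) (nat_lit 0) (XT.lf (nat_lit 0) (nat_lit 364839135) (nat_lit 532) (nat_lit 7487200114) (nat_lit 76) (nat_lit 911406180) (nat_lit 206) (nat_lit 5) (nat_lit 213) (nat_lit 5) (nat_lit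 207) (nat_lit 5) (nat_lit 440) (nat_lit 400) (nat_lit 360)) (XT.lf (nat_lit 0) (nat_lit 3040026700) (nat_lit 532) (nat_lit 1680417968) (nat_lit 76) (nat_lit 4163884766) (nat_lit 206) (nat_lit 5) (nat_lit 213) (nat_lit 5) (nat_lit 207) (nat_lit 5) (nat_lit 441) (nat_lit 400) (nat_lit 359))) (XT.nd (nat_lit 78) (nat_lit 456) (nat_lit 0) (XT.lf (nat_lit 0) (nat_lit 4320136506) (nat_lit 456) (nat_lit 1463863354) (nat_lit 532) (nat_lit 3225195117) (nat_lit 200) (nat_lit 5) (nat_lit 206) (nat_lit 5) (nat_lit 207) (nat_lit 5) (nat_lit 442) (nat_lit 400) (nat_lit 358)) (XT.lf (nat_lit 0) (nat_lit 1340112687) (nat_lit 456) (nat_lit 7266184311) (nat_lit 532) (nat_lit 531639942) (nat_lit 194) (nat_lit 5) (nat_lit 200) (nat_lit 5) (nat_lit 201) (nat_lit 5) (nat_lit 443) (nat_lit 400) (nat_lit 357)))) (XT.nd (nat_lit 156) (nat_lit 456) (nat_lit 0) (XT.nd (nat_lit 78) (nat_lit 456) (nat_lit 0) (XT.lf (nat_lit 0) (nat_lit 2209463240)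 (nat_lit 532) (nat_lit 1725314885) (nat_lit 76) (nat_lit 5334811126) (nat_lit 193) (nat_lit 5) (nat_lit 200) (nat_lit 5) (nat_lit 194) (nat_lit 5) (nat_lit 444) (nat_lit 400) (nat_lit 356)) (XT.lf (nat_lit 0) (nat_lit 4548837797) (nat_lit 456) (nat_lit 466703592) (nat_lit 532) (nat_lit 4389698708) (nat_lit 187) (nat_lit 5) (nat_lit 193) (nat_lit 5) (nat_lit 194) (nat_lit 5) (nat_lit 445) (nat_lit 400) (nat_lit 355))) (XT.nd (nat_lit 78) (nat_lit 76) (nat_lit 0) (XT.lf (nat_lit 0) (nat_lit 1435366914) (nat_lit 380) (nat_lit 6482100944) (nat_lit 456) (nat_lit 1627152048) (nat_lit 182) (nat_lit 5) (nat_lit 187) (nat_lit 5) (nat_lit 188) (nat_lit 5) (nat_lit 446) (nat_lit 400) (nat_lit 354)) (XT.lf (nat_lit 0) (nat_lit 1199403024) (nat_lit 456) (nat_lit 1753203459) (nat_lit 76) (nat_lit 6735085030) (nat_lit 181) (nat_lit 5) (nat_lit 187) (nat_lit 5) (nat_lit 182) (nat_lit 5) (nat_lit 447) (nat_lit 400) (nat_lit 353)))))))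 (XT.nd (nat_lit 1170) (nat_lit 2812) (nat_lit 0) (XT.nd (nat_lit 546) (nat_lit 1596) (nat_lit 0) (XT.nd (nat_lit 234) (nat_lit 1140) (nat_lit 0) (XT.nd (nat_lit 78) (nat_lit 456) (nat_lit 0) (XT.lf (nat_lit 0) (nat_lit 4083492975) (nat_lit 456) (nat_lit 5033642039) (nat_lit 76) (nat_lit 717282289) (nat_lit 176) (nat_lit 5) (nat_lit 182) (nat_lit 5) (nat_lit 177) (nat_lit 5) (nat_lit 448) (nat_lit 400) (nat_lit 352)) (XT.nd (nat_lit 78) (nat_lit 76) (nat_lit 0) (XT.lf (nat_lit 0) (nat_lit 1539052242) (nat_lit 380) (nat_lit 5529794091) (nat_lit 456) (nat_lit 2916264677) (nat_lit 171) (nat_lit 5) (nat_lit 176) (nat_lit 5) (nat_lit 177) (nat_lit 5) (nat_lit 449) (nat_lit 400) (nat_lit 351)) (XT.lf (nat_lit 0) (nat_lit 7832857) (nat_lit 456) (nat_lit 1791409062) (nat_lit 76) (nat_lit 8340956551) (nat_lit 170) (nat_lit 5) (nat_lit 176) (nat_lit 5) (nat_lit 171) (nat_lit 5) (nat_lit 450) (nat_lit 400) (nat_lit 350))))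 (XT.nd (nat_lit 156) (nat_lit 456) (nat_lit 0) (XT.nd (nat_lit 78) (nat_lit 304) (nat_lit 0) (XT.lf (nat_lit 0) (nat_lit 2984526001) (nat_lit 456) (nat_lit 5248592584) (nat_lit 76) (nat_lit 2065256806) (nat_lit 165) (nat_lit 5) (nat_lit 171) (nat_lit 5) (nat_lit 166) (nat_lit 5) (nat_lit 451) (nat_lit 400) (nat_lit 349)) (XT.lf (nat_lit 0) (nat_lit 1622962457) (nat_lit 304) (nat_lit 4434307942) (nat_lit 380) (nat_lit 4403832141) (nat_lit 161) (nat_lit 5) (nat_lit 165) (nat_lit 5) (nat_lit 166) (nat_lit 5) (nat_lit 452) (nat_lit 400) (nat_lit 348))) (XT.nd (nat_lit 78) (nat_lit 456) (nat_lit 0) (XT.lf (nat_lit 0) (nat_lit 8745980099) (nat_lit 304) (nat_lit 484994091) (nat_lit 380) (nat_lit 1397481216) (nat_lit 161) (nat_lit 5) (nat_lit 165) (nat_lit 5) (nat_lit 166) (nat_lit 5) (nat_lit 453) (nat_lit 400) (nat_lit 347)) (XT.lf (nat_lit 0) (nat_lit 1708493886) (nat_lit 456) (nat_lit 5527280722) (nat_lit 76) (nat_lit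 3563293428) (nat_lit 155) (nat_lit 5) (nat_lit 161) (nat_lit 5) (nat_lit 156) (nat_lit 5) (nat_lit 454) (nat_lit 400) (nat_lit 346))))) (XT.nd (nat_lit 312) (nat_lit 608) (nat_lit 0) (XT.nd (nat_lit 156) (nat_lit 684) (nat_lit 0) (XT.nd (nat_lit 78) (nat_lit 0) (nat_lit 0) (XT.lf (nat_lit 0) (nat_lit 1656695827) (nat_lit 304) (nat_lit 3219927623) (nat_lit 380) (nat_lit 6097855208) (nat_lit 151) (nat_lit 5) (nat_lit 155) (nat_lit 5) (nat_lit 156) (nat_lit 5) (nat_lit 455) (nat_lit 400) (nat_lit 345)) (XT.lf (nat_lit 0) (nat_lit 8162588508) (nat_lit 380) (nat_lit 2055670031) (nat_lit 76) (nat_lit 936215725) (nat_lit 151) (nat_lit 5) (nat_lit 156) (nat_lit 5) (nat_lit 152) (nat_lit 5) (nat_lit 456) (nat_lit 400) (nat_lit 344))) (XT.nd (nat_lit 78) (nat_lit 304) (nat_lit 0) (XT.lf (nat_lit 0) (nat_lit 246641998) (nat_lit 380) (nat_lit 5902974142) (nat_lit 76) (nat_lit 5188897161) (nat_lit 146) (nat_lit 5) (nat_lit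 151) (nat_lit 5) (nat_lit 147) (nat_lit 5) (nat_lit 457) (nat_lit 400) (nat_lit 343)) (XT.lf (nat_lit 0) (nat_lit 1606963809) (nat_lit 304) (nat_lit 1910703952) (nat_lit 380) (nat_lit 8009658653) (nat_lit 142) (nat_lit 5) (nat_lit 146) (nat_lit 5) (nat_lit 147) (nat_lit 5) (nat_lit 458) (nat_lit 400) (nat_lit 342)))) (XT.nd (nat_lit 156) (nat_lit 304) (nat_lit 0) (XT.nd (nat_lit 78) (nat_lit 304) (nat_lit 0) (XT.lf (nat_lit 0) (nat_lit 6930114343) (nat_lit 380) (nat_lit 2342171399) (nat_lit 76) (nat_lit 2448225174) (nat_lit 142) (nat_lit 5) (nat_lit 147) (nat_lit 5) (nat_lit 143) (nat_lit 5) (nat_lit 459) (nat_lit 400) (nat_lit 341)) (XT.lf (nat_lit 0) (nat_lit 5492234495) (nat_lit 304) (nat_lit 4985081170) (nat_lit 380) (nat_lit 1441209378) (nat_lit 138) (nat_lit 5) (nat_lit 142) (nat_lit 5) (nat_lit 143) (nat_lit 5) (nat_lit 460) (nat_lit 400) (nat_lit 340))) (XT.nd (nat_lit 78) (nat_lit 0) (nat_lit 0) (XT.lf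 (nat_lit 0) (nat_lit 1436823253) (nat_lit 228) (nat_lit 530995285) (nat_lit 304) (nat_lit 10154130357) (nat_lit 134) (nat_lit 5) (nat_lit 137) (nat_lit 5) (nat_lit 138) (nat_lit 5) (nat_lit 461) (nat_lit 400) (nat_lit 339)) (XT.lf (nat_lit 0) (nat_lit 5515917950) (nat_lit 304) (nat_lit 2775842898) (nat_lit 76) (nat_lit 4037318567) (nat_lit 134) (nat_lit 5) (nat_lit 138) (nat_lit 5) (nat_lit 135) (nat_lit 5) (nat_lit 462) (nat_lit 400) (nat_lit 338)))))) (XT.nd (nat_lit 624) (nat_lit 1368) (nat_lit 0) (XT.nd (nat_lit 312) (nat_lit 532) (nat_lit 0) (XT.nd (nat_lit 156) (nat_lit 304) (nat_lit 0) (XT.nd (nat_lit 78) (nat_lit 304) (nat_lit 0) (XT.lf (nat_lit 0) (nat_lit 5412862245) (nat_lit 304) (nat_lit 3777252746) (nat_lit 380) (nat_lit 3351724135) (nat_lit 130) (nat_lit 5) (nat_lit 134) (nat_lit 5) (nat_lit 135) (nat_lit 5) (nat_lit 463) (nat_lit 400) (nat_lit 337)) (XT.lf (nat_lit 0) (nat_lit 219446202) (nat_lit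 304) (nat_lit 11664658192) (nat_lit 76) (nat_lit 876518566) (nat_lit 126) (nat_lit 5) (nat_lit 130) (nat_lit 5) (nat_lit 127) (nat_lit 5) (nat_lit 464) (nat_lit 400) (nat_lit 336))) (XT.nd (nat_lit 78) (nat_lit 304) (nat_lit 0) (XT.lf (nat_lit 0) (nat_lit 3903355247) (nat_lit 304) (nat_lit 3400057092) (nat_lit 76) (nat_lit 5679377809) (nat_lit 126) (nat_lit 5) (nat_lit 130) (nat_lit 5) (nat_lit 127) (nat_lit 5) (nat_lit 465) (nat_lit 400) (nat_lit 335)) (XT.lf (nat_lit 0) (nat_lit 5156064895) (nat_lit 304) (nat_lit 2555231319) (nat_lit 380) (nat_lit 5499925063) (nat_lit 122) (nat_lit 5) (nat_lit 126) (nat_lit 5) (nat_lit 127) (nat_lit 5) (nat_lit 466) (nat_lit 400) (nat_lit 334)))) (XT.nd (nat_lit 156) (nat_lit 228) (nat_lit 0) (XT.nd (nat_lit 78) (nat_lit 76) (nat_lit 0) (XT.lf (nat_lit 0) (nat_lit 523172129) (nat_lit 228) (nat_lit 11136712760) (nat_lit 304) (nat_lit 1785832406) (nat_lit 119) (nat_lit 5) (nat_lit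 122) (nat_lit 5) (nat_lit 123) (nat_lit 5) (nat_lit 467) (nat_lit 400) (nat_lit 333)) (XT.lf (nat_lit 0) (nat_lit 2071727001) (nat_lit 304) (nat_lit 4264037073) (nat_lit 76) (nat_lit 7348744549) (nat_lit 118) (nat_lit 5) (nat_lit 122) (nat_lit 5) (nat_lit 119) (nat_lit 5) (nat_lit 468) (nat_lit 400) (nat_lit 332))) (XT.nd (nat_lit 78) (nat_lit 0) (nat_lit 0) (XT.lf (nat_lit 0) (nat_lit 4671893663) (nat_lit 228) (nat_lit 1347571642) (nat_lit 304) (nat_lit 7910161452) (nat_lit 115) (nat_lit 5) (nat_lit 118) (nat_lit 5) (nat_lit 119) (nat_lit 5) (nat_lit 469) (nat_lit 400) (nat_lit 331)) (XT.lf (nat_lit 0) (nat_lit 10131263144) (nat_lit 304) (nat_lit 310448609) (nat_lit 76) (nat_lit 3739021625) (nat_lit 115) (nat_lit 5) (nat_lit 119) (nat_lit 5) (nat_lit 116) (nat_lit 5) (nat_lit 470) (nat_lit 400) (nat_lit 330))))) (XT.nd (nat_lit 312) (nat_lit 684) (nat_lit 0) (XT.nd (nat_lit 156) (nat_lit 152) (nat_lit 0) (XT.nd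 (nat_lit 78) (nat_lit 304) (nat_lit 0) (XT.lf (nat_lit 0) (nat_lit 9013336378) (nat_lit 228) (nat_lit 5419769614) (nat_lit 304) (nat_lit 4270131) (nat_lit 112) (nat_lit 5) (nat_lit 115) (nat_lit 5) (nat_lit 116) (nat_lit 5) (nat_lit 471) (nat_lit 400) (nat_lit 329)) (XT.lf (nat_lit 0) (nat_lit 3903108851) (nat_lit 228) (nat_lit 185470739) (nat_lit 304) (nat_lit 10611716251) (nat_lit 108) (nat_lit 5) (nat_lit 111) (nat_lit 5) (nat_lit 112) (nat_lit 5) (nat_lit 472) (nat_lit 400) (nat_lit 328))) (XT.nd (nat_lit 78) (nat_lit 152) (nat_lit 0) (XT.lf (nat_lit 0) (nat_lit 8376556605) (nat_lit 304) (nat_lit 1453659978) (nat_lit 76) (nat_lit 5138715814) (nat_lit 108) (nat_lit 5) (nat_lit 112) (nat_lit 5) (nat_lit 109) (nat_lit 5) (nat_lit 473) (nat_lit 400) (nat_lit 327)) (XT.lf (nat_lit 0) (nat_lit 8276607051) (nat_lit 152) (nat_lit 4565992401) (nat_lit 228) (nat_lit 2401549052) (nat_lit 106) (nat_lit 5) (nat_lit 108)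 (nat_lit 5) (nat_lit 109) (nat_lit 5) (nat_lit 474) (nat_lit 400) (nat_lit 326)))) (XT.nd (nat_lit 156) (nat_lit 380) (nat_lit 0) (XT.nd (nat_lit 78) (nat_lit 0) (nat_lit 0) (XT.lf (nat_lit 0) (nat_lit 1895974812) (nat_lit 304) (nat_lit 12751579849) (nat_lit 76) (nat_lit 878967023) (nat_lit 102) (nat_lit 5) (nat_lit 106) (nat_lit 5) (nat_lit 103) (nat_lit 5) (nat_lit 475) (nat_lit 400) (nat_lit 325)) (XT.lf (nat_lit 0) (nat_lit 6358772562) (nat_lit 304) (nat_lit 2985978728) (nat_lit 76) (nat_lit 6469365903) (nat_lit 102) (nat_lit 5) (nat_lit 106) (nat_lit 5) (nat_lit 103) (nat_lit 5) (nat_lit 476) (nat_lit 400) (nat_lit 324))) (XT.nd (nat_lit 78) (nat_lit 228) (nat_lit 0) (XT.lf (nat_lit 0) (nat_lit 7160305388) (nat_lit 152) (nat_lit 3833253777) (nat_lit 228) (nat_lit 5115641141) (nat_lit 100) (nat_lit 5) (nat_lit 102) (nat_lit 5) (nat_lit 103) (nat_lit 5) (nat_lit 477) (nat_lit 400) (nat_lit 323)) (XT.lf (nat_lit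 0) (nat_lit 1213406517) (nat_lit 228) (nat_lit 14583291622) (nat_lit 304) (nat_lit 615561313) (nat_lit 97) (nat_lit 5) (nat_lit 100) (nat_lit 5) (nat_lit 101) (nat_lit 5) (nat_lit 478) (nat_lit 400) (nat_lit 322))))))))
noncomputable def xc98 : XT := (XT.nd (nat_lit 2340) (nat_lit 1824) (nat_lit 0) (XT.nd (nat_lit 1170) (nat_lit 1292) (nat_lit 0) (XT.nd (nat_lit 546) (nat_lit 988) (nat_lit 0) (XT.nd (nat_lit 234) (nat_lit 608) (nat_lit 0) (XT.nd (nat_lit 78) (nat_lit 152) (nat_lit 0) (XT.lf (nat_lit 0) (nat_lit 4039862783) (nat_lit 304) (nat_lit 4987468687) (nat_lit 76) (nat_lit 7692959084) (nat_lit 96) (nat_lit 5) (nat_lit 100) (nat_lit 5) (nat_lit 97) (nat_lit 5) (nat_lit 479) (nat_lit 400) (nat_lit 321)) (XT.nd (nat_lit 78) (nat_lit 0) (nat_lit 0) (XT.lf (nat_lit 0) (nat_lit 5582312815) (nat_lit 152) (nat_lit 3264374917) (nat_lit 228) (nat_lit 8189971272) (nat_lit 94) (nat_lit 5) (nat_lit 96) (nat_lit 5) (nat_lit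 97) (nat_lit 5) (nat_lit 480) (nat_lit 400) (nat_lit 320)) (XT.lf (nat_lit 0) (nat_lit 13844883659) (nat_lit 228) (nat_lit 866717620) (nat_lit 76) (nat_lit 2649504733) (nat_lit 94) (nat_lit 5) (nat_lit 97) (nat_lit 5) (nat_lit 95) (nat_lit 5) (nat_lit 481) (nat_lit 400) (nat_lit 319)))) (XT.nd (nat_lit 156) (nat_lit 152) (nat_lit 0) (XT.nd (nat_lit 78) (nat_lit 152) (nat_lit 0) (XT.lf (nat_lit 0) (nat_lit 1374832637) (nat_lit 304) (nat_lit 7550820451) (nat_lit 76) (nat_lit 8766188934) (nat_lit 90) (nat_lit 5) (nat_lit 94) (nat_lit 5) (nat_lit 91) (nat_lit 5) (nat_lit 482) (nat_lit 400) (nat_lit 318)) (XT.lf (nat_lit 0) (nat_lit 3447334798) (nat_lit 152) (nat_lit 2908146974) (nat_lit 228) (nat_lit 11675570143) (nat_lit 88) (nat_lit 5) (nat_lit 90) (nat_lit 5) (nat_lit 91) (nat_lit 5) (nat_lit 483) (nat_lit 400) (nat_lit 317))) (XT.nd (nat_lit 78) (nat_lit 152) (nat_lit 0) (XT.lf (nat_lit 0) (nat_lit 11565891538)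 (nat_lit 228) (nat_lit 3530024661) (nat_lit 76) (nat_lit 3282113884) (nat_lit 88) (nat_lit 5) (nat_lit 91) (nat_lit 5) (nat_lit 89) (nat_lit 5) (nat_lit 484) (nat_lit 400) (nat_lit 316)) (XT.lf (nat_lit 0) (nat_lit 7933021007) (nat_lit 152) (nat_lit 9077180414) (nat_lit 228) (nat_lit 1722890688) (nat_lit 86) (nat_lit 5) (nat_lit 88) (nat_lit 5) (nat_lit 89) (nat_lit 5) (nat_lit 485) (nat_lit 400) (nat_lit 315))))) (XT.nd (nat_lit 312) (nat_lit 532) (nat_lit 0) (XT.nd (nat_lit 156) (nat_lit 228) (nat_lit 0) (XT.nd (nat_lit 78) (nat_lit 0) (nat_lit 0) (XT.lf (nat_lit 0) (nat_lit 644642899) (nat_lit 152) (nat_lit 2820525761) (nat_lit 228) (nat_lit 15632180454) (nat_lit 83) (nat_lit 5) (nat_lit 85) (nat_lit 5) (nat_lit 86) (nat_lit 5) (nat_lit 486) (nat_lit 400) (nat_lit 314)) (XT.lf (nat_lit 0) (nat_lit 8891960009) (nat_lit 228) (nat_lit 6916624926) (nat_lit 76) (nat_lit 3659907551) (nat_lit 83) (nat_lit 5) (nat_lit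 86) (nat_lit 5) (nat_lit 84) (nat_lit 5) (nat_lit 487) (nat_lit 400) (nat_lit 313))) (XT.nd (nat_lit 78) (nat_lit 76) (nat_lit 0) (XT.lf (nat_lit 0) (nat_lit 4987876774) (nat_lit 152) (nat_lit 9543089506) (nat_lit 228) (nat_lit 5318323454) (nat_lit 81) (nat_lit 5) (nat_lit 83) (nat_lit 5) (nat_lit 84) (nat_lit 5) (nat_lit 488) (nat_lit 400) (nat_lit 312)) (XT.lf (nat_lit 0) (nat_lit 139863328) (nat_lit 228) (nat_lit 2896881257) (nat_lit 76) (nat_lit 17203415857) (nat_lit 80) (nat_lit 5) (nat_lit 83) (nat_lit 5) (nat_lit 81) (nat_lit 5) (nat_lit 489) (nat_lit 400) (nat_lit 311)))) (XT.nd (nat_lit 156) (nat_lit 228) (nat_lit 0) (XT.nd (nat_lit 78) (nat_lit 152) (nat_lit 0) (XT.lf (nat_lit 0) (nat_lit 5757186520) (nat_lit 228) (nat_lit 11161848003) (nat_lit 76) (nat_lit 3719076280) (nat_lit 78) (nat_lit 5) (nat_lit 81) (nat_lit 5) (nat_lit 79) (nat_lit 5) (nat_lit 490) (nat_lit 400) (nat_lit 310)) (XT.lf (nat_lit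 0) (nat_lit 1179644137) (nat_lit 152) (nat_lit 10408822402) (nat_lit 228) (nat_lit 9458171717) (nat_lit 76) (nat_lit 5) (nat_lit 78) (nat_lit 5) (nat_lit 79) (nat_lit 5) (nat_lit 491) (nat_lit 400) (nat_lit 309))) (XT.nd (nat_lit 78) (nat_lit 228) (nat_lit 0) (XT.lf (nat_lit 0) (nat_lit 14074756920) (nat_lit 152) (nat_lit 3607435601) (nat_lit 228) (nat_lit 3782605431) (nat_lit 76) (nat_lit 5) (nat_lit 78) (nat_lit 5) (nat_lit 79) (nat_lit 5) (nat_lit 492) (nat_lit 400) (nat_lit 308)) (XT.lf (nat_lit 0) (nat_lit 2084354218) (nat_lit 228) (nat_lit 16423062796) (nat_lit 76) (nat_lit 3385650365) (nat_lit 73) (nat_lit 5) (nat_lit 76) (nat_lit 5) (nat_lit 74) (nat_lit 5) (nat_lit 493) (nat_lit 400) (nat_lit 307)))))) (XT.nd (nat_lit 546) (nat_lit 684) (nat_lit 0) (XT.nd (nat_lit 234) (nat_lit 304) (nat_lit 0) (XT.nd (nat_lit 78) (nat_lit 304) (nat_lit 0) (XT.lf (nat_lit 0) (nat_lit 8137767591) (nat_lit 228) (nat_lit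 3583221847) (nat_lit 76) (nat_lit 10609479265) (nat_lit 73) (nat_lit 5) (nat_lit 76) (nat_lit 5) (nat_lit 74) (nat_lit 5) (nat_lit 494) (nat_lit 400) (nat_lit 306)) (XT.nd (nat_lit 78) (nat_lit 152) (nat_lit 0) (XT.lf (nat_lit 0) (nat_lit 9789435368) (nat_lit 152) (nat_lit 4653557404) (nat_lit 228) (nat_lit 8335894474) (nat_lit 71) (nat_lit 5) (nat_lit 73) (nat_lit 5) (nat_lit 74) (nat_lit 5) (nat_lit 495) (nat_lit 400) (nat_lit 305)) (XT.lf (nat_lit 0) (nat_lit 334474747) (nat_lit 152) (nat_lit 20644102550) (nat_lit 228) (nat_lit 2260946391) (nat_lit 69) (nat_lit 5) (nat_lit 71) (nat_lit 5) (nat_lit 72) (nat_lit 4) (nat_lit 496) (nat_lit 400) (nat_lit 304)))) (XT.nd (nat_lit 156) (nat_lit 76) (nat_lit 0) (XT.nd (nat_lit 78) (nat_lit 152) (nat_lit 0) (XT.lf (nat_lit 0) (nat_lit 4073059131) (nat_lit 228) (nat_lit 9514993497) (nat_lit 76) (nat_lit 10120131795) (nat_lit 68) (nat_lit 5) (nat_lit 71) (nat_lit 5) (nat_lit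 69) (nat_lit 5) (nat_lit 497) (nat_lit 400) (nat_lit 303)) (XT.lf (nat_lit 0) (nat_lit 4295923850) (nat_lit 152) (nat_lit 6273953737) (nat_lit 228) (nat_lit 13619810057) (nat_lit 66) (nat_lit 5) (nat_lit 68) (nat_lit 5) (nat_lit 69) (nat_lit 5) (nat_lit 498) (nat_lit 400) (nat_lit 302))) (XT.nd (nat_lit 78) (nat_lit 76) (nat_lit 0) (XT.lf (nat_lit 0) (nat_lit 17347768710) (nat_lit 228) (nat_lit 6021965917) (nat_lit 76) (nat_lit 1313317553) (nat_lit 66) (nat_lit 5) (nat_lit 69) (nat_lit 5) (nat_lit 67) (nat_lit 4) (nat_lit 499) (nat_lit 400) (nat_lit 301)) (XT.lf (nat_lit 0) (nat_lit 8325185846) (nat_lit 76) (nat_lit 16123651272) (nat_lit 152) (nat_lit 738786542) (nat_lit 65) (nat_lit 5) (nat_lit 66) (nat_lit 5) (nat_lit 67) (nat_lit 4) (nat_lit 500) (nat_lit 400) (nat_lit 300))))) (XT.nd (nat_lit 312) (nat_lit 304) (nat_lit 0) (XT.nd (nat_lit 156) (nat_lit 152) (nat_lit 0) (XT.nd (nat_lit 78) (nat_lit 152) (nat_lit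 0) (XT.lf (nat_lit 0) (nat_lit 5976584820) (nat_lit 152) (nat_lit 2579300740) (nat_lit 76) (nat_lit 17148527189) (nat_lit 64) (nat_lit 5) (nat_lit 66) (nat_lit 5) (nat_lit 65) (nat_lit 5) (nat_lit 501) (nat_lit 400) (nat_lit 299)) (XT.lf (nat_lit 0) (nat_lit 12325553959) (nat_lit 152) (nat_lit 649877844) (nat_lit 228) (nat_lit 13258149485) (nat_lit 62) (nat_lit 5) (nat_lit 64) (nat_lit 5) (nat_lit 65) (nat_lit 5) (nat_lit 502) (nat_lit 400) (nat_lit 298))) (XT.nd (nat_lit 78) (nat_lit 76) (nat_lit 0) (XT.lf (nat_lit 0) (nat_lit 856965446) (nat_lit 76) (nat_lit 19412307054) (nat_lit 152) (nat_lit 6506802624) (nat_lit 61) (nat_lit 5) (nat_lit 62) (nat_lit 5) (nat_lit 63) (nat_lit 4) (nat_lit 503) (nat_lit 400) (nat_lit 297)) (XT.lf (nat_lit 0) (nat_lit 565120110) (nat_lit 152) (nat_lit 11032833374) (nat_lit 76) (nat_lit 15732959595) (nat_lit 60) (nat_lit 5) (nat_lit 62) (nat_lit 5) (nat_lit 61) (nat_lit 5) (nat_lit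 504) (nat_lit 400) (nat_lit 296)))) (XT.nd (nat_lit 156) (nat_lit 152) (nat_lit 0) (XT.nd (nat_lit 78) (nat_lit 0) (nat_lit 0) (XT.lf (nat_lit 0) (nat_lit 4280208128) (nat_lit 152) (nat_lit 3458473492) (nat_lit 228) (nat_lit 20161174993) (nat_lit 58) (nat_lit 5) (nat_lit 60) (nat_lit 5) (nat_lit 61) (nat_lit 5) (nat_lit 505) (nat_lit 400) (nat_lit 295)) (XT.lf (nat_lit 0) (nat_lit 15266490124) (nat_lit 228) (nat_lit 8291158316) (nat_lit 76) (nat_lit 4924049776) (nat_lit 58) (nat_lit 5) (nat_lit 61) (nat_lit 5) (nat_lit 59) (nat_lit 4) (nat_lit 506) (nat_lit 400) (nat_lit 294))) (XT.nd (nat_lit 78) (nat_lit 76) (nat_lit 0) (XT.lf (nat_lit 0) (nat_lit 7572865419) (nat_lit 76) (nat_lit 15534094253) (nat_lit 152) (nat_lit 5971431530) (nat_lit 57) (nat_lit 5) (nat_lit 58) (nat_lit 5) (nat_lit 59) (nat_lit 4) (nat_lit 507) (nat_lit 400) (nat_lit 293)) (XT.lf (nat_lit 0) (nat_lit 1524962212) (nat_lit 152) (nat_lit 5660735349)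 (nat_lit 76) (nat_lit 22504927542) (nat_lit 56) (nat_lit 5) (nat_lit 58) (nat_lit 5) (nat_lit 57) (nat_lit 5) (nat_lit 508) (nat_lit 400) (nat_lit 292))))))) (XT.nd (nat_lit 1170) (nat_lit 760) (nat_lit 0) (XT.nd (nat_lit 546) (nat_lit 532) (nat_lit 0) (XT.nd (nat_lit 234) (nat_lit 304) (nat_lit 0) (XT.nd (nat_lit 78) (nat_lit 76) (nat_lit 0) (XT.lf (nat_lit 0) (nat_lit 9225228076) (nat_lit 228) (nat_lit 19558234416) (nat_lit 76) (nat_lit 1533020690) (nat_lit 54) (nat_lit 5) (nat_lit 57) (nat_lit 5) (nat_lit 55) (nat_lit 4) (nat_lit 509) (nat_lit 400) (nat_lit 291)) (XT.nd (nat_lit 78) (nat_lit 76) (nat_lit 0) (XT.lf (nat_lit 0) (nat_lit 17265839317) (nat_lit 228) (nat_lit 3282109935) (nat_lit 76) (nat_lit 10409888464) (nat_lit 54) (nat_lit 5) (nat_lit 57) (nat_lit 5) (nat_lit 55) (nat_lit 4) (nat_lit 510) (nat_lit 400) (nat_lit 290)) (XT.lf (nat_lit 0) (nat_lit 13714145362) (nat_lit 76) (nat_lit 11946384899) (nat_lit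 152) (nat_lit 5954517593) (nat_lit 53) (nat_lit 5) (nat_lit 54) (nat_lit 5) (nat_lit 55) (nat_lit 4) (nat_lit 511) (nat_lit 400) (nat_lit 289)))) (XT.nd (nat_lit 156) (nat_lit 76) (nat_lit 0) (XT.nd (nat_lit 78) (nat_lit 152) (nat_lit 0) (XT.lf (nat_lit 0) (nat_lit 1990295204) (nat_lit 152) (nat_lit 1058902453) (nat_lit 76) (nat_lit 29241760420) (nat_lit 52) (nat_lit 5) (nat_lit 54) (nat_lit 5) (nat_lit 53) (nat_lit 5) (nat_lit 512) (nat_lit 400) (nat_lit 288)) (XT.lf (nat_lit 0) (nat_lit 10254932105) (nat_lit 228) (nat_lit 16524987508) (nat_lit 76) (nat_lit 6199423278) (nat_lit 50) (nat_lit 5) (nat_lit 53) (nat_lit 5) (nat_lit 51) (nat_lit 4) (nat_lit 513) (nat_lit 400) (nat_lit 287))) (XT.nd (nat_lit 78) (nat_lit 0) (nat_lit 0) (XT.lf (nat_lit 0) (nat_lit 776720080) (nat_lit 76) (nat_lit 18020901911) (nat_lit 152) (nat_lit 14889854560) (nat_lit 49) (nat_lit 5) (nat_lit 50) (nat_lit 5) (nat_lit 51) (nat_lit 4)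 (nat_lit 514) (nat_lit 400) (nat_lit 286)) (XT.lf (nat_lit 0) (nat_lit 18901766578) (nat_lit 76) (nat_lit 8843557729) (nat_lit 152) (nat_lit 6667068661) (nat_lit 49) (nat_lit 5) (nat_lit 50) (nat_lit 5) (nat_lit 51) (nat_lit 4) (nat_lit 515) (nat_lit 400) (nat_lit 285))))) (XT.nd (nat_lit 312) (nat_lit 228) (nat_lit 0) (XT.nd (nat_lit 156) (nat_lit 76) (nat_lit 0) (XT.nd (nat_lit 78) (nat_lit 0) (nat_lit 0) (XT.lf (nat_lit 0) (nat_lit 1778687160) (nat_lit 228) (nat_lit 32757130297) (nat_lit 76) (nat_lit 622376576) (nat_lit 46) (nat_lit 5) (nat_lit 49) (nat_lit 5) (nat_lit 47) (nat_lit 4) (nat_lit 516) (nat_lit 400) (nat_lit 284)) (XT.lf (nat_lit 0) (nat_lit 10571810331) (nat_lit 228) (nat_lit 14942587876) (nat_lit 76) (nat_lit 10403151358) (nat_lit 46) (nat_lit 5) (nat_lit 49) (nat_lit 5) (nat_lit 47) (nat_lit 4) (nat_lit 517) (nat_lit 400) (nat_lit 283))) (XT.nd (nat_lit 78) (nat_lit 0) (nat_lit 0) (XT.lf (nat_lit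 0) (nat_lit 3440663133) (nat_lit 76) (nat_lit 16203913067) (nat_lit 152) (nat_lit 17054634715) (nat_lit 45) (nat_lit 5) (nat_lit 46) (nat_lit 5) (nat_lit 47) (nat_lit 4) (nat_lit 518) (nat_lit 400) (nat_lit 282)) (XT.lf (nat_lit 0) (nat_lit 22649174891) (nat_lit 76) (nat_lit 6474205086) (nat_lit 152) (nat_lit 8376927083) (nat_lit 45) (nat_lit 5) (nat_lit 46) (nat_lit 5) (nat_lit 47) (nat_lit 4) (nat_lit 519) (nat_lit 400) (nat_lit 281)))) (XT.nd (nat_lit 156) (nat_lit 76) (nat_lit 0) (XT.nd (nat_lit 78) (nat_lit 0) (nat_lit 0) (XT.lf (nat_lit 0) (nat_lit 607773909) (nat_lit 152) (nat_lit 34206774121) (nat_lit 76) (nat_lit 3508998472) (nat_lit 43) (nat_lit 5) (nat_lit 45) (nat_lit 5) (nat_lit 44) (nat_lit 4) (nat_lit 520) (nat_lit 400) (nat_lit 280)) (XT.lf (nat_lit 0) (nat_lit 9892534614) (nat_lit 152) (nat_lit 15389330446) (nat_lit 76) (nat_lit 13881163823) (nat_lit 43) (nat_lit 5) (nat_lit 45) (nat_lit 5) (nat_lit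 44) (nat_lit 4) (nat_lit 521) (nat_lit 400) (nat_lit 279))) (XT.nd (nat_lit 78) (nat_lit 0) (nat_lit 0) (XT.lf (nat_lit 0) (nat_lit 4040442928) (nat_lit 76) (nat_lit 15438053296) (nat_lit 152) (nat_lit 20548520304) (nat_lit 42) (nat_lit 5) (nat_lit 43) (nat_lit 5) (nat_lit 44) (nat_lit 4) (nat_lit 522) (nat_lit 400) (nat_lit 278)) (XT.lf (nat_lit 0) (nat_lit 24337842772) (nat_lit 76) (nat_lit 5153590721) (nat_lit 152) (nat_lit 11421308925) (nat_lit 42) (nat_lit 5) (nat_lit 43) (nat_lit 5) (nat_lit 44) (nat_lit 4) (nat_lit 523) (nat_lit 400) (nat_lit 277)))))) (XT.nd (nat_lit 546) (nat_lit 380) (nat_lit 0) (XT.nd (nat_lit 234) (nat_lit 152) (nat_lit 0) (XT.nd (nat_lit 78) (nat_lit 152) (nat_lit 0) (XT.lf (nat_lit 0) (nat_lit 3403076904) (nat_lit 76) (nat_lit 36471004800) (nat_lit 76) (nat_lit 1948879201) (nat_lit 41) (nat_lit 4) (nat_lit 42) (nat_lit 5) (nat_lit 42) (nat_lit 4) (nat_lit 524) (nat_lit 400) (nat_lit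 276)) (XT.nd (nat_lit 78) (nat_lit 76) (nat_lit 0) (XT.lf (nat_lit 0) (nat_lit 7859762326) (nat_lit 152) (nat_lit 18593221637) (nat_lit 76) (nat_lit 16299119010) (nat_lit 40) (nat_lit 5) (nat_lit 42) (nat_lit 5) (nat_lit 41) (nat_lit 4) (nat_lit 525) (nat_lit 400) (nat_lit 275)) (XT.lf (nat_lit 0) (nat_lit 1815058808) (nat_lit 76) (nat_lit 16110676266) (nat_lit 152) (nat_lit 25782738539) (nat_lit 39) (nat_lit 5) (nat_lit 40) (nat_lit 5) (nat_lit 41) (nat_lit 4) (nat_lit 526) (nat_lit 400) (nat_lit 274)))) (XT.nd (nat_lit 156) (nat_lit 152) (nat_lit 0) (XT.nd (nat_lit 78) (nat_lit 0) (nat_lit 0) (XT.lf (nat_lit 0) (nat_lit 23187713487) (nat_lit 76) (nat_lit 5278687594) (nat_lit 152) (nat_lit 16221953319) (nat_lit 39) (nat_lit 5) (nat_lit 40) (nat_lit 5) (nat_lit 41) (nat_lit 4) (nat_lit 527) (nat_lit 400) (nat_lit 273)) (XT.lf (nat_lit 0) (nat_lit 39365059155) (nat_lit 152) (nat_lit 581069171) (nat_lit 0) (nat_lit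 5750250555) (nat_lit 39) (nat_lit 5) (nat_lit 41) (nat_lit 4) (nat_lit 39) (nat_lit 4) (nat_lit 528) (nat_lit 400) (nat_lit 272))) (XT.nd (nat_lit 78) (nat_lit 0) (nat_lit 0) (XT.lf (nat_lit 0) (nat_lit 4025917031) (nat_lit 152) (nat_lit 25464981595) (nat_lit 76) (nat_lit 17235280008) (nat_lit 37) (nat_lit 5) (nat_lit 39) (nat_lit 5) (nat_lit 38) (nat_lit 4) (nat_lit 529) (nat_lit 400) (nat_lit 271)) (XT.lf (nat_lit 0) (nat_lit 14558252098) (nat_lit 152) (nat_lit 4106462351) (nat_lit 76) (nat_lit 29120528705) (nat_lit 37) (nat_lit 5) (nat_lit 39) (nat_lit 5) (nat_lit 38) (nat_lit 4) (nat_lit 530) (nat_lit 400) (nat_lit 270))))) (XT.nd (nat_lit 312) (nat_lit 152) (nat_lit 0) (XT.nd (nat_lit 156) (nat_lit 152) (nat_lit 0) (XT.nd (nat_lit 78) (nat_lit 0) (nat_lit 0) (XT.lf (nat_lit 0) (nat_lit 18221521580) (nat_lit 76) (nat_lit 7346317007) (nat_lit 152) (nat_lit 23303402968) (nat_lit 36) (nat_lit 5) (nat_lit 37) (nat_lit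 5) (nat_lit 38) (nat_lit 4) (nat_lit 531) (nat_lit 400) (nat_lit 269)) (XT.lf (nat_lit 0) (nat_lit 36977186242) (nat_lit 152) (nat_lit 8753792585) (nat_lit 0) (nat_lit 4256757250) (nat_lit 36) (nat_lit 5) (nat_lit 38) (nat_lit 4) (nat_lit 36) (nat_lit 4) (nat_lit 532) (nat_lit 400) (nat_lit 268))) (XT.nd (nat_lit 78) (nat_lit 76) (nat_lit 0) (XT.lf (nat_lit 0) (nat_lit 13972836642) (nat_lit 76) (nat_lit 34949582093) (nat_lit 76) (nat_lit 2209498931) (nat_lit 35) (nat_lit 4) (nat_lit 36) (nat_lit 5) (nat_lit 36) (nat_lit 4) (nat_lit 533) (nat_lit 400) (nat_lit 267)) (XT.lf (nat_lit 0) (nat_lit 8817444001) (nat_lit 152) (nat_lit 14859753556) (nat_lit 76) (nat_lit 28628381359) (nat_lit 34) (nat_lit 5) (nat_lit 36) (nat_lit 5) (nat_lit 35) (nat_lit 4) (nat_lit 534) (nat_lit 400) (nat_lit 266)))) (XT.nd (nat_lit 156) (nat_lit 76) (nat_lit 0) (XT.nd (nat_lit 78) (nat_lit 0) (nat_lit 0) (XT.lf (nat_lit 0) (nat_lit 8221761855)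 (nat_lit 76) (nat_lit 11975012861) (nat_lit 152) (nat_lit 33315039688) (nat_lit 33) (nat_lit 5) (nat_lit 34) (nat_lit 5) (nat_lit 35) (nat_lit 4) (nat_lit 535) (nat_lit 400) (nat_lit 265)) (XT.lf (nat_lit 0) (nat_lit 32056754484) (nat_lit 152) (nat_lit 22477013509) (nat_lit 0) (nat_lit 216291212) (nat_lit 33) (nat_lit 5) (nat_lit 35) (nat_lit 4) (nat_lit 33) (nat_lit 4) (nat_lit 536) (nat_lit 400) (nat_lit 264))) (XT.nd (nat_lit 78) (nat_lit 0) (nat_lit 0) (XT.lf (nat_lit 0) (nat_lit 894676066) (nat_lit 76) (nat_lit 43492378551) (nat_lit 76) (nat_lit 11634961420) (nat_lit 32) (nat_lit 4) (nat_lit 33) (nat_lit 5) (nat_lit 33) (nat_lit 4) (nat_lit 537) (nat_lit 400) (nat_lit 263)) (XT.lf (nat_lit 0) (nat_lit 25403880079) (nat_lit 76) (nat_lit 31897847536) (nat_lit 76) (nat_lit 23970347) (nat_lit 32) (nat_lit 4) (nat_lit 33) (nat_lit 5) (nat_lit 33) (nat_lit 4) (nat_lit 538) (nat_lit 400) (nat_lit 262))))))))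
noncomputable def xc99 : XT := (XT.nd (nat_lit 53040) (nat_lit 0) (nat_lit 11552) (XT.nd (nat_lit 51870) (nat_lit 0) (nat_lit 25916) (XT.nd (nat_lit 546) (nat_lit 228) (nat_lit 0) (XT.nd (nat_lit 234) (nat_lit 228) (nat_lit 0) (XT.nd (nat_lit 78) (nat_lit 76) (nat_lit 0) (XT.lf (nat_lit 0) (nat_lit 11690182700) (nat_lit 152) (nat_lit 8158786945) (nat_lit 76) (nat_lit 38816447074) (nat_lit 31) (nat_lit 5) (nat_lit 33) (nat_lit 5) (nat_lit 32) (nat_lit 4) (nat_lit 539) (nat_lit 400) (nat_lit 261)) (XT.nd (nat_lit 78) (nat_lit 0) (nat_lit 0) (XT.lf (nat_lit 0) (nat_lit 16617943503) (nat_lit 76) (nat_lit 7285168079) (nat_lit 152) (nat_lit 36137773625) (nat_lit 30) (nat_lit 5) (nat_lit 31) (nat_lit 5) (nat_lit 32) (nat_lit 4) (nat_lit 540) (nat_lit 400) (nat_lit 260)) (XT.lf (nat_lit 0) (nat_lit 36608105472) (nat_lit 152) (nat_lit 19228351615) (nat_lit 0) (nat_lit 5617390621) (nat_lit 30) (nat_lit 5) (nat_lit 32) (nat_lit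 4) (nat_lit 30) (nat_lit 4) (nat_lit 541) (nat_lit 400) (nat_lit 259)))) (XT.nd (nat_lit 156) (nat_lit 152) (nat_lit 0) (XT.nd (nat_lit 78) (nat_lit 0) (nat_lit 0) (XT.lf (nat_lit 0) (nat_lit 5708773471) (nat_lit 76) (nat_lit 44100937728) (nat_lit 76) (nat_lit 13096024287) (nat_lit 29) (nat_lit 4) (nat_lit 30) (nat_lit 5) (nat_lit 30) (nat_lit 4) (nat_lit 542) (nat_lit 400) (nat_lit 258)) (XT.lf (nat_lit 0) (nat_lit 31765824891) (nat_lit 76) (nat_lit 31824285689) (nat_lit 76) (nat_lit 805587209) (nat_lit 29) (nat_lit 4) (nat_lit 30) (nat_lit 5) (nat_lit 30) (nat_lit 4) (nat_lit 543) (nat_lit 400) (nat_lit 257))) (XT.nd (nat_lit 78) (nat_lit 76) (nat_lit 0) (XT.lf (nat_lit 0) (nat_lit 11611056769) (nat_lit 152) (nat_lit 7461636771) (nat_lit 76) (nat_lit 46854583366) (nat_lit 28) (nat_lit 5) (nat_lit 30) (nat_lit 5) (nat_lit 29) (nat_lit 4) (nat_lit 544) (nat_lit 400) (nat_lit 256)) (XT.lf (nat_lit 0) (nat_lit 18799227509)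 (nat_lit 76) (nat_lit 5754616453) (nat_lit 152) (nat_lit 42945625323) (nat_lit 27) (nat_lit 5) (nat_lit 28) (nat_lit 5) (nat_lit 29) (nat_lit 4) (nat_lit 545) (nat_lit 400) (nat_lit 255))))) (XT.nd (nat_lit 312) (nat_lit 76) (nat_lit 0) (XT.nd (nat_lit 156) (nat_lit 76) (nat_lit 0) (XT.nd (nat_lit 78) (nat_lit 76) (nat_lit 0) (XT.lf (nat_lit 0) (nat_lit 38026694663) (nat_lit 152) (nat_lit 23214282997) (nat_lit 0) (nat_lit 7873596605) (nat_lit 27) (nat_lit 5) (nat_lit 29) (nat_lit 4) (nat_lit 27) (nat_lit 4) (nat_lit 546) (nat_lit 400) (nat_lit 254)) (XT.lf (nat_lit 0) (nat_lit 3017481752) (nat_lit 76) (nat_lit 48961688419) (nat_lit 76) (nat_lit 18796699266) (nat_lit 26) (nat_lit 4) (nat_lit 27) (nat_lit 5) (nat_lit 27) (nat_lit 4) (nat_lit 547) (nat_lit 400) (nat_lit 253))) (XT.nd (nat_lit 78) (nat_lit 76) (nat_lit 0) (XT.lf (nat_lit 0) (nat_lit 30491593886) (nat_lit 76) (nat_lit 36082612060) (nat_lit 76) (nat_lit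 5906078153) (nat_lit 26) (nat_lit 4) (nat_lit 27) (nat_lit 5) (nat_lit 27) (nat_lit 4) (nat_lit 548) (nat_lit 400) (nat_lit 252)) (XT.lf (nat_lit 0) (nat_lit 7217192365) (nat_lit 152) (nat_lit 15536841903) (nat_lit 76) (nat_lit 51479978302) (nat_lit 25) (nat_lit 5) (nat_lit 27) (nat_lit 5) (nat_lit 26) (nat_lit 4) (nat_lit 549) (nat_lit 400) (nat_lit 251)))) (XT.nd (nat_lit 50856) (nat_lit 0) (nat_lit 29640) (XT.nd (nat_lit 78) (nat_lit 0) (nat_lit 0) (XT.lf (nat_lit 0) (nat_lit 11862059267) (nat_lit 76) (nat_lit 8857489358) (nat_lit 152) (nat_lit 55315927368) (nat_lit 24) (nat_lit 5) (nat_lit 25) (nat_lit 5) (nat_lit 26) (nat_lit 4) (nat_lit 550) (nat_lit 400) (nat_lit 250)) (XT.lf (nat_lit 0) (nat_lit 34827947676) (nat_lit 152) (nat_lit 37558369214) (nat_lit 0) (nat_lit 5498637455) (nat_lit 24) (nat_lit 5) (nat_lit 26) (nat_lit 4) (nat_lit 24) (nat_lit 4) (nat_lit 551) (nat_lit 400) (nat_lit 249))) (XT.nd (nat_lit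 78) (nat_lit 228) (nat_lit 0) (XT.lf (nat_lit 0) (nat_lit 1555799626) (nat_lit 0) (nat_lit 1555799626) (nat_lit 76) (nat_lit 111507264) (nat_lit 417) (nat_lit 5) (nat_lit 417) (nat_lit 3) (nat_lit 418) (nat_lit 0) (nat_lit 401) (nat_lit 401) (nat_lit 398)) (XT.lf (nat_lit 0) (nat_lit 2770140255) (nat_lit 228) (nat_lit 157815422) (nat_lit 228) (nat_lit 3523952554) (nat_lit 414) (nat_lit 3) (nat_lit 417) (nat_lit 3) (nat_lit 417) (nat_lit 5) (nat_lit 402) (nat_lit 401) (nat_lit 397)))))) (XT.nd (nat_lit 546) (nat_lit 2888) (nat_lit 0) (XT.nd (nat_lit 234) (nat_lit 608) (nat_lit 0) (XT.nd (nat_lit 78) (nat_lit 228) (nat_lit 0) (XT.lf (nat_lit 76) (nat_lit 3112654638) (nat_lit 0) (nat_lit 2649100785) (nat_lit 228) (nat_lit 698608944) (nat_lit 415) (nat_lit 5) (nat_lit 414) (nat_lit 3) (nat_lit 417) (nat_lit 5) (nat_lit 403) (nat_lit 401) (nat_lit 396)) (XT.nd (nat_lit 78) (nat_lit 0) (nat_lit 0) (XT.lf (nat_lit 0)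 (nat_lit 2214207472) (nat_lit 228) (nat_lit 69301495) (nat_lit 304) (nat_lit 4188333786) (nat_lit 411) (nat_lit 5) (nat_lit 414) (nat_lit 3) (nat_lit 415) (nat_lit 5) (nat_lit 404) (nat_lit 401) (nat_lit 395)) (XT.lf (nat_lit 76) (nat_lit 3304923880) (nat_lit 0) (nat_lit 1815444503) (nat_lit 304) (nat_lit 1365536015) (nat_lit 412) (nat_lit 5) (nat_lit 411) (nat_lit 5) (nat_lit 415) (nat_lit 5) (nat_lit 405) (nat_lit 401) (nat_lit 394)))) (XT.nd (nat_lit 156) (nat_lit 304) (nat_lit 0) (XT.nd (nat_lit 78) (nat_lit 0) (nat_lit 0) (XT.lf (nat_lit 76) (nat_lit 208220648) (nat_lit 0) (nat_lit 1266123414) (nat_lit 380) (nat_lit 5028847385) (nat_lit 408) (nat_lit 5) (nat_lit 407) (nat_lit 5) (nat_lit 412) (nat_lit 5) (nat_lit 406) (nat_lit 401) (nat_lit 393)) (XT.lf (nat_lit 76) (nat_lit 3689364049) (nat_lit 0) (nat_lit 607013182) (nat_lit 380) (nat_lit 2226524710) (nat_lit 408) (nat_lit 5) (nat_lit 407) (nat_lit 5) (nat_lit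 412) (nat_lit 5) (nat_lit 407) (nat_lit 401) (nat_lit 392))) (XT.nd (nat_lit 78) (nat_lit 0) (nat_lit 0) (XT.lf (nat_lit 0) (nat_lit 549213563) (nat_lit 380) (nat_lit 5870168494) (nat_lit 76) (nat_lit 126604808) (nat_lit 403) (nat_lit 5) (nat_lit 408) (nat_lit 5) (nat_lit 404) (nat_lit 5) (nat_lit 408) (nat_lit 401) (nat_lit 391)) (XT.lf (nat_lit 0) (nat_lit 3295745106) (nat_lit 380) (nat_lit 2313146753) (nat_lit 76) (nat_lit 962281878) (nat_lit 403) (nat_lit 5) (nat_lit 408) (nat_lit 5) (nat_lit 404) (nat_lit 5) (nat_lit 409) (nat_lit 401) (nat_lit 390))))) (XT.nd (nat_lit 312) (nat_lit 1900) (nat_lit 0) (XT.nd (nat_lit 156) (nat_lit 532) (nat_lit 0) (XT.nd (nat_lit 78) (nat_lit 76) (nat_lit 0) (XT.lf (nat_lit 0) (nat_lit 1313653977) (nat_lit 380) (nat_lit 4724001171) (nat_lit 456) (nat_lit 562109366) (nat_lit 398) (nat_lit 5) (nat_lit 403) (nat_lit 5) (nat_lit 404) (nat_lit 5) (nat_lit 410) (nat_lit 401) (nat_lit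 389)) (XT.lf (nat_lit 0) (nat_lit 2114294704) (nat_lit 456) (nat_lit 1617473894) (nat_lit 76) (nat_lit 2899078642) (nat_lit 397) (nat_lit 5) (nat_lit 403) (nat_lit 5) (nat_lit 398) (nat_lit 5) (nat_lit 411) (nat_lit 401) (nat_lit 388))) (XT.nd (nat_lit 78) (nat_lit 76) (nat_lit 0) (XT.lf (nat_lit 0) (nat_lit 2135239992) (nat_lit 456) (nat_lit 2649504473) (nat_lit 532) (nat_lit 1880234046) (nat_lit 391) (nat_lit 5) (nat_lit 397) (nat_lit 5) (nat_lit 398) (nat_lit 5) (nat_lit 412) (nat_lit 401) (nat_lit 387)) (XT.lf (nat_lit 0) (nat_lit 741131308) (nat_lit 532) (nat_lit 737523859) (nat_lit 76) (nat_lit 5223602656) (nat_lit 390) (nat_lit 5) (nat_lit 397) (nat_lit 5) (nat_lit 391) (nat_lit 5) (nat_lit 413) (nat_lit 401) (nat_lit 386)))) (XT.nd (nat_lit 156) (nat_lit 760) (nat_lit 0) (XT.nd (nat_lit 78) (nat_lit 608) (nat_lit 0) (XT.lf (nat_lit 0) (nat_lit 3149768328) (nat_lit 532) (nat_lit 192360352) (nat_lit 608)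 (nat_lit 3399836527) (nat_lit 383) (nat_lit 5) (nat_lit 390) (nat_lit 5) (nat_lit 391) (nat_lit 5) (nat_lit 414) (nat_lit 401) (nat_lit 385)) (XT.lf (nat_lit 0) (nat_lit 317472422) (nat_lit 608) (nat_lit 5636000481) (nat_lit 684) (nat_lit 831452116) (nat_lit 375) (nat_lit 5) (nat_lit 383) (nat_lit 5) (nat_lit 384) (nat_lit 5) (nat_lit 415) (nat_lit 401) (nat_lit 384))) (XT.nd (nat_lit 78) (nat_lit 684) (nat_lit 0) (XT.lf (nat_lit 0) (nat_lit 1729077540) (nat_lit 684) (nat_lit 2494792278) (nat_lit 76) (nat_lit 2606294913) (nat_lit 374) (nat_lit 5) (nat_lit 383) (nat_lit 5) (nat_lit 375) (nat_lit 5) (nat_lit 416) (nat_lit 401) (nat_lit 383)) (XT.lf (nat_lit 0) (nat_lit 1555999818) (nat_lit 684) (nat_lit 2723186814) (nat_lit 760) (nat_lit 2599471896) (nat_lit 365) (nat_lit 5) (nat_lit 374) (nat_lit 5) (nat_lit 375) (nat_lit 5) (nat_lit 417) (nat_lit 401) (nat_lit 382))))))) (XT.nd (nat_lit 1170) (nat_lit 5700) (nat_lit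 0) (XT.nd (nat_lit 546) (nat_lit 4940) (nat_lit 0) (XT.nd (nat_lit 234) (nat_lit 2052) (nat_lit 0) (XT.nd (nat_lit 78) (nat_lit 1672) (nat_lit 0) (XT.lf (nat_lit 0) (nat_lit 5716896881) (nat_lit 684) (nat_lit 1130500730) (nat_lit 760) (nat_lit 82988860) (nat_lit 365) (nat_lit 5) (nat_lit 374) (nat_lit 5) (nat_lit 375) (nat_lit 5) (nat_lit 418) (nat_lit 401) (nat_lit 381)) (XT.nd (nat_lit 78) (nat_lit 836) (nat_lit 0) (XT.lf (nat_lit 0) (nat_lit 2412403924) (nat_lit 836) (nat_lit 3999376421) (nat_lit 76) (nat_lit 572616851) (nat_lit 354) (nat_lit 5) (nat_lit 365) (nat_lit 5) (nat_lit 355) (nat_lit 5) (nat_lit 419) (nat_lit 401) (nat_lit 380)) (XT.lf (nat_lit 0) (nat_lit 222516189) (nat_lit 836) (nat_lit 4704163985) (nat_lit 912) (nat_lit 2114977704) (nat_lit 343) (nat_lit 5) (nat_lit 354) (nat_lit 5) (nat_lit 355) (nat_lit 5) (nat_lit 420) (nat_lit 401) (nat_lit 379)))) (XT.nd (nat_lit 156) (nat_lit 1064) (nat_lit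 0) (XT.nd (nat_lit 78) (nat_lit 912) (nat_lit 0) (XT.lf (nat_lit 0) (nat_lit 369322442) (nat_lit 912) (nat_lit 2516129696) (nat_lit 76) (nat_lit 4216237282) (nat_lit 342) (nat_lit 5) (nat_lit 354) (nat_lit 5) (nat_lit 343) (nat_lit 5) (nat_lit 421) (nat_lit 401) (nat_lit 378)) (XT.lf (nat_lit 0) (nat_lit 1868030421) (nat_lit 912) (nat_lit 958773853) (nat_lit 988) (nat_lit 4337877428) (nat_lit 330) (nat_lit 5) (nat_lit 342) (nat_lit 5) (nat_lit 343) (nat_lit 5) (nat_lit 422) (nat_lit 401) (nat_lit 377))) (XT.nd (nat_lit 78) (nat_lit 1064) (nat_lit 0) (XT.lf (nat_lit 0) (nat_lit 5318486093) (nat_lit 988) (nat_lit 868846597) (nat_lit 76) (nat_lit 1043438987) (nat_lit 330) (nat_lit 5) (nat_lit 343) (nat_lit 5) (nat_lit 331) (nat_lit 5) (nat_lit 423) (nat_lit 401) (nat_lit 376)) (XT.lf (nat_lit 0) (nat_lit 546455340) (nat_lit 1064) (nat_lit 3614063320) (nat_lit 76) (nat_lit 3139023061) (nat_lit 316) (nat_lit 5) (nat_lit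 330) (nat_lit 5) (nat_lit 317) (nat_lit 5) (nat_lit 424) (nat_lit 401) (nat_lit 375))))) (XT.nd (nat_lit 312) (nat_lit 1444) (nat_lit 0) (XT.nd (nat_lit 156) (nat_lit 2432) (nat_lit 0) (XT.nd (nat_lit 78) (nat_lit 0) (nat_lit 0) (XT.lf (nat_lit 0) (nat_lit 959677146) (nat_lit 1064) (nat_lit 2026866315) (nat_lit 1140) (nat_lit 4384903106) (nat_lit 302) (nat_lit 5) (nat_lit 316) (nat_lit 5) (nat_lit 317) (nat_lit 5) (nat_lit 425) (nat_lit 401) (nat_lit 374)) (XT.lf (nat_lit 0) (nat_lit 5467822813) (nat_lit 1140) (nat_lit 1767439193) (nat_lit 76) (nat_lit 211226609) (nat_lit 302) (nat_lit 5) (nat_lit 317) (nat_lit 5) (nat_lit 303) (nat_lit 5) (nat_lit 426) (nat_lit 401) (nat_lit 373))) (XT.nd (nat_lit 78) (nat_lit 1216) (nat_lit 0) (XT.lf (nat_lit 0) (nat_lit 470153813) (nat_lit 1216) (nat_lit 4538309783) (nat_lit 76) (nat_lit 2515788373) (nat_lit 286) (nat_lit 5) (nat_lit 302) (nat_lit 5) (nat_lit 287) (nat_lit 5)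 (nat_lit 427) (nat_lit 401) (nat_lit 372)) (XT.lf (nat_lit 0) (nat_lit 234590229) (nat_lit 1216) (nat_lit 2670606249) (nat_lit 1292) (nat_lit 4700006234) (nat_lit 270) (nat_lit 5) (nat_lit 286) (nat_lit 5) (nat_lit 287) (nat_lit 5) (nat_lit 428) (nat_lit 401) (nat_lit 371)))) (XT.nd (nat_lit 156) (nat_lit 608) (nat_lit 0) (XT.nd (nat_lit 78) (nat_lit 836) (nat_lit 0) (XT.lf (nat_lit 0) (nat_lit 5179778119) (nat_lit 1216) (nat_lit 212947431) (nat_lit 1292) (nat_lit 2296490889) (nat_lit 270) (nat_lit 5) (nat_lit 286) (nat_lit 5) (nat_lit 287) (nat_lit 5) (nat_lit 429) (nat_lit 401) (nat_lit 370)) (XT.lf (nat_lit 0) (nat_lit 156924269) (nat_lit 836) (nat_lit 5318629858) (nat_lit 76) (nat_lit 2300722610) (nat_lit 259) (nat_lit 5) (nat_lit 270) (nat_lit 5) (nat_lit 260) (nat_lit 5) (nat_lit 430) (nat_lit 401) (nat_lit 369))) (XT.nd (nat_lit 78) (nat_lit 608) (nat_lit 0) (XT.lf (nat_lit 0) (nat_lit 2601673821) (nat_lit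 836) (nat_lit 329799664) (nat_lit 76) (nat_lit 4934892589) (nat_lit 259) (nat_lit 5) (nat_lit 270) (nat_lit 5) (nat_lit 260) (nat_lit 5) (nat_lit 431) (nat_lit 401) (nat_lit 368)) (XT.lf (nat_lit 0) (nat_lit 4840332342) (nat_lit 608) (nat_lit 264009753) (nat_lit 684) (nat_lit 2855294271) (nat_lit 251) (nat_lit 5) (nat_lit 259) (nat_lit 5) (nat_lit 260) (nat_lit 5) (nat_lit 432) (nat_lit 401) (nat_lit 367)))))) (XT.nd (nat_lit 624) (nat_lit 2736) (nat_lit 0) (XT.nd (nat_lit 312) (nat_lit 1216) (nat_lit 0) (XT.nd (nat_lit 156) (nat_lit 1064) (nat_lit 0) (XT.nd (nat_lit 78) (nat_lit 76) (nat_lit 0) (XT.lf (nat_lit 0) (nat_lit 2069172272) (nat_lit 608) (nat_lit 5599284856) (nat_lit 684) (nat_lit 387671746) (nat_lit 243) (nat_lit 5) (nat_lit 251) (nat_lit 5) (nat_lit 252) (nat_lit 5) (nat_lit 433) (nat_lit 401) (nat_lit 366)) (XT.lf (nat_lit 0) (nat_lit 2086168610) (nat_lit 684) (nat_lit 765564663) (nat_lit 76) (nat_lit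 5303949335) (nat_lit 242) (nat_lit 5) (nat_lit 251) (nat_lit 5) (nat_lit 243) (nat_lit 5) (nat_lit 434) (nat_lit 401) (nat_lit 365))) (XT.nd (nat_lit 78) (nat_lit 532) (nat_lit 0) (XT.lf (nat_lit 0) (nat_lit 4612778970) (nat_lit 608) (nat_lit 3622390053) (nat_lit 76) (nat_lit 23362209) (nat_lit 235) (nat_lit 5) (nat_lit 243) (nat_lit 5) (nat_lit 236) (nat_lit 5) (nat_lit 435) (nat_lit 401) (nat_lit 364)) (XT.lf (nat_lit 0) (nat_lit 1794260066) (nat_lit 532) (nat_lit 5416826767) (nat_lit 608) (nat_lit 1153514931) (nat_lit 228) (nat_lit 5) (nat_lit 235) (nat_lit 5) (nat_lit 236) (nat_lit 5) (nat_lit 436) (nat_lit 401) (nat_lit 363)))) (XT.nd (nat_lit 156) (nat_lit 608) (nat_lit 0) (XT.nd (nat_lit 78) (nat_lit 532) (nat_lit 0) (XT.lf (nat_lit 0) (nat_lit 1365951736) (nat_lit 608) (nat_lit 1103359944) (nat_lit 76) (nat_lit 6004746431) (nat_lit 227) (nat_lit 5) (nat_lit 235) (nat_lit 5) (nat_lit 228) (nat_lit 5) (nat_lit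 437) (nat_lit 401) (nat_lit 362)) (XT.lf (nat_lit 0) (nat_lit 3932165646) (nat_lit 608) (nat_lit 4050334186) (nat_lit 76) (nat_lit 604137541) (nat_lit 220) (nat_lit 5) (nat_lit 228) (nat_lit 5) (nat_lit 221) (nat_lit 5) (nat_lit 438) (nat_lit 401) (nat_lit 361))) (XT.nd (nat_lit 78) (nat_lit 76) (nat_lit 0) (XT.lf (nat_lit 0) (nat_lit 1608953254) (nat_lit 532) (nat_lit 4963281558) (nat_lit 608) (nat_lit 2130465064) (nat_lit 213) (nat_lit 5) (nat_lit 220) (nat_lit 5) (nat_lit 221) (nat_lit 5) (nat_lit 439) (nat_lit 401) (nat_lit 360)) (XT.lf (nat_lit 0) (nat_lit 447550849) (nat_lit 608) (nat_lit 1368745949) (nat_lit 76) (nat_lit 7006199992) (nat_lit 212) (nat_lit 5) (nat_lit 220) (nat_lit 5) (nat_lit 213) (nat_lit 5) (nat_lit 440) (nat_lit 401) (nat_lit 359))))) (XT.nd (nat_lit 312) (nat_lit 1292) (nat_lit 0) (XT.nd (nat_lit 156) (nat_lit 532) (nat_lit 0) (XT.nd (nat_lit 78) (nat_lit 456) (nat_lit 0) (XT.lf (nat_lit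 0) (nat_lit 3065619814) (nat_lit 532) (nat_lit 4426399638) (nat_lit 76) (nat_lit 1453080280) (nat_lit 206) (nat_lit 5) (nat_lit 213) (nat_lit 5) (nat_lit 207) (nat_lit 5) (nat_lit 441) (nat_lit 401) (nat_lit 358)) (XT.lf (nat_lit 0) (nat_lit 1487929085) (nat_lit 456) (nat_lit 4269092082) (nat_lit 532) (nat_lit 3314526482) (nat_lit 200) (nat_lit 5) (nat_lit 206) (nat_lit 5) (nat_lit 207) (nat_lit 5) (nat_lit 442) (nat_lit 401) (nat_lit 357))) (XT.nd (nat_lit 78) (nat_lit 532) (nat_lit 0) (XT.lf (nat_lit 0) (nat_lit 7608193528) (nat_lit 456) (nat_lit 915115254) (nat_lit 532) (nat_lit 678666185) (nat_lit 200) (nat_lit 5) (nat_lit 206) (nat_lit 5) (nat_lit 207) (nat_lit 5) (nat_lit 443) (nat_lit 401) (nat_lit 356)) (XT.lf (nat_lit 0) (nat_lit 2015951561) (nat_lit 532) (nat_lit 4776613574) (nat_lit 76) (nat_lit 2542589951) (nat_lit 193) (nat_lit 5) (nat_lit 200) (nat_lit 5) (nat_lit 194) (nat_lit 5) (nat_lit 444) (nat_lit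 401) (nat_lit 355)))) (XT.nd (nat_lit 156) (nat_lit 836) (nat_lit 0) (XT.nd (nat_lit 78) (nat_lit 0) (nat_lit 0) (XT.lf (nat_lit 0) (nat_lit 1405578465) (nat_lit 456) (nat_lit 3362180211) (nat_lit 532) (nat_lit 4704680026) (nat_lit 187) (nat_lit 5) (nat_lit 193) (nat_lit 5) (nat_lit 194) (nat_lit 5) (nat_lit 445) (nat_lit 401) (nat_lit 354)) (XT.lf (nat_lit 0) (nat_lit 7604343309) (nat_lit 532) (nat_lit 1806240928) (nat_lit 76) (nat_lit 203199031) (nat_lit 187) (nat_lit 5) (nat_lit 194) (nat_lit 5) (nat_lit 188) (nat_lit 5) (nat_lit 446) (nat_lit 401) (nat_lit 353))) (XT.nd (nat_lit 78) (nat_lit 380) (nat_lit 0) (XT.lf (nat_lit 0) (nat_lit 783140898) (nat_lit 456) (nat_lit 5127746633) (nat_lit 76) (nat_lit 3847324854) (nat_lit 181) (nat_lit 5) (nat_lit 187) (nat_lit 5) (nat_lit 182) (nat_lit 5) (nat_lit 447) (nat_lit 401) (nat_lit 352)) (XT.lf (nat_lit 0) (nat_lit 1335477433) (nat_lit 380) (nat_lit 2268476528)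 (nat_lit 456) (nat_lit 6302886641) (nat_lit 176) (nat_lit 5) (nat_lit 181) (nat_lit 5) (nat_lit 182) (nat_lit 5) (nat_lit 448) (nat_lit 401) (nat_lit 351))))))))
noncomputable def xc100 : XT := (XT.nd (nat_lit 2340) (nat_lit 3268) (nat_lit 0) (XT.nd (nat_lit 1170) (nat_lit 2280) (nat_lit 0) (XT.nd (nat_lit 546) (nat_lit 1900) (nat_lit 0) (XT.nd (nat_lit 234) (nat_lit 760) (nat_lit 0) (XT.nd (nat_lit 78) (nat_lit 836) (nat_lit 0) (XT.lf (nat_lit 0) (nat_lit 6530149020) (nat_lit 456) (nat_lit 2037441890) (nat_lit 76) (nat_lit 1491722150) (nat_lit 176) (nat_lit 5) (nat_lit 182) (nat_lit 5) (nat_lit 177) (nat_lit 5) (nat_lit 449) (nat_lit 401) (nat_lit 350)) (XT.nd (nat_lit 78) (nat_lit 456) (nat_lit 0) (XT.lf (nat_lit 0) (nat_lit 4701578225) (nat_lit 380) (nat_lit 4865747333) (nat_lit 456) (nat_lit 648346150) (nat_lit 171) (nat_lit 5) (nat_lit 176) (nat_lit 5) (nat_lit 177) (nat_lit 5) (nat_lit 450) (nat_lit 401)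 (nat_lit 349)) (XT.lf (nat_lit 0) (nat_lit 1249825060) (nat_lit 380) (nat_lit 1012435510) (nat_lit 456) (nat_lit 8114140830) (nat_lit 165) (nat_lit 5) (nat_lit 170) (nat_lit 5) (nat_lit 171) (nat_lit 5) (nat_lit 451) (nat_lit 401) (nat_lit 348)))) (XT.nd (nat_lit 156) (nat_lit 456) (nat_lit 0) (XT.nd (nat_lit 78) (nat_lit 304) (nat_lit 0) (XT.lf (nat_lit 0) (nat_lit 5288181859) (nat_lit 456) (nat_lit 2307037732) (nat_lit 76) (nat_lit 2945317205) (nat_lit 165) (nat_lit 5) (nat_lit 171) (nat_lit 5) (nat_lit 166) (nat_lit 5) (nat_lit 452) (nat_lit 401) (nat_lit 347)) (XT.lf (nat_lit 0) (nat_lit 4740281483) (nat_lit 304) (nat_lit 3677835720) (nat_lit 380) (nat_lit 2291088963) (nat_lit 161) (nat_lit 5) (nat_lit 165) (nat_lit 5) (nat_lit 166) (nat_lit 5) (nat_lit 453) (nat_lit 401) (nat_lit 346))) (XT.nd (nat_lit 78) (nat_lit 0) (nat_lit 0) (XT.lf (nat_lit 0) (nat_lit 740058204) (nat_lit 456) (nat_lit 9767797842) (nat_lit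 76) (nat_lit 374991664) (nat_lit 155) (nat_lit 5) (nat_lit 161) (nat_lit 5) (nat_lit 156) (nat_lit 5) (nat_lit 454) (nat_lit 401) (nat_lit 345)) (XT.lf (nat_lit 0) (nat_lit 3871763567) (nat_lit 456) (nat_lit 2645726918) (nat_lit 76) (nat_lit 4541863732) (nat_lit 155) (nat_lit 5) (nat_lit 161) (nat_lit 5) (nat_lit 156) (nat_lit 5) (nat_lit 455) (nat_lit 401) (nat_lit 344))))) (XT.nd (nat_lit 312) (nat_lit 912) (nat_lit 0) (XT.nd (nat_lit 156) (nat_lit 380) (nat_lit 0) (XT.nd (nat_lit 78) (nat_lit 304) (nat_lit 0) (XT.lf (nat_lit 0) (nat_lit 4723892729) (nat_lit 304) (nat_lit 2378535311) (nat_lit 380) (nat_lit 4138583867) (nat_lit 151) (nat_lit 5) (nat_lit 155) (nat_lit 5) (nat_lit 156) (nat_lit 5) (nat_lit 456) (nat_lit 401) (nat_lit 343)) (XT.lf (nat_lit 0) (nat_lit 881591637) (nat_lit 304) (nat_lit 9562040595) (nat_lit 380) (nat_lit 984084545) (nat_lit 147) (nat_lit 5) (nat_lit 151) (nat_lit 5) (nat_lit 152) (nat_lit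 5) (nat_lit 457) (nat_lit 401) (nat_lit 342))) (XT.nd (nat_lit 78) (nat_lit 304) (nat_lit 0) (XT.lf (nat_lit 0) (nat_lit 2271119550) (nat_lit 380) (nat_lit 3087134321) (nat_lit 76) (nat_lit 6259613355) (nat_lit 146) (nat_lit 5) (nat_lit 151) (nat_lit 5) (nat_lit 147) (nat_lit 5) (nat_lit 458) (nat_lit 401) (nat_lit 341)) (XT.lf (nat_lit 0) (nat_lit 4618759327) (nat_lit 304) (nat_lit 991254713) (nat_lit 380) (nat_lit 6203246975) (nat_lit 142) (nat_lit 5) (nat_lit 146) (nat_lit 5) (nat_lit 147) (nat_lit 5) (nat_lit 459) (nat_lit 401) (nat_lit 340)))) (XT.nd (nat_lit 156) (nat_lit 532) (nat_lit 0) (XT.nd (nat_lit 78) (nat_lit 76) (nat_lit 0) (XT.lf (nat_lit 0) (nat_lit 524083894) (nat_lit 304) (nat_lit 8557035345) (nat_lit 380) (nat_lit 2932441432) (nat_lit 138) (nat_lit 5) (nat_lit 142) (nat_lit 5) (nat_lit 143) (nat_lit 5) (nat_lit 460) (nat_lit 401) (nat_lit 339)) (XT.lf (nat_lit 0) (nat_lit 473155022) (nat_lit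 380) (nat_lit 3668564869) (nat_lit 76) (nat_lit 8076673087) (nat_lit 137) (nat_lit 5) (nat_lit 142) (nat_lit 5) (nat_lit 138) (nat_lit 5) (nat_lit 461) (nat_lit 401) (nat_lit 338))) (XT.nd (nat_lit 78) (nat_lit 304) (nat_lit 0) (XT.lf (nat_lit 0) (nat_lit 3931684365) (nat_lit 304) (nat_lit 8045382483) (nat_lit 76) (nat_lit 451146173) (nat_lit 134) (nat_lit 5) (nat_lit 138) (nat_lit 5) (nat_lit 135) (nat_lit 5) (nat_lit 462) (nat_lit 401) (nat_lit 337)) (XT.lf (nat_lit 0) (nat_lit 10048330) (nat_lit 304) (nat_lit 7525898749) (nat_lit 380) (nat_lit 5107126034) (nat_lit 130) (nat_lit 5) (nat_lit 134) (nat_lit 5) (nat_lit 135) (nat_lit 5) (nat_lit 463) (nat_lit 401) (nat_lit 336)))))) (XT.nd (nat_lit 546) (nat_lit 1140) (nat_lit 0) (XT.nd (nat_lit 234) (nat_lit 836) (nat_lit 0) (XT.nd (nat_lit 78) (nat_lit 304) (nat_lit 0) (XT.lf (nat_lit 0) (nat_lit 8416091389) (nat_lit 304) (nat_lit 2877476723) (nat_lit 380) (nat_lit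 1569458613) (nat_lit 130) (nat_lit 5) (nat_lit 134) (nat_lit 5) (nat_lit 135) (nat_lit 5) (nat_lit 464) (nat_lit 401) (nat_lit 335)) (XT.nd (nat_lit 78) (nat_lit 0) (nat_lit 0) (XT.lf (nat_lit 0) (nat_lit 2055629162) (nat_lit 304) (nat_lit 9120087160) (nat_lit 76) (nat_lit 1912615750) (nat_lit 126) (nat_lit 5) (nat_lit 130) (nat_lit 5) (nat_lit 127) (nat_lit 5) (nat_lit 465) (nat_lit 401) (nat_lit 334)) (XT.lf (nat_lit 0) (nat_lit 5796766170) (nat_lit 304) (nat_lit 691854166) (nat_lit 76) (nat_lit 6830149073) (nat_lit 126) (nat_lit 5) (nat_lit 130) (nat_lit 5) (nat_lit 127) (nat_lit 5) (nat_lit 466) (nat_lit 401) (nat_lit 333)))) (XT.nd (nat_lit 156) (nat_lit 304) (nat_lit 0) (XT.nd (nat_lit 78) (nat_lit 228) (nat_lit 0) (XT.lf (nat_lit 0) (nat_lit 8093400455) (nat_lit 304) (nat_lit 1600556288) (nat_lit 380) (nat_lit 3860852653) (nat_lit 122) (nat_lit 5) (nat_lit 126) (nat_lit 5) (nat_lit 127) (nat_lit 5) (nat_lit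 467) (nat_lit 401) (nat_lit 332)) (XT.lf (nat_lit 0) (nat_lit 3336654765) (nat_lit 228) (nat_lit 10409858031) (nat_lit 304) (nat_lit 50268290) (nat_lit 119) (nat_lit 5) (nat_lit 122) (nat_lit 5) (nat_lit 123) (nat_lit 5) (nat_lit 468) (nat_lit 401) (nat_lit 331))) (XT.nd (nat_lit 78) (nat_lit 228) (nat_lit 0) (XT.lf (nat_lit 0) (nat_lit 3837011375) (nat_lit 304) (nat_lit 1641572844) (nat_lit 76) (nat_lit 8565174539) (nat_lit 118) (nat_lit 5) (nat_lit 122) (nat_lit 5) (nat_lit 119) (nat_lit 5) (nat_lit 469) (nat_lit 401) (nat_lit 330)) (XT.lf (nat_lit 0) (nat_lit 7535471251) (nat_lit 228) (nat_lit 344283960) (nat_lit 304) (nat_lit 6417183591) (nat_lit 115) (nat_lit 5) (nat_lit 118) (nat_lit 5) (nat_lit 119) (nat_lit 5) (nat_lit 470) (nat_lit 401) (nat_lit 329))))) (XT.nd (nat_lit 312) (nat_lit 456) (nat_lit 0) (XT.nd (nat_lit 156) (nat_lit 380) (nat_lit 0) (XT.nd (nat_lit 78) (nat_lit 76) (nat_lit 0) (XT.lf (nat_lit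 0) (nat_lit 2410741056) (nat_lit 228) (nat_lit 9688156580) (nat_lit 304) (nat_lit 2457166672) (nat_lit 112) (nat_lit 5) (nat_lit 115) (nat_lit 5) (nat_lit 116) (nat_lit 5) (nat_lit 471) (nat_lit 401) (nat_lit 328)) (XT.lf (nat_lit 0) (nat_lit 1630164736) (nat_lit 304) (nat_lit 2896867085) (nat_lit 76) (nat_lit 10294262710) (nat_lit 111) (nat_lit 5) (nat_lit 115) (nat_lit 5) (nat_lit 112) (nat_lit 5) (nat_lit 472) (nat_lit 401) (nat_lit 327))) (XT.nd (nat_lit 78) (nat_lit 152) (nat_lit 0) (XT.lf (nat_lit 0) (nat_lit 5831977570) (nat_lit 304) (nat_lit 8417349587) (nat_lit 76) (nat_lit 843190456) (nat_lit 108) (nat_lit 5) (nat_lit 112) (nat_lit 5) (nat_lit 109) (nat_lit 5) (nat_lit 473) (nat_lit 401) (nat_lit 326)) (XT.lf (nat_lit 0) (nat_lit 1148358906) (nat_lit 152) (nat_lit 9065850539) (nat_lit 228) (nat_lit 5156040158) (nat_lit 106) (nat_lit 5) (nat_lit 108) (nat_lit 5) (nat_lit 109) (nat_lit 5) (nat_lit 474)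 (nat_lit 401) (nat_lit 325)))) (XT.nd (nat_lit 156) (nat_lit 152) (nat_lit 0) (XT.nd (nat_lit 78) (nat_lit 304) (nat_lit 0) (XT.lf (nat_lit 0) (nat_lit 11122407486) (nat_lit 152) (nat_lit 3659873113) (nat_lit 228) (nat_lit 872404846) (nat_lit 106) (nat_lit 5) (nat_lit 108) (nat_lit 5) (nat_lit 109) (nat_lit 5) (nat_lit 475) (nat_lit 401) (nat_lit 324)) (XT.lf (nat_lit 0) (nat_lit 3512226554) (nat_lit 304) (nat_lit 10494509452) (nat_lit 76) (nat_lit 1938653656) (nat_lit 102) (nat_lit 5) (nat_lit 106) (nat_lit 5) (nat_lit 103) (nat_lit 5) (nat_lit 476) (nat_lit 401) (nat_lit 323))) (XT.nd (nat_lit 78) (nat_lit 152) (nat_lit 0) (XT.lf (nat_lit 0) (nat_lit 8063489620) (nat_lit 304) (nat_lit 512822369) (nat_lit 76) (nat_lit 7666667873) (nat_lit 102) (nat_lit 5) (nat_lit 106) (nat_lit 5) (nat_lit 103) (nat_lit 5) (nat_lit 477) (nat_lit 401) (nat_lit 322)) (XT.lf (nat_lit 0) (nat_lit 9912725410) (nat_lit 152) (nat_lit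 2904891734) (nat_lit 228) (nat_lit 3729893546) (nat_lit 100) (nat_lit 5) (nat_lit 102) (nat_lit 5) (nat_lit 103) (nat_lit 5) (nat_lit 478) (nat_lit 401) (nat_lit 321))))))) (XT.nd (nat_lit 1170) (nat_lit 1444) (nat_lit 0) (XT.nd (nat_lit 546) (nat_lit 912) (nat_lit 0) (XT.nd (nat_lit 234) (nat_lit 456) (nat_lit 0) (XT.nd (nat_lit 78) (nat_lit 152) (nat_lit 0) (XT.lf (nat_lit 0) (nat_lit 878131050) (nat_lit 304) (nat_lit 13071418968) (nat_lit 76) (nat_lit 2910136284) (nat_lit 96) (nat_lit 5) (nat_lit 100) (nat_lit 5) (nat_lit 97) (nat_lit 5) (nat_lit 479) (nat_lit 401) (nat_lit 320)) (XT.nd (nat_lit 78) (nat_lit 152) (nat_lit 0) (XT.lf (nat_lit 0) (nat_lit 5617162579) (nat_lit 304) (nat_lit 2634854992) (nat_lit 76) (nat_lit 8926072212) (nat_lit 96) (nat_lit 5) (nat_lit 100) (nat_lit 5) (nat_lit 97) (nat_lit 5) (nat_lit 480) (nat_lit 401) (nat_lit 319)) (XT.lf (nat_lit 0) (nat_lit 8227488212) (nat_lit 152) (nat_lit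 2322110496) (nat_lit 228) (nat_lit 6954912066) (nat_lit 94) (nat_lit 5) (nat_lit 96) (nat_lit 5) (nat_lit 97) (nat_lit 5) (nat_lit 481) (nat_lit 401) (nat_lit 318)))) (XT.nd (nat_lit 156) (nat_lit 152) (nat_lit 0) (XT.nd (nat_lit 78) (nat_lit 76) (nat_lit 0) (XT.lf (nat_lit 0) (nat_lit 1575851798) (nat_lit 228) (nat_lit 14104875297) (nat_lit 304) (nat_lit 2158478073) (nat_lit 91) (nat_lit 5) (nat_lit 94) (nat_lit 5) (nat_lit 95) (nat_lit 5) (nat_lit 482) (nat_lit 401) (nat_lit 317)) (XT.lf (nat_lit 0) (nat_lit 2817550284) (nat_lit 304) (nat_lit 5335420529) (nat_lit 76) (nat_lit 10027470011) (nat_lit 90) (nat_lit 5) (nat_lit 94) (nat_lit 5) (nat_lit 91) (nat_lit 5) (nat_lit 483) (nat_lit 401) (nat_lit 316))) (XT.nd (nat_lit 78) (nat_lit 0) (nat_lit 0) (XT.lf (nat_lit 0) (nat_lit 5968738941) (nat_lit 152) (nat_lit 1961303503) (nat_lit 228) (nat_lit 10600315135) (nat_lit 88) (nat_lit 5) (nat_lit 90) (nat_lit 5) (nat_lit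 91) (nat_lit 5) (nat_lit 484) (nat_lit 401) (nat_lit 315)) (XT.lf (nat_lit 0) (nat_lit 13266107607) (nat_lit 228) (nat_lit 1257605296) (nat_lit 76) (nat_lit 4364955069) (nat_lit 88) (nat_lit 5) (nat_lit 91) (nat_lit 5) (nat_lit 89) (nat_lit 5) (nat_lit 485) (nat_lit 401) (nat_lit 314))))) (XT.nd (nat_lit 312) (nat_lit 380) (nat_lit 0) (XT.nd (nat_lit 156) (nat_lit 152) (nat_lit 0) (XT.nd (nat_lit 78) (nat_lit 228) (nat_lit 0) (XT.lf (nat_lit 0) (nat_lit 10526014878) (nat_lit 152) (nat_lit 8330954903) (nat_lit 228) (nat_lit 397918471) (nat_lit 86) (nat_lit 5) (nat_lit 88) (nat_lit 5) (nat_lit 89) (nat_lit 5) (nat_lit 486) (nat_lit 401) (nat_lit 313)) (XT.lf (nat_lit 0) (nat_lit 3022596145) (nat_lit 152) (nat_lit 1879680950) (nat_lit 228) (nat_lit 14727901039) (nat_lit 83) (nat_lit 5) (nat_lit 85) (nat_lit 5) (nat_lit 86) (nat_lit 5) (nat_lit 487) (nat_lit 401) (nat_lit 312))) (XT.nd (nat_lit 78) (nat_lit 152) (nat_lit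 0) (XT.lf (nat_lit 0) (nat_lit 10462612722) (nat_lit 228) (nat_lit 4804853714) (nat_lit 76) (nat_lit 4745869976) (nat_lit 83) (nat_lit 5) (nat_lit 86) (nat_lit 5) (nat_lit 84) (nat_lit 5) (nat_lit 488) (nat_lit 401) (nat_lit 311)) (XT.lf (nat_lit 0) (nat_lit 7434045096) (nat_lit 152) (nat_lit 8820842263) (nat_lit 228) (nat_lit 4151150011) (nat_lit 81) (nat_lit 5) (nat_lit 83) (nat_lit 5) (nat_lit 84) (nat_lit 5) (nat_lit 489) (nat_lit 401) (nat_lit 310)))) (XT.nd (nat_lit 156) (nat_lit 152) (nat_lit 0) (XT.nd (nat_lit 78) (nat_lit 152) (nat_lit 0) (XT.lf (nat_lit 0) (nat_lit 1407004858) (nat_lit 228) (nat_lit 728923812) (nat_lit 76) (nat_lit 18673462165) (nat_lit 80) (nat_lit 5) (nat_lit 83) (nat_lit 5) (nat_lit 81) (nat_lit 5) (nat_lit 490) (nat_lit 401) (nat_lit 309)) (XT.lf (nat_lit 0) (nat_lit 7186995262) (nat_lit 228) (nat_lit 9235903530) (nat_lit 76) (nat_lit 4796558996) (nat_lit 78) (nat_lit 5) (nat_lit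 81) (nat_lit 5) (nat_lit 79) (nat_lit 5) (nat_lit 491) (nat_lit 401) (nat_lit 308))) (XT.nd (nat_lit 78) (nat_lit 0) (nat_lit 0) (XT.lf (nat_lit 0) (nat_lit 3453668669) (nat_lit 152) (nat_lit 9724449779) (nat_lit 228) (nat_lit 8462577906) (nat_lit 76) (nat_lit 5) (nat_lit 78) (nat_lit 5) (nat_lit 79) (nat_lit 5) (nat_lit 492) (nat_lit 401) (nat_lit 307)) (XT.lf (nat_lit 0) (nat_lit 16670431869) (nat_lit 152) (nat_lit 2748049645) (nat_lit 228) (nat_lit 2654006931) (nat_lit 76) (nat_lit 5) (nat_lit 78) (nat_lit 5) (nat_lit 79) (nat_lit 5) (nat_lit 493) (nat_lit 401) (nat_lit 306)))))) (XT.nd (nat_lit 546) (nat_lit 684) (nat_lit 0) (XT.nd (nat_lit 234) (nat_lit 380) (nat_lit 0) (XT.nd (nat_lit 78) (nat_lit 152) (nat_lit 0) (XT.lf (nat_lit 0) (nat_lit 3359524262) (nat_lit 228) (nat_lit 14712734508) (nat_lit 76) (nat_lit 4441147220) (nat_lit 73) (nat_lit 5) (nat_lit 76) (nat_lit 5) (nat_lit 74) (nat_lit 5) (nat_lit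 494) (nat_lit 401) (nat_lit 305)) (XT.nd (nat_lit 78) (nat_lit 152) (nat_lit 0) (XT.lf (nat_lit 0) (nat_lit 9559220441) (nat_lit 228) (nat_lit 1551863967) (nat_lit 76) (nat_lit 11853906695) (nat_lit 73) (nat_lit 5) (nat_lit 76) (nat_lit 5) (nat_lit 74) (nat_lit 5) (nat_lit 495) (nat_lit 401) (nat_lit 304)) (XT.lf (nat_lit 0) (nat_lit 12201003803) (nat_lit 152) (nat_lit 3838666116) (nat_lit 228) (nat_lit 7387612356) (nat_lit 71) (nat_lit 5) (nat_lit 73) (nat_lit 5) (nat_lit 74) (nat_lit 5) (nat_lit 496) (nat_lit 401) (nat_lit 303)))) (XT.nd (nat_lit 156) (nat_lit 152) (nat_lit 0) (XT.nd (nat_lit 78) (nat_lit 76) (nat_lit 0) (XT.lf (nat_lit 0) (nat_lit 2467174245) (nat_lit 152) (nat_lit 20299575002) (nat_lit 228) (nat_lit 1135127783) (nat_lit 69) (nat_lit 5) (nat_lit 71) (nat_lit 5) (nat_lit 72) (nat_lit 4) (nat_lit 497) (nat_lit 401) (nat_lit 302)) (XT.lf (nat_lit 0) (nat_lit 5331517553) (nat_lit 228) (nat_lit 7716925283)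 (nat_lit 76) (nat_lit 11336835090) (nat_lit 68) (nat_lit 5) (nat_lit 71) (nat_lit 5) (nat_lit 69) (nat_lit 5) (nat_lit 498) (nat_lit 401) (nat_lit 301))) (XT.nd (nat_lit 78) (nat_lit 0) (nat_lit 0) (XT.lf (nat_lit 0) (nat_lit 6487892937) (nat_lit 152) (nat_lit 5522084177) (nat_lit 228) (nat_lit 12871648898) (nat_lit 66) (nat_lit 5) (nat_lit 68) (nat_lit 5) (nat_lit 69) (nat_lit 5) (nat_lit 499) (nat_lit 401) (nat_lit 300)) (XT.lf (nat_lit 0) (nat_lit 18967269638) (nat_lit 228) (nat_lit 4175627874) (nat_lit 76) (nat_lit 2247613843) (nat_lit 66) (nat_lit 5) (nat_lit 69) (nat_lit 5) (nat_lit 67) (nat_lit 4) (nat_lit 500) (nat_lit 401) (nat_lit 299))))) (XT.nd (nat_lit 312) (nat_lit 304) (nat_lit 0) (XT.nd (nat_lit 156) (nat_lit 228) (nat_lit 0) (XT.nd (nat_lit 78) (nat_lit 0) (nat_lit 0) (XT.lf (nat_lit 0) (nat_lit 351062021) (nat_lit 152) (nat_lit 15331979139) (nat_lit 76) (nat_lit 10227458864) (nat_lit 64) (nat_lit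 5) (nat_lit 66) (nat_lit 5) (nat_lit 65) (nat_lit 5) (nat_lit 501) (nat_lit 401) (nat_lit 298)) (XT.lf (nat_lit 0) (nat_lit 7221089435) (nat_lit 152) (nat_lit 686760255) (nat_lit 76) (nat_lit 18535683996) (nat_lit 64) (nat_lit 5) (nat_lit 66) (nat_lit 5) (nat_lit 65) (nat_lit 5) (nat_lit 502) (nat_lit 401) (nat_lit 297))) (XT.nd (nat_lit 78) (nat_lit 76) (nat_lit 0) (XT.lf (nat_lit 0) (nat_lit 14419821366) (nat_lit 228) (nat_lit 12345214556) (nat_lit 76) (nat_lit 223845382) (nat_lit 62) (nat_lit 5) (nat_lit 65) (nat_lit 5) (nat_lit 63) (nat_lit 4) (nat_lit 503) (nat_lit 401) (nat_lit 296)) (XT.lf (nat_lit 0) (nat_lit 2836944361) (nat_lit 76) (nat_lit 19089833739) (nat_lit 152) (nat_lit 5621044390) (nat_lit 61) (nat_lit 5) (nat_lit 62) (nat_lit 5) (nat_lit 63) (nat_lit 4) (nat_lit 504) (nat_lit 401) (nat_lit 295)))) (XT.nd (nat_lit 156) (nat_lit 76) (nat_lit 0) (XT.nd (nat_lit 78) (nat_lit 152) (nat_lit 0) (XT.lf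 (nat_lit 0) (nat_lit 1611072591) (nat_lit 152) (nat_lit 9445940737) (nat_lit 76) (nat_lit 17062908102) (nat_lit 60) (nat_lit 5) (nat_lit 62) (nat_lit 5) (nat_lit 61) (nat_lit 5) (nat_lit 505) (nat_lit 401) (nat_lit 294)) (XT.lf (nat_lit 0) (nat_lit 6307689288) (nat_lit 152) (nat_lit 2680435887) (nat_lit 228) (nat_lit 19718160998) (nat_lit 58) (nat_lit 5) (nat_lit 60) (nat_lit 5) (nat_lit 61) (nat_lit 5) (nat_lit 506) (nat_lit 401) (nat_lit 293))) (XT.nd (nat_lit 78) (nat_lit 76) (nat_lit 0) (XT.lf (nat_lit 0) (nat_lit 16720367768) (nat_lit 228) (nat_lit 6674684588) (nat_lit 76) (nat_lit 5911174061) (nat_lit 58) (nat_lit 5) (nat_lit 61) (nat_lit 5) (nat_lit 59) (nat_lit 4) (nat_lit 507) (nat_lit 401) (nat_lit 292)) (XT.lf (nat_lit 0) (nat_lit 9646973501) (nat_lit 76) (nat_lit 15137825347) (nat_lit 152) (nat_lit 5136360268) (nat_lit 57) (nat_lit 5) (nat_lit 58) (nat_lit 5) (nat_lit 59) (nat_lit 4) (nat_lit 508) (nat_lit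 401) (nat_lit 291))))))))
noncomputable def xc101 : XT := (XT.nd (nat_lit 2340) (nat_lit 608) (nat_lit 0) (XT.nd (nat_lit 1170) (nat_lit 760) (nat_lit 0) (XT.nd (nat_lit 546) (nat_lit 532) (nat_lit 0) (XT.nd (nat_lit 234) (nat_lit 380) (nat_lit 0) (XT.nd (nat_lit 78) (nat_lit 152) (nat_lit 0) (XT.lf (nat_lit 0) (nat_lit 2536170530) (nat_lit 152) (nat_lit 4018172270) (nat_lit 76) (nat_lit 23997994940) (nat_lit 56) (nat_lit 5) (nat_lit 58) (nat_lit 5) (nat_lit 57) (nat_lit 5) (nat_lit 509) (nat_lit 401) (nat_lit 290)) (XT.nd (nat_lit 78) (nat_lit 0) (nat_lit 0) (XT.lf (nat_lit 0) (nat_lit 10464649994) (nat_lit 228) (nat_lit 18329760833) (nat_lit 76) (nat_lit 2402645800) (nat_lit 54) (nat_lit 5) (nat_lit 57) (nat_lit 5) (nat_lit 55) (nat_lit 4) (nat_lit 510) (nat_lit 401) (nat_lit 289)) (XT.lf (nat_lit 0) (nat_lit 18718440783) (nat_lit 228) (nat_lit 1618223121) (nat_lit 76) (nat_lit 11521830253) (nat_lit 54) (nat_lit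 5) (nat_lit 57) (nat_lit 5) (nat_lit 55) (nat_lit 4) (nat_lit 511) (nat_lit 401) (nat_lit 288)))) (XT.nd (nat_lit 156) (nat_lit 76) (nat_lit 0) (XT.nd (nat_lit 78) (nat_lit 228) (nat_lit 0) (XT.lf (nat_lit 0) (nat_lit 15870641892) (nat_lit 76) (nat_lit 11483883140) (nat_lit 152) (nat_lit 5181210153) (nat_lit 53) (nat_lit 5) (nat_lit 54) (nat_lit 5) (nat_lit 55) (nat_lit 4) (nat_lit 512) (nat_lit 401) (nat_lit 287)) (XT.lf (nat_lit 0) (nat_lit 634018592) (nat_lit 152) (nat_lit 2328261724) (nat_lit 228) (nat_lit 30270001700) (nat_lit 50) (nat_lit 5) (nat_lit 52) (nat_lit 5) (nat_lit 53) (nat_lit 5) (nat_lit 513) (nat_lit 401) (nat_lit 286))) (XT.nd (nat_lit 78) (nat_lit 76) (nat_lit 0) (XT.lf (nat_lit 0) (nat_lit 11466351295) (nat_lit 228) (nat_lit 15305975094) (nat_lit 76) (nat_lit 7169248199) (nat_lit 50) (nat_lit 5) (nat_lit 53) (nat_lit 5) (nat_lit 51) (nat_lit 4) (nat_lit 514) (nat_lit 401) (nat_lit 285)) (XT.lf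 (nat_lit 0) (nat_lit 2497972329) (nat_lit 76) (nat_lit 17757347855) (nat_lit 152) (nat_lit 14415933157) (nat_lit 49) (nat_lit 5) (nat_lit 50) (nat_lit 5) (nat_lit 51) (nat_lit 4) (nat_lit 515) (nat_lit 401) (nat_lit 284))))) (XT.nd (nat_lit 312) (nat_lit 228) (nat_lit 0) (XT.nd (nat_lit 156) (nat_lit 76) (nat_lit 0) (XT.nd (nat_lit 78) (nat_lit 228) (nat_lit 0) (XT.lf (nat_lit 0) (nat_lit 21117315349) (nat_lit 76) (nat_lit 8328106099) (nat_lit 152) (nat_lit 5973277769) (nat_lit 49) (nat_lit 5) (nat_lit 50) (nat_lit 5) (nat_lit 51) (nat_lit 4) (nat_lit 516) (nat_lit 401) (nat_lit 283)) (XT.lf (nat_lit 0) (nat_lit 2706267753) (nat_lit 228) (nat_lit 32071701517) (nat_lit 76) (nat_lit 1408712485) (nat_lit 46) (nat_lit 5) (nat_lit 49) (nat_lit 5) (nat_lit 47) (nat_lit 4) (nat_lit 517) (nat_lit 401) (nat_lit 282))) (XT.nd (nat_lit 78) (nat_lit 76) (nat_lit 0) (XT.lf (nat_lit 0) (nat_lit 11737721902) (nat_lit 228) (nat_lit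 13771309504) (nat_lit 76) (nat_lit 11460551347) (nat_lit 46) (nat_lit 5) (nat_lit 49) (nat_lit 5) (nat_lit 47) (nat_lit 4) (nat_lit 518) (nat_lit 401) (nat_lit 281)) (XT.lf (nat_lit 0) (nat_lit 5147561036) (nat_lit 76) (nat_lit 15925804161) (nat_lit 152) (nat_lit 16701608804) (nat_lit 45) (nat_lit 5) (nat_lit 46) (nat_lit 5) (nat_lit 47) (nat_lit 4) (nat_lit 519) (nat_lit 401) (nat_lit 280)))) (XT.nd (nat_lit 156) (nat_lit 76) (nat_lit 0) (XT.nd (nat_lit 78) (nat_lit 152) (nat_lit 0) (XT.lf (nat_lit 0) (nat_lit 24885619078) (nat_lit 76) (nat_lit 5926463959) (nat_lit 152) (nat_lit 7788754360) (nat_lit 45) (nat_lit 5) (nat_lit 46) (nat_lit 5) (nat_lit 47) (nat_lit 4) (nat_lit 520) (nat_lit 401) (nat_lit 279)) (XT.lf (nat_lit 0) (nat_lit 1447258961) (nat_lit 152) (nat_lit 33657724545) (nat_lit 76) (nat_lit 4343604664) (nat_lit 43) (nat_lit 5) (nat_lit 45) (nat_lit 5) (nat_lit 44) (nat_lit 4) (nat_lit 521) (nat_lit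 401) (nat_lit 278))) (XT.nd (nat_lit 78) (nat_lit 76) (nat_lit 0) (XT.lf (nat_lit 0) (nat_lit 10986642530) (nat_lit 152) (nat_lit 14321638710) (nat_lit 76) (nat_lit 15005692173) (nat_lit 43) (nat_lit 5) (nat_lit 45) (nat_lit 5) (nat_lit 44) (nat_lit 4) (nat_lit 522) (nat_lit 401) (nat_lit 277)) (XT.lf (nat_lit 0) (nat_lit 5676034026) (nat_lit 76) (nat_lit 15175482831) (nat_lit 152) (nat_lit 20352624584) (nat_lit 42) (nat_lit 5) (nat_lit 43) (nat_lit 5) (nat_lit 44) (nat_lit 4) (nat_lit 523) (nat_lit 401) (nat_lit 276)))))) (XT.nd (nat_lit 546) (nat_lit 380) (nat_lit 0) (XT.nd (nat_lit 234) (nat_lit 228) (nat_lit 0) (XT.nd (nat_lit 78) (nat_lit 152) (nat_lit 0) (XT.lf (nat_lit 0) (nat_lit 26538247774) (nat_lit 76) (nat_lit 4603623622) (nat_lit 152) (nat_lit 10975257582) (nat_lit 42) (nat_lit 5) (nat_lit 43) (nat_lit 5) (nat_lit 44) (nat_lit 4) (nat_lit 524) (nat_lit 401) (nat_lit 275)) (XT.nd (nat_lit 78) (nat_lit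 76) (nat_lit 0) (XT.lf (nat_lit 0) (nat_lit 4977088380) (nat_lit 76) (nat_lit 36857333406) (nat_lit 76) (nat_lit 1220280276) (nat_lit 41) (nat_lit 4) (nat_lit 42) (nat_lit 5) (nat_lit 42) (nat_lit 4) (nat_lit 525) (nat_lit 401) (nat_lit 274)) (XT.lf (nat_lit 0) (nat_lit 8844785120) (nat_lit 152) (nat_lit 17707036648) (nat_lit 76) (nat_lit 17460344640) (nat_lit 40) (nat_lit 5) (nat_lit 42) (nat_lit 5) (nat_lit 41) (nat_lit 4) (nat_lit 526) (nat_lit 401) (nat_lit 273)))) (XT.nd (nat_lit 156) (nat_lit 152) (nat_lit 0) (XT.nd (nat_lit 78) (nat_lit 0) (nat_lit 0) (XT.lf (nat_lit 0) (nat_lit 3299335527) (nat_lit 76) (nat_lit 15905323645) (nat_lit 152) (nat_lit 25792811996) (nat_lit 39) (nat_lit 5) (nat_lit 40) (nat_lit 5) (nat_lit 41) (nat_lit 4) (nat_lit 527) (nat_lit 401) (nat_lit 272)) (XT.lf (nat_lit 0) (nat_lit 25271524459) (nat_lit 76) (nat_lit 4768433747) (nat_lit 152) (nat_lit 15967438423) (nat_lit 39) (nat_lit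 5) (nat_lit 40) (nat_lit 5) (nat_lit 41) (nat_lit 4) (nat_lit 528) (nat_lit 401) (nat_lit 271))) (XT.nd (nat_lit 78) (nat_lit 76) (nat_lit 0) (XT.lf (nat_lit 0) (nat_lit 779189803) (nat_lit 76) (nat_lit 40479157995) (nat_lit 76) (nat_lit 5787531519) (nat_lit 38) (nat_lit 4) (nat_lit 39) (nat_lit 5) (nat_lit 39) (nat_lit 4) (nat_lit 529) (nat_lit 401) (nat_lit 270)) (XT.lf (nat_lit 0) (nat_lit 4850904136) (nat_lit 152) (nat_lit 24865767719) (nat_lit 76) (nat_lit 18390146220) (nat_lit 37) (nat_lit 5) (nat_lit 39) (nat_lit 5) (nat_lit 38) (nat_lit 4) (nat_lit 530) (nat_lit 401) (nat_lit 269))))) (XT.nd (nat_lit 312) (nat_lit 228) (nat_lit 0) (XT.nd (nat_lit 156) (nat_lit 76) (nat_lit 0) (XT.nd (nat_lit 78) (nat_lit 76) (nat_lit 0) (XT.lf (nat_lit 0) (nat_lit 15678698296) (nat_lit 152) (nat_lit 2906196685) (nat_lit 76) (nat_lit 30613375452) (nat_lit 37) (nat_lit 5) (nat_lit 39) (nat_lit 5) (nat_lit 38) (nat_lit 4)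 (nat_lit 531) (nat_lit 401) (nat_lit 268)) (XT.lf (nat_lit 0) (nat_lit 20078651671) (nat_lit 76) (nat_lit 6932604334) (nat_lit 152) (nat_lit 23305812826) (nat_lit 36) (nat_lit 5) (nat_lit 37) (nat_lit 5) (nat_lit 38) (nat_lit 4) (nat_lit 532) (nat_lit 401) (nat_lit 267))) (XT.nd (nat_lit 78) (nat_lit 76) (nat_lit 0) (XT.lf (nat_lit 0) (nat_lit 38749101479) (nat_lit 152) (nat_lit 7730290794) (nat_lit 0) (nat_lit 4988079934) (nat_lit 36) (nat_lit 5) (nat_lit 38) (nat_lit 4) (nat_lit 36) (nat_lit 4) (nat_lit 533) (nat_lit 401) (nat_lit 266)) (XT.lf (nat_lit 0) (nat_lit 15665528334) (nat_lit 76) (nat_lit 35380105318) (nat_lit 76) (nat_lit 1600557833) (nat_lit 35) (nat_lit 4) (nat_lit 36) (nat_lit 5) (nat_lit 36) (nat_lit 4) (nat_lit 534) (nat_lit 401) (nat_lit 265)))) (XT.nd (nat_lit 156) (nat_lit 76) (nat_lit 0) (XT.nd (nat_lit 78) (nat_lit 76) (nat_lit 0) (XT.lf (nat_lit 0) (nat_lit 9724734286) (nat_lit 152) (nat_lit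 14056323233) (nat_lit 76) (nat_lit 30074389317) (nat_lit 34) (nat_lit 5) (nat_lit 36) (nat_lit 5) (nat_lit 35) (nat_lit 4) (nat_lit 535) (nat_lit 401) (nat_lit 264)) (XT.lf (nat_lit 0) (nat_lit 9705390356) (nat_lit 76) (nat_lit 11733223764) (nat_lit 152) (nat_lit 33659460670) (nat_lit 33) (nat_lit 5) (nat_lit 34) (nat_lit 5) (nat_lit 35) (nat_lit 4) (nat_lit 536) (nat_lit 401) (nat_lit 263))) (XT.nd (nat_lit 78) (nat_lit 76) (nat_lit 0) (XT.lf (nat_lit 0) (nat_lit 33641480150) (nat_lit 152) (nat_lit 21937448058) (nat_lit 0) (nat_lit 794926587) (nat_lit 33) (nat_lit 5) (nat_lit 35) (nat_lit 4) (nat_lit 33) (nat_lit 4) (nat_lit 537) (nat_lit 401) (nat_lit 262)) (XT.lf (nat_lit 0) (nat_lit 2123491460) (nat_lit 76) (nat_lit 44211605645) (nat_lit 76) (nat_lit 11349071444) (nat_lit 32) (nat_lit 4) (nat_lit 33) (nat_lit 5) (nat_lit 33) (nat_lit 4) (nat_lit 538) (nat_lit 401) (nat_lit 261))))))) (XT.nd (nat_lit 51948)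 (nat_lit 0) (nat_lit 25080) (XT.nd (nat_lit 546) (nat_lit 304) (nat_lit 0) (XT.nd (nat_lit 234) (nat_lit 152) (nat_lit 0) (XT.nd (nat_lit 78) (nat_lit 76) (nat_lit 0) (XT.lf (nat_lit 0) (nat_lit 580208706) (nat_lit 152) (nat_lit 31700225710) (nat_lit 76) (nat_lit 26746894933) (nat_lit 31) (nat_lit 5) (nat_lit 33) (nat_lit 5) (nat_lit 32) (nat_lit 4) (nat_lit 539) (nat_lit 401) (nat_lit 260)) (XT.nd (nat_lit 78) (nat_lit 76) (nat_lit 0) (XT.lf (nat_lit 0) (nat_lit 12627700205) (nat_lit 152) (nat_lit 7258881252) (nat_lit 76) (nat_lit 40521179636) (nat_lit 31) (nat_lit 5) (nat_lit 33) (nat_lit 5) (nat_lit 32) (nat_lit 4) (nat_lit 540) (nat_lit 401) (nat_lit 259)) (XT.lf (nat_lit 0) (nat_lit 18249928861) (nat_lit 76) (nat_lit 6950891867) (nat_lit 152) (nat_lit 36623859196) (nat_lit 30) (nat_lit 5) (nat_lit 31) (nat_lit 5) (nat_lit 32) (nat_lit 4) (nat_lit 541) (nat_lit 401) (nat_lit 258)))) (XT.nd (nat_lit 156) (nat_lit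 76) (nat_lit 0) (XT.nd (nat_lit 78) (nat_lit 76) (nat_lit 0) (XT.lf (nat_lit 0) (nat_lit 38275212665) (nat_lit 152) (nat_lit 18693003386) (nat_lit 0) (nat_lit 6312168191) (nat_lit 30) (nat_lit 5) (nat_lit 32) (nat_lit 4) (nat_lit 30) (nat_lit 4) (nat_lit 542) (nat_lit 401) (nat_lit 257)) (XT.lf (nat_lit 0) (nat_lit 6981331543) (nat_lit 76) (nat_lit 44885552486) (nat_lit 76) (nat_lit 12909124478) (nat_lit 29) (nat_lit 4) (nat_lit 30) (nat_lit 5) (nat_lit 30) (nat_lit 4) (nat_lit 543) (nat_lit 401) (nat_lit 256))) (XT.nd (nat_lit 78) (nat_lit 76) (nat_lit 0) (XT.lf (nat_lit 0) (nat_lit 33788017956) (nat_lit 76) (nat_lit 32256282828) (nat_lit 76) (nat_lit 266861099) (nat_lit 29) (nat_lit 4) (nat_lit 30) (nat_lit 5) (nat_lit 30) (nat_lit 4) (nat_lit 544) (nat_lit 401) (nat_lit 255)) (XT.lf (nat_lit 0) (nat_lit 12495223076) (nat_lit 152) (nat_lit 6636734147) (nat_lit 76) (nat_lit 48757051421) (nat_lit 28) (nat_lit 5)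 (nat_lit 30) (nat_lit 5) (nat_lit 29) (nat_lit 4) (nat_lit 545) (nat_lit 401) (nat_lit 254))))) (XT.nd (nat_lit 312) (nat_lit 152) (nat_lit 0) (XT.nd (nat_lit 156) (nat_lit 76) (nat_lit 0) (XT.nd (nat_lit 78) (nat_lit 0) (nat_lit 0) (XT.lf (nat_lit 0) (nat_lit 20401674181) (nat_lit 76) (nat_lit 5418995278) (nat_lit 152) (nat_lit 43687866405) (nat_lit 27) (nat_lit 5) (nat_lit 28) (nat_lit 5) (nat_lit 29) (nat_lit 4) (nat_lit 546) (nat_lit 401) (nat_lit 253)) (XT.lf (nat_lit 0) (nat_lit 39687006067) (nat_lit 152) (nat_lit 22891777852) (nat_lit 0) (nat_lit 8593631389) (nat_lit 27) (nat_lit 5) (nat_lit 29) (nat_lit 4) (nat_lit 27) (nat_lit 4) (nat_lit 547) (nat_lit 401) (nat_lit 252))) (XT.nd (nat_lit 78) (nat_lit 0) (nat_lit 0) (XT.lf (nat_lit 0) (nat_lit 4116950294) (nat_lit 76) (nat_lit 49935672758) (nat_lit 76) (nat_lit 18831089583) (nat_lit 26) (nat_lit 4) (nat_lit 27) (nat_lit 5) (nat_lit 27) (nat_lit 4) (nat_lit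 548) (nat_lit 401) (nat_lit 251)) (XT.lf (nat_lit 0) (nat_lit 32385899071) (nat_lit 76) (nat_lit 36684637690) (nat_lit 76) (nat_lit 5569172477) (nat_lit 26) (nat_lit 4) (nat_lit 27) (nat_lit 5) (nat_lit 27) (nat_lit 4) (nat_lit 549) (nat_lit 401) (nat_lit 250)))) (XT.nd (nat_lit 50934) (nat_lit 0) (nat_lit 29412) (XT.nd (nat_lit 78) (nat_lit 76) (nat_lit 0) (XT.lf (nat_lit 0) (nat_lit 7923083195) (nat_lit 152) (nat_lit 15042171410) (nat_lit 76) (nat_lit 53481087434) (nat_lit 25) (nat_lit 5) (nat_lit 27) (nat_lit 5) (nat_lit 26) (nat_lit 4) (nat_lit 550) (nat_lit 401) (nat_lit 249)) (XT.lf (nat_lit 0) (nat_lit 13169277425) (nat_lit 76) (nat_lit 8656124095) (nat_lit 152) (nat_lit 56476601384) (nat_lit 24) (nat_lit 5) (nat_lit 25) (nat_lit 5) (nat_lit 26) (nat_lit 4) (nat_lit 551) (nat_lit 401) (nat_lit 248))) (XT.nd (nat_lit 78) (nat_lit 228) (nat_lit 0) (XT.lf (nat_lit 0) (nat_lit 2850709880) (nat_lit 228) (nat_lit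 189467517) (nat_lit 228) (nat_lit 189467517) (nat_lit 414) (nat_lit 3) (nat_lit 417) (nat_lit 3) (nat_lit 417) (nat_lit 5) (nat_lit 402) (nat_lit 402) (nat_lit 396)) (XT.lf (nat_lit 0) (nat_lit 2122966589) (nat_lit 228) (nat_lit 3632544797) (nat_lit 304) (nat_lit 713383395) (nat_lit 411) (nat_lit 5) (nat_lit 414) (nat_lit 3) (nat_lit 415) (nat_lit 5) (nat_lit 403) (nat_lit 402) (nat_lit 395)))))) (XT.nd (nat_lit 624) (nat_lit 3192) (nat_lit 0) (XT.nd (nat_lit 312) (nat_lit 456) (nat_lit 0) (XT.nd (nat_lit 156) (nat_lit 380) (nat_lit 0) (XT.nd (nat_lit 78) (nat_lit 304) (nat_lit 0) (XT.lf (nat_lit 0) (nat_lit 4967092698) (nat_lit 228) (nat_lit 390462440) (nat_lit 304) (nat_lit 1124291189) (nat_lit 411) (nat_lit 5) (nat_lit 414) (nat_lit 3) (nat_lit 415) (nat_lit 5) (nat_lit 404) (nat_lit 402) (nat_lit 394)) (XT.lf (nat_lit 0) (nat_lit 1292998879) (nat_lit 304) (nat_lit 3562262115) (nat_lit 380) (nat_lit 1641995447)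 (nat_lit 407) (nat_lit 5) (nat_lit 411) (nat_lit 5) (nat_lit 412) (nat_lit 5) (nat_lit 405) (nat_lit 402) (nat_lit 393))) (XT.nd (nat_lit 78) (nat_lit 380) (nat_lit 0) (XT.lf (nat_lit 0) (nat_lit 4051522179) (nat_lit 304) (nat_lit 219786539) (nat_lit 380) (nat_lit 2244503234) (nat_lit 407) (nat_lit 5) (nat_lit 411) (nat_lit 5) (nat_lit 412) (nat_lit 5) (nat_lit 406) (nat_lit 402) (nat_lit 392)) (XT.lf (nat_lit 0) (nat_lit 277276528) (nat_lit 380) (nat_lit 3312133300) (nat_lit 456) (nat_lit 2947659681) (nat_lit 402) (nat_lit 5) (nat_lit 407) (nat_lit 5) (nat_lit 408) (nat_lit 5) (nat_lit 407) (nat_lit 402) (nat_lit 391)))) (XT.nd (nat_lit 156) (nat_lit 456) (nat_lit 0) (XT.nd (nat_lit 78) (nat_lit 0) (nat_lit 0) (XT.lf (nat_lit 76) (nat_lit 137143986) (nat_lit 0) (nat_lit 2815521788) (nat_lit 456) (nat_lit 3608572788) (nat_lit 403) (nat_lit 5) (nat_lit 402) (nat_lit 5) (nat_lit 408) (nat_lit 5) (nat_lit 408) (nat_lit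 402) (nat_lit 390)) (XT.lf (nat_lit 76) (nat_lit 3698661418) (nat_lit 0) (nat_lit 1943063039) (nat_lit 456) (nat_lit 946443772) (nat_lit 403) (nat_lit 5) (nat_lit 402) (nat_lit 5) (nat_lit 408) (nat_lit 5) (nat_lit 409) (nat_lit 402) (nat_lit 389))) (XT.nd (nat_lit 78) (nat_lit 0) (nat_lit 76) (XT.lf (nat_lit 76) (nat_lit 687881975) (nat_lit 0) (nat_lit 981119706) (nat_lit 532) (nat_lit 4949167207) (nat_lit 397) (nat_lit 5) (nat_lit 396) (nat_lit 5) (nat_lit 403) (nat_lit 5) (nat_lit 410) (nat_lit 402) (nat_lit 388)) (XT.lf (nat_lit 0) (nat_lit 4277974412) (nat_lit 456) (nat_lit 2288205068) (nat_lit 76) (nat_lit 84620941) (nat_lit 397) (nat_lit 5) (nat_lit 403) (nat_lit 5) (nat_lit 398) (nat_lit 5) (nat_lit 411) (nat_lit 402) (nat_lit 387))))) (XT.nd (nat_lit 312) (nat_lit 2128) (nat_lit 0) (XT.nd (nat_lit 156) (nat_lit 608) (nat_lit 0) (XT.nd (nat_lit 78) (nat_lit 0) (nat_lit 0) (XT.lf (nat_lit 0) (nat_lit 205286015)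 (nat_lit 532) (nat_lit 5267659487) (nat_lit 76) (nat_lit 1213518199) (nat_lit 390) (nat_lit 5) (nat_lit 397) (nat_lit 5) (nat_lit 391) (nat_lit 5) (nat_lit 412) (nat_lit 402) (nat_lit 386)) (XT.lf (nat_lit 0) (nat_lit 2744889507) (nat_lit 532) (nat_lit 1523832116) (nat_lit 76) (nat_lit 2455846907) (nat_lit 390) (nat_lit 5) (nat_lit 397) (nat_lit 5) (nat_lit 391) (nat_lit 5) (nat_lit 413) (nat_lit 402) (nat_lit 385))) (XT.nd (nat_lit 78) (nat_lit 76) (nat_lit 0) (XT.lf (nat_lit 0) (nat_lit 2317794854) (nat_lit 532) (nat_lit 2976335632) (nat_lit 608) (nat_lit 1471713249) (nat_lit 383) (nat_lit 5) (nat_lit 390) (nat_lit 5) (nat_lit 391) (nat_lit 5) (nat_lit 414) (nat_lit 402) (nat_lit 384)) (XT.lf (nat_lit 0) (nat_lit 1017641560) (nat_lit 608) (nat_lit 573756951) (nat_lit 76) (nat_lit 5218831931) (nat_lit 382) (nat_lit 5) (nat_lit 390) (nat_lit 5) (nat_lit 383) (nat_lit 5) (nat_lit 415) (nat_lit 402) (nat_lit 383))))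 (XT.nd (nat_lit 156) (nat_lit 836) (nat_lit 0) (XT.nd (nat_lit 78) (nat_lit 684) (nat_lit 0) (XT.lf (nat_lit 0) (nat_lit 3409567600) (nat_lit 608) (nat_lit 90157872) (nat_lit 684) (nat_lit 3357385388) (nat_lit 374) (nat_lit 5) (nat_lit 382) (nat_lit 5) (nat_lit 383) (nat_lit 5) (nat_lit 416) (nat_lit 402) (nat_lit 382)) (XT.lf (nat_lit 0) (nat_lit 554353590) (nat_lit 684) (nat_lit 5444102864) (nat_lit 760) (nat_lit 908702991) (nat_lit 365) (nat_lit 5) (nat_lit 374) (nat_lit 5) (nat_lit 375) (nat_lit 5) (nat_lit 417) (nat_lit 402) (nat_lit 381))) (XT.nd (nat_lit 78) (nat_lit 760) (nat_lit 0) (XT.lf (nat_lit 0) (nat_lit 1536017965) (nat_lit 760) (nat_lit 2289828116) (nat_lit 76) (nat_lit 3133801983) (nat_lit 364) (nat_lit 5) (nat_lit 374) (nat_lit 5) (nat_lit 365) (nat_lit 5) (nat_lit 418) (nat_lit 402) (nat_lit 380)) (XT.lf (nat_lit 0) (nat_lit 1861794615) (nat_lit 760) (nat_lit 2112317975) (nat_lit 836) (nat_lit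 3041204932) (nat_lit 354) (nat_lit 5) (nat_lit 364) (nat_lit 5) (nat_lit 365) (nat_lit 5) (nat_lit 419) (nat_lit 402) (nat_lit 379))))))))
noncomputable def xc102 : XT := (XT.nd (nat_lit 2340) (nat_lit 6080) (nat_lit 0) (XT.nd (nat_lit 1170) (nat_lit 5016) (nat_lit 0) (XT.nd (nat_lit 546) (nat_lit 4560) (nat_lit 0) (XT.nd (nat_lit 234) (nat_lit 2128) (nat_lit 0) (XT.nd (nat_lit 78) (nat_lit 1824) (nat_lit 0) (XT.lf (nat_lit 0) (nat_lit 6124921561) (nat_lit 760) (nat_lit 305692497) (nat_lit 836) (nat_lit 643709332) (nat_lit 354) (nat_lit 5) (nat_lit 364) (nat_lit 5) (nat_lit 365) (nat_lit 5) (nat_lit 420) (nat_lit 402) (nat_lit 378)) (XT.nd (nat_lit 78) (nat_lit 912) (nat_lit 0) (XT.lf (nat_lit 0) (nat_lit 1761712492) (nat_lit 912) (nat_lit 3782257554) (nat_lit 76) (nat_lit 1591476920) (nat_lit 342) (nat_lit 5) (nat_lit 354) (nat_lit 5) (nat_lit 343) (nat_lit 5) (nat_lit 421) (nat_lit 402) (nat_lit 377)) (XT.lf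 (nat_lit 0) (nat_lit 545752527) (nat_lit 912) (nat_lit 3624003045) (nat_lit 988) (nat_lit 3030177770) (nat_lit 330) (nat_lit 5) (nat_lit 342) (nat_lit 5) (nat_lit 343) (nat_lit 5) (nat_lit 422) (nat_lit 402) (nat_lit 376)))) (XT.nd (nat_lit 156) (nat_lit 1064) (nat_lit 0) (XT.nd (nat_lit 78) (nat_lit 1064) (nat_lit 0) (XT.lf (nat_lit 0) (nat_lit 5020133767) (nat_lit 912) (nat_lit 1595126513) (nat_lit 988) (nat_lit 652158961) (nat_lit 330) (nat_lit 5) (nat_lit 342) (nat_lit 5) (nat_lit 343) (nat_lit 5) (nat_lit 423) (nat_lit 402) (nat_lit 375)) (XT.lf (nat_lit 0) (nat_lit 1717510865) (nat_lit 1064) (nat_lit 5085241306) (nat_lit 76) (nat_lit 535018169) (nat_lit 316) (nat_lit 5) (nat_lit 330) (nat_lit 5) (nat_lit 317) (nat_lit 5) (nat_lit 424) (nat_lit 402) (nat_lit 374))) (XT.nd (nat_lit 78) (nat_lit 1064) (nat_lit 0) (XT.lf (nat_lit 0) (nat_lit 4113907724) (nat_lit 1064) (nat_lit 560913529) (nat_lit 76) (nat_lit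 2736174382) (nat_lit 316) (nat_lit 5) (nat_lit 330) (nat_lit 5) (nat_lit 317) (nat_lit 5) (nat_lit 425) (nat_lit 402) (nat_lit 373)) (XT.lf (nat_lit 0) (nat_lit 4119043350) (nat_lit 1064) (nat_lit 2434819255) (nat_lit 1140) (nat_lit 933424241) (nat_lit 302) (nat_lit 5) (nat_lit 316) (nat_lit 5) (nat_lit 317) (nat_lit 5) (nat_lit 426) (nat_lit 402) (nat_lit 372))))) (XT.nd (nat_lit 312) (nat_lit 1292) (nat_lit 0) (XT.nd (nat_lit 156) (nat_lit 2052) (nat_lit 0) (XT.nd (nat_lit 78) (nat_lit 0) (nat_lit 0) (XT.lf (nat_lit 0) (nat_lit 1335534603) (nat_lit 1140) (nat_lit 87677401) (nat_lit 1216) (nat_lit 6143699267) (nat_lit 286) (nat_lit 5) (nat_lit 301) (nat_lit 5) (nat_lit 302) (nat_lit 5) (nat_lit 427) (nat_lit 402) (nat_lit 371)) (XT.lf (nat_lit 0) (nat_lit 3822753699) (nat_lit 1216) (nat_lit 1493089635) (nat_lit 76) (nat_lit 2333092338) (nat_lit 286) (nat_lit 5) (nat_lit 302) (nat_lit 5) (nat_lit 287) (nat_lit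 5) (nat_lit 428) (nat_lit 402) (nat_lit 370))) (XT.nd (nat_lit 78) (nat_lit 836) (nat_lit 0) (XT.lf (nat_lit 0) (nat_lit 3391807482) (nat_lit 1216) (nat_lit 2872083889) (nat_lit 1292) (nat_lit 1470458148) (nat_lit 270) (nat_lit 5) (nat_lit 286) (nat_lit 5) (nat_lit 287) (nat_lit 5) (nat_lit 429) (nat_lit 402) (nat_lit 369)) (XT.lf (nat_lit 0) (nat_lit 572279461) (nat_lit 760) (nat_lit 322514319) (nat_lit 836) (nat_lit 6928547054) (nat_lit 259) (nat_lit 5) (nat_lit 269) (nat_lit 5) (nat_lit 270) (nat_lit 5) (nat_lit 430) (nat_lit 402) (nat_lit 368)))) (XT.nd (nat_lit 156) (nat_lit 684) (nat_lit 0) (XT.nd (nat_lit 78) (nat_lit 608) (nat_lit 0) (XT.lf (nat_lit 0) (nat_lit 3305924900) (nat_lit 836) (nat_lit 2290074526) (nat_lit 76) (nat_lit 2318446962) (nat_lit 259) (nat_lit 5) (nat_lit 270) (nat_lit 5) (nat_lit 260) (nat_lit 5) (nat_lit 431) (nat_lit 402) (nat_lit 367)) (XT.lf (nat_lit 0) (nat_lit 2810403982) (nat_lit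 608) (nat_lit 2949046933) (nat_lit 684) (nat_lit 2249747477) (nat_lit 251) (nat_lit 5) (nat_lit 259) (nat_lit 5) (nat_lit 260) (nat_lit 5) (nat_lit 432) (nat_lit 402) (nat_lit 366))) (XT.nd (nat_lit 78) (nat_lit 608) (nat_lit 0) (XT.lf (nat_lit 0) (nat_lit 140061140) (nat_lit 684) (nat_lit 58803108) (nat_lit 76) (nat_lit 7908977708) (nat_lit 250) (nat_lit 5) (nat_lit 259) (nat_lit 5) (nat_lit 251) (nat_lit 5) (nat_lit 433) (nat_lit 402) (nat_lit 365)) (XT.lf (nat_lit 0) (nat_lit 2575049647) (nat_lit 684) (nat_lit 2979149463) (nat_lit 76) (nat_lit 2654030204) (nat_lit 242) (nat_lit 5) (nat_lit 251) (nat_lit 5) (nat_lit 243) (nat_lit 5) (nat_lit 434) (nat_lit 402) (nat_lit 364)))))) (XT.nd (nat_lit 546) (nat_lit 2280) (nat_lit 0) (XT.nd (nat_lit 234) (nat_lit 1596) (nat_lit 0) (XT.nd (nat_lit 78) (nat_lit 608) (nat_lit 0) (XT.lf (nat_lit 0) (nat_lit 2348141030) (nat_lit 532) (nat_lit 2703339481) (nat_lit 608) (nat_lit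 3261109425) (nat_lit 235) (nat_lit 5) (nat_lit 242) (nat_lit 5) (nat_lit 243) (nat_lit 5) (nat_lit 435) (nat_lit 402) (nat_lit 363)) (XT.nd (nat_lit 78) (nat_lit 608) (nat_lit 0) (XT.lf (nat_lit 0) (nat_lit 7579106919) (nat_lit 608) (nat_lit 587337815) (nat_lit 76) (nat_lit 254342598) (nat_lit 235) (nat_lit 5) (nat_lit 243) (nat_lit 5) (nat_lit 236) (nat_lit 5) (nat_lit 436) (nat_lit 402) (nat_lit 362)) (XT.lf (nat_lit 0) (nat_lit 1638674421) (nat_lit 608) (nat_lit 3586707025) (nat_lit 76) (nat_lit 3305769164) (nat_lit 227) (nat_lit 5) (nat_lit 235) (nat_lit 5) (nat_lit 228) (nat_lit 5) (nat_lit 437) (nat_lit 402) (nat_lit 361)))) (XT.nd (nat_lit 156) (nat_lit 1064) (nat_lit 0) (XT.nd (nat_lit 78) (nat_lit 0) (nat_lit 0) (XT.lf (nat_lit 0) (nat_lit 1979173640) (nat_lit 532) (nat_lit 2168733417) (nat_lit 608) (nat_lit 4497538130) (nat_lit 220) (nat_lit 5) (nat_lit 227) (nat_lit 5) (nat_lit 228) (nat_lit 5) (nat_lit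 438) (nat_lit 402) (nat_lit 360)) (XT.lf (nat_lit 0) (nat_lit 6725694007) (nat_lit 608) (nat_lit 1047854553) (nat_lit 76) (nat_lit 989833300) (nat_lit 220) (nat_lit 5) (nat_lit 228) (nat_lit 5) (nat_lit 221) (nat_lit 5) (nat_lit 439) (nat_lit 402) (nat_lit 359))) (XT.nd (nat_lit 78) (nat_lit 456) (nat_lit 0) (XT.lf (nat_lit 0) (nat_lit 502383913) (nat_lit 608) (nat_lit 4138730341) (nat_lit 76) (nat_lit 4243127154) (nat_lit 212) (nat_lit 5) (nat_lit 220) (nat_lit 5) (nat_lit 213) (nat_lit 5) (nat_lit 440) (nat_lit 402) (nat_lit 358)) (XT.lf (nat_lit 0) (nat_lit 1678018346) (nat_lit 456) (nat_lit 1375732557) (nat_lit 532) (nat_lit 5955099726) (nat_lit 206) (nat_lit 5) (nat_lit 212) (nat_lit 5) (nat_lit 213) (nat_lit 5) (nat_lit 441) (nat_lit 402) (nat_lit 357))))) (XT.nd (nat_lit 312) (nat_lit 1292) (nat_lit 0) (XT.nd (nat_lit 156) (nat_lit 532) (nat_lit 0) (XT.nd (nat_lit 78) (nat_lit 456) (nat_lit 0) (XT.lf (nat_lit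 0) (nat_lit 5693016352) (nat_lit 532) (nat_lit 1462371494) (nat_lit 76) (nat_lit 1981479847) (nat_lit 206) (nat_lit 5) (nat_lit 213) (nat_lit 5) (nat_lit 207) (nat_lit 5) (nat_lit 442) (nat_lit 402) (nat_lit 356)) (XT.lf (nat_lit 0) (nat_lit 4599026109) (nat_lit 456) (nat_lit 3821762902) (nat_lit 532) (nat_lit 847666368) (nat_lit 200) (nat_lit 5) (nat_lit 206) (nat_lit 5) (nat_lit 207) (nat_lit 5) (nat_lit 443) (nat_lit 402) (nat_lit 355))) (XT.nd (nat_lit 78) (nat_lit 0) (nat_lit 0) (XT.lf (nat_lit 0) (nat_lit 1419057294) (nat_lit 456) (nat_lit 352128221) (nat_lit 532) (nat_lit 7632875268) (nat_lit 193) (nat_lit 5) (nat_lit 199) (nat_lit 5) (nat_lit 200) (nat_lit 5) (nat_lit 444) (nat_lit 402) (nat_lit 354)) (XT.lf (nat_lit 0) (nat_lit 4482741039) (nat_lit 532) (nat_lit 1856586837) (nat_lit 76) (nat_lit 3203228573) (nat_lit 193) (nat_lit 5) (nat_lit 200) (nat_lit 5) (nat_lit 194) (nat_lit 5) (nat_lit 445) (nat_lit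 402) (nat_lit 353)))) (XT.nd (nat_lit 156) (nat_lit 380) (nat_lit 0) (XT.nd (nat_lit 78) (nat_lit 456) (nat_lit 0) (XT.lf (nat_lit 0) (nat_lit 4481038363) (nat_lit 456) (nat_lit 2795135141) (nat_lit 532) (nat_lit 2409026448) (nat_lit 187) (nat_lit 5) (nat_lit 193) (nat_lit 5) (nat_lit 194) (nat_lit 5) (nat_lit 446) (nat_lit 402) (nat_lit 352)) (XT.lf (nat_lit 0) (nat_lit 307975934) (nat_lit 456) (nat_lit 8664905220) (nat_lit 76) (nat_lit 859368544) (nat_lit 181) (nat_lit 5) (nat_lit 187) (nat_lit 5) (nat_lit 182) (nat_lit 5) (nat_lit 447) (nat_lit 402) (nat_lit 351))) (XT.nd (nat_lit 78) (nat_lit 380) (nat_lit 0) (XT.lf (nat_lit 0) (nat_lit 3093753009) (nat_lit 456) (nat_lit 2257096486) (nat_lit 76) (nat_lit 4631083501) (nat_lit 181) (nat_lit 5) (nat_lit 187) (nat_lit 5) (nat_lit 182) (nat_lit 5) (nat_lit 448) (nat_lit 402) (nat_lit 350)) (XT.lf (nat_lit 0) (nat_lit 4370372512) (nat_lit 380) (nat_lit 1590991013)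 (nat_lit 456) (nat_lit 4174803349) (nat_lit 176) (nat_lit 5) (nat_lit 181) (nat_lit 5) (nat_lit 182) (nat_lit 5) (nat_lit 449) (nat_lit 402) (nat_lit 349))))))) (XT.nd (nat_lit 1170) (nat_lit 2584) (nat_lit 0) (XT.nd (nat_lit 546) (nat_lit 1596) (nat_lit 0) (XT.nd (nat_lit 234) (nat_lit 1064) (nat_lit 0) (XT.nd (nat_lit 78) (nat_lit 456) (nat_lit 0) (XT.lf (nat_lit 0) (nat_lit 885256103) (nat_lit 380) (nat_lit 8040042477) (nat_lit 456) (nat_lit 1369427959) (nat_lit 171) (nat_lit 5) (nat_lit 176) (nat_lit 5) (nat_lit 177) (nat_lit 5) (nat_lit 450) (nat_lit 402) (nat_lit 348)) (XT.nd (nat_lit 78) (nat_lit 380) (nat_lit 0) (XT.lf (nat_lit 0) (nat_lit 1522107051) (nat_lit 456) (nat_lit 2691943809) (nat_lit 76) (nat_lit 6242611148) (nat_lit 170) (nat_lit 5) (nat_lit 176) (nat_lit 5) (nat_lit 171) (nat_lit 5) (nat_lit 451) (nat_lit 402) (nat_lit 347)) (XT.lf (nat_lit 0) (nat_lit 4239246030) (nat_lit 380) (nat_lit 232726496)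 (nat_lit 456) (nat_lit 6151110004) (nat_lit 165) (nat_lit 5) (nat_lit 170) (nat_lit 5) (nat_lit 171) (nat_lit 5) (nat_lit 452) (nat_lit 402) (nat_lit 346)))) (XT.nd (nat_lit 156) (nat_lit 760) (nat_lit 0) (XT.nd (nat_lit 78) (nat_lit 0) (nat_lit 0) (XT.lf (nat_lit 0) (nat_lit 555711699) (nat_lit 304) (nat_lit 6983477983) (nat_lit 380) (nat_lit 3254447115) (nat_lit 161) (nat_lit 5) (nat_lit 165) (nat_lit 5) (nat_lit 166) (nat_lit 5) (nat_lit 453) (nat_lit 402) (nat_lit 345)) (XT.lf (nat_lit 0) (nat_lit 7774968157) (nat_lit 304) (nat_lit 2949730355) (nat_lit 380) (nat_lit 243827531) (nat_lit 161) (nat_lit 5) (nat_lit 165) (nat_lit 5) (nat_lit 166) (nat_lit 5) (nat_lit 454) (nat_lit 402) (nat_lit 344))) (XT.nd (nat_lit 78) (nat_lit 304) (nat_lit 0) (XT.lf (nat_lit 0) (nat_lit 2812759818) (nat_lit 456) (nat_lit 7102217967) (nat_lit 76) (nat_lit 1232524424) (nat_lit 155) (nat_lit 5) (nat_lit 161) (nat_lit 5) (nat_lit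 156) (nat_lit 5) (nat_lit 455) (nat_lit 402) (nat_lit 343)) (XT.lf (nat_lit 0) (nat_lit 150274258) (nat_lit 304) (nat_lit 5829863315) (nat_lit 380) (nat_lit 5350923905) (nat_lit 151) (nat_lit 5) (nat_lit 155) (nat_lit 5) (nat_lit 156) (nat_lit 5) (nat_lit 456) (nat_lit 402) (nat_lit 342))))) (XT.nd (nat_lit 312) (nat_lit 912) (nat_lit 0) (XT.nd (nat_lit 156) (nat_lit 304) (nat_lit 0) (XT.nd (nat_lit 78) (nat_lit 380) (nat_lit 0) (XT.lf (nat_lit 0) (nat_lit 7709888921) (nat_lit 304) (nat_lit 1565745701) (nat_lit 380) (nat_lit 2243505830) (nat_lit 151) (nat_lit 5) (nat_lit 155) (nat_lit 5) (nat_lit 156) (nat_lit 5) (nat_lit 457) (nat_lit 402) (nat_lit 341)) (XT.lf (nat_lit 0) (nat_lit 964500482) (nat_lit 380) (nat_lit 7947009129) (nat_lit 76) (nat_lit 2800300414) (nat_lit 146) (nat_lit 5) (nat_lit 151) (nat_lit 5) (nat_lit 147) (nat_lit 5) (nat_lit 458) (nat_lit 402) (nat_lit 340))) (XT.nd (nat_lit 78) (nat_lit 304)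 (nat_lit 0) (XT.lf (nat_lit 0) (nat_lit 4240542883) (nat_lit 380) (nat_lit 358625676) (nat_lit 76) (nat_lit 7309923462) (nat_lit 146) (nat_lit 5) (nat_lit 151) (nat_lit 5) (nat_lit 147) (nat_lit 5) (nat_lit 459) (nat_lit 402) (nat_lit 339)) (XT.lf (nat_lit 0) (nat_lit 7550786716) (nat_lit 304) (nat_lit 100292611) (nat_lit 380) (nat_lit 4460131981) (nat_lit 142) (nat_lit 5) (nat_lit 146) (nat_lit 5) (nat_lit 147) (nat_lit 5) (nat_lit 460) (nat_lit 402) (nat_lit 338)))) (XT.nd (nat_lit 156) (nat_lit 532) (nat_lit 0) (XT.nd (nat_lit 78) (nat_lit 76) (nat_lit 0) (XT.lf (nat_lit 0) (nat_lit 3353014680) (nat_lit 304) (nat_lit 7854391284) (nat_lit 380) (nat_lit 1110689048) (nat_lit 138) (nat_lit 5) (nat_lit 142) (nat_lit 5) (nat_lit 143) (nat_lit 5) (nat_lit 461) (nat_lit 402) (nat_lit 337)) (XT.lf (nat_lit 0) (nat_lit 2305272004) (nat_lit 380) (nat_lit 1010929294) (nat_lit 76) (nat_lit 9213963661) (nat_lit 137) (nat_lit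 5) (nat_lit 142) (nat_lit 5) (nat_lit 138) (nat_lit 5) (nat_lit 462) (nat_lit 402) (nat_lit 336))) (XT.nd (nat_lit 78) (nat_lit 304) (nat_lit 0) (XT.lf (nat_lit 0) (nat_lit 5850076643) (nat_lit 304) (nat_lit 5501335766) (nat_lit 76) (nat_lit 1395398664) (nat_lit 134) (nat_lit 5) (nat_lit 138) (nat_lit 5) (nat_lit 135) (nat_lit 5) (nat_lit 463) (nat_lit 402) (nat_lit 335)) (XT.lf (nat_lit 0) (nat_lit 2768450047) (nat_lit 304) (nat_lit 6768089687) (nat_lit 380) (nat_lit 3432361906) (nat_lit 130) (nat_lit 5) (nat_lit 134) (nat_lit 5) (nat_lit 135) (nat_lit 5) (nat_lit 464) (nat_lit 402) (nat_lit 334)))))) (XT.nd (nat_lit 624) (nat_lit 1216) (nat_lit 0) (XT.nd (nat_lit 312) (nat_lit 760) (nat_lit 0) (XT.nd (nat_lit 156) (nat_lit 304) (nat_lit 0) (XT.nd (nat_lit 78) (nat_lit 228) (nat_lit 0) (XT.lf (nat_lit 0) (nat_lit 155106537) (nat_lit 380) (nat_lit 1852190327) (nat_lit 76) (nat_lit 11189668571) (nat_lit 129) (nat_lit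 5) (nat_lit 134) (nat_lit 5) (nat_lit 130) (nat_lit 5) (nat_lit 465) (nat_lit 402) (nat_lit 333)) (XT.lf (nat_lit 0) (nat_lit 3841871110) (nat_lit 304) (nat_lit 6665335757) (nat_lit 76) (nat_lit 2921829106) (nat_lit 126) (nat_lit 5) (nat_lit 130) (nat_lit 5) (nat_lit 127) (nat_lit 5) (nat_lit 466) (nat_lit 402) (nat_lit 332))) (XT.nd (nat_lit 78) (nat_lit 0) (nat_lit 0) (XT.lf (nat_lit 0) (nat_lit 1974813326) (nat_lit 304) (nat_lit 5689181732) (nat_lit 380) (nat_lit 6003334869) (nat_lit 122) (nat_lit 5) (nat_lit 126) (nat_lit 5) (nat_lit 127) (nat_lit 5) (nat_lit 467) (nat_lit 402) (nat_lit 331)) (XT.lf (nat_lit 0) (nat_lit 10959120381) (nat_lit 304) (nat_lit 676443680) (nat_lit 380) (nat_lit 2276169079) (nat_lit 122) (nat_lit 5) (nat_lit 126) (nat_lit 5) (nat_lit 127) (nat_lit 5) (nat_lit 468) (nat_lit 402) (nat_lit 330)))) (XT.nd (nat_lit 156) (nat_lit 228) (nat_lit 0) (XT.nd (nat_lit 78) (nat_lit 228) (nat_lit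 0) (XT.lf (nat_lit 0) (nat_lit 1602760764) (nat_lit 304) (nat_lit 8103155375) (nat_lit 76) (nat_lit 4454991929) (nat_lit 118) (nat_lit 5) (nat_lit 122) (nat_lit 5) (nat_lit 119) (nat_lit 5) (nat_lit 469) (nat_lit 402) (nat_lit 329)) (XT.lf (nat_lit 0) (nat_lit 919627179) (nat_lit 228) (nat_lit 4646700343) (nat_lit 304) (nat_lit 8850137651) (nat_lit 115) (nat_lit 5) (nat_lit 118) (nat_lit 5) (nat_lit 119) (nat_lit 5) (nat_lit 470) (nat_lit 402) (nat_lit 328))) (XT.nd (nat_lit 78) (nat_lit 228) (nat_lit 0) (XT.lf (nat_lit 0) (nat_lit 9705479971) (nat_lit 304) (nat_lit 4355600996) (nat_lit 76) (nat_lit 616911110) (nat_lit 115) (nat_lit 5) (nat_lit 119) (nat_lit 5) (nat_lit 116) (nat_lit 5) (nat_lit 471) (nat_lit 402) (nat_lit 327)) (XT.lf (nat_lit 0) (nat_lit 5062822942) (nat_lit 228) (nat_lit 8970190195) (nat_lit 304) (nat_lit 912428812) (nat_lit 112) (nat_lit 5) (nat_lit 115) (nat_lit 5) (nat_lit 116) (nat_lit 5)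 (nat_lit 472) (nat_lit 402) (nat_lit 326))))) (XT.nd (nat_lit 312) (nat_lit 684) (nat_lit 0) (XT.nd (nat_lit 156) (nat_lit 228) (nat_lit 0) (XT.nd (nat_lit 78) (nat_lit 228) (nat_lit 0) (XT.lf (nat_lit 0) (nat_lit 3219721149) (nat_lit 304) (nat_lit 448330007) (nat_lit 76) (nat_lit 11551502584) (nat_lit 111) (nat_lit 5) (nat_lit 115) (nat_lit 5) (nat_lit 112) (nat_lit 5) (nat_lit 473) (nat_lit 402) (nat_lit 325)) (XT.lf (nat_lit 0) (nat_lit 7536371280) (nat_lit 304) (nat_lit 6123054476) (nat_lit 76) (nat_lit 1839828935) (nat_lit 108) (nat_lit 5) (nat_lit 112) (nat_lit 5) (nat_lit 109) (nat_lit 5) (nat_lit 474) (nat_lit 402) (nat_lit 324))) (XT.nd (nat_lit 78) (nat_lit 76) (nat_lit 0) (XT.lf (nat_lit 0) (nat_lit 3704656492) (nat_lit 152) (nat_lit 8325108521) (nat_lit 228) (nat_lit 3756167307) (nat_lit 106) (nat_lit 5) (nat_lit 108) (nat_lit 5) (nat_lit 109) (nat_lit 5) (nat_lit 475) (nat_lit 402) (nat_lit 323)) (XT.lf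 (nat_lit 0) (nat_lit 598781857) (nat_lit 228) (nat_lit 2181620020) (nat_lit 76) (nat_lit 13299646300) (nat_lit 105) (nat_lit 5) (nat_lit 108) (nat_lit 5) (nat_lit 106) (nat_lit 5) (nat_lit 476) (nat_lit 402) (nat_lit 322)))) (XT.nd (nat_lit 156) (nat_lit 304) (nat_lit 0) (XT.nd (nat_lit 78) (nat_lit 152) (nat_lit 0) (XT.lf (nat_lit 0) (nat_lit 5087451488) (nat_lit 304) (nat_lit 8321251803) (nat_lit 76) (nat_lit 2970814229) (nat_lit 102) (nat_lit 5) (nat_lit 106) (nat_lit 5) (nat_lit 103) (nat_lit 5) (nat_lit 477) (nat_lit 402) (nat_lit 321)) (XT.lf (nat_lit 0) (nat_lit 1924980468) (nat_lit 152) (nat_lit 7825964665) (nat_lit 228) (nat_lit 6935823533) (nat_lit 100) (nat_lit 5) (nat_lit 102) (nat_lit 5) (nat_lit 103) (nat_lit 5) (nat_lit 478) (nat_lit 402) (nat_lit 320))) (XT.nd (nat_lit 78) (nat_lit 304) (nat_lit 0) (XT.lf (nat_lit 0) (nat_lit 12602048789) (nat_lit 152) (nat_lit 2008571943) (nat_lit 228) (nat_lit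 2390930866) (nat_lit 100) (nat_lit 5) (nat_lit 102) (nat_lit 5) (nat_lit 103) (nat_lit 5) (nat_lit 479) (nat_lit 402) (nat_lit 319)) (XT.lf (nat_lit 0) (nat_lit 2318168100) (nat_lit 304) (nat_lit 11034204494) (nat_lit 76) (nat_lit 3970570815) (nat_lit 96) (nat_lit 5) (nat_lit 100) (nat_lit 5) (nat_lit 97) (nat_lit 5) (nat_lit 480) (nat_lit 402) (nat_lit 318))))))))
noncomputable def xc103 : XT := (XT.nd (nat_lit 2340) (nat_lit 1900) (nat_lit 0) (XT.nd (nat_lit 1170) (nat_lit 1292) (nat_lit 0) (XT.nd (nat_lit 546) (nat_lit 912) (nat_lit 0) (XT.nd (nat_lit 234) (nat_lit 456) (nat_lit 0) (XT.nd (nat_lit 78) (nat_lit 380) (nat_lit 0) (XT.lf (nat_lit 0) (nat_lit 7158195047) (nat_lit 304) (nat_lit 355301570) (nat_lit 76) (nat_lit 10138641215) (nat_lit 96) (nat_lit 5) (nat_lit 100) (nat_lit 5) (nat_lit 97) (nat_lit 5) (nat_lit 481) (nat_lit 402) (nat_lit 317)) (XT.nd (nat_lit 78) (nat_lit 228) (nat_lit 0) (XT.lf (nat_lit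 0) (nat_lit 10809788410) (nat_lit 152) (nat_lit 1411289630) (nat_lit 228) (nat_lit 5767802670) (nat_lit 94) (nat_lit 5) (nat_lit 96) (nat_lit 5) (nat_lit 97) (nat_lit 5) (nat_lit 482) (nat_lit 402) (nat_lit 316)) (XT.lf (nat_lit 0) (nat_lit 3966739200) (nat_lit 228) (nat_lit 13531614040) (nat_lit 304) (nat_lit 835499676) (nat_lit 91) (nat_lit 5) (nat_lit 94) (nat_lit 5) (nat_lit 95) (nat_lit 5) (nat_lit 483) (nat_lit 402) (nat_lit 315)))) (XT.nd (nat_lit 156) (nat_lit 228) (nat_lit 0) (XT.nd (nat_lit 78) (nat_lit 152) (nat_lit 0) (XT.lf (nat_lit 0) (nat_lit 4223099196) (nat_lit 304) (nat_lit 3193735068) (nat_lit 76) (nat_lit 11269283280) (nat_lit 90) (nat_lit 5) (nat_lit 94) (nat_lit 5) (nat_lit 91) (nat_lit 5) (nat_lit 484) (nat_lit 402) (nat_lit 314)) (XT.lf (nat_lit 0) (nat_lit 8426983029) (nat_lit 152) (nat_lit 1045415602) (nat_lit 228) (nat_lit 9574633277) (nat_lit 88) (nat_lit 5) (nat_lit 90) (nat_lit 5)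 (nat_lit 91) (nat_lit 5) (nat_lit 485) (nat_lit 402) (nat_lit 313))) (XT.nd (nat_lit 78) (nat_lit 76) (nat_lit 0) (XT.lf (nat_lit 0) (nat_lit 965297782) (nat_lit 152) (nat_lit 13983629937) (nat_lit 228) (nat_lit 4467755429) (nat_lit 86) (nat_lit 5) (nat_lit 88) (nat_lit 5) (nat_lit 89) (nat_lit 5) (nat_lit 486) (nat_lit 402) (nat_lit 312)) (XT.lf (nat_lit 0) (nat_lit 870453329) (nat_lit 228) (nat_lit 6741567842) (nat_lit 76) (nat_lit 12182368544) (nat_lit 85) (nat_lit 5) (nat_lit 88) (nat_lit 5) (nat_lit 86) (nat_lit 5) (nat_lit 487) (nat_lit 402) (nat_lit 311))))) (XT.nd (nat_lit 312) (nat_lit 380) (nat_lit 0) (XT.nd (nat_lit 156) (nat_lit 380) (nat_lit 0) (XT.nd (nat_lit 78) (nat_lit 0) (nat_lit 0) (XT.lf (nat_lit 0) (nat_lit 5336493899) (nat_lit 152) (nat_lit 969476427) (nat_lit 228) (nat_lit 13875323112) (nat_lit 83) (nat_lit 5) (nat_lit 85) (nat_lit 5) (nat_lit 86) (nat_lit 5) (nat_lit 488) (nat_lit 402) (nat_lit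 310)) (XT.lf (nat_lit 0) (nat_lit 12005536172) (nat_lit 228) (nat_lit 2762864949) (nat_lit 76) (nat_lit 5808375398) (nat_lit 83) (nat_lit 5) (nat_lit 86) (nat_lit 5) (nat_lit 84) (nat_lit 5) (nat_lit 489) (nat_lit 402) (nat_lit 309))) (XT.nd (nat_lit 78) (nat_lit 228) (nat_lit 0) (XT.lf (nat_lit 0) (nat_lit 9821768135) (nat_lit 152) (nat_lit 8134821920) (nat_lit 228) (nat_lit 3025120702) (nat_lit 81) (nat_lit 5) (nat_lit 83) (nat_lit 5) (nat_lit 84) (nat_lit 5) (nat_lit 490) (nat_lit 402) (nat_lit 308)) (XT.lf (nat_lit 0) (nat_lit 1401991856) (nat_lit 152) (nat_lit 1251147335) (nat_lit 228) (nat_lit 18744334531) (nat_lit 78) (nat_lit 5) (nat_lit 80) (nat_lit 5) (nat_lit 81) (nat_lit 5) (nat_lit 491) (nat_lit 402) (nat_lit 307)))) (XT.nd (nat_lit 156) (nat_lit 228) (nat_lit 0) (XT.nd (nat_lit 78) (nat_lit 152) (nat_lit 0) (XT.lf (nat_lit 0) (nat_lit 8587535976) (nat_lit 228) (nat_lit 7381959886) (nat_lit 76) (nat_lit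 5850918984) (nat_lit 78) (nat_lit 5) (nat_lit 81) (nat_lit 5) (nat_lit 79) (nat_lit 5) (nat_lit 492) (nat_lit 402) (nat_lit 306)) (XT.lf (nat_lit 0) (nat_lit 5667407118) (nat_lit 152) (nat_lit 9076757036) (nat_lit 228) (nat_lit 7510555571) (nat_lit 76) (nat_lit 5) (nat_lit 78) (nat_lit 5) (nat_lit 79) (nat_lit 5) (nat_lit 493) (nat_lit 402) (nat_lit 305))) (XT.nd (nat_lit 78) (nat_lit 228) (nat_lit 0) (XT.lf (nat_lit 0) (nat_lit 19219213164) (nat_lit 152) (nat_lit 1918426826) (nat_lit 228) (nat_lit 1562850758) (nat_lit 76) (nat_lit 5) (nat_lit 78) (nat_lit 5) (nat_lit 79) (nat_lit 5) (nat_lit 494) (nat_lit 402) (nat_lit 304)) (XT.lf (nat_lit 0) (nat_lit 4603338943) (nat_lit 228) (nat_lit 13077558742) (nat_lit 76) (nat_lit 5473549648) (nat_lit 73) (nat_lit 5) (nat_lit 76) (nat_lit 5) (nat_lit 74) (nat_lit 5) (nat_lit 495) (nat_lit 402) (nat_lit 303)))))) (XT.nd (nat_lit 546) (nat_lit 608) (nat_lit 0) (XT.nd (nat_lit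 234) (nat_lit 380) (nat_lit 0) (XT.nd (nat_lit 78) (nat_lit 152) (nat_lit 0) (XT.lf (nat_lit 0) (nat_lit 425967815) (nat_lit 152) (nat_lit 10533860750) (nat_lit 228) (nat_lit 12660629395) (nat_lit 71) (nat_lit 5) (nat_lit 73) (nat_lit 5) (nat_lit 74) (nat_lit 5) (nat_lit 496) (nat_lit 402) (nat_lit 302)) (XT.nd (nat_lit 78) (nat_lit 152) (nat_lit 0) (XT.lf (nat_lit 0) (nat_lit 14563344006) (nat_lit 152) (nat_lit 3054120179) (nat_lit 228) (nat_lit 6479672481) (nat_lit 71) (nat_lit 5) (nat_lit 73) (nat_lit 5) (nat_lit 74) (nat_lit 5) (nat_lit 497) (nat_lit 402) (nat_lit 301)) (XT.lf (nat_lit 0) (nat_lit 4542005059) (nat_lit 152) (nat_lit 20000040595) (nat_lit 228) (nat_lit 44054837) (nat_lit 69) (nat_lit 5) (nat_lit 71) (nat_lit 5) (nat_lit 72) (nat_lit 4) (nat_lit 498) (nat_lit 402) (nat_lit 300)))) (XT.nd (nat_lit 156) (nat_lit 152) (nat_lit 0) (XT.nd (nat_lit 78) (nat_lit 152) (nat_lit 0) (XT.lf (nat_lit 0) (nat_lit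 6562503374) (nat_lit 228) (nat_lit 5984517479) (nat_lit 76) (nat_lit 12537623846) (nat_lit 68) (nat_lit 5) (nat_lit 71) (nat_lit 5) (nat_lit 69) (nat_lit 5) (nat_lit 499) (nat_lit 402) (nat_lit 299)) (XT.lf (nat_lit 0) (nat_lit 8627191213) (nat_lit 152) (nat_lit 4801623436) (nat_lit 228) (nat_lit 12167445399) (nat_lit 66) (nat_lit 5) (nat_lit 68) (nat_lit 5) (nat_lit 69) (nat_lit 5) (nat_lit 500) (nat_lit 402) (nat_lit 298))) (XT.nd (nat_lit 78) (nat_lit 152) (nat_lit 0) (XT.lf (nat_lit 0) (nat_lit 20572264601) (nat_lit 228) (nat_lit 2390257610) (nat_lit 76) (nat_lit 3158568287) (nat_lit 66) (nat_lit 5) (nat_lit 69) (nat_lit 5) (nat_lit 67) (nat_lit 4) (nat_lit 501) (nat_lit 402) (nat_lit 297)) (XT.lf (nat_lit 0) (nat_lit 1395775503) (nat_lit 152) (nat_lit 13879395303) (nat_lit 76) (nat_lit 11381565145) (nat_lit 64) (nat_lit 5) (nat_lit 66) (nat_lit 5) (nat_lit 65) (nat_lit 5) (nat_lit 502) (nat_lit 402) (nat_lit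 296))))) (XT.nd (nat_lit 312) (nat_lit 304) (nat_lit 0) (XT.nd (nat_lit 156) (nat_lit 152) (nat_lit 0) (XT.nd (nat_lit 78) (nat_lit 0) (nat_lit 0) (XT.lf (nat_lit 0) (nat_lit 1172351811) (nat_lit 152) (nat_lit 7280699496) (nat_lit 228) (nat_lit 18753276451) (nat_lit 62) (nat_lit 5) (nat_lit 64) (nat_lit 5) (nat_lit 65) (nat_lit 5) (nat_lit 503) (nat_lit 402) (nat_lit 295)) (XT.lf (nat_lit 0) (nat_lit 15853039102) (nat_lit 228) (nat_lit 10855245647) (nat_lit 76) (nat_lit 1060193755) (nat_lit 62) (nat_lit 5) (nat_lit 65) (nat_lit 5) (nat_lit 63) (nat_lit 4) (nat_lit 504) (nat_lit 402) (nat_lit 294))) (XT.nd (nat_lit 78) (nat_lit 76) (nat_lit 0) (XT.lf (nat_lit 0) (nat_lit 4764139555) (nat_lit 76) (nat_lit 18809627889) (nat_lit 152) (nat_lit 4770765069) (nat_lit 61) (nat_lit 5) (nat_lit 62) (nat_lit 5) (nat_lit 63) (nat_lit 4) (nat_lit 505) (nat_lit 402) (nat_lit 293)) (XT.lf (nat_lit 0) (nat_lit 2629334901) (nat_lit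 152) (nat_lit 7921535344) (nat_lit 76) (nat_lit 18383504667) (nat_lit 60) (nat_lit 5) (nat_lit 62) (nat_lit 5) (nat_lit 61) (nat_lit 5) (nat_lit 506) (nat_lit 402) (nat_lit 292)))) (XT.nd (nat_lit 156) (nat_lit 152) (nat_lit 0) (XT.nd (nat_lit 78) (nat_lit 0) (nat_lit 0) (XT.lf (nat_lit 0) (nat_lit 8286980213) (nat_lit 152) (nat_lit 1929675612) (nat_lit 228) (nat_lit 19322007417) (nat_lit 58) (nat_lit 5) (nat_lit 60) (nat_lit 5) (nat_lit 61) (nat_lit 5) (nat_lit 507) (nat_lit 402) (nat_lit 291)) (XT.lf (nat_lit 0) (nat_lit 18160693987) (nat_lit 228) (nat_lit 5116787246) (nat_lit 76) (nat_lit 6879726920) (nat_lit 58) (nat_lit 5) (nat_lit 61) (nat_lit 5) (nat_lit 59) (nat_lit 4) (nat_lit 508) (nat_lit 402) (nat_lit 290))) (XT.nd (nat_lit 78) (nat_lit 76) (nat_lit 0) (XT.lf (nat_lit 0) (nat_lit 11677283941) (nat_lit 76) (nat_lit 14779167448) (nat_lit 152) (nat_lit 4334456912) (nat_lit 57) (nat_lit 5) (nat_lit 58)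 (nat_lit 5) (nat_lit 59) (nat_lit 4) (nat_lit 509) (nat_lit 402) (nat_lit 289)) (XT.lf (nat_lit 0) (nat_lit 3522293776) (nat_lit 152) (nat_lit 2430370620) (nat_lit 76) (nat_lit 25488902430) (nat_lit 56) (nat_lit 5) (nat_lit 58) (nat_lit 5) (nat_lit 57) (nat_lit 5) (nat_lit 510) (nat_lit 402) (nat_lit 288))))))) (XT.nd (nat_lit 1170) (nat_lit 836) (nat_lit 0) (XT.nd (nat_lit 546) (nat_lit 532) (nat_lit 0) (XT.nd (nat_lit 234) (nat_lit 304) (nat_lit 0) (XT.nd (nat_lit 78) (nat_lit 76) (nat_lit 0) (XT.lf (nat_lit 0) (nat_lit 11685993655) (nat_lit 228) (nat_lit 17168634132) (nat_lit 76) (nat_lit 3251079674) (nat_lit 54) (nat_lit 5) (nat_lit 57) (nat_lit 5) (nat_lit 55) (nat_lit 4) (nat_lit 511) (nat_lit 402) (nat_lit 287)) (XT.nd (nat_lit 78) (nat_lit 76) (nat_lit 0) (XT.lf (nat_lit 0) (nat_lit 20160968921) (nat_lit 228) (nat_lit 5585808) (nat_lit 76) (nat_lit 12621227393) (nat_lit 54) (nat_lit 5) (nat_lit 57) (nat_lit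 5) (nat_lit 55) (nat_lit 4) (nat_lit 512) (nat_lit 402) (nat_lit 286)) (XT.lf (nat_lit 0) (nat_lit 17991659037) (nat_lit 76) (nat_lit 11054628961) (nat_lit 152) (nat_lit 4439348910) (nat_lit 53) (nat_lit 5) (nat_lit 54) (nat_lit 5) (nat_lit 55) (nat_lit 4) (nat_lit 513) (nat_lit 402) (nat_lit 285)))) (XT.nd (nat_lit 156) (nat_lit 76) (nat_lit 0) (XT.nd (nat_lit 78) (nat_lit 0) (nat_lit 0) (XT.lf (nat_lit 0) (nat_lit 2299183538) (nat_lit 152) (nat_lit 1621952081) (nat_lit 228) (nat_lit 30281980831) (nat_lit 50) (nat_lit 5) (nat_lit 52) (nat_lit 5) (nat_lit 53) (nat_lit 5) (nat_lit 514) (nat_lit 402) (nat_lit 284)) (XT.lf (nat_lit 0) (nat_lit 12662232896) (nat_lit 228) (nat_lit 14148826663) (nat_lit 76) (nat_lit 8123172117) (nat_lit 50) (nat_lit 5) (nat_lit 53) (nat_lit 5) (nat_lit 51) (nat_lit 4) (nat_lit 515) (nat_lit 402) (nat_lit 283))) (XT.nd (nat_lit 78) (nat_lit 0) (nat_lit 0) (XT.lf (nat_lit 0) (nat_lit 4173392833)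 (nat_lit 76) (nat_lit 17532050464) (nat_lit 152) (nat_lit 13980641296) (nat_lit 49) (nat_lit 5) (nat_lit 50) (nat_lit 5) (nat_lit 51) (nat_lit 4) (nat_lit 516) (nat_lit 402) (nat_lit 282)) (XT.lf (nat_lit 0) (nat_lit 23304700182) (nat_lit 76) (nat_lit 7842009644) (nat_lit 152) (nat_lit 5309981097) (nat_lit 49) (nat_lit 5) (nat_lit 50) (nat_lit 5) (nat_lit 51) (nat_lit 4) (nat_lit 517) (nat_lit 402) (nat_lit 281))))) (XT.nd (nat_lit 312) (nat_lit 228) (nat_lit 0) (XT.nd (nat_lit 156) (nat_lit 76) (nat_lit 0) (XT.nd (nat_lit 78) (nat_lit 0) (nat_lit 0) (XT.lf (nat_lit 0) (nat_lit 3611491962) (nat_lit 228) (nat_lit 31461468088) (nat_lit 76) (nat_lit 2174571382) (nat_lit 46) (nat_lit 5) (nat_lit 49) (nat_lit 5) (nat_lit 47) (nat_lit 4) (nat_lit 518) (nat_lit 402) (nat_lit 280)) (XT.lf (nat_lit 0) (nat_lit 12889888681) (nat_lit 228) (nat_lit 12657861920) (nat_lit 76) (nat_lit 12506889754) (nat_lit 46) (nat_lit 5) (nat_lit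 49) (nat_lit 5) (nat_lit 47) (nat_lit 4) (nat_lit 519) (nat_lit 402) (nat_lit 279))) (XT.nd (nat_lit 78) (nat_lit 0) (nat_lit 0) (XT.lf (nat_lit 0) (nat_lit 6813608197) (nat_lit 76) (nat_lit 15683221703) (nat_lit 152) (nat_lit 16387627422) (nat_lit 45) (nat_lit 5) (nat_lit 46) (nat_lit 5) (nat_lit 47) (nat_lit 4) (nat_lit 520) (nat_lit 402) (nat_lit 278)) (XT.lf (nat_lit 0) (nat_lit 27099780204) (nat_lit 76) (nat_lit 5404882554) (nat_lit 152) (nat_lit 7231126072) (nat_lit 45) (nat_lit 5) (nat_lit 46) (nat_lit 5) (nat_lit 47) (nat_lit 4) (nat_lit 521) (nat_lit 402) (nat_lit 277)))) (XT.nd (nat_lit 156) (nat_lit 76) (nat_lit 0) (XT.nd (nat_lit 78) (nat_lit 0) (nat_lit 0) (XT.lf (nat_lit 0) (nat_lit 2264785349) (nat_lit 152) (nat_lit 33182629437) (nat_lit 76) (nat_lit 5161382159) (nat_lit 43) (nat_lit 5) (nat_lit 45) (nat_lit 5) (nat_lit 44) (nat_lit 4) (nat_lit 522) (nat_lit 402) (nat_lit 276)) (XT.lf (nat_lit 0)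 (nat_lit 12067803573) (nat_lit 152) (nat_lit 13309708410) (nat_lit 76) (nat_lit 16123308914) (nat_lit 43) (nat_lit 5) (nat_lit 45) (nat_lit 5) (nat_lit 44) (nat_lit 4) (nat_lit 523) (nat_lit 402) (nat_lit 275))) (XT.nd (nat_lit 78) (nat_lit 0) (nat_lit 0) (XT.lf (nat_lit 0) (nat_lit 7273761375) (nat_lit 76) (nat_lit 14946694092) (nat_lit 152) (nat_lit 20197484281) (nat_lit 42) (nat_lit 5) (nat_lit 43) (nat_lit 5) (nat_lit 44) (nat_lit 4) (nat_lit 524) (nat_lit 402) (nat_lit 274)) (XT.lf (nat_lit 0) (nat_lit 28720265429) (nat_lit 76) (nat_lit 4077602988) (nat_lit 152) (nat_lit 10561098766) (nat_lit 42) (nat_lit 5) (nat_lit 43) (nat_lit 5) (nat_lit 44) (nat_lit 4) (nat_lit 525) (nat_lit 402) (nat_lit 273)))))) (XT.nd (nat_lit 624) (nat_lit 380) (nat_lit 0) (XT.nd (nat_lit 312) (nat_lit 228) (nat_lit 0) (XT.nd (nat_lit 156) (nat_lit 76) (nat_lit 0) (XT.nd (nat_lit 78) (nat_lit 76) (nat_lit 0) (XT.lf (nat_lit 0) (nat_lit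 6513826020) (nat_lit 76) (nat_lit 37295882573) (nat_lit 76) (nat_lit 515004152) (nat_lit 41) (nat_lit 4) (nat_lit 42) (nat_lit 5) (nat_lit 42) (nat_lit 4) (nat_lit 526) (nat_lit 402) (nat_lit 272)) (XT.lf (nat_lit 0) (nat_lit 9816349735) (nat_lit 152) (nat_lit 16877156563) (nat_lit 76) (nat_lit 18617817021) (nat_lit 40) (nat_lit 5) (nat_lit 42) (nat_lit 5) (nat_lit 41) (nat_lit 4) (nat_lit 527) (nat_lit 402) (nat_lit 271))) (XT.nd (nat_lit 78) (nat_lit 0) (nat_lit 0) (XT.lf (nat_lit 0) (nat_lit 4746062746) (nat_lit 76) (nat_lit 15733343088) (nat_lit 152) (nat_lit 25847010438) (nat_lit 39) (nat_lit 5) (nat_lit 40) (nat_lit 5) (nat_lit 41) (nat_lit 4) (nat_lit 528) (nat_lit 402) (nat_lit 270)) (XT.lf (nat_lit 0) (nat_lit 27338162574) (nat_lit 76) (nat_lit 4281253491) (nat_lit 152) (nat_lit 15747834472) (nat_lit 39) (nat_lit 5) (nat_lit 40) (nat_lit 5) (nat_lit 41) (nat_lit 4) (nat_lit 529) (nat_lit 402) (nat_lit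 269)))) (XT.nd (nat_lit 156) (nat_lit 76) (nat_lit 0) (XT.nd (nat_lit 78) (nat_lit 76) (nat_lit 0) (XT.lf (nat_lit 0) (nat_lit 2112399034) (nat_lit 76) (nat_lit 41060675848) (nat_lit 76) (nat_lit 5263851886) (nat_lit 38) (nat_lit 4) (nat_lit 39) (nat_lit 5) (nat_lit 39) (nat_lit 4) (nat_lit 530) (nat_lit 402) (nat_lit 268)) (XT.lf (nat_lit 0) (nat_lit 5660216343) (nat_lit 152) (nat_lit 24326828579) (nat_lit 76) (nat_lit 19543045642) (nat_lit 37) (nat_lit 5) (nat_lit 39) (nat_lit 5) (nat_lit 38) (nat_lit 4) (nat_lit 531) (nat_lit 402) (nat_lit 267))) (XT.nd (nat_lit 78) (nat_lit 76) (nat_lit 0) (XT.lf (nat_lit 0) (nat_lit 16793510781) (nat_lit 152) (nat_lit 1745895040) (nat_lit 76) (nat_lit 32115461215) (nat_lit 37) (nat_lit 5) (nat_lit 39) (nat_lit 5) (nat_lit 38) (nat_lit 4) (nat_lit 532) (nat_lit 402) (nat_lit 266)) (XT.lf (nat_lit 0) (nat_lit 21916268497) (nat_lit 76) (nat_lit 6542880341) (nat_lit 152) (nat_lit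 23348287964) (nat_lit 36) (nat_lit 5) (nat_lit 37) (nat_lit 5) (nat_lit 38) (nat_lit 4) (nat_lit 533) (nat_lit 402) (nat_lit 265))))) (XT.nd (nat_lit 312) (nat_lit 152) (nat_lit 0) (XT.nd (nat_lit 156) (nat_lit 152) (nat_lit 0) (XT.nd (nat_lit 78) (nat_lit 76) (nat_lit 0) (XT.lf (nat_lit 0) (nat_lit 40536138242) (nat_lit 152) (nat_lit 6749912244) (nat_lit 0) (nat_lit 5706692043) (nat_lit 36) (nat_lit 5) (nat_lit 38) (nat_lit 4) (nat_lit 36) (nat_lit 4) (nat_lit 534) (nat_lit 402) (nat_lit 264)) (XT.lf (nat_lit 0) (nat_lit 17335896288) (nat_lit 76) (nat_lit 35859017916) (nat_lit 76) (nat_lit 1012109241) (nat_lit 35) (nat_lit 4) (nat_lit 36) (nat_lit 5) (nat_lit 36) (nat_lit 4) (nat_lit 535) (nat_lit 402) (nat_lit 263))) (XT.nd (nat_lit 78) (nat_lit 76) (nat_lit 0) (XT.lf (nat_lit 0) (nat_lit 10622345825) (nat_lit 152) (nat_lit 13300500508) (nat_lit 76) (nat_lit 31530072328) (nat_lit 34) (nat_lit 5) (nat_lit 36)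 (nat_lit 5) (nat_lit 35) (nat_lit 4) (nat_lit 536) (nat_lit 402) (nat_lit 262)) (XT.lf (nat_lit 0) (nat_lit 11162520250) (nat_lit 76) (nat_lit 11518683120) (nat_lit 152) (nat_lit 34051815696) (nat_lit 33) (nat_lit 5) (nat_lit 34) (nat_lit 5) (nat_lit 35) (nat_lit 4) (nat_lit 537) (nat_lit 402) (nat_lit 261)))) (XT.nd (nat_lit 156) (nat_lit 76) (nat_lit 0) (XT.nd (nat_lit 78) (nat_lit 76) (nat_lit 0) (XT.lf (nat_lit 0) (nat_lit 35237983515) (nat_lit 152) (nat_lit 21451377084) (nat_lit 0) (nat_lit 1358077466) (nat_lit 33) (nat_lit 5) (nat_lit 35) (nat_lit 4) (nat_lit 33) (nat_lit 4) (nat_lit 538) (nat_lit 402) (nat_lit 260)) (XT.lf (nat_lit 0) (nat_lit 3320173027) (nat_lit 76) (nat_lit 44986022188) (nat_lit 76) (nat_lit 11091052854) (nat_lit 32) (nat_lit 4) (nat_lit 33) (nat_lit 5) (nat_lit 33) (nat_lit 4) (nat_lit 539) (nat_lit 402) (nat_lit 259))) (XT.nd (nat_lit 78) (nat_lit 0) (nat_lit 0) (XT.lf (nat_lit 0) (nat_lit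 1167335378) (nat_lit 152) (nat_lit 31539903063) (nat_lit 76) (nat_lit 28073805810) (nat_lit 31) (nat_lit 5) (nat_lit 33) (nat_lit 5) (nat_lit 32) (nat_lit 4) (nat_lit 540) (nat_lit 402) (nat_lit 258)) (XT.lf (nat_lit 0) (nat_lit 13559657824) (nat_lit 152) (nat_lit 6397687090) (nat_lit 76) (nat_lit 42246042237) (nat_lit 31) (nat_lit 5) (nat_lit 33) (nat_lit 5) (nat_lit 32) (nat_lit 4) (nat_lit 541) (nat_lit 402) (nat_lit 257))))))))
noncomputable def xc104 : XT := (XT.nd (nat_lit 53196) (nat_lit 0) (nat_lit 10640) (XT.nd (nat_lit 52026) (nat_lit 0) (nat_lit 24092) (XT.nd (nat_lit 546) (nat_lit 152) (nat_lit 0) (XT.nd (nat_lit 234) (nat_lit 152) (nat_lit 0) (XT.nd (nat_lit 78) (nat_lit 76) (nat_lit 0) (XT.lf (nat_lit 0) (nat_lit 19865809282) (nat_lit 76) (nat_lit 6638322143) (nat_lit 152) (nat_lit 37158857715) (nat_lit 30) (nat_lit 5) (nat_lit 31) (nat_lit 5) (nat_lit 32) (nat_lit 4) (nat_lit 542) (nat_lit 402) (nat_lit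 256)) (XT.nd (nat_lit 78) (nat_lit 76) (nat_lit 0) (XT.lf (nat_lit 0) (nat_lit 39959677951) (nat_lit 152) (nat_lit 18205439470) (nat_lit 0) (nat_lit 6997579849) (nat_lit 30) (nat_lit 5) (nat_lit 32) (nat_lit 4) (nat_lit 30) (nat_lit 4) (nat_lit 543) (nat_lit 402) (nat_lit 255)) (XT.lf (nat_lit 0) (nat_lit 8228847527) (nat_lit 76) (nat_lit 45724612816) (nat_lit 76) (nat_lit 12749899450) (nat_lit 29) (nat_lit 4) (nat_lit 30) (nat_lit 5) (nat_lit 30) (nat_lit 4) (nat_lit 544) (nat_lit 402) (nat_lit 254)))) (XT.nd (nat_lit 156) (nat_lit 76) (nat_lit 0) (XT.nd (nat_lit 78) (nat_lit 0) (nat_lit 0) (XT.lf (nat_lit 0) (nat_lit 250724481) (nat_lit 152) (nat_lit 32477990497) (nat_lit 76) (nat_lit 35556243001) (nat_lit 28) (nat_lit 5) (nat_lit 30) (nat_lit 5) (nat_lit 29) (nat_lit 4) (nat_lit 545) (nat_lit 402) (nat_lit 253)) (XT.lf (nat_lit 0) (nat_lit 13375155274) (nat_lit 152) (nat_lit 5847287084) (nat_lit 76) (nat_lit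 50688073413) (nat_lit 28) (nat_lit 5) (nat_lit 30) (nat_lit 5) (nat_lit 29) (nat_lit 4) (nat_lit 546) (nat_lit 402) (nat_lit 252))) (XT.nd (nat_lit 78) (nat_lit 0) (nat_lit 0) (XT.lf (nat_lit 0) (nat_lit 21992581836) (nat_lit 76) (nat_lit 5102481651) (nat_lit 152) (nat_lit 44483724682) (nat_lit 27) (nat_lit 5) (nat_lit 28) (nat_lit 5) (nat_lit 29) (nat_lit 4) (nat_lit 547) (nat_lit 402) (nat_lit 251)) (XT.lf (nat_lit 0) (nat_lit 41367304781) (nat_lit 152) (nat_lit 22618088512) (nat_lit 0) (nat_lit 9307493574) (nat_lit 27) (nat_lit 5) (nat_lit 29) (nat_lit 4) (nat_lit 27) (nat_lit 4) (nat_lit 548) (nat_lit 402) (nat_lit 250))))) (XT.nd (nat_lit 51168) (nat_lit 0) (nat_lit 28576) (XT.nd (nat_lit 156) (nat_lit 76) (nat_lit 0) (XT.nd (nat_lit 78) (nat_lit 0) (nat_lit 0) (XT.lf (nat_lit 0) (nat_lit 5191485374) (nat_lit 76) (nat_lit 50967283979) (nat_lit 76) (nat_lit 18896907687) (nat_lit 26) (nat_lit 4) (nat_lit 27)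 (nat_lit 5) (nat_lit 27) (nat_lit 4) (nat_lit 549) (nat_lit 402) (nat_lit 249)) (XT.lf (nat_lit 0) (nat_lit 34280802811) (nat_lit 76) (nat_lit 37332304042) (nat_lit 76) (nat_lit 5251670386) (nat_lit 26) (nat_lit 4) (nat_lit 27) (nat_lit 5) (nat_lit 27) (nat_lit 4) (nat_lit 550) (nat_lit 402) (nat_lit 248))) (XT.nd (nat_lit 50934) (nat_lit 0) (nat_lit 29336) (XT.lf (nat_lit 0) (nat_lit 8622058621) (nat_lit 152) (nat_lit 14587813260) (nat_lit 76) (nat_lit 55516012830) (nat_lit 25) (nat_lit 5) (nat_lit 27) (nat_lit 5) (nat_lit 26) (nat_lit 4) (nat_lit 551) (nat_lit 402) (nat_lit 247)) (XT.lf (nat_lit 0) (nat_lit 1231765351) (nat_lit 0) (nat_lit 1231765351) (nat_lit 228) (nat_lit 776550626) (nat_lit 411) (nat_lit 5) (nat_lit 411) (nat_lit 3) (nat_lit 414) (nat_lit 3) (nat_lit 403) (nat_lit 403) (nat_lit 394)))) (XT.nd (nat_lit 156) (nat_lit 380) (nat_lit 0) (XT.nd (nat_lit 78) (nat_lit 0) (nat_lit 0) (XT.lf (nat_lit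 0) (nat_lit 1194799051) (nat_lit 380) (nat_lit 810724629) (nat_lit 380) (nat_lit 4488993559) (nat_lit 406) (nat_lit 3) (nat_lit 411) (nat_lit 3) (nat_lit 411) (nat_lit 5) (nat_lit 404) (nat_lit 403) (nat_lit 393)) (XT.lf (nat_lit 76) (nat_lit 2469061661) (nat_lit 0) (nat_lit 1441641498) (nat_lit 380) (nat_lit 2600677021) (nat_lit 407) (nat_lit 5) (nat_lit 406) (nat_lit 3) (nat_lit 411) (nat_lit 5) (nat_lit 405) (nat_lit 403) (nat_lit 392))) (XT.nd (nat_lit 78) (nat_lit 0) (nat_lit 0) (XT.lf (nat_lit 0) (nat_lit 78669019) (nat_lit 380) (nat_lit 723147267) (nat_lit 456) (nat_lit 5729836087) (nat_lit 401) (nat_lit 5) (nat_lit 406) (nat_lit 3) (nat_lit 407) (nat_lit 5) (nat_lit 406) (nat_lit 403) (nat_lit 391)) (XT.lf (nat_lit 76) (nat_lit 2666841445) (nat_lit 0) (nat_lit 42554517) (nat_lit 456) (nat_lit 3844705053) (nat_lit 402) (nat_lit 5) (nat_lit 401) (nat_lit 5) (nat_lit 407) (nat_lit 5) (nat_lit 407) (nat_lit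 403) (nat_lit 390)))))) (XT.nd (nat_lit 546) (nat_lit 3040) (nat_lit 0) (XT.nd (nat_lit 234) (nat_lit 1064) (nat_lit 0) (XT.nd (nat_lit 78) (nat_lit 456) (nat_lit 0) (XT.lf (nat_lit 0) (nat_lit 5334057905) (nat_lit 380) (nat_lit 468810848) (nat_lit 456) (nat_lit 776941743) (nat_lit 402) (nat_lit 5) (nat_lit 407) (nat_lit 5) (nat_lit 408) (nat_lit 5) (nat_lit 408) (nat_lit 403) (nat_lit 389)) (XT.nd (nat_lit 78) (nat_lit 0) (nat_lit 0) (XT.lf (nat_lit 0) (nat_lit 1335760096) (nat_lit 456) (nat_lit 3566332250) (nat_lit 532) (nat_lit 1705846236) (nat_lit 396) (nat_lit 5) (nat_lit 402) (nat_lit 5) (nat_lit 403) (nat_lit 5) (nat_lit 409) (nat_lit 403) (nat_lit 388)) (XT.lf (nat_lit 0) (nat_lit 3879196495) (nat_lit 456) (nat_lit 39873013) (nat_lit 532) (nat_lit 2720220044) (nat_lit 396) (nat_lit 5) (nat_lit 402) (nat_lit 5) (nat_lit 403) (nat_lit 5) (nat_lit 410) (nat_lit 403) (nat_lit 387)))) (XT.nd (nat_lit 156) (nat_lit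 532) (nat_lit 0) (XT.nd (nat_lit 78) (nat_lit 532) (nat_lit 0) (XT.lf (nat_lit 76) (nat_lit 3606771136) (nat_lit 0) (nat_lit 2834345810) (nat_lit 532) (nat_lit 232232240) (nat_lit 397) (nat_lit 5) (nat_lit 396) (nat_lit 5) (nat_lit 403) (nat_lit 5) (nat_lit 411) (nat_lit 403) (nat_lit 386)) (XT.lf (nat_lit 76) (nat_lit 586570767) (nat_lit 0) (nat_lit 1653408038) (nat_lit 608) (nat_lit 4470355853) (nat_lit 390) (nat_lit 5) (nat_lit 389) (nat_lit 5) (nat_lit 397) (nat_lit 5) (nat_lit 412) (nat_lit 403) (nat_lit 385))) (XT.nd (nat_lit 78) (nat_lit 532) (nat_lit 0) (XT.lf (nat_lit 76) (nat_lit 4353103631) (nat_lit 0) (nat_lit 370386523) (nat_lit 608) (nat_lit 2026647227) (nat_lit 390) (nat_lit 5) (nat_lit 389) (nat_lit 5) (nat_lit 397) (nat_lit 5) (nat_lit 413) (nat_lit 403) (nat_lit 384)) (XT.lf (nat_lit 0) (nat_lit 416517978) (nat_lit 608) (nat_lit 5395452159) (nat_lit 76) (nat_lit 980980158) (nat_lit 382) (nat_lit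 5) (nat_lit 390) (nat_lit 5) (nat_lit 383) (nat_lit 5) (nat_lit 414) (nat_lit 403) (nat_lit 383))))) (XT.nd (nat_lit 312) (nat_lit 1672) (nat_lit 0) (XT.nd (nat_lit 156) (nat_lit 760) (nat_lit 0) (XT.nd (nat_lit 78) (nat_lit 608) (nat_lit 0) (XT.lf (nat_lit 0) (nat_lit 2835210317) (nat_lit 608) (nat_lit 1564448943) (nat_lit 76) (nat_lit 2438525499) (nat_lit 382) (nat_lit 5) (nat_lit 390) (nat_lit 5) (nat_lit 383) (nat_lit 5) (nat_lit 415) (nat_lit 403) (nat_lit 382)) (XT.lf (nat_lit 0) (nat_lit 2370302891) (nat_lit 608) (nat_lit 2896278915) (nat_lit 684) (nat_lit 1620018187) (nat_lit 374) (nat_lit 5) (nat_lit 382) (nat_lit 5) (nat_lit 383) (nat_lit 5) (nat_lit 416) (nat_lit 403) (nat_lit 381))) (XT.nd (nat_lit 78) (nat_lit 684) (nat_lit 0) (XT.lf (nat_lit 0) (nat_lit 752466992) (nat_lit 684) (nat_lit 547526121) (nat_lit 76) (nat_lit 5638229977) (nat_lit 373) (nat_lit 5) (nat_lit 382) (nat_lit 5) (nat_lit 374) (nat_lit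 5) (nat_lit 417) (nat_lit 403) (nat_lit 380)) (XT.lf (nat_lit 0) (nat_lit 3122326364) (nat_lit 760) (nat_lit 3459856067) (nat_lit 76) (nat_lit 409993416) (nat_lit 364) (nat_lit 5) (nat_lit 374) (nat_lit 5) (nat_lit 365) (nat_lit 5) (nat_lit 418) (nat_lit 403) (nat_lit 379)))) (XT.nd (nat_lit 156) (nat_lit 836) (nat_lit 0) (XT.nd (nat_lit 78) (nat_lit 76) (nat_lit 0) (XT.lf (nat_lit 0) (nat_lit 638932193) (nat_lit 760) (nat_lit 4871663860) (nat_lit 836) (nat_lit 1538755945) (nat_lit 354) (nat_lit 5) (nat_lit 364) (nat_lit 5) (nat_lit 365) (nat_lit 5) (nat_lit 419) (nat_lit 403) (nat_lit 378)) (XT.lf (nat_lit 0) (nat_lit 804365532) (nat_lit 836) (nat_lit 2244001350) (nat_lit 76) (nat_lit 4060883111) (nat_lit 353) (nat_lit 5) (nat_lit 364) (nat_lit 5) (nat_lit 354) (nat_lit 5) (nat_lit 420) (nat_lit 403) (nat_lit 377))) (XT.nd (nat_lit 78) (nat_lit 0) (nat_lit 0) (XT.lf (nat_lit 0) (nat_lit 2013425557) (nat_lit 836)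 (nat_lit 1118643508) (nat_lit 912) (nat_lit 4040084518) (nat_lit 342) (nat_lit 5) (nat_lit 353) (nat_lit 5) (nat_lit 354) (nat_lit 5) (nat_lit 421) (nat_lit 403) (nat_lit 376)) (XT.lf (nat_lit 0) (nat_lit 5488454498) (nat_lit 912) (nat_lit 860078177) (nat_lit 76) (nat_lit 889667626) (nat_lit 342) (nat_lit 5) (nat_lit 354) (nat_lit 5) (nat_lit 343) (nat_lit 5) (nat_lit 422) (nat_lit 403) (nat_lit 375))))))) (XT.nd (nat_lit 1170) (nat_lit 4712) (nat_lit 0) (XT.nd (nat_lit 546) (nat_lit 3268) (nat_lit 0) (XT.nd (nat_lit 234) (nat_lit 3496) (nat_lit 0) (XT.nd (nat_lit 78) (nat_lit 988) (nat_lit 0) (XT.lf (nat_lit 0) (nat_lit 572241555) (nat_lit 988) (nat_lit 3744595727) (nat_lit 76) (nat_lit 2989990887) (nat_lit 329) (nat_lit 5) (nat_lit 342) (nat_lit 5) (nat_lit 330) (nat_lit 5) (nat_lit 423) (nat_lit 403) (nat_lit 374)) (XT.nd (nat_lit 78) (nat_lit 0) (nat_lit 0) (XT.lf (nat_lit 0) (nat_lit 694834770) (nat_lit 988)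 (nat_lit 2179850838) (nat_lit 1064) (nat_lit 4503950297) (nat_lit 316) (nat_lit 5) (nat_lit 329) (nat_lit 5) (nat_lit 330) (nat_lit 5) (nat_lit 424) (nat_lit 403) (nat_lit 373)) (XT.lf (nat_lit 0) (nat_lit 5216666020) (nat_lit 1064) (nat_lit 2168311467) (nat_lit 76) (nat_lit 68525635) (nat_lit 316) (nat_lit 5) (nat_lit 330) (nat_lit 5) (nat_lit 317) (nat_lit 5) (nat_lit 425) (nat_lit 403) (nat_lit 372)))) (XT.nd (nat_lit 156) (nat_lit 2356) (nat_lit 0) (XT.nd (nat_lit 78) (nat_lit 0) (nat_lit 0) (XT.lf (nat_lit 0) (nat_lit 75332121) (nat_lit 1140) (nat_lit 5081842988) (nat_lit 76) (nat_lit 2374062126) (nat_lit 301) (nat_lit 5) (nat_lit 316) (nat_lit 5) (nat_lit 302) (nat_lit 5) (nat_lit 426) (nat_lit 403) (nat_lit 371)) (XT.lf (nat_lit 0) (nat_lit 2368775367) (nat_lit 1140) (nat_lit 442387774) (nat_lit 76) (nat_lit 4800787324) (nat_lit 301) (nat_lit 5) (nat_lit 316) (nat_lit 5) (nat_lit 302) (nat_lit 5) (nat_lit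 427) (nat_lit 403) (nat_lit 370))) (XT.nd (nat_lit 78) (nat_lit 1216) (nat_lit 0) (XT.lf (nat_lit 0) (nat_lit 4363676931) (nat_lit 1140) (nat_lit 345946333) (nat_lit 1216) (nat_lit 2986120793) (nat_lit 286) (nat_lit 5) (nat_lit 301) (nat_lit 5) (nat_lit 302) (nat_lit 5) (nat_lit 428) (nat_lit 403) (nat_lit 369)) (XT.lf (nat_lit 0) (nat_lit 1489937545) (nat_lit 1216) (nat_lit 5608672940) (nat_lit 1292) (nat_lit 684120064) (nat_lit 270) (nat_lit 5) (nat_lit 286) (nat_lit 5) (nat_lit 287) (nat_lit 5) (nat_lit 429) (nat_lit 403) (nat_lit 368))))) (XT.nd (nat_lit 312) (nat_lit 1748) (nat_lit 0) (XT.nd (nat_lit 156) (nat_lit 684) (nat_lit 0) (XT.nd (nat_lit 78) (nat_lit 760) (nat_lit 0) (XT.lf (nat_lit 0) (nat_lit 1630051892) (nat_lit 1292) (nat_lit 1426127108) (nat_lit 76) (nat_lit 4816395839) (nat_lit 269) (nat_lit 5) (nat_lit 286) (nat_lit 5) (nat_lit 270) (nat_lit 5) (nat_lit 430) (nat_lit 403) (nat_lit 367)) (XT.lf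 (nat_lit 0) (nat_lit 3591853257) (nat_lit 760) (nat_lit 382984160) (nat_lit 836) (nat_lit 3990840789) (nat_lit 259) (nat_lit 5) (nat_lit 269) (nat_lit 5) (nat_lit 270) (nat_lit 5) (nat_lit 431) (nat_lit 403) (nat_lit 366))) (XT.nd (nat_lit 78) (nat_lit 76) (nat_lit 0) (XT.lf (nat_lit 0) (nat_lit 659189834) (nat_lit 608) (nat_lit 5716046976) (nat_lit 684) (nat_lit 1686794422) (nat_lit 251) (nat_lit 5) (nat_lit 259) (nat_lit 5) (nat_lit 260) (nat_lit 5) (nat_lit 432) (nat_lit 403) (nat_lit 365)) (XT.lf (nat_lit 0) (nat_lit 663536680) (nat_lit 684) (nat_lit 2297716722) (nat_lit 76) (nat_lit 5200120632) (nat_lit 250) (nat_lit 5) (nat_lit 259) (nat_lit 5) (nat_lit 251) (nat_lit 5) (nat_lit 433) (nat_lit 403) (nat_lit 364)))) (XT.nd (nat_lit 156) (nat_lit 1140) (nat_lit 0) (XT.nd (nat_lit 78) (nat_lit 0) (nat_lit 0) (XT.lf (nat_lit 0) (nat_lit 2943241568) (nat_lit 608) (nat_lit 79370815) (nat_lit 684) (nat_lit 5241433007)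 (nat_lit 242) (nat_lit 5) (nat_lit 250) (nat_lit 5) (nat_lit 251) (nat_lit 5) (nat_lit 434) (nat_lit 403) (nat_lit 363)) (XT.lf (nat_lit 0) (nat_lit 5448568201) (nat_lit 684) (nat_lit 67696816) (nat_lit 76) (nat_lit 2853661667) (nat_lit 242) (nat_lit 5) (nat_lit 251) (nat_lit 5) (nat_lit 243) (nat_lit 5) (nat_lit 435) (nat_lit 403) (nat_lit 362))) (XT.nd (nat_lit 78) (nat_lit 608) (nat_lit 0) (XT.lf (nat_lit 0) (nat_lit 5389992519) (nat_lit 532) (nat_lit 2556417786) (nat_lit 608) (nat_lit 532613538) (nat_lit 235) (nat_lit 5) (nat_lit 242) (nat_lit 5) (nat_lit 243) (nat_lit 5) (nat_lit 436) (nat_lit 403) (nat_lit 361)) (XT.lf (nat_lit 0) (nat_lit 1865948174) (nat_lit 608) (nat_lit 6205180914) (nat_lit 76) (nat_lit 520447643) (nat_lit 227) (nat_lit 5) (nat_lit 235) (nat_lit 5) (nat_lit 228) (nat_lit 5) (nat_lit 437) (nat_lit 403) (nat_lit 360)))))) (XT.nd (nat_lit 546) (nat_lit 2584) (nat_lit 0) (XT.nd (nat_lit 234)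 (nat_lit 988) (nat_lit 0) (XT.nd (nat_lit 78) (nat_lit 1140) (nat_lit 0) (XT.lf (nat_lit 0) (nat_lit 4330506247) (nat_lit 608) (nat_lit 706916413) (nat_lit 76) (nat_lit 3669794588) (nat_lit 227) (nat_lit 5) (nat_lit 235) (nat_lit 5) (nat_lit 228) (nat_lit 5) (nat_lit 438) (nat_lit 403) (nat_lit 359)) (XT.nd (nat_lit 78) (nat_lit 608) (nat_lit 0) (XT.lf (nat_lit 0) (nat_lit 4996652516) (nat_lit 532) (nat_lit 1869827430) (nat_lit 608) (nat_lit 1959933912) (nat_lit 220) (nat_lit 5) (nat_lit 227) (nat_lit 5) (nat_lit 228) (nat_lit 5) (nat_lit 439) (nat_lit 403) (nat_lit 358)) (XT.lf (nat_lit 0) (nat_lit 508094368) (nat_lit 608) (nat_lit 7052008551) (nat_lit 76) (nat_lit 1389269072) (nat_lit 212) (nat_lit 5) (nat_lit 220) (nat_lit 5) (nat_lit 213) (nat_lit 5) (nat_lit 440) (nat_lit 403) (nat_lit 357)))) (XT.nd (nat_lit 156) (nat_lit 532) (nat_lit 0) (XT.nd (nat_lit 78) (nat_lit 456) (nat_lit 0) (XT.lf (nat_lit 0) (nat_lit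 3019050956) (nat_lit 608) (nat_lit 1296792744) (nat_lit 76) (nat_lit 4759354893) (nat_lit 212) (nat_lit 5) (nat_lit 220) (nat_lit 5) (nat_lit 213) (nat_lit 5) (nat_lit 441) (nat_lit 403) (nat_lit 356)) (XT.lf (nat_lit 0) (nat_lit 4665378996) (nat_lit 456) (nat_lit 936950387) (nat_lit 532) (nat_lit 3602570803) (nat_lit 206) (nat_lit 5) (nat_lit 212) (nat_lit 5) (nat_lit 213) (nat_lit 5) (nat_lit 442) (nat_lit 403) (nat_lit 355))) (XT.nd (nat_lit 78) (nat_lit 76) (nat_lit 0) (XT.lf (nat_lit 0) (nat_lit 1440924985) (nat_lit 456) (nat_lit 6826616916) (nat_lit 532) (nat_lit 1070827553) (nat_lit 200) (nat_lit 5) (nat_lit 206) (nat_lit 5) (nat_lit 207) (nat_lit 5) (nat_lit 443) (nat_lit 403) (nat_lit 354)) (XT.lf (nat_lit 0) (nat_lit 1515717906) (nat_lit 532) (nat_lit 1863020586) (nat_lit 76) (nat_lit 6096405058) (nat_lit 199) (nat_lit 5) (nat_lit 206) (nat_lit 5) (nat_lit 200) (nat_lit 5) (nat_lit 444) (nat_lit 403)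 (nat_lit 353))))) (XT.nd (nat_lit 312) (nat_lit 1216) (nat_lit 0) (XT.nd (nat_lit 156) (nat_lit 456) (nat_lit 0) (XT.nd (nat_lit 78) (nat_lit 456) (nat_lit 0) (XT.lf (nat_lit 0) (nat_lit 4157058868) (nat_lit 532) (nat_lit 5246965095) (nat_lit 76) (nat_lit 211726063) (nat_lit 193) (nat_lit 5) (nat_lit 200) (nat_lit 5) (nat_lit 194) (nat_lit 5) (nat_lit 445) (nat_lit 403) (nat_lit 352)) (XT.lf (nat_lit 0) (nat_lit 994601565) (nat_lit 456) (nat_lit 5900361263) (nat_lit 532) (nat_lit 2865100800) (nat_lit 187) (nat_lit 5) (nat_lit 193) (nat_lit 5) (nat_lit 194) (nat_lit 5) (nat_lit 446) (nat_lit 403) (nat_lit 351))) (XT.nd (nat_lit 78) (nat_lit 456) (nat_lit 0) (XT.lf (nat_lit 0) (nat_lit 7474638658) (nat_lit 456) (nat_lit 2249419512) (nat_lit 532) (nat_lit 184385206) (nat_lit 187) (nat_lit 5) (nat_lit 193) (nat_lit 5) (nat_lit 194) (nat_lit 5) (nat_lit 447) (nat_lit 403) (nat_lit 350)) (XT.lf (nat_lit 0) (nat_lit 2537718012)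 (nat_lit 456) (nat_lit 5988461556) (nat_lit 76) (nat_lit 1534022320) (nat_lit 181) (nat_lit 5) (nat_lit 187) (nat_lit 5) (nat_lit 182) (nat_lit 5) (nat_lit 448) (nat_lit 403) (nat_lit 349)))) (XT.nd (nat_lit 156) (nat_lit 836) (nat_lit 0) (XT.nd (nat_lit 78) (nat_lit 0) (nat_lit 0) (XT.lf (nat_lit 0) (nat_lit 536525028) (nat_lit 380) (nat_lit 4811025939) (nat_lit 456) (nat_lit 4868621898) (nat_lit 176) (nat_lit 5) (nat_lit 181) (nat_lit 5) (nat_lit 182) (nat_lit 5) (nat_lit 449) (nat_lit 403) (nat_lit 348)) (XT.lf (nat_lit 0) (nat_lit 7324398907) (nat_lit 380) (nat_lit 935977968) (nat_lit 456) (nat_lit 2115892589) (nat_lit 176) (nat_lit 5) (nat_lit 181) (nat_lit 5) (nat_lit 182) (nat_lit 5) (nat_lit 450) (nat_lit 403) (nat_lit 347))) (XT.nd (nat_lit 78) (nat_lit 380) (nat_lit 0) (XT.lf (nat_lit 0) (nat_lit 730481765) (nat_lit 456) (nat_lit 6783872352) (nat_lit 76) (nat_lit 3025861338) (nat_lit 170) (nat_lit 5)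 (nat_lit 176) (nat_lit 5) (nat_lit 171) (nat_lit 5) (nat_lit 451) (nat_lit 403) (nat_lit 346)) (XT.lf (nat_lit 0) (nat_lit 38063452) (nat_lit 380) (nat_lit 3581983785) (nat_lit 456) (nat_lit 7088401091) (nat_lit 165) (nat_lit 5) (nat_lit 170) (nat_lit 5) (nat_lit 171) (nat_lit 5) (nat_lit 452) (nat_lit 403) (nat_lit 345))))))))
noncomputable def xc105 : XT := (XT.nd (nat_lit 2340) (nat_lit 3116) (nat_lit 0) (XT.nd (nat_lit 1170) (nat_lit 2432) (nat_lit 0) (XT.nd (nat_lit 546) (nat_lit 1520) (nat_lit 0) (XT.nd (nat_lit 234) (nat_lit 1064) (nat_lit 0) (XT.nd (nat_lit 78) (nat_lit 380) (nat_lit 0) (XT.lf (nat_lit 0) (nat_lit 6630061000) (nat_lit 456) (nat_lit 3737011812) (nat_lit 76) (nat_lit 513649138) (nat_lit 165) (nat_lit 5) (nat_lit 171) (nat_lit 5) (nat_lit 166) (nat_lit 5) (nat_lit 453) (nat_lit 403) (nat_lit 344)) (XT.nd (nat_lit 78) (nat_lit 76) (nat_lit 0) (XT.lf (nat_lit 0) (nat_lit 3380614340) (nat_lit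 304) (nat_lit 6378962481) (nat_lit 380) (nat_lit 1297717324) (nat_lit 161) (nat_lit 5) (nat_lit 165) (nat_lit 5) (nat_lit 166) (nat_lit 5) (nat_lit 454) (nat_lit 403) (nat_lit 343)) (XT.lf (nat_lit 0) (nat_lit 1709365305) (nat_lit 380) (nat_lit 521285196) (nat_lit 76) (nat_lit 9008028804) (nat_lit 160) (nat_lit 5) (nat_lit 165) (nat_lit 5) (nat_lit 161) (nat_lit 5) (nat_lit 455) (nat_lit 403) (nat_lit 342)))) (XT.nd (nat_lit 156) (nat_lit 380) (nat_lit 0) (XT.nd (nat_lit 78) (nat_lit 304) (nat_lit 0) (XT.lf (nat_lit 0) (nat_lit 4829935400) (nat_lit 456) (nat_lit 4526507232) (nat_lit 76) (nat_lit 2067203061) (nat_lit 155) (nat_lit 5) (nat_lit 161) (nat_lit 5) (nat_lit 156) (nat_lit 5) (nat_lit 456) (nat_lit 403) (nat_lit 341)) (XT.lf (nat_lit 0) (nat_lit 2916218806) (nat_lit 304) (nat_lit 5146365361) (nat_lit 380) (nat_lit 3551028755) (nat_lit 151) (nat_lit 5) (nat_lit 155) (nat_lit 5) (nat_lit 156) (nat_lit 5)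 (nat_lit 457) (nat_lit 403) (nat_lit 340))) (XT.nd (nat_lit 78) (nat_lit 380) (nat_lit 0) (XT.lf (nat_lit 0) (nat_lit 10622191725) (nat_lit 304) (nat_lit 779325981) (nat_lit 380) (nat_lit 407487833) (nat_lit 151) (nat_lit 5) (nat_lit 155) (nat_lit 5) (nat_lit 156) (nat_lit 5) (nat_lit 458) (nat_lit 403) (nat_lit 339)) (XT.lf (nat_lit 0) (nat_lit 2839347872) (nat_lit 380) (nat_lit 5446465350) (nat_lit 76) (nat_lit 3721709142) (nat_lit 146) (nat_lit 5) (nat_lit 151) (nat_lit 5) (nat_lit 147) (nat_lit 5) (nat_lit 459) (nat_lit 403) (nat_lit 338))))) (XT.nd (nat_lit 312) (nat_lit 608) (nat_lit 0) (XT.nd (nat_lit 156) (nat_lit 608) (nat_lit 0) (XT.nd (nat_lit 78) (nat_lit 0) (nat_lit 0) (XT.lf (nat_lit 0) (nat_lit 2335365640) (nat_lit 304) (nat_lit 3846990429) (nat_lit 380) (nat_lit 6029313921) (nat_lit 142) (nat_lit 5) (nat_lit 146) (nat_lit 5) (nat_lit 147) (nat_lit 5) (nat_lit 460) (nat_lit 403) (nat_lit 337)) (XT.lf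 (nat_lit 0) (nat_lit 9653221497) (nat_lit 380) (nat_lit 2018271089) (nat_lit 76) (nat_lit 749627366) (nat_lit 142) (nat_lit 5) (nat_lit 147) (nat_lit 5) (nat_lit 143) (nat_lit 5) (nat_lit 461) (nat_lit 403) (nat_lit 336))) (XT.nd (nat_lit 78) (nat_lit 228) (nat_lit 0) (XT.lf (nat_lit 0) (nat_lit 643287167) (nat_lit 380) (nat_lit 6535955703) (nat_lit 76) (nat_lit 5455540620) (nat_lit 137) (nat_lit 5) (nat_lit 142) (nat_lit 5) (nat_lit 138) (nat_lit 5) (nat_lit 462) (nat_lit 403) (nat_lit 335)) (XT.lf (nat_lit 0) (nat_lit 1598755962) (nat_lit 228) (nat_lit 2504608574) (nat_lit 304) (nat_lit 8750609102) (nat_lit 134) (nat_lit 5) (nat_lit 137) (nat_lit 5) (nat_lit 138) (nat_lit 5) (nat_lit 463) (nat_lit 403) (nat_lit 334)))) (XT.nd (nat_lit 156) (nat_lit 304) (nat_lit 0) (XT.nd (nat_lit 78) (nat_lit 304) (nat_lit 0) (XT.lf (nat_lit 0) (nat_lit 7722667968) (nat_lit 304) (nat_lit 3040861473) (nat_lit 76) (nat_lit 2314551704)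 (nat_lit 134) (nat_lit 5) (nat_lit 138) (nat_lit 5) (nat_lit 135) (nat_lit 5) (nat_lit 464) (nat_lit 403) (nat_lit 333)) (XT.lf (nat_lit 0) (nat_lit 5451277578) (nat_lit 304) (nat_lit 6044008215) (nat_lit 380) (nat_lit 1812288264) (nat_lit 130) (nat_lit 5) (nat_lit 134) (nat_lit 5) (nat_lit 135) (nat_lit 5) (nat_lit 465) (nat_lit 403) (nat_lit 332))) (XT.nd (nat_lit 78) (nat_lit 0) (nat_lit 0) (XT.lf (nat_lit 0) (nat_lit 662061917) (nat_lit 228) (nat_lit 1144277198) (nat_lit 304) (nat_lit 11736935115) (nat_lit 126) (nat_lit 5) (nat_lit 129) (nat_lit 5) (nat_lit 130) (nat_lit 5) (nat_lit 466) (nat_lit 403) (nat_lit 331)) (XT.lf (nat_lit 0) (nat_lit 5582702767) (nat_lit 304) (nat_lit 4293560493) (nat_lit 76) (nat_lit 3906679645) (nat_lit 126) (nat_lit 5) (nat_lit 130) (nat_lit 5) (nat_lit 127) (nat_lit 5) (nat_lit 467) (nat_lit 403) (nat_lit 330)))))) (XT.nd (nat_lit 546) (nat_lit 1064) (nat_lit 0) (XT.nd (nat_lit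 234) (nat_lit 760) (nat_lit 0) (XT.nd (nat_lit 78) (nat_lit 304) (nat_lit 0) (XT.lf (nat_lit 0) (nat_lit 4580579970) (nat_lit 304) (nat_lit 4916042333) (nat_lit 380) (nat_lit 4532455154) (nat_lit 122) (nat_lit 5) (nat_lit 126) (nat_lit 5) (nat_lit 127) (nat_lit 5) (nat_lit 468) (nat_lit 403) (nat_lit 329)) (XT.nd (nat_lit 78) (nat_lit 304) (nat_lit 0) (XT.lf (nat_lit 0) (nat_lit 13542768393) (nat_lit 380) (nat_lit 524083886) (nat_lit 76) (nat_lit 215303153) (nat_lit 122) (nat_lit 5) (nat_lit 127) (nat_lit 5) (nat_lit 123) (nat_lit 5) (nat_lit 469) (nat_lit 403) (nat_lit 328)) (XT.lf (nat_lit 0) (nat_lit 3209451148) (nat_lit 304) (nat_lit 5829257832) (nat_lit 76) (nat_lit 5500093178) (nat_lit 118) (nat_lit 5) (nat_lit 122) (nat_lit 5) (nat_lit 119) (nat_lit 5) (nat_lit 470) (nat_lit 403) (nat_lit 327)))) (XT.nd (nat_lit 156) (nat_lit 532) (nat_lit 0) (XT.nd (nat_lit 78) (nat_lit 0) (nat_lit 0) (XT.lf (nat_lit 0)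 (nat_lit 3439531805) (nat_lit 228) (nat_lit 3830954431) (nat_lit 304) (nat_lit 7532187995) (nat_lit 115) (nat_lit 5) (nat_lit 118) (nat_lit 5) (nat_lit 119) (nat_lit 5) (nat_lit 471) (nat_lit 403) (nat_lit 326)) (XT.lf (nat_lit 0) (nat_lit 11497955384) (nat_lit 304) (nat_lit 2030522180) (nat_lit 76) (nat_lit 1544650060) (nat_lit 115) (nat_lit 5) (nat_lit 119) (nat_lit 5) (nat_lit 116) (nat_lit 5) (nat_lit 472) (nat_lit 403) (nat_lit 325))) (XT.nd (nat_lit 78) (nat_lit 228) (nat_lit 0) (XT.lf (nat_lit 0) (nat_lit 574315366) (nat_lit 304) (nat_lit 7708468396) (nat_lit 76) (nat_lit 7066263701) (nat_lit 111) (nat_lit 5) (nat_lit 115) (nat_lit 5) (nat_lit 112) (nat_lit 5) (nat_lit 473) (nat_lit 403) (nat_lit 324)) (XT.lf (nat_lit 0) (nat_lit 1966491713) (nat_lit 228) (nat_lit 2820935966) (nat_lit 304) (nat_lit 10844428334) (nat_lit 108) (nat_lit 5) (nat_lit 111) (nat_lit 5) (nat_lit 112) (nat_lit 5) (nat_lit 474) (nat_lit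 403) (nat_lit 323))))) (XT.nd (nat_lit 312) (nat_lit 608) (nat_lit 0) (XT.nd (nat_lit 156) (nat_lit 304) (nat_lit 0) (XT.nd (nat_lit 78) (nat_lit 152) (nat_lit 0) (XT.lf (nat_lit 0) (nat_lit 9204101011) (nat_lit 304) (nat_lit 3906128145) (nat_lit 76) (nat_lit 2810607520) (nat_lit 108) (nat_lit 5) (nat_lit 112) (nat_lit 5) (nat_lit 109) (nat_lit 5) (nat_lit 475) (nat_lit 403) (nat_lit 322)) (XT.lf (nat_lit 0) (nat_lit 6192878681) (nat_lit 152) (nat_lit 7620278372) (nat_lit 228) (nat_lit 2403536033) (nat_lit 106) (nat_lit 5) (nat_lit 108) (nat_lit 5) (nat_lit 109) (nat_lit 5) (nat_lit 476) (nat_lit 403) (nat_lit 321))) (XT.nd (nat_lit 78) (nat_lit 0) (nat_lit 0) (XT.lf (nat_lit 0) (nat_lit 90438074) (nat_lit 228) (nat_lit 1922052987) (nat_lit 304) (nat_lit 14507952123) (nat_lit 102) (nat_lit 5) (nat_lit 105) (nat_lit 5) (nat_lit 106) (nat_lit 5) (nat_lit 477) (nat_lit 403) (nat_lit 320)) (XT.lf (nat_lit 0) (nat_lit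 6625557300) (nat_lit 304) (nat_lit 6225623137) (nat_lit 76) (nat_lit 3978027979) (nat_lit 102) (nat_lit 5) (nat_lit 106) (nat_lit 5) (nat_lit 103) (nat_lit 5) (nat_lit 478) (nat_lit 403) (nat_lit 319)))) (XT.nd (nat_lit 156) (nat_lit 456) (nat_lit 0) (XT.nd (nat_lit 78) (nat_lit 0) (nat_lit 0) (XT.lf (nat_lit 0) (nat_lit 4305003297) (nat_lit 152) (nat_lit 7105921718) (nat_lit 228) (nat_lit 5735296796) (nat_lit 100) (nat_lit 5) (nat_lit 102) (nat_lit 5) (nat_lit 103) (nat_lit 5) (nat_lit 479) (nat_lit 403) (nat_lit 318)) (XT.lf (nat_lit 0) (nat_lit 15234744635) (nat_lit 152) (nat_lit 1141817561) (nat_lit 228) (nat_lit 1095084575) (nat_lit 100) (nat_lit 5) (nat_lit 102) (nat_lit 5) (nat_lit 103) (nat_lit 5) (nat_lit 480) (nat_lit 403) (nat_lit 317))) (XT.nd (nat_lit 78) (nat_lit 152) (nat_lit 0) (XT.lf (nat_lit 0) (nat_lit 3720254493) (nat_lit 304) (nat_lit 9075328617) (nat_lit 76) (nat_lit 5006956714) (nat_lit 96)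 (nat_lit 5) (nat_lit 100) (nat_lit 5) (nat_lit 97) (nat_lit 5) (nat_lit 481) (nat_lit 403) (nat_lit 316)) (XT.lf (nat_lit 0) (nat_lit 1894208040) (nat_lit 152) (nat_lit 6790670611) (nat_lit 228) (nat_lit 9457352906) (nat_lit 94) (nat_lit 5) (nat_lit 96) (nat_lit 5) (nat_lit 97) (nat_lit 5) (nat_lit 482) (nat_lit 403) (nat_lit 315))))))) (XT.nd (nat_lit 1170) (nat_lit 1368) (nat_lit 0) (XT.nd (nat_lit 546) (nat_lit 912) (nat_lit 0) (XT.nd (nat_lit 234) (nat_lit 532) (nat_lit 0) (XT.nd (nat_lit 78) (nat_lit 304) (nat_lit 0) (XT.lf (nat_lit 0) (nat_lit 13335491763) (nat_lit 152) (nat_lit 529427941) (nat_lit 228) (nat_lit 4625202140) (nat_lit 94) (nat_lit 5) (nat_lit 96) (nat_lit 5) (nat_lit 97) (nat_lit 5) (nat_lit 483) (nat_lit 403) (nat_lit 314)) (XT.nd (nat_lit 78) (nat_lit 0) (nat_lit 0) (XT.lf (nat_lit 0) (nat_lit 438774072) (nat_lit 304) (nat_lit 12555147982) (nat_lit 76) (nat_lit 5851615486) (nat_lit 90) (nat_lit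 5) (nat_lit 94) (nat_lit 5) (nat_lit 91) (nat_lit 5) (nat_lit 484) (nat_lit 403) (nat_lit 313)) (XT.lf (nat_lit 0) (nat_lit 5594982485) (nat_lit 304) (nat_lit 1119928798) (nat_lit 76) (nat_lit 12494334319) (nat_lit 90) (nat_lit 5) (nat_lit 94) (nat_lit 5) (nat_lit 91) (nat_lit 5) (nat_lit 485) (nat_lit 403) (nat_lit 312)))) (XT.nd (nat_lit 156) (nat_lit 228) (nat_lit 0) (XT.nd (nat_lit 78) (nat_lit 152) (nat_lit 0) (XT.lf (nat_lit 0) (nat_lit 10828140073) (nat_lit 152) (nat_lit 158004381) (nat_lit 228) (nat_lit 8595314342) (nat_lit 88) (nat_lit 5) (nat_lit 90) (nat_lit 5) (nat_lit 91) (nat_lit 5) (nat_lit 486) (nat_lit 403) (nat_lit 311)) (XT.lf (nat_lit 0) (nat_lit 3149418289) (nat_lit 152) (nat_lit 13471029604) (nat_lit 228) (nat_lit 3341950148) (nat_lit 86) (nat_lit 5) (nat_lit 88) (nat_lit 5) (nat_lit 89) (nat_lit 5) (nat_lit 487) (nat_lit 403) (nat_lit 310))) (XT.nd (nat_lit 78) (nat_lit 152) (nat_lit 0) (XT.lf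 (nat_lit 0) (nat_lit 2095842627) (nat_lit 228) (nat_lit 4827468428) (nat_lit 76) (nat_lit 13428843447) (nat_lit 85) (nat_lit 5) (nat_lit 88) (nat_lit 5) (nat_lit 86) (nat_lit 5) (nat_lit 488) (nat_lit 403) (nat_lit 309)) (XT.lf (nat_lit 0) (nat_lit 7592186671) (nat_lit 152) (nat_lit 87452273) (nat_lit 228) (nat_lit 13071472561) (nat_lit 83) (nat_lit 5) (nat_lit 85) (nat_lit 5) (nat_lit 86) (nat_lit 5) (nat_lit 489) (nat_lit 403) (nat_lit 308))))) (XT.nd (nat_lit 312) (nat_lit 532) (nat_lit 0) (XT.nd (nat_lit 156) (nat_lit 228) (nat_lit 0) (XT.nd (nat_lit 78) (nat_lit 152) (nat_lit 0) (XT.lf (nat_lit 0) (nat_lit 13524195111) (nat_lit 228) (nat_lit 785109578) (nat_lit 76) (nat_lit 6849936796) (nat_lit 83) (nat_lit 5) (nat_lit 86) (nat_lit 5) (nat_lit 84) (nat_lit 5) (nat_lit 490) (nat_lit 403) (nat_lit 307)) (XT.lf (nat_lit 0) (nat_lit 12156860134) (nat_lit 152) (nat_lit 7482791914) (nat_lit 228) (nat_lit 1937097992)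 (nat_lit 81) (nat_lit 5) (nat_lit 83) (nat_lit 5) (nat_lit 84) (nat_lit 5) (nat_lit 491) (nat_lit 403) (nat_lit 306))) (XT.nd (nat_lit 78) (nat_lit 0) (nat_lit 0) (XT.lf (nat_lit 0) (nat_lit 3487340900) (nat_lit 152) (nat_lit 387144647) (nat_lit 228) (nat_lit 18130583365) (nat_lit 78) (nat_lit 5) (nat_lit 80) (nat_lit 5) (nat_lit 81) (nat_lit 5) (nat_lit 492) (nat_lit 403) (nat_lit 305)) (XT.lf (nat_lit 0) (nat_lit 9962073033) (nat_lit 228) (nat_lit 5594727242) (nat_lit 76) (nat_lit 6884645458) (nat_lit 78) (nat_lit 5) (nat_lit 81) (nat_lit 5) (nat_lit 79) (nat_lit 5) (nat_lit 493) (nat_lit 403) (nat_lit 304)))) (XT.nd (nat_lit 156) (nat_lit 380) (nat_lit 0) (XT.nd (nat_lit 78) (nat_lit 0) (nat_lit 0) (XT.lf (nat_lit 0) (nat_lit 7826427719) (nat_lit 152) (nat_lit 8463560419) (nat_lit 228) (nat_lit 6599196140) (nat_lit 76) (nat_lit 5) (nat_lit 78) (nat_lit 5) (nat_lit 79) (nat_lit 5) (nat_lit 494) (nat_lit 403)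 (nat_lit 303)) (XT.lf (nat_lit 0) (nat_lit 21726855954) (nat_lit 152) (nat_lit 1116271546) (nat_lit 228) (nat_lit 506167253) (nat_lit 76) (nat_lit 5) (nat_lit 78) (nat_lit 5) (nat_lit 79) (nat_lit 5) (nat_lit 495) (nat_lit 403) (nat_lit 302))) (XT.nd (nat_lit 78) (nat_lit 152) (nat_lit 0) (XT.lf (nat_lit 0) (nat_lit 5818853527) (nat_lit 228) (nat_lit 11512530615) (nat_lit 76) (nat_lit 6485308226) (nat_lit 73) (nat_lit 5) (nat_lit 76) (nat_lit 5) (nat_lit 74) (nat_lit 5) (nat_lit 496) (nat_lit 403) (nat_lit 301)) (XT.lf (nat_lit 0) (nat_lit 2376911985) (nat_lit 152) (nat_lit 9976375679) (nat_lit 228) (nat_lit 11943780077) (nat_lit 71) (nat_lit 5) (nat_lit 73) (nat_lit 5) (nat_lit 74) (nat_lit 5) (nat_lit 497) (nat_lit 403) (nat_lit 300)))))) (XT.nd (nat_lit 624) (nat_lit 684) (nat_lit 0) (XT.nd (nat_lit 312) (nat_lit 304) (nat_lit 0) (XT.nd (nat_lit 156) (nat_lit 152) (nat_lit 0) (XT.nd (nat_lit 78) (nat_lit 228)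 (nat_lit 0) (XT.lf (nat_lit 0) (nat_lit 16881958050) (nat_lit 152) (nat_lit 2297684665) (nat_lit 228) (nat_lit 5609336247) (nat_lit 71) (nat_lit 5) (nat_lit 73) (nat_lit 5) (nat_lit 74) (nat_lit 5) (nat_lit 498) (nat_lit 403) (nat_lit 299)) (XT.lf (nat_lit 0) (nat_lit 995353921) (nat_lit 228) (nat_lit 18738267972) (nat_lit 76) (nat_lit 5558820754) (nat_lit 68) (nat_lit 5) (nat_lit 71) (nat_lit 5) (nat_lit 69) (nat_lit 5) (nat_lit 499) (nat_lit 403) (nat_lit 298))) (XT.nd (nat_lit 78) (nat_lit 152) (nat_lit 0) (XT.lf (nat_lit 0) (nat_lit 7768936675) (nat_lit 228) (nat_lit 4312874229) (nat_lit 76) (nat_lit 13725029500) (nat_lit 68) (nat_lit 5) (nat_lit 71) (nat_lit 5) (nat_lit 69) (nat_lit 5) (nat_lit 500) (nat_lit 403) (nat_lit 297)) (XT.lf (nat_lit 0) (nat_lit 10719036913) (nat_lit 152) (nat_lit 4110415974) (nat_lit 228) (nat_lit 11504706516) (nat_lit 66) (nat_lit 5) (nat_lit 68) (nat_lit 5) (nat_lit 69) (nat_lit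 5) (nat_lit 501) (nat_lit 403) (nat_lit 296)))) (XT.nd (nat_lit 156) (nat_lit 152) (nat_lit 0) (XT.nd (nat_lit 78) (nat_lit 152) (nat_lit 0) (XT.lf (nat_lit 0) (nat_lit 22165940103) (nat_lit 228) (nat_lit 661004740) (nat_lit 76) (nat_lit 4048429519) (nat_lit 66) (nat_lit 5) (nat_lit 69) (nat_lit 5) (nat_lit 67) (nat_lit 4) (nat_lit 502) (nat_lit 403) (nat_lit 295)) (XT.lf (nat_lit 0) (nat_lit 2412464134) (nat_lit 152) (nat_lit 12493021756) (nat_lit 76) (nat_lit 12521657132) (nat_lit 64) (nat_lit 5) (nat_lit 66) (nat_lit 5) (nat_lit 65) (nat_lit 5) (nat_lit 503) (nat_lit 403) (nat_lit 294))) (XT.nd (nat_lit 78) (nat_lit 0) (nat_lit 0) (XT.lf (nat_lit 0) (nat_lit 2992603699) (nat_lit 152) (nat_lit 6677621127) (nat_lit 228) (nat_lit 18323336232) (nat_lit 62) (nat_lit 5) (nat_lit 64) (nat_lit 5) (nat_lit 65) (nat_lit 5) (nat_lit 504) (nat_lit 403) (nat_lit 293)) (XT.lf (nat_lit 0) (nat_lit 17271813512) (nat_lit 228)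 (nat_lit 9427367955) (nat_lit 76) (nat_lit 1874008250) (nat_lit 62) (nat_lit 5) (nat_lit 65) (nat_lit 5) (nat_lit 63) (nat_lit 4) (nat_lit 505) (nat_lit 403) (nat_lit 292))))) (XT.nd (nat_lit 312) (nat_lit 380) (nat_lit 0) (XT.nd (nat_lit 156) (nat_lit 152) (nat_lit 0) (XT.nd (nat_lit 78) (nat_lit 76) (nat_lit 0) (XT.lf (nat_lit 0) (nat_lit 6643407282) (nat_lit 76) (nat_lit 18569975861) (nat_lit 152) (nat_lit 3953467007) (nat_lit 61) (nat_lit 5) (nat_lit 62) (nat_lit 5) (nat_lit 63) (nat_lit 4) (nat_lit 506) (nat_lit 403) (nat_lit 291)) (XT.lf (nat_lit 0) (nat_lit 3622467124) (nat_lit 152) (nat_lit 6455171963) (nat_lit 76) (nat_lit 19697295906) (nat_lit 60) (nat_lit 5) (nat_lit 62) (nat_lit 5) (nat_lit 61) (nat_lit 5) (nat_lit 507) (nat_lit 403) (nat_lit 290))) (XT.nd (nat_lit 78) (nat_lit 0) (nat_lit 0) (XT.lf (nat_lit 0) (nat_lit 10222893085) (nat_lit 152) (nat_lit 1204105278) (nat_lit 228) (nat_lit 18970667158)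 (nat_lit 58) (nat_lit 5) (nat_lit 60) (nat_lit 5) (nat_lit 61) (nat_lit 5) (nat_lit 508) (nat_lit 403) (nat_lit 289)) (XT.lf (nat_lit 0) (nat_lit 19590343901) (nat_lit 228) (nat_lit 3613077289) (nat_lit 76) (nat_lit 7831917235) (nat_lit 58) (nat_lit 5) (nat_lit 61) (nat_lit 5) (nat_lit 59) (nat_lit 4) (nat_lit 509) (nat_lit 403) (nat_lit 288)))) (XT.nd (nat_lit 156) (nat_lit 228) (nat_lit 0) (XT.nd (nat_lit 78) (nat_lit 76) (nat_lit 0) (XT.lf (nat_lit 0) (nat_lit 13668568841) (nat_lit 76) (nat_lit 14456407435) (nat_lit 152) (nat_lit 3563374432) (nat_lit 57) (nat_lit 5) (nat_lit 58) (nat_lit 5) (nat_lit 59) (nat_lit 4) (nat_lit 510) (nat_lit 403) (nat_lit 287)) (XT.lf (nat_lit 0) (nat_lit 4485760808) (nat_lit 152) (nat_lit 893001017) (nat_lit 76) (nat_lit 26980280449) (nat_lit 56) (nat_lit 5) (nat_lit 58) (nat_lit 5) (nat_lit 57) (nat_lit 5) (nat_lit 511) (nat_lit 403) (nat_lit 286))) (XT.nd (nat_lit 78) (nat_lit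 76) (nat_lit 0) (XT.lf (nat_lit 0) (nat_lit 12891888915) (nat_lit 228) (nat_lit 16070893150) (nat_lit 76) (nat_lit 4080400640) (nat_lit 54) (nat_lit 5) (nat_lit 57) (nat_lit 5) (nat_lit 55) (nat_lit 4) (nat_lit 512) (nat_lit 403) (nat_lit 285)) (XT.lf (nat_lit 0) (nat_lit 1591120354) (nat_lit 76) (nat_lit 20020375807) (nat_lit 152) (nat_lit 12134513029) (nat_lit 53) (nat_lit 5) (nat_lit 54) (nat_lit 5) (nat_lit 55) (nat_lit 4) (nat_lit 513) (nat_lit 403) (nat_lit 284))))))))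
noncomputable def xc106 : XT := (XT.nd (nat_lit 2340) (nat_lit 304) (nat_lit 0) (XT.nd (nat_lit 1170) (nat_lit 760) (nat_lit 0) (XT.nd (nat_lit 546) (nat_lit 456) (nat_lit 0) (XT.nd (nat_lit 234) (nat_lit 304) (nat_lit 0) (XT.nd (nat_lit 78) (nat_lit 228) (nat_lit 0) (XT.lf (nat_lit 0) (nat_lit 20081882829) (nat_lit 76) (nat_lit 10656914759) (nat_lit 152) (nat_lit 3726740379) (nat_lit 53) (nat_lit 5) (nat_lit 54) (nat_lit 5) (nat_lit 55) (nat_lit 4) (nat_lit 514) (nat_lit 403) (nat_lit 283)) (XT.nd (nat_lit 78) (nat_lit 0) (nat_lit 0) (XT.lf (nat_lit 0) (nat_lit 3919808011) (nat_lit 152) (nat_lit 939007763) (nat_lit 228) (nat_lit 30345760343) (nat_lit 50) (nat_lit 5) (nat_lit 52) (nat_lit 5) (nat_lit 53) (nat_lit 5) (nat_lit 515) (nat_lit 403) (nat_lit 282)) (XT.lf (nat_lit 0) (nat_lit 13845088913) (nat_lit 228) (nat_lit 13049747600) (nat_lit 76) (nat_lit 9063300944) (nat_lit 50) (nat_lit 5) (nat_lit 53) (nat_lit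 5) (nat_lit 51) (nat_lit 4) (nat_lit 516) (nat_lit 403) (nat_lit 281)))) (XT.nd (nat_lit 156) (nat_lit 228) (nat_lit 0) (XT.nd (nat_lit 78) (nat_lit 0) (nat_lit 0) (XT.lf (nat_lit 0) (nat_lit 5807201776) (nat_lit 76) (nat_lit 17343507475) (nat_lit 152) (nat_lit 13582104219) (nat_lit 49) (nat_lit 5) (nat_lit 50) (nat_lit 5) (nat_lit 51) (nat_lit 4) (nat_lit 517) (nat_lit 403) (nat_lit 280)) (XT.lf (nat_lit 0) (nat_lit 25468508331) (nat_lit 76) (nat_lit 7383576241) (nat_lit 152) (nat_lit 4675148184) (nat_lit 49) (nat_lit 5) (nat_lit 50) (nat_lit 5) (nat_lit 51) (nat_lit 4) (nat_lit 518) (nat_lit 403) (nat_lit 279))) (XT.nd (nat_lit 78) (nat_lit 0) (nat_lit 0) (XT.lf (nat_lit 0) (nat_lit 4496569849) (nat_lit 228) (nat_lit 30923188957) (nat_lit 76) (nat_lit 2921868588) (nat_lit 46) (nat_lit 5) (nat_lit 49) (nat_lit 5) (nat_lit 47) (nat_lit 4) (nat_lit 519) (nat_lit 403) (nat_lit 278)) (XT.lf (nat_lit 0) (nat_lit 14030695175)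 (nat_lit 228) (nat_lit 11598643241) (nat_lit 76) (nat_lit 13544290684) (nat_lit 46) (nat_lit 5) (nat_lit 49) (nat_lit 5) (nat_lit 47) (nat_lit 4) (nat_lit 520) (nat_lit 403) (nat_lit 277))))) (XT.nd (nat_lit 312) (nat_lit 228) (nat_lit 0) (XT.nd (nat_lit 156) (nat_lit 152) (nat_lit 0) (XT.nd (nat_lit 78) (nat_lit 0) (nat_lit 0) (XT.lf (nat_lit 0) (nat_lit 8442863583) (nat_lit 76) (nat_lit 15474713186) (nat_lit 152) (nat_lit 16111012634) (nat_lit 45) (nat_lit 5) (nat_lit 46) (nat_lit 5) (nat_lit 47) (nat_lit 4) (nat_lit 521) (nat_lit 403) (nat_lit 276)) (XT.lf (nat_lit 0) (nat_lit 29296120348) (nat_lit 76) (nat_lit 4907800713) (nat_lit 152) (nat_lit 6702192271) (nat_lit 45) (nat_lit 5) (nat_lit 46) (nat_lit 5) (nat_lit 47) (nat_lit 4) (nat_lit 522) (nat_lit 403) (nat_lit 275))) (XT.nd (nat_lit 78) (nat_lit 0) (nat_lit 0) (XT.lf (nat_lit 0) (nat_lit 3062400527) (nat_lit 152) (nat_lit 32778516611) (nat_lit 76) (nat_lit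 5964229426) (nat_lit 43) (nat_lit 5) (nat_lit 45) (nat_lit 5) (nat_lit 44) (nat_lit 4) (nat_lit 523) (nat_lit 403) (nat_lit 274)) (XT.lf (nat_lit 0) (nat_lit 13138256727) (nat_lit 152) (nat_lit 12350172761) (nat_lit 76) (nat_lit 17236140027) (nat_lit 43) (nat_lit 5) (nat_lit 45) (nat_lit 5) (nat_lit 44) (nat_lit 4) (nat_lit 524) (nat_lit 403) (nat_lit 273)))) (XT.nd (nat_lit 156) (nat_lit 152) (nat_lit 0) (XT.nd (nat_lit 78) (nat_lit 0) (nat_lit 0) (XT.lf (nat_lit 0) (nat_lit 8837479286) (nat_lit 76) (nat_lit 14750309145) (nat_lit 152) (nat_lit 20081645176) (nat_lit 42) (nat_lit 5) (nat_lit 43) (nat_lit 5) (nat_lit 44) (nat_lit 4) (nat_lit 525) (nat_lit 403) (nat_lit 272)) (XT.lf (nat_lit 0) (nat_lit 30888188994) (nat_lit 76) (nat_lit 3573925476) (nat_lit 152) (nat_lit 10177190337) (nat_lit 42) (nat_lit 5) (nat_lit 43) (nat_lit 5) (nat_lit 44) (nat_lit 4) (nat_lit 526) (nat_lit 403) (nat_lit 271))) (XT.nd (nat_lit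 78) (nat_lit 0) (nat_lit 0) (XT.lf (nat_lit 0) (nat_lit 165548313) (nat_lit 152) (nat_lit 37618666524) (nat_lit 76) (nat_lit 7849801892) (nat_lit 40) (nat_lit 5) (nat_lit 42) (nat_lit 5) (nat_lit 41) (nat_lit 4) (nat_lit 527) (nat_lit 403) (nat_lit 270)) (XT.lf (nat_lit 0) (nat_lit 10776521311) (nat_lit 152) (nat_lit 16100512278) (nat_lit 76) (nat_lit 19773638780) (nat_lit 40) (nat_lit 5) (nat_lit 42) (nat_lit 5) (nat_lit 41) (nat_lit 4) (nat_lit 528) (nat_lit 403) (nat_lit 269)))))) (XT.nd (nat_lit 546) (nat_lit 456) (nat_lit 0) (XT.nd (nat_lit 234) (nat_lit 152) (nat_lit 0) (XT.nd (nat_lit 78) (nat_lit 76) (nat_lit 0) (XT.lf (nat_lit 0) (nat_lit 6158825581) (nat_lit 76) (nat_lit 15593466420) (nat_lit 152) (nat_lit 25944142009) (nat_lit 39) (nat_lit 5) (nat_lit 40) (nat_lit 5) (nat_lit 41) (nat_lit 4) (nat_lit 529) (nat_lit 403) (nat_lit 268)) (XT.nd (nat_lit 78) (nat_lit 76) (nat_lit 0) (XT.lf (nat_lit 0) (nat_lit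 29391687018) (nat_lit 76) (nat_lit 3815635794) (nat_lit 152) (nat_lit 15561746455) (nat_lit 39) (nat_lit 5) (nat_lit 40) (nat_lit 5) (nat_lit 41) (nat_lit 4) (nat_lit 530) (nat_lit 403) (nat_lit 267)) (XT.lf (nat_lit 0) (nat_lit 3410414738) (nat_lit 76) (nat_lit 41695967812) (nat_lit 76) (nat_lit 4764490057) (nat_lit 38) (nat_lit 4) (nat_lit 39) (nat_lit 5) (nat_lit 39) (nat_lit 4) (nat_lit 531) (nat_lit 403) (nat_lit 266)))) (XT.nd (nat_lit 156) (nat_lit 76) (nat_lit 0) (XT.nd (nat_lit 78) (nat_lit 0) (nat_lit 0) (XT.lf (nat_lit 0) (nat_lit 6455703937) (nat_lit 152) (nat_lit 23845480479) (nat_lit 76) (nat_lit 20696020991) (nat_lit 37) (nat_lit 5) (nat_lit 39) (nat_lit 5) (nat_lit 38) (nat_lit 4) (nat_lit 532) (nat_lit 403) (nat_lit 265)) (XT.lf (nat_lit 0) (nat_lit 17904773487) (nat_lit 152) (nat_lit 622395234) (nat_lit 76) (nat_lit 33629103673) (nat_lit 37) (nat_lit 5) (nat_lit 39) (nat_lit 5) (nat_lit 38) (nat_lit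 4) (nat_lit 533) (nat_lit 403) (nat_lit 264))) (XT.nd (nat_lit 78) (nat_lit 0) (nat_lit 0) (XT.lf (nat_lit 0) (nat_lit 23738105006) (nat_lit 76) (nat_lit 6175775175) (nat_lit 152) (nat_lit 23429734580) (nat_lit 36) (nat_lit 5) (nat_lit 37) (nat_lit 5) (nat_lit 38) (nat_lit 4) (nat_lit 534) (nat_lit 403) (nat_lit 263)) (XT.lf (nat_lit 0) (nat_lit 42340933596) (nat_lit 152) (nat_lit 5809712586) (nat_lit 0) (nat_lit 6414201326) (nat_lit 36) (nat_lit 5) (nat_lit 38) (nat_lit 4) (nat_lit 36) (nat_lit 4) (nat_lit 535) (nat_lit 403) (nat_lit 262))))) (XT.nd (nat_lit 312) (nat_lit 228) (nat_lit 0) (XT.nd (nat_lit 156) (nat_lit 76) (nat_lit 0) (XT.nd (nat_lit 78) (nat_lit 76) (nat_lit 0) (XT.lf (nat_lit 0) (nat_lit 18987467290) (nat_lit 76) (nat_lit 36385735232) (nat_lit 76) (nat_lit 442542904) (nat_lit 35) (nat_lit 4) (nat_lit 36) (nat_lit 5) (nat_lit 36) (nat_lit 4) (nat_lit 536) (nat_lit 403) (nat_lit 261)) (XT.lf (nat_lit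 0) (nat_lit 11512106323) (nat_lit 152) (nat_lit 12589597130) (nat_lit 76) (nat_lit 32997655458) (nat_lit 34) (nat_lit 5) (nat_lit 36) (nat_lit 5) (nat_lit 35) (nat_lit 4) (nat_lit 537) (nat_lit 403) (nat_lit 260))) (XT.nd (nat_lit 78) (nat_lit 0) (nat_lit 0) (XT.lf (nat_lit 0) (nat_lit 12596432697) (nat_lit 76) (nat_lit 11330227818) (nat_lit 152) (nat_lit 34491384311) (nat_lit 33) (nat_lit 5) (nat_lit 34) (nat_lit 5) (nat_lit 35) (nat_lit 4) (nat_lit 538) (nat_lit 403) (nat_lit 259)) (XT.lf (nat_lit 0) (nat_lit 36848670914) (nat_lit 152) (nat_lit 21016405421) (nat_lit 0) (nat_lit 1907164667) (nat_lit 33) (nat_lit 5) (nat_lit 35) (nat_lit 4) (nat_lit 33) (nat_lit 4) (nat_lit 539) (nat_lit 403) (nat_lit 258)))) (XT.nd (nat_lit 156) (nat_lit 76) (nat_lit 0) (XT.nd (nat_lit 78) (nat_lit 76) (nat_lit 0) (XT.lf (nat_lit 0) (nat_lit 4487717537) (nat_lit 76) (nat_lit 45815354360) (nat_lit 76) (nat_lit 10859649522) (nat_lit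 32) (nat_lit 4) (nat_lit 33) (nat_lit 5) (nat_lit 33) (nat_lit 4) (nat_lit 540) (nat_lit 403) (nat_lit 257)) (XT.lf (nat_lit 0) (nat_lit 1739371568) (nat_lit 152) (nat_lit 31438565592) (nat_lit 76) (nat_lit 29410415336) (nat_lit 31) (nat_lit 5) (nat_lit 33) (nat_lit 5) (nat_lit 32) (nat_lit 4) (nat_lit 541) (nat_lit 403) (nat_lit 256))) (XT.nd (nat_lit 78) (nat_lit 76) (nat_lit 0) (XT.lf (nat_lit 0) (nat_lit 14487822441) (nat_lit 152) (nat_lit 5572593854) (nat_lit 76) (nat_lit 43993418992) (nat_lit 31) (nat_lit 5) (nat_lit 33) (nat_lit 5) (nat_lit 32) (nat_lit 4) (nat_lit 542) (nat_lit 403) (nat_lit 255)) (XT.lf (nat_lit 0) (nat_lit 21468836587) (nat_lit 76) (nat_lit 6346288397) (nat_lit 152) (nat_lit 37742265866) (nat_lit 30) (nat_lit 5) (nat_lit 31) (nat_lit 5) (nat_lit 32) (nat_lit 4) (nat_lit 543) (nat_lit 403) (nat_lit 254))))))) (XT.nd (nat_lit 52104) (nat_lit 0) (nat_lit 20900) (XT.nd (nat_lit 546) (nat_lit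 0) (nat_lit 0) (XT.nd (nat_lit 234) (nat_lit 152) (nat_lit 0) (XT.nd (nat_lit 78) (nat_lit 152) (nat_lit 0) (XT.lf (nat_lit 0) (nat_lit 41663896611) (nat_lit 152) (nat_lit 17763428445) (nat_lit 0) (nat_lit 7675078751) (nat_lit 30) (nat_lit 5) (nat_lit 32) (nat_lit 4) (nat_lit 30) (nat_lit 4) (nat_lit 544) (nat_lit 403) (nat_lit 253)) (XT.nd (nat_lit 78) (nat_lit 76) (nat_lit 0) (XT.lf (nat_lit 0) (nat_lit 9454199179) (nat_lit 76) (nat_lit 46617977891) (nat_lit 76) (nat_lit 12617268935) (nat_lit 29) (nat_lit 4) (nat_lit 30) (nat_lit 5) (nat_lit 30) (nat_lit 4) (nat_lit 545) (nat_lit 403) (nat_lit 252)) (XT.lf (nat_lit 0) (nat_lit 748610784) (nat_lit 152) (nat_lit 32492573816) (nat_lit 76) (nat_lit 37077600629) (nat_lit 28) (nat_lit 5) (nat_lit 30) (nat_lit 5) (nat_lit 29) (nat_lit 4) (nat_lit 546) (nat_lit 403) (nat_lit 251)))) (XT.nd (nat_lit 156) (nat_lit 76) (nat_lit 0) (XT.nd (nat_lit 78) (nat_lit 76) (nat_lit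 0) (XT.lf (nat_lit 0) (nat_lit 14252492037) (nat_lit 152) (nat_lit 5090903371) (nat_lit 76) (nat_lit 52650143128) (nat_lit 28) (nat_lit 5) (nat_lit 30) (nat_lit 5) (nat_lit 29) (nat_lit 4) (nat_lit 547) (nat_lit 403) (nat_lit 250)) (XT.lf (nat_lit 0) (nat_lit 23575026300) (nat_lit 76) (nat_lit 4803973968) (nat_lit 152) (nat_lit 45333009055) (nat_lit 27) (nat_lit 5) (nat_lit 28) (nat_lit 5) (nat_lit 29) (nat_lit 4) (nat_lit 548) (nat_lit 403) (nat_lit 249))) (XT.nd (nat_lit 78) (nat_lit 76) (nat_lit 0) (XT.lf (nat_lit 0) (nat_lit 43069902332) (nat_lit 152) (nat_lit 22391321830) (nat_lit 0) (nat_lit 10016592303) (nat_lit 27) (nat_lit 5) (nat_lit 29) (nat_lit 4) (nat_lit 27) (nat_lit 4) (nat_lit 549) (nat_lit 403) (nat_lit 248)) (XT.lf (nat_lit 0) (nat_lit 6243663690) (nat_lit 76) (nat_lit 52056620189) (nat_lit 76) (nat_lit 18993351554) (nat_lit 26) (nat_lit 4) (nat_lit 27) (nat_lit 5) (nat_lit 27) (nat_lit 4) (nat_lit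 550) (nat_lit 403) (nat_lit 247))))) (XT.nd (nat_lit 51246) (nat_lit 0) (nat_lit 28044) (XT.nd (nat_lit 51090) (nat_lit 0) (nat_lit 28500) (XT.nd (nat_lit 51012) (nat_lit 0) (nat_lit 28880) (XT.lf (nat_lit 0) (nat_lit 36179550929) (nat_lit 76) (nat_lit 38025397135) (nat_lit 76) (nat_lit 4952459951) (nat_lit 26) (nat_lit 4) (nat_lit 27) (nat_lit 5) (nat_lit 27) (nat_lit 4) (nat_lit 551) (nat_lit 403) (nat_lit 246)) (XT.lf (nat_lit 0) (nat_lit 1929853634) (nat_lit 380) (nat_lit 662579545) (nat_lit 380) (nat_lit 662579545) (nat_lit 406) (nat_lit 3) (nat_lit 411) (nat_lit 3) (nat_lit 411) (nat_lit 5) (nat_lit 404) (nat_lit 404) (nat_lit 392))) (XT.nd (nat_lit 78) (nat_lit 380) (nat_lit 0) (XT.lf (nat_lit 76) (nat_lit 1917511561) (nat_lit 0) (nat_lit 4601647020) (nat_lit 380) (nat_lit 9443725) (nat_lit 407) (nat_lit 5) (nat_lit 406) (nat_lit 3) (nat_lit 411) (nat_lit 5) (nat_lit 405) (nat_lit 404) (nat_lit 391)) (XT.lf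 (nat_lit 0) (nat_lit 2568912524) (nat_lit 380) (nat_lit 1343945295) (nat_lit 456) (nat_lit 2636801357) (nat_lit 401) (nat_lit 5) (nat_lit 406) (nat_lit 3) (nat_lit 407) (nat_lit 5) (nat_lit 406) (nat_lit 404) (nat_lit 390)))) (XT.nd (nat_lit 156) (nat_lit 0) (nat_lit 0) (XT.nd (nat_lit 78) (nat_lit 456) (nat_lit 0) (XT.lf (nat_lit 76) (nat_lit 2006836894) (nat_lit 0) (nat_lit 3137501414) (nat_lit 456) (nat_lit 1429447153) (nat_lit 402) (nat_lit 5) (nat_lit 401) (nat_lit 5) (nat_lit 407) (nat_lit 5) (nat_lit 407) (nat_lit 404) (nat_lit 389)) (XT.lf (nat_lit 0) (nat_lit 1090719296) (nat_lit 456) (nat_lit 1179096951) (nat_lit 532) (nat_lit 4331037916) (nat_lit 395) (nat_lit 5) (nat_lit 401) (nat_lit 5) (nat_lit 402) (nat_lit 5) (nat_lit 408) (nat_lit 404) (nat_lit 388))) (XT.nd (nat_lit 78) (nat_lit 0) (nat_lit 0) (XT.lf (nat_lit 76) (nat_lit 2287568570) (nat_lit 0) (nat_lit 1297042677) (nat_lit 532) (nat_lit 3045928132)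 (nat_lit 396) (nat_lit 5) (nat_lit 395) (nat_lit 5) (nat_lit 402) (nat_lit 5) (nat_lit 409) (nat_lit 404) (nat_lit 387)) (XT.lf (nat_lit 76) (nat_lit 5829619610) (nat_lit 0) (nat_lit 242732012) (nat_lit 532) (nat_lit 591226142) (nat_lit 396) (nat_lit 5) (nat_lit 395) (nat_lit 5) (nat_lit 402) (nat_lit 5) (nat_lit 410) (nat_lit 404) (nat_lit 386)))))) (XT.nd (nat_lit 624) (nat_lit 4788) (nat_lit 0) (XT.nd (nat_lit 312) (nat_lit 1292) (nat_lit 0) (XT.nd (nat_lit 156) (nat_lit 608) (nat_lit 0) (XT.nd (nat_lit 78) (nat_lit 0) (nat_lit 0) (XT.lf (nat_lit 0) (nat_lit 1843695293) (nat_lit 532) (nat_lit 3945415654) (nat_lit 608) (nat_lit 909638011) (nat_lit 389) (nat_lit 5) (nat_lit 396) (nat_lit 5) (nat_lit 397) (nat_lit 5) (nat_lit 411) (nat_lit 404) (nat_lit 385)) (XT.lf (nat_lit 0) (nat_lit 4262092344) (nat_lit 532) (nat_lit 333344426) (nat_lit 608) (nat_lit 2141724289) (nat_lit 389) (nat_lit 5) (nat_lit 396) (nat_lit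 5) (nat_lit 397) (nat_lit 5) (nat_lit 412) (nat_lit 404) (nat_lit 384))) (XT.nd (nat_lit 78) (nat_lit 608) (nat_lit 0) (XT.lf (nat_lit 76) (nat_lit 3399423726) (nat_lit 0) (nat_lit 3300278437) (nat_lit 608) (nat_lit 78653354) (nat_lit 390) (nat_lit 5) (nat_lit 389) (nat_lit 5) (nat_lit 397) (nat_lit 5) (nat_lit 413) (nat_lit 404) (nat_lit 383)) (XT.lf (nat_lit 76) (nat_lit 359138983) (nat_lit 0) (nat_lit 1905850975) (nat_lit 684) (nat_lit 4557475847) (nat_lit 382) (nat_lit 5) (nat_lit 381) (nat_lit 5) (nat_lit 390) (nat_lit 5) (nat_lit 414) (nat_lit 404) (nat_lit 382)))) (XT.nd (nat_lit 156) (nat_lit 684) (nat_lit 0) (XT.nd (nat_lit 78) (nat_lit 608) (nat_lit 0) (XT.lf (nat_lit 76) (nat_lit 4223175193) (nat_lit 0) (nat_lit 405361102) (nat_lit 684) (nat_lit 2240831795) (nat_lit 382) (nat_lit 5) (nat_lit 381) (nat_lit 5) (nat_lit 390) (nat_lit 5) (nat_lit 415) (nat_lit 404) (nat_lit 381)) (XT.lf (nat_lit 0) (nat_lit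 84531685) (nat_lit 684) (nat_lit 5677264496) (nat_lit 76) (nat_lit 1157603412) (nat_lit 373) (nat_lit 5) (nat_lit 382) (nat_lit 5) (nat_lit 374) (nat_lit 5) (nat_lit 416) (nat_lit 404) (nat_lit 380))) (XT.nd (nat_lit 78) (nat_lit 684) (nat_lit 0) (XT.lf (nat_lit 0) (nat_lit 2386363213) (nat_lit 684) (nat_lit 1752054971) (nat_lit 76) (nat_lit 2833320867) (nat_lit 373) (nat_lit 5) (nat_lit 382) (nat_lit 5) (nat_lit 374) (nat_lit 5) (nat_lit 417) (nat_lit 404) (nat_lit 379)) (XT.lf (nat_lit 0) (nat_lit 2280244124) (nat_lit 684) (nat_lit 2421979265) (nat_lit 760) (nat_lit 2325100340) (nat_lit 364) (nat_lit 5) (nat_lit 373) (nat_lit 5) (nat_lit 374) (nat_lit 5) (nat_lit 418) (nat_lit 404) (nat_lit 378))))) (XT.nd (nat_lit 312) (nat_lit 3116) (nat_lit 0) (XT.nd (nat_lit 156) (nat_lit 836) (nat_lit 0) (XT.nd (nat_lit 78) (nat_lit 836) (nat_lit 0) (XT.lf (nat_lit 0) (nat_lit 6414805919) (nat_lit 684) (nat_lit 615216444)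 (nat_lit 760) (nat_lit 56303234) (nat_lit 364) (nat_lit 5) (nat_lit 373) (nat_lit 5) (nat_lit 374) (nat_lit 5) (nat_lit 419) (nat_lit 404) (nat_lit 377)) (XT.lf (nat_lit 0) (nat_lit 2208806327) (nat_lit 836) (nat_lit 3641850294) (nat_lit 76) (nat_lit 1296622911) (nat_lit 353) (nat_lit 5) (nat_lit 364) (nat_lit 5) (nat_lit 354) (nat_lit 5) (nat_lit 420) (nat_lit 404) (nat_lit 376))) (XT.nd (nat_lit 78) (nat_lit 0) (nat_lit 0) (XT.lf (nat_lit 0) (nat_lit 559446788) (nat_lit 836) (nat_lit 3927628891) (nat_lit 912) (nat_lit 2724601081) (nat_lit 342) (nat_lit 5) (nat_lit 353) (nat_lit 5) (nat_lit 354) (nat_lit 5) (nat_lit 421) (nat_lit 404) (nat_lit 375)) (XT.lf (nat_lit 0) (nat_lit 4905641923) (nat_lit 836) (nat_lit 1894407851) (nat_lit 912) (nat_lit 478986347) (nat_lit 342) (nat_lit 5) (nat_lit 353) (nat_lit 5) (nat_lit 354) (nat_lit 5) (nat_lit 422) (nat_lit 404) (nat_lit 374)))) (XT.nd (nat_lit 156) (nat_lit 2128)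 (nat_lit 0) (XT.nd (nat_lit 78) (nat_lit 0) (nat_lit 0) (XT.lf (nat_lit 0) (nat_lit 1750781299) (nat_lit 988) (nat_lit 5352184877) (nat_lit 76) (nat_lit 246363744) (nat_lit 329) (nat_lit 5) (nat_lit 342) (nat_lit 5) (nat_lit 330) (nat_lit 5) (nat_lit 423) (nat_lit 404) (nat_lit 373)) (XT.lf (nat_lit 0) (nat_lit 4013314057) (nat_lit 988) (nat_lit 954484025) (nat_lit 76) (nat_lit 2454546342) (nat_lit 329) (nat_lit 5) (nat_lit 342) (nat_lit 5) (nat_lit 330) (nat_lit 5) (nat_lit 424) (nat_lit 404) (nat_lit 372))) (XT.nd (nat_lit 78) (nat_lit 1140) (nat_lit 0) (XT.lf (nat_lit 0) (nat_lit 3589673999) (nat_lit 988) (nat_lit 2723058628) (nat_lit 1064) (nat_lit 1185765024) (nat_lit 316) (nat_lit 5) (nat_lit 329) (nat_lit 5) (nat_lit 330) (nat_lit 5) (nat_lit 425) (nat_lit 404) (nat_lit 371)) (XT.lf (nat_lit 0) (nat_lit 658941539) (nat_lit 1064) (nat_lit 375008212) (nat_lit 1140) (nat_lit 6544145861) (nat_lit 301) (nat_lit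 5) (nat_lit 315) (nat_lit 5) (nat_lit 316) (nat_lit 5) (nat_lit 426) (nat_lit 404) (nat_lit 370))))))))
noncomputable def xc107 : XT := (XT.nd (nat_lit 2340) (nat_lit 5092) (nat_lit 0) (XT.nd (nat_lit 1170) (nat_lit 4332) (nat_lit 0) (XT.nd (nat_lit 546) (nat_lit 2888) (nat_lit 0) (XT.nd (nat_lit 234) (nat_lit 2660) (nat_lit 0) (XT.nd (nat_lit 78) (nat_lit 1216) (nat_lit 0) (XT.lf (nat_lit 0) (nat_lit 3292583766) (nat_lit 1140) (nat_lit 2304530120) (nat_lit 76) (nat_lit 2062747610) (nat_lit 301) (nat_lit 5) (nat_lit 316) (nat_lit 5) (nat_lit 302) (nat_lit 5) (nat_lit 427) (nat_lit 404) (nat_lit 369)) (XT.nd (nat_lit 78) (nat_lit 76) (nat_lit 0) (XT.lf (nat_lit 0) (nat_lit 2436317017) (nat_lit 1140) (nat_lit 3148292127) (nat_lit 1216) (nat_lit 2160518752) (nat_lit 286) (nat_lit 5) (nat_lit 301) (nat_lit 5) (nat_lit 302) (nat_lit 5) (nat_lit 428) (nat_lit 404) (nat_lit 368)) (XT.lf (nat_lit 0) (nat_lit 72896132)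 (nat_lit 1216) (nat_lit 523656390) (nat_lit 76) (nat_lit 7237503484) (nat_lit 285) (nat_lit 5) (nat_lit 301) (nat_lit 5) (nat_lit 286) (nat_lit 5) (nat_lit 429) (nat_lit 404) (nat_lit 367)))) (XT.nd (nat_lit 156) (nat_lit 684) (nat_lit 0) (XT.nd (nat_lit 78) (nat_lit 760) (nat_lit 0) (XT.lf (nat_lit 0) (nat_lit 2333445335) (nat_lit 1292) (nat_lit 3530985661) (nat_lit 76) (nat_lit 2060487650) (nat_lit 269) (nat_lit 5) (nat_lit 286) (nat_lit 5) (nat_lit 270) (nat_lit 5) (nat_lit 430) (nat_lit 404) (nat_lit 366)) (XT.lf (nat_lit 0) (nat_lit 1416811581) (nat_lit 760) (nat_lit 3212012453) (nat_lit 836) (nat_lit 3390687409) (nat_lit 259) (nat_lit 5) (nat_lit 269) (nat_lit 5) (nat_lit 270) (nat_lit 5) (nat_lit 431) (nat_lit 404) (nat_lit 365))) (XT.nd (nat_lit 78) (nat_lit 684) (nat_lit 0) (XT.lf (nat_lit 0) (nat_lit 6529663913) (nat_lit 760) (nat_lit 442352289) (nat_lit 836) (nat_lit 1145571502) (nat_lit 259) (nat_lit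 5) (nat_lit 269) (nat_lit 5) (nat_lit 270) (nat_lit 5) (nat_lit 432) (nat_lit 404) (nat_lit 364)) (XT.lf (nat_lit 0) (nat_lit 1146561812) (nat_lit 684) (nat_lit 4661850179) (nat_lit 76) (nat_lit 2409798147) (nat_lit 250) (nat_lit 5) (nat_lit 259) (nat_lit 5) (nat_lit 251) (nat_lit 5) (nat_lit 433) (nat_lit 404) (nat_lit 363))))) (XT.nd (nat_lit 312) (nat_lit 1672) (nat_lit 0) (XT.nd (nat_lit 156) (nat_lit 608) (nat_lit 0) (XT.nd (nat_lit 78) (nat_lit 0) (nat_lit 0) (XT.lf (nat_lit 0) (nat_lit 503740327) (nat_lit 608) (nat_lit 2951590510) (nat_lit 684) (nat_lit 4867066278) (nat_lit 242) (nat_lit 5) (nat_lit 250) (nat_lit 5) (nat_lit 251) (nat_lit 5) (nat_lit 434) (nat_lit 404) (nat_lit 362)) (XT.lf (nat_lit 0) (nat_lit 5827327298) (nat_lit 684) (nat_lit 2566217688) (nat_lit 76) (nat_lit 36358438) (nat_lit 242) (nat_lit 5) (nat_lit 251) (nat_lit 5) (nat_lit 243) (nat_lit 5) (nat_lit 435) (nat_lit 404) (nat_lit 361)))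 (XT.nd (nat_lit 78) (nat_lit 76) (nat_lit 0) (XT.lf (nat_lit 0) (nat_lit 2813745975) (nat_lit 532) (nat_lit 5461076615) (nat_lit 608) (nat_lit 265694449) (nat_lit 235) (nat_lit 5) (nat_lit 242) (nat_lit 5) (nat_lit 243) (nat_lit 5) (nat_lit 436) (nat_lit 404) (nat_lit 360)) (XT.lf (nat_lit 0) (nat_lit 2074213453) (nat_lit 608) (nat_lit 323018885) (nat_lit 76) (nat_lit 6257369677) (nat_lit 234) (nat_lit 5) (nat_lit 242) (nat_lit 5) (nat_lit 235) (nat_lit 5) (nat_lit 437) (nat_lit 404) (nat_lit 359)))) (XT.nd (nat_lit 156) (nat_lit 608) (nat_lit 0) (XT.nd (nat_lit 78) (nat_lit 532) (nat_lit 0) (XT.lf (nat_lit 0) (nat_lit 4487627195) (nat_lit 608) (nat_lit 3490955931) (nat_lit 76) (nat_lit 793199275) (nat_lit 227) (nat_lit 5) (nat_lit 235) (nat_lit 5) (nat_lit 228) (nat_lit 5) (nat_lit 438) (nat_lit 404) (nat_lit 358)) (XT.lf (nat_lit 0) (nat_lit 2129330308) (nat_lit 532) (nat_lit 4842530984) (nat_lit 608) (nat_lit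 1920675283) (nat_lit 220) (nat_lit 5) (nat_lit 227) (nat_lit 5) (nat_lit 228) (nat_lit 5) (nat_lit 439) (nat_lit 404) (nat_lit 357))) (XT.nd (nat_lit 78) (nat_lit 532) (nat_lit 0) (XT.lf (nat_lit 0) (nat_lit 490619958) (nat_lit 608) (nat_lit 1087273257) (nat_lit 76) (nat_lit 7439274249) (nat_lit 219) (nat_lit 5) (nat_lit 227) (nat_lit 5) (nat_lit 220) (nat_lit 5) (nat_lit 440) (nat_lit 404) (nat_lit 356)) (XT.lf (nat_lit 0) (nat_lit 2952070718) (nat_lit 608) (nat_lit 4383860548) (nat_lit 76) (nat_lit 1808552895) (nat_lit 212) (nat_lit 5) (nat_lit 220) (nat_lit 5) (nat_lit 213) (nat_lit 5) (nat_lit 441) (nat_lit 404) (nat_lit 355)))))) (XT.nd (nat_lit 546) (nat_lit 1976) (nat_lit 0) (XT.nd (nat_lit 234) (nat_lit 1368) (nat_lit 0) (XT.nd (nat_lit 78) (nat_lit 532) (nat_lit 0) (XT.lf (nat_lit 0) (nat_lit 1489196319) (nat_lit 456) (nat_lit 3992734939) (nat_lit 532) (nat_lit 3793861812) (nat_lit 206) (nat_lit 5) (nat_lit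 212) (nat_lit 5) (nat_lit 213) (nat_lit 5) (nat_lit 442) (nat_lit 404) (nat_lit 354)) (XT.nd (nat_lit 78) (nat_lit 532) (nat_lit 0) (XT.lf (nat_lit 0) (nat_lit 7573763498) (nat_lit 456) (nat_lit 512561823) (nat_lit 532) (nat_lit 1324766209) (nat_lit 206) (nat_lit 5) (nat_lit 212) (nat_lit 5) (nat_lit 213) (nat_lit 5) (nat_lit 443) (nat_lit 404) (nat_lit 353)) (XT.lf (nat_lit 0) (nat_lit 1221266321) (nat_lit 532) (nat_lit 5271242418) (nat_lit 76) (nat_lit 3056798535) (nat_lit 199) (nat_lit 5) (nat_lit 206) (nat_lit 5) (nat_lit 200) (nat_lit 5) (nat_lit 444) (nat_lit 404) (nat_lit 352)))) (XT.nd (nat_lit 156) (nat_lit 912) (nat_lit 0) (XT.nd (nat_lit 78) (nat_lit 0) (nat_lit 0) (XT.lf (nat_lit 0) (nat_lit 867455919) (nat_lit 456) (nat_lit 2937699349) (nat_lit 532) (nat_lit 5886486285) (nat_lit 193) (nat_lit 5) (nat_lit 199) (nat_lit 5) (nat_lit 200) (nat_lit 5) (nat_lit 445) (nat_lit 404) (nat_lit 351)) (XT.lf (nat_lit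 0) (nat_lit 6483886012) (nat_lit 532) (nat_lit 2600997592) (nat_lit 76) (nat_lit 752850870) (nat_lit 193) (nat_lit 5) (nat_lit 200) (nat_lit 5) (nat_lit 194) (nat_lit 5) (nat_lit 446) (nat_lit 404) (nat_lit 350))) (XT.nd (nat_lit 78) (nat_lit 456) (nat_lit 0) (XT.lf (nat_lit 0) (nat_lit 3800331984) (nat_lit 456) (nat_lit 5466139399) (nat_lit 532) (nat_lit 721042139) (nat_lit 187) (nat_lit 5) (nat_lit 193) (nat_lit 5) (nat_lit 194) (nat_lit 5) (nat_lit 447) (nat_lit 404) (nat_lit 349)) (XT.lf (nat_lit 0) (nat_lit 237315429) (nat_lit 380) (nat_lit 1701566760) (nat_lit 456) (nat_lit 8202727907) (nat_lit 181) (nat_lit 5) (nat_lit 186) (nat_lit 5) (nat_lit 187) (nat_lit 5) (nat_lit 448) (nat_lit 404) (nat_lit 348))))) (XT.nd (nat_lit 312) (nat_lit 1140) (nat_lit 0) (XT.nd (nat_lit 156) (nat_lit 456) (nat_lit 0) (XT.nd (nat_lit 78) (nat_lit 380) (nat_lit 0) (XT.lf (nat_lit 0) (nat_lit 4706886408) (nat_lit 456) (nat_lit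 3400285428) (nat_lit 76) (nat_lit 2191667760) (nat_lit 181) (nat_lit 5) (nat_lit 187) (nat_lit 5) (nat_lit 182) (nat_lit 5) (nat_lit 449) (nat_lit 404) (nat_lit 347)) (XT.lf (nat_lit 0) (nat_lit 3293315167) (nat_lit 380) (nat_lit 4273082177) (nat_lit 456) (nat_lit 2894141855) (nat_lit 176) (nat_lit 5) (nat_lit 181) (nat_lit 5) (nat_lit 182) (nat_lit 5) (nat_lit 450) (nat_lit 404) (nat_lit 346))) (XT.nd (nat_lit 78) (nat_lit 456) (nat_lit 0) (XT.lf (nat_lit 0) (nat_lit 10204999211) (nat_lit 380) (nat_lit 301654842) (nat_lit 456) (nat_lit 120593931) (nat_lit 176) (nat_lit 5) (nat_lit 181) (nat_lit 5) (nat_lit 182) (nat_lit 5) (nat_lit 451) (nat_lit 404) (nat_lit 345)) (XT.lf (nat_lit 0) (nat_lit 2744542903) (nat_lit 456) (nat_lit 4259211026) (nat_lit 76) (nat_lit 3792568413) (nat_lit 170) (nat_lit 5) (nat_lit 176) (nat_lit 5) (nat_lit 171) (nat_lit 5) (nat_lit 452) (nat_lit 404) (nat_lit 344)))) (XT.nd (nat_lit 156)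 (nat_lit 760) (nat_lit 0) (XT.nd (nat_lit 78) (nat_lit 0) (nat_lit 0) (XT.lf (nat_lit 0) (nat_lit 2740636013) (nat_lit 380) (nat_lit 2948103440) (nat_lit 456) (nat_lit 5281834188) (nat_lit 165) (nat_lit 5) (nat_lit 170) (nat_lit 5) (nat_lit 171) (nat_lit 5) (nat_lit 453) (nat_lit 404) (nat_lit 343)) (XT.lf (nat_lit 0) (nat_lit 8738882259) (nat_lit 456) (nat_lit 1175886649) (nat_lit 76) (nat_lit 1234761183) (nat_lit 165) (nat_lit 5) (nat_lit 171) (nat_lit 5) (nat_lit 166) (nat_lit 5) (nat_lit 454) (nat_lit 404) (nat_lit 342))) (XT.nd (nat_lit 78) (nat_lit 380) (nat_lit 0) (XT.lf (nat_lit 0) (nat_lit 588081533) (nat_lit 380) (nat_lit 5209019578) (nat_lit 76) (nat_lit 5535040092) (nat_lit 160) (nat_lit 5) (nat_lit 165) (nat_lit 5) (nat_lit 161) (nat_lit 5) (nat_lit 455) (nat_lit 404) (nat_lit 341)) (XT.lf (nat_lit 0) (nat_lit 2111177719) (nat_lit 380) (nat_lit 1513109607) (nat_lit 456) (nat_lit 7895354001) (nat_lit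 155) (nat_lit 5) (nat_lit 160) (nat_lit 5) (nat_lit 161) (nat_lit 5) (nat_lit 456) (nat_lit 404) (nat_lit 340))))))) (XT.nd (nat_lit 1170) (nat_lit 2280) (nat_lit 0) (XT.nd (nat_lit 546) (nat_lit 1444) (nat_lit 0) (XT.nd (nat_lit 234) (nat_lit 684) (nat_lit 0) (XT.nd (nat_lit 78) (nat_lit 684) (nat_lit 0) (XT.lf (nat_lit 0) (nat_lit 6796676037) (nat_lit 456) (nat_lit 2033612398) (nat_lit 76) (nat_lit 2881130647) (nat_lit 155) (nat_lit 5) (nat_lit 161) (nat_lit 5) (nat_lit 156) (nat_lit 5) (nat_lit 457) (nat_lit 404) (nat_lit 339)) (XT.nd (nat_lit 78) (nat_lit 380) (nat_lit 0) (XT.lf (nat_lit 0) (nat_lit 5606623950) (nat_lit 304) (nat_lit 4491637787) (nat_lit 380) (nat_lit 1809673043) (nat_lit 151) (nat_lit 5) (nat_lit 155) (nat_lit 5) (nat_lit 156) (nat_lit 5) (nat_lit 458) (nat_lit 404) (nat_lit 338)) (XT.lf (nat_lit 0) (nat_lit 1360806320) (nat_lit 380) (nat_lit 10739334009) (nat_lit 76) (nat_lit 9829667) (nat_lit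 146) (nat_lit 5) (nat_lit 151) (nat_lit 5) (nat_lit 147) (nat_lit 5) (nat_lit 459) (nat_lit 404) (nat_lit 337)))) (XT.nd (nat_lit 156) (nat_lit 380) (nat_lit 0) (XT.nd (nat_lit 78) (nat_lit 304) (nat_lit 0) (XT.lf (nat_lit 0) (nat_lit 4664477761) (nat_lit 380) (nat_lit 3028132425) (nat_lit 76) (nat_lit 4622689962) (nat_lit 146) (nat_lit 5) (nat_lit 151) (nat_lit 5) (nat_lit 147) (nat_lit 5) (nat_lit 460) (nat_lit 404) (nat_lit 336)) (XT.lf (nat_lit 0) (nat_lit 4961842447) (nat_lit 304) (nat_lit 3119829452) (nat_lit 380) (nat_lit 4444690699) (nat_lit 142) (nat_lit 5) (nat_lit 146) (nat_lit 5) (nat_lit 147) (nat_lit 5) (nat_lit 461) (nat_lit 404) (nat_lit 335))) (XT.nd (nat_lit 78) (nat_lit 76) (nat_lit 0) (XT.lf (nat_lit 0) (nat_lit 454292282) (nat_lit 304) (nat_lit 11164683524) (nat_lit 380) (nat_lit 1124257928) (nat_lit 138) (nat_lit 5) (nat_lit 142) (nat_lit 5) (nat_lit 143) (nat_lit 5) (nat_lit 462) (nat_lit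 404) (nat_lit 334)) (XT.lf (nat_lit 0) (nat_lit 2326242241) (nat_lit 380) (nat_lit 4199203648) (nat_lit 76) (nat_lit 6438249822) (nat_lit 137) (nat_lit 5) (nat_lit 142) (nat_lit 5) (nat_lit 138) (nat_lit 5) (nat_lit 463) (nat_lit 404) (nat_lit 333))))) (XT.nd (nat_lit 312) (nat_lit 608) (nat_lit 0) (XT.nd (nat_lit 156) (nat_lit 608) (nat_lit 0) (XT.nd (nat_lit 78) (nat_lit 0) (nat_lit 0) (XT.lf (nat_lit 0) (nat_lit 4154717694) (nat_lit 228) (nat_lit 1711056645) (nat_lit 304) (nat_lit 7324424106) (nat_lit 134) (nat_lit 5) (nat_lit 137) (nat_lit 5) (nat_lit 138) (nat_lit 5) (nat_lit 464) (nat_lit 404) (nat_lit 332)) (XT.lf (nat_lit 0) (nat_lit 9554017180) (nat_lit 304) (nat_lit 657288216) (nat_lit 76) (nat_lit 3210919237) (nat_lit 134) (nat_lit 5) (nat_lit 138) (nat_lit 5) (nat_lit 135) (nat_lit 5) (nat_lit 465) (nat_lit 404) (nat_lit 331))) (XT.nd (nat_lit 78) (nat_lit 304) (nat_lit 0) (XT.lf (nat_lit 0) (nat_lit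 8065352270) (nat_lit 304) (nat_lit 5351425018) (nat_lit 380) (nat_lit 242522216) (nat_lit 130) (nat_lit 5) (nat_lit 134) (nat_lit 5) (nat_lit 135) (nat_lit 5) (nat_lit 466) (nat_lit 404) (nat_lit 330)) (XT.lf (nat_lit 0) (nat_lit 3140012228) (nat_lit 228) (nat_lit 290205883) (nat_lit 304) (nat_lit 10472072535) (nat_lit 126) (nat_lit 5) (nat_lit 129) (nat_lit 5) (nat_lit 130) (nat_lit 5) (nat_lit 467) (nat_lit 404) (nat_lit 329)))) (XT.nd (nat_lit 156) (nat_lit 304) (nat_lit 0) (XT.nd (nat_lit 78) (nat_lit 304) (nat_lit 0) (XT.lf (nat_lit 0) (nat_lit 7282444688) (nat_lit 304) (nat_lit 1998260100) (nat_lit 76) (nat_lit 4869573000) (nat_lit 126) (nat_lit 5) (nat_lit 130) (nat_lit 5) (nat_lit 127) (nat_lit 5) (nat_lit 468) (nat_lit 404) (nat_lit 328)) (XT.lf (nat_lit 0) (nat_lit 7118338820) (nat_lit 304) (nat_lit 4173887585) (nat_lit 380) (nat_lit 3112222039) (nat_lit 122) (nat_lit 5) (nat_lit 126) (nat_lit 5) (nat_lit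 127) (nat_lit 5) (nat_lit 469) (nat_lit 404) (nat_lit 327))) (XT.nd (nat_lit 78) (nat_lit 0) (nat_lit 0) (XT.lf (nat_lit 0) (nat_lit 761158902) (nat_lit 304) (nat_lit 12810273658) (nat_lit 76) (nat_lit 1094001326) (nat_lit 118) (nat_lit 5) (nat_lit 122) (nat_lit 5) (nat_lit 119) (nat_lit 5) (nat_lit 470) (nat_lit 404) (nat_lit 326)) (XT.lf (nat_lit 0) (nat_lit 4774871793) (nat_lit 304) (nat_lit 3631629011) (nat_lit 76) (nat_lit 6524226421) (nat_lit 118) (nat_lit 5) (nat_lit 122) (nat_lit 5) (nat_lit 119) (nat_lit 5) (nat_lit 471) (nat_lit 404) (nat_lit 325)))))) (XT.nd (nat_lit 624) (nat_lit 1064) (nat_lit 0) (XT.nd (nat_lit 312) (nat_lit 456) (nat_lit 0) (XT.nd (nat_lit 156) (nat_lit 304) (nat_lit 0) (XT.nd (nat_lit 78) (nat_lit 228) (nat_lit 0) (XT.lf (nat_lit 0) (nat_lit 5891964447) (nat_lit 228) (nat_lit 3045565482) (nat_lit 304) (nat_lit 6265596574) (nat_lit 115) (nat_lit 5) (nat_lit 118) (nat_lit 5) (nat_lit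 119) (nat_lit 5) (nat_lit 472) (nat_lit 404) (nat_lit 324)) (XT.lf (nat_lit 0) (nat_lit 227783970) (nat_lit 228) (nat_lit 13032429294) (nat_lit 304) (nat_lit 2222433193) (nat_lit 112) (nat_lit 5) (nat_lit 115) (nat_lit 5) (nat_lit 116) (nat_lit 5) (nat_lit 473) (nat_lit 404) (nat_lit 323))) (XT.nd (nat_lit 78) (nat_lit 228) (nat_lit 0) (XT.lf (nat_lit 0) (nat_lit 2001459172) (nat_lit 304) (nat_lit 5619432851) (nat_lit 76) (nat_lit 8146182937) (nat_lit 111) (nat_lit 5) (nat_lit 115) (nat_lit 5) (nat_lit 112) (nat_lit 5) (nat_lit 474) (nat_lit 404) (nat_lit 322)) (XT.lf (nat_lit 0) (nat_lit 4323028125) (nat_lit 228) (nat_lit 1998956639) (nat_lit 304) (nat_lit 9736956672) (nat_lit 108) (nat_lit 5) (nat_lit 111) (nat_lit 5) (nat_lit 112) (nat_lit 5) (nat_lit 475) (nat_lit 404) (nat_lit 321)))) (XT.nd (nat_lit 156) (nat_lit 304) (nat_lit 0) (XT.nd (nat_lit 78) (nat_lit 152) (nat_lit 0) (XT.lf (nat_lit 0) (nat_lit 10839106681)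 (nat_lit 304) (nat_lit 1760499317) (nat_lit 76) (nat_lit 3757951212) (nat_lit 108) (nat_lit 5) (nat_lit 112) (nat_lit 5) (nat_lit 109) (nat_lit 5) (nat_lit 476) (nat_lit 404) (nat_lit 320)) (XT.lf (nat_lit 0) (nat_lit 8619293277) (nat_lit 152) (nat_lit 6949100312) (nat_lit 228) (nat_lit 1094440970) (nat_lit 106) (nat_lit 5) (nat_lit 108) (nat_lit 5) (nat_lit 109) (nat_lit 5) (nat_lit 477) (nat_lit 404) (nat_lit 319))) (XT.nd (nat_lit 78) (nat_lit 0) (nat_lit 0) (XT.lf (nat_lit 0) (nat_lit 2338629365) (nat_lit 228) (nat_lit 1070626128) (nat_lit 304) (nat_lit 13566582925) (nat_lit 102) (nat_lit 5) (nat_lit 105) (nat_lit 5) (nat_lit 106) (nat_lit 5) (nat_lit 478) (nat_lit 404) (nat_lit 318)) (XT.lf (nat_lit 0) (nat_lit 8130273936) (nat_lit 304) (nat_lit 4201753486) (nat_lit 76) (nat_lit 4962756060) (nat_lit 102) (nat_lit 5) (nat_lit 106) (nat_lit 5) (nat_lit 103) (nat_lit 5) (nat_lit 479) (nat_lit 404) (nat_lit 317)))))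 (XT.nd (nat_lit 312) (nat_lit 456) (nat_lit 0) (XT.nd (nat_lit 156) (nat_lit 380) (nat_lit 0) (XT.nd (nat_lit 78) (nat_lit 76) (nat_lit 0) (XT.lf (nat_lit 0) (nat_lit 6623118815) (nat_lit 152) (nat_lit 6419088165) (nat_lit 228) (nat_lit 4579613742) (nat_lit 100) (nat_lit 5) (nat_lit 102) (nat_lit 5) (nat_lit 103) (nat_lit 5) (nat_lit 480) (nat_lit 404) (nat_lit 316)) (XT.lf (nat_lit 0) (nat_lit 157988469) (nat_lit 228) (nat_lit 142690959) (nat_lit 76) (nat_lit 17657412277) (nat_lit 99) (nat_lit 5) (nat_lit 102) (nat_lit 5) (nat_lit 100) (nat_lit 5) (nat_lit 481) (nat_lit 404) (nat_lit 315))) (XT.nd (nat_lit 78) (nat_lit 152) (nat_lit 0) (XT.lf (nat_lit 0) (nat_lit 5087910154) (nat_lit 304) (nat_lit 7189136207) (nat_lit 76) (nat_lit 6021779209) (nat_lit 96) (nat_lit 5) (nat_lit 100) (nat_lit 5) (nat_lit 97) (nat_lit 5) (nat_lit 482) (nat_lit 404) (nat_lit 314)) (XT.lf (nat_lit 0) (nat_lit 4088325253) (nat_lit 152)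 (nat_lit 6097108809) (nat_lit 228) (nat_lit 8463758337) (nat_lit 94) (nat_lit 5) (nat_lit 96) (nat_lit 5) (nat_lit 97) (nat_lit 5) (nat_lit 483) (nat_lit 404) (nat_lit 313)))) (XT.nd (nat_lit 156) (nat_lit 152) (nat_lit 0) (XT.nd (nat_lit 78) (nat_lit 304) (nat_lit 0) (XT.lf (nat_lit 0) (nat_lit 15487891720) (nat_lit 228) (nat_lit 3201141828) (nat_lit 76) (nat_lit 319478468) (nat_lit 94) (nat_lit 5) (nat_lit 97) (nat_lit 5) (nat_lit 95) (nat_lit 5) (nat_lit 484) (nat_lit 404) (nat_lit 312)) (XT.lf (nat_lit 0) (nat_lit 1660859929) (nat_lit 304) (nat_lit 10825376866) (nat_lit 76) (nat_lit 6888302340) (nat_lit 90) (nat_lit 5) (nat_lit 94) (nat_lit 5) (nat_lit 91) (nat_lit 5) (nat_lit 485) (nat_lit 404) (nat_lit 311))) (XT.nd (nat_lit 78) (nat_lit 0) (nat_lit 0) (XT.lf (nat_lit 0) (nat_lit 909290219) (nat_lit 152) (nat_lit 6035993690) (nat_lit 228) (nat_lit 12804671473) (nat_lit 88) (nat_lit 5) (nat_lit 90) (nat_lit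 5) (nat_lit 91) (nat_lit 5) (nat_lit 486) (nat_lit 404) (nat_lit 310)) (XT.lf (nat_lit 0) (nat_lit 12481480517) (nat_lit 228) (nat_lit 6962794071) (nat_lit 76) (nat_lit 689564128) (nat_lit 88) (nat_lit 5) (nat_lit 91) (nat_lit 5) (nat_lit 89) (nat_lit 5) (nat_lit 487) (nat_lit 404) (nat_lit 309))))))))
noncomputable def xc108 : XT := (XT.nd (nat_lit 2340) (nat_lit 1672) (nat_lit 0) (XT.nd (nat_lit 1170) (nat_lit 1216) (nat_lit 0) (XT.nd (nat_lit 546) (nat_lit 912) (nat_lit 0) (XT.nd (nat_lit 234) (nat_lit 380) (nat_lit 0) (XT.nd (nat_lit 78) (nat_lit 228) (nat_lit 0) (XT.lf (nat_lit 0) (nat_lit 5275347321) (nat_lit 152) (nat_lit 12996558145) (nat_lit 228) (nat_lit 2254690559) (nat_lit 86) (nat_lit 5) (nat_lit 88) (nat_lit 5) (nat_lit 89) (nat_lit 5) (nat_lit 488) (nat_lit 404) (nat_lit 308)) (XT.nd (nat_lit 78) (nat_lit 152) (nat_lit 0) (XT.lf (nat_lit 0) (nat_lit 3289150272) (nat_lit 228) (nat_lit 2977432976)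 (nat_lit 76) (nat_lit 14662139372) (nat_lit 85) (nat_lit 5) (nat_lit 88) (nat_lit 5) (nat_lit 86) (nat_lit 5) (nat_lit 489) (nat_lit 404) (nat_lit 307)) (XT.lf (nat_lit 0) (nat_lit 9033912591) (nat_lit 228) (nat_lit 11552204075) (nat_lit 76) (nat_lit 753730538) (nat_lit 83) (nat_lit 5) (nat_lit 86) (nat_lit 5) (nat_lit 84) (nat_lit 5) (nat_lit 490) (nat_lit 404) (nat_lit 306)))) (XT.nd (nat_lit 156) (nat_lit 228) (nat_lit 0) (XT.nd (nat_lit 78) (nat_lit 0) (nat_lit 0) (XT.lf (nat_lit 0) (nat_lit 1156251850) (nat_lit 152) (nat_lit 13876774337) (nat_lit 228) (nat_lit 6727820635) (nat_lit 81) (nat_lit 5) (nat_lit 83) (nat_lit 5) (nat_lit 84) (nat_lit 5) (nat_lit 491) (nat_lit 404) (nat_lit 305)) (XT.lf (nat_lit 0) (nat_lit 14444875349) (nat_lit 152) (nat_lit 6862639359) (nat_lit 228) (nat_lit 884101184) (nat_lit 81) (nat_lit 5) (nat_lit 83) (nat_lit 5) (nat_lit 84) (nat_lit 5) (nat_lit 492) (nat_lit 404) (nat_lit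 304))) (XT.nd (nat_lit 78) (nat_lit 0) (nat_lit 0) (XT.lf (nat_lit 0) (nat_lit 5071266589) (nat_lit 228) (nat_lit 17119240873) (nat_lit 76) (nat_lit 442225056) (nat_lit 78) (nat_lit 5) (nat_lit 81) (nat_lit 5) (nat_lit 79) (nat_lit 5) (nat_lit 493) (nat_lit 404) (nat_lit 303)) (XT.lf (nat_lit 0) (nat_lit 11313730942) (nat_lit 228) (nat_lit 3869184725) (nat_lit 76) (nat_lit 7900119598) (nat_lit 78) (nat_lit 5) (nat_lit 81) (nat_lit 5) (nat_lit 79) (nat_lit 5) (nat_lit 494) (nat_lit 404) (nat_lit 302))))) (XT.nd (nat_lit 312) (nat_lit 380) (nat_lit 0) (XT.nd (nat_lit 156) (nat_lit 152) (nat_lit 0) (XT.nd (nat_lit 78) (nat_lit 228) (nat_lit 0) (XT.lf (nat_lit 0) (nat_lit 9936042294) (nat_lit 152) (nat_lit 7882799187) (nat_lit 228) (nat_lit 5725745784) (nat_lit 76) (nat_lit 5) (nat_lit 78) (nat_lit 5) (nat_lit 79) (nat_lit 5) (nat_lit 495) (nat_lit 404) (nat_lit 301)) (XT.lf (nat_lit 0) (nat_lit 177949781) (nat_lit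 152) (nat_lit 332503188) (nat_lit 228) (nat_lit 23508757990) (nat_lit 73) (nat_lit 5) (nat_lit 75) (nat_lit 5) (nat_lit 76) (nat_lit 5) (nat_lit 496) (nat_lit 404) (nat_lit 300))) (XT.nd (nat_lit 78) (nat_lit 152) (nat_lit 0) (XT.lf (nat_lit 0) (nat_lit 7008985553) (nat_lit 228) (nat_lit 10012911822) (nat_lit 76) (nat_lit 7478766605) (nat_lit 73) (nat_lit 5) (nat_lit 76) (nat_lit 5) (nat_lit 74) (nat_lit 5) (nat_lit 497) (nat_lit 404) (nat_lit 299)) (XT.lf (nat_lit 0) (nat_lit 4275125872) (nat_lit 152) (nat_lit 9452308581) (nat_lit 228) (nat_lit 11268378520) (nat_lit 71) (nat_lit 5) (nat_lit 73) (nat_lit 5) (nat_lit 74) (nat_lit 5) (nat_lit 498) (nat_lit 404) (nat_lit 298)))) (XT.nd (nat_lit 156) (nat_lit 152) (nat_lit 0) (XT.nd (nat_lit 78) (nat_lit 228) (nat_lit 0) (XT.lf (nat_lit 0) (nat_lit 19162112449) (nat_lit 152) (nat_lit 1567238148) (nat_lit 228) (nat_lit 4774009578) (nat_lit 71) (nat_lit 5) (nat_lit 73)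 (nat_lit 5) (nat_lit 74) (nat_lit 5) (nat_lit 499) (nat_lit 404) (nat_lit 297)) (XT.lf (nat_lit 0) (nat_lit 2005368131) (nat_lit 228) (nat_lit 17503155065) (nat_lit 76) (nat_lit 6513232889) (nat_lit 68) (nat_lit 5) (nat_lit 71) (nat_lit 5) (nat_lit 69) (nat_lit 5) (nat_lit 500) (nat_lit 404) (nat_lit 296))) (XT.nd (nat_lit 78) (nat_lit 152) (nat_lit 0) (XT.lf (nat_lit 0) (nat_lit 8953610205) (nat_lit 228) (nat_lit 2697346916) (nat_lit 76) (nat_lit 14901486707) (nat_lit 68) (nat_lit 5) (nat_lit 71) (nat_lit 5) (nat_lit 69) (nat_lit 5) (nat_lit 501) (nat_lit 404) (nat_lit 295)) (XT.lf (nat_lit 0) (nat_lit 12768414564) (nat_lit 152) (nat_lit 3446419408) (nat_lit 228) (nat_lit 10881083224) (nat_lit 66) (nat_lit 5) (nat_lit 68) (nat_lit 5) (nat_lit 69) (nat_lit 5) (nat_lit 502) (nat_lit 404) (nat_lit 294)))))) (XT.nd (nat_lit 546) (nat_lit 608) (nat_lit 0) (XT.nd (nat_lit 234) (nat_lit 304) (nat_lit 0) (XT.nd (nat_lit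 78) (nat_lit 228) (nat_lit 0) (XT.lf (nat_lit 0) (nat_lit 1036978394) (nat_lit 76) (nat_lit 22724360018) (nat_lit 152) (nat_lit 3892334032) (nat_lit 65) (nat_lit 5) (nat_lit 66) (nat_lit 5) (nat_lit 67) (nat_lit 4) (nat_lit 503) (nat_lit 404) (nat_lit 293)) (XT.nd (nat_lit 78) (nat_lit 152) (nat_lit 0) (XT.lf (nat_lit 0) (nat_lit 3403695034) (nat_lit 152) (nat_lit 11168542538) (nat_lit 76) (nat_lit 13650106387) (nat_lit 64) (nat_lit 5) (nat_lit 66) (nat_lit 5) (nat_lit 65) (nat_lit 5) (nat_lit 504) (nat_lit 404) (nat_lit 292)) (XT.lf (nat_lit 0) (nat_lit 4764992172) (nat_lit 152) (nat_lit 6103607830) (nat_lit 228) (nat_lit 17937473577) (nat_lit 62) (nat_lit 5) (nat_lit 64) (nat_lit 5) (nat_lit 65) (nat_lit 5) (nat_lit 505) (nat_lit 404) (nat_lit 291)))) (XT.nd (nat_lit 156) (nat_lit 228) (nat_lit 0) (XT.nd (nat_lit 78) (nat_lit 76) (nat_lit 0) (XT.lf (nat_lit 0) (nat_lit 18679008577) (nat_lit 228) (nat_lit 8057314019)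 (nat_lit 76) (nat_lit 2667346683) (nat_lit 62) (nat_lit 5) (nat_lit 65) (nat_lit 5) (nat_lit 63) (nat_lit 4) (nat_lit 506) (nat_lit 404) (nat_lit 290)) (XT.lf (nat_lit 0) (nat_lit 8479379819) (nat_lit 76) (nat_lit 18369283767) (nat_lit 152) (nat_lit 3166782099) (nat_lit 61) (nat_lit 5) (nat_lit 62) (nat_lit 5) (nat_lit 63) (nat_lit 4) (nat_lit 507) (nat_lit 404) (nat_lit 289))) (XT.nd (nat_lit 78) (nat_lit 152) (nat_lit 0) (XT.lf (nat_lit 0) (nat_lit 4592911498) (nat_lit 152) (nat_lit 5042634794) (nat_lit 76) (nat_lit 21006742541) (nat_lit 60) (nat_lit 5) (nat_lit 62) (nat_lit 5) (nat_lit 61) (nat_lit 5) (nat_lit 508) (nat_lit 404) (nat_lit 288)) (XT.lf (nat_lit 0) (nat_lit 12120025222) (nat_lit 152) (nat_lit 501741679) (nat_lit 228) (nat_lit 18662229927) (nat_lit 58) (nat_lit 5) (nat_lit 60) (nat_lit 5) (nat_lit 61) (nat_lit 5) (nat_lit 509) (nat_lit 404) (nat_lit 287))))) (XT.nd (nat_lit 312) (nat_lit 304) (nat_lit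 0) (XT.nd (nat_lit 156) (nat_lit 228) (nat_lit 0) (XT.nd (nat_lit 78) (nat_lit 76) (nat_lit 0) (XT.lf (nat_lit 0) (nat_lit 21012090502) (nat_lit 228) (nat_lit 2159386873) (nat_lit 76) (nat_lit 8769861375) (nat_lit 58) (nat_lit 5) (nat_lit 61) (nat_lit 5) (nat_lit 59) (nat_lit 4) (nat_lit 510) (nat_lit 404) (nat_lit 286)) (XT.lf (nat_lit 0) (nat_lit 15625394105) (nat_lit 76) (nat_lit 14167943907) (nat_lit 152) (nat_lit 2820887233) (nat_lit 57) (nat_lit 5) (nat_lit 58) (nat_lit 5) (nat_lit 59) (nat_lit 4) (nat_lit 511) (nat_lit 404) (nat_lit 285))) (XT.nd (nat_lit 78) (nat_lit 0) (nat_lit 0) (XT.lf (nat_lit 0) (nat_lit 609955400) (nat_lit 152) (nat_lit 4824798588) (nat_lit 228) (nat_lit 27870591491) (nat_lit 54) (nat_lit 5) (nat_lit 56) (nat_lit 5) (nat_lit 57) (nat_lit 5) (nat_lit 512) (nat_lit 404) (nat_lit 284)) (XT.lf (nat_lit 0) (nat_lit 14084862428) (nat_lit 228) (nat_lit 15032801256) (nat_lit 76) (nat_lit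 4892593578) (nat_lit 54) (nat_lit 5) (nat_lit 57) (nat_lit 5) (nat_lit 55) (nat_lit 4) (nat_lit 513) (nat_lit 404) (nat_lit 283)))) (XT.nd (nat_lit 156) (nat_lit 228) (nat_lit 0) (XT.nd (nat_lit 78) (nat_lit 0) (nat_lit 0) (XT.lf (nat_lit 0) (nat_lit 3144168548) (nat_lit 76) (nat_lit 19912877304) (nat_lit 152) (nat_lit 11677394053) (nat_lit 53) (nat_lit 5) (nat_lit 54) (nat_lit 5) (nat_lit 55) (nat_lit 4) (nat_lit 514) (nat_lit 404) (nat_lit 282)) (XT.lf (nat_lit 0) (nat_lit 22145809783) (nat_lit 76) (nat_lit 10289136981) (nat_lit 152) (nat_lit 3041305341) (nat_lit 53) (nat_lit 5) (nat_lit 54) (nat_lit 5) (nat_lit 55) (nat_lit 4) (nat_lit 515) (nat_lit 404) (nat_lit 281))) (XT.nd (nat_lit 78) (nat_lit 0) (nat_lit 0) (XT.lf (nat_lit 0) (nat_lit 5499980219) (nat_lit 152) (nat_lit 277572114) (nat_lit 228) (nat_lit 30459941323) (nat_lit 50) (nat_lit 5) (nat_lit 52) (nat_lit 5) (nat_lit 53) (nat_lit 5) (nat_lit 516)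 (nat_lit 404) (nat_lit 280)) (XT.lf (nat_lit 0) (nat_lit 15017335755) (nat_lit 228) (nat_lit 12005153816) (nat_lit 76) (nat_lit 9991655493) (nat_lit 50) (nat_lit 5) (nat_lit 53) (nat_lit 5) (nat_lit 51) (nat_lit 4) (nat_lit 517) (nat_lit 404) (nat_lit 279))))))) (XT.nd (nat_lit 1170) (nat_lit 760) (nat_lit 0) (XT.nd (nat_lit 546) (nat_lit 380) (nat_lit 0) (XT.nd (nat_lit 234) (nat_lit 228) (nat_lit 0) (XT.nd (nat_lit 78) (nat_lit 228) (nat_lit 0) (XT.lf (nat_lit 0) (nat_lit 7403424765) (nat_lit 76) (nat_lit 17190323677) (nat_lit 152) (nat_lit 13218565068) (nat_lit 49) (nat_lit 5) (nat_lit 50) (nat_lit 5) (nat_lit 51) (nat_lit 4) (nat_lit 518) (nat_lit 404) (nat_lit 278)) (XT.nd (nat_lit 78) (nat_lit 228) (nat_lit 0) (XT.lf (nat_lit 0) (nat_lit 27613152839) (nat_lit 76) (nat_lit 6951210692) (nat_lit 152) (nat_lit 4066856729) (nat_lit 49) (nat_lit 5) (nat_lit 50) (nat_lit 5) (nat_lit 51) (nat_lit 4) (nat_lit 519)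 (nat_lit 404) (nat_lit 277)) (XT.lf (nat_lit 0) (nat_lit 5363612414) (nat_lit 228) (nat_lit 30453841386) (nat_lit 76) (nat_lit 3652431672) (nat_lit 46) (nat_lit 5) (nat_lit 49) (nat_lit 5) (nat_lit 47) (nat_lit 4) (nat_lit 520) (nat_lit 404) (nat_lit 276)))) (XT.nd (nat_lit 156) (nat_lit 152) (nat_lit 0) (XT.nd (nat_lit 78) (nat_lit 76) (nat_lit 0) (XT.lf (nat_lit 0) (nat_lit 15162436874) (nat_lit 228) (nat_lit 10590249878) (nat_lit 76) (nat_lit 14574800984) (nat_lit 46) (nat_lit 5) (nat_lit 49) (nat_lit 5) (nat_lit 47) (nat_lit 4) (nat_lit 521) (nat_lit 404) (nat_lit 275)) (XT.lf (nat_lit 0) (nat_lit 10039204575) (nat_lit 76) (nat_lit 15298927088) (nat_lit 152) (nat_lit 15870199728) (nat_lit 45) (nat_lit 5) (nat_lit 46) (nat_lit 5) (nat_lit 47) (nat_lit 4) (nat_lit 522) (nat_lit 404) (nat_lit 274))) (XT.nd (nat_lit 78) (nat_lit 152) (nat_lit 0) (XT.lf (nat_lit 0) (nat_lit 31478940934) (nat_lit 76) (nat_lit 4433648818)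 (nat_lit 152) (nat_lit 6200206306) (nat_lit 45) (nat_lit 5) (nat_lit 46) (nat_lit 5) (nat_lit 47) (nat_lit 4) (nat_lit 523) (nat_lit 404) (nat_lit 273)) (XT.lf (nat_lit 0) (nat_lit 3842058025) (nat_lit 152) (nat_lit 32442622690) (nat_lit 76) (nat_lit 6753963926) (nat_lit 43) (nat_lit 5) (nat_lit 45) (nat_lit 5) (nat_lit 44) (nat_lit 4) (nat_lit 524) (nat_lit 404) (nat_lit 272))))) (XT.nd (nat_lit 312) (nat_lit 152) (nat_lit 0) (XT.nd (nat_lit 156) (nat_lit 152) (nat_lit 0) (XT.nd (nat_lit 78) (nat_lit 76) (nat_lit 0) (XT.lf (nat_lit 0) (nat_lit 14200157324) (nat_lit 152) (nat_lit 11439853264) (nat_lit 76) (nat_lit 18346241333) (nat_lit 43) (nat_lit 5) (nat_lit 45) (nat_lit 5) (nat_lit 44) (nat_lit 4) (nat_lit 525) (nat_lit 404) (nat_lit 271)) (XT.lf (nat_lit 0) (nat_lit 10370871239) (nat_lit 76) (nat_lit 14585045991) (nat_lit 152) (nat_lit 20003763082) (nat_lit 42) (nat_lit 5) (nat_lit 43) (nat_lit 5) (nat_lit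 44) (nat_lit 4) (nat_lit 526) (nat_lit 404) (nat_lit 270))) (XT.nd (nat_lit 78) (nat_lit 152) (nat_lit 0) (XT.lf (nat_lit 0) (nat_lit 33046162406) (nat_lit 76) (nat_lit 3091072921) (nat_lit 152) (nat_lit 9821990077) (nat_lit 42) (nat_lit 5) (nat_lit 43) (nat_lit 5) (nat_lit 44) (nat_lit 4) (nat_lit 527) (nat_lit 404) (nat_lit 269)) (XT.lf (nat_lit 0) (nat_lit 816807076) (nat_lit 152) (nat_lit 37501635275) (nat_lit 76) (nat_lit 8665186481) (nat_lit 40) (nat_lit 5) (nat_lit 42) (nat_lit 5) (nat_lit 41) (nat_lit 4) (nat_lit 528) (nat_lit 404) (nat_lit 268)))) (XT.nd (nat_lit 156) (nat_lit 76) (nat_lit 0) (XT.nd (nat_lit 78) (nat_lit 76) (nat_lit 0) (XT.lf (nat_lit 0) (nat_lit 11727285217) (nat_lit 152) (nat_lit 15374215758) (nat_lit 76) (nat_lit 20929848460) (nat_lit 40) (nat_lit 5) (nat_lit 42) (nat_lit 5) (nat_lit 41) (nat_lit 4) (nat_lit 529) (nat_lit 404) (nat_lit 267)) (XT.lf (nat_lit 0) (nat_lit 7541046238)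 (nat_lit 76) (nat_lit 15484517694) (nat_lit 152) (nat_lit 26083123502) (nat_lit 39) (nat_lit 5) (nat_lit 40) (nat_lit 5) (nat_lit 41) (nat_lit 4) (nat_lit 530) (nat_lit 404) (nat_lit 266))) (XT.nd (nat_lit 78) (nat_lit 76) (nat_lit 0) (XT.lf (nat_lit 0) (nat_lit 31436016162) (nat_lit 76) (nat_lit 3370150772) (nat_lit 152) (nat_lit 15407877716) (nat_lit 39) (nat_lit 5) (nat_lit 40) (nat_lit 5) (nat_lit 41) (nat_lit 4) (nat_lit 531) (nat_lit 404) (nat_lit 265)) (XT.lf (nat_lit 0) (nat_lit 4676497312) (nat_lit 76) (nat_lit 42384561699) (nat_lit 76) (nat_lit 4287877784) (nat_lit 38) (nat_lit 4) (nat_lit 39) (nat_lit 5) (nat_lit 39) (nat_lit 4) (nat_lit 532) (nat_lit 404) (nat_lit 264)))))) (XT.nd (nat_lit 546) (nat_lit 380) (nat_lit 0) (XT.nd (nat_lit 234) (nat_lit 228) (nat_lit 0) (XT.nd (nat_lit 78) (nat_lit 76) (nat_lit 0) (XT.lf (nat_lit 0) (nat_lit 7239139504) (nat_lit 152) (nat_lit 23419217071) (nat_lit 76) (nat_lit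 21851055622) (nat_lit 37) (nat_lit 5) (nat_lit 39) (nat_lit 5) (nat_lit 38) (nat_lit 4) (nat_lit 533) (nat_lit 404) (nat_lit 263)) (XT.nd (nat_lit 78) (nat_lit 0) (nat_lit 0) (XT.lf (nat_lit 0) (nat_lit 476609809) (nat_lit 76) (nat_lit 18542475190) (nat_lit 152) (nat_lit 34684544556) (nat_lit 36) (nat_lit 5) (nat_lit 37) (nat_lit 5) (nat_lit 38) (nat_lit 4) (nat_lit 534) (nat_lit 404) (nat_lit 262)) (XT.lf (nat_lit 0) (nat_lit 25547758247) (nat_lit 76) (nat_lit 5829997835) (nat_lit 152) (nat_lit 23549157842) (nat_lit 36) (nat_lit 5) (nat_lit 37) (nat_lit 5) (nat_lit 38) (nat_lit 4) (nat_lit 535) (nat_lit 404) (nat_lit 261)))) (XT.nd (nat_lit 156) (nat_lit 76) (nat_lit 0) (XT.nd (nat_lit 78) (nat_lit 152) (nat_lit 0) (XT.lf (nat_lit 0) (nat_lit 44166078379) (nat_lit 152) (nat_lit 4906902423) (nat_lit 0) (nat_lit 7112149584) (nat_lit 36) (nat_lit 5) (nat_lit 38) (nat_lit 4) (nat_lit 36) (nat_lit 4) (nat_lit 536)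 (nat_lit 404) (nat_lit 260)) (XT.lf (nat_lit 0) (nat_lit 107531911) (nat_lit 152) (nat_lit 36851154196) (nat_lit 76) (nat_lit 20515015257) (nat_lit 34) (nat_lit 5) (nat_lit 36) (nat_lit 5) (nat_lit 35) (nat_lit 4) (nat_lit 537) (nat_lit 404) (nat_lit 259))) (XT.nd (nat_lit 78) (nat_lit 76) (nat_lit 0) (XT.lf (nat_lit 0) (nat_lit 12395776726) (nat_lit 152) (nat_lit 11921080508) (nat_lit 76) (nat_lit 34479319461) (nat_lit 34) (nat_lit 5) (nat_lit 36) (nat_lit 5) (nat_lit 35) (nat_lit 4) (nat_lit 538) (nat_lit 404) (nat_lit 258)) (XT.lf (nat_lit 0) (nat_lit 14010273308) (nat_lit 76) (nat_lit 11166773548) (nat_lit 152) (nat_lit 34977548353) (nat_lit 33) (nat_lit 5) (nat_lit 34) (nat_lit 5) (nat_lit 35) (nat_lit 4) (nat_lit 539) (nat_lit 404) (nat_lit 257))))) (XT.nd (nat_lit 312) (nat_lit 228) (nat_lit 0) (XT.nd (nat_lit 156) (nat_lit 76) (nat_lit 0) (XT.nd (nat_lit 78) (nat_lit 76) (nat_lit 0) (XT.lf (nat_lit 0) (nat_lit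 38475903022) (nat_lit 152) (nat_lit 20630295665) (nat_lit 0) (nat_lit 2443543409) (nat_lit 33) (nat_lit 5) (nat_lit 35) (nat_lit 4) (nat_lit 33) (nat_lit 4) (nat_lit 540) (nat_lit 404) (nat_lit 256)) (XT.lf (nat_lit 0) (nat_lit 5628984297) (nat_lit 76) (nat_lit 46699430889) (nat_lit 76) (nat_lit 10653687743) (nat_lit 32) (nat_lit 4) (nat_lit 33) (nat_lit 5) (nat_lit 33) (nat_lit 4) (nat_lit 541) (nat_lit 404) (nat_lit 255))) (XT.nd (nat_lit 78) (nat_lit 0) (nat_lit 0) (XT.lf (nat_lit 0) (nat_lit 2297741922) (nat_lit 152) (nat_lit 31394320765) (nat_lit 76) (nat_lit 30758742832) (nat_lit 31) (nat_lit 5) (nat_lit 33) (nat_lit 5) (nat_lit 32) (nat_lit 4) (nat_lit 542) (nat_lit 404) (nat_lit 254)) (XT.lf (nat_lit 0) (nat_lit 15413902945) (nat_lit 152) (nat_lit 4781129151) (nat_lit 76) (nat_lit 45765663344) (nat_lit 31) (nat_lit 5) (nat_lit 33) (nat_lit 5) (nat_lit 32) (nat_lit 4) (nat_lit 543) (nat_lit 404) (nat_lit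 253)))) (XT.nd (nat_lit 156) (nat_lit 152) (nat_lit 0) (XT.nd (nat_lit 78) (nat_lit 0) (nat_lit 0) (XT.lf (nat_lit 0) (nat_lit 23062145747) (nat_lit 76) (nat_lit 6073689576) (nat_lit 152) (nat_lit 38373678361) (nat_lit 30) (nat_lit 5) (nat_lit 31) (nat_lit 5) (nat_lit 32) (nat_lit 4) (nat_lit 544) (nat_lit 404) (nat_lit 252)) (XT.lf (nat_lit 0) (nat_lit 43390228178) (nat_lit 152) (nat_lit 17364882332) (nat_lit 0) (nat_lit 8346062104) (nat_lit 30) (nat_lit 5) (nat_lit 32) (nat_lit 4) (nat_lit 30) (nat_lit 4) (nat_lit 545) (nat_lit 404) (nat_lit 251))) (XT.nd (nat_lit 78) (nat_lit 76) (nat_lit 0) (XT.lf (nat_lit 0) (nat_lit 10660142268) (nat_lit 76) (nat_lit 47565604503) (nat_lit 76) (nat_lit 12510229931) (nat_lit 29) (nat_lit 4) (nat_lit 30) (nat_lit 5) (nat_lit 30) (nat_lit 4) (nat_lit 546) (nat_lit 404) (nat_lit 250)) (XT.lf (nat_lit 0) (nat_lit 1233284744) (nat_lit 152) (nat_lit 32562688579) (nat_lit 76) (nat_lit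 38618499049) (nat_lit 28) (nat_lit 5) (nat_lit 30) (nat_lit 5) (nat_lit 29) (nat_lit 4) (nat_lit 547) (nat_lit 404) (nat_lit 249))))))))
noncomputable def xc109 : XT := (XT.nd (nat_lit 53352) (nat_lit 0) (nat_lit 9120) (XT.nd (nat_lit 52182) (nat_lit 0) (nat_lit 18468) (XT.nd (nat_lit 51558) (nat_lit 0) (nat_lit 26980) (XT.nd (nat_lit 234) (nat_lit 76) (nat_lit 0) (XT.nd (nat_lit 78) (nat_lit 76) (nat_lit 0) (XT.lf (nat_lit 0) (nat_lit 15128819843) (nat_lit 152) (nat_lit 4365317412) (nat_lit 76) (nat_lit 54645735190) (nat_lit 28) (nat_lit 5) (nat_lit 30) (nat_lit 5) (nat_lit 29) (nat_lit 4) (nat_lit 548) (nat_lit 404) (nat_lit 248)) (XT.nd (nat_lit 78) (nat_lit 0) (nat_lit 0) (XT.lf (nat_lit 0) (nat_lit 25151979237) (nat_lit 76) (nat_lit 4522433716) (nat_lit 152) (nat_lit 46235625994) (nat_lit 27) (nat_lit 5) (nat_lit 28) (nat_lit 5) (nat_lit 29) (nat_lit 4) (nat_lit 549) (nat_lit 404) (nat_lit 247)) (XT.lf (nat_lit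 0) (nat_lit 44797081320) (nat_lit 152) (nat_lit 22209720607) (nat_lit 0) (nat_lit 10722287471) (nat_lit 27) (nat_lit 5) (nat_lit 29) (nat_lit 4) (nat_lit 27) (nat_lit 4) (nat_lit 550) (nat_lit 404) (nat_lit 246)))) (XT.nd (nat_lit 51168) (nat_lit 0) (nat_lit 28044) (XT.nd (nat_lit 51090) (nat_lit 0) (nat_lit 28500) (XT.lf (nat_lit 0) (nat_lit 7275948392) (nat_lit 76) (nat_lit 53203876048) (nat_lit 76) (nat_lit 19119695258) (nat_lit 26) (nat_lit 4) (nat_lit 27) (nat_lit 5) (nat_lit 27) (nat_lit 4) (nat_lit 551) (nat_lit 404) (nat_lit 245)) (XT.lf (nat_lit 0) (nat_lit 629341273) (nat_lit 0) (nat_lit 629341273) (nat_lit 380) (nat_lit 2015477948) (nat_lit 401) (nat_lit 5) (nat_lit 401) (nat_lit 3) (nat_lit 406) (nat_lit 3) (nat_lit 405) (nat_lit 405) (nat_lit 390))) (XT.nd (nat_lit 78) (nat_lit 456) (nat_lit 0) (XT.lf (nat_lit 0) (nat_lit 4529363721) (nat_lit 0) (nat_lit 510019948) (nat_lit 380) (nat_lit 1531694678)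 (nat_lit 401) (nat_lit 5) (nat_lit 401) (nat_lit 3) (nat_lit 406) (nat_lit 3) (nat_lit 406) (nat_lit 405) (nat_lit 389)) (XT.lf (nat_lit 0) (nat_lit 939625169) (nat_lit 456) (nat_lit 5332107582) (nat_lit 532) (nat_lit 324997893) (nat_lit 395) (nat_lit 5) (nat_lit 401) (nat_lit 5) (nat_lit 402) (nat_lit 5) (nat_lit 407) (nat_lit 405) (nat_lit 388))))) (XT.nd (nat_lit 312) (nat_lit 532) (nat_lit 0) (XT.nd (nat_lit 156) (nat_lit 532) (nat_lit 0) (XT.nd (nat_lit 78) (nat_lit 0) (nat_lit 0) (XT.lf (nat_lit 0) (nat_lit 3385031687) (nat_lit 456) (nat_lit 1984256491) (nat_lit 532) (nat_lit 1255521966) (nat_lit 395) (nat_lit 5) (nat_lit 401) (nat_lit 5) (nat_lit 402) (nat_lit 5) (nat_lit 408) (nat_lit 405) (nat_lit 387)) (XT.lf (nat_lit 76) (nat_lit 1440382422) (nat_lit 0) (nat_lit 4384896311) (nat_lit 532) (nat_lit 830842506) (nat_lit 396) (nat_lit 5) (nat_lit 395) (nat_lit 5) (nat_lit 402) (nat_lit 5) (nat_lit 409) (nat_lit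 405) (nat_lit 386))) (XT.nd (nat_lit 78) (nat_lit 0) (nat_lit 0) (XT.lf (nat_lit 0) (nat_lit 1547297985) (nat_lit 532) (nat_lit 1748489366) (nat_lit 608) (nat_lit 3394265796) (nat_lit 388) (nat_lit 5) (nat_lit 395) (nat_lit 5) (nat_lit 396) (nat_lit 5) (nat_lit 410) (nat_lit 405) (nat_lit 385)) (XT.lf (nat_lit 76) (nat_lit 1798093091) (nat_lit 0) (nat_lit 2110833570) (nat_lit 608) (nat_lit 2817994987) (nat_lit 389) (nat_lit 5) (nat_lit 388) (nat_lit 5) (nat_lit 396) (nat_lit 5) (nat_lit 411) (nat_lit 405) (nat_lit 384)))) (XT.nd (nat_lit 156) (nat_lit 0) (nat_lit 0) (XT.nd (nat_lit 78) (nat_lit 532) (nat_lit 0) (XT.lf (nat_lit 76) (nat_lit 5435875101) (nat_lit 0) (nat_lit 836829452) (nat_lit 608) (nat_lit 494282460) (nat_lit 389) (nat_lit 5) (nat_lit 388) (nat_lit 5) (nat_lit 396) (nat_lit 5) (nat_lit 412) (nat_lit 405) (nat_lit 383)) (XT.lf (nat_lit 0) (nat_lit 1805276936) (nat_lit 608) (nat_lit 4464006072) (nat_lit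 684) (nat_lit 540155931) (nat_lit 381) (nat_lit 5) (nat_lit 389) (nat_lit 5) (nat_lit 390) (nat_lit 5) (nat_lit 413) (nat_lit 405) (nat_lit 382))) (XT.nd (nat_lit 78) (nat_lit 0) (nat_lit 0) (XT.lf (nat_lit 0) (nat_lit 4103335604) (nat_lit 608) (nat_lit 760093973) (nat_lit 684) (nat_lit 1991431906) (nat_lit 381) (nat_lit 5) (nat_lit 389) (nat_lit 5) (nat_lit 390) (nat_lit 5) (nat_lit 414) (nat_lit 405) (nat_lit 381)) (XT.lf (nat_lit 76) (nat_lit 3062679129) (nat_lit 0) (nat_lit 3357084561) (nat_lit 684) (nat_lit 483426678) (nat_lit 382) (nat_lit 5) (nat_lit 381) (nat_lit 5) (nat_lit 390) (nat_lit 5) (nat_lit 415) (nat_lit 405) (nat_lit 380)))))) (XT.nd (nat_lit 546) (nat_lit 5472) (nat_lit 0) (XT.nd (nat_lit 234) (nat_lit 1748) (nat_lit 0) (XT.nd (nat_lit 78) (nat_lit 608) (nat_lit 0) (XT.lf (nat_lit 0) (nat_lit 1745337176) (nat_lit 684) (nat_lit 8014699) (nat_lit 760) (nat_lit 5201244689) (nat_lit 372) (nat_lit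 5) (nat_lit 381) (nat_lit 5) (nat_lit 382) (nat_lit 5) (nat_lit 416) (nat_lit 405) (nat_lit 379)) (XT.nd (nat_lit 78) (nat_lit 608) (nat_lit 0) (XT.lf (nat_lit 76) (nat_lit 3960391623) (nat_lit 0) (nat_lit 32249299) (nat_lit 760) (nat_lit 3015942879) (nat_lit 373) (nat_lit 5) (nat_lit 372) (nat_lit 5) (nat_lit 382) (nat_lit 5) (nat_lit 417) (nat_lit 405) (nat_lit 378)) (XT.lf (nat_lit 0) (nat_lit 931720182) (nat_lit 684) (nat_lit 5326707946) (nat_lit 760) (nat_lit 807254135) (nat_lit 364) (nat_lit 5) (nat_lit 373) (nat_lit 5) (nat_lit 374) (nat_lit 5) (nat_lit 418) (nat_lit 405) (nat_lit 377)))) (XT.nd (nat_lit 156) (nat_lit 912) (nat_lit 0) (XT.nd (nat_lit 78) (nat_lit 760) (nat_lit 0) (XT.lf (nat_lit 0) (nat_lit 1396676331) (nat_lit 760) (nat_lit 2099309227) (nat_lit 76) (nat_lit 3629378425) (nat_lit 363) (nat_lit 5) (nat_lit 373) (nat_lit 5) (nat_lit 364) (nat_lit 5) (nat_lit 419) (nat_lit 405) (nat_lit 376))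 (XT.lf (nat_lit 0) (nat_lit 2035170719) (nat_lit 760) (nat_lit 1563257590) (nat_lit 836) (nat_lit 3589751753) (nat_lit 353) (nat_lit 5) (nat_lit 363) (nat_lit 5) (nat_lit 364) (nat_lit 5) (nat_lit 420) (nat_lit 405) (nat_lit 375))) (XT.nd (nat_lit 78) (nat_lit 912) (nat_lit 0) (XT.lf (nat_lit 0) (nat_lit 5821868029) (nat_lit 836) (nat_lit 974551087) (nat_lit 76) (nat_lit 457813367) (nat_lit 353) (nat_lit 5) (nat_lit 364) (nat_lit 5) (nat_lit 354) (nat_lit 5) (nat_lit 421) (nat_lit 405) (nat_lit 374)) (XT.lf (nat_lit 0) (nat_lit 753709812) (nat_lit 912) (nat_lit 4004724370) (nat_lit 76) (nat_lit 2564242979) (nat_lit 341) (nat_lit 5) (nat_lit 353) (nat_lit 5) (nat_lit 342) (nat_lit 5) (nat_lit 422) (nat_lit 405) (nat_lit 373))))) (XT.nd (nat_lit 312) (nat_lit 3496) (nat_lit 0) (XT.nd (nat_lit 156) (nat_lit 1064) (nat_lit 0) (XT.nd (nat_lit 78) (nat_lit 0) (nat_lit 0) (XT.lf (nat_lit 0) (nat_lit 304036795) (nat_lit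 912) (nat_lit 2618348405) (nat_lit 988) (nat_lit 4472009425) (nat_lit 329) (nat_lit 5) (nat_lit 341) (nat_lit 5) (nat_lit 342) (nat_lit 5) (nat_lit 423) (nat_lit 405) (nat_lit 372)) (XT.lf (nat_lit 0) (nat_lit 4770736627) (nat_lit 912) (nat_lit 360210535) (nat_lit 988) (nat_lit 2338090245) (nat_lit 329) (nat_lit 5) (nat_lit 341) (nat_lit 5) (nat_lit 342) (nat_lit 5) (nat_lit 424) (nat_lit 405) (nat_lit 371))) (XT.nd (nat_lit 78) (nat_lit 76) (nat_lit 0) (XT.lf (nat_lit 0) (nat_lit 1787601084) (nat_lit 988) (nat_lit 5590654997) (nat_lit 1064) (nat_lit 168506729) (nat_lit 316) (nat_lit 5) (nat_lit 329) (nat_lit 5) (nat_lit 330) (nat_lit 5) (nat_lit 425) (nat_lit 405) (nat_lit 370)) (XT.lf (nat_lit 0) (nat_lit 1994046605) (nat_lit 1064) (nat_lit 1240951706) (nat_lit 76) (nat_lit 4392196815) (nat_lit 315) (nat_lit 5) (nat_lit 329) (nat_lit 5) (nat_lit 316) (nat_lit 5) (nat_lit 426) (nat_lit 405) (nat_lit 369)))) (XT.nd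 (nat_lit 156) (nat_lit 1292) (nat_lit 0) (XT.nd (nat_lit 78) (nat_lit 1140) (nat_lit 0) (XT.lf (nat_lit 0) (nat_lit 3424916032) (nat_lit 1064) (nat_lit 765044482) (nat_lit 1140) (nat_lit 3520890232) (nat_lit 301) (nat_lit 5) (nat_lit 315) (nat_lit 5) (nat_lit 316) (nat_lit 5) (nat_lit 427) (nat_lit 405) (nat_lit 368)) (XT.lf (nat_lit 0) (nat_lit 395641854) (nat_lit 1140) (nat_lit 6029960584) (nat_lit 1216) (nat_lit 1372214108) (nat_lit 286) (nat_lit 5) (nat_lit 301) (nat_lit 5) (nat_lit 302) (nat_lit 5) (nat_lit 428) (nat_lit 405) (nat_lit 367))) (XT.nd (nat_lit 78) (nat_lit 1216) (nat_lit 0) (XT.lf (nat_lit 0) (nat_lit 816713738) (nat_lit 1216) (nat_lit 2651725487) (nat_lit 76) (nat_lit 4418958675) (nat_lit 285) (nat_lit 5) (nat_lit 301) (nat_lit 5) (nat_lit 286) (nat_lit 5) (nat_lit 429) (nat_lit 405) (nat_lit 366)) (XT.lf (nat_lit 0) (nat_lit 2217456365) (nat_lit 1216) (nat_lit 790227407) (nat_lit 1292) (nat_lit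 4972671369) (nat_lit 269) (nat_lit 5) (nat_lit 285) (nat_lit 5) (nat_lit 286) (nat_lit 5) (nat_lit 430) (nat_lit 405) (nat_lit 365))))))) (XT.nd (nat_lit 1170) (nat_lit 4028) (nat_lit 0) (XT.nd (nat_lit 546) (nat_lit 2660) (nat_lit 0) (XT.nd (nat_lit 234) (nat_lit 1216) (nat_lit 0) (XT.nd (nat_lit 78) (nat_lit 1444) (nat_lit 0) (XT.lf (nat_lit 0) (nat_lit 5254178138) (nat_lit 1292) (nat_lit 862084739) (nat_lit 76) (nat_lit 1960158608) (nat_lit 269) (nat_lit 5) (nat_lit 286) (nat_lit 5) (nat_lit 270) (nat_lit 5) (nat_lit 431) (nat_lit 405) (nat_lit 364)) (XT.nd (nat_lit 78) (nat_lit 684) (nat_lit 0) (XT.lf (nat_lit 0) (nat_lit 4206942200) (nat_lit 760) (nat_lit 3354856909) (nat_lit 836) (nat_lit 613772585) (nat_lit 259) (nat_lit 5) (nat_lit 269) (nat_lit 5) (nat_lit 270) (nat_lit 5) (nat_lit 432) (nat_lit 405) (nat_lit 363)) (XT.lf (nat_lit 0) (nat_lit 1120440896) (nat_lit 608) (nat_lit 473670916) (nat_lit 684)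 (nat_lit 6684151525) (nat_lit 250) (nat_lit 5) (nat_lit 258) (nat_lit 5) (nat_lit 259) (nat_lit 5) (nat_lit 433) (nat_lit 405) (nat_lit 362)))) (XT.nd (nat_lit 156) (nat_lit 608) (nat_lit 0) (XT.nd (nat_lit 78) (nat_lit 608) (nat_lit 0) (XT.lf (nat_lit 0) (nat_lit 3867410896) (nat_lit 684) (nat_lit 2024464167) (nat_lit 76) (nat_lit 2491645582) (nat_lit 250) (nat_lit 5) (nat_lit 259) (nat_lit 5) (nat_lit 251) (nat_lit 5) (nat_lit 434) (nat_lit 405) (nat_lit 361)) (XT.lf (nat_lit 0) (nat_lit 3268866196) (nat_lit 608) (nat_lit 2924765427) (nat_lit 684) (nat_lit 2298774653) (nat_lit 242) (nat_lit 5) (nat_lit 250) (nat_lit 5) (nat_lit 251) (nat_lit 5) (nat_lit 435) (nat_lit 405) (nat_lit 360))) (XT.nd (nat_lit 78) (nat_lit 76) (nat_lit 0) (XT.lf (nat_lit 0) (nat_lit 105027159) (nat_lit 532) (nat_lit 8457110024) (nat_lit 608) (nat_lit 43258277) (nat_lit 235) (nat_lit 5) (nat_lit 242) (nat_lit 5) (nat_lit 243) (nat_lit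 5) (nat_lit 436) (nat_lit 405) (nat_lit 359)) (XT.lf (nat_lit 0) (nat_lit 2267694712) (nat_lit 608) (nat_lit 3125642609) (nat_lit 76) (nat_lit 3326822939) (nat_lit 234) (nat_lit 5) (nat_lit 242) (nat_lit 5) (nat_lit 235) (nat_lit 5) (nat_lit 437) (nat_lit 405) (nat_lit 358))))) (XT.nd (nat_lit 312) (nat_lit 988) (nat_lit 0) (XT.nd (nat_lit 156) (nat_lit 1140) (nat_lit 0) (XT.nd (nat_lit 78) (nat_lit 0) (nat_lit 0) (XT.lf (nat_lit 0) (nat_lit 2403810113) (nat_lit 532) (nat_lit 2217891782) (nat_lit 608) (nat_lit 4217426325) (nat_lit 227) (nat_lit 5) (nat_lit 234) (nat_lit 5) (nat_lit 235) (nat_lit 5) (nat_lit 438) (nat_lit 405) (nat_lit 357)) (XT.lf (nat_lit 0) (nat_lit 7040674877) (nat_lit 608) (nat_lit 861797900) (nat_lit 76) (nat_lit 1059372671) (nat_lit 227) (nat_lit 5) (nat_lit 235) (nat_lit 5) (nat_lit 228) (nat_lit 5) (nat_lit 439) (nat_lit 405) (nat_lit 356))) (XT.nd (nat_lit 78) (nat_lit 532) (nat_lit 0)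 (XT.lf (nat_lit 0) (nat_lit 458326727) (nat_lit 608) (nat_lit 4191769715) (nat_lit 76) (nat_lit 4437339186) (nat_lit 219) (nat_lit 5) (nat_lit 227) (nat_lit 5) (nat_lit 220) (nat_lit 5) (nat_lit 440) (nat_lit 405) (nat_lit 355)) (XT.lf (nat_lit 0) (nat_lit 1586123759) (nat_lit 532) (nat_lit 1262634986) (nat_lit 608) (nat_lit 6368128921) (nat_lit 212) (nat_lit 5) (nat_lit 219) (nat_lit 5) (nat_lit 220) (nat_lit 5) (nat_lit 441) (nat_lit 405) (nat_lit 354)))) (XT.nd (nat_lit 156) (nat_lit 532) (nat_lit 0) (XT.nd (nat_lit 78) (nat_lit 456) (nat_lit 0) (XT.lf (nat_lit 0) (nat_lit 5329947119) (nat_lit 608) (nat_lit 1800975140) (nat_lit 76) (nat_lit 2218739118) (nat_lit 212) (nat_lit 5) (nat_lit 220) (nat_lit 5) (nat_lit 213) (nat_lit 5) (nat_lit 442) (nat_lit 405) (nat_lit 353)) (XT.lf (nat_lit 0) (nat_lit 4221661657) (nat_lit 456) (nat_lit 3673199438) (nat_lit 532) (nat_lit 1591287648) (nat_lit 206) (nat_lit 5) (nat_lit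 212) (nat_lit 5) (nat_lit 213) (nat_lit 5) (nat_lit 443) (nat_lit 405) (nat_lit 352))) (XT.nd (nat_lit 78) (nat_lit 0) (nat_lit 0) (XT.lf (nat_lit 0) (nat_lit 789908812) (nat_lit 456) (nat_lit 84839340) (nat_lit 532) (nat_lit 8752253364) (nat_lit 199) (nat_lit 5) (nat_lit 205) (nat_lit 5) (nat_lit 206) (nat_lit 5) (nat_lit 444) (nat_lit 405) (nat_lit 351)) (XT.lf (nat_lit 0) (nat_lit 3428416260) (nat_lit 532) (nat_lit 2740603055) (nat_lit 76) (nat_lit 3601227227) (nat_lit 199) (nat_lit 5) (nat_lit 206) (nat_lit 5) (nat_lit 200) (nat_lit 5) (nat_lit 445) (nat_lit 405) (nat_lit 350)))))) (XT.nd (nat_lit 624) (nat_lit 1824) (nat_lit 0) (XT.nd (nat_lit 312) (nat_lit 836) (nat_lit 0) (XT.nd (nat_lit 156) (nat_lit 912) (nat_lit 0) (XT.nd (nat_lit 78) (nat_lit 0) (nat_lit 0) (XT.lf (nat_lit 0) (nat_lit 3555895677) (nat_lit 456) (nat_lit 2496300177) (nat_lit 532) (nat_lit 3865796144) (nat_lit 193) (nat_lit 5) (nat_lit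 199) (nat_lit 5) (nat_lit 200) (nat_lit 5) (nat_lit 446) (nat_lit 405) (nat_lit 349)) (XT.lf (nat_lit 0) (nat_lit 8754107539) (nat_lit 532) (nat_lit 36576341) (nat_lit 76) (nat_lit 1279511262) (nat_lit 193) (nat_lit 5) (nat_lit 200) (nat_lit 5) (nat_lit 194) (nat_lit 5) (nat_lit 447) (nat_lit 405) (nat_lit 348))) (XT.nd (nat_lit 78) (nat_lit 380) (nat_lit 0) (XT.lf (nat_lit 0) (nat_lit 1332801132) (nat_lit 532) (nat_lit 3707718327) (nat_lit 76) (nat_lit 5184626928) (nat_lit 186) (nat_lit 5) (nat_lit 193) (nat_lit 5) (nat_lit 187) (nat_lit 5) (nat_lit 448) (nat_lit 405) (nat_lit 347)) (XT.lf (nat_lit 0) (nat_lit 2876316287) (nat_lit 380) (nat_lit 1146985313) (nat_lit 456) (nat_lit 6361402954) (nat_lit 181) (nat_lit 5) (nat_lit 186) (nat_lit 5) (nat_lit 187) (nat_lit 5) (nat_lit 449) (nat_lit 405) (nat_lit 346)))) (XT.nd (nat_lit 156) (nat_lit 456) (nat_lit 0) (XT.nd (nat_lit 78) (nat_lit 380) (nat_lit 0) (XT.lf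 (nat_lit 0) (nat_lit 6820980978) (nat_lit 456) (nat_lit 893348778) (nat_lit 76) (nat_lit 2833932800) (nat_lit 181) (nat_lit 5) (nat_lit 187) (nat_lit 5) (nat_lit 182) (nat_lit 5) (nat_lit 450) (nat_lit 405) (nat_lit 345)) (XT.lf (nat_lit 0) (nat_lit 5975481939) (nat_lit 380) (nat_lit 3758165453) (nat_lit 456) (nat_lit 982155008) (nat_lit 176) (nat_lit 5) (nat_lit 181) (nat_lit 5) (nat_lit 182) (nat_lit 5) (nat_lit 451) (nat_lit 405) (nat_lit 344))) (XT.nd (nat_lit 78) (nat_lit 0) (nat_lit 0) (XT.lf (nat_lit 0) (nat_lit 1805042281) (nat_lit 456) (nat_lit 8736826351) (nat_lit 76) (nat_lit 346102292) (nat_lit 170) (nat_lit 5) (nat_lit 176) (nat_lit 5) (nat_lit 171) (nat_lit 5) (nat_lit 452) (nat_lit 405) (nat_lit 343)) (XT.lf (nat_lit 0) (nat_lit 4704668505) (nat_lit 456) (nat_lit 1815418410) (nat_lit 76) (nat_lit 4543475482) (nat_lit 170) (nat_lit 5) (nat_lit 176) (nat_lit 5) (nat_lit 171) (nat_lit 5) (nat_lit 453)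 (nat_lit 405) (nat_lit 342))))) (XT.nd (nat_lit 312) (nat_lit 684) (nat_lit 0) (XT.nd (nat_lit 156) (nat_lit 456) (nat_lit 0) (XT.nd (nat_lit 78) (nat_lit 304) (nat_lit 0) (XT.lf (nat_lit 0) (nat_lit 5369212580) (nat_lit 380) (nat_lit 2337762625) (nat_lit 456) (nat_lit 3536981704) (nat_lit 165) (nat_lit 5) (nat_lit 170) (nat_lit 5) (nat_lit 171) (nat_lit 5) (nat_lit 454) (nat_lit 405) (nat_lit 341)) (XT.lf (nat_lit 0) (nat_lit 1334661669) (nat_lit 304) (nat_lit 9479498881) (nat_lit 380) (nat_lit 615164289) (nat_lit 161) (nat_lit 5) (nat_lit 165) (nat_lit 5) (nat_lit 166) (nat_lit 5) (nat_lit 455) (nat_lit 405) (nat_lit 340))) (XT.nd (nat_lit 78) (nat_lit 380) (nat_lit 0) (XT.lf (nat_lit 0) (nat_lit 2395381387) (nat_lit 380) (nat_lit 2834314641) (nat_lit 76) (nat_lit 6388438985) (nat_lit 160) (nat_lit 5) (nat_lit 165) (nat_lit 5) (nat_lit 161) (nat_lit 5) (nat_lit 456) (nat_lit 405) (nat_lit 339)) (XT.lf (nat_lit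 0) (nat_lit 4680675089) (nat_lit 380) (nat_lit 813963082) (nat_lit 456) (nat_lit 6317471199) (nat_lit 155) (nat_lit 5) (nat_lit 160) (nat_lit 5) (nat_lit 161) (nat_lit 5) (nat_lit 457) (nat_lit 405) (nat_lit 338)))) (XT.nd (nat_lit 156) (nat_lit 380) (nat_lit 0) (XT.nd (nat_lit 78) (nat_lit 0) (nat_lit 0) (XT.lf (nat_lit 0) (nat_lit 390797585) (nat_lit 304) (nat_lit 8330796676) (nat_lit 380) (nat_lit 3289272264) (nat_lit 151) (nat_lit 5) (nat_lit 155) (nat_lit 5) (nat_lit 156) (nat_lit 5) (nat_lit 458) (nat_lit 405) (nat_lit 337)) (XT.lf (nat_lit 0) (nat_lit 8228323073) (nat_lit 304) (nat_lit 3863715100) (nat_lit 380) (nat_lit 122152909) (nat_lit 151) (nat_lit 5) (nat_lit 155) (nat_lit 5) (nat_lit 156) (nat_lit 5) (nat_lit 459) (nat_lit 405) (nat_lit 336))) (XT.nd (nat_lit 78) (nat_lit 0) (nat_lit 0) (XT.lf (nat_lit 0) (nat_lit 3090901824) (nat_lit 380) (nat_lit 8554983073) (nat_lit 76) (nat_lit 776463922) (nat_lit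 146) (nat_lit 5) (nat_lit 151) (nat_lit 5) (nat_lit 147) (nat_lit 5) (nat_lit 460) (nat_lit 405) (nat_lit 335)) (XT.lf (nat_lit 0) (nat_lit 6444481331) (nat_lit 380) (nat_lit 685451197) (nat_lit 76) (nat_lit 5505389462) (nat_lit 146) (nat_lit 5) (nat_lit 151) (nat_lit 5) (nat_lit 147) (nat_lit 5) (nat_lit 461) (nat_lit 405) (nat_lit 334))))))))
noncomputable def xc110 : XT := (XT.nd (nat_lit 2340) (nat_lit 2812) (nat_lit 0) (XT.nd (nat_lit 1170) (nat_lit 1900) (nat_lit 0) (XT.nd (nat_lit 546) (nat_lit 1368) (nat_lit 0) (XT.nd (nat_lit 234) (nat_lit 836) (nat_lit 0) (XT.nd (nat_lit 78) (nat_lit 380) (nat_lit 0) (XT.lf (nat_lit 0) (nat_lit 7520364830) (nat_lit 304) (nat_lit 2419220649) (nat_lit 380) (nat_lit 2913875855) (nat_lit 142) (nat_lit 5) (nat_lit 146) (nat_lit 5) (nat_lit 147) (nat_lit 5) (nat_lit 462) (nat_lit 405) (nat_lit 333)) (XT.nd (nat_lit 78) (nat_lit 0) (nat_lit 0) (XT.lf (nat_lit 0) (nat_lit 479811250)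 (nat_lit 380) (nat_lit 10187419472) (nat_lit 76) (nat_lit 2409962813) (nat_lit 137) (nat_lit 5) (nat_lit 142) (nat_lit 5) (nat_lit 138) (nat_lit 5) (nat_lit 463) (nat_lit 405) (nat_lit 332)) (XT.lf (nat_lit 0) (nat_lit 3964185280) (nat_lit 380) (nat_lit 1937743876) (nat_lit 76) (nat_lit 7403423882) (nat_lit 137) (nat_lit 5) (nat_lit 142) (nat_lit 5) (nat_lit 138) (nat_lit 5) (nat_lit 464) (nat_lit 405) (nat_lit 331)))) (XT.nd (nat_lit 156) (nat_lit 304) (nat_lit 0) (XT.nd (nat_lit 78) (nat_lit 304) (nat_lit 0) (XT.lf (nat_lit 0) (nat_lit 6643388872) (nat_lit 228) (nat_lit 943564529) (nat_lit 304) (nat_lit 5952392036) (nat_lit 134) (nat_lit 5) (nat_lit 137) (nat_lit 5) (nat_lit 138) (nat_lit 5) (nat_lit 465) (nat_lit 405) (nat_lit 330)) (XT.lf (nat_lit 0) (nat_lit 1688680891) (nat_lit 304) (nat_lit 9676031056) (nat_lit 380) (nat_lit 2414260317) (nat_lit 130) (nat_lit 5) (nat_lit 134) (nat_lit 5) (nat_lit 135) (nat_lit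 5) (nat_lit 466) (nat_lit 405) (nat_lit 329))) (XT.nd (nat_lit 78) (nat_lit 228) (nat_lit 0) (XT.lf (nat_lit 0) (nat_lit 1256105867) (nat_lit 380) (nat_lit 3419439884) (nat_lit 76) (nat_lit 9348388317) (nat_lit 129) (nat_lit 5) (nat_lit 134) (nat_lit 5) (nat_lit 130) (nat_lit 5) (nat_lit 467) (nat_lit 405) (nat_lit 328)) (XT.lf (nat_lit 0) (nat_lit 5017883211) (nat_lit 304) (nat_lit 8728771303) (nat_lit 76) (nat_lit 527981921) (nat_lit 126) (nat_lit 5) (nat_lit 130) (nat_lit 5) (nat_lit 127) (nat_lit 5) (nat_lit 468) (nat_lit 405) (nat_lit 327))))) (XT.nd (nat_lit 312) (nat_lit 760) (nat_lit 0) (XT.nd (nat_lit 156) (nat_lit 304) (nat_lit 0) (XT.nd (nat_lit 78) (nat_lit 0) (nat_lit 0) (XT.lf (nat_lit 0) (nat_lit 231258315) (nat_lit 304) (nat_lit 8716185507) (nat_lit 380) (nat_lit 5583771599) (nat_lit 122) (nat_lit 5) (nat_lit 126) (nat_lit 5) (nat_lit 127) (nat_lit 5) (nat_lit 469) (nat_lit 405) (nat_lit 326)) (XT.lf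 (nat_lit 0) (nat_lit 9594441016) (nat_lit 304) (nat_lit 3460536941) (nat_lit 380) (nat_lit 1738714566) (nat_lit 122) (nat_lit 5) (nat_lit 126) (nat_lit 5) (nat_lit 127) (nat_lit 5) (nat_lit 470) (nat_lit 405) (nat_lit 325))) (XT.nd (nat_lit 78) (nat_lit 0) (nat_lit 0) (XT.lf (nat_lit 0) (nat_lit 2210340378) (nat_lit 304) (nat_lit 10891177445) (nat_lit 76) (nat_lit 1960928597) (nat_lit 118) (nat_lit 5) (nat_lit 122) (nat_lit 5) (nat_lit 119) (nat_lit 5) (nat_lit 471) (nat_lit 405) (nat_lit 324)) (XT.lf (nat_lit 0) (nat_lit 6302920577) (nat_lit 304) (nat_lit 1504262908) (nat_lit 76) (nat_lit 7529766059) (nat_lit 118) (nat_lit 5) (nat_lit 122) (nat_lit 5) (nat_lit 119) (nat_lit 5) (nat_lit 472) (nat_lit 405) (nat_lit 323)))) (XT.nd (nat_lit 156) (nat_lit 304) (nat_lit 0) (XT.nd (nat_lit 78) (nat_lit 228) (nat_lit 0) (XT.lf (nat_lit 0) (nat_lit 8283113697) (nat_lit 228) (nat_lit 2288296777) (nat_lit 304) (nat_lit 5046686292)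 (nat_lit 115) (nat_lit 5) (nat_lit 118) (nat_lit 5) (nat_lit 119) (nat_lit 5) (nat_lit 473) (nat_lit 405) (nat_lit 322)) (XT.lf (nat_lit 0) (nat_lit 2459940829) (nat_lit 228) (nat_lit 12553365394) (nat_lit 304) (nat_lit 893014534) (nat_lit 112) (nat_lit 5) (nat_lit 115) (nat_lit 5) (nat_lit 116) (nat_lit 5) (nat_lit 474) (nat_lit 405) (nat_lit 321))) (XT.nd (nat_lit 78) (nat_lit 228) (nat_lit 0) (XT.lf (nat_lit 0) (nat_lit 3390482440) (nat_lit 304) (nat_lit 3600920354) (nat_lit 76) (nat_lit 9208676942) (nat_lit 111) (nat_lit 5) (nat_lit 115) (nat_lit 5) (nat_lit 112) (nat_lit 5) (nat_lit 475) (nat_lit 405) (nat_lit 320)) (XT.lf (nat_lit 0) (nat_lit 6618372338) (nat_lit 228) (nat_lit 1204360906) (nat_lit 304) (nat_lit 8678509700) (nat_lit 108) (nat_lit 5) (nat_lit 111) (nat_lit 5) (nat_lit 112) (nat_lit 5) (nat_lit 476) (nat_lit 405) (nat_lit 319)))))) (XT.nd (nat_lit 546) (nat_lit 988) (nat_lit 0) (XT.nd (nat_lit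 234) (nat_lit 456) (nat_lit 0) (XT.nd (nat_lit 78) (nat_lit 304) (nat_lit 0) (XT.lf (nat_lit 0) (nat_lit 325964411) (nat_lit 152) (nat_lit 12122326056) (nat_lit 228) (nat_lit 4361342979) (nat_lit 106) (nat_lit 5) (nat_lit 108) (nat_lit 5) (nat_lit 109) (nat_lit 5) (nat_lit 477) (nat_lit 405) (nat_lit 318)) (XT.nd (nat_lit 78) (nat_lit 228) (nat_lit 0) (XT.lf (nat_lit 0) (nat_lit 171232485) (nat_lit 228) (nat_lit 6136476732) (nat_lit 76) (nat_lit 10816917485) (nat_lit 105) (nat_lit 5) (nat_lit 108) (nat_lit 5) (nat_lit 106) (nat_lit 5) (nat_lit 478) (nat_lit 405) (nat_lit 317)) (XT.lf (nat_lit 0) (nat_lit 4525366763) (nat_lit 228) (nat_lit 245841860) (nat_lit 304) (nat_lit 12675995569) (nat_lit 102) (nat_lit 5) (nat_lit 105) (nat_lit 5) (nat_lit 106) (nat_lit 5) (nat_lit 479) (nat_lit 405) (nat_lit 316)))) (XT.nd (nat_lit 156) (nat_lit 304) (nat_lit 0) (XT.nd (nat_lit 78) (nat_lit 152) (nat_lit 0) (XT.lf (nat_lit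 0) (nat_lit 9605165204) (nat_lit 304) (nat_lit 2244067430) (nat_lit 76) (nat_lit 5927349214) (nat_lit 102) (nat_lit 5) (nat_lit 106) (nat_lit 5) (nat_lit 103) (nat_lit 5) (nat_lit 480) (nat_lit 405) (nat_lit 315)) (XT.lf (nat_lit 0) (nat_lit 8885122230) (nat_lit 152) (nat_lit 5763313931) (nat_lit 228) (nat_lit 3465478016) (nat_lit 100) (nat_lit 5) (nat_lit 102) (nat_lit 5) (nat_lit 103) (nat_lit 5) (nat_lit 481) (nat_lit 405) (nat_lit 314))) (XT.nd (nat_lit 78) (nat_lit 0) (nat_lit 0) (XT.lf (nat_lit 0) (nat_lit 1377760036) (nat_lit 304) (nat_lit 16548198380) (nat_lit 76) (nat_lit 534319249) (nat_lit 96) (nat_lit 5) (nat_lit 100) (nat_lit 5) (nat_lit 97) (nat_lit 5) (nat_lit 482) (nat_lit 405) (nat_lit 313)) (XT.lf (nat_lit 0) (nat_lit 6424493189) (nat_lit 304) (nat_lit 5370262015) (nat_lit 76) (nat_lit 7017414010) (nat_lit 96) (nat_lit 5) (nat_lit 100) (nat_lit 5) (nat_lit 97) (nat_lit 5) (nat_lit 483) (nat_lit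 405) (nat_lit 312))))) (XT.nd (nat_lit 312) (nat_lit 380) (nat_lit 0) (XT.nd (nat_lit 156) (nat_lit 456) (nat_lit 0) (XT.nd (nat_lit 78) (nat_lit 0) (nat_lit 0) (XT.lf (nat_lit 0) (nat_lit 6225576737) (nat_lit 152) (nat_lit 5434247805) (nat_lit 228) (nat_lit 7513679047) (nat_lit 94) (nat_lit 5) (nat_lit 96) (nat_lit 5) (nat_lit 97) (nat_lit 5) (nat_lit 484) (nat_lit 405) (nat_lit 311)) (XT.lf (nat_lit 0) (nat_lit 17095205713) (nat_lit 228) (nat_lit 1315005007) (nat_lit 76) (nat_lit 1134179487) (nat_lit 94) (nat_lit 5) (nat_lit 97) (nat_lit 5) (nat_lit 95) (nat_lit 5) (nat_lit 485) (nat_lit 405) (nat_lit 310))) (XT.nd (nat_lit 78) (nat_lit 152) (nat_lit 0) (XT.lf (nat_lit 0) (nat_lit 2850211256) (nat_lit 304) (nat_lit 9164630061) (nat_lit 76) (nat_lit 7906656933) (nat_lit 90) (nat_lit 5) (nat_lit 94) (nat_lit 5) (nat_lit 91) (nat_lit 5) (nat_lit 486) (nat_lit 405) (nat_lit 309)) (XT.lf (nat_lit 0) (nat_lit 2902611270)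 (nat_lit 152) (nat_lit 5376265423) (nat_lit 228) (nat_lit 12029731688) (nat_lit 88) (nat_lit 5) (nat_lit 90) (nat_lit 5) (nat_lit 91) (nat_lit 5) (nat_lit 487) (nat_lit 405) (nat_lit 308)))) (XT.nd (nat_lit 156) (nat_lit 228) (nat_lit 0) (XT.nd (nat_lit 78) (nat_lit 152) (nat_lit 0) (XT.lf (nat_lit 0) (nat_lit 13956232339) (nat_lit 228) (nat_lit 5237886005) (nat_lit 76) (nat_lit 1510640259) (nat_lit 88) (nat_lit 5) (nat_lit 91) (nat_lit 5) (nat_lit 89) (nat_lit 5) (nat_lit 488) (nat_lit 405) (nat_lit 307)) (XT.lf (nat_lit 0) (nat_lit 7348440885) (nat_lit 152) (nat_lit 12558287911) (nat_lit 228) (nat_lit 1202981580) (nat_lit 86) (nat_lit 5) (nat_lit 88) (nat_lit 5) (nat_lit 89) (nat_lit 5) (nat_lit 489) (nat_lit 405) (nat_lit 306))) (XT.nd (nat_lit 78) (nat_lit 152) (nat_lit 0) (XT.lf (nat_lit 0) (nat_lit 4453365705) (nat_lit 228) (nat_lit 1186409557) (nat_lit 76) (nat_lit 15884764060) (nat_lit 85) (nat_lit 5) (nat_lit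 88) (nat_lit 5) (nat_lit 86) (nat_lit 5) (nat_lit 490) (nat_lit 405) (nat_lit 305)) (XT.lf (nat_lit 0) (nat_lit 10365115041) (nat_lit 228) (nat_lit 10012991480) (nat_lit 76) (nat_lit 1570054090) (nat_lit 83) (nat_lit 5) (nat_lit 86) (nat_lit 5) (nat_lit 84) (nat_lit 5) (nat_lit 491) (nat_lit 405) (nat_lit 304))))))) (XT.nd (nat_lit 1170) (nat_lit 1216) (nat_lit 0) (XT.nd (nat_lit 546) (nat_lit 836) (nat_lit 0) (XT.nd (nat_lit 234) (nat_lit 380) (nat_lit 0) (XT.nd (nat_lit 78) (nat_lit 228) (nat_lit 0) (XT.lf (nat_lit 0) (nat_lit 3058230096) (nat_lit 152) (nat_lit 13473042313) (nat_lit 228) (nat_lit 5850907926) (nat_lit 81) (nat_lit 5) (nat_lit 83) (nat_lit 5) (nat_lit 84) (nat_lit 5) (nat_lit 492) (nat_lit 405) (nat_lit 303)) (XT.nd (nat_lit 78) (nat_lit 152) (nat_lit 0) (XT.lf (nat_lit 0) (nat_lit 134035709) (nat_lit 228) (nat_lit 6136978600) (nat_lit 76) (nat_lit 16555735984) (nat_lit 80) (nat_lit 5) (nat_lit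 83) (nat_lit 5) (nat_lit 81) (nat_lit 5) (nat_lit 493) (nat_lit 405) (nat_lit 302)) (XT.lf (nat_lit 0) (nat_lit 6245536352) (nat_lit 228) (nat_lit 15794580881) (nat_lit 76) (nat_lit 1240865377) (nat_lit 78) (nat_lit 5) (nat_lit 81) (nat_lit 5) (nat_lit 79) (nat_lit 5) (nat_lit 494) (nat_lit 405) (nat_lit 301)))) (XT.nd (nat_lit 156) (nat_lit 228) (nat_lit 0) (XT.nd (nat_lit 78) (nat_lit 152) (nat_lit 0) (XT.lf (nat_lit 0) (nat_lit 12645503808) (nat_lit 228) (nat_lit 2200563938) (nat_lit 76) (nat_lit 8899621797) (nat_lit 78) (nat_lit 5) (nat_lit 81) (nat_lit 5) (nat_lit 79) (nat_lit 5) (nat_lit 495) (nat_lit 405) (nat_lit 300)) (XT.lf (nat_lit 0) (nat_lit 12001322868) (nat_lit 152) (nat_lit 7332528479) (nat_lit 228) (nat_lit 4887596166) (nat_lit 76) (nat_lit 5) (nat_lit 78) (nat_lit 5) (nat_lit 79) (nat_lit 5) (nat_lit 496) (nat_lit 405) (nat_lit 299))) (XT.nd (nat_lit 78) (nat_lit 0) (nat_lit 0) (XT.lf (nat_lit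 0) (nat_lit 1508461264) (nat_lit 228) (nat_lit 22761949902) (nat_lit 76) (nat_lit 439834925) (nat_lit 73) (nat_lit 5) (nat_lit 76) (nat_lit 5) (nat_lit 74) (nat_lit 5) (nat_lit 497) (nat_lit 405) (nat_lit 298)) (XT.lf (nat_lit 0) (nat_lit 8176523874) (nat_lit 228) (nat_lit 8574214710) (nat_lit 76) (nat_lit 8456168657) (nat_lit 73) (nat_lit 5) (nat_lit 76) (nat_lit 5) (nat_lit 74) (nat_lit 5) (nat_lit 498) (nat_lit 405) (nat_lit 297))))) (XT.nd (nat_lit 312) (nat_lit 456) (nat_lit 0) (XT.nd (nat_lit 156) (nat_lit 228) (nat_lit 0) (XT.nd (nat_lit 78) (nat_lit 0) (nat_lit 0) (XT.lf (nat_lit 0) (nat_lit 6125414267) (nat_lit 152) (nat_lit 8959783609) (nat_lit 228) (nat_lit 10632054384) (nat_lit 71) (nat_lit 5) (nat_lit 73) (nat_lit 5) (nat_lit 74) (nat_lit 5) (nat_lit 499) (nat_lit 405) (nat_lit 296)) (XT.lf (nat_lit 0) (nat_lit 21408854094) (nat_lit 152) (nat_lit 860765749) (nat_lit 228) (nat_lit 3971234243) (nat_lit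 71) (nat_lit 5) (nat_lit 73) (nat_lit 5) (nat_lit 74) (nat_lit 5) (nat_lit 500) (nat_lit 405) (nat_lit 295))) (XT.nd (nat_lit 78) (nat_lit 0) (nat_lit 0) (XT.lf (nat_lit 0) (nat_lit 2989417941) (nat_lit 228) (nat_lit 16334158902) (nat_lit 76) (nat_lit 7451063199) (nat_lit 68) (nat_lit 5) (nat_lit 71) (nat_lit 5) (nat_lit 69) (nat_lit 5) (nat_lit 501) (nat_lit 405) (nat_lit 294)) (XT.lf (nat_lit 0) (nat_lit 10119197896) (nat_lit 228) (nat_lit 1133518959) (nat_lit 76) (nat_lit 16069340360) (nat_lit 68) (nat_lit 5) (nat_lit 71) (nat_lit 5) (nat_lit 69) (nat_lit 5) (nat_lit 502) (nat_lit 405) (nat_lit 293)))) (XT.nd (nat_lit 156) (nat_lit 228) (nat_lit 0) (XT.nd (nat_lit 78) (nat_lit 76) (nat_lit 0) (XT.lf (nat_lit 0) (nat_lit 14780090382) (nat_lit 152) (nat_lit 2807697706) (nat_lit 228) (nat_lit 10294362278) (nat_lit 66) (nat_lit 5) (nat_lit 68) (nat_lit 5) (nat_lit 69) (nat_lit 5) (nat_lit 503) (nat_lit 405) (nat_lit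 292)) (XT.lf (nat_lit 0) (nat_lit 2700063640) (nat_lit 76) (nat_lit 22657416798) (nat_lit 152) (nat_lit 3099255479) (nat_lit 65) (nat_lit 5) (nat_lit 66) (nat_lit 5) (nat_lit 67) (nat_lit 4) (nat_lit 504) (nat_lit 405) (nat_lit 291))) (XT.nd (nat_lit 78) (nat_lit 152) (nat_lit 0) (XT.lf (nat_lit 0) (nat_lit 4371916712) (nat_lit 152) (nat_lit 9901873985) (nat_lit 76) (nat_lit 14769195346) (nat_lit 64) (nat_lit 5) (nat_lit 66) (nat_lit 5) (nat_lit 65) (nat_lit 5) (nat_lit 505) (nat_lit 405) (nat_lit 290)) (XT.lf (nat_lit 0) (nat_lit 6493963582) (nat_lit 152) (nat_lit 5556824528) (nat_lit 228) (nat_lit 17593740171) (nat_lit 62) (nat_lit 5) (nat_lit 64) (nat_lit 5) (nat_lit 65) (nat_lit 5) (nat_lit 506) (nat_lit 405) (nat_lit 289)))))) (XT.nd (nat_lit 624) (nat_lit 608) (nat_lit 0) (XT.nd (nat_lit 312) (nat_lit 304) (nat_lit 0) (XT.nd (nat_lit 156) (nat_lit 228) (nat_lit 0) (XT.nd (nat_lit 78) (nat_lit 76) (nat_lit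 0) (XT.lf (nat_lit 0) (nat_lit 20077384924) (nat_lit 228) (nat_lit 6741040250) (nat_lit 76) (nat_lit 3442171670) (nat_lit 62) (nat_lit 5) (nat_lit 65) (nat_lit 5) (nat_lit 63) (nat_lit 4) (nat_lit 507) (nat_lit 405) (nat_lit 288)) (XT.lf (nat_lit 0) (nat_lit 10276479960) (nat_lit 76) (nat_lit 18206071234) (nat_lit 152) (nat_lit 2408463930) (nat_lit 61) (nat_lit 5) (nat_lit 62) (nat_lit 5) (nat_lit 63) (nat_lit 4) (nat_lit 508) (nat_lit 405) (nat_lit 287))) (XT.nd (nat_lit 78) (nat_lit 152) (nat_lit 0) (XT.lf (nat_lit 0) (nat_lit 5543000059) (nat_lit 152) (nat_lit 3679923521) (nat_lit 76) (nat_lit 22314226142) (nat_lit 60) (nat_lit 5) (nat_lit 62) (nat_lit 5) (nat_lit 61) (nat_lit 5) (nat_lit 509) (nat_lit 405) (nat_lit 286)) (XT.lf (nat_lit 0) (nat_lit 13805196134) (nat_lit 228) (nat_lit 18217337835) (nat_lit 76) (nat_lit 175801865) (nat_lit 58) (nat_lit 5) (nat_lit 61) (nat_lit 5) (nat_lit 59) (nat_lit 4) (nat_lit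 510) (nat_lit 405) (nat_lit 285)))) (XT.nd (nat_lit 156) (nat_lit 228) (nat_lit 0) (XT.nd (nat_lit 78) (nat_lit 76) (nat_lit 0) (XT.lf (nat_lit 0) (nat_lit 22428612407) (nat_lit 228) (nat_lit 751755683) (nat_lit 76) (nat_lit 9695589531) (nat_lit 58) (nat_lit 5) (nat_lit 61) (nat_lit 5) (nat_lit 59) (nat_lit 4) (nat_lit 511) (nat_lit 405) (nat_lit 284)) (XT.lf (nat_lit 0) (nat_lit 17552133304) (nat_lit 76) (nat_lit 13912281168) (nat_lit 152) (nat_lit 2104883789) (nat_lit 57) (nat_lit 5) (nat_lit 58) (nat_lit 5) (nat_lit 59) (nat_lit 4) (nat_lit 512) (nat_lit 405) (nat_lit 283))) (XT.nd (nat_lit 78) (nat_lit 0) (nat_lit 0) (XT.lf (nat_lit 0) (nat_lit 2087441632) (nat_lit 152) (nat_lit 4286524186) (nat_lit 228) (nat_lit 27907221532) (nat_lit 54) (nat_lit 5) (nat_lit 56) (nat_lit 5) (nat_lit 57) (nat_lit 5) (nat_lit 513) (nat_lit 405) (nat_lit 282)) (XT.lf (nat_lit 0) (nat_lit 15267345000) (nat_lit 228) (nat_lit 14050833378)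 (nat_lit 76) (nat_lit 5689556056) (nat_lit 54) (nat_lit 5) (nat_lit 57) (nat_lit 5) (nat_lit 55) (nat_lit 4) (nat_lit 514) (nat_lit 405) (nat_lit 281))))) (XT.nd (nat_lit 312) (nat_lit 304) (nat_lit 0) (XT.nd (nat_lit 156) (nat_lit 228) (nat_lit 0) (XT.nd (nat_lit 78) (nat_lit 0) (nat_lit 0) (XT.lf (nat_lit 0) (nat_lit 4657396972) (nat_lit 76) (nat_lit 19842802243) (nat_lit 152) (nat_lit 11253699127) (nat_lit 53) (nat_lit 5) (nat_lit 54) (nat_lit 5) (nat_lit 55) (nat_lit 4) (nat_lit 515) (nat_lit 405) (nat_lit 280)) (XT.lf (nat_lit 0) (nat_lit 24187760162) (nat_lit 76) (nat_lit 9949790333) (nat_lit 152) (nat_lit 2381071932) (nat_lit 53) (nat_lit 5) (nat_lit 54) (nat_lit 5) (nat_lit 55) (nat_lit 4) (nat_lit 516) (nat_lit 405) (nat_lit 279))) (XT.nd (nat_lit 78) (nat_lit 0) (nat_lit 0) (XT.lf (nat_lit 0) (nat_lit 6682979379) (nat_lit 228) (nat_lit 30262632144) (nat_lit 76) (nat_lit 357015104) (nat_lit 50) (nat_lit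 5) (nat_lit 53) (nat_lit 5) (nat_lit 51) (nat_lit 4) (nat_lit 517) (nat_lit 405) (nat_lit 278)) (XT.lf (nat_lit 0) (nat_lit 16181301181) (nat_lit 228) (nat_lit 11011659442) (nat_lit 76) (nat_lit 10910177447) (nat_lit 50) (nat_lit 5) (nat_lit 53) (nat_lit 5) (nat_lit 51) (nat_lit 4) (nat_lit 518) (nat_lit 405) (nat_lit 277)))) (XT.nd (nat_lit 156) (nat_lit 228) (nat_lit 0) (XT.nd (nat_lit 78) (nat_lit 0) (nat_lit 0) (XT.lf (nat_lit 0) (nat_lit 8965905428) (nat_lit 76) (nat_lit 17071205391) (nat_lit 152) (nat_lit 12888378428) (nat_lit 49) (nat_lit 5) (nat_lit 50) (nat_lit 5) (nat_lit 51) (nat_lit 4) (nat_lit 519) (nat_lit 405) (nat_lit 276)) (XT.lf (nat_lit 0) (nat_lit 29742885211) (nat_lit 76) (nat_lit 6543409152) (nat_lit 152) (nat_lit 3483286128) (nat_lit 49) (nat_lit 5) (nat_lit 50) (nat_lit 5) (nat_lit 51) (nat_lit 4) (nat_lit 520) (nat_lit 405) (nat_lit 275))) (XT.nd (nat_lit 78) (nat_lit 0) (nat_lit 0) (XT.lf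 (nat_lit 0) (nat_lit 6214638111) (nat_lit 228) (nat_lit 30050609385) (nat_lit 76) (nat_lit 4368006155) (nat_lit 46) (nat_lit 5) (nat_lit 49) (nat_lit 5) (nat_lit 47) (nat_lit 4) (nat_lit 521) (nat_lit 405) (nat_lit 274)) (XT.lf (nat_lit 0) (nat_lit 16287326800) (nat_lit 228) (nat_lit 9629464906) (nat_lit 76) (nat_lit 15600396017) (nat_lit 46) (nat_lit 5) (nat_lit 49) (nat_lit 5) (nat_lit 47) (nat_lit 4) (nat_lit 522) (nat_lit 405) (nat_lit 273))))))))
noncomputable def xc111 : XT := (XT.nd (nat_lit 53430) (nat_lit 0) (nat_lit 15732) (XT.nd (nat_lit 1170) (nat_lit 684) (nat_lit 0) (XT.nd (nat_lit 546) (nat_lit 304) (nat_lit 0) (XT.nd (nat_lit 234) (nat_lit 228) (nat_lit 0) (XT.nd (nat_lit 78) (nat_lit 152) (nat_lit 0) (XT.lf (nat_lit 0) (nat_lit 11606338941) (nat_lit 76) (nat_lit 15154607604) (nat_lit 152) (nat_lit 15663731223) (nat_lit 45) (nat_lit 5) (nat_lit 46) (nat_lit 5) (nat_lit 47) (nat_lit 4) (nat_lit 523)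 (nat_lit 405) (nat_lit 272)) (XT.nd (nat_lit 78) (nat_lit 152) (nat_lit 0) (XT.lf (nat_lit 0) (nat_lit 33652394821) (nat_lit 76) (nat_lit 3980942460) (nat_lit 152) (nat_lit 5723518808) (nat_lit 45) (nat_lit 5) (nat_lit 46) (nat_lit 5) (nat_lit 47) (nat_lit 4) (nat_lit 524) (nat_lit 405) (nat_lit 271)) (XT.lf (nat_lit 0) (nat_lit 4605623548) (nat_lit 152) (nat_lit 32172382264) (nat_lit 76) (nat_lit 7532327605) (nat_lit 43) (nat_lit 5) (nat_lit 45) (nat_lit 5) (nat_lit 44) (nat_lit 4) (nat_lit 525) (nat_lit 405) (nat_lit 270)))) (XT.nd (nat_lit 156) (nat_lit 152) (nat_lit 0) (XT.nd (nat_lit 78) (nat_lit 76) (nat_lit 0) (XT.lf (nat_lit 0) (nat_lit 15255583191) (nat_lit 152) (nat_lit 10575748759) (nat_lit 76) (nat_lit 19455604069) (nat_lit 43) (nat_lit 5) (nat_lit 45) (nat_lit 5) (nat_lit 44) (nat_lit 4) (nat_lit 526) (nat_lit 405) (nat_lit 269)) (XT.lf (nat_lit 0) (nat_lit 11877461204) (nat_lit 76) (nat_lit 14449713565)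 (nat_lit 152) (nat_lit 19962598333) (nat_lit 42) (nat_lit 5) (nat_lit 43) (nat_lit 5) (nat_lit 44) (nat_lit 4) (nat_lit 527) (nat_lit 405) (nat_lit 268))) (XT.nd (nat_lit 78) (nat_lit 152) (nat_lit 0) (XT.lf (nat_lit 0) (nat_lit 35198191771) (nat_lit 76) (nat_lit 2627607239) (nat_lit 152) (nat_lit 9494050128) (nat_lit 42) (nat_lit 5) (nat_lit 43) (nat_lit 5) (nat_lit 44) (nat_lit 4) (nat_lit 528) (nat_lit 405) (nat_lit 267)) (XT.lf (nat_lit 0) (nat_lit 1450503780) (nat_lit 152) (nat_lit 37452595121) (nat_lit 76) (nat_lit 9471744518) (nat_lit 40) (nat_lit 5) (nat_lit 42) (nat_lit 5) (nat_lit 41) (nat_lit 4) (nat_lit 529) (nat_lit 405) (nat_lit 266))))) (XT.nd (nat_lit 312) (nat_lit 152) (nat_lit 0) (XT.nd (nat_lit 156) (nat_lit 76) (nat_lit 0) (XT.nd (nat_lit 78) (nat_lit 76) (nat_lit 0) (XT.lf (nat_lit 0) (nat_lit 12670552794) (nat_lit 152) (nat_lit 14695549792) (nat_lit 76) (nat_lit 22088425898) (nat_lit 40) (nat_lit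 5) (nat_lit 42) (nat_lit 5) (nat_lit 41) (nat_lit 4) (nat_lit 530) (nat_lit 405) (nat_lit 265)) (XT.lf (nat_lit 0) (nat_lit 8895994648) (nat_lit 76) (nat_lit 15405408471) (nat_lit 152) (nat_lit 26262975330) (nat_lit 39) (nat_lit 5) (nat_lit 40) (nat_lit 5) (nat_lit 41) (nat_lit 4) (nat_lit 531) (nat_lit 405) (nat_lit 264))) (XT.nd (nat_lit 78) (nat_lit 76) (nat_lit 0) (XT.lf (nat_lit 0) (nat_lit 33474938416) (nat_lit 76) (nat_lit 2943444854) (nat_lit 152) (nat_lit 15285024846) (nat_lit 39) (nat_lit 5) (nat_lit 40) (nat_lit 5) (nat_lit 41) (nat_lit 4) (nat_lit 532) (nat_lit 405) (nat_lit 263)) (XT.lf (nat_lit 0) (nat_lit 5913757197) (nat_lit 76) (nat_lit 43126090871) (nat_lit 76) (nat_lit 3832531673) (nat_lit 38) (nat_lit 4) (nat_lit 39) (nat_lit 5) (nat_lit 39) (nat_lit 4) (nat_lit 533) (nat_lit 405) (nat_lit 262)))) (XT.nd (nat_lit 156) (nat_lit 0) (nat_lit 0) (XT.nd (nat_lit 78) (nat_lit 76) (nat_lit 0) (XT.lf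 (nat_lit 0) (nat_lit 8012223245) (nat_lit 152) (nat_lit 23045699868) (nat_lit 76) (nat_lit 23010078667) (nat_lit 37) (nat_lit 5) (nat_lit 39) (nat_lit 5) (nat_lit 38) (nat_lit 4) (nat_lit 534) (nat_lit 405) (nat_lit 261)) (XT.lf (nat_lit 0) (nat_lit 1556451880) (nat_lit 76) (nat_lit 18583166344) (nat_lit 152) (nat_lit 35158606354) (nat_lit 36) (nat_lit 5) (nat_lit 37) (nat_lit 5) (nat_lit 38) (nat_lit 4) (nat_lit 535) (nat_lit 405) (nat_lit 260))) (XT.nd (nat_lit 78) (nat_lit 0) (nat_lit 0) (XT.lf (nat_lit 0) (nat_lit 27348699515) (nat_lit 76) (nat_lit 5504331651) (nat_lit 152) (nat_lit 23705657297) (nat_lit 36) (nat_lit 5) (nat_lit 37) (nat_lit 5) (nat_lit 38) (nat_lit 4) (nat_lit 536) (nat_lit 405) (nat_lit 259)) (XT.lf (nat_lit 0) (nat_lit 46014123012) (nat_lit 152) (nat_lit 4038837990) (nat_lit 0) (nat_lit 7802017247) (nat_lit 36) (nat_lit 5) (nat_lit 38) (nat_lit 4) (nat_lit 36) (nat_lit 4) (nat_lit 537) (nat_lit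 405) (nat_lit 258)))))) (XT.nd (nat_lit 546) (nat_lit 304) (nat_lit 0) (XT.nd (nat_lit 234) (nat_lit 152) (nat_lit 0) (XT.nd (nat_lit 78) (nat_lit 76) (nat_lit 0) (XT.lf (nat_lit 0) (nat_lit 633386231) (nat_lit 152) (nat_lit 36940956262) (nat_lit 76) (nat_lit 21607877694) (nat_lit 34) (nat_lit 5) (nat_lit 36) (nat_lit 5) (nat_lit 35) (nat_lit 4) (nat_lit 538) (nat_lit 405) (nat_lit 257)) (XT.nd (nat_lit 78) (nat_lit 76) (nat_lit 0) (XT.lf (nat_lit 0) (nat_lit 13275056205) (nat_lit 152) (nat_lit 11292564807) (nat_lit 76) (nat_lit 35977205821) (nat_lit 34) (nat_lit 5) (nat_lit 36) (nat_lit 5) (nat_lit 35) (nat_lit 4) (nat_lit 539) (nat_lit 405) (nat_lit 256)) (XT.lf (nat_lit 0) (nat_lit 15407061504) (nat_lit 76) (nat_lit 11027310637) (nat_lit 152) (nat_lit 35509787909) (nat_lit 33) (nat_lit 5) (nat_lit 34) (nat_lit 5) (nat_lit 35) (nat_lit 4) (nat_lit 540) (nat_lit 405) (nat_lit 255)))) (XT.nd (nat_lit 156) (nat_lit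 76) (nat_lit 0) (XT.nd (nat_lit 78) (nat_lit 76) (nat_lit 0) (XT.lf (nat_lit 0) (nat_lit 40122000247) (nat_lit 152) (nat_lit 20290959725) (nat_lit 0) (nat_lit 2968507551) (nat_lit 33) (nat_lit 5) (nat_lit 35) (nat_lit 4) (nat_lit 33) (nat_lit 4) (nat_lit 541) (nat_lit 405) (nat_lit 254)) (XT.lf (nat_lit 0) (nat_lit 6746704079) (nat_lit 76) (nat_lit 47638179768) (nat_lit 76) (nat_lit 10472071809) (nat_lit 32) (nat_lit 4) (nat_lit 33) (nat_lit 5) (nat_lit 33) (nat_lit 4) (nat_lit 542) (nat_lit 405) (nat_lit 253))) (XT.nd (nat_lit 78) (nat_lit 0) (nat_lit 0) (XT.lf (nat_lit 0) (nat_lit 2843806054) (nat_lit 152) (nat_lit 31405429496) (nat_lit 76) (nat_lit 32120768983) (nat_lit 31) (nat_lit 5) (nat_lit 33) (nat_lit 5) (nat_lit 32) (nat_lit 4) (nat_lit 543) (nat_lit 405) (nat_lit 252)) (XT.lf (nat_lit 0) (nat_lit 16339554864) (nat_lit 152) (nat_lit 4020950509) (nat_lit 76) (nat_lit 47565103017) (nat_lit 31) (nat_lit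 5) (nat_lit 33) (nat_lit 5) (nat_lit 32) (nat_lit 4) (nat_lit 544) (nat_lit 405) (nat_lit 251))))) (XT.nd (nat_lit 312) (nat_lit 76) (nat_lit 0) (XT.nd (nat_lit 156) (nat_lit 152) (nat_lit 0) (XT.nd (nat_lit 78) (nat_lit 0) (nat_lit 0) (XT.lf (nat_lit 0) (nat_lit 24648763690) (nat_lit 76) (nat_lit 5819490165) (nat_lit 152) (nat_lit 39052784384) (nat_lit 30) (nat_lit 5) (nat_lit 31) (nat_lit 5) (nat_lit 32) (nat_lit 4) (nat_lit 545) (nat_lit 405) (nat_lit 250)) (XT.lf (nat_lit 0) (nat_lit 45141001541) (nat_lit 152) (nat_lit 17007848816) (nat_lit 0) (nat_lit 9011875196) (nat_lit 30) (nat_lit 5) (nat_lit 32) (nat_lit 4) (nat_lit 30) (nat_lit 4) (nat_lit 546) (nat_lit 405) (nat_lit 249))) (XT.nd (nat_lit 78) (nat_lit 76) (nat_lit 0) (XT.lf (nat_lit 0) (nat_lit 11849318875) (nat_lit 76) (nat_lit 48567544148) (nat_lit 76) (nat_lit 12427852718) (nat_lit 29) (nat_lit 4) (nat_lit 30) (nat_lit 5) (nat_lit 30) (nat_lit 4)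 (nat_lit 547) (nat_lit 405) (nat_lit 248)) (XT.lf (nat_lit 0) (nat_lit 1705965854) (nat_lit 152) (nat_lit 32686838110) (nat_lit 76) (nat_lit 40181022727) (nat_lit 28) (nat_lit 5) (nat_lit 30) (nat_lit 5) (nat_lit 29) (nat_lit 4) (nat_lit 548) (nat_lit 405) (nat_lit 247)))) (XT.nd (nat_lit 156) (nat_lit 0) (nat_lit 0) (XT.nd (nat_lit 78) (nat_lit 76) (nat_lit 0) (XT.lf (nat_lit 0) (nat_lit 16005677222) (nat_lit 152) (nat_lit 3668382637) (nat_lit 76) (nat_lit 56677309874) (nat_lit 28) (nat_lit 5) (nat_lit 30) (nat_lit 5) (nat_lit 29) (nat_lit 4) (nat_lit 549) (nat_lit 405) (nat_lit 246)) (XT.lf (nat_lit 0) (nat_lit 26726316301) (nat_lit 76) (nat_lit 4256881851) (nat_lit 152) (nat_lit 47191576542) (nat_lit 27) (nat_lit 5) (nat_lit 28) (nat_lit 5) (nat_lit 29) (nat_lit 4) (nat_lit 550) (nat_lit 405) (nat_lit 245))) (XT.nd (nat_lit 51168) (nat_lit 0) (nat_lit 27892) (XT.lf (nat_lit 0) (nat_lit 46551100196) (nat_lit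 152) (nat_lit 22071656605) (nat_lit 0) (nat_lit 11425893507) (nat_lit 27) (nat_lit 5) (nat_lit 29) (nat_lit 4) (nat_lit 27) (nat_lit 4) (nat_lit 551) (nat_lit 405) (nat_lit 244)) (XT.lf (nat_lit 0) (nat_lit 450217412) (nat_lit 532) (nat_lit 1423646730) (nat_lit 532) (nat_lit 1423646730) (nat_lit 394) (nat_lit 3) (nat_lit 401) (nat_lit 3) (nat_lit 401) (nat_lit 5) (nat_lit 406) (nat_lit 406) (nat_lit 388))))))) (XT.nd (nat_lit 1170) (nat_lit 9044) (nat_lit 0) (XT.nd (nat_lit 546) (nat_lit 2052) (nat_lit 0) (XT.nd (nat_lit 234) (nat_lit 532) (nat_lit 0) (XT.nd (nat_lit 78) (nat_lit 532) (nat_lit 0) (XT.lf (nat_lit 76) (nat_lit 406662524) (nat_lit 0) (nat_lit 2876892588) (nat_lit 532) (nat_lit 3338443575) (nat_lit 395) (nat_lit 5) (nat_lit 394) (nat_lit 3) (nat_lit 401) (nat_lit 5) (nat_lit 407) (nat_lit 406) (nat_lit 387)) (XT.nd (nat_lit 78) (nat_lit 532) (nat_lit 0) (XT.lf (nat_lit 76) (nat_lit 3768092173) (nat_lit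 0) (nat_lit 1906035754) (nat_lit 532) (nat_lit 977611803) (nat_lit 395) (nat_lit 5) (nat_lit 394) (nat_lit 3) (nat_lit 401) (nat_lit 5) (nat_lit 408) (nat_lit 406) (nat_lit 386)) (XT.lf (nat_lit 76) (nat_lit 494726657) (nat_lit 0) (nat_lit 844685842) (nat_lit 608) (nat_lit 5345160589) (nat_lit 388) (nat_lit 5) (nat_lit 387) (nat_lit 5) (nat_lit 395) (nat_lit 5) (nat_lit 409) (nat_lit 406) (nat_lit 385)))) (XT.nd (nat_lit 156) (nat_lit 608) (nat_lit 0) (XT.nd (nat_lit 78) (nat_lit 0) (nat_lit 0) (XT.lf (nat_lit 0) (nat_lit 3649653487) (nat_lit 532) (nat_lit 2747855825) (nat_lit 608) (nat_lit 322321820) (nat_lit 388) (nat_lit 5) (nat_lit 395) (nat_lit 5) (nat_lit 396) (nat_lit 5) (nat_lit 410) (nat_lit 406) (nat_lit 384)) (XT.lf (nat_lit 76) (nat_lit 753694305) (nat_lit 0) (nat_lit 5205250267) (nat_lit 608) (nat_lit 799339879) (nat_lit 389) (nat_lit 5) (nat_lit 388) (nat_lit 5) (nat_lit 396) (nat_lit 5) (nat_lit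 411) (nat_lit 406) (nat_lit 383))) (XT.nd (nat_lit 78) (nat_lit 0) (nat_lit 0) (XT.lf (nat_lit 0) (nat_lit 1452902887) (nat_lit 608) (nat_lit 2446781590) (nat_lit 684) (nat_lit 2899491302) (nat_lit 380) (nat_lit 5) (nat_lit 388) (nat_lit 5) (nat_lit 389) (nat_lit 5) (nat_lit 412) (nat_lit 406) (nat_lit 382)) (XT.lf (nat_lit 76) (nat_lit 1183160497) (nat_lit 0) (nat_lit 2502627501) (nat_lit 684) (nat_lit 3157421481) (nat_lit 381) (nat_lit 5) (nat_lit 380) (nat_lit 5) (nat_lit 389) (nat_lit 5) (nat_lit 413) (nat_lit 406) (nat_lit 381))))) (XT.nd (nat_lit 312) (nat_lit 1444) (nat_lit 0) (XT.nd (nat_lit 156) (nat_lit 0) (nat_lit 0) (XT.nd (nat_lit 78) (nat_lit 608) (nat_lit 0) (XT.lf (nat_lit 76) (nat_lit 4922871261) (nat_lit 0) (nat_lit 1007185182) (nat_lit 684) (nat_lit 960202338) (nat_lit 381) (nat_lit 5) (nat_lit 380) (nat_lit 5) (nat_lit 389) (nat_lit 5) (nat_lit 414) (nat_lit 406) (nat_lit 380)) (XT.lf (nat_lit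 0) (nat_lit 1221835262) (nat_lit 684) (nat_lit 5136519209) (nat_lit 760) (nat_lit 581684523) (nat_lit 372) (nat_lit 5) (nat_lit 381) (nat_lit 5) (nat_lit 382) (nat_lit 5) (nat_lit 415) (nat_lit 406) (nat_lit 379))) (XT.nd (nat_lit 78) (nat_lit 0) (nat_lit 0) (XT.lf (nat_lit 0) (nat_lit 3403394128) (nat_lit 684) (nat_lit 1334068783) (nat_lit 760) (nat_lit 2254987962) (nat_lit 372) (nat_lit 5) (nat_lit 381) (nat_lit 5) (nat_lit 382) (nat_lit 5) (nat_lit 416) (nat_lit 406) (nat_lit 378)) (XT.lf (nat_lit 76) (nat_lit 2582796354) (nat_lit 0) (nat_lit 3017987782) (nat_lit 760) (nat_lit 1447162981) (nat_lit 373) (nat_lit 5) (nat_lit 372) (nat_lit 5) (nat_lit 382) (nat_lit 5) (nat_lit 417) (nat_lit 406) (nat_lit 377)))) (XT.nd (nat_lit 156) (nat_lit 684) (nat_lit 0) (XT.nd (nat_lit 78) (nat_lit 0) (nat_lit 76) (XT.lf (nat_lit 0) (nat_lit 684287883) (nat_lit 760) (nat_lit 518671345) (nat_lit 836) (nat_lit 5903749007) (nat_lit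 362) (nat_lit 5) (nat_lit 372) (nat_lit 5) (nat_lit 373) (nat_lit 5) (nat_lit 418) (nat_lit 406) (nat_lit 376)) (XT.lf (nat_lit 0) (nat_lit 2820478945) (nat_lit 760) (nat_lit 3623423309) (nat_lit 76) (nat_lit 723825128) (nat_lit 363) (nat_lit 5) (nat_lit 373) (nat_lit 5) (nat_lit 364) (nat_lit 5) (nat_lit 419) (nat_lit 406) (nat_lit 375))) (XT.nd (nat_lit 78) (nat_lit 0) (nat_lit 0) (XT.lf (nat_lit 0) (nat_lit 454903861) (nat_lit 760) (nat_lit 4517876347) (nat_lit 836) (nat_lit 2259257076) (nat_lit 353) (nat_lit 5) (nat_lit 363) (nat_lit 5) (nat_lit 364) (nat_lit 5) (nat_lit 420) (nat_lit 406) (nat_lit 374)) (XT.lf (nat_lit 0) (nat_lit 4678969674) (nat_lit 760) (nat_lit 2479258567) (nat_lit 836) (nat_lit 141011218) (nat_lit 353) (nat_lit 5) (nat_lit 363) (nat_lit 5) (nat_lit 364) (nat_lit 5) (nat_lit 421) (nat_lit 406) (nat_lit 373)))))) (XT.nd (nat_lit 624) (nat_lit 3876) (nat_lit 0) (XT.nd (nat_lit 312) (nat_lit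 3268) (nat_lit 0) (XT.nd (nat_lit 156) (nat_lit 988) (nat_lit 0) (XT.nd (nat_lit 78) (nat_lit 0) (nat_lit 0) (XT.lf (nat_lit 0) (nat_lit 1622592838) (nat_lit 836) (nat_lit 327259609) (nat_lit 912) (nat_lit 5419569070) (nat_lit 341) (nat_lit 5) (nat_lit 352) (nat_lit 5) (nat_lit 353) (nat_lit 5) (nat_lit 422) (nat_lit 406) (nat_lit 372)) (XT.lf (nat_lit 0) (nat_lit 4080390427) (nat_lit 912) (nat_lit 1466654908) (nat_lit 76) (nat_lit 1895246923) (nat_lit 341) (nat_lit 5) (nat_lit 353) (nat_lit 5) (nat_lit 342) (nat_lit 5) (nat_lit 423) (nat_lit 406) (nat_lit 371))) (XT.nd (nat_lit 78) (nat_lit 76) (nat_lit 0) (XT.lf (nat_lit 0) (nat_lit 2945308198) (nat_lit 912) (nat_lit 3297884689) (nat_lit 988) (nat_lit 1275123824) (nat_lit 329) (nat_lit 5) (nat_lit 341) (nat_lit 5) (nat_lit 342) (nat_lit 5) (nat_lit 424) (nat_lit 406) (nat_lit 370)) (XT.lf (nat_lit 0) (nat_lit 809677997) (nat_lit 988) (nat_lit 136644084) (nat_lit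 76) (nat_lit 6651490295) (nat_lit 328) (nat_lit 5) (nat_lit 341) (nat_lit 5) (nat_lit 329) (nat_lit 5) (nat_lit 425) (nat_lit 406) (nat_lit 369)))) (XT.nd (nat_lit 156) (nat_lit 1216) (nat_lit 0) (XT.nd (nat_lit 78) (nat_lit 1064) (nat_lit 0) (XT.lf (nat_lit 0) (nat_lit 2928418943) (nat_lit 1064) (nat_lit 3237650323) (nat_lit 76) (nat_lit 1513350692) (nat_lit 315) (nat_lit 5) (nat_lit 329) (nat_lit 5) (nat_lit 316) (nat_lit 5) (nat_lit 426) (nat_lit 406) (nat_lit 368)) (XT.lf (nat_lit 0) (nat_lit 1362601107) (nat_lit 1064) (nat_lit 3712708796) (nat_lit 1140) (nat_lit 2689244260) (nat_lit 301) (nat_lit 5) (nat_lit 315) (nat_lit 5) (nat_lit 316) (nat_lit 5) (nat_lit 427) (nat_lit 406) (nat_lit 367))) (XT.nd (nat_lit 78) (nat_lit 1216) (nat_lit 0) (XT.lf (nat_lit 0) (nat_lit 6116226288) (nat_lit 1064) (nat_lit 1145037973) (nat_lit 1140) (nat_lit 591753996) (nat_lit 301) (nat_lit 5) (nat_lit 315) (nat_lit 5) (nat_lit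 316) (nat_lit 5) (nat_lit 428) (nat_lit 406) (nat_lit 366)) (XT.lf (nat_lit 0) (nat_lit 1525484822) (nat_lit 1216) (nat_lit 4897101768) (nat_lit 76) (nat_lit 1521488963) (nat_lit 285) (nat_lit 5) (nat_lit 301) (nat_lit 5) (nat_lit 286) (nat_lit 5) (nat_lit 429) (nat_lit 406) (nat_lit 365))))) (XT.nd (nat_lit 312) (nat_lit 1824) (nat_lit 0) (XT.nd (nat_lit 156) (nat_lit 836) (nat_lit 0) (XT.nd (nat_lit 78) (nat_lit 1216) (nat_lit 0) (XT.lf (nat_lit 0) (nat_lit 3667705645) (nat_lit 1216) (nat_lit 96760856) (nat_lit 76) (nat_lit 4274035784) (nat_lit 285) (nat_lit 5) (nat_lit 301) (nat_lit 5) (nat_lit 286) (nat_lit 5) (nat_lit 430) (nat_lit 406) (nat_lit 364)) (XT.lf (nat_lit 0) (nat_lit 4892667860) (nat_lit 1216) (nat_lit 974488258) (nat_lit 1292) (nat_lit 2268830640) (nat_lit 269) (nat_lit 5) (nat_lit 285) (nat_lit 5) (nat_lit 286) (nat_lit 5) (nat_lit 431) (nat_lit 406) (nat_lit 363))) (XT.nd (nat_lit 78) (nat_lit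 76) (nat_lit 0) (XT.lf (nat_lit 0) (nat_lit 1761979147) (nat_lit 760) (nat_lit 6353847467) (nat_lit 836) (nat_lit 121085478) (nat_lit 259) (nat_lit 5) (nat_lit 269) (nat_lit 5) (nat_lit 270) (nat_lit 5) (nat_lit 432) (nat_lit 406) (nat_lit 362)) (XT.lf (nat_lit 0) (nat_lit 2040592443) (nat_lit 836) (nat_lit 1438119896) (nat_lit 76) (nat_lit 4861853323) (nat_lit 258) (nat_lit 5) (nat_lit 269) (nat_lit 5) (nat_lit 259) (nat_lit 5) (nat_lit 433) (nat_lit 406) (nat_lit 361)))) (XT.nd (nat_lit 156) (nat_lit 608) (nat_lit 0) (XT.nd (nat_lit 78) (nat_lit 608) (nat_lit 0) (XT.lf (nat_lit 0) (nat_lit 3771629066) (nat_lit 608) (nat_lit 478421215) (nat_lit 684) (nat_lit 4197693977) (nat_lit 250) (nat_lit 5) (nat_lit 258) (nat_lit 5) (nat_lit 259) (nat_lit 5) (nat_lit 434) (nat_lit 406) (nat_lit 360)) (XT.lf (nat_lit 0) (nat_lit 543218551) (nat_lit 608) (nat_lit 5977675302) (nat_lit 684) (nat_lit 2037403227) (nat_lit 242)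 (nat_lit 5) (nat_lit 250) (nat_lit 5) (nat_lit 251) (nat_lit 5) (nat_lit 435) (nat_lit 406) (nat_lit 359))) (XT.nd (nat_lit 78) (nat_lit 532) (nat_lit 0) (XT.lf (nat_lit 0) (nat_lit 187031299) (nat_lit 684) (nat_lit 2714838514) (nat_lit 76) (nat_lit 5770163860) (nat_lit 241) (nat_lit 5) (nat_lit 250) (nat_lit 5) (nat_lit 242) (nat_lit 5) (nat_lit 436) (nat_lit 406) (nat_lit 358)) (XT.lf (nat_lit 0) (nat_lit 2418468568) (nat_lit 608) (nat_lit 6065338479) (nat_lit 76) (nat_lit 305344476) (nat_lit 234) (nat_lit 5) (nat_lit 242) (nat_lit 5) (nat_lit 235) (nat_lit 5) (nat_lit 437) (nat_lit 406) (nat_lit 357))))))))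
noncomputable def xc112 : XT := (XT.nd (nat_lit 2340) (nat_lit 4104) (nat_lit 0) (XT.nd (nat_lit 1170) (nat_lit 3420) (nat_lit 0) (XT.nd (nat_lit 546) (nat_lit 2280) (nat_lit 0) (XT.nd (nat_lit 234) (nat_lit 1064) (nat_lit 0) (XT.nd (nat_lit 78) (nat_lit 1140) (nat_lit 0) (XT.lf (nat_lit 0) (nat_lit 4726167442) (nat_lit 608) (nat_lit 608137546) (nat_lit 76) (nat_lit 3575208965) (nat_lit 234) (nat_lit 5) (nat_lit 242) (nat_lit 5) (nat_lit 235) (nat_lit 5) (nat_lit 438) (nat_lit 406) (nat_lit 356)) (XT.nd (nat_lit 78) (nat_lit 608) (nat_lit 0) (XT.lf (nat_lit 0) (nat_lit 5061598029) (nat_lit 532) (nat_lit 2044427367) (nat_lit 608) (nat_lit 1927384304) (nat_lit 227) (nat_lit 5) (nat_lit 234) (nat_lit 5) (nat_lit 235) (nat_lit 5) (nat_lit 439) (nat_lit 406) (nat_lit 355)) (XT.lf (nat_lit 0) (nat_lit 379192701) (nat_lit 608) (nat_lit 7442107855) (nat_lit 76) (nat_lit 1339897140) (nat_lit 219) (nat_lit 5) (nat_lit 227)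 (nat_lit 5) (nat_lit 220) (nat_lit 5) (nat_lit 440) (nat_lit 406) (nat_lit 354)))) (XT.nd (nat_lit 156) (nat_lit 532) (nat_lit 0) (XT.nd (nat_lit 78) (nat_lit 532) (nat_lit 0) (XT.lf (nat_lit 0) (nat_lit 2732439050) (nat_lit 608) (nat_lit 1720373071) (nat_lit 76) (nat_lit 4838957820) (nat_lit 219) (nat_lit 5) (nat_lit 227) (nat_lit 5) (nat_lit 220) (nat_lit 5) (nat_lit 441) (nat_lit 406) (nat_lit 353)) (XT.lf (nat_lit 0) (nat_lit 4205394954) (nat_lit 532) (nat_lit 948073905) (nat_lit 608) (nat_lit 4272884054) (nat_lit 212) (nat_lit 5) (nat_lit 219) (nat_lit 5) (nat_lit 220) (nat_lit 5) (nat_lit 442) (nat_lit 406) (nat_lit 352))) (XT.nd (nat_lit 78) (nat_lit 76) (nat_lit 0) (XT.lf (nat_lit 0) (nat_lit 717581699) (nat_lit 456) (nat_lit 6937059942) (nat_lit 532) (nat_lit 1910115246) (nat_lit 206) (nat_lit 5) (nat_lit 212) (nat_lit 5) (nat_lit 213) (nat_lit 5) (nat_lit 443) (nat_lit 406) (nat_lit 351)) (XT.lf (nat_lit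 0) (nat_lit 533770399) (nat_lit 532) (nat_lit 2830136063) (nat_lit 76) (nat_lit 6342650411) (nat_lit 205) (nat_lit 5) (nat_lit 212) (nat_lit 5) (nat_lit 206) (nat_lit 5) (nat_lit 444) (nat_lit 406) (nat_lit 350))))) (XT.nd (nat_lit 312) (nat_lit 836) (nat_lit 0) (XT.nd (nat_lit 156) (nat_lit 988) (nat_lit 0) (XT.nd (nat_lit 78) (nat_lit 0) (nat_lit 0) (XT.lf (nat_lit 0) (nat_lit 3007443759) (nat_lit 532) (nat_lit 6490902740) (nat_lit 76) (nat_lit 353859244) (nat_lit 199) (nat_lit 5) (nat_lit 206) (nat_lit 5) (nat_lit 200) (nat_lit 5) (nat_lit 445) (nat_lit 406) (nat_lit 349)) (XT.lf (nat_lit 0) (nat_lit 5577184433) (nat_lit 532) (nat_lit 288391290) (nat_lit 76) (nat_lit 4136000528) (nat_lit 199) (nat_lit 5) (nat_lit 206) (nat_lit 5) (nat_lit 200) (nat_lit 5) (nat_lit 446) (nat_lit 406) (nat_lit 348))) (XT.nd (nat_lit 78) (nat_lit 532) (nat_lit 0) (XT.lf (nat_lit 0) (nat_lit 6172155053) (nat_lit 456) (nat_lit 2072056227)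 (nat_lit 532) (nat_lit 1910618432) (nat_lit 193) (nat_lit 5) (nat_lit 199) (nat_lit 5) (nat_lit 200) (nat_lit 5) (nat_lit 447) (nat_lit 406) (nat_lit 347)) (XT.lf (nat_lit 0) (nat_lit 671462511) (nat_lit 532) (nat_lit 7817177352) (nat_lit 76) (nat_lit 1823668375) (nat_lit 186) (nat_lit 5) (nat_lit 193) (nat_lit 5) (nat_lit 187) (nat_lit 5) (nat_lit 448) (nat_lit 406) (nat_lit 346)))) (XT.nd (nat_lit 156) (nat_lit 456) (nat_lit 0) (XT.nd (nat_lit 78) (nat_lit 380) (nat_lit 0) (XT.lf (nat_lit 0) (nat_lit 3315458653) (nat_lit 532) (nat_lit 1313586858) (nat_lit 76) (nat_lit 5844219476) (nat_lit 186) (nat_lit 5) (nat_lit 193) (nat_lit 5) (nat_lit 187) (nat_lit 5) (nat_lit 449) (nat_lit 406) (nat_lit 345)) (XT.lf (nat_lit 0) (nat_lit 5443406413) (nat_lit 380) (nat_lit 610531974) (nat_lit 456) (nat_lit 4584663942) (nat_lit 181) (nat_lit 5) (nat_lit 186) (nat_lit 5) (nat_lit 187) (nat_lit 5) (nat_lit 450) (nat_lit 406)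 (nat_lit 344))) (XT.nd (nat_lit 78) (nat_lit 76) (nat_lit 0) (XT.lf (nat_lit 0) (nat_lit 1569661592) (nat_lit 380) (nat_lit 7330673499) (nat_lit 456) (nat_lit 1907798425) (nat_lit 176) (nat_lit 5) (nat_lit 181) (nat_lit 5) (nat_lit 182) (nat_lit 5) (nat_lit 451) (nat_lit 406) (nat_lit 343)) (XT.lf (nat_lit 0) (nat_lit 855426838) (nat_lit 456) (nat_lit 2400653353) (nat_lit 76) (nat_lit 7725752890) (nat_lit 175) (nat_lit 5) (nat_lit 181) (nat_lit 5) (nat_lit 176) (nat_lit 5) (nat_lit 452) (nat_lit 406) (nat_lit 342)))))) (XT.nd (nat_lit 546) (nat_lit 1596) (nat_lit 0) (XT.nd (nat_lit 234) (nat_lit 1064) (nat_lit 0) (XT.nd (nat_lit 78) (nat_lit 380) (nat_lit 0) (XT.lf (nat_lit 0) (nat_lit 3682289972) (nat_lit 456) (nat_lit 6502262262) (nat_lit 76) (nat_lit 975058192) (nat_lit 170) (nat_lit 5) (nat_lit 176) (nat_lit 5) (nat_lit 171) (nat_lit 5) (nat_lit 453) (nat_lit 406) (nat_lit 341)) (XT.nd (nat_lit 78) (nat_lit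 0) (nat_lit 0) (XT.lf (nat_lit 0) (nat_lit 565096473) (nat_lit 380) (nat_lit 6056140666) (nat_lit 456) (nat_lit 4720671473) (nat_lit 165) (nat_lit 5) (nat_lit 170) (nat_lit 5) (nat_lit 171) (nat_lit 5) (nat_lit 454) (nat_lit 406) (nat_lit 340)) (XT.lf (nat_lit 0) (nat_lit 7930475107) (nat_lit 380) (nat_lit 1749224641) (nat_lit 456) (nat_lit 1849041283) (nat_lit 165) (nat_lit 5) (nat_lit 170) (nat_lit 5) (nat_lit 171) (nat_lit 5) (nat_lit 455) (nat_lit 406) (nat_lit 339)))) (XT.nd (nat_lit 156) (nat_lit 684) (nat_lit 0) (XT.nd (nat_lit 78) (nat_lit 0) (nat_lit 0) (XT.lf (nat_lit 0) (nat_lit 1116276439) (nat_lit 380) (nat_lit 7934154539) (nat_lit 76) (nat_lit 2669557857) (nat_lit 160) (nat_lit 5) (nat_lit 165) (nat_lit 5) (nat_lit 161) (nat_lit 5) (nat_lit 456) (nat_lit 406) (nat_lit 338)) (XT.lf (nat_lit 0) (nat_lit 4154166580) (nat_lit 380) (nat_lit 533656905) (nat_lit 76) (nat_lit 7227983275) (nat_lit 160) (nat_lit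 5) (nat_lit 165) (nat_lit 5) (nat_lit 161) (nat_lit 5) (nat_lit 457) (nat_lit 406) (nat_lit 337))) (XT.nd (nat_lit 78) (nat_lit 304) (nat_lit 0) (XT.lf (nat_lit 0) (nat_lit 7183393428) (nat_lit 380) (nat_lit 136581793) (nat_lit 456) (nat_lit 4796425609) (nat_lit 155) (nat_lit 5) (nat_lit 160) (nat_lit 5) (nat_lit 161) (nat_lit 5) (nat_lit 458) (nat_lit 406) (nat_lit 336)) (XT.lf (nat_lit 0) (nat_lit 2784560740) (nat_lit 304) (nat_lit 7840262498) (nat_lit 380) (nat_lit 1696872446) (nat_lit 151) (nat_lit 5) (nat_lit 155) (nat_lit 5) (nat_lit 156) (nat_lit 5) (nat_lit 459) (nat_lit 406) (nat_lit 335))))) (XT.nd (nat_lit 312) (nat_lit 912) (nat_lit 0) (XT.nd (nat_lit 156) (nat_lit 304) (nat_lit 0) (XT.nd (nat_lit 78) (nat_lit 304) (nat_lit 0) (XT.lf (nat_lit 0) (nat_lit 1486423057) (nat_lit 380) (nat_lit 1759302199) (nat_lit 76) (nat_lit 9286399194) (nat_lit 150) (nat_lit 5) (nat_lit 155) (nat_lit 5) (nat_lit 151)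 (nat_lit 5) (nat_lit 460) (nat_lit 406) (nat_lit 334)) (XT.lf (nat_lit 0) (nat_lit 4775929109) (nat_lit 380) (nat_lit 6448986739) (nat_lit 76) (nat_lit 1522106190) (nat_lit 146) (nat_lit 5) (nat_lit 151) (nat_lit 5) (nat_lit 147) (nat_lit 5) (nat_lit 461) (nat_lit 406) (nat_lit 333))) (XT.nd (nat_lit 78) (nat_lit 0) (nat_lit 0) (XT.lf (nat_lit 0) (nat_lit 1619416820) (nat_lit 304) (nat_lit 6579888329) (nat_lit 380) (nat_lit 4768010228) (nat_lit 142) (nat_lit 5) (nat_lit 146) (nat_lit 5) (nat_lit 147) (nat_lit 5) (nat_lit 462) (nat_lit 406) (nat_lit 332)) (XT.lf (nat_lit 0) (nat_lit 10017318136) (nat_lit 304) (nat_lit 1743184124) (nat_lit 380) (nat_lit 1432665902) (nat_lit 142) (nat_lit 5) (nat_lit 146) (nat_lit 5) (nat_lit 147) (nat_lit 5) (nat_lit 463) (nat_lit 406) (nat_lit 331)))) (XT.nd (nat_lit 156) (nat_lit 304) (nat_lit 0) (XT.nd (nat_lit 78) (nat_lit 228) (nat_lit 0) (XT.lf (nat_lit 0) (nat_lit 2016686919)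 (nat_lit 380) (nat_lit 8175143142) (nat_lit 76) (nat_lit 3231802053) (nat_lit 137) (nat_lit 5) (nat_lit 142) (nat_lit 5) (nat_lit 138) (nat_lit 5) (nat_lit 464) (nat_lit 406) (nat_lit 330)) (XT.lf (nat_lit 0) (nat_lit 259576372) (nat_lit 228) (nat_lit 5304166889) (nat_lit 304) (nat_lit 8096154516) (nat_lit 134) (nat_lit 5) (nat_lit 137) (nat_lit 5) (nat_lit 138) (nat_lit 5) (nat_lit 465) (nat_lit 406) (nat_lit 329))) (XT.nd (nat_lit 78) (nat_lit 304) (nat_lit 0) (XT.lf (nat_lit 0) (nat_lit 9071015213) (nat_lit 228) (nat_lit 200051485) (nat_lit 304) (nat_lit 4630572815) (nat_lit 134) (nat_lit 5) (nat_lit 137) (nat_lit 5) (nat_lit 138) (nat_lit 5) (nat_lit 466) (nat_lit 406) (nat_lit 328)) (XT.lf (nat_lit 0) (nat_lit 3981929233) (nat_lit 304) (nat_lit 9166566540) (nat_lit 380) (nat_lit 1000374806) (nat_lit 130) (nat_lit 5) (nat_lit 134) (nat_lit 5) (nat_lit 135) (nat_lit 5) (nat_lit 467) (nat_lit 406) (nat_lit 327)))))))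 (XT.nd (nat_lit 1170) (nat_lit 1824) (nat_lit 0) (XT.nd (nat_lit 546) (nat_lit 1140) (nat_lit 0) (XT.nd (nat_lit 234) (nat_lit 532) (nat_lit 0) (XT.nd (nat_lit 78) (nat_lit 532) (nat_lit 0) (XT.lf (nat_lit 0) (nat_lit 2708653116) (nat_lit 380) (nat_lit 1316419765) (nat_lit 76) (nat_lit 10376958362) (nat_lit 129) (nat_lit 5) (nat_lit 134) (nat_lit 5) (nat_lit 130) (nat_lit 5) (nat_lit 468) (nat_lit 406) (nat_lit 326)) (XT.nd (nat_lit 78) (nat_lit 304) (nat_lit 0) (XT.lf (nat_lit 0) (nat_lit 6570655434) (nat_lit 304) (nat_lit 6772232950) (nat_lit 76) (nat_lit 1317750242) (nat_lit 126) (nat_lit 5) (nat_lit 130) (nat_lit 5) (nat_lit 127) (nat_lit 5) (nat_lit 469) (nat_lit 406) (nat_lit 325)) (XT.lf (nat_lit 0) (nat_lit 2434848523) (nat_lit 304) (nat_lit 8163528091) (nat_lit 380) (nat_lit 4327135102) (nat_lit 122) (nat_lit 5) (nat_lit 126) (nat_lit 5) (nat_lit 127) (nat_lit 5) (nat_lit 470) (nat_lit 406) (nat_lit 324))))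 (XT.nd (nat_lit 156) (nat_lit 228) (nat_lit 0) (XT.nd (nat_lit 78) (nat_lit 304) (nat_lit 0) (XT.lf (nat_lit 0) (nat_lit 12014946536) (nat_lit 304) (nat_lit 2773922970) (nat_lit 380) (nat_lit 408206445) (nat_lit 122) (nat_lit 5) (nat_lit 126) (nat_lit 5) (nat_lit 127) (nat_lit 5) (nat_lit 471) (nat_lit 406) (nat_lit 323)) (XT.lf (nat_lit 0) (nat_lit 3621119163) (nat_lit 304) (nat_lit 9046733183) (nat_lit 76) (nat_lit 2805982518) (nat_lit 118) (nat_lit 5) (nat_lit 122) (nat_lit 5) (nat_lit 119) (nat_lit 5) (nat_lit 472) (nat_lit 406) (nat_lit 322))) (XT.nd (nat_lit 78) (nat_lit 0) (nat_lit 0) (XT.lf (nat_lit 0) (nat_lit 569666800) (nat_lit 228) (nat_lit 7233126674) (nat_lit 304) (nat_lit 7954794500) (nat_lit 115) (nat_lit 5) (nat_lit 118) (nat_lit 5) (nat_lit 119) (nat_lit 5) (nat_lit 473) (nat_lit 406) (nat_lit 321)) (XT.lf (nat_lit 0) (nat_lit 10618882362) (nat_lit 228) (nat_lit 1557025170) (nat_lit 304) (nat_lit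 3871969264) (nat_lit 115) (nat_lit 5) (nat_lit 118) (nat_lit 5) (nat_lit 119) (nat_lit 5) (nat_lit 474) (nat_lit 406) (nat_lit 320))))) (XT.nd (nat_lit 312) (nat_lit 456) (nat_lit 0) (XT.nd (nat_lit 156) (nat_lit 380) (nat_lit 0) (XT.nd (nat_lit 78) (nat_lit 0) (nat_lit 0) (XT.lf (nat_lit 0) (nat_lit 388415089) (nat_lit 304) (nat_lit 11717535926) (nat_lit 76) (nat_lit 4238982409) (nat_lit 111) (nat_lit 5) (nat_lit 115) (nat_lit 5) (nat_lit 112) (nat_lit 5) (nat_lit 475) (nat_lit 406) (nat_lit 319)) (XT.lf (nat_lit 0) (nat_lit 4744887547) (nat_lit 304) (nat_lit 1647400710) (nat_lit 76) (nat_lit 10256082991) (nat_lit 111) (nat_lit 5) (nat_lit 115) (nat_lit 5) (nat_lit 112) (nat_lit 5) (nat_lit 476) (nat_lit 406) (nat_lit 318))) (XT.nd (nat_lit 78) (nat_lit 152) (nat_lit 0) (XT.lf (nat_lit 0) (nat_lit 8858259515) (nat_lit 228) (nat_lit 434982796) (nat_lit 304) (nat_lit 7665836740) (nat_lit 108) (nat_lit 5) (nat_lit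 111) (nat_lit 5) (nat_lit 112) (nat_lit 5) (nat_lit 477) (nat_lit 406) (nat_lit 317)) (XT.lf (nat_lit 0) (nat_lit 2386235585) (nat_lit 152) (nat_lit 11662563808) (nat_lit 228) (nat_lit 3228188562) (nat_lit 106) (nat_lit 5) (nat_lit 108) (nat_lit 5) (nat_lit 109) (nat_lit 5) (nat_lit 478) (nat_lit 406) (nat_lit 316)))) (XT.nd (nat_lit 156) (nat_lit 152) (nat_lit 0) (XT.nd (nat_lit 78) (nat_lit 228) (nat_lit 0) (XT.lf (nat_lit 0) (nat_lit 1379602098) (nat_lit 228) (nat_lit 4305739532) (nat_lit 76) (nat_lit 11916811247) (nat_lit 105) (nat_lit 5) (nat_lit 108) (nat_lit 5) (nat_lit 106) (nat_lit 5) (nat_lit 479) (nat_lit 406) (nat_lit 315)) (XT.lf (nat_lit 0) (nat_lit 6107039978) (nat_lit 304) (nat_lit 11284011231) (nat_lit 76) (nat_lit 543675977) (nat_lit 102) (nat_lit 5) (nat_lit 106) (nat_lit 5) (nat_lit 103) (nat_lit 5) (nat_lit 480) (nat_lit 406) (nat_lit 314))) (XT.nd (nat_lit 78) (nat_lit 152) (nat_lit 0) (XT.lf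 (nat_lit 0) (nat_lit 11053639747) (nat_lit 304) (nat_lit 347265916) (nat_lit 76) (nat_lit 6874055046) (nat_lit 102) (nat_lit 5) (nat_lit 106) (nat_lit 5) (nat_lit 103) (nat_lit 5) (nat_lit 481) (nat_lit 406) (nat_lit 313)) (XT.lf (nat_lit 0) (nat_lit 11096543321) (nat_lit 152) (nat_lit 5136565051) (nat_lit 228) (nat_lit 2389760823) (nat_lit 100) (nat_lit 5) (nat_lit 102) (nat_lit 5) (nat_lit 103) (nat_lit 5) (nat_lit 482) (nat_lit 406) (nat_lit 312)))))) (XT.nd (nat_lit 546) (nat_lit 912) (nat_lit 0) (XT.nd (nat_lit 234) (nat_lit 456) (nat_lit 0) (XT.nd (nat_lit 78) (nat_lit 152) (nat_lit 0) (XT.lf (nat_lit 0) (nat_lit 2568554712) (nat_lit 304) (nat_lit 15069354741) (nat_lit 76) (nat_lit 1341592929) (nat_lit 96) (nat_lit 5) (nat_lit 100) (nat_lit 5) (nat_lit 97) (nat_lit 5) (nat_lit 483) (nat_lit 406) (nat_lit 311)) (XT.nd (nat_lit 78) (nat_lit 152) (nat_lit 0) (XT.lf (nat_lit 0) (nat_lit 7733210387) (nat_lit 304)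 (nat_lit 3613612992) (nat_lit 76) (nat_lit 7996134588) (nat_lit 96) (nat_lit 5) (nat_lit 100) (nat_lit 5) (nat_lit 97) (nat_lit 5) (nat_lit 484) (nat_lit 406) (nat_lit 310)) (XT.lf (nat_lit 0) (nat_lit 8311299385) (nat_lit 152) (nat_lit 4800051875) (nat_lit 228) (nat_lit 6604211447) (nat_lit 94) (nat_lit 5) (nat_lit 96) (nat_lit 5) (nat_lit 97) (nat_lit 5) (nat_lit 485) (nat_lit 406) (nat_lit 309)))) (XT.nd (nat_lit 156) (nat_lit 152) (nat_lit 0) (XT.nd (nat_lit 78) (nat_lit 76) (nat_lit 0) (XT.lf (nat_lit 0) (nat_lit 524159427) (nat_lit 228) (nat_lit 18166023890) (nat_lit 304) (nat_lit 1407983661) (nat_lit 91) (nat_lit 5) (nat_lit 94) (nat_lit 5) (nat_lit 95) (nat_lit 5) (nat_lit 486) (nat_lit 406) (nat_lit 308)) (XT.lf (nat_lit 0) (nat_lit 4009829697) (nat_lit 304) (nat_lit 7568037140) (nat_lit 76) (nat_lit 8908966946) (nat_lit 90) (nat_lit 5) (nat_lit 94) (nat_lit 5) (nat_lit 91) (nat_lit 5) (nat_lit 487) (nat_lit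 406) (nat_lit 307))) (XT.nd (nat_lit 78) (nat_lit 0) (nat_lit 0) (XT.lf (nat_lit 0) (nat_lit 4842873080) (nat_lit 152) (nat_lit 4745011131) (nat_lit 228) (nat_lit 11298079639) (nat_lit 88) (nat_lit 5) (nat_lit 90) (nat_lit 5) (nat_lit 91) (nat_lit 5) (nat_lit 488) (nat_lit 406) (nat_lit 306)) (XT.lf (nat_lit 0) (nat_lit 15412064570) (nat_lit 228) (nat_lit 3572238262) (nat_lit 76) (nat_lit 2310403060) (nat_lit 88) (nat_lit 5) (nat_lit 91) (nat_lit 5) (nat_lit 89) (nat_lit 5) (nat_lit 489) (nat_lit 406) (nat_lit 305))))) (XT.nd (nat_lit 312) (nat_lit 380) (nat_lit 0) (XT.nd (nat_lit 156) (nat_lit 152) (nat_lit 0) (XT.nd (nat_lit 78) (nat_lit 228) (nat_lit 0) (XT.lf (nat_lit 0) (nat_lit 9373808000) (nat_lit 152) (nat_lit 12154409742) (nat_lit 228) (nat_lit 183976582) (nat_lit 86) (nat_lit 5) (nat_lit 88) (nat_lit 5) (nat_lit 89) (nat_lit 5) (nat_lit 490) (nat_lit 406) (nat_lit 304)) (XT.lf (nat_lit 0) (nat_lit 561359126)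 (nat_lit 152) (nat_lit 5035378192) (nat_lit 228) (nat_lit 16543170834) (nat_lit 83) (nat_lit 5) (nat_lit 85) (nat_lit 5) (nat_lit 86) (nat_lit 5) (nat_lit 491) (nat_lit 406) (nat_lit 303))) (XT.nd (nat_lit 78) (nat_lit 152) (nat_lit 0) (XT.lf (nat_lit 0) (nat_lit 11675394604) (nat_lit 228) (nat_lit 8535853920) (nat_lit 76) (nat_lit 2365305055) (nat_lit 83) (nat_lit 5) (nat_lit 86) (nat_lit 5) (nat_lit 84) (nat_lit 5) (nat_lit 492) (nat_lit 406) (nat_lit 302)) (XT.lf (nat_lit 0) (nat_lit 4910077565) (nat_lit 152) (nat_lit 13104271706) (nat_lit 228) (nat_lit 5009612345) (nat_lit 81) (nat_lit 5) (nat_lit 83) (nat_lit 5) (nat_lit 84) (nat_lit 5) (nat_lit 493) (nat_lit 406) (nat_lit 301)))) (XT.nd (nat_lit 156) (nat_lit 152) (nat_lit 0) (XT.nd (nat_lit 78) (nat_lit 152) (nat_lit 0) (XT.lf (nat_lit 0) (nat_lit 1105999443) (nat_lit 228) (nat_lit 4592922549) (nat_lit 76) (nat_lit 17783526579) (nat_lit 80) (nat_lit 5) (nat_lit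 83) (nat_lit 5) (nat_lit 81) (nat_lit 5) (nat_lit 494) (nat_lit 406) (nat_lit 300)) (XT.lf (nat_lit 0) (nat_lit 7396359664) (nat_lit 228) (nat_lit 14535703426) (nat_lit 76) (nat_lit 2018381252) (nat_lit 78) (nat_lit 5) (nat_lit 81) (nat_lit 5) (nat_lit 79) (nat_lit 5) (nat_lit 495) (nat_lit 406) (nat_lit 299))) (XT.nd (nat_lit 78) (nat_lit 152) (nat_lit 0) (XT.lf (nat_lit 0) (nat_lit 13960264282) (nat_lit 228) (nat_lit 584333398) (nat_lit 76) (nat_lit 9885338522) (nat_lit 78) (nat_lit 5) (nat_lit 81) (nat_lit 5) (nat_lit 79) (nat_lit 5) (nat_lit 496) (nat_lit 406) (nat_lit 298)) (XT.lf (nat_lit 0) (nat_lit 14027117390) (nat_lit 152) (nat_lit 6810912587) (nat_lit 228) (nat_lit 4082275714) (nat_lit 76) (nat_lit 5) (nat_lit 78) (nat_lit 5) (nat_lit 79) (nat_lit 5) (nat_lit 497) (nat_lit 406) (nat_lit 297))))))))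
noncomputable def xc113 : XT := (XT.nd (nat_lit 2340) (nat_lit 1216) (nat_lit 0) (XT.nd (nat_lit 1170) (nat_lit 1064) (nat_lit 0) (XT.nd (nat_lit 546) (nat_lit 684) (nat_lit 0) (XT.nd (nat_lit 234) (nat_lit 380) (nat_lit 0) (XT.nd (nat_lit 78) (nat_lit 152) (nat_lit 0) (XT.lf (nat_lit 0) (nat_lit 2483102241) (nat_lit 228) (nat_lit 21756376878) (nat_lit 76) (nat_lit 1184135851) (nat_lit 73) (nat_lit 5) (nat_lit 76) (nat_lit 5) (nat_lit 74) (nat_lit 5) (nat_lit 498) (nat_lit 406) (nat_lit 296)) (XT.nd (nat_lit 78) (nat_lit 152) (nat_lit 0) (XT.lf (nat_lit 0) (nat_lit 9324137201) (nat_lit 228) (nat_lit 7192187247) (nat_lit 76) (nat_lit 9419665249) (nat_lit 73) (nat_lit 5) (nat_lit 76) (nat_lit 5) (nat_lit 74) (nat_lit 5) (nat_lit 499) (nat_lit 406) (nat_lit 295)) (XT.lf (nat_lit 0) (nat_lit 7932359483) (nat_lit 152) (nat_lit 8497033871) (nat_lit 228) (nat_lit 10032573663) (nat_lit 71) (nat_lit 5) (nat_lit 73) (nat_lit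 5) (nat_lit 74) (nat_lit 5) (nat_lit 500) (nat_lit 406) (nat_lit 294)))) (XT.nd (nat_lit 156) (nat_lit 152) (nat_lit 0) (XT.nd (nat_lit 78) (nat_lit 228) (nat_lit 0) (XT.lf (nat_lit 0) (nat_lit 23627025336) (nat_lit 152) (nat_lit 176352561) (nat_lit 228) (nat_lit 3198679666) (nat_lit 71) (nat_lit 5) (nat_lit 73) (nat_lit 5) (nat_lit 74) (nat_lit 5) (nat_lit 501) (nat_lit 406) (nat_lit 293)) (XT.lf (nat_lit 0) (nat_lit 3949954251) (nat_lit 228) (nat_lit 15227340597) (nat_lit 76) (nat_lit 8374409709) (nat_lit 68) (nat_lit 5) (nat_lit 71) (nat_lit 5) (nat_lit 69) (nat_lit 5) (nat_lit 502) (nat_lit 406) (nat_lit 292))) (XT.nd (nat_lit 78) (nat_lit 0) (nat_lit 0) (XT.lf (nat_lit 0) (nat_lit 390427191) (nat_lit 152) (nat_lit 10881588764) (nat_lit 228) (nat_lit 16844178068) (nat_lit 66) (nat_lit 5) (nat_lit 68) (nat_lit 5) (nat_lit 69) (nat_lit 5) (nat_lit 503) (nat_lit 406) (nat_lit 291)) (XT.lf (nat_lit 0) (nat_lit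 16758626829) (nat_lit 152) (nat_lit 2192414749) (nat_lit 228) (nat_lit 9742458447) (nat_lit 66) (nat_lit 5) (nat_lit 68) (nat_lit 5) (nat_lit 69) (nat_lit 5) (nat_lit 504) (nat_lit 406) (nat_lit 290))))) (XT.nd (nat_lit 312) (nat_lit 380) (nat_lit 0) (XT.nd (nat_lit 156) (nat_lit 152) (nat_lit 0) (XT.nd (nat_lit 78) (nat_lit 76) (nat_lit 0) (XT.lf (nat_lit 0) (nat_lit 4319359350) (nat_lit 76) (nat_lit 22631442233) (nat_lit 152) (nat_lit 2334613599) (nat_lit 65) (nat_lit 5) (nat_lit 66) (nat_lit 5) (nat_lit 67) (nat_lit 4) (nat_lit 505) (nat_lit 406) (nat_lit 289)) (XT.lf (nat_lit 0) (nat_lit 5319466735) (nat_lit 152) (nat_lit 8689150933) (nat_lit 76) (nat_lit 15881123848) (nat_lit 64) (nat_lit 5) (nat_lit 66) (nat_lit 5) (nat_lit 65) (nat_lit 5) (nat_lit 506) (nat_lit 406) (nat_lit 288))) (XT.nd (nat_lit 78) (nat_lit 0) (nat_lit 0) (XT.lf (nat_lit 0) (nat_lit 8183760003) (nat_lit 152) (nat_lit 5035536488) (nat_lit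 228) (nat_lit 17290316998) (nat_lit 62) (nat_lit 5) (nat_lit 64) (nat_lit 5) (nat_lit 65) (nat_lit 5) (nat_lit 507) (nat_lit 406) (nat_lit 287)) (XT.lf (nat_lit 0) (nat_lit 21469607584) (nat_lit 228) (nat_lit 5474713450) (nat_lit 76) (nat_lit 4200356780) (nat_lit 62) (nat_lit 5) (nat_lit 65) (nat_lit 5) (nat_lit 63) (nat_lit 4) (nat_lit 508) (nat_lit 406) (nat_lit 286)))) (XT.nd (nat_lit 156) (nat_lit 228) (nat_lit 0) (XT.nd (nat_lit 78) (nat_lit 76) (nat_lit 0) (XT.lf (nat_lit 0) (nat_lit 12038934739) (nat_lit 76) (nat_lit 18078965554) (nat_lit 152) (nat_lit 1676380370) (nat_lit 61) (nat_lit 5) (nat_lit 62) (nat_lit 5) (nat_lit 63) (nat_lit 4) (nat_lit 509) (nat_lit 406) (nat_lit 285)) (XT.lf (nat_lit 0) (nat_lit 6474961864) (nat_lit 152) (nat_lit 2363240147) (nat_lit 76) (nat_lit 23622055533) (nat_lit 60) (nat_lit 5) (nat_lit 62) (nat_lit 5) (nat_lit 61) (nat_lit 5) (nat_lit 510) (nat_lit 406) (nat_lit 284)))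 (XT.nd (nat_lit 78) (nat_lit 76) (nat_lit 0) (XT.lf (nat_lit 0) (nat_lit 14982613368) (nat_lit 228) (nat_lit 17334330984) (nat_lit 76) (nat_lit 824408265) (nat_lit 58) (nat_lit 5) (nat_lit 61) (nat_lit 5) (nat_lit 59) (nat_lit 4) (nat_lit 511) (nat_lit 406) (nat_lit 283)) (XT.lf (nat_lit 0) (nat_lit 625793407) (nat_lit 76) (nat_lit 23222723317) (nat_lit 152) (nat_lit 9991273828) (nat_lit 57) (nat_lit 5) (nat_lit 58) (nat_lit 5) (nat_lit 59) (nat_lit 4) (nat_lit 512) (nat_lit 406) (nat_lit 282)))))) (XT.nd (nat_lit 546) (nat_lit 532) (nat_lit 0) (XT.nd (nat_lit 234) (nat_lit 304) (nat_lit 0) (XT.nd (nat_lit 78) (nat_lit 228) (nat_lit 0) (XT.lf (nat_lit 0) (nat_lit 19452980814) (nat_lit 76) (nat_lit 13688023571) (nat_lit 152) (nat_lit 1413359682) (nat_lit 57) (nat_lit 5) (nat_lit 58) (nat_lit 5) (nat_lit 59) (nat_lit 4) (nat_lit 513) (nat_lit 406) (nat_lit 281)) (XT.nd (nat_lit 78) (nat_lit 0) (nat_lit 0) (XT.lf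 (nat_lit 0) (nat_lit 3525489116) (nat_lit 152) (nat_lit 3771309600) (nat_lit 228) (nat_lit 27990844339) (nat_lit 54) (nat_lit 5) (nat_lit 56) (nat_lit 5) (nat_lit 57) (nat_lit 5) (nat_lit 514) (nat_lit 406) (nat_lit 280)) (XT.lf (nat_lit 0) (nat_lit 16441678575) (nat_lit 228) (nat_lit 13121663765) (nat_lit 76) (nat_lit 6473104150) (nat_lit 54) (nat_lit 5) (nat_lit 57) (nat_lit 5) (nat_lit 55) (nat_lit 4) (nat_lit 515) (nat_lit 406) (nat_lit 279)))) (XT.nd (nat_lit 156) (nat_lit 228) (nat_lit 0) (XT.nd (nat_lit 78) (nat_lit 0) (nat_lit 0) (XT.lf (nat_lit 0) (nat_lit 6134571391) (nat_lit 76) (nat_lit 19808939945) (nat_lit 152) (nat_lit 10861725082) (nat_lit 53) (nat_lit 5) (nat_lit 54) (nat_lit 5) (nat_lit 55) (nat_lit 4) (nat_lit 516) (nat_lit 406) (nat_lit 278)) (XT.lf (nat_lit 0) (nat_lit 26211890549) (nat_lit 76) (nat_lit 9637462329) (nat_lit 152) (nat_lit 1744169120) (nat_lit 53) (nat_lit 5) (nat_lit 54) (nat_lit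 5) (nat_lit 55) (nat_lit 4) (nat_lit 517) (nat_lit 406) (nat_lit 277))) (XT.nd (nat_lit 78) (nat_lit 0) (nat_lit 0) (XT.lf (nat_lit 0) (nat_lit 7576134151) (nat_lit 228) (nat_lit 29856288789) (nat_lit 76) (nat_lit 968475352) (nat_lit 50) (nat_lit 5) (nat_lit 53) (nat_lit 5) (nat_lit 51) (nat_lit 4) (nat_lit 518) (nat_lit 406) (nat_lit 276)) (XT.lf (nat_lit 0) (nat_lit 17339230887) (nat_lit 228) (nat_lit 10066065226) (nat_lit 76) (nat_lit 11820734999) (nat_lit 50) (nat_lit 5) (nat_lit 53) (nat_lit 5) (nat_lit 51) (nat_lit 4) (nat_lit 519) (nat_lit 406) (nat_lit 275))))) (XT.nd (nat_lit 312) (nat_lit 228) (nat_lit 0) (XT.nd (nat_lit 156) (nat_lit 228) (nat_lit 0) (XT.nd (nat_lit 78) (nat_lit 0) (nat_lit 0) (XT.lf (nat_lit 0) (nat_lit 10498317335) (nat_lit 76) (nat_lit 16984955280) (nat_lit 152) (nat_lit 12590004244) (nat_lit 49) (nat_lit 5) (nat_lit 50) (nat_lit 5) (nat_lit 51) (nat_lit 4) (nat_lit 520) (nat_lit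 406) (nat_lit 274)) (XT.lf (nat_lit 0) (nat_lit 31861807441) (nat_lit 76) (nat_lit 6158753880) (nat_lit 152) (nat_lit 2922711375) (nat_lit 49) (nat_lit 5) (nat_lit 50) (nat_lit 5) (nat_lit 51) (nat_lit 4) (nat_lit 521) (nat_lit 406) (nat_lit 273))) (XT.nd (nat_lit 78) (nat_lit 0) (nat_lit 0) (XT.lf (nat_lit 0) (nat_lit 7051579021) (nat_lit 228) (nat_lit 29710872843) (nat_lit 76) (nat_lit 5070260906) (nat_lit 46) (nat_lit 5) (nat_lit 49) (nat_lit 5) (nat_lit 47) (nat_lit 4) (nat_lit 522) (nat_lit 406) (nat_lit 272)) (XT.lf (nat_lit 0) (nat_lit 17407501718) (nat_lit 228) (nat_lit 8713247082) (nat_lit 76) (nat_lit 16622985146) (nat_lit 46) (nat_lit 5) (nat_lit 49) (nat_lit 5) (nat_lit 47) (nat_lit 4) (nat_lit 523) (nat_lit 406) (nat_lit 271)))) (XT.nd (nat_lit 156) (nat_lit 152) (nat_lit 0) (XT.nd (nat_lit 78) (nat_lit 0) (nat_lit 0) (XT.lf (nat_lit 0) (nat_lit 13147816157) (nat_lit 76) (nat_lit 15040589693) (nat_lit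 152) (nat_lit 15490251230) (nat_lit 45) (nat_lit 5) (nat_lit 46) (nat_lit 5) (nat_lit 47) (nat_lit 4) (nat_lit 524) (nat_lit 406) (nat_lit 270)) (XT.lf (nat_lit 0) (nat_lit 35820497779) (nat_lit 76) (nat_lit 3548277395) (nat_lit 152) (nat_lit 5270572014) (nat_lit 45) (nat_lit 5) (nat_lit 46) (nat_lit 5) (nat_lit 47) (nat_lit 4) (nat_lit 525) (nat_lit 406) (nat_lit 269))) (XT.nd (nat_lit 78) (nat_lit 0) (nat_lit 0) (XT.lf (nat_lit 0) (nat_lit 5354880747) (nat_lit 152) (nat_lit 31965417710) (nat_lit 76) (nat_lit 8300992091) (nat_lit 43) (nat_lit 5) (nat_lit 45) (nat_lit 5) (nat_lit 44) (nat_lit 4) (nat_lit 526) (nat_lit 406) (nat_lit 268)) (XT.lf (nat_lit 0) (nat_lit 16306540485) (nat_lit 152) (nat_lit 9755025084) (nat_lit 76) (nat_lit 20566160208) (nat_lit 43) (nat_lit 5) (nat_lit 45) (nat_lit 5) (nat_lit 44) (nat_lit 4) (nat_lit 527) (nat_lit 406) (nat_lit 267))))))) (XT.nd (nat_lit 1170) (nat_lit 456) (nat_lit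 0) (XT.nd (nat_lit 546) (nat_lit 380) (nat_lit 0) (XT.nd (nat_lit 234) (nat_lit 152) (nat_lit 0) (XT.nd (nat_lit 78) (nat_lit 152) (nat_lit 0) (XT.lf (nat_lit 0) (nat_lit 13360624353) (nat_lit 76) (nat_lit 14343207041) (nat_lit 152) (nat_lit 19957010602) (nat_lit 42) (nat_lit 5) (nat_lit 43) (nat_lit 5) (nat_lit 44) (nat_lit 4) (nat_lit 528) (nat_lit 406) (nat_lit 266)) (XT.nd (nat_lit 78) (nat_lit 152) (nat_lit 0) (XT.lf (nat_lit 0) (nat_lit 37348156275) (nat_lit 76) (nat_lit 2182165620) (nat_lit 152) (nat_lit 9192011747) (nat_lit 42) (nat_lit 5) (nat_lit 43) (nat_lit 5) (nat_lit 44) (nat_lit 4) (nat_lit 529) (nat_lit 406) (nat_lit 265)) (XT.lf (nat_lit 0) (nat_lit 2068241244) (nat_lit 152) (nat_lit 37469481287) (nat_lit 76) (nat_lit 10271122081) (nat_lit 40) (nat_lit 5) (nat_lit 42) (nat_lit 5) (nat_lit 41) (nat_lit 4) (nat_lit 530) (nat_lit 406) (nat_lit 264)))) (XT.nd (nat_lit 156) (nat_lit 76) (nat_lit 0)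 (XT.nd (nat_lit 78) (nat_lit 76) (nat_lit 0) (XT.lf (nat_lit 0) (nat_lit 13608166806) (nat_lit 152) (nat_lit 14061958336) (nat_lit 76) (nat_lit 23251297342) (nat_lit 40) (nat_lit 5) (nat_lit 42) (nat_lit 5) (nat_lit 41) (nat_lit 4) (nat_lit 531) (nat_lit 406) (nat_lit 263)) (XT.lf (nat_lit 0) (nat_lit 10226798536) (nat_lit 76) (nat_lit 15355133404) (nat_lit 152) (nat_lit 26482816822) (nat_lit 39) (nat_lit 5) (nat_lit 40) (nat_lit 5) (nat_lit 41) (nat_lit 4) (nat_lit 532) (nat_lit 406) (nat_lit 262))) (XT.nd (nat_lit 78) (nat_lit 76) (nat_lit 0) (XT.lf (nat_lit 0) (nat_lit 35512122538) (nat_lit 76) (nat_lit 2534236238) (nat_lit 152) (nat_lit 15192072904) (nat_lit 39) (nat_lit 5) (nat_lit 40) (nat_lit 5) (nat_lit 41) (nat_lit 4) (nat_lit 533) (nat_lit 406) (nat_lit 261)) (XT.lf (nat_lit 0) (nat_lit 7125164602) (nat_lit 76) (nat_lit 43920290527) (nat_lit 76) (nat_lit 3397048160) (nat_lit 38) (nat_lit 4) (nat_lit 39)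 (nat_lit 5) (nat_lit 39) (nat_lit 4) (nat_lit 534) (nat_lit 406) (nat_lit 260))))) (XT.nd (nat_lit 312) (nat_lit 228) (nat_lit 0) (XT.nd (nat_lit 156) (nat_lit 0) (nat_lit 0) (XT.nd (nat_lit 78) (nat_lit 76) (nat_lit 0) (XT.lf (nat_lit 0) (nat_lit 8776588017) (nat_lit 152) (nat_lit 22722749330) (nat_lit 76) (nat_lit 24174969939) (nat_lit 37) (nat_lit 5) (nat_lit 39) (nat_lit 5) (nat_lit 38) (nat_lit 4) (nat_lit 535) (nat_lit 406) (nat_lit 259)) (XT.lf (nat_lit 0) (nat_lit 2607522642) (nat_lit 76) (nat_lit 18654674811) (nat_lit 152) (nat_lit 35679407962) (nat_lit 36) (nat_lit 5) (nat_lit 37) (nat_lit 5) (nat_lit 38) (nat_lit 4) (nat_lit 536) (nat_lit 406) (nat_lit 258))) (XT.nd (nat_lit 78) (nat_lit 0) (nat_lit 0) (XT.lf (nat_lit 0) (nat_lit 29144284001) (nat_lit 76) (nat_lit 5197630025) (nat_lit 152) (nat_lit 23898422566) (nat_lit 36) (nat_lit 5) (nat_lit 37) (nat_lit 5) (nat_lit 38) (nat_lit 4) (nat_lit 537) (nat_lit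 406) (nat_lit 257)) (XT.lf (nat_lit 0) (nat_lit 47887583070) (nat_lit 152) (nat_lit 3203012361) (nat_lit 0) (nat_lit 8485227709) (nat_lit 36) (nat_lit 5) (nat_lit 38) (nat_lit 4) (nat_lit 36) (nat_lit 4) (nat_lit 538) (nat_lit 406) (nat_lit 256)))) (XT.nd (nat_lit 156) (nat_lit 76) (nat_lit 0) (XT.nd (nat_lit 78) (nat_lit 0) (nat_lit 0) (XT.lf (nat_lit 0) (nat_lit 1145015175) (nat_lit 152) (nat_lit 37091759595) (nat_lit 76) (nat_lit 22706120604) (nat_lit 34) (nat_lit 5) (nat_lit 36) (nat_lit 5) (nat_lit 35) (nat_lit 4) (nat_lit 539) (nat_lit 406) (nat_lit 255)) (XT.lf (nat_lit 0) (nat_lit 14151586877) (nat_lit 152) (nat_lit 10701802571) (nat_lit 76) (nat_lit 37493421588) (nat_lit 34) (nat_lit 5) (nat_lit 36) (nat_lit 5) (nat_lit 35) (nat_lit 4) (nat_lit 540) (nat_lit 406) (nat_lit 254))) (XT.nd (nat_lit 78) (nat_lit 0) (nat_lit 0) (XT.lf (nat_lit 0) (nat_lit 16789699400) (nat_lit 76) (nat_lit 10910900134) (nat_lit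 152) (nat_lit 36087677554) (nat_lit 33) (nat_lit 5) (nat_lit 34) (nat_lit 5) (nat_lit 35) (nat_lit 4) (nat_lit 541) (nat_lit 406) (nat_lit 253)) (XT.lf (nat_lit 0) (nat_lit 41789247901) (nat_lit 152) (nat_lit 19996450879) (nat_lit 0) (nat_lit 3483293610) (nat_lit 33) (nat_lit 5) (nat_lit 35) (nat_lit 4) (nat_lit 33) (nat_lit 4) (nat_lit 542) (nat_lit 406) (nat_lit 252)))))) (XT.nd (nat_lit 624) (nat_lit 76) (nat_lit 0) (XT.nd (nat_lit 312) (nat_lit 152) (nat_lit 0) (XT.nd (nat_lit 156) (nat_lit 76) (nat_lit 0) (XT.nd (nat_lit 78) (nat_lit 76) (nat_lit 0) (XT.lf (nat_lit 0) (nat_lit 7843487568) (nat_lit 76) (nat_lit 48631625238) (nat_lit 76) (nat_lit 10313779851) (nat_lit 32) (nat_lit 4) (nat_lit 33) (nat_lit 5) (nat_lit 33) (nat_lit 4) (nat_lit 543) (nat_lit 406) (nat_lit 251)) (XT.lf (nat_lit 0) (nat_lit 3378862789) (nat_lit 152) (nat_lit 31470298676) (nat_lit 76) (nat_lit 33498440377) (nat_lit 31) (nat_lit 5)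 (nat_lit 33) (nat_lit 5) (nat_lit 32) (nat_lit 4) (nat_lit 544) (nat_lit 406) (nat_lit 250))) (XT.nd (nat_lit 78) (nat_lit 76) (nat_lit 0) (XT.lf (nat_lit 0) (nat_lit 17266384765) (nat_lit 152) (nat_lit 3289837563) (nat_lit 76) (nat_lit 49394044772) (nat_lit 31) (nat_lit 5) (nat_lit 33) (nat_lit 5) (nat_lit 32) (nat_lit 4) (nat_lit 545) (nat_lit 406) (nat_lit 249)) (XT.lf (nat_lit 0) (nat_lit 26231617655) (nat_lit 76) (nat_lit 5582716497) (nat_lit 152) (nat_lit 39779364307) (nat_lit 30) (nat_lit 5) (nat_lit 31) (nat_lit 5) (nat_lit 32) (nat_lit 4) (nat_lit 546) (nat_lit 406) (nat_lit 248)))) (XT.nd (nat_lit 156) (nat_lit 76) (nat_lit 0) (XT.nd (nat_lit 78) (nat_lit 76) (nat_lit 0) (XT.lf (nat_lit 0) (nat_lit 46918519850) (nat_lit 152) (nat_lit 16690503938) (nat_lit 0) (nat_lit 9673815228) (nat_lit 30) (nat_lit 5) (nat_lit 32) (nat_lit 4) (nat_lit 30) (nat_lit 4) (nat_lit 547) (nat_lit 406) (nat_lit 247)) (XT.lf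 (nat_lit 0) (nat_lit 13024265251) (nat_lit 76) (nat_lit 49623940357) (nat_lit 76) (nat_lit 12369277130) (nat_lit 29) (nat_lit 4) (nat_lit 30) (nat_lit 5) (nat_lit 30) (nat_lit 4) (nat_lit 548) (nat_lit 406) (nat_lit 246))) (XT.nd (nat_lit 78) (nat_lit 0) (nat_lit 0) (XT.lf (nat_lit 0) (nat_lit 2167817435) (nat_lit 152) (nat_lit 32863662382) (nat_lit 76) (nat_lit 41767232659) (nat_lit 28) (nat_lit 5) (nat_lit 30) (nat_lit 5) (nat_lit 29) (nat_lit 4) (nat_lit 549) (nat_lit 406) (nat_lit 245)) (XT.lf (nat_lit 0) (nat_lit 16884558807) (nat_lit 152) (nat_lit 2998064338) (nat_lit 76) (nat_lit 58747317763) (nat_lit 28) (nat_lit 5) (nat_lit 30) (nat_lit 5) (nat_lit 29) (nat_lit 4) (nat_lit 550) (nat_lit 406) (nat_lit 244))))) (XT.nd (nat_lit 51480) (nat_lit 0) (nat_lit 26752) (XT.nd (nat_lit 51324) (nat_lit 0) (nat_lit 27360) (XT.nd (nat_lit 51246) (nat_lit 0) (nat_lit 27892) (XT.lf (nat_lit 0) (nat_lit 28300824884) (nat_lit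 76) (nat_lit 4006395380) (nat_lit 152) (nat_lit 48200953557) (nat_lit 27) (nat_lit 5) (nat_lit 28) (nat_lit 5) (nat_lit 29) (nat_lit 4) (nat_lit 551) (nat_lit 406) (nat_lit 243)) (XT.lf (nat_lit 0) (nat_lit 2806688011) (nat_lit 532) (nat_lit 259303780) (nat_lit 532) (nat_lit 259303780) (nat_lit 394) (nat_lit 3) (nat_lit 401) (nat_lit 3) (nat_lit 401) (nat_lit 5) (nat_lit 407) (nat_lit 407) (nat_lit 386))) (XT.nd (nat_lit 78) (nat_lit 0) (nat_lit 0) (XT.lf (nat_lit 0) (nat_lit 1247818722) (nat_lit 532) (nat_lit 3884766260) (nat_lit 608) (nat_lit 1548880167) (nat_lit 387) (nat_lit 5) (nat_lit 394) (nat_lit 3) (nat_lit 395) (nat_lit 5) (nat_lit 408) (nat_lit 407) (nat_lit 385)) (XT.lf (nat_lit 0) (nat_lit 3497481876) (nat_lit 532) (nat_lit 548850386) (nat_lit 608) (nat_lit 2669147986) (nat_lit 387) (nat_lit 5) (nat_lit 394) (nat_lit 3) (nat_lit 395) (nat_lit 5) (nat_lit 409) (nat_lit 407) (nat_lit 384)))) (XT.nd (nat_lit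 156) (nat_lit 0) (nat_lit 0) (XT.nd (nat_lit 78) (nat_lit 608) (nat_lit 0) (XT.lf (nat_lit 76) (nat_lit 2897552326) (nat_lit 0) (nat_lit 2859145859) (nat_lit 608) (nat_lit 995585537) (nat_lit 388) (nat_lit 5) (nat_lit 387) (nat_lit 5) (nat_lit 395) (nat_lit 5) (nat_lit 410) (nat_lit 407) (nat_lit 383)) (XT.lf (nat_lit 0) (nat_lit 1189268476) (nat_lit 608) (nat_lit 391307410) (nat_lit 684) (nat_lit 5211640215) (nat_lit 379) (nat_lit 5) (nat_lit 387) (nat_lit 5) (nat_lit 388) (nat_lit 5) (nat_lit 411) (nat_lit 407) (nat_lit 382))) (XT.nd (nat_lit 78) (nat_lit 0) (nat_lit 76) (XT.lf (nat_lit 76) (nat_lit 3182247860) (nat_lit 0) (nat_lit 185875839) (nat_lit 684) (nat_lit 3466500347) (nat_lit 380) (nat_lit 5) (nat_lit 379) (nat_lit 5) (nat_lit 388) (nat_lit 5) (nat_lit 412) (nat_lit 407) (nat_lit 381)) (XT.lf (nat_lit 0) (nat_lit 5548520152) (nat_lit 608) (nat_lit 67540222) (nat_lit 684) (nat_lit 1264185083) (nat_lit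 380) (nat_lit 5) (nat_lit 388) (nat_lit 5) (nat_lit 389) (nat_lit 5) (nat_lit 413) (nat_lit 407) (nat_lit 380))))))))
noncomputable def xc114 : XT := (XT.nd (nat_lit 2340) (nat_lit 7144) (nat_lit 0) (XT.nd (nat_lit 1170) (nat_lit 6688) (nat_lit 0) (XT.nd (nat_lit 546) (nat_lit 4712) (nat_lit 0) (XT.nd (nat_lit 234) (nat_lit 684) (nat_lit 0) (XT.nd (nat_lit 78) (nat_lit 0) (nat_lit 0) (XT.lf (nat_lit 0) (nat_lit 809133765) (nat_lit 684) (nat_lit 3289157682) (nat_lit 760) (nat_lit 2829950160) (nat_lit 371) (nat_lit 5) (nat_lit 380) (nat_lit 5) (nat_lit 381) (nat_lit 5) (nat_lit 414) (nat_lit 407) (nat_lit 379)) (XT.nd (nat_lit 78) (nat_lit 0) (nat_lit 0) (XT.lf (nat_lit 76) (nat_lit 427786403) (nat_lit 0) (nat_lit 2487992027) (nat_lit 760) (nat_lit 4063678110) (nat_lit 372) (nat_lit 5) (nat_lit 371) (nat_lit 5) (nat_lit 381) (nat_lit 5) (nat_lit 415) (nat_lit 407) (nat_lit 378)) (XT.lf (nat_lit 76) (nat_lit 4276130716)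 (nat_lit 0) (nat_lit 768001530) (nat_lit 760) (nat_lit 1989343920) (nat_lit 372) (nat_lit 5) (nat_lit 371) (nat_lit 5) (nat_lit 381) (nat_lit 5) (nat_lit 416) (nat_lit 407) (nat_lit 377)))) (XT.nd (nat_lit 156) (nat_lit 0) (nat_lit 0) (XT.nd (nat_lit 78) (nat_lit 0) (nat_lit 0) (XT.lf (nat_lit 0) (nat_lit 91894761) (nat_lit 760) (nat_lit 5977292120) (nat_lit 836) (nat_lit 1021482816) (nat_lit 362) (nat_lit 5) (nat_lit 372) (nat_lit 5) (nat_lit 373) (nat_lit 5) (nat_lit 417) (nat_lit 407) (nat_lit 376)) (XT.lf (nat_lit 0) (nat_lit 2159956811) (nat_lit 760) (nat_lit 2069140263) (nat_lit 836) (nat_lit 2920981506) (nat_lit 362) (nat_lit 5) (nat_lit 372) (nat_lit 5) (nat_lit 373) (nat_lit 5) (nat_lit 418) (nat_lit 407) (nat_lit 375))) (XT.nd (nat_lit 78) (nat_lit 0) (nat_lit 0) (XT.lf (nat_lit 76) (nat_lit 1946109832) (nat_lit 0) (nat_lit 2293382952) (nat_lit 836) (nat_lit 2973314899) (nat_lit 363) (nat_lit 5) (nat_lit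 362) (nat_lit 5) (nat_lit 373) (nat_lit 5) (nat_lit 419) (nat_lit 407) (nat_lit 374)) (XT.lf (nat_lit 76) (nat_lit 6076582631) (nat_lit 0) (nat_lit 258011010) (nat_lit 836) (nat_lit 944249960) (nat_lit 363) (nat_lit 5) (nat_lit 362) (nat_lit 5) (nat_lit 373) (nat_lit 5) (nat_lit 420) (nat_lit 407) (nat_lit 373))))) (XT.nd (nat_lit 312) (nat_lit 2204) (nat_lit 0) (XT.nd (nat_lit 156) (nat_lit 1748) (nat_lit 0) (XT.nd (nat_lit 78) (nat_lit 0) (nat_lit 0) (XT.lf (nat_lit 0) (nat_lit 1103844204) (nat_lit 836) (nat_lit 4382211333) (nat_lit 76) (nat_lit 1861078395) (nat_lit 352) (nat_lit 5) (nat_lit 363) (nat_lit 5) (nat_lit 353) (nat_lit 5) (nat_lit 421) (nat_lit 407) (nat_lit 372)) (XT.lf (nat_lit 0) (nat_lit 3144456867) (nat_lit 836) (nat_lit 196639775) (nat_lit 76) (nat_lit 4077612818) (nat_lit 352) (nat_lit 5) (nat_lit 363) (nat_lit 5) (nat_lit 353) (nat_lit 5) (nat_lit 422) (nat_lit 407) (nat_lit 371))) (XT.nd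 (nat_lit 78) (nat_lit 912) (nat_lit 0) (XT.lf (nat_lit 0) (nat_lit 4147594517) (nat_lit 836) (nat_lit 1075687770) (nat_lit 912) (nat_lit 2269858178) (nat_lit 341) (nat_lit 5) (nat_lit 352) (nat_lit 5) (nat_lit 353) (nat_lit 5) (nat_lit 423) (nat_lit 407) (nat_lit 370)) (XT.lf (nat_lit 0) (nat_lit 1014766183) (nat_lit 912) (nat_lit 6312192735) (nat_lit 988) (nat_lit 243988405) (nat_lit 329) (nat_lit 5) (nat_lit 341) (nat_lit 5) (nat_lit 342) (nat_lit 5) (nat_lit 424) (nat_lit 407) (nat_lit 369)))) (XT.nd (nat_lit 156) (nat_lit 1140) (nat_lit 0) (XT.nd (nat_lit 78) (nat_lit 988) (nat_lit 0) (XT.lf (nat_lit 0) (nat_lit 1790812012) (nat_lit 988) (nat_lit 2154412314) (nat_lit 76) (nat_lit 3705825845) (nat_lit 328) (nat_lit 5) (nat_lit 341) (nat_lit 5) (nat_lit 329) (nat_lit 5) (nat_lit 425) (nat_lit 407) (nat_lit 368)) (XT.lf (nat_lit 0) (nat_lit 2374684034) (nat_lit 988) (nat_lit 1471005223) (nat_lit 1064) (nat_lit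 3888892302) (nat_lit 315) (nat_lit 5) (nat_lit 328) (nat_lit 5) (nat_lit 329) (nat_lit 5) (nat_lit 426) (nat_lit 407) (nat_lit 367))) (XT.nd (nat_lit 78) (nat_lit 1140) (nat_lit 0) (XT.lf (nat_lit 0) (nat_lit 5936993592) (nat_lit 1064) (nat_lit 796729242) (nat_lit 76) (nat_lit 1087668196) (nat_lit 315) (nat_lit 5) (nat_lit 329) (nat_lit 5) (nat_lit 316) (nat_lit 5) (nat_lit 427) (nat_lit 407) (nat_lit 366)) (XT.lf (nat_lit 0) (nat_lit 173007021) (nat_lit 1140) (nat_lit 3995978877) (nat_lit 76) (nat_lit 3741892829) (nat_lit 300) (nat_lit 5) (nat_lit 315) (nat_lit 5) (nat_lit 301) (nat_lit 5) (nat_lit 428) (nat_lit 407) (nat_lit 365)))))) (XT.nd (nat_lit 546) (nat_lit 2888) (nat_lit 0) (XT.nd (nat_lit 234) (nat_lit 1444) (nat_lit 0) (XT.nd (nat_lit 78) (nat_lit 1216) (nat_lit 0) (XT.lf (nat_lit 0) (nat_lit 727674015) (nat_lit 1140) (nat_lit 1486443285) (nat_lit 1216) (nat_lit 5789592528) (nat_lit 285) (nat_lit 5)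 (nat_lit 300) (nat_lit 5) (nat_lit 301) (nat_lit 5) (nat_lit 429) (nat_lit 407) (nat_lit 364)) (XT.nd (nat_lit 78) (nat_lit 1216) (nat_lit 0) (XT.lf (nat_lit 0) (nat_lit 4315414895) (nat_lit 1216) (nat_lit 2486231913) (nat_lit 76) (nat_lit 1297724261) (nat_lit 285) (nat_lit 5) (nat_lit 301) (nat_lit 5) (nat_lit 286) (nat_lit 5) (nat_lit 430) (nat_lit 407) (nat_lit 363)) (XT.lf (nat_lit 0) (nat_lit 2431059420) (nat_lit 1216) (nat_lit 4034284602) (nat_lit 1292) (nat_lit 1733003773) (nat_lit 269) (nat_lit 5) (nat_lit 285) (nat_lit 5) (nat_lit 286) (nat_lit 5) (nat_lit 431) (nat_lit 407) (nat_lit 362)))) (XT.nd (nat_lit 156) (nat_lit 608) (nat_lit 0) (XT.nd (nat_lit 78) (nat_lit 760) (nat_lit 0) (XT.lf (nat_lit 0) (nat_lit 345474619) (nat_lit 1292) (nat_lit 806097240) (nat_lit 76) (nat_lit 7149423112) (nat_lit 268) (nat_lit 5) (nat_lit 285) (nat_lit 5) (nat_lit 269) (nat_lit 5) (nat_lit 432) (nat_lit 407) (nat_lit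 361)) (XT.lf (nat_lit 0) (nat_lit 2460669038) (nat_lit 836) (nat_lit 4101485440) (nat_lit 76) (nat_lit 1843788816) (nat_lit 258) (nat_lit 5) (nat_lit 269) (nat_lit 5) (nat_lit 259) (nat_lit 5) (nat_lit 433) (nat_lit 407) (nat_lit 360))) (XT.nd (nat_lit 78) (nat_lit 0) (nat_lit 0) (XT.lf (nat_lit 0) (nat_lit 1030591354) (nat_lit 608) (nat_lit 3588847266) (nat_lit 684) (nat_lit 3895209793) (nat_lit 250) (nat_lit 5) (nat_lit 258) (nat_lit 5) (nat_lit 259) (nat_lit 5) (nat_lit 434) (nat_lit 407) (nat_lit 359)) (XT.lf (nat_lit 0) (nat_lit 6352093371) (nat_lit 608) (nat_lit 483857056) (nat_lit 684) (nat_lit 1790886467) (nat_lit 250) (nat_lit 5) (nat_lit 258) (nat_lit 5) (nat_lit 259) (nat_lit 5) (nat_lit 435) (nat_lit 407) (nat_lit 358))))) (XT.nd (nat_lit 312) (nat_lit 1140) (nat_lit 0) (XT.nd (nat_lit 156) (nat_lit 1064) (nat_lit 0) (XT.nd (nat_lit 78) (nat_lit 0) (nat_lit 0) (XT.lf (nat_lit 0) (nat_lit 377925529)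 (nat_lit 684) (nat_lit 5669681271) (nat_lit 76) (nat_lit 2694425335) (nat_lit 241) (nat_lit 5) (nat_lit 250) (nat_lit 5) (nat_lit 242) (nat_lit 5) (nat_lit 436) (nat_lit 407) (nat_lit 357)) (XT.lf (nat_lit 0) (nat_lit 2557206380) (nat_lit 684) (nat_lit 305334829) (nat_lit 76) (nat_lit 5998178691) (nat_lit 241) (nat_lit 5) (nat_lit 250) (nat_lit 5) (nat_lit 242) (nat_lit 5) (nat_lit 437) (nat_lit 407) (nat_lit 356))) (XT.nd (nat_lit 78) (nat_lit 532) (nat_lit 0) (XT.lf (nat_lit 0) (nat_lit 4811839993) (nat_lit 608) (nat_lit 3712080826) (nat_lit 76) (nat_lit 458758536) (nat_lit 234) (nat_lit 5) (nat_lit 242) (nat_lit 5) (nat_lit 235) (nat_lit 5) (nat_lit 438) (nat_lit 407) (nat_lit 355)) (XT.lf (nat_lit 0) (nat_lit 1871514834) (nat_lit 532) (nat_lit 5267648521) (nat_lit 608) (nat_lit 1968992705) (nat_lit 227) (nat_lit 5) (nat_lit 234) (nat_lit 5) (nat_lit 235) (nat_lit 5) (nat_lit 439) (nat_lit 407) (nat_lit 354))))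 (XT.nd (nat_lit 156) (nat_lit 532) (nat_lit 0) (XT.nd (nat_lit 78) (nat_lit 532) (nat_lit 0) (XT.lf (nat_lit 0) (nat_lit 286927844) (nat_lit 608) (nat_lit 1589710816) (nat_lit 76) (nat_lit 7360866087) (nat_lit 226) (nat_lit 5) (nat_lit 234) (nat_lit 5) (nat_lit 227) (nat_lit 5) (nat_lit 440) (nat_lit 407) (nat_lit 353)) (XT.lf (nat_lit 0) (nat_lit 2585095202) (nat_lit 608) (nat_lit 5143866493) (nat_lit 76) (nat_lit 1640772169) (nat_lit 219) (nat_lit 5) (nat_lit 227) (nat_lit 5) (nat_lit 220) (nat_lit 5) (nat_lit 441) (nat_lit 407) (nat_lit 352))) (XT.nd (nat_lit 78) (nat_lit 0) (nat_lit 0) (XT.lf (nat_lit 0) (nat_lit 689533738) (nat_lit 532) (nat_lit 4262115169) (nat_lit 608) (nat_lit 4554306584) (nat_lit 212) (nat_lit 5) (nat_lit 219) (nat_lit 5) (nat_lit 220) (nat_lit 5) (nat_lit 442) (nat_lit 407) (nat_lit 351)) (XT.lf (nat_lit 0) (nat_lit 6755618904) (nat_lit 532) (nat_lit 644307497) (nat_lit 608) (nat_lit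 2246024166) (nat_lit 212) (nat_lit 5) (nat_lit 219) (nat_lit 5) (nat_lit 220) (nat_lit 5) (nat_lit 443) (nat_lit 407) (nat_lit 350))))))) (XT.nd (nat_lit 1170) (nat_lit 2812) (nat_lit 0) (XT.nd (nat_lit 546) (nat_lit 1976) (nat_lit 0) (XT.nd (nat_lit 234) (nat_lit 1368) (nat_lit 0) (XT.nd (nat_lit 78) (nat_lit 456) (nat_lit 0) (XT.lf (nat_lit 0) (nat_lit 149432305) (nat_lit 532) (nat_lit 6592192671) (nat_lit 76) (nat_lit 3047875967) (nat_lit 205) (nat_lit 5) (nat_lit 212) (nat_lit 5) (nat_lit 206) (nat_lit 5) (nat_lit 444) (nat_lit 407) (nat_lit 349)) (XT.nd (nat_lit 78) (nat_lit 456) (nat_lit 0) (XT.lf (nat_lit 0) (nat_lit 2567705437) (nat_lit 532) (nat_lit 486413212) (nat_lit 76) (nat_lit 6882697055) (nat_lit 205) (nat_lit 5) (nat_lit 212) (nat_lit 5) (nat_lit 206) (nat_lit 5) (nat_lit 445) (nat_lit 407) (nat_lit 348)) (XT.lf (nat_lit 0) (nat_lit 5083992979) (nat_lit 532) (nat_lit 4225018311) (nat_lit 76) (nat_lit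 778782287) (nat_lit 199) (nat_lit 5) (nat_lit 206) (nat_lit 5) (nat_lit 200) (nat_lit 5) (nat_lit 446) (nat_lit 407) (nat_lit 347)))) (XT.nd (nat_lit 156) (nat_lit 912) (nat_lit 0) (XT.nd (nat_lit 78) (nat_lit 0) (nat_lit 0) (XT.lf (nat_lit 0) (nat_lit 2133533101) (nat_lit 456) (nat_lit 5559947445) (nat_lit 532) (nat_lit 2549296332) (nat_lit 193) (nat_lit 5) (nat_lit 199) (nat_lit 5) (nat_lit 200) (nat_lit 5) (nat_lit 447) (nat_lit 407) (nat_lit 346)) (XT.lf (nat_lit 0) (nat_lit 8722841908) (nat_lit 456) (nat_lit 1663737232) (nat_lit 532) (nat_lit 15677962) (nat_lit 193) (nat_lit 5) (nat_lit 199) (nat_lit 5) (nat_lit 200) (nat_lit 5) (nat_lit 448) (nat_lit 407) (nat_lit 345))) (XT.nd (nat_lit 78) (nat_lit 380) (nat_lit 0) (XT.lf (nat_lit 0) (nat_lit 2577697150) (nat_lit 532) (nat_lit 5619301392) (nat_lit 76) (nat_lit 2367750988) (nat_lit 186) (nat_lit 5) (nat_lit 193) (nat_lit 5) (nat_lit 187) (nat_lit 5) (nat_lit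 449) (nat_lit 407) (nat_lit 344)) (XT.lf (nat_lit 0) (nat_lit 1028622600) (nat_lit 380) (nat_lit 4227343643) (nat_lit 456) (nat_lit 5475930201) (nat_lit 181) (nat_lit 5) (nat_lit 186) (nat_lit 5) (nat_lit 187) (nat_lit 5) (nat_lit 450) (nat_lit 407) (nat_lit 343))))) (XT.nd (nat_lit 312) (nat_lit 1140) (nat_lit 0) (XT.nd (nat_lit 156) (nat_lit 456) (nat_lit 0) (XT.nd (nat_lit 78) (nat_lit 380) (nat_lit 0) (XT.lf (nat_lit 0) (nat_lit 7945101136) (nat_lit 380) (nat_lit 90754900) (nat_lit 456) (nat_lit 2867569963) (nat_lit 181) (nat_lit 5) (nat_lit 186) (nat_lit 5) (nat_lit 187) (nat_lit 5) (nat_lit 451) (nat_lit 407) (nat_lit 342)) (XT.lf (nat_lit 0) (nat_lit 3980898494) (nat_lit 380) (nat_lit 6962057693) (nat_lit 456) (nat_lit 135837068) (nat_lit 176) (nat_lit 5) (nat_lit 181) (nat_lit 5) (nat_lit 182) (nat_lit 5) (nat_lit 452) (nat_lit 407) (nat_lit 341))) (XT.nd (nat_lit 78) (nat_lit 380) (nat_lit 0) (XT.lf (nat_lit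 0) (nat_lit 2622352868) (nat_lit 456) (nat_lit 142432200) (nat_lit 76) (nat_lit 8493967311) (nat_lit 175) (nat_lit 5) (nat_lit 181) (nat_lit 5) (nat_lit 176) (nat_lit 5) (nat_lit 453) (nat_lit 407) (nat_lit 340)) (XT.lf (nat_lit 0) (nat_lit 5511201901) (nat_lit 456) (nat_lit 4343980256) (nat_lit 76) (nat_lit 1587374159) (nat_lit 170) (nat_lit 5) (nat_lit 176) (nat_lit 5) (nat_lit 171) (nat_lit 5) (nat_lit 454) (nat_lit 407) (nat_lit 339)))) (XT.nd (nat_lit 156) (nat_lit 760) (nat_lit 0) (XT.nd (nat_lit 78) (nat_lit 0) (nat_lit 0) (XT.lf (nat_lit 0) (nat_lit 2912327183) (nat_lit 380) (nat_lit 5598338612) (nat_lit 456) (nat_lit 3120495625) (nat_lit 165) (nat_lit 5) (nat_lit 170) (nat_lit 5) (nat_lit 171) (nat_lit 5) (nat_lit 455) (nat_lit 407) (nat_lit 338)) (XT.lf (nat_lit 0) (nat_lit 10430795007) (nat_lit 380) (nat_lit 1180840920) (nat_lit 456) (nat_lit 213448452) (nat_lit 165) (nat_lit 5) (nat_lit 170) (nat_lit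 5) (nat_lit 171) (nat_lit 5) (nat_lit 456) (nat_lit 407) (nat_lit 337))) (XT.nd (nat_lit 78) (nat_lit 380) (nat_lit 0) (XT.lf (nat_lit 0) (nat_lit 2787554782) (nat_lit 380) (nat_lit 5855978034) (nat_lit 76) (nat_lit 3378665098) (nat_lit 160) (nat_lit 5) (nat_lit 165) (nat_lit 5) (nat_lit 161) (nat_lit 5) (nat_lit 457) (nat_lit 407) (nat_lit 336)) (XT.lf (nat_lit 0) (nat_lit 1732887231) (nat_lit 380) (nat_lit 4152649345) (nat_lit 456) (nat_lit 6339292634) (nat_lit 155) (nat_lit 5) (nat_lit 160) (nat_lit 5) (nat_lit 161) (nat_lit 5) (nat_lit 458) (nat_lit 407) (nat_lit 335)))))) (XT.nd (nat_lit 546) (nat_lit 1444) (nat_lit 0) (XT.nd (nat_lit 234) (nat_lit 684) (nat_lit 0) (XT.nd (nat_lit 78) (nat_lit 684) (nat_lit 0) (XT.lf (nat_lit 0) (nat_lit 9109759592) (nat_lit 456) (nat_lit 2812114202) (nat_lit 76) (nat_lit 510671370) (nat_lit 155) (nat_lit 5) (nat_lit 161) (nat_lit 5) (nat_lit 156) (nat_lit 5) (nat_lit 459)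 (nat_lit 407) (nat_lit 334)) (XT.nd (nat_lit 78) (nat_lit 380) (nat_lit 0) (XT.lf (nat_lit 0) (nat_lit 5113397994) (nat_lit 304) (nat_lit 7377517617) (nat_lit 380) (nat_lit 153775428) (nat_lit 151) (nat_lit 5) (nat_lit 155) (nat_lit 5) (nat_lit 156) (nat_lit 5) (nat_lit 460) (nat_lit 407) (nat_lit 333)) (XT.lf (nat_lit 0) (nat_lit 406168242) (nat_lit 304) (nat_lit 2646128977) (nat_lit 380) (nat_lit 9809930929) (nat_lit 146) (nat_lit 5) (nat_lit 150) (nat_lit 5) (nat_lit 151) (nat_lit 5) (nat_lit 461) (nat_lit 407) (nat_lit 332)))) (XT.nd (nat_lit 156) (nat_lit 380) (nat_lit 0) (XT.nd (nat_lit 78) (nat_lit 304) (nat_lit 0) (XT.lf (nat_lit 0) (nat_lit 6420102665) (nat_lit 380) (nat_lit 4415436051) (nat_lit 76) (nat_lit 2248651976) (nat_lit 146) (nat_lit 5) (nat_lit 151) (nat_lit 5) (nat_lit 147) (nat_lit 5) (nat_lit 462) (nat_lit 407) (nat_lit 331)) (XT.lf (nat_lit 0) (nat_lit 3873186082) (nat_lit 304) (nat_lit 6050476100)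 (nat_lit 380) (nat_lit 3388112450) (nat_lit 142) (nat_lit 5) (nat_lit 146) (nat_lit 5) (nat_lit 147) (nat_lit 5) (nat_lit 463) (nat_lit 407) (nat_lit 330))) (XT.nd (nat_lit 78) (nat_lit 304) (nat_lit 0) (XT.lf (nat_lit 0) (nat_lit 2877517) (nat_lit 380) (nat_lit 1086933384) (nat_lit 76) (nat_lit 12455889122) (nat_lit 141) (nat_lit 5) (nat_lit 146) (nat_lit 5) (nat_lit 142) (nat_lit 5) (nat_lit 464) (nat_lit 407) (nat_lit 329)) (XT.lf (nat_lit 0) (nat_lit 3512272203) (nat_lit 380) (nat_lit 6235555402) (nat_lit 76) (nat_lit 4035269787) (nat_lit 137) (nat_lit 5) (nat_lit 142) (nat_lit 5) (nat_lit 138) (nat_lit 5) (nat_lit 465) (nat_lit 407) (nat_lit 328))))) (XT.nd (nat_lit 312) (nat_lit 608) (nat_lit 0) (XT.nd (nat_lit 156) (nat_lit 608) (nat_lit 0) (XT.nd (nat_lit 78) (nat_lit 0) (nat_lit 0) (XT.lf (nat_lit 0) (nat_lit 2430785678) (nat_lit 228) (nat_lit 4713952110) (nat_lit 304) (nat_lit 6882348877) (nat_lit 134)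 (nat_lit 5) (nat_lit 137) (nat_lit 5) (nat_lit 138) (nat_lit 5) (nat_lit 466) (nat_lit 407) (nat_lit 327)) (XT.lf (nat_lit 0) (nat_lit 10927106673) (nat_lit 304) (nat_lit 2838778878) (nat_lit 76) (nat_lit 511285735) (nat_lit 134) (nat_lit 5) (nat_lit 138) (nat_lit 5) (nat_lit 135) (nat_lit 5) (nat_lit 467) (nat_lit 407) (nat_lit 326))) (XT.nd (nat_lit 78) (nat_lit 228) (nat_lit 0) (XT.lf (nat_lit 0) (nat_lit 363374931) (nat_lit 380) (nat_lit 8320682444) (nat_lit 76) (nat_lit 5848196999) (nat_lit 129) (nat_lit 5) (nat_lit 134) (nat_lit 5) (nat_lit 130) (nat_lit 5) (nat_lit 468) (nat_lit 407) (nat_lit 325)) (XT.lf (nat_lit 0) (nat_lit 737471020) (nat_lit 228) (nat_lit 3393175798) (nat_lit 304) (nat_lit 10663058454) (nat_lit 126) (nat_lit 5) (nat_lit 129) (nat_lit 5) (nat_lit 130) (nat_lit 5) (nat_lit 469) (nat_lit 407) (nat_lit 324)))) (XT.nd (nat_lit 156) (nat_lit 304) (nat_lit 0) (XT.nd (nat_lit 78) (nat_lit 304)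 (nat_lit 0) (XT.lf (nat_lit 0) (nat_lit 8089516757) (nat_lit 304) (nat_lit 4884343767) (nat_lit 76) (nat_lit 2086784930) (nat_lit 126) (nat_lit 5) (nat_lit 130) (nat_lit 5) (nat_lit 127) (nat_lit 5) (nat_lit 470) (nat_lit 407) (nat_lit 323)) (XT.lf (nat_lit 0) (nat_lit 4578449599) (nat_lit 304) (nat_lit 7641026090) (nat_lit 380) (nat_lit 3114551526) (nat_lit 122) (nat_lit 5) (nat_lit 126) (nat_lit 5) (nat_lit 127) (nat_lit 5) (nat_lit 471) (nat_lit 407) (nat_lit 322))) (XT.nd (nat_lit 78) (nat_lit 228) (nat_lit 0) (XT.lf (nat_lit 0) (nat_lit 865618524) (nat_lit 380) (nat_lit 1237724926) (nat_lit 76) (nat_lit 13511283533) (nat_lit 121) (nat_lit 5) (nat_lit 126) (nat_lit 5) (nat_lit 122) (nat_lit 5) (nat_lit 472) (nat_lit 407) (nat_lit 321)) (XT.lf (nat_lit 0) (nat_lit 4997043315) (nat_lit 304) (nat_lit 7271590182) (nat_lit 76) (nat_lit 3631255464) (nat_lit 118) (nat_lit 5) (nat_lit 122) (nat_lit 5) (nat_lit 119)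 (nat_lit 5) (nat_lit 473) (nat_lit 407) (nat_lit 320))))))))
noncomputable def xc115 : XT := (XT.nd (nat_lit 2340) (nat_lit 2204) (nat_lit 0) (XT.nd (nat_lit 1170) (nat_lit 1672) (nat_lit 0) (XT.nd (nat_lit 546) (nat_lit 1140) (nat_lit 0) (XT.nd (nat_lit 234) (nat_lit 456) (nat_lit 0) (XT.nd (nat_lit 78) (nat_lit 304) (nat_lit 0) (XT.lf (nat_lit 0) (nat_lit 2613237634) (nat_lit 228) (nat_lit 6673498619) (nat_lit 304) (nat_lit 6905945504) (nat_lit 115) (nat_lit 5) (nat_lit 118) (nat_lit 5) (nat_lit 119) (nat_lit 5) (nat_lit 474) (nat_lit 407) (nat_lit 319)) (XT.nd (nat_lit 78) (nat_lit 304) (nat_lit 0) (XT.lf (nat_lit 0) (nat_lit 12904905949) (nat_lit 228) (nat_lit 849734124) (nat_lit 304) (nat_lit 2738135301) (nat_lit 115) (nat_lit 5) (nat_lit 118) (nat_lit 5) (nat_lit 119) (nat_lit 5) (nat_lit 475) (nat_lit 407) (nat_lit 318)) (XT.lf (nat_lit 0) (nat_lit 1616272041) (nat_lit 304) (nat_lit 10067559815) (nat_lit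 76) (nat_lit 5114837066) (nat_lit 111) (nat_lit 5) (nat_lit 115) (nat_lit 5) (nat_lit 112) (nat_lit 5) (nat_lit 476) (nat_lit 407) (nat_lit 317)))) (XT.nd (nat_lit 156) (nat_lit 228) (nat_lit 0) (XT.nd (nat_lit 78) (nat_lit 0) (nat_lit 0) (XT.lf (nat_lit 0) (nat_lit 251286787) (nat_lit 228) (nat_lit 5819143975) (nat_lit 304) (nat_lit 11041773036) (nat_lit 108) (nat_lit 5) (nat_lit 111) (nat_lit 5) (nat_lit 112) (nat_lit 5) (nat_lit 477) (nat_lit 407) (nat_lit 316)) (XT.lf (nat_lit 0) (nat_lit 10739916922) (nat_lit 304) (nat_lit 6387615272) (nat_lit 76) (nat_lit 305163791) (nat_lit 108) (nat_lit 5) (nat_lit 112) (nat_lit 5) (nat_lit 109) (nat_lit 5) (nat_lit 478) (nat_lit 407) (nat_lit 315))) (XT.nd (nat_lit 78) (nat_lit 76) (nat_lit 0) (XT.lf (nat_lit 0) (nat_lit 4390608250) (nat_lit 152) (nat_lit 11236277059) (nat_lit 228) (nat_lit 2133597979) (nat_lit 106) (nat_lit 5) (nat_lit 108) (nat_lit 5) (nat_lit 109) (nat_lit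 5) (nat_lit 479) (nat_lit 407) (nat_lit 314)) (XT.lf (nat_lit 0) (nat_lit 2555152323) (nat_lit 228) (nat_lit 2535739788) (nat_lit 76) (nat_lit 13005191480) (nat_lit 105) (nat_lit 5) (nat_lit 108) (nat_lit 5) (nat_lit 106) (nat_lit 5) (nat_lit 480) (nat_lit 407) (nat_lit 313))))) (XT.nd (nat_lit 312) (nat_lit 456) (nat_lit 0) (XT.nd (nat_lit 156) (nat_lit 304) (nat_lit 0) (XT.nd (nat_lit 78) (nat_lit 152) (nat_lit 0) (XT.lf (nat_lit 0) (nat_lit 7416775048) (nat_lit 304) (nat_lit 9715615512) (nat_lit 76) (nat_lit 1306476892) (nat_lit 102) (nat_lit 5) (nat_lit 106) (nat_lit 5) (nat_lit 103) (nat_lit 5) (nat_lit 481) (nat_lit 407) (nat_lit 312)) (XT.lf (nat_lit 0) (nat_lit 1523418295) (nat_lit 152) (nat_lit 10970187168) (nat_lit 228) (nat_lit 6296250620) (nat_lit 100) (nat_lit 5) (nat_lit 102) (nat_lit 5) (nat_lit 103) (nat_lit 5) (nat_lit 482) (nat_lit 407) (nat_lit 311))) (XT.nd (nat_lit 78) (nat_lit 304) (nat_lit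 0) (XT.lf (nat_lit 0) (nat_lit 13262663698) (nat_lit 152) (nat_lit 4536916788) (nat_lit 228) (nat_lit 1349490661) (nat_lit 100) (nat_lit 5) (nat_lit 102) (nat_lit 5) (nat_lit 103) (nat_lit 5) (nat_lit 483) (nat_lit 407) (nat_lit 310)) (XT.lf (nat_lit 0) (nat_lit 3729089414) (nat_lit 304) (nat_lit 13659535496) (nat_lit 76) (nat_lit 2127664170) (nat_lit 96) (nat_lit 5) (nat_lit 100) (nat_lit 5) (nat_lit 97) (nat_lit 5) (nat_lit 484) (nat_lit 407) (nat_lit 309)))) (XT.nd (nat_lit 156) (nat_lit 304) (nat_lit 0) (XT.nd (nat_lit 78) (nat_lit 152) (nat_lit 0) (XT.lf (nat_lit 0) (nat_lit 9017127146) (nat_lit 304) (nat_lit 1914351588) (nat_lit 76) (nat_lit 8960119066) (nat_lit 96) (nat_lit 5) (nat_lit 100) (nat_lit 5) (nat_lit 97) (nat_lit 5) (nat_lit 485) (nat_lit 407) (nat_lit 308)) (XT.lf (nat_lit 0) (nat_lit 10350585907) (nat_lit 152) (nat_lit 4192593949) (nat_lit 228) (nat_lit 5732606457) (nat_lit 94) (nat_lit 5) (nat_lit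 96) (nat_lit 5) (nat_lit 97) (nat_lit 5) (nat_lit 486) (nat_lit 407) (nat_lit 307))) (XT.nd (nat_lit 78) (nat_lit 76) (nat_lit 0) (XT.lf (nat_lit 0) (nat_lit 2336067544) (nat_lit 228) (nat_lit 17947341214) (nat_lit 304) (nat_lit 386641579) (nat_lit 91) (nat_lit 5) (nat_lit 94) (nat_lit 5) (nat_lit 95) (nat_lit 5) (nat_lit 487) (nat_lit 407) (nat_lit 306)) (XT.lf (nat_lit 0) (nat_lit 5142578262) (nat_lit 304) (nat_lit 6030980014) (nat_lit 76) (nat_lit 9897425799) (nat_lit 90) (nat_lit 5) (nat_lit 94) (nat_lit 5) (nat_lit 91) (nat_lit 5) (nat_lit 488) (nat_lit 407) (nat_lit 305)))))) (XT.nd (nat_lit 546) (nat_lit 912) (nat_lit 0) (XT.nd (nat_lit 234) (nat_lit 380) (nat_lit 0) (XT.nd (nat_lit 78) (nat_lit 228) (nat_lit 0) (XT.lf (nat_lit 0) (nat_lit 6734962432) (nat_lit 152) (nat_lit 4140314378) (nat_lit 228) (nat_lit 10607194524) (nat_lit 88) (nat_lit 5) (nat_lit 90) (nat_lit 5) (nat_lit 91) (nat_lit 5) (nat_lit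 489) (nat_lit 407) (nat_lit 304)) (XT.nd (nat_lit 78) (nat_lit 228) (nat_lit 0) (XT.lf (nat_lit 0) (nat_lit 16852035387) (nat_lit 228) (nat_lit 1961256364) (nat_lit 76) (nat_lit 3090850596) (nat_lit 88) (nat_lit 5) (nat_lit 91) (nat_lit 5) (nat_lit 89) (nat_lit 5) (nat_lit 490) (nat_lit 407) (nat_lit 303)) (XT.lf (nat_lit 0) (nat_lit 789322756) (nat_lit 228) (nat_lit 10985933032) (nat_lit 76) (nat_lit 10559033319) (nat_lit 85) (nat_lit 5) (nat_lit 88) (nat_lit 5) (nat_lit 86) (nat_lit 5) (nat_lit 491) (nat_lit 407) (nat_lit 302)))) (XT.nd (nat_lit 156) (nat_lit 228) (nat_lit 0) (XT.nd (nat_lit 78) (nat_lit 0) (nat_lit 0) (XT.lf (nat_lit 0) (nat_lit 2282112808) (nat_lit 152) (nat_lit 4445624994) (nat_lit 228) (nat_lit 16047404677) (nat_lit 83) (nat_lit 5) (nat_lit 85) (nat_lit 5) (nat_lit 86) (nat_lit 5) (nat_lit 492) (nat_lit 407) (nat_lit 301)) (XT.lf (nat_lit 0) (nat_lit 12967617147) (nat_lit 228) (nat_lit 7116439573)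 (nat_lit 76) (nat_lit 3141466715) (nat_lit 83) (nat_lit 5) (nat_lit 86) (nat_lit 5) (nat_lit 84) (nat_lit 5) (nat_lit 493) (nat_lit 407) (nat_lit 300))) (XT.nd (nat_lit 78) (nat_lit 76) (nat_lit 0) (XT.lf (nat_lit 0) (nat_lit 6716443485) (nat_lit 152) (nat_lit 12768809155) (nat_lit 228) (nat_lit 4201447687) (nat_lit 81) (nat_lit 5) (nat_lit 83) (nat_lit 5) (nat_lit 84) (nat_lit 5) (nat_lit 494) (nat_lit 407) (nat_lit 299)) (XT.lf (nat_lit 0) (nat_lit 2051558221) (nat_lit 228) (nat_lit 3101748580) (nat_lit 76) (nat_lit 19006181697) (nat_lit 80) (nat_lit 5) (nat_lit 83) (nat_lit 5) (nat_lit 81) (nat_lit 5) (nat_lit 495) (nat_lit 407) (nat_lit 298))))) (XT.nd (nat_lit 312) (nat_lit 380) (nat_lit 0) (XT.nd (nat_lit 156) (nat_lit 228) (nat_lit 0) (XT.nd (nat_lit 78) (nat_lit 152) (nat_lit 0) (XT.lf (nat_lit 0) (nat_lit 8526401289) (nat_lit 228) (nat_lit 13338524569) (nat_lit 76) (nat_lit 2776726934) (nat_lit 78) (nat_lit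 5) (nat_lit 81) (nat_lit 5) (nat_lit 79) (nat_lit 5) (nat_lit 496) (nat_lit 407) (nat_lit 297)) (XT.lf (nat_lit 0) (nat_lit 1003396042) (nat_lit 152) (nat_lit 14267021265) (nat_lit 228) (nat_lit 9865618032) (nat_lit 76) (nat_lit 5) (nat_lit 78) (nat_lit 5) (nat_lit 79) (nat_lit 5) (nat_lit 497) (nat_lit 407) (nat_lit 296))) (XT.nd (nat_lit 78) (nat_lit 228) (nat_lit 0) (XT.lf (nat_lit 0) (nat_lit 16018064606) (nat_lit 152) (nat_lit 6316218618) (nat_lit 228) (nat_lit 3307441377) (nat_lit 76) (nat_lit 5) (nat_lit 78) (nat_lit 5) (nat_lit 79) (nat_lit 5) (nat_lit 498) (nat_lit 407) (nat_lit 295)) (XT.lf (nat_lit 0) (nat_lit 3433631824) (nat_lit 228) (nat_lit 20817559539) (nat_lit 76) (nat_lit 1908797335) (nat_lit 73) (nat_lit 5) (nat_lit 76) (nat_lit 5) (nat_lit 74) (nat_lit 5) (nat_lit 499) (nat_lit 407) (nat_lit 294)))) (XT.nd (nat_lit 156) (nat_lit 228) (nat_lit 0) (XT.nd (nat_lit 78) (nat_lit 152) (nat_lit 0)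 (XT.lf (nat_lit 0) (nat_lit 10454382206) (nat_lit 228) (nat_lit 5862798840) (nat_lit 76) (nat_lit 10371320652) (nat_lit 73) (nat_lit 5) (nat_lit 76) (nat_lit 5) (nat_lit 74) (nat_lit 5) (nat_lit 500) (nat_lit 407) (nat_lit 293)) (XT.lf (nat_lit 0) (nat_lit 9700335723) (nat_lit 152) (nat_lit 8062395216) (nat_lit 228) (nat_lit 9467830869) (nat_lit 71) (nat_lit 5) (nat_lit 73) (nat_lit 5) (nat_lit 74) (nat_lit 5) (nat_lit 501) (nat_lit 407) (nat_lit 292))) (XT.nd (nat_lit 78) (nat_lit 228) (nat_lit 0) (XT.lf (nat_lit 0) (nat_lit 25338144973) (nat_lit 228) (nat_lit 1971001884) (nat_lit 76) (nat_lit 478303386) (nat_lit 71) (nat_lit 5) (nat_lit 74) (nat_lit 5) (nat_lit 72) (nat_lit 4) (nat_lit 502) (nat_lit 407) (nat_lit 291)) (XT.lf (nat_lit 0) (nat_lit 4889316081) (nat_lit 228) (nat_lit 14178983067) (nat_lit 76) (nat_lit 9285284391) (nat_lit 68) (nat_lit 5) (nat_lit 71) (nat_lit 5) (nat_lit 69) (nat_lit 5) (nat_lit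 503) (nat_lit 407) (nat_lit 290))))))) (XT.nd (nat_lit 1170) (nat_lit 1064) (nat_lit 0) (XT.nd (nat_lit 546) (nat_lit 608) (nat_lit 0) (XT.nd (nat_lit 234) (nat_lit 304) (nat_lit 0) (XT.nd (nat_lit 78) (nat_lit 76) (nat_lit 0) (XT.lf (nat_lit 0) (nat_lit 1892561110) (nat_lit 152) (nat_lit 10528896729) (nat_lit 228) (nat_lit 16513838653) (nat_lit 66) (nat_lit 5) (nat_lit 68) (nat_lit 5) (nat_lit 69) (nat_lit 5) (nat_lit 504) (nat_lit 407) (nat_lit 289)) (XT.nd (nat_lit 78) (nat_lit 76) (nat_lit 0) (XT.lf (nat_lit 0) (nat_lit 18708396413) (nat_lit 152) (nat_lit 1598828261) (nat_lit 228) (nat_lit 9223407193) (nat_lit 66) (nat_lit 5) (nat_lit 68) (nat_lit 5) (nat_lit 69) (nat_lit 5) (nat_lit 505) (nat_lit 407) (nat_lit 288)) (XT.lf (nat_lit 0) (nat_lit 5898929575) (nat_lit 76) (nat_lit 22645198329) (nat_lit 152) (nat_lit 1596263333) (nat_lit 65) (nat_lit 5) (nat_lit 66) (nat_lit 5) (nat_lit 67) (nat_lit 4) (nat_lit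 506) (nat_lit 407) (nat_lit 287)))) (XT.nd (nat_lit 156) (nat_lit 76) (nat_lit 0) (XT.nd (nat_lit 78) (nat_lit 152) (nat_lit 0) (XT.lf (nat_lit 0) (nat_lit 6248578989) (nat_lit 152) (nat_lit 7526713696) (nat_lit 76) (nat_lit 16988015328) (nat_lit 64) (nat_lit 5) (nat_lit 66) (nat_lit 5) (nat_lit 65) (nat_lit 5) (nat_lit 507) (nat_lit 407) (nat_lit 286)) (XT.lf (nat_lit 0) (nat_lit 9838432492) (nat_lit 152) (nat_lit 4538103406) (nat_lit 228) (nat_lit 17025507441) (nat_lit 62) (nat_lit 5) (nat_lit 64) (nat_lit 5) (nat_lit 65) (nat_lit 5) (nat_lit 508) (nat_lit 407) (nat_lit 285))) (XT.nd (nat_lit 78) (nat_lit 76) (nat_lit 0) (XT.lf (nat_lit 0) (nat_lit 22858253368) (nat_lit 228) (nat_lit 4254698084) (nat_lit 76) (nat_lit 4943692359) (nat_lit 62) (nat_lit 5) (nat_lit 65) (nat_lit 5) (nat_lit 63) (nat_lit 4) (nat_lit 509) (nat_lit 407) (nat_lit 284)) (XT.lf (nat_lit 0) (nat_lit 13770788406) (nat_lit 76) (nat_lit 17986696179)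 (nat_lit 152) (nat_lit 968506564) (nat_lit 61) (nat_lit 5) (nat_lit 62) (nat_lit 5) (nat_lit 63) (nat_lit 4) (nat_lit 510) (nat_lit 407) (nat_lit 283))))) (XT.nd (nat_lit 312) (nat_lit 304) (nat_lit 0) (XT.nd (nat_lit 156) (nat_lit 76) (nat_lit 0) (XT.nd (nat_lit 78) (nat_lit 152) (nat_lit 0) (XT.lf (nat_lit 0) (nat_lit 7390929829) (nat_lit 152) (nat_lit 1088976563) (nat_lit 76) (nat_lit 24932472884) (nat_lit 60) (nat_lit 5) (nat_lit 62) (nat_lit 5) (nat_lit 61) (nat_lit 5) (nat_lit 511) (nat_lit 407) (nat_lit 282)) (XT.lf (nat_lit 0) (nat_lit 16151538794) (nat_lit 228) (nat_lit 16506894624) (nat_lit 76) (nat_lit 1455542949) (nat_lit 58) (nat_lit 5) (nat_lit 61) (nat_lit 5) (nat_lit 59) (nat_lit 4) (nat_lit 512) (nat_lit 407) (nat_lit 281))) (XT.nd (nat_lit 78) (nat_lit 0) (nat_lit 0) (XT.lf (nat_lit 0) (nat_lit 1978823044) (nat_lit 76) (nat_lit 23296467122) (nat_lit 152) (nat_lit 9558322120) (nat_lit 57) (nat_lit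 5) (nat_lit 58) (nat_lit 5) (nat_lit 59) (nat_lit 4) (nat_lit 513) (nat_lit 407) (nat_lit 280)) (XT.lf (nat_lit 0) (nat_lit 21331964253) (nat_lit 76) (nat_lit 13493870206) (nat_lit 152) (nat_lit 744411032) (nat_lit 57) (nat_lit 5) (nat_lit 58) (nat_lit 5) (nat_lit 59) (nat_lit 4) (nat_lit 514) (nat_lit 407) (nat_lit 279)))) (XT.nd (nat_lit 156) (nat_lit 76) (nat_lit 0) (XT.nd (nat_lit 78) (nat_lit 0) (nat_lit 0) (XT.lf (nat_lit 0) (nat_lit 4927723046) (nat_lit 152) (nat_lit 3277595921) (nat_lit 228) (nat_lit 28120235199) (nat_lit 54) (nat_lit 5) (nat_lit 56) (nat_lit 5) (nat_lit 57) (nat_lit 5) (nat_lit 515) (nat_lit 407) (nat_lit 278)) (XT.lf (nat_lit 0) (nat_lit 17610122847) (nat_lit 228) (nat_lit 12242154460) (nat_lit 76) (nat_lit 7244977934) (nat_lit 54) (nat_lit 5) (nat_lit 57) (nat_lit 5) (nat_lit 55) (nat_lit 4) (nat_lit 516) (nat_lit 407) (nat_lit 277))) (XT.nd (nat_lit 78) (nat_lit 0) (nat_lit 0) (XT.lf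 (nat_lit 0) (nat_lit 7579285798) (nat_lit 76) (nat_lit 19810177352) (nat_lit 152) (nat_lit 10499872980) (nat_lit 53) (nat_lit 5) (nat_lit 54) (nat_lit 5) (nat_lit 55) (nat_lit 4) (nat_lit 517) (nat_lit 407) (nat_lit 276)) (XT.lf (nat_lit 0) (nat_lit 28222205775) (nat_lit 76) (nat_lit 9350828150) (nat_lit 152) (nat_lit 1128820548) (nat_lit 53) (nat_lit 5) (nat_lit 54) (nat_lit 5) (nat_lit 55) (nat_lit 4) (nat_lit 518) (nat_lit 407) (nat_lit 275)))))) (XT.nd (nat_lit 624) (nat_lit 456) (nat_lit 0) (XT.nd (nat_lit 312) (nat_lit 304) (nat_lit 0) (XT.nd (nat_lit 156) (nat_lit 76) (nat_lit 0) (XT.nd (nat_lit 78) (nat_lit 0) (nat_lit 0) (XT.lf (nat_lit 0) (nat_lit 8456321740) (nat_lit 228) (nat_lit 29513196871) (nat_lit 76) (nat_lit 1563793912) (nat_lit 50) (nat_lit 5) (nat_lit 53) (nat_lit 5) (nat_lit 51) (nat_lit 4) (nat_lit 519) (nat_lit 407) (nat_lit 274)) (XT.lf (nat_lit 0) (nat_lit 18493294769) (nat_lit 228) (nat_lit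 9165347589) (nat_lit 76) (nat_lit 12725128213) (nat_lit 50) (nat_lit 5) (nat_lit 53) (nat_lit 5) (nat_lit 51) (nat_lit 4) (nat_lit 520) (nat_lit 407) (nat_lit 273))) (XT.nd (nat_lit 78) (nat_lit 0) (nat_lit 0) (XT.lf (nat_lit 0) (nat_lit 12004175277) (nat_lit 76) (nat_lit 16930467486) (nat_lit 152) (nat_lit 12322002102) (nat_lit 49) (nat_lit 5) (nat_lit 50) (nat_lit 5) (nat_lit 51) (nat_lit 4) (nat_lit 521) (nat_lit 407) (nat_lit 272)) (XT.lf (nat_lit 0) (nat_lit 33973883433) (nat_lit 76) (nat_lit 5795908290) (nat_lit 152) (nat_lit 2383497309) (nat_lit 49) (nat_lit 5) (nat_lit 50) (nat_lit 5) (nat_lit 51) (nat_lit 4) (nat_lit 522) (nat_lit 407) (nat_lit 271)))) (XT.nd (nat_lit 156) (nat_lit 76) (nat_lit 0) (XT.nd (nat_lit 78) (nat_lit 0) (nat_lit 0) (XT.lf (nat_lit 0) (nat_lit 7876286695) (nat_lit 228) (nat_lit 29432197309) (nat_lit 76) (nat_lit 5760793247) (nat_lit 46) (nat_lit 5) (nat_lit 49) (nat_lit 5) (nat_lit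 47) (nat_lit 4) (nat_lit 523) (nat_lit 407) (nat_lit 270)) (XT.lf (nat_lit 0) (nat_lit 18525028035) (nat_lit 228) (nat_lit 7838720496) (nat_lit 76) (nat_lit 17644416946) (nat_lit 46) (nat_lit 5) (nat_lit 49) (nat_lit 5) (nat_lit 47) (nat_lit 4) (nat_lit 524) (nat_lit 407) (nat_lit 269))) (XT.nd (nat_lit 78) (nat_lit 0) (nat_lit 0) (XT.lf (nat_lit 0) (nat_lit 14667038131) (nat_lit 76) (nat_lit 14955794434) (nat_lit 152) (nat_lit 15348500167) (nat_lit 45) (nat_lit 5) (nat_lit 46) (nat_lit 5) (nat_lit 47) (nat_lit 4) (nat_lit 525) (nat_lit 407) (nat_lit 268)) (XT.lf (nat_lit 0) (nat_lit 37987139402) (nat_lit 76) (nat_lit 3134324795) (nat_lit 152) (nat_lit 4839894417) (nat_lit 45) (nat_lit 5) (nat_lit 46) (nat_lit 5) (nat_lit 47) (nat_lit 4) (nat_lit 526) (nat_lit 407) (nat_lit 267))))) (XT.nd (nat_lit 312) (nat_lit 228) (nat_lit 0) (XT.nd (nat_lit 156) (nat_lit 76) (nat_lit 0) (XT.nd (nat_lit 78) (nat_lit 0) (nat_lit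 0) (XT.lf (nat_lit 0) (nat_lit 6091536683) (nat_lit 152) (nat_lit 31819529622) (nat_lit 76) (nat_lit 9061563617) (nat_lit 43) (nat_lit 5) (nat_lit 45) (nat_lit 5) (nat_lit 44) (nat_lit 4) (nat_lit 527) (nat_lit 407) (nat_lit 266)) (XT.lf (nat_lit 0) (nat_lit 17354969237) (nat_lit 152) (nat_lit 8975005332) (nat_lit 76) (nat_lit 21679787503) (nat_lit 43) (nat_lit 5) (nat_lit 45) (nat_lit 5) (nat_lit 44) (nat_lit 4) (nat_lit 528) (nat_lit 407) (nat_lit 265))) (XT.nd (nat_lit 78) (nat_lit 0) (nat_lit 0) (XT.lf (nat_lit 0) (nat_lit 14823597211) (nat_lit 76) (nat_lit 14264503411) (nat_lit 152) (nat_lit 19985954043) (nat_lit 42) (nat_lit 5) (nat_lit 43) (nat_lit 5) (nat_lit 44) (nat_lit 4) (nat_lit 529) (nat_lit 407) (nat_lit 264)) (XT.lf (nat_lit 0) (nat_lit 39499818562) (nat_lit 76) (nat_lit 1753455986) (nat_lit 152) (nat_lit 8914600373) (nat_lit 42) (nat_lit 5) (nat_lit 43) (nat_lit 5) (nat_lit 44) (nat_lit 4) (nat_lit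 530) (nat_lit 407) (nat_lit 263)))) (XT.nd (nat_lit 156) (nat_lit 76) (nat_lit 0) (XT.nd (nat_lit 78) (nat_lit 0) (nat_lit 0) (XT.lf (nat_lit 0) (nat_lit 2671548120) (nat_lit 152) (nat_lit 37550402667) (nat_lit 76) (nat_lit 11064904935) (nat_lit 40) (nat_lit 5) (nat_lit 42) (nat_lit 5) (nat_lit 41) (nat_lit 4) (nat_lit 531) (nat_lit 407) (nat_lit 262)) (XT.lf (nat_lit 0) (nat_lit 14541906605) (nat_lit 152) (nat_lit 13471037418) (nat_lit 76) (nat_lit 24420340331) (nat_lit 40) (nat_lit 5) (nat_lit 42) (nat_lit 5) (nat_lit 41) (nat_lit 4) (nat_lit 532) (nat_lit 407) (nat_lit 261))) (XT.nd (nat_lit 78) (nat_lit 0) (nat_lit 0) (XT.lf (nat_lit 0) (nat_lit 11536452947) (nat_lit 76) (nat_lit 15332766084) (nat_lit 152) (nat_lit 26741861824) (nat_lit 39) (nat_lit 5) (nat_lit 40) (nat_lit 5) (nat_lit 41) (nat_lit 4) (nat_lit 533) (nat_lit 407) (nat_lit 260)) (XT.lf (nat_lit 0) (nat_lit 37551127433) (nat_lit 76) (nat_lit 2141310585)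 (nat_lit 152) (nat_lit 15127990914) (nat_lit 39) (nat_lit 5) (nat_lit 40) (nat_lit 5) (nat_lit 41) (nat_lit 4) (nat_lit 534) (nat_lit 407) (nat_lit 259))))))))
noncomputable def xc116 : XT := (XT.nd (nat_lit 53586) (nat_lit 0) (nat_lit 12008) (XT.nd (nat_lit 1170) (nat_lit 76) (nat_lit 0) (XT.nd (nat_lit 546) (nat_lit 380) (nat_lit 0) (XT.nd (nat_lit 234) (nat_lit 152) (nat_lit 0) (XT.nd (nat_lit 78) (nat_lit 152) (nat_lit 0) (XT.lf (nat_lit 0) (nat_lit 8313558704) (nat_lit 76) (nat_lit 44766994285) (nat_lit 76) (nat_lit 2980098767) (nat_lit 38) (nat_lit 4) (nat_lit 39) (nat_lit 5) (nat_lit 39) (nat_lit 4) (nat_lit 535) (nat_lit 407) (nat_lit 258)) (XT.nd (nat_lit 78) (nat_lit 76) (nat_lit 0) (XT.lf (nat_lit 0) (nat_lit 9533804098) (nat_lit 152) (nat_lit 22448336482) (nat_lit 76) (nat_lit 25347564604) (nat_lit 37) (nat_lit 5) (nat_lit 39) (nat_lit 5) (nat_lit 38) (nat_lit 4) (nat_lit 536) (nat_lit 407) (nat_lit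 257)) (XT.lf (nat_lit 0) (nat_lit 3632470166) (nat_lit 76) (nat_lit 18756226147) (nat_lit 152) (nat_lit 36246484910) (nat_lit 36) (nat_lit 5) (nat_lit 37) (nat_lit 5) (nat_lit 38) (nat_lit 4) (nat_lit 537) (nat_lit 407) (nat_lit 256)))) (XT.nd (nat_lit 156) (nat_lit 152) (nat_lit 0) (XT.nd (nat_lit 78) (nat_lit 0) (nat_lit 0) (XT.lf (nat_lit 0) (nat_lit 30937759943) (nat_lit 76) (nat_lit 4908812413) (nat_lit 152) (nat_lit 24126729329) (nat_lit 36) (nat_lit 5) (nat_lit 37) (nat_lit 5) (nat_lit 38) (nat_lit 4) (nat_lit 538) (nat_lit 407) (nat_lit 255)) (XT.lf (nat_lit 0) (nat_lit 49788944625) (nat_lit 152) (nat_lit 2397047148) (nat_lit 0) (nat_lit 9163151439) (nat_lit 36) (nat_lit 5) (nat_lit 38) (nat_lit 4) (nat_lit 36) (nat_lit 4) (nat_lit 539) (nat_lit 407) (nat_lit 254))) (XT.nd (nat_lit 78) (nat_lit 0) (nat_lit 0) (XT.lf (nat_lit 0) (nat_lit 1643714161) (nat_lit 152) (nat_lit 37302047159) (nat_lit 76) (nat_lit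 23811478583) (nat_lit 34) (nat_lit 5) (nat_lit 36) (nat_lit 5) (nat_lit 35) (nat_lit 4) (nat_lit 540) (nat_lit 407) (nat_lit 253)) (XT.lf (nat_lit 0) (nat_lit 15026958300) (nat_lit 152) (nat_lit 10146676820) (nat_lit 76) (nat_lit 39030044003) (nat_lit 34) (nat_lit 5) (nat_lit 36) (nat_lit 5) (nat_lit 35) (nat_lit 4) (nat_lit 541) (nat_lit 407) (nat_lit 252))))) (XT.nd (nat_lit 312) (nat_lit 152) (nat_lit 0) (XT.nd (nat_lit 156) (nat_lit 152) (nat_lit 0) (XT.nd (nat_lit 78) (nat_lit 0) (nat_lit 0) (XT.lf (nat_lit 0) (nat_lit 18160980212) (nat_lit 76) (nat_lit 10816670138) (nat_lit 152) (nat_lit 36710882872) (nat_lit 33) (nat_lit 5) (nat_lit 34) (nat_lit 5) (nat_lit 35) (nat_lit 4) (nat_lit 542) (nat_lit 407) (nat_lit 251)) (XT.lf (nat_lit 0) (nat_lit 43479901157) (nat_lit 152) (nat_lit 19744956303) (nat_lit 0) (nat_lit 3989084559) (nat_lit 33) (nat_lit 5) (nat_lit 35) (nat_lit 4) (nat_lit 33) (nat_lit 4) (nat_lit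 543) (nat_lit 407) (nat_lit 250))) (XT.nd (nat_lit 78) (nat_lit 76) (nat_lit 0) (XT.lf (nat_lit 0) (nat_lit 8921833355) (nat_lit 76) (nat_lit 49679885030) (nat_lit 76) (nat_lit 10177859934) (nat_lit 32) (nat_lit 4) (nat_lit 33) (nat_lit 5) (nat_lit 33) (nat_lit 4) (nat_lit 544) (nat_lit 407) (nat_lit 249)) (XT.lf (nat_lit 0) (nat_lit 3904154164) (nat_lit 152) (nat_lit 31587474179) (nat_lit 76) (nat_lit 34893673844) (nat_lit 31) (nat_lit 5) (nat_lit 33) (nat_lit 5) (nat_lit 32) (nat_lit 4) (nat_lit 545) (nat_lit 407) (nat_lit 248)))) (XT.nd (nat_lit 156) (nat_lit 76) (nat_lit 0) (XT.nd (nat_lit 78) (nat_lit 76) (nat_lit 0) (XT.lf (nat_lit 0) (nat_lit 18195954455) (nat_lit 152) (nat_lit 2585684673) (nat_lit 76) (nat_lit 51254778985) (nat_lit 31) (nat_lit 5) (nat_lit 33) (nat_lit 5) (nat_lit 32) (nat_lit 4) (nat_lit 546) (nat_lit 407) (nat_lit 247)) (XT.lf (nat_lit 0) (nat_lit 27813543143) (nat_lit 76) (nat_lit 5362453272)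 (nat_lit 152) (nat_lit 40553286656) (nat_lit 30) (nat_lit 5) (nat_lit 31) (nat_lit 5) (nat_lit 32) (nat_lit 4) (nat_lit 547) (nat_lit 407) (nat_lit 246))) (XT.nd (nat_lit 78) (nat_lit 76) (nat_lit 0) (XT.lf (nat_lit 0) (nat_lit 48725065229) (nat_lit 152) (nat_lit 16411145211) (nat_lit 0) (nat_lit 10333134950) (nat_lit 30) (nat_lit 5) (nat_lit 32) (nat_lit 4) (nat_lit 30) (nat_lit 4) (nat_lit 548) (nat_lit 407) (nat_lit 245)) (XT.lf (nat_lit 0) (nat_lit 14187419271) (nat_lit 76) (nat_lit 50735026260) (nat_lit 76) (nat_lit 12333709040) (nat_lit 29) (nat_lit 4) (nat_lit 30) (nat_lit 5) (nat_lit 30) (nat_lit 4) (nat_lit 549) (nat_lit 407) (nat_lit 244)))))) (XT.nd (nat_lit 51792) (nat_lit 0) (nat_lit 24548) (XT.nd (nat_lit 51480) (nat_lit 0) (nat_lit 26676) (XT.nd (nat_lit 78) (nat_lit 0) (nat_lit 0) (XT.lf (nat_lit 0) (nat_lit 2619950277) (nat_lit 152) (nat_lit 33091931692) (nat_lit 76) (nat_lit 43379170603) (nat_lit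 28) (nat_lit 5) (nat_lit 30) (nat_lit 5) (nat_lit 29) (nat_lit 4) (nat_lit 550) (nat_lit 407) (nat_lit 243)) (XT.nd (nat_lit 51324) (nat_lit 0) (nat_lit 27284) (XT.lf (nat_lit 0) (nat_lit 17766919181) (nat_lit 152) (nat_lit 2352432908) (nat_lit 76) (nat_lit 60858204251) (nat_lit 28) (nat_lit 5) (nat_lit 30) (nat_lit 5) (nat_lit 29) (nat_lit 4) (nat_lit 551) (nat_lit 407) (nat_lit 242)) (XT.lf (nat_lit 0) (nat_lit 862143640) (nat_lit 0) (nat_lit 862143640) (nat_lit 532) (nat_lit 1632700880) (nat_lit 387) (nat_lit 5) (nat_lit 387) (nat_lit 3) (nat_lit 394) (nat_lit 3) (nat_lit 408) (nat_lit 408) (nat_lit 384)))) (XT.nd (nat_lit 156) (nat_lit 0) (nat_lit 0) (XT.nd (nat_lit 78) (nat_lit 608) (nat_lit 0) (XT.lf (nat_lit 0) (nat_lit 5084298222) (nat_lit 0) (nat_lit 560491396) (nat_lit 532) (nat_lit 1104819935) (nat_lit 387) (nat_lit 5) (nat_lit 387) (nat_lit 3) (nat_lit 394) (nat_lit 3) (nat_lit 409) (nat_lit 408) (nat_lit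 383)) (XT.lf (nat_lit 0) (nat_lit 1037674035) (nat_lit 608) (nat_lit 5056462226) (nat_lit 684) (nat_lit 693711639) (nat_lit 379) (nat_lit 5) (nat_lit 387) (nat_lit 5) (nat_lit 388) (nat_lit 5) (nat_lit 410) (nat_lit 408) (nat_lit 382))) (XT.nd (nat_lit 78) (nat_lit 0) (nat_lit 0) (XT.lf (nat_lit 0) (nat_lit 3162645495) (nat_lit 608) (nat_lit 1625274068) (nat_lit 684) (nat_lit 2040800707) (nat_lit 379) (nat_lit 5) (nat_lit 387) (nat_lit 5) (nat_lit 388) (nat_lit 5) (nat_lit 411) (nat_lit 408) (nat_lit 381)) (XT.lf (nat_lit 76) (nat_lit 1901279407) (nat_lit 0) (nat_lit 3388631069) (nat_lit 684) (nat_lit 1582778499) (nat_lit 380) (nat_lit 5) (nat_lit 379) (nat_lit 5) (nat_lit 388) (nat_lit 5) (nat_lit 412) (nat_lit 408) (nat_lit 380))))) (XT.nd (nat_lit 312) (nat_lit 1444) (nat_lit 0) (XT.nd (nat_lit 156) (nat_lit 0) (nat_lit 76) (XT.nd (nat_lit 78) (nat_lit 0) (nat_lit 0) (XT.lf (nat_lit 0) (nat_lit 489974104) (nat_lit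 684) (nat_lit 1401935985) (nat_lit 760) (nat_lit 5027790945) (nat_lit 370) (nat_lit 5) (nat_lit 379) (nat_lit 5) (nat_lit 380) (nat_lit 5) (nat_lit 413) (nat_lit 408) (nat_lit 379)) (XT.lf (nat_lit 76) (nat_lit 2258534463) (nat_lit 0) (nat_lit 279932515) (nat_lit 760) (nat_lit 4430849492) (nat_lit 371) (nat_lit 5) (nat_lit 370) (nat_lit 5) (nat_lit 380) (nat_lit 5) (nat_lit 414) (nat_lit 408) (nat_lit 378))) (XT.nd (nat_lit 78) (nat_lit 0) (nat_lit 0) (XT.lf (nat_lit 0) (nat_lit 4601733583) (nat_lit 684) (nat_lit 1022452856) (nat_lit 760) (nat_lit 1397657903) (nat_lit 371) (nat_lit 5) (nat_lit 380) (nat_lit 5) (nat_lit 381) (nat_lit 5) (nat_lit 415) (nat_lit 408) (nat_lit 377)) (XT.lf (nat_lit 76) (nat_lit 2782809556) (nat_lit 0) (nat_lit 3901525528) (nat_lit 760) (nat_lit 392912711) (nat_lit 372) (nat_lit 5) (nat_lit 371) (nat_lit 5) (nat_lit 381) (nat_lit 5) (nat_lit 416) (nat_lit 408) (nat_lit 376)))) (XT.nd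 (nat_lit 156) (nat_lit 760) (nat_lit 0) (XT.nd (nat_lit 78) (nat_lit 0) (nat_lit 0) (XT.lf (nat_lit 0) (nat_lit 1601315893) (nat_lit 760) (nat_lit 473452366) (nat_lit 836) (nat_lit 5060899041) (nat_lit 361) (nat_lit 5) (nat_lit 371) (nat_lit 5) (nat_lit 372) (nat_lit 5) (nat_lit 417) (nat_lit 408) (nat_lit 375)) (XT.lf (nat_lit 76) (nat_lit 3481311311) (nat_lit 0) (nat_lit 130564425) (nat_lit 836) (nat_lit 3584935817) (nat_lit 362) (nat_lit 5) (nat_lit 361) (nat_lit 5) (nat_lit 372) (nat_lit 5) (nat_lit 418) (nat_lit 408) (nat_lit 374))) (XT.nd (nat_lit 78) (nat_lit 836) (nat_lit 0) (XT.lf (nat_lit 76) (nat_lit 244791125) (nat_lit 0) (nat_lit 5395879672) (nat_lit 836) (nat_lit 1620402088) (nat_lit 363) (nat_lit 5) (nat_lit 362) (nat_lit 5) (nat_lit 373) (nat_lit 5) (nat_lit 419) (nat_lit 408) (nat_lit 373)) (XT.lf (nat_lit 0) (nat_lit 367972399) (nat_lit 836) (nat_lit 2979223036) (nat_lit 912) (nat_lit 3980786426)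 (nat_lit 351) (nat_lit 5) (nat_lit 362) (nat_lit 5) (nat_lit 363) (nat_lit 5) (nat_lit 420) (nat_lit 408) (nat_lit 372))))))) (XT.nd (nat_lit 1170) (nat_lit 4864) (nat_lit 0) (XT.nd (nat_lit 546) (nat_lit 4940) (nat_lit 0) (XT.nd (nat_lit 234) (nat_lit 1976) (nat_lit 0) (XT.nd (nat_lit 78) (nat_lit 760) (nat_lit 0) (XT.lf (nat_lit 76) (nat_lit 1138911454) (nat_lit 0) (nat_lit 1190987062) (nat_lit 912) (nat_lit 5068142800) (nat_lit 352) (nat_lit 5) (nat_lit 351) (nat_lit 5) (nat_lit 363) (nat_lit 5) (nat_lit 421) (nat_lit 408) (nat_lit 371)) (XT.nd (nat_lit 78) (nat_lit 836) (nat_lit 0) (XT.lf (nat_lit 0) (nat_lit 4328089857) (nat_lit 836) (nat_lit 2085675778) (nat_lit 76) (nat_lit 1057132737) (nat_lit 352) (nat_lit 5) (nat_lit 363) (nat_lit 5) (nat_lit 353) (nat_lit 5) (nat_lit 422) (nat_lit 408) (nat_lit 370)) (XT.lf (nat_lit 0) (nat_lit 2197628063) (nat_lit 836) (nat_lit 4160472237) (nat_lit 912) (nat_lit 1188702153)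 (nat_lit 341) (nat_lit 5) (nat_lit 352) (nat_lit 5) (nat_lit 353) (nat_lit 5) (nat_lit 423) (nat_lit 408) (nat_lit 369)))) (XT.nd (nat_lit 156) (nat_lit 988) (nat_lit 0) (XT.nd (nat_lit 78) (nat_lit 912) (nat_lit 0) (XT.lf (nat_lit 0) (nat_lit 768901929) (nat_lit 912) (nat_lit 1027503187) (nat_lit 76) (nat_lit 5829528794) (nat_lit 340) (nat_lit 5) (nat_lit 352) (nat_lit 5) (nat_lit 341) (nat_lit 5) (nat_lit 424) (nat_lit 408) (nat_lit 368)) (XT.lf (nat_lit 0) (nat_lit 2742489873) (nat_lit 988) (nat_lit 4281362045) (nat_lit 76) (nat_lit 683815917) (nat_lit 328) (nat_lit 5) (nat_lit 341) (nat_lit 5) (nat_lit 329) (nat_lit 5) (nat_lit 425) (nat_lit 408) (nat_lit 367))) (XT.nd (nat_lit 78) (nat_lit 0) (nat_lit 0) (XT.lf (nat_lit 0) (nat_lit 181674025) (nat_lit 988) (nat_lit 4566447549) (nat_lit 1064) (nat_lit 3044562682) (nat_lit 315) (nat_lit 5) (nat_lit 328) (nat_lit 5) (nat_lit 329) (nat_lit 5) (nat_lit 426) (nat_lit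 408) (nat_lit 366)) (XT.lf (nat_lit 0) (nat_lit 4819596448) (nat_lit 988) (nat_lit 1981599936) (nat_lit 1064) (nat_lit 1079451671) (nat_lit 315) (nat_lit 5) (nat_lit 328) (nat_lit 5) (nat_lit 329) (nat_lit 5) (nat_lit 427) (nat_lit 408) (nat_lit 365))))) (XT.nd (nat_lit 312) (nat_lit 2660) (nat_lit 0) (XT.nd (nat_lit 156) (nat_lit 1140) (nat_lit 0) (XT.nd (nat_lit 78) (nat_lit 0) (nat_lit 0) (XT.lf (nat_lit 0) (nat_lit 893555500) (nat_lit 1140) (nat_lit 6377989101) (nat_lit 76) (nat_lit 700426734) (nat_lit 300) (nat_lit 5) (nat_lit 315) (nat_lit 5) (nat_lit 301) (nat_lit 5) (nat_lit 428) (nat_lit 408) (nat_lit 364)) (XT.lf (nat_lit 0) (nat_lit 2901241309) (nat_lit 1140) (nat_lit 1692060910) (nat_lit 76) (nat_lit 3472509763) (nat_lit 300) (nat_lit 5) (nat_lit 315) (nat_lit 5) (nat_lit 301) (nat_lit 5) (nat_lit 429) (nat_lit 408) (nat_lit 363))) (XT.nd (nat_lit 78) (nat_lit 0) (nat_lit 0) (XT.lf (nat_lit 0) (nat_lit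 3149538849) (nat_lit 1140) (nat_lit 1797804685) (nat_lit 1216) (nat_lit 3215792163) (nat_lit 285) (nat_lit 5) (nat_lit 300) (nat_lit 5) (nat_lit 301) (nat_lit 5) (nat_lit 430) (nat_lit 408) (nat_lit 362)) (XT.lf (nat_lit 0) (nat_lit 7031516544) (nat_lit 1216) (nat_lit 149863164) (nat_lit 76) (nat_lit 1082711819) (nat_lit 285) (nat_lit 5) (nat_lit 301) (nat_lit 5) (nat_lit 286) (nat_lit 5) (nat_lit 431) (nat_lit 408) (nat_lit 361)))) (XT.nd (nat_lit 156) (nat_lit 608) (nat_lit 0) (XT.nd (nat_lit 78) (nat_lit 760) (nat_lit 0) (XT.lf (nat_lit 0) (nat_lit 809807607) (nat_lit 1292) (nat_lit 3484257743) (nat_lit 76) (nat_lit 4073325011) (nat_lit 268) (nat_lit 5) (nat_lit 285) (nat_lit 5) (nat_lit 269) (nat_lit 5) (nat_lit 432) (nat_lit 408) (nat_lit 360)) (XT.lf (nat_lit 0) (nat_lit 1568175775) (nat_lit 760) (nat_lit 1288144954) (nat_lit 836) (nat_lit 5618084270) (nat_lit 258) (nat_lit 5) (nat_lit 268) (nat_lit 5) (nat_lit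 269) (nat_lit 5) (nat_lit 433) (nat_lit 408) (nat_lit 359))) (XT.nd (nat_lit 78) (nat_lit 608) (nat_lit 0) (XT.lf (nat_lit 0) (nat_lit 4969170401) (nat_lit 836) (nat_lit 1805360782) (nat_lit 76) (nat_lit 1809962238) (nat_lit 258) (nat_lit 5) (nat_lit 269) (nat_lit 5) (nat_lit 259) (nat_lit 5) (nat_lit 434) (nat_lit 408) (nat_lit 358)) (XT.lf (nat_lit 0) (nat_lit 3456960972) (nat_lit 608) (nat_lit 3687855602) (nat_lit 684) (nat_lit 1553096835) (nat_lit 250) (nat_lit 5) (nat_lit 258) (nat_lit 5) (nat_lit 259) (nat_lit 5) (nat_lit 435) (nat_lit 408) (nat_lit 357)))))) (XT.nd (nat_lit 546) (nat_lit 2508) (nat_lit 0) (XT.nd (nat_lit 234) (nat_lit 1140) (nat_lit 0) (XT.nd (nat_lit 78) (nat_lit 532) (nat_lit 0) (XT.lf (nat_lit 0) (nat_lit 48497139) (nat_lit 608) (nat_lit 484114042) (nat_lit 684) (nat_lit 8282788031) (nat_lit 241) (nat_lit 5) (nat_lit 249) (nat_lit 5) (nat_lit 250) (nat_lit 5) (nat_lit 436) (nat_lit 408)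 (nat_lit 356)) (XT.nd (nat_lit 78) (nat_lit 532) (nat_lit 0) (XT.lf (nat_lit 0) (nat_lit 2684956637) (nat_lit 684) (nat_lit 3421374777) (nat_lit 76) (nat_lit 2828568693) (nat_lit 241) (nat_lit 5) (nat_lit 250) (nat_lit 5) (nat_lit 242) (nat_lit 5) (nat_lit 437) (nat_lit 408) (nat_lit 355)) (XT.lf (nat_lit 0) (nat_lit 2073933219) (nat_lit 532) (nat_lit 2808753754) (nat_lit 608) (nat_lit 4175884609) (nat_lit 234) (nat_lit 5) (nat_lit 241) (nat_lit 5) (nat_lit 242) (nat_lit 5) (nat_lit 438) (nat_lit 408) (nat_lit 354)))) (XT.nd (nat_lit 156) (nat_lit 532) (nat_lit 0) (XT.nd (nat_lit 78) (nat_lit 608) (nat_lit 0) (XT.lf (nat_lit 0) (nat_lit 7143788149) (nat_lit 608) (nat_lit 1433757317) (nat_lit 76) (nat_lit 608494264) (nat_lit 234) (nat_lit 5) (nat_lit 242) (nat_lit 5) (nat_lit 235) (nat_lit 5) (nat_lit 439) (nat_lit 408) (nat_lit 353)) (XT.lf (nat_lit 0) (nat_lit 179857134) (nat_lit 608) (nat_lit 5024369571) (nat_lit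 76) (nat_lit 4112244581) (nat_lit 226) (nat_lit 5) (nat_lit 234) (nat_lit 5) (nat_lit 227) (nat_lit 5) (nat_lit 440) (nat_lit 408) (nat_lit 352))) (XT.nd (nat_lit 78) (nat_lit 0) (nat_lit 0) (XT.lf (nat_lit 0) (nat_lit 716260027) (nat_lit 532) (nat_lit 1691349924) (nat_lit 608) (nat_lit 7043207261) (nat_lit 219) (nat_lit 5) (nat_lit 226) (nat_lit 5) (nat_lit 227) (nat_lit 5) (nat_lit 441) (nat_lit 408) (nat_lit 351)) (XT.lf (nat_lit 0) (nat_lit 4731199966) (nat_lit 608) (nat_lit 2921422570) (nat_lit 76) (nat_lit 1935709458) (nat_lit 219) (nat_lit 5) (nat_lit 227) (nat_lit 5) (nat_lit 220) (nat_lit 5) (nat_lit 442) (nat_lit 408) (nat_lit 350))))) (XT.nd (nat_lit 312) (nat_lit 988) (nat_lit 0) (XT.nd (nat_lit 156) (nat_lit 988) (nat_lit 0) (XT.nd (nat_lit 78) (nat_lit 0) (nat_lit 0) (XT.lf (nat_lit 0) (nat_lit 3063678101) (nat_lit 532) (nat_lit 4067445978) (nat_lit 608) (nat_lit 2598657715) (nat_lit 212) (nat_lit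 5) (nat_lit 219) (nat_lit 5) (nat_lit 220) (nat_lit 5) (nat_lit 443) (nat_lit 408) (nat_lit 349)) (XT.lf (nat_lit 0) (nat_lit 9243198491) (nat_lit 532) (nat_lit 350498232) (nat_lit 608) (nat_lit 282066963) (nat_lit 212) (nat_lit 5) (nat_lit 219) (nat_lit 5) (nat_lit 220) (nat_lit 5) (nat_lit 444) (nat_lit 408) (nat_lit 348))) (XT.nd (nat_lit 78) (nat_lit 456) (nat_lit 0) (XT.lf (nat_lit 0) (nat_lit 2113062775) (nat_lit 532) (nat_lit 4432068225) (nat_lit 76) (nat_lit 3478891986) (nat_lit 205) (nat_lit 5) (nat_lit 212) (nat_lit 5) (nat_lit 206) (nat_lit 5) (nat_lit 445) (nat_lit 408) (nat_lit 347)) (XT.lf (nat_lit 0) (nat_lit 1823797052) (nat_lit 456) (nat_lit 2740555953) (nat_lit 532) (nat_lit 5612601435) (nat_lit 199) (nat_lit 5) (nat_lit 205) (nat_lit 5) (nat_lit 206) (nat_lit 5) (nat_lit 446) (nat_lit 408) (nat_lit 346)))) (XT.nd (nat_lit 156) (nat_lit 532) (nat_lit 0) (XT.nd (nat_lit 78) (nat_lit 456) (nat_lit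 0) (XT.lf (nat_lit 0) (nat_lit 7108815444) (nat_lit 532) (nat_lit 2032406515) (nat_lit 76) (nat_lit 1192670090) (nat_lit 199) (nat_lit 5) (nat_lit 206) (nat_lit 5) (nat_lit 200) (nat_lit 5) (nat_lit 447) (nat_lit 408) (nat_lit 345)) (XT.lf (nat_lit 0) (nat_lit 4494162593) (nat_lit 456) (nat_lit 5269968507) (nat_lit 532) (nat_lit 730378112) (nat_lit 193) (nat_lit 5) (nat_lit 199) (nat_lit 5) (nat_lit 200) (nat_lit 5) (nat_lit 448) (nat_lit 408) (nat_lit 344))) (XT.nd (nat_lit 78) (nat_lit 0) (nat_lit 0) (XT.lf (nat_lit 0) (nat_lit 547007145) (nat_lit 456) (nat_lit 1246700438) (nat_lit 532) (nat_lit 8866000489) (nat_lit 186) (nat_lit 5) (nat_lit 192) (nat_lit 5) (nat_lit 193) (nat_lit 5) (nat_lit 449) (nat_lit 408) (nat_lit 343)) (XT.lf (nat_lit 0) (nat_lit 4432849504) (nat_lit 532) (nat_lit 3495118363) (nat_lit 76) (nat_lit 2900064093) (nat_lit 186) (nat_lit 5) (nat_lit 193) (nat_lit 5) (nat_lit 187) (nat_lit 5)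 (nat_lit 450) (nat_lit 408) (nat_lit 342))))))))
noncomputable def xc117 : XT := (XT.nd (nat_lit 2340) (nat_lit 3420) (nat_lit 0) (XT.nd (nat_lit 1170) (nat_lit 2356) (nat_lit 0) (XT.nd (nat_lit 546) (nat_lit 1748) (nat_lit 0) (XT.nd (nat_lit 234) (nat_lit 1140) (nat_lit 0) (XT.nd (nat_lit 78) (nat_lit 456) (nat_lit 0) (XT.lf (nat_lit 0) (nat_lit 3329765289) (nat_lit 380) (nat_lit 3831743532) (nat_lit 456) (nat_lit 3839592674) (nat_lit 181) (nat_lit 5) (nat_lit 186) (nat_lit 5) (nat_lit 187) (nat_lit 5) (nat_lit 451) (nat_lit 408) (nat_lit 341)) (XT.nd (nat_lit 78) (nat_lit 456) (nat_lit 0) (XT.lf (nat_lit 0) (nat_lit 9977863655) (nat_lit 456) (nat_lit 795676988) (nat_lit 76) (nat_lit 405653445) (nat_lit 181) (nat_lit 5) (nat_lit 187) (nat_lit 5) (nat_lit 182) (nat_lit 5) (nat_lit 452) (nat_lit 408) (nat_lit 340)) (XT.lf (nat_lit 0) (nat_lit 1553364829) (nat_lit 456) (nat_lit 5047117020) (nat_lit 76) (nat_lit 4759710022)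 (nat_lit 175) (nat_lit 5) (nat_lit 181) (nat_lit 5) (nat_lit 176) (nat_lit 5) (nat_lit 453) (nat_lit 408) (nat_lit 339)))) (XT.nd (nat_lit 156) (nat_lit 760) (nat_lit 0) (XT.nd (nat_lit 78) (nat_lit 0) (nat_lit 0) (XT.lf (nat_lit 0) (nat_lit 2090564682) (nat_lit 380) (nat_lit 2271862150) (nat_lit 456) (nat_lit 7183965312) (nat_lit 170) (nat_lit 5) (nat_lit 175) (nat_lit 5) (nat_lit 176) (nat_lit 5) (nat_lit 454) (nat_lit 408) (nat_lit 338)) (XT.lf (nat_lit 0) (nat_lit 7296335517) (nat_lit 456) (nat_lit 2256041701) (nat_lit 76) (nat_lit 2184589333) (nat_lit 170) (nat_lit 5) (nat_lit 176) (nat_lit 5) (nat_lit 171) (nat_lit 5) (nat_lit 455) (nat_lit 408) (nat_lit 337))) (XT.nd (nat_lit 78) (nat_lit 380) (nat_lit 0) (XT.lf (nat_lit 0) (nat_lit 5196207335) (nat_lit 380) (nat_lit 5163511624) (nat_lit 456) (nat_lit 1572300717) (nat_lit 165) (nat_lit 5) (nat_lit 170) (nat_lit 5) (nat_lit 171) (nat_lit 5) (nat_lit 456)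 (nat_lit 408) (nat_lit 336)) (XT.lf (nat_lit 0) (nat_lit 744409606) (nat_lit 304) (nat_lit 610069897) (nat_lit 380) (nat_lit 10778070166) (nat_lit 160) (nat_lit 5) (nat_lit 164) (nat_lit 5) (nat_lit 165) (nat_lit 5) (nat_lit 457) (nat_lit 408) (nat_lit 335))))) (XT.nd (nat_lit 312) (nat_lit 988) (nat_lit 0) (XT.nd (nat_lit 156) (nat_lit 380) (nat_lit 0) (XT.nd (nat_lit 78) (nat_lit 380) (nat_lit 0) (XT.lf (nat_lit 0) (nat_lit 4414955626) (nat_lit 380) (nat_lit 3848415654) (nat_lit 76) (nat_lit 4072937206) (nat_lit 160) (nat_lit 5) (nat_lit 165) (nat_lit 5) (nat_lit 161) (nat_lit 5) (nat_lit 458) (nat_lit 408) (nat_lit 334)) (XT.lf (nat_lit 0) (nat_lit 3946711238) (nat_lit 380) (nat_lit 3634982243) (nat_lit 456) (nat_lit 4964057796) (nat_lit 155) (nat_lit 5) (nat_lit 160) (nat_lit 5) (nat_lit 161) (nat_lit 5) (nat_lit 459) (nat_lit 408) (nat_lit 333))) (XT.nd (nat_lit 78) (nat_lit 380) (nat_lit 0) (XT.lf (nat_lit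 0) (nat_lit 10864377113) (nat_lit 456) (nat_lit 759112062) (nat_lit 76) (nat_lit 1137364364) (nat_lit 155) (nat_lit 5) (nat_lit 161) (nat_lit 5) (nat_lit 156) (nat_lit 5) (nat_lit 460) (nat_lit 408) (nat_lit 332)) (XT.lf (nat_lit 0) (nat_lit 1317883726) (nat_lit 380) (nat_lit 5609763966) (nat_lit 76) (nat_lit 6052019168) (nat_lit 150) (nat_lit 5) (nat_lit 155) (nat_lit 5) (nat_lit 151) (nat_lit 5) (nat_lit 461) (nat_lit 408) (nat_lit 331)))) (XT.nd (nat_lit 156) (nat_lit 684) (nat_lit 0) (XT.nd (nat_lit 78) (nat_lit 0) (nat_lit 0) (XT.lf (nat_lit 0) (nat_lit 2543259952) (nat_lit 304) (nat_lit 2051305566) (nat_lit 380) (nat_lit 8609799623) (nat_lit 146) (nat_lit 5) (nat_lit 150) (nat_lit 5) (nat_lit 151) (nat_lit 5) (nat_lit 462) (nat_lit 408) (nat_lit 330)) (XT.lf (nat_lit 0) (nat_lit 8027443876) (nat_lit 380) (nat_lit 2448718918) (nat_lit 76) (nat_lit 2957908689) (nat_lit 146) (nat_lit 5) (nat_lit 151) (nat_lit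 5) (nat_lit 147) (nat_lit 5) (nat_lit 463) (nat_lit 408) (nat_lit 329))) (XT.nd (nat_lit 78) (nat_lit 380) (nat_lit 0) (XT.lf (nat_lit 0) (nat_lit 6067981682) (nat_lit 304) (nat_lit 5546903307) (nat_lit 380) (nat_lit 2054240614) (nat_lit 142) (nat_lit 5) (nat_lit 146) (nat_lit 5) (nat_lit 147) (nat_lit 5) (nat_lit 464) (nat_lit 408) (nat_lit 328)) (XT.lf (nat_lit 0) (nat_lit 944325847) (nat_lit 304) (nat_lit 434223334) (nat_lit 380) (nat_lit 12532068705) (nat_lit 137) (nat_lit 5) (nat_lit 141) (nat_lit 5) (nat_lit 142) (nat_lit 5) (nat_lit 465) (nat_lit 408) (nat_lit 327)))))) (XT.nd (nat_lit 546) (nat_lit 1216) (nat_lit 0) (XT.nd (nat_lit 234) (nat_lit 912) (nat_lit 0) (XT.nd (nat_lit 78) (nat_lit 228) (nat_lit 0) (XT.lf (nat_lit 0) (nat_lit 4970345313) (nat_lit 380) (nat_lit 4363198900) (nat_lit 76) (nat_lit 4822284778) (nat_lit 137) (nat_lit 5) (nat_lit 142) (nat_lit 5) (nat_lit 138) (nat_lit 5) (nat_lit 466)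 (nat_lit 408) (nat_lit 326)) (XT.nd (nat_lit 78) (nat_lit 0) (nat_lit 0) (XT.lf (nat_lit 0) (nat_lit 4542941988) (nat_lit 228) (nat_lit 4149046057) (nat_lit 304) (nat_lit 5715749050) (nat_lit 134) (nat_lit 5) (nat_lit 137) (nat_lit 5) (nat_lit 138) (nat_lit 5) (nat_lit 467) (nat_lit 408) (nat_lit 325)) (XT.lf (nat_lit 0) (nat_lit 12555597298) (nat_lit 304) (nat_lit 911704103) (nat_lit 76) (nat_lit 1198994870) (nat_lit 134) (nat_lit 5) (nat_lit 138) (nat_lit 5) (nat_lit 135) (nat_lit 5) (nat_lit 468) (nat_lit 408) (nat_lit 324)))) (XT.nd (nat_lit 156) (nat_lit 304) (nat_lit 0) (XT.nd (nat_lit 78) (nat_lit 228) (nat_lit 0) (XT.lf (nat_lit 0) (nat_lit 1669077233) (nat_lit 380) (nat_lit 6551863439) (nat_lit 76) (nat_lit 6708277219) (nat_lit 129) (nat_lit 5) (nat_lit 134) (nat_lit 5) (nat_lit 130) (nat_lit 5) (nat_lit 469) (nat_lit 408) (nat_lit 323)) (XT.lf (nat_lit 0) (nat_lit 2758246006) (nat_lit 228) (nat_lit 2772620874)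 (nat_lit 304) (nat_lit 9668205111) (nat_lit 126) (nat_lit 5) (nat_lit 129) (nat_lit 5) (nat_lit 130) (nat_lit 5) (nat_lit 470) (nat_lit 408) (nat_lit 322))) (XT.nd (nat_lit 78) (nat_lit 304) (nat_lit 0) (XT.lf (nat_lit 0) (nat_lit 9578070540) (nat_lit 304) (nat_lit 3059853087) (nat_lit 76) (nat_lit 2837014248) (nat_lit 126) (nat_lit 5) (nat_lit 130) (nat_lit 5) (nat_lit 127) (nat_lit 5) (nat_lit 471) (nat_lit 408) (nat_lit 321)) (XT.lf (nat_lit 0) (nat_lit 6667500345) (nat_lit 304) (nat_lit 7146901378) (nat_lit 380) (nat_lit 1942649558) (nat_lit 122) (nat_lit 5) (nat_lit 126) (nat_lit 5) (nat_lit 127) (nat_lit 5) (nat_lit 472) (nat_lit 408) (nat_lit 320))))) (XT.nd (nat_lit 312) (nat_lit 684) (nat_lit 0) (XT.nd (nat_lit 156) (nat_lit 228) (nat_lit 0) (XT.nd (nat_lit 78) (nat_lit 0) (nat_lit 0) (XT.lf (nat_lit 0) (nat_lit 656924225) (nat_lit 228) (nat_lit 1445489458) (nat_lit 304) (nat_lit 13944189223) (nat_lit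 118) (nat_lit 5) (nat_lit 121) (nat_lit 5) (nat_lit 122) (nat_lit 5) (nat_lit 473) (nat_lit 408) (nat_lit 319)) (XT.lf (nat_lit 0) (nat_lit 6341497528) (nat_lit 304) (nat_lit 5560672947) (nat_lit 76) (nat_lit 4438744802) (nat_lit 118) (nat_lit 5) (nat_lit 122) (nat_lit 5) (nat_lit 119) (nat_lit 5) (nat_lit 474) (nat_lit 408) (nat_lit 318))) (XT.nd (nat_lit 78) (nat_lit 0) (nat_lit 0) (XT.lf (nat_lit 0) (nat_lit 4601787302) (nat_lit 228) (nat_lit 6141662994) (nat_lit 304) (nat_lit 5899538393) (nat_lit 115) (nat_lit 5) (nat_lit 118) (nat_lit 5) (nat_lit 119) (nat_lit 5) (nat_lit 475) (nat_lit 408) (nat_lit 317)) (XT.lf (nat_lit 0) (nat_lit 15146570156) (nat_lit 228) (nat_lit 164507135) (nat_lit 304) (nat_lit 1642041034) (nat_lit 115) (nat_lit 5) (nat_lit 118) (nat_lit 5) (nat_lit 119) (nat_lit 5) (nat_lit 476) (nat_lit 408) (nat_lit 316)))) (XT.nd (nat_lit 156) (nat_lit 152) (nat_lit 0) (XT.nd (nat_lit 78) (nat_lit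 228) (nat_lit 0) (XT.lf (nat_lit 0) (nat_lit 2811149587) (nat_lit 304) (nat_lit 8482978835) (nat_lit 76) (nat_lit 5973989771) (nat_lit 111) (nat_lit 5) (nat_lit 115) (nat_lit 5) (nat_lit 112) (nat_lit 5) (nat_lit 477) (nat_lit 408) (nat_lit 315)) (XT.lf (nat_lit 0) (nat_lit 2126937011) (nat_lit 228) (nat_lit 5256563509) (nat_lit 304) (nat_lit 10208025041) (nat_lit 108) (nat_lit 5) (nat_lit 111) (nat_lit 5) (nat_lit 112) (nat_lit 5) (nat_lit 478) (nat_lit 408) (nat_lit 314))) (XT.nd (nat_lit 78) (nat_lit 152) (nat_lit 0) (XT.lf (nat_lit 0) (nat_lit 12167010369) (nat_lit 304) (nat_lit 4739369954) (nat_lit 76) (nat_lit 1016037385) (nat_lit 108) (nat_lit 5) (nat_lit 112) (nat_lit 5) (nat_lit 109) (nat_lit 5) (nat_lit 479) (nat_lit 408) (nat_lit 313)) (XT.lf (nat_lit 0) (nat_lit 6344162296) (nat_lit 152) (nat_lit 10841756677) (nat_lit 228) (nat_lit 1074562993) (nat_lit 106) (nat_lit 5) (nat_lit 108) (nat_lit 5) (nat_lit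 109) (nat_lit 5) (nat_lit 480) (nat_lit 408) (nat_lit 312))))))) (XT.nd (nat_lit 1170) (nat_lit 1520) (nat_lit 0) (XT.nd (nat_lit 546) (nat_lit 988) (nat_lit 0) (XT.nd (nat_lit 234) (nat_lit 456) (nat_lit 0) (XT.nd (nat_lit 78) (nat_lit 380) (nat_lit 0) (XT.lf (nat_lit 0) (nat_lit 3700863508) (nat_lit 228) (nat_lit 821660289) (nat_lit 76) (nat_lit 14084267854) (nat_lit 105) (nat_lit 5) (nat_lit 108) (nat_lit 5) (nat_lit 106) (nat_lit 5) (nat_lit 481) (nat_lit 408) (nat_lit 311)) (XT.nd (nat_lit 78) (nat_lit 152) (nat_lit 0) (XT.lf (nat_lit 0) (nat_lit 8701135091) (nat_lit 304) (nat_lit 8209632705) (nat_lit 76) (nat_lit 2049310218) (nat_lit 102) (nat_lit 5) (nat_lit 106) (nat_lit 5) (nat_lit 103) (nat_lit 5) (nat_lit 482) (nat_lit 408) (nat_lit 310)) (XT.lf (nat_lit 0) (nat_lit 3348950046) (nat_lit 152) (nat_lit 10567501313) (nat_lit 228) (nat_lit 5405562423) (nat_lit 100) (nat_lit 5) (nat_lit 102) (nat_lit 5) (nat_lit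 103) (nat_lit 5) (nat_lit 483) (nat_lit 408) (nat_lit 309)))) (XT.nd (nat_lit 156) (nat_lit 152) (nat_lit 0) (XT.nd (nat_lit 78) (nat_lit 304) (nat_lit 0) (XT.lf (nat_lit 0) (nat_lit 15388533125) (nat_lit 152) (nat_lit 3962547136) (nat_lit 228) (nat_lit 341843619) (nat_lit 100) (nat_lit 5) (nat_lit 102) (nat_lit 5) (nat_lit 103) (nat_lit 5) (nat_lit 484) (nat_lit 408) (nat_lit 308)) (XT.lf (nat_lit 0) (nat_lit 4862244084) (nat_lit 304) (nat_lit 12314302344) (nat_lit 76) (nat_lit 2894504232) (nat_lit 96) (nat_lit 5) (nat_lit 100) (nat_lit 5) (nat_lit 97) (nat_lit 5) (nat_lit 485) (nat_lit 408) (nat_lit 307))) (XT.nd (nat_lit 78) (nat_lit 152) (nat_lit 0) (XT.lf (nat_lit 0) (nat_lit 10279176871) (nat_lit 304) (nat_lit 267879983) (nat_lit 76) (nat_lit 9911456751) (nat_lit 96) (nat_lit 5) (nat_lit 100) (nat_lit 5) (nat_lit 97) (nat_lit 5) (nat_lit 486) (nat_lit 408) (nat_lit 306)) (XT.lf (nat_lit 0) (nat_lit 12348300713)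 (nat_lit 152) (nat_lit 3610049133) (nat_lit 228) (nat_lit 4896260272) (nat_lit 94) (nat_lit 5) (nat_lit 96) (nat_lit 5) (nat_lit 97) (nat_lit 5) (nat_lit 487) (nat_lit 408) (nat_lit 305))))) (XT.nd (nat_lit 312) (nat_lit 532) (nat_lit 0) (XT.nd (nat_lit 156) (nat_lit 152) (nat_lit 0) (XT.nd (nat_lit 78) (nat_lit 0) (nat_lit 0) (XT.lf (nat_lit 0) (nat_lit 592495018) (nat_lit 304) (nat_lit 17167457405) (nat_lit 76) (nat_lit 3500746577) (nat_lit 90) (nat_lit 5) (nat_lit 94) (nat_lit 5) (nat_lit 91) (nat_lit 5) (nat_lit 488) (nat_lit 408) (nat_lit 304)) (XT.lf (nat_lit 0) (nat_lit 6251190301) (nat_lit 304) (nat_lit 4549077630) (nat_lit 76) (nat_lit 10874139169) (nat_lit 90) (nat_lit 5) (nat_lit 94) (nat_lit 5) (nat_lit 91) (nat_lit 5) (nat_lit 489) (nat_lit 408) (nat_lit 303))) (XT.nd (nat_lit 78) (nat_lit 0) (nat_lit 0) (XT.lf (nat_lit 0) (nat_lit 8583540817) (nat_lit 152) (nat_lit 3560360282) (nat_lit 228) (nat_lit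 9954699167) (nat_lit 88) (nat_lit 5) (nat_lit 90) (nat_lit 5) (nat_lit 91) (nat_lit 5) (nat_lit 490) (nat_lit 408) (nat_lit 302)) (XT.lf (nat_lit 0) (nat_lit 18279086579) (nat_lit 228) (nat_lit 400573792) (nat_lit 76) (nat_lit 3853889474) (nat_lit 88) (nat_lit 5) (nat_lit 91) (nat_lit 5) (nat_lit 89) (nat_lit 5) (nat_lit 491) (nat_lit 408) (nat_lit 301)))) (XT.nd (nat_lit 156) (nat_lit 152) (nat_lit 0) (XT.nd (nat_lit 78) (nat_lit 152) (nat_lit 0) (XT.lf (nat_lit 0) (nat_lit 1732147400) (nat_lit 228) (nat_lit 9693507693) (nat_lit 76) (nat_lit 11551020408) (nat_lit 85) (nat_lit 5) (nat_lit 88) (nat_lit 5) (nat_lit 86) (nat_lit 5) (nat_lit 492) (nat_lit 408) (nat_lit 300)) (XT.lf (nat_lit 0) (nat_lit 3956677529) (nat_lit 152) (nat_lit 3880704985) (nat_lit 228) (nat_lit 15593713911) (nat_lit 83) (nat_lit 5) (nat_lit 85) (nat_lit 5) (nat_lit 86) (nat_lit 5) (nat_lit 493) (nat_lit 408) (nat_lit 299))) (XT.nd (nat_lit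 78) (nat_lit 152) (nat_lit 0) (XT.lf (nat_lit 0) (nat_lit 14244533969) (nat_lit 228) (nat_lit 5750622773) (nat_lit 76) (nat_lit 3900431717) (nat_lit 83) (nat_lit 5) (nat_lit 86) (nat_lit 5) (nat_lit 84) (nat_lit 5) (nat_lit 494) (nat_lit 408) (nat_lit 298)) (XT.lf (nat_lit 0) (nat_lit 8481763345) (nat_lit 152) (nat_lit 12465106814) (nat_lit 228) (nat_lit 3424057214) (nat_lit 81) (nat_lit 5) (nat_lit 83) (nat_lit 5) (nat_lit 84) (nat_lit 5) (nat_lit 495) (nat_lit 408) (nat_lit 297)))))) (XT.nd (nat_lit 624) (nat_lit 760) (nat_lit 0) (XT.nd (nat_lit 312) (nat_lit 380) (nat_lit 0) (XT.nd (nat_lit 156) (nat_lit 152) (nat_lit 0) (XT.nd (nat_lit 78) (nat_lit 152) (nat_lit 0) (XT.lf (nat_lit 0) (nat_lit 2973109486) (nat_lit 228) (nat_lit 1659348455) (nat_lit 76) (nat_lit 20225956479) (nat_lit 80) (nat_lit 5) (nat_lit 83) (nat_lit 5) (nat_lit 81) (nat_lit 5) (nat_lit 496) (nat_lit 408) (nat_lit 296)) (XT.lf (nat_lit 0)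 (nat_lit 9638212589) (nat_lit 228) (nat_lit 12199185576) (nat_lit 76) (nat_lit 3517766742) (nat_lit 78) (nat_lit 5) (nat_lit 81) (nat_lit 5) (nat_lit 79) (nat_lit 5) (nat_lit 497) (nat_lit 408) (nat_lit 295))) (XT.nd (nat_lit 78) (nat_lit 0) (nat_lit 0) (XT.lf (nat_lit 0) (nat_lit 2557899568) (nat_lit 152) (nat_lit 14016370401) (nat_lit 228) (nat_lit 9290418992) (nat_lit 76) (nat_lit 5) (nat_lit 78) (nat_lit 5) (nat_lit 79) (nat_lit 5) (nat_lit 498) (nat_lit 408) (nat_lit 294)) (XT.lf (nat_lit 0) (nat_lit 17978608141) (nat_lit 152) (nat_lit 5846810515) (nat_lit 228) (nat_lit 2560870850) (nat_lit 76) (nat_lit 5) (nat_lit 78) (nat_lit 5) (nat_lit 79) (nat_lit 5) (nat_lit 499) (nat_lit 408) (nat_lit 293)))) (XT.nd (nat_lit 156) (nat_lit 152) (nat_lit 0) (XT.nd (nat_lit 78) (nat_lit 0) (nat_lit 0) (XT.lf (nat_lit 0) (nat_lit 4362389214) (nat_lit 228) (nat_lit 19941936787) (nat_lit 76) (nat_lit 2615639358) (nat_lit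 73) (nat_lit 5) (nat_lit 76) (nat_lit 5) (nat_lit 74) (nat_lit 5) (nat_lit 500) (nat_lit 408) (nat_lit 292)) (XT.lf (nat_lit 0) (nat_lit 11569711182) (nat_lit 228) (nat_lit 4582226943) (nat_lit 76) (nat_lit 11313118624) (nat_lit 73) (nat_lit 5) (nat_lit 76) (nat_lit 5) (nat_lit 74) (nat_lit 5) (nat_lit 501) (nat_lit 408) (nat_lit 291))) (XT.nd (nat_lit 78) (nat_lit 0) (nat_lit 0) (XT.lf (nat_lit 0) (nat_lit 11433522677) (nat_lit 152) (nat_lit 7654300374) (nat_lit 228) (nat_lit 8935841661) (nat_lit 71) (nat_lit 5) (nat_lit 73) (nat_lit 5) (nat_lit 74) (nat_lit 5) (nat_lit 502) (nat_lit 408) (nat_lit 290)) (XT.lf (nat_lit 0) (nat_lit 26873491323) (nat_lit 228) (nat_lit 612905770) (nat_lit 76) (nat_lit 1111374340) (nat_lit 71) (nat_lit 5) (nat_lit 74) (nat_lit 5) (nat_lit 72) (nat_lit 4) (nat_lit 503) (nat_lit 408) (nat_lit 289))))) (XT.nd (nat_lit 312) (nat_lit 304) (nat_lit 0) (XT.nd (nat_lit 156) (nat_lit 76) (nat_lit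 0) (XT.nd (nat_lit 78) (nat_lit 152) (nat_lit 0) (XT.lf (nat_lit 0) (nat_lit 5809737860) (nat_lit 228) (nat_lit 13185578172) (nat_lit 76) (nat_lit 10185619143) (nat_lit 68) (nat_lit 5) (nat_lit 71) (nat_lit 5) (nat_lit 69) (nat_lit 5) (nat_lit 504) (nat_lit 408) (nat_lit 288)) (XT.lf (nat_lit 0) (nat_lit 3354202778) (nat_lit 152) (nat_lit 10204609330) (nat_lit 228) (nat_lit 16221559631) (nat_lit 66) (nat_lit 5) (nat_lit 68) (nat_lit 5) (nat_lit 69) (nat_lit 5) (nat_lit 505) (nat_lit 408) (nat_lit 287))) (XT.nd (nat_lit 78) (nat_lit 76) (nat_lit 0) (XT.lf (nat_lit 0) (nat_lit 20633594747) (nat_lit 152) (nat_lit 1025284079) (nat_lit 228) (nat_lit 8735357777) (nat_lit 66) (nat_lit 5) (nat_lit 68) (nat_lit 5) (nat_lit 69) (nat_lit 5) (nat_lit 506) (nat_lit 408) (nat_lit 286)) (XT.lf (nat_lit 0) (nat_lit 7442651580) (nat_lit 76) (nat_lit 22697551574) (nat_lit 152) (nat_lit 882167376) (nat_lit 65) (nat_lit 5) (nat_lit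 66) (nat_lit 5) (nat_lit 67) (nat_lit 4) (nat_lit 507) (nat_lit 408) (nat_lit 285)))) (XT.nd (nat_lit 156) (nat_lit 76) (nat_lit 0) (XT.nd (nat_lit 78) (nat_lit 152) (nat_lit 0) (XT.lf (nat_lit 0) (nat_lit 7161390541) (nat_lit 152) (nat_lit 6411095779) (nat_lit 76) (nat_lit 18091922697) (nat_lit 64) (nat_lit 5) (nat_lit 66) (nat_lit 5) (nat_lit 65) (nat_lit 5) (nat_lit 508) (nat_lit 408) (nat_lit 284)) (XT.lf (nat_lit 0) (nat_lit 11461853625) (nat_lit 152) (nat_lit 4062973838) (nat_lit 228) (nat_lit 16797730796) (nat_lit 62) (nat_lit 5) (nat_lit 64) (nat_lit 5) (nat_lit 65) (nat_lit 5) (nat_lit 509) (nat_lit 408) (nat_lit 283))) (XT.nd (nat_lit 78) (nat_lit 76) (nat_lit 0) (XT.lf (nat_lit 0) (nat_lit 24245817875) (nat_lit 228) (nat_lit 3077544258) (nat_lit 76) (nat_lit 5673891032) (nat_lit 62) (nat_lit 5) (nat_lit 65) (nat_lit 5) (nat_lit 63) (nat_lit 4) (nat_lit 510) (nat_lit 408) (nat_lit 282)) (XT.lf (nat_lit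 0) (nat_lit 15475914721) (nat_lit 76) (nat_lit 17928089559) (nat_lit 152) (nat_lit 282918328) (nat_lit 61) (nat_lit 5) (nat_lit 62) (nat_lit 5) (nat_lit 63) (nat_lit 4) (nat_lit 511) (nat_lit 408) (nat_lit 281))))))))
noncomputable def xc118 : XT := (XT.nd (nat_lit 2340) (nat_lit 456) (nat_lit 0) (XT.nd (nat_lit 1170) (nat_lit 836) (nat_lit 0) (XT.nd (nat_lit 546) (nat_lit 608) (nat_lit 0) (XT.nd (nat_lit 234) (nat_lit 304) (nat_lit 0) (XT.nd (nat_lit 78) (nat_lit 76) (nat_lit 0) (XT.lf (nat_lit 0) (nat_lit 149208796) (nat_lit 152) (nat_lit 8145172695) (nat_lit 228) (nat_lit 26099885008) (nat_lit 58) (nat_lit 5) (nat_lit 60) (nat_lit 5) (nat_lit 61) (nat_lit 5) (nat_lit 512) (nat_lit 408) (nat_lit 280)) (XT.nd (nat_lit 78) (nat_lit 76) (nat_lit 0) (XT.lf (nat_lit 0) (nat_lit 17314232781) (nat_lit 228) (nat_lit 15731985251) (nat_lit 76) (nat_lit 2070801694) (nat_lit 58) (nat_lit 5) (nat_lit 61) (nat_lit 5) (nat_lit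 59) (nat_lit 4) (nat_lit 513) (nat_lit 408) (nat_lit 279)) (XT.lf (nat_lit 0) (nat_lit 3295851828) (nat_lit 76) (nat_lit 23408182424) (nat_lit 152) (nat_lit 9154441260) (nat_lit 57) (nat_lit 5) (nat_lit 58) (nat_lit 5) (nat_lit 59) (nat_lit 4) (nat_lit 514) (nat_lit 408) (nat_lit 278)))) (XT.nd (nat_lit 156) (nat_lit 76) (nat_lit 0) (XT.nd (nat_lit 78) (nat_lit 228) (nat_lit 0) (XT.lf (nat_lit 0) (nat_lit 23192956280) (nat_lit 76) (nat_lit 13328609894) (nat_lit 152) (nat_lit 96228292) (nat_lit 57) (nat_lit 5) (nat_lit 58) (nat_lit 5) (nat_lit 59) (nat_lit 4) (nat_lit 515) (nat_lit 408) (nat_lit 277)) (XT.lf (nat_lit 0) (nat_lit 6297601355) (nat_lit 152) (nat_lit 2803906675) (nat_lit 228) (nat_lit 28294283890) (nat_lit 54) (nat_lit 5) (nat_lit 56) (nat_lit 5) (nat_lit 57) (nat_lit 5) (nat_lit 516) (nat_lit 408) (nat_lit 276))) (XT.nd (nat_lit 78) (nat_lit 76) (nat_lit 0) (XT.lf (nat_lit 0) (nat_lit 18774861555)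 (nat_lit 228) (nat_lit 11409344424) (nat_lit 76) (nat_lit 8006846698) (nat_lit 54) (nat_lit 5) (nat_lit 57) (nat_lit 5) (nat_lit 55) (nat_lit 4) (nat_lit 517) (nat_lit 408) (nat_lit 275)) (XT.lf (nat_lit 0) (nat_lit 8994973604) (nat_lit 76) (nat_lit 19845494275) (nat_lit 152) (nat_lit 10166642329) (nat_lit 53) (nat_lit 5) (nat_lit 54) (nat_lit 5) (nat_lit 55) (nat_lit 4) (nat_lit 518) (nat_lit 408) (nat_lit 274))))) (XT.nd (nat_lit 312) (nat_lit 304) (nat_lit 0) (XT.nd (nat_lit 156) (nat_lit 76) (nat_lit 0) (XT.nd (nat_lit 78) (nat_lit 228) (nat_lit 0) (XT.lf (nat_lit 0) (nat_lit 30222570232) (nat_lit 76) (nat_lit 9088645812) (nat_lit 152) (nat_lit 533338718) (nat_lit 53) (nat_lit 5) (nat_lit 54) (nat_lit 5) (nat_lit 55) (nat_lit 4) (nat_lit 519) (nat_lit 408) (nat_lit 273)) (XT.lf (nat_lit 0) (nat_lit 9325435620) (nat_lit 228) (nat_lit 29230923269) (nat_lit 76) (nat_lit 2144466141) (nat_lit 50) (nat_lit 5) (nat_lit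 53) (nat_lit 5) (nat_lit 51) (nat_lit 4) (nat_lit 520) (nat_lit 408) (nat_lit 272))) (XT.nd (nat_lit 78) (nat_lit 76) (nat_lit 0) (XT.lf (nat_lit 0) (nat_lit 19645592863) (nat_lit 228) (nat_lit 8306648299) (nat_lit 76) (nat_lit 13625094110) (nat_lit 50) (nat_lit 5) (nat_lit 53) (nat_lit 5) (nat_lit 51) (nat_lit 4) (nat_lit 521) (nat_lit 408) (nat_lit 271)) (XT.lf (nat_lit 0) (nat_lit 13486845941) (nat_lit 76) (nat_lit 16906723058) (nat_lit 152) (nat_lit 12083025848) (nat_lit 49) (nat_lit 5) (nat_lit 50) (nat_lit 5) (nat_lit 51) (nat_lit 4) (nat_lit 522) (nat_lit 408) (nat_lit 270)))) (XT.nd (nat_lit 156) (nat_lit 76) (nat_lit 0) (XT.nd (nat_lit 78) (nat_lit 228) (nat_lit 0) (XT.lf (nat_lit 0) (nat_lit 36082949845) (nat_lit 76) (nat_lit 5453612284) (nat_lit 152) (nat_lit 1864093182) (nat_lit 49) (nat_lit 5) (nat_lit 50) (nat_lit 5) (nat_lit 51) (nat_lit 4) (nat_lit 523) (nat_lit 408) (nat_lit 269)) (XT.lf (nat_lit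 0) (nat_lit 8690537691) (nat_lit 228) (nat_lit 29212324394) (nat_lit 76) (nat_lit 6441133788) (nat_lit 46) (nat_lit 5) (nat_lit 49) (nat_lit 5) (nat_lit 47) (nat_lit 4) (nat_lit 524) (nat_lit 408) (nat_lit 268))) (XT.nd (nat_lit 78) (nat_lit 76) (nat_lit 0) (XT.lf (nat_lit 0) (nat_lit 19641907415) (nat_lit 228) (nat_lit 7003164796) (nat_lit 76) (nat_lit 18666484157) (nat_lit 46) (nat_lit 5) (nat_lit 49) (nat_lit 5) (nat_lit 47) (nat_lit 4) (nat_lit 525) (nat_lit 408) (nat_lit 267)) (XT.lf (nat_lit 0) (nat_lit 16167269361) (nat_lit 76) (nat_lit 14899224654) (nat_lit 152) (nat_lit 15237309776) (nat_lit 45) (nat_lit 5) (nat_lit 46) (nat_lit 5) (nat_lit 47) (nat_lit 4) (nat_lit 526) (nat_lit 408) (nat_lit 266)))))) (XT.nd (nat_lit 546) (nat_lit 456) (nat_lit 0) (XT.nd (nat_lit 234) (nat_lit 228) (nat_lit 0) (XT.nd (nat_lit 78) (nat_lit 152) (nat_lit 0) (XT.lf (nat_lit 0) (nat_lit 40156093473) (nat_lit 76) (nat_lit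 2737826759) (nat_lit 152) (nat_lit 4430095720) (nat_lit 45) (nat_lit 5) (nat_lit 46) (nat_lit 5) (nat_lit 47) (nat_lit 4) (nat_lit 527) (nat_lit 408) (nat_lit 265)) (XT.nd (nat_lit 78) (nat_lit 0) (nat_lit 0) (XT.lf (nat_lit 0) (nat_lit 6817226994) (nat_lit 152) (nat_lit 31732687836) (nat_lit 76) (nat_lit 9815587699) (nat_lit 43) (nat_lit 5) (nat_lit 45) (nat_lit 5) (nat_lit 44) (nat_lit 4) (nat_lit 528) (nat_lit 408) (nat_lit 264)) (XT.lf (nat_lit 0) (nat_lit 18402748616) (nat_lit 152) (nat_lit 8233160662) (nat_lit 76) (nat_lit 22798314307) (nat_lit 43) (nat_lit 5) (nat_lit 45) (nat_lit 5) (nat_lit 44) (nat_lit 4) (nat_lit 529) (nat_lit 408) (nat_lit 263)))) (XT.nd (nat_lit 156) (nat_lit 152) (nat_lit 0) (XT.nd (nat_lit 78) (nat_lit 0) (nat_lit 0) (XT.lf (nat_lit 0) (nat_lit 16269487262) (nat_lit 76) (nat_lit 14212657346) (nat_lit 152) (nat_lit 20048472735) (nat_lit 42) (nat_lit 5) (nat_lit 43) (nat_lit 5) (nat_lit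 44) (nat_lit 4) (nat_lit 530) (nat_lit 408) (nat_lit 262)) (XT.lf (nat_lit 0) (nat_lit 41656834609) (nat_lit 76) (nat_lit 1340252707) (nat_lit 152) (nat_lit 8660620979) (nat_lit 42) (nat_lit 5) (nat_lit 43) (nat_lit 5) (nat_lit 44) (nat_lit 4) (nat_lit 531) (nat_lit 408) (nat_lit 261))) (XT.nd (nat_lit 78) (nat_lit 0) (nat_lit 0) (XT.lf (nat_lit 0) (nat_lit 3261883684) (nat_lit 152) (nat_lit 37693633516) (nat_lit 76) (nat_lit 11854623024) (nat_lit 40) (nat_lit 5) (nat_lit 42) (nat_lit 5) (nat_lit 41) (nat_lit 4) (nat_lit 532) (nat_lit 408) (nat_lit 260)) (XT.lf (nat_lit 0) (nat_lit 15473493046) (nat_lit 152) (nat_lit 12920526569) (nat_lit 76) (nat_lit 25597388348) (nat_lit 40) (nat_lit 5) (nat_lit 42) (nat_lit 5) (nat_lit 41) (nat_lit 4) (nat_lit 533) (nat_lit 408) (nat_lit 259))))) (XT.nd (nat_lit 312) (nat_lit 228) (nat_lit 0) (XT.nd (nat_lit 156) (nat_lit 152) (nat_lit 0) (XT.nd (nat_lit 78) (nat_lit 0) (nat_lit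 0) (XT.lf (nat_lit 0) (nat_lit 12827829272) (nat_lit 76) (nat_lit 15337455144) (nat_lit 152) (nat_lit 27039414594) (nat_lit 39) (nat_lit 5) (nat_lit 40) (nat_lit 5) (nat_lit 41) (nat_lit 4) (nat_lit 534) (nat_lit 408) (nat_lit 258)) (XT.lf (nat_lit 0) (nat_lit 39595411486) (nat_lit 76) (nat_lit 1763516968) (nat_lit 152) (nat_lit 15091827647) (nat_lit 39) (nat_lit 5) (nat_lit 40) (nat_lit 5) (nat_lit 41) (nat_lit 4) (nat_lit 535) (nat_lit 408) (nat_lit 257))) (XT.nd (nat_lit 78) (nat_lit 76) (nat_lit 0) (XT.lf (nat_lit 0) (nat_lit 9481656354) (nat_lit 76) (nat_lit 45666131027) (nat_lit 76) (nat_lit 2580425627) (nat_lit 38) (nat_lit 4) (nat_lit 39) (nat_lit 5) (nat_lit 39) (nat_lit 4) (nat_lit 536) (nat_lit 408) (nat_lit 256)) (XT.lf (nat_lit 0) (nat_lit 10285383723) (nat_lit 152) (nat_lit 22220575031) (nat_lit 76) (nat_lit 26529657644) (nat_lit 37) (nat_lit 5) (nat_lit 39) (nat_lit 5) (nat_lit 38) (nat_lit 4) (nat_lit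 537) (nat_lit 408) (nat_lit 255)))) (XT.nd (nat_lit 156) (nat_lit 152) (nat_lit 0) (XT.nd (nat_lit 78) (nat_lit 0) (nat_lit 0) (XT.lf (nat_lit 0) (nat_lit 4633820409) (nat_lit 76) (nat_lit 18887120200) (nat_lit 152) (nat_lit 36859465949) (nat_lit 36) (nat_lit 5) (nat_lit 37) (nat_lit 5) (nat_lit 38) (nat_lit 4) (nat_lit 538) (nat_lit 408) (nat_lit 254)) (XT.lf (nat_lit 0) (nat_lit 32732277341) (nat_lit 76) (nat_lit 4636860542) (nat_lit 152) (nat_lit 24389935570) (nat_lit 36) (nat_lit 5) (nat_lit 37) (nat_lit 5) (nat_lit 38) (nat_lit 4) (nat_lit 539) (nat_lit 408) (nat_lit 253))) (XT.nd (nat_lit 78) (nat_lit 152) (nat_lit 0) (XT.lf (nat_lit 0) (nat_lit 51720669390) (nat_lit 152) (nat_lit 1618684660) (nat_lit 0) (nat_lit 9837109890) (nat_lit 36) (nat_lit 5) (nat_lit 38) (nat_lit 4) (nat_lit 36) (nat_lit 4) (nat_lit 540) (nat_lit 408) (nat_lit 252)) (XT.lf (nat_lit 0) (nat_lit 2130718611) (nat_lit 152) (nat_lit 37570448546)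 (nat_lit 76) (nat_lit 24925647958) (nat_lit 34) (nat_lit 5) (nat_lit 36) (nat_lit 5) (nat_lit 35) (nat_lit 4) (nat_lit 541) (nat_lit 408) (nat_lit 251))))))) (XT.nd (nat_lit 52494) (nat_lit 0) (nat_lit 20672) (XT.nd (nat_lit 546) (nat_lit 152) (nat_lit 0) (XT.nd (nat_lit 234) (nat_lit 228) (nat_lit 0) (XT.nd (nat_lit 78) (nat_lit 76) (nat_lit 0) (XT.lf (nat_lit 0) (nat_lit 15902711734) (nat_lit 152) (nat_lit 9625193602) (nat_lit 76) (nat_lit 40589124951) (nat_lit 34) (nat_lit 5) (nat_lit 36) (nat_lit 5) (nat_lit 35) (nat_lit 4) (nat_lit 542) (nat_lit 408) (nat_lit 250)) (XT.nd (nat_lit 78) (nat_lit 0) (nat_lit 0) (XT.lf (nat_lit 0) (nat_lit 19523596243) (nat_lit 76) (nat_lit 10743812338) (nat_lit 152) (nat_lit 37379157224) (nat_lit 33) (nat_lit 5) (nat_lit 34) (nat_lit 5) (nat_lit 35) (nat_lit 4) (nat_lit 543) (nat_lit 408) (nat_lit 249)) (XT.lf (nat_lit 0) (nat_lit 45196189811) (nat_lit 152) (nat_lit 19534790049)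 (nat_lit 0) (nat_lit 4487013426) (nat_lit 33) (nat_lit 5) (nat_lit 35) (nat_lit 4) (nat_lit 33) (nat_lit 4) (nat_lit 544) (nat_lit 408) (nat_lit 248)))) (XT.nd (nat_lit 156) (nat_lit 76) (nat_lit 0) (XT.nd (nat_lit 78) (nat_lit 76) (nat_lit 0) (XT.lf (nat_lit 0) (nat_lit 9984135505) (nat_lit 76) (nat_lit 50783167843) (nat_lit 76) (nat_lit 10063426373) (nat_lit 32) (nat_lit 4) (nat_lit 33) (nat_lit 5) (nat_lit 33) (nat_lit 4) (nat_lit 545) (nat_lit 408) (nat_lit 247)) (XT.lf (nat_lit 0) (nat_lit 4420869223) (nat_lit 152) (nat_lit 31755634310) (nat_lit 76) (nat_lit 36308360632) (nat_lit 31) (nat_lit 5) (nat_lit 33) (nat_lit 5) (nat_lit 32) (nat_lit 4) (nat_lit 546) (nat_lit 408) (nat_lit 246))) (XT.nd (nat_lit 78) (nat_lit 76) (nat_lit 0) (XT.lf (nat_lit 0) (nat_lit 19129784966) (nat_lit 152) (nat_lit 1906493957) (nat_lit 76) (nat_lit 53149584075) (nat_lit 31) (nat_lit 5) (nat_lit 33) (nat_lit 5) (nat_lit 32) (nat_lit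 4) (nat_lit 547) (nat_lit 408) (nat_lit 245)) (XT.lf (nat_lit 0) (nat_lit 29397291466) (nat_lit 76) (nat_lit 5157840284) (nat_lit 152) (nat_lit 41374505313) (nat_lit 30) (nat_lit 5) (nat_lit 31) (nat_lit 5) (nat_lit 32) (nat_lit 4) (nat_lit 548) (nat_lit 408) (nat_lit 244))))) (XT.nd (nat_lit 51636) (nat_lit 0) (nat_lit 25992) (XT.nd (nat_lit 156) (nat_lit 76) (nat_lit 0) (XT.nd (nat_lit 78) (nat_lit 76) (nat_lit 0) (XT.lf (nat_lit 0) (nat_lit 50562903325) (nat_lit 152) (nat_lit 16168185152) (nat_lit 0) (nat_lit 10991046112) (nat_lit 30) (nat_lit 5) (nat_lit 32) (nat_lit 4) (nat_lit 30) (nat_lit 4) (nat_lit 549) (nat_lit 408) (nat_lit 243)) (XT.lf (nat_lit 0) (nat_lit 15341127496) (nat_lit 76) (nat_lit 51901122379) (nat_lit 76) (nat_lit 12320417074) (nat_lit 29) (nat_lit 4) (nat_lit 30) (nat_lit 5) (nat_lit 30) (nat_lit 4) (nat_lit 550) (nat_lit 408) (nat_lit 242))) (XT.nd (nat_lit 51402) (nat_lit 0) (nat_lit 26600)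 (XT.lf (nat_lit 0) (nat_lit 3063426077) (nat_lit 152) (nat_lit 33370540749) (nat_lit 76) (nat_lit 45018863153) (nat_lit 28) (nat_lit 5) (nat_lit 30) (nat_lit 5) (nat_lit 29) (nat_lit 4) (nat_lit 551) (nat_lit 408) (nat_lit 241)) (XT.lf (nat_lit 0) (nat_lit 496754879) (nat_lit 684) (nat_lit 1448172981) (nat_lit 684) (nat_lit 1448172981) (nat_lit 378) (nat_lit 3) (nat_lit 387) (nat_lit 3) (nat_lit 387) (nat_lit 5) (nat_lit 409) (nat_lit 409) (nat_lit 382)))) (XT.nd (nat_lit 156) (nat_lit 608) (nat_lit 0) (XT.nd (nat_lit 78) (nat_lit 0) (nat_lit 0) (XT.lf (nat_lit 76) (nat_lit 450778075) (nat_lit 0) (nat_lit 2604050927) (nat_lit 684) (nat_lit 3771094338) (nat_lit 379) (nat_lit 5) (nat_lit 378) (nat_lit 3) (nat_lit 387) (nat_lit 5) (nat_lit 410) (nat_lit 409) (nat_lit 381)) (XT.lf (nat_lit 76) (nat_lit 3915813867) (nat_lit 0) (nat_lit 1211322042) (nat_lit 684) (nat_lit 1741252788) (nat_lit 379) (nat_lit 5) (nat_lit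 378) (nat_lit 3) (nat_lit 387) (nat_lit 5) (nat_lit 411) (nat_lit 409) (nat_lit 380))) (XT.nd (nat_lit 78) (nat_lit 0) (nat_lit 0) (XT.lf (nat_lit 0) (nat_lit 271849114) (nat_lit 684) (nat_lit 6379273090) (nat_lit 760) (nat_lit 263054459) (nat_lit 370) (nat_lit 5) (nat_lit 379) (nat_lit 5) (nat_lit 380) (nat_lit 5) (nat_lit 412) (nat_lit 409) (nat_lit 379)) (XT.lf (nat_lit 0) (nat_lit 2276109880) (nat_lit 684) (nat_lit 2846929614) (nat_lit 760) (nat_lit 1838832916) (nat_lit 370) (nat_lit 5) (nat_lit 379) (nat_lit 5) (nat_lit 380) (nat_lit 5) (nat_lit 413) (nat_lit 409) (nat_lit 378)))))) (XT.nd (nat_lit 624) (nat_lit 3876) (nat_lit 0) (XT.nd (nat_lit 312) (nat_lit 760) (nat_lit 0) (XT.nd (nat_lit 156) (nat_lit 684) (nat_lit 0) (XT.nd (nat_lit 78) (nat_lit 0) (nat_lit 0) (XT.lf (nat_lit 76) (nat_lit 763082012) (nat_lit 0) (nat_lit 3510634734) (nat_lit 760) (nat_lit 2739309277) (nat_lit 371) (nat_lit 5) (nat_lit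 370) (nat_lit 5) (nat_lit 380) (nat_lit 5) (nat_lit 414) (nat_lit 409) (nat_lit 377)) (XT.lf (nat_lit 76) (nat_lit 4496984080) (nat_lit 0) (nat_lit 1790646834) (nat_lit 760) (nat_lit 779414811) (nat_lit 371) (nat_lit 5) (nat_lit 370) (nat_lit 5) (nat_lit 380) (nat_lit 5) (nat_lit 415) (nat_lit 409) (nat_lit 376))) (XT.nd (nat_lit 78) (nat_lit 0) (nat_lit 0) (XT.lf (nat_lit 0) (nat_lit 1155857042) (nat_lit 760) (nat_lit 5935914447) (nat_lit 836) (nat_lit 32355792) (nat_lit 361) (nat_lit 5) (nat_lit 371) (nat_lit 5) (nat_lit 372) (nat_lit 5) (nat_lit 416) (nat_lit 409) (nat_lit 375)) (XT.lf (nat_lit 0) (nat_lit 3108397343) (nat_lit 760) (nat_lit 2140820994) (nat_lit 836) (nat_lit 1934246079) (nat_lit 361) (nat_lit 5) (nat_lit 371) (nat_lit 5) (nat_lit 372) (nat_lit 5) (nat_lit 417) (nat_lit 409) (nat_lit 374)))) (XT.nd (nat_lit 156) (nat_lit 760) (nat_lit 0) (XT.nd (nat_lit 78) (nat_lit 0) (nat_lit 0) (XT.lf (nat_lit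 76) (nat_lit 1758860095) (nat_lit 0) (nat_lit 3310509582) (nat_lit 836) (nat_lit 2176736620) (nat_lit 362) (nat_lit 5) (nat_lit 361) (nat_lit 5) (nat_lit 372) (nat_lit 5) (nat_lit 418) (nat_lit 409) (nat_lit 373)) (XT.lf (nat_lit 76) (nat_lit 5776256808) (nat_lit 0) (nat_lit 1269019130) (nat_lit 836) (nat_lit 266688067) (nat_lit 362) (nat_lit 5) (nat_lit 361) (nat_lit 5) (nat_lit 372) (nat_lit 5) (nat_lit 419) (nat_lit 409) (nat_lit 372))) (XT.nd (nat_lit 78) (nat_lit 0) (nat_lit 0) (XT.lf (nat_lit 0) (nat_lit 1636103899) (nat_lit 836) (nat_lit 4865059648) (nat_lit 912) (nat_lit 879103207) (nat_lit 351) (nat_lit 5) (nat_lit 362) (nat_lit 5) (nat_lit 363) (nat_lit 5) (nat_lit 420) (nat_lit 409) (nat_lit 371)) (XT.lf (nat_lit 0) (nat_lit 3556244166) (nat_lit 836) (nat_lit 791253144) (nat_lit 912) (nat_lit 3104091360) (nat_lit 351) (nat_lit 5) (nat_lit 362) (nat_lit 5) (nat_lit 363) (nat_lit 5) (nat_lit 421) (nat_lit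 409) (nat_lit 370))))) (XT.nd (nat_lit 312) (nat_lit 2128) (nat_lit 0) (XT.nd (nat_lit 156) (nat_lit 988) (nat_lit 0) (XT.nd (nat_lit 78) (nat_lit 760) (nat_lit 0) (XT.lf (nat_lit 76) (nat_lit 3428098454) (nat_lit 0) (nat_lit 2078065487) (nat_lit 912) (nat_lit 2019738562) (nat_lit 352) (nat_lit 5) (nat_lit 351) (nat_lit 5) (nat_lit 363) (nat_lit 5) (nat_lit 422) (nat_lit 409) (nat_lit 369)) (XT.lf (nat_lit 0) (nat_lit 143172412) (nat_lit 836) (nat_lit 7324082792) (nat_lit 912) (nat_lit 136627334) (nat_lit 341) (nat_lit 5) (nat_lit 352) (nat_lit 5) (nat_lit 353) (nat_lit 5) (nat_lit 423) (nat_lit 409) (nat_lit 368))) (XT.nd (nat_lit 78) (nat_lit 912) (nat_lit 0) (XT.lf (nat_lit 0) (nat_lit 1771600315) (nat_lit 912) (nat_lit 3171729521) (nat_lit 76) (nat_lit 2740254058) (nat_lit 340) (nat_lit 5) (nat_lit 352) (nat_lit 5) (nat_lit 341) (nat_lit 5) (nat_lit 424) (nat_lit 409) (nat_lit 367)) (XT.lf (nat_lit 0) (nat_lit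 1223954283) (nat_lit 912) (nat_lit 2465286701) (nat_lit 988) (nat_lit 4077762919) (nat_lit 328) (nat_lit 5) (nat_lit 340) (nat_lit 5) (nat_lit 341) (nat_lit 5) (nat_lit 425) (nat_lit 409) (nat_lit 366)))) (XT.nd (nat_lit 156) (nat_lit 1140) (nat_lit 0) (XT.nd (nat_lit 78) (nat_lit 988) (nat_lit 0) (XT.lf (nat_lit 0) (nat_lit 5642083831) (nat_lit 988) (nat_lit 2082449901) (nat_lit 76) (nat_lit 129077701) (nat_lit 328) (nat_lit 5) (nat_lit 341) (nat_lit 5) (nat_lit 329) (nat_lit 5) (nat_lit 426) (nat_lit 409) (nat_lit 365)) (XT.lf (nat_lit 0) (nat_lit 2491660065) (nat_lit 988) (nat_lit 5156319185) (nat_lit 1064) (nat_lit 295018591) (nat_lit 315) (nat_lit 5) (nat_lit 328) (nat_lit 5) (nat_lit 329) (nat_lit 5) (nat_lit 427) (nat_lit 409) (nat_lit 364))) (XT.nd (nat_lit 78) (nat_lit 1064) (nat_lit 0) (XT.lf (nat_lit 0) (nat_lit 1614176369) (nat_lit 1064) (nat_lit 850259131) (nat_lit 76) (nat_lit 5571121373) (nat_lit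 314) (nat_lit 5) (nat_lit 328) (nat_lit 5) (nat_lit 315) (nat_lit 5) (nat_lit 428) (nat_lit 409) (nat_lit 363)) (XT.lf (nat_lit 0) (nat_lit 3564094280) (nat_lit 1140) (nat_lit 4216127480) (nat_lit 76) (nat_lit 350915408) (nat_lit 300) (nat_lit 5) (nat_lit 315) (nat_lit 5) (nat_lit 301) (nat_lit 5) (nat_lit 429) (nat_lit 409) (nat_lit 362))))))))
noncomputable def xc119 : XT := (XT.nd (nat_lit 2340) (nat_lit 5320) (nat_lit 0) (XT.nd (nat_lit 1170) (nat_lit 3952) (nat_lit 0) (XT.nd (nat_lit 546) (nat_lit 2812) (nat_lit 0) (XT.nd (nat_lit 234) (nat_lit 1444) (nat_lit 0) (XT.nd (nat_lit 78) (nat_lit 1292) (nat_lit 0) (XT.lf (nat_lit 0) (nat_lit 552622365) (nat_lit 1140) (nat_lit 5007698536) (nat_lit 1216) (nat_lit 2669642672) (nat_lit 285) (nat_lit 5) (nat_lit 300) (nat_lit 5) (nat_lit 301) (nat_lit 5) (nat_lit 430) (nat_lit 409) (nat_lit 361)) (XT.nd (nat_lit 78) (nat_lit 1292) (nat_lit 0) (XT.lf (nat_lit 0) (nat_lit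 5506287824) (nat_lit 1140) (nat_lit 2103193347) (nat_lit 1216) (nat_lit 722494846) (nat_lit 285) (nat_lit 5) (nat_lit 300) (nat_lit 5) (nat_lit 301) (nat_lit 5) (nat_lit 431) (nat_lit 409) (nat_lit 360)) (XT.lf (nat_lit 0) (nat_lit 1239100601) (nat_lit 1292) (nat_lit 6289416910) (nat_lit 76) (nat_lit 908741129) (nat_lit 268) (nat_lit 5) (nat_lit 285) (nat_lit 5) (nat_lit 269) (nat_lit 5) (nat_lit 432) (nat_lit 409) (nat_lit 359)))) (XT.nd (nat_lit 156) (nat_lit 684) (nat_lit 0) (XT.nd (nat_lit 78) (nat_lit 760) (nat_lit 0) (XT.lf (nat_lit 0) (nat_lit 3247118929) (nat_lit 1292) (nat_lit 1289896956) (nat_lit 76) (nat_lit 4008417942) (nat_lit 268) (nat_lit 5) (nat_lit 285) (nat_lit 5) (nat_lit 269) (nat_lit 5) (nat_lit 433) (nat_lit 409) (nat_lit 358)) (XT.lf (nat_lit 0) (nat_lit 3891571445) (nat_lit 760) (nat_lit 1415055620) (nat_lit 836) (nat_lit 3350500968) (nat_lit 258) (nat_lit 5) (nat_lit 268) (nat_lit 5) (nat_lit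 269) (nat_lit 5) (nat_lit 434) (nat_lit 409) (nat_lit 357))) (XT.nd (nat_lit 78) (nat_lit 76) (nat_lit 0) (XT.lf (nat_lit 0) (nat_lit 429151702) (nat_lit 608) (nat_lit 6988139706) (nat_lit 684) (nat_lit 1355211445) (nat_lit 250) (nat_lit 5) (nat_lit 258) (nat_lit 5) (nat_lit 259) (nat_lit 5) (nat_lit 435) (nat_lit 409) (nat_lit 356)) (XT.lf (nat_lit 0) (nat_lit 704111419) (nat_lit 684) (nat_lit 3079109575) (nat_lit 76) (nat_lit 5107391376) (nat_lit 249) (nat_lit 5) (nat_lit 258) (nat_lit 5) (nat_lit 250) (nat_lit 5) (nat_lit 436) (nat_lit 409) (nat_lit 355))))) (XT.nd (nat_lit 312) (nat_lit 1064) (nat_lit 0) (XT.nd (nat_lit 156) (nat_lit 1140) (nat_lit 0) (XT.nd (nat_lit 78) (nat_lit 0) (nat_lit 0) (XT.lf (nat_lit 0) (nat_lit 2331061054) (nat_lit 608) (nat_lit 445849519) (nat_lit 684) (nat_lit 6235594000) (nat_lit 241) (nat_lit 5) (nat_lit 249) (nat_lit 5) (nat_lit 250) (nat_lit 5) (nat_lit 437) (nat_lit 409) (nat_lit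 354)) (XT.lf (nat_lit 0) (nat_lit 4929416488) (nat_lit 684) (nat_lit 1244444965) (nat_lit 76) (nat_lit 2963676105) (nat_lit 241) (nat_lit 5) (nat_lit 250) (nat_lit 5) (nat_lit 242) (nat_lit 5) (nat_lit 438) (nat_lit 409) (nat_lit 353))) (XT.nd (nat_lit 78) (nat_lit 608) (nat_lit 0) (XT.lf (nat_lit 0) (nat_lit 4393373534) (nat_lit 532) (nat_lit 2758376463) (nat_lit 608) (nat_lit 2114423378) (nat_lit 234) (nat_lit 5) (nat_lit 241) (nat_lit 5) (nat_lit 242) (nat_lit 5) (nat_lit 439) (nat_lit 409) (nat_lit 352)) (XT.lf (nat_lit 0) (nat_lit 28095762) (nat_lit 608) (nat_lit 8608166907) (nat_lit 76) (nat_lit 762797384) (nat_lit 226) (nat_lit 5) (nat_lit 234) (nat_lit 5) (nat_lit 227) (nat_lit 5) (nat_lit 440) (nat_lit 409) (nat_lit 351)))) (XT.nd (nat_lit 156) (nat_lit 532) (nat_lit 0) (XT.nd (nat_lit 78) (nat_lit 532) (nat_lit 0) (XT.lf (nat_lit 0) (nat_lit 2229125802) (nat_lit 608) (nat_lit 2903561478) (nat_lit 76)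 (nat_lit 4401524627) (nat_lit 226) (nat_lit 5) (nat_lit 234) (nat_lit 5) (nat_lit 227) (nat_lit 5) (nat_lit 441) (nat_lit 409) (nat_lit 350)) (XT.lf (nat_lit 0) (nat_lit 2987017016) (nat_lit 532) (nat_lit 1498785259) (nat_lit 608) (nat_lit 5187935942) (nat_lit 219) (nat_lit 5) (nat_lit 226) (nat_lit 5) (nat_lit 227) (nat_lit 5) (nat_lit 442) (nat_lit 409) (nat_lit 349))) (XT.nd (nat_lit 78) (nat_lit 532) (nat_lit 0) (XT.lf (nat_lit 0) (nat_lit 6822944532) (nat_lit 608) (nat_lit 768741071) (nat_lit 76) (nat_lit 2225389871) (nat_lit 219) (nat_lit 5) (nat_lit 227) (nat_lit 5) (nat_lit 220) (nat_lit 5) (nat_lit 443) (nat_lit 409) (nat_lit 348)) (XT.lf (nat_lit 0) (nat_lit 5373948657) (nat_lit 532) (nat_lit 3885451405) (nat_lit 608) (nat_lit 704444700) (nat_lit 212) (nat_lit 5) (nat_lit 219) (nat_lit 5) (nat_lit 220) (nat_lit 5) (nat_lit 444) (nat_lit 409) (nat_lit 347)))))) (XT.nd (nat_lit 546) (nat_lit 1976) (nat_lit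 0) (XT.nd (nat_lit 234) (nat_lit 988) (nat_lit 0) (XT.nd (nat_lit 78) (nat_lit 456) (nat_lit 0) (XT.lf (nat_lit 0) (nat_lit 1573442438) (nat_lit 456) (nat_lit 34190274) (nat_lit 532) (nat_lit 8507335650) (nat_lit 205) (nat_lit 5) (nat_lit 211) (nat_lit 5) (nat_lit 212) (nat_lit 5) (nat_lit 445) (nat_lit 409) (nat_lit 346)) (XT.nd (nat_lit 78) (nat_lit 456) (nat_lit 0) (XT.lf (nat_lit 0) (nat_lit 4023139078) (nat_lit 532) (nat_lit 2342492591) (nat_lit 76) (nat_lit 3903345219) (nat_lit 205) (nat_lit 5) (nat_lit 212) (nat_lit 5) (nat_lit 206) (nat_lit 5) (nat_lit 446) (nat_lit 409) (nat_lit 345)) (XT.lf (nat_lit 0) (nat_lit 4079259060) (nat_lit 456) (nat_lit 2436076967) (nat_lit 532) (nat_lit 3912149885) (nat_lit 199) (nat_lit 5) (nat_lit 205) (nat_lit 5) (nat_lit 206) (nat_lit 5) (nat_lit 447) (nat_lit 409) (nat_lit 344)))) (XT.nd (nat_lit 156) (nat_lit 456) (nat_lit 0) (XT.nd (nat_lit 78) (nat_lit 76) (nat_lit 0)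 (XT.lf (nat_lit 0) (nat_lit 94690499) (nat_lit 456) (nat_lit 8993124472) (nat_lit 532) (nat_lit 1502776556) (nat_lit 193) (nat_lit 5) (nat_lit 199) (nat_lit 5) (nat_lit 200) (nat_lit 5) (nat_lit 448) (nat_lit 409) (nat_lit 343)) (XT.lf (nat_lit 0) (nat_lit 1014121106) (nat_lit 532) (nat_lit 3973149348) (nat_lit 76) (nat_lit 5769413643) (nat_lit 192) (nat_lit 5) (nat_lit 199) (nat_lit 5) (nat_lit 193) (nat_lit 5) (nat_lit 449) (nat_lit 409) (nat_lit 342))) (XT.nd (nat_lit 78) (nat_lit 0) (nat_lit 0) (XT.lf (nat_lit 0) (nat_lit 2741825169) (nat_lit 456) (nat_lit 827343234) (nat_lit 532) (nat_lit 7358365488) (nat_lit 186) (nat_lit 5) (nat_lit 192) (nat_lit 5) (nat_lit 193) (nat_lit 5) (nat_lit 450) (nat_lit 409) (nat_lit 341)) (XT.lf (nat_lit 0) (nat_lit 6241602204) (nat_lit 532) (nat_lit 1438823766) (nat_lit 76) (nat_lit 3421867199) (nat_lit 186) (nat_lit 5) (nat_lit 193) (nat_lit 5) (nat_lit 187) (nat_lit 5) (nat_lit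 451) (nat_lit 409) (nat_lit 340))))) (XT.nd (nat_lit 312) (nat_lit 760) (nat_lit 0) (XT.nd (nat_lit 156) (nat_lit 380) (nat_lit 0) (XT.nd (nat_lit 78) (nat_lit 456) (nat_lit 0) (XT.lf (nat_lit 0) (nat_lit 5569618669) (nat_lit 380) (nat_lit 3454264487) (nat_lit 456) (nat_lit 2257527712) (nat_lit 181) (nat_lit 5) (nat_lit 186) (nat_lit 5) (nat_lit 187) (nat_lit 5) (nat_lit 452) (nat_lit 409) (nat_lit 339)) (XT.lf (nat_lit 0) (nat_lit 419968466) (nat_lit 456) (nat_lit 10142219537) (nat_lit 76) (nat_lit 903462236) (nat_lit 175) (nat_lit 5) (nat_lit 181) (nat_lit 5) (nat_lit 176) (nat_lit 5) (nat_lit 453) (nat_lit 409) (nat_lit 338))) (XT.nd (nat_lit 78) (nat_lit 380) (nat_lit 0) (XT.lf (nat_lit 0) (nat_lit 3193468290) (nat_lit 456) (nat_lit 3066030140) (nat_lit 76) (nat_lit 5393421593) (nat_lit 175) (nat_lit 5) (nat_lit 181) (nat_lit 5) (nat_lit 176) (nat_lit 5) (nat_lit 454) (nat_lit 409) (nat_lit 337)) (XT.lf (nat_lit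 0) (nat_lit 4264875145) (nat_lit 380) (nat_lit 1795812241) (nat_lit 456) (nat_lit 5784810298) (nat_lit 170) (nat_lit 5) (nat_lit 175) (nat_lit 5) (nat_lit 176) (nat_lit 5) (nat_lit 455) (nat_lit 409) (nat_lit 336)))) (XT.nd (nat_lit 156) (nat_lit 380) (nat_lit 0) (XT.nd (nat_lit 78) (nat_lit 380) (nat_lit 0) (XT.lf (nat_lit 0) (nat_lit 9042040135) (nat_lit 456) (nat_lit 232802070) (nat_lit 76) (nat_lit 2768172021) (nat_lit 170) (nat_lit 5) (nat_lit 176) (nat_lit 5) (nat_lit 171) (nat_lit 5) (nat_lit 456) (nat_lit 409) (nat_lit 335)) (XT.lf (nat_lit 0) (nat_lit 7422515212) (nat_lit 380) (nat_lit 4750241701) (nat_lit 456) (nat_lit 71906560) (nat_lit 165) (nat_lit 5) (nat_lit 170) (nat_lit 5) (nat_lit 171) (nat_lit 5) (nat_lit 457) (nat_lit 409) (nat_lit 334))) (XT.nd (nat_lit 78) (nat_lit 0) (nat_lit 0) (XT.lf (nat_lit 0) (nat_lit 2847007532) (nat_lit 304) (nat_lit 41272703) (nat_lit 380) (nat_lit 9563215849) (nat_lit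 160) (nat_lit 5) (nat_lit 164) (nat_lit 5) (nat_lit 165) (nat_lit 5) (nat_lit 458) (nat_lit 409) (nat_lit 333)) (XT.lf (nat_lit 0) (nat_lit 6002559542) (nat_lit 380) (nat_lit 1905953409) (nat_lit 76) (nat_lit 4754001895) (nat_lit 160) (nat_lit 5) (nat_lit 165) (nat_lit 5) (nat_lit 161) (nat_lit 5) (nat_lit 459) (nat_lit 409) (nat_lit 332))))))) (XT.nd (nat_lit 1170) (nat_lit 2128) (nat_lit 0) (XT.nd (nat_lit 546) (nat_lit 1444) (nat_lit 0) (XT.nd (nat_lit 234) (nat_lit 988) (nat_lit 0) (XT.nd (nat_lit 78) (nat_lit 380) (nat_lit 0) (XT.lf (nat_lit 0) (nat_lit 6102851655) (nat_lit 380) (nat_lit 3138652709) (nat_lit 456) (nat_lit 3637427058) (nat_lit 155) (nat_lit 5) (nat_lit 160) (nat_lit 5) (nat_lit 161) (nat_lit 5) (nat_lit 460) (nat_lit 409) (nat_lit 331)) (XT.nd (nat_lit 78) (nat_lit 76) (nat_lit 0) (XT.lf (nat_lit 0) (nat_lit 1257321485) (nat_lit 304) (nat_lit 11341363717) (nat_lit 380) (nat_lit 502527503) (nat_lit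 151) (nat_lit 5) (nat_lit 155) (nat_lit 5) (nat_lit 156) (nat_lit 5) (nat_lit 461) (nat_lit 409) (nat_lit 330)) (XT.lf (nat_lit 0) (nat_lit 2746035266) (nat_lit 380) (nat_lit 3755297584) (nat_lit 76) (nat_lit 6825862777) (nat_lit 150) (nat_lit 5) (nat_lit 155) (nat_lit 5) (nat_lit 151) (nat_lit 5) (nat_lit 462) (nat_lit 409) (nat_lit 329)))) (XT.nd (nat_lit 156) (nat_lit 684) (nat_lit 0) (XT.nd (nat_lit 78) (nat_lit 0) (nat_lit 0) (XT.lf (nat_lit 0) (nat_lit 4622486078) (nat_lit 304) (nat_lit 1477339709) (nat_lit 380) (nat_lit 7459450729) (nat_lit 146) (nat_lit 5) (nat_lit 150) (nat_lit 5) (nat_lit 151) (nat_lit 5) (nat_lit 463) (nat_lit 409) (nat_lit 328)) (XT.lf (nat_lit 0) (nat_lit 9601793567) (nat_lit 380) (nat_lit 543501802) (nat_lit 76) (nat_lit 3651601321) (nat_lit 146) (nat_lit 5) (nat_lit 151) (nat_lit 5) (nat_lit 147) (nat_lit 5) (nat_lit 464) (nat_lit 409) (nat_lit 327))) (XT.nd (nat_lit 78) (nat_lit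 380) (nat_lit 0) (XT.lf (nat_lit 0) (nat_lit 8209301005) (nat_lit 304) (nat_lit 5067550131) (nat_lit 380) (nat_lit 762757068) (nat_lit 142) (nat_lit 5) (nat_lit 146) (nat_lit 5) (nat_lit 147) (nat_lit 5) (nat_lit 465) (nat_lit 409) (nat_lit 326)) (XT.lf (nat_lit 0) (nat_lit 2728912187) (nat_lit 380) (nat_lit 11351541595) (nat_lit 76) (nat_lit 208037519) (nat_lit 137) (nat_lit 5) (nat_lit 142) (nat_lit 5) (nat_lit 138) (nat_lit 5) (nat_lit 466) (nat_lit 409) (nat_lit 325))))) (XT.nd (nat_lit 312) (nat_lit 836) (nat_lit 0) (XT.nd (nat_lit 156) (nat_lit 380) (nat_lit 0) (XT.nd (nat_lit 78) (nat_lit 228) (nat_lit 0) (XT.lf (nat_lit 0) (nat_lit 6394509819) (nat_lit 380) (nat_lit 2552891018) (nat_lit 76) (nat_lit 5594681568) (nat_lit 137) (nat_lit 5) (nat_lit 142) (nat_lit 5) (nat_lit 138) (nat_lit 5) (nat_lit 467) (nat_lit 409) (nat_lit 324)) (XT.lf (nat_lit 0) (nat_lit 6601402687) (nat_lit 228) (nat_lit 3607738744)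 (nat_lit 304) (nat_lit 4592971080) (nat_lit 134) (nat_lit 5) (nat_lit 137) (nat_lit 5) (nat_lit 138) (nat_lit 5) (nat_lit 468) (nat_lit 409) (nat_lit 323))) (XT.nd (nat_lit 78) (nat_lit 76) (nat_lit 0) (XT.lf (nat_lit 0) (nat_lit 976731768) (nat_lit 304) (nat_lit 13190935612) (nat_lit 380) (nat_lit 901395632) (nat_lit 130) (nat_lit 5) (nat_lit 134) (nat_lit 5) (nat_lit 135) (nat_lit 5) (nat_lit 469) (nat_lit 409) (nat_lit 322)) (XT.lf (nat_lit 0) (nat_lit 2939623728) (nat_lit 380) (nat_lit 4845846548) (nat_lit 76) (nat_lit 7554859035) (nat_lit 129) (nat_lit 5) (nat_lit 134) (nat_lit 5) (nat_lit 130) (nat_lit 5) (nat_lit 470) (nat_lit 409) (nat_lit 321)))) (XT.nd (nat_lit 156) (nat_lit 608) (nat_lit 0) (XT.nd (nat_lit 78) (nat_lit 0) (nat_lit 0) (XT.lf (nat_lit 0) (nat_lit 4724913507) (nat_lit 228) (nat_lit 2174915158) (nat_lit 304) (nat_lit 8718977915) (nat_lit 126) (nat_lit 5) (nat_lit 129) (nat_lit 5) (nat_lit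 130) (nat_lit 5) (nat_lit 471) (nat_lit 409) (nat_lit 320)) (XT.lf (nat_lit 0) (nat_lit 11039763001) (nat_lit 304) (nat_lit 1293772355) (nat_lit 76) (nat_lit 3570277915) (nat_lit 126) (nat_lit 5) (nat_lit 130) (nat_lit 5) (nat_lit 127) (nat_lit 5) (nat_lit 472) (nat_lit 409) (nat_lit 319))) (XT.nd (nat_lit 78) (nat_lit 304) (nat_lit 0) (XT.lf (nat_lit 0) (nat_lit 8707187206) (nat_lit 304) (nat_lit 6679476490) (nat_lit 380) (nat_lit 808226138) (nat_lit 122) (nat_lit 5) (nat_lit 126) (nat_lit 5) (nat_lit 127) (nat_lit 5) (nat_lit 473) (nat_lit 409) (nat_lit 318)) (XT.lf (nat_lit 0) (nat_lit 2521436408) (nat_lit 228) (nat_lit 797151013) (nat_lit 304) (nat_lit 13174690371) (nat_lit 118) (nat_lit 5) (nat_lit 121) (nat_lit 5) (nat_lit 122) (nat_lit 5) (nat_lit 474) (nat_lit 409) (nat_lit 317)))))) (XT.nd (nat_lit 624) (nat_lit 912) (nat_lit 0) (XT.nd (nat_lit 312) (nat_lit 684) (nat_lit 0) (XT.nd (nat_lit 156) (nat_lit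 304) (nat_lit 0) (XT.nd (nat_lit 78) (nat_lit 228) (nat_lit 0) (XT.lf (nat_lit 0) (nat_lit 7657713717) (nat_lit 304) (nat_lit 3909164413) (nat_lit 76) (nat_lit 5230359096) (nat_lit 118) (nat_lit 5) (nat_lit 122) (nat_lit 5) (nat_lit 119) (nat_lit 5) (nat_lit 475) (nat_lit 409) (nat_lit 316)) (XT.lf (nat_lit 0) (nat_lit 6540342891) (nat_lit 228) (nat_lit 5635894425) (nat_lit 304) (nat_lit 4932603839) (nat_lit 115) (nat_lit 5) (nat_lit 118) (nat_lit 5) (nat_lit 119) (nat_lit 5) (nat_lit 476) (nat_lit 409) (nat_lit 315))) (XT.nd (nat_lit 78) (nat_lit 304) (nat_lit 0) (XT.lf (nat_lit 0) (nat_lit 16853359847) (nat_lit 304) (nat_lit 85032060) (nat_lit 76) (nat_lit 490712346) (nat_lit 115) (nat_lit 5) (nat_lit 119) (nat_lit 5) (nat_lit 116) (nat_lit 5) (nat_lit 477) (nat_lit 409) (nat_lit 314)) (XT.lf (nat_lit 0) (nat_lit 3976066019) (nat_lit 304) (nat_lit 6959159429) (nat_lit 76) (nat_lit 6818406554) (nat_lit 111) (nat_lit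 5) (nat_lit 115) (nat_lit 5) (nat_lit 112) (nat_lit 5) (nat_lit 478) (nat_lit 409) (nat_lit 313)))) (XT.nd (nat_lit 156) (nat_lit 456) (nat_lit 0) (XT.nd (nat_lit 78) (nat_lit 0) (nat_lit 0) (XT.lf (nat_lit 0) (nat_lit 3951619493) (nat_lit 228) (nat_lit 4719421328) (nat_lit 304) (nat_lit 9416140440) (nat_lit 108) (nat_lit 5) (nat_lit 111) (nat_lit 5) (nat_lit 112) (nat_lit 5) (nat_lit 479) (nat_lit 409) (nat_lit 312)) (XT.lf (nat_lit 0) (nat_lit 13573491073) (nat_lit 304) (nat_lit 3147293558) (nat_lit 76) (nat_lit 1707955665) (nat_lit 108) (nat_lit 5) (nat_lit 112) (nat_lit 5) (nat_lit 109) (nat_lit 5) (nat_lit 480) (nat_lit 409) (nat_lit 311))) (XT.nd (nat_lit 78) (nat_lit 304) (nat_lit 0) (XT.lf (nat_lit 0) (nat_lit 8251742135) (nat_lit 152) (nat_lit 10477398016) (nat_lit 228) (nat_lit 48224216) (nat_lit 106) (nat_lit 5) (nat_lit 108) (nat_lit 5) (nat_lit 109) (nat_lit 5) (nat_lit 481) (nat_lit 409) (nat_lit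 310)) (XT.lf (nat_lit 0) (nat_lit 857818696) (nat_lit 228) (nat_lit 3970004985) (nat_lit 304) (nat_lit 14306596838) (nat_lit 102) (nat_lit 5) (nat_lit 105) (nat_lit 5) (nat_lit 106) (nat_lit 5) (nat_lit 482) (nat_lit 409) (nat_lit 309))))) (XT.nd (nat_lit 312) (nat_lit 456) (nat_lit 0) (XT.nd (nat_lit 156) (nat_lit 304) (nat_lit 0) (XT.nd (nat_lit 78) (nat_lit 152) (nat_lit 0) (XT.lf (nat_lit 0) (nat_lit 9963071012) (nat_lit 304) (nat_lit 6761651469) (nat_lit 76) (nat_lit 2774036786) (nat_lit 102) (nat_lit 5) (nat_lit 106) (nat_lit 5) (nat_lit 103) (nat_lit 5) (nat_lit 483) (nat_lit 409) (nat_lit 308)) (XT.lf (nat_lit 0) (nat_lit 5127078271) (nat_lit 152) (nat_lit 10194742706) (nat_lit 228) (nat_lit 4550125643) (nat_lit 100) (nat_lit 5) (nat_lit 102) (nat_lit 5) (nat_lit 103) (nat_lit 5) (nat_lit 484) (nat_lit 409) (nat_lit 307))) (XT.nd (nat_lit 78) (nat_lit 228) (nat_lit 0) (XT.lf (nat_lit 0) (nat_lit 623457752)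 (nat_lit 228) (nat_lit 2781977237) (nat_lit 76) (nat_lit 16849231515) (nat_lit 99) (nat_lit 5) (nat_lit 102) (nat_lit 5) (nat_lit 100) (nat_lit 5) (nat_lit 485) (nat_lit 409) (nat_lit 306)) (XT.lf (nat_lit 0) (nat_lit 5970767630) (nat_lit 304) (nat_lit 11029457480) (nat_lit 76) (nat_lit 3643993837) (nat_lit 96) (nat_lit 5) (nat_lit 100) (nat_lit 5) (nat_lit 97) (nat_lit 5) (nat_lit 486) (nat_lit 409) (nat_lit 305)))) (XT.nd (nat_lit 156) (nat_lit 304) (nat_lit 0) (XT.nd (nat_lit 78) (nat_lit 0) (nat_lit 0) (XT.lf (nat_lit 0) (nat_lit 1356647902) (nat_lit 152) (nat_lit 10178562897) (nat_lit 228) (nat_lit 9508547344) (nat_lit 94) (nat_lit 5) (nat_lit 96) (nat_lit 5) (nat_lit 97) (nat_lit 5) (nat_lit 487) (nat_lit 409) (nat_lit 304)) (XT.lf (nat_lit 0) (nat_lit 14309094941) (nat_lit 152) (nat_lit 3050688590) (nat_lit 228) (nat_lit 4092705646) (nat_lit 94) (nat_lit 5) (nat_lit 96) (nat_lit 5) (nat_lit 97) (nat_lit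 5) (nat_lit 488) (nat_lit 409) (nat_lit 303))) (XT.nd (nat_lit 78) (nat_lit 0) (nat_lit 0) (XT.lf (nat_lit 0) (nat_lit 1536808404) (nat_lit 304) (nat_lit 16068081336) (nat_lit 76) (nat_lit 4265759845) (nat_lit 90) (nat_lit 5) (nat_lit 94) (nat_lit 5) (nat_lit 91) (nat_lit 5) (nat_lit 489) (nat_lit 409) (nat_lit 302)) (XT.lf (nat_lit 0) (nat_lit 7338277986) (nat_lit 304) (nat_lit 3118171521) (nat_lit 76) (nat_lit 11841131180) (nat_lit 90) (nat_lit 5) (nat_lit 94) (nat_lit 5) (nat_lit 91) (nat_lit 5) (nat_lit 490) (nat_lit 409) (nat_lit 301))))))))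
noncomputable def xc120 : XT := (XT.nd (nat_lit 2340) (nat_lit 1672) (nat_lit 0) (XT.nd (nat_lit 1170) (nat_lit 1216) (nat_lit 0) (XT.nd (nat_lit 546) (nat_lit 912) (nat_lit 0) (XT.nd (nat_lit 234) (nat_lit 380) (nat_lit 0) (XT.nd (nat_lit 78) (nat_lit 228) (nat_lit 0) (XT.lf (nat_lit 0) (nat_lit 10393059024) (nat_lit 152) (nat_lit 3003429429) (nat_lit 228) (nat_lit 9338351743) (nat_lit 88) (nat_lit 5) (nat_lit 90) (nat_lit 5) (nat_lit 91) (nat_lit 5) (nat_lit 491) (nat_lit 409) (nat_lit 300)) (XT.nd (nat_lit 78) (nat_lit 76) (nat_lit 0) (XT.lf (nat_lit 0) (nat_lit 1136132198) (nat_lit 152) (nat_lit 18570841003) (nat_lit 228) (nat_lit 3476129789) (nat_lit 86) (nat_lit 5) (nat_lit 88) (nat_lit 5) (nat_lit 89) (nat_lit 5) (nat_lit 492) (nat_lit 409) (nat_lit 299)) (XT.lf (nat_lit 0) (nat_lit 2650494103) (nat_lit 228) (nat_lit 8455419220) (nat_lit 76) (nat_lit 12534006944) (nat_lit 85) (nat_lit 5) (nat_lit 88) (nat_lit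 5) (nat_lit 86) (nat_lit 5) (nat_lit 493) (nat_lit 409) (nat_lit 298)))) (XT.nd (nat_lit 156) (nat_lit 228) (nat_lit 0) (XT.nd (nat_lit 78) (nat_lit 0) (nat_lit 0) (XT.lf (nat_lit 0) (nat_lit 5589282404) (nat_lit 152) (nat_lit 3338922007) (nat_lit 228) (nat_lit 15180091728) (nat_lit 83) (nat_lit 5) (nat_lit 85) (nat_lit 5) (nat_lit 86) (nat_lit 5) (nat_lit 494) (nat_lit 409) (nat_lit 297)) (XT.lf (nat_lit 0) (nat_lit 15508789874) (nat_lit 228) (nat_lit 4434490323) (nat_lit 76) (nat_lit 4644007963) (nat_lit 83) (nat_lit 5) (nat_lit 86) (nat_lit 5) (nat_lit 84) (nat_lit 5) (nat_lit 495) (nat_lit 409) (nat_lit 296))) (XT.nd (nat_lit 78) (nat_lit 76) (nat_lit 0) (XT.lf (nat_lit 0) (nat_lit 10210272759) (nat_lit 152) (nat_lit 12191716616) (nat_lit 228) (nat_lit 2675205828) (nat_lit 81) (nat_lit 5) (nat_lit 83) (nat_lit 5) (nat_lit 84) (nat_lit 5) (nat_lit 496) (nat_lit 409) (nat_lit 295)) (XT.lf (nat_lit 0) (nat_lit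 3872939512) (nat_lit 228) (nat_lit 261817585) (nat_lit 76) (nat_lit 21445035420) (nat_lit 80) (nat_lit 5) (nat_lit 83) (nat_lit 5) (nat_lit 81) (nat_lit 5) (nat_lit 497) (nat_lit 409) (nat_lit 294))))) (XT.nd (nat_lit 312) (nat_lit 380) (nat_lit 0) (XT.nd (nat_lit 156) (nat_lit 228) (nat_lit 0) (XT.nd (nat_lit 78) (nat_lit 152) (nat_lit 0) (XT.lf (nat_lit 0) (nat_lit 10734239221) (nat_lit 228) (nat_lit 11114039708) (nat_lit 76) (nat_lit 4243280893) (nat_lit 78) (nat_lit 5) (nat_lit 81) (nat_lit 5) (nat_lit 79) (nat_lit 5) (nat_lit 498) (nat_lit 409) (nat_lit 293)) (XT.lf (nat_lit 0) (nat_lit 4071531309) (nat_lit 152) (nat_lit 13797157959) (nat_lit 228) (nat_lit 8747972564) (nat_lit 76) (nat_lit 5) (nat_lit 78) (nat_lit 5) (nat_lit 79) (nat_lit 5) (nat_lit 499) (nat_lit 409) (nat_lit 292))) (XT.nd (nat_lit 78) (nat_lit 228) (nat_lit 0) (XT.lf (nat_lit 0) (nat_lit 19913009836) (nat_lit 152) (nat_lit 5401143418) (nat_lit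 228) (nat_lit 1840455230) (nat_lit 76) (nat_lit 5) (nat_lit 78) (nat_lit 5) (nat_lit 79) (nat_lit 5) (nat_lit 500) (nat_lit 409) (nat_lit 291)) (XT.lf (nat_lit 0) (nat_lit 5271607988) (nat_lit 228) (nat_lit 19126160073) (nat_lit 76) (nat_lit 3306398201) (nat_lit 73) (nat_lit 5) (nat_lit 76) (nat_lit 5) (nat_lit 74) (nat_lit 5) (nat_lit 501) (nat_lit 409) (nat_lit 290)))) (XT.nd (nat_lit 156) (nat_lit 228) (nat_lit 0) (XT.nd (nat_lit 78) (nat_lit 152) (nat_lit 0) (XT.lf (nat_lit 0) (nat_lit 12672479312) (nat_lit 228) (nat_lit 3346844414) (nat_lit 76) (nat_lit 12246968165) (nat_lit 73) (nat_lit 5) (nat_lit 76) (nat_lit 5) (nat_lit 74) (nat_lit 5) (nat_lit 502) (nat_lit 409) (nat_lit 289)) (XT.lf (nat_lit 0) (nat_lit 13135918388) (nat_lit 152) (nat_lit 7271273433) (nat_lit 228) (nat_lit 8434735900) (nat_lit 71) (nat_lit 5) (nat_lit 73) (nat_lit 5) (nat_lit 74) (nat_lit 5) (nat_lit 503) (nat_lit 409) (nat_lit 288)))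 (XT.nd (nat_lit 78) (nat_lit 76) (nat_lit 0) (XT.lf (nat_lit 0) (nat_lit 718601144) (nat_lit 152) (nat_lit 27698704788) (nat_lit 228) (nat_lit 1016226747) (nat_lit 69) (nat_lit 5) (nat_lit 71) (nat_lit 5) (nat_lit 72) (nat_lit 4) (nat_lit 504) (nat_lit 409) (nat_lit 287)) (XT.lf (nat_lit 0) (nat_lit 6713356320) (nat_lit 228) (nat_lit 12243814584) (nat_lit 76) (nat_lit 11077271439) (nat_lit 68) (nat_lit 5) (nat_lit 71) (nat_lit 5) (nat_lit 69) (nat_lit 5) (nat_lit 505) (nat_lit 409) (nat_lit 286)))))) (XT.nd (nat_lit 546) (nat_lit 608) (nat_lit 0) (XT.nd (nat_lit 234) (nat_lit 380) (nat_lit 0) (XT.nd (nat_lit 78) (nat_lit 76) (nat_lit 0) (XT.lf (nat_lit 0) (nat_lit 4779048707) (nat_lit 152) (nat_lit 9907340785) (nat_lit 228) (nat_lit 15965729107) (nat_lit 66) (nat_lit 5) (nat_lit 68) (nat_lit 5) (nat_lit 69) (nat_lit 5) (nat_lit 506) (nat_lit 409) (nat_lit 285)) (XT.nd (nat_lit 78) (nat_lit 76) (nat_lit 0) (XT.lf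 (nat_lit 0) (nat_lit 22538252925) (nat_lit 152) (nat_lit 470210732) (nat_lit 228) (nat_lit 8276566750) (nat_lit 66) (nat_lit 5) (nat_lit 68) (nat_lit 5) (nat_lit 69) (nat_lit 5) (nat_lit 507) (nat_lit 409) (nat_lit 284)) (XT.lf (nat_lit 0) (nat_lit 8954227969) (nat_lit 76) (nat_lit 22787467935) (nat_lit 152) (nat_lit 190389531) (nat_lit 65) (nat_lit 5) (nat_lit 66) (nat_lit 5) (nat_lit 67) (nat_lit 4) (nat_lit 508) (nat_lit 409) (nat_lit 283)))) (XT.nd (nat_lit 156) (nat_lit 152) (nat_lit 0) (XT.nd (nat_lit 78) (nat_lit 152) (nat_lit 0) (XT.lf (nat_lit 0) (nat_lit 8059948142) (nat_lit 152) (nat_lit 5339012282) (nat_lit 76) (nat_lit 19194833935) (nat_lit 64) (nat_lit 5) (nat_lit 66) (nat_lit 5) (nat_lit 65) (nat_lit 5) (nat_lit 509) (nat_lit 409) (nat_lit 282)) (XT.lf (nat_lit 0) (nat_lit 13057729365) (nat_lit 152) (nat_lit 3608679934) (nat_lit 228) (nat_lit 16605516177) (nat_lit 62) (nat_lit 5) (nat_lit 64) (nat_lit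 5) (nat_lit 65) (nat_lit 5) (nat_lit 510) (nat_lit 409) (nat_lit 281))) (XT.nd (nat_lit 78) (nat_lit 152) (nat_lit 0) (XT.lf (nat_lit 0) (nat_lit 25634722157) (nat_lit 228) (nat_lit 1939976375) (nat_lit 76) (nat_lit 6392592919) (nat_lit 62) (nat_lit 5) (nat_lit 65) (nat_lit 5) (nat_lit 63) (nat_lit 4) (nat_lit 511) (nat_lit 409) (nat_lit 280)) (XT.lf (nat_lit 0) (nat_lit 374755723) (nat_lit 152) (nat_lit 17523524277) (nat_lit 76) (nat_lit 16779488566) (nat_lit 60) (nat_lit 5) (nat_lit 62) (nat_lit 5) (nat_lit 61) (nat_lit 5) (nat_lit 512) (nat_lit 409) (nat_lit 279))))) (XT.nd (nat_lit 312) (nat_lit 304) (nat_lit 0) (XT.nd (nat_lit 156) (nat_lit 152) (nat_lit 0) (XT.nd (nat_lit 78) (nat_lit 0) (nat_lit 0) (XT.lf (nat_lit 0) (nat_lit 1372628983) (nat_lit 152) (nat_lit 7823539268) (nat_lit 228) (nat_lit 26210307002) (nat_lit 58) (nat_lit 5) (nat_lit 60) (nat_lit 5) (nat_lit 61) (nat_lit 5) (nat_lit 513) (nat_lit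 409) (nat_lit 278)) (XT.lf (nat_lit 0) (nat_lit 18472879128) (nat_lit 228) (nat_lit 15006738463) (nat_lit 76) (nat_lit 2671706455) (nat_lit 58) (nat_lit 5) (nat_lit 61) (nat_lit 5) (nat_lit 59) (nat_lit 4) (nat_lit 514) (nat_lit 409) (nat_lit 277))) (XT.nd (nat_lit 78) (nat_lit 76) (nat_lit 0) (XT.lf (nat_lit 0) (nat_lit 4580196411) (nat_lit 76) (nat_lit 23556955646) (nat_lit 152) (nat_lit 8778088991) (nat_lit 57) (nat_lit 5) (nat_lit 58) (nat_lit 5) (nat_lit 59) (nat_lit 4) (nat_lit 515) (nat_lit 409) (nat_lit 276)) (XT.lf (nat_lit 0) (nat_lit 522510636) (nat_lit 152) (nat_lit 12663329521) (nat_lit 76) (nat_lit 24511898803) (nat_lit 56) (nat_lit 5) (nat_lit 58) (nat_lit 5) (nat_lit 57) (nat_lit 5) (nat_lit 516) (nat_lit 409) (nat_lit 275)))) (XT.nd (nat_lit 156) (nat_lit 152) (nat_lit 0) (XT.nd (nat_lit 78) (nat_lit 0) (nat_lit 0) (XT.lf (nat_lit 0) (nat_lit 7638425539) (nat_lit 152) (nat_lit 2348842875) (nat_lit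 228) (nat_lit 28511989430) (nat_lit 54) (nat_lit 5) (nat_lit 56) (nat_lit 5) (nat_lit 57) (nat_lit 5) (nat_lit 517) (nat_lit 409) (nat_lit 274)) (XT.lf (nat_lit 0) (nat_lit 19938008450) (nat_lit 228) (nat_lit 10620439282) (nat_lit 76) (nat_lit 8760313882) (nat_lit 54) (nat_lit 5) (nat_lit 57) (nat_lit 5) (nat_lit 55) (nat_lit 4) (nat_lit 518) (nat_lit 409) (nat_lit 273))) (XT.nd (nat_lit 78) (nat_lit 76) (nat_lit 0) (XT.lf (nat_lit 0) (nat_lit 10384918233) (nat_lit 76) (nat_lit 19913958927) (nat_lit 152) (nat_lit 9860625632) (nat_lit 53) (nat_lit 5) (nat_lit 54) (nat_lit 5) (nat_lit 55) (nat_lit 4) (nat_lit 519) (nat_lit 409) (nat_lit 272)) (XT.lf (nat_lit 0) (nat_lit 43024239) (nat_lit 152) (nat_lit 8806292917) (nat_lit 76) (nat_lit 32173259922) (nat_lit 52) (nat_lit 5) (nat_lit 54) (nat_lit 5) (nat_lit 53) (nat_lit 5) (nat_lit 520) (nat_lit 409) (nat_lit 271))))))) (XT.nd (nat_lit 1170) (nat_lit 684) (nat_lit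 0) (XT.nd (nat_lit 546) (nat_lit 456) (nat_lit 0) (XT.nd (nat_lit 234) (nat_lit 304) (nat_lit 0) (XT.nd (nat_lit 78) (nat_lit 76) (nat_lit 0) (XT.lf (nat_lit 0) (nat_lit 10185295049) (nat_lit 228) (nat_lit 29007210465) (nat_lit 76) (nat_lit 2711918621) (nat_lit 50) (nat_lit 5) (nat_lit 53) (nat_lit 5) (nat_lit 51) (nat_lit 4) (nat_lit 521) (nat_lit 409) (nat_lit 270)) (XT.nd (nat_lit 78) (nat_lit 76) (nat_lit 0) (XT.lf (nat_lit 0) (nat_lit 20798160999) (nat_lit 228) (nat_lit 7487264737) (nat_lit 76) (nat_lit 14522311493) (nat_lit 50) (nat_lit 5) (nat_lit 53) (nat_lit 5) (nat_lit 51) (nat_lit 4) (nat_lit 522) (nat_lit 409) (nat_lit 269)) (XT.lf (nat_lit 0) (nat_lit 14949558027) (nat_lit 76) (nat_lit 16912785667) (nat_lit 152) (nat_lit 11871818520) (nat_lit 49) (nat_lit 5) (nat_lit 50) (nat_lit 5) (nat_lit 51) (nat_lit 4) (nat_lit 523) (nat_lit 409) (nat_lit 268)))) (XT.nd (nat_lit 156) (nat_lit 76) (nat_lit 0) (XT.nd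 (nat_lit 78) (nat_lit 228) (nat_lit 0) (XT.lf (nat_lit 0) (nat_lit 38192726406) (nat_lit 76) (nat_lit 5130677854) (nat_lit 152) (nat_lit 1363027528) (nat_lit 49) (nat_lit 5) (nat_lit 50) (nat_lit 5) (nat_lit 51) (nat_lit 4) (nat_lit 524) (nat_lit 409) (nat_lit 267)) (XT.lf (nat_lit 0) (nat_lit 9496038810) (nat_lit 228) (nat_lit 29049162752) (nat_lit 76) (nat_lit 7112751008) (nat_lit 46) (nat_lit 5) (nat_lit 49) (nat_lit 5) (nat_lit 47) (nat_lit 4) (nat_lit 525) (nat_lit 409) (nat_lit 266))) (XT.nd (nat_lit 78) (nat_lit 76) (nat_lit 0) (XT.lf (nat_lit 0) (nat_lit 20760082102) (nat_lit 228) (nat_lit 6204005979) (nat_lit 76) (nat_lit 19690928397) (nat_lit 46) (nat_lit 5) (nat_lit 49) (nat_lit 5) (nat_lit 47) (nat_lit 4) (nat_lit 526) (nat_lit 409) (nat_lit 265)) (XT.lf (nat_lit 0) (nat_lit 17651646558) (nat_lit 76) (nat_lit 14869960830) (nat_lit 152) (nat_lit 15155598458) (nat_lit 45) (nat_lit 5) (nat_lit 46) (nat_lit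 5) (nat_lit 47) (nat_lit 4) (nat_lit 527) (nat_lit 409) (nat_lit 264))))) (XT.nd (nat_lit 312) (nat_lit 228) (nat_lit 0) (XT.nd (nat_lit 156) (nat_lit 76) (nat_lit 0) (XT.nd (nat_lit 78) (nat_lit 152) (nat_lit 0) (XT.lf (nat_lit 0) (nat_lit 42331027846) (nat_lit 76) (nat_lit 2357592083) (nat_lit 152) (nat_lit 4039862075) (nat_lit 45) (nat_lit 5) (nat_lit 46) (nat_lit 5) (nat_lit 47) (nat_lit 4) (nat_lit 528) (nat_lit 409) (nat_lit 263)) (XT.lf (nat_lit 0) (nat_lit 7533520796) (nat_lit 152) (nat_lit 31703023006) (nat_lit 76) (nat_lit 10564553562) (nat_lit 43) (nat_lit 5) (nat_lit 45) (nat_lit 5) (nat_lit 44) (nat_lit 4) (nat_lit 529) (nat_lit 409) (nat_lit 262))) (XT.nd (nat_lit 78) (nat_lit 76) (nat_lit 0) (XT.lf (nat_lit 0) (nat_lit 19451701940) (nat_lit 152) (nat_lit 7527101632) (nat_lit 76) (nat_lit 23923524155) (nat_lit 43) (nat_lit 5) (nat_lit 45) (nat_lit 5) (nat_lit 44) (nat_lit 4) (nat_lit 530) (nat_lit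 409) (nat_lit 261)) (XT.lf (nat_lit 0) (nat_lit 17701282065) (nat_lit 76) (nat_lit 14186797300) (nat_lit 152) (nat_lit 20143696426) (nat_lit 42) (nat_lit 5) (nat_lit 43) (nat_lit 5) (nat_lit 44) (nat_lit 4) (nat_lit 531) (nat_lit 409) (nat_lit 260)))) (XT.nd (nat_lit 156) (nat_lit 76) (nat_lit 0) (XT.nd (nat_lit 78) (nat_lit 152) (nat_lit 0) (XT.lf (nat_lit 0) (nat_lit 43822763128) (nat_lit 76) (nat_lit 941392554) (nat_lit 152) (nat_lit 8428953694) (nat_lit 42) (nat_lit 5) (nat_lit 43) (nat_lit 5) (nat_lit 44) (nat_lit 4) (nat_lit 532) (nat_lit 409) (nat_lit 259)) (XT.lf (nat_lit 0) (nat_lit 3840642373) (nat_lit 152) (nat_lit 37897605656) (nat_lit 76) (nat_lit 12641754731) (nat_lit 40) (nat_lit 5) (nat_lit 42) (nat_lit 5) (nat_lit 41) (nat_lit 4) (nat_lit 533) (nat_lit 409) (nat_lit 258))) (XT.nd (nat_lit 78) (nat_lit 76) (nat_lit 0) (XT.lf (nat_lit 0) (nat_lit 16404593157) (nat_lit 152) (nat_lit 12408300749) (nat_lit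 76) (nat_lit 26784235257) (nat_lit 40) (nat_lit 5) (nat_lit 42) (nat_lit 5) (nat_lit 41) (nat_lit 4) (nat_lit 534) (nat_lit 409) (nat_lit 257)) (XT.lf (nat_lit 0) (nat_lit 14103683791) (nat_lit 76) (nat_lit 15368420609) (nat_lit 152) (nat_lit 27374865969) (nat_lit 39) (nat_lit 5) (nat_lit 40) (nat_lit 5) (nat_lit 41) (nat_lit 4) (nat_lit 535) (nat_lit 409) (nat_lit 256)))))) (XT.nd (nat_lit 546) (nat_lit 304) (nat_lit 0) (XT.nd (nat_lit 234) (nat_lit 228) (nat_lit 0) (XT.nd (nat_lit 78) (nat_lit 152) (nat_lit 0) (XT.lf (nat_lit 0) (nat_lit 41648341443) (nat_lit 76) (nat_lit 1399764041) (nat_lit 152) (nat_lit 15082707658) (nat_lit 39) (nat_lit 5) (nat_lit 40) (nat_lit 5) (nat_lit 41) (nat_lit 4) (nat_lit 536) (nat_lit 409) (nat_lit 255)) (XT.nd (nat_lit 78) (nat_lit 76) (nat_lit 0) (XT.lf (nat_lit 0) (nat_lit 10632060318) (nat_lit 76) (nat_lit 46617722001) (nat_lit 76) (nat_lit 2196837262) (nat_lit 38) (nat_lit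 4) (nat_lit 39) (nat_lit 5) (nat_lit 39) (nat_lit 4) (nat_lit 537) (nat_lit 409) (nat_lit 254)) (XT.lf (nat_lit 0) (nat_lit 11032785372) (nat_lit 152) (nat_lit 22037713966) (nat_lit 76) (nat_lit 27723008115) (nat_lit 37) (nat_lit 5) (nat_lit 39) (nat_lit 5) (nat_lit 38) (nat_lit 4) (nat_lit 538) (nat_lit 409) (nat_lit 253)))) (XT.nd (nat_lit 156) (nat_lit 152) (nat_lit 0) (XT.nd (nat_lit 78) (nat_lit 0) (nat_lit 0) (XT.lf (nat_lit 0) (nat_lit 5613985118) (nat_lit 76) (nat_lit 19046727745) (nat_lit 152) (nat_lit 37518069695) (nat_lit 36) (nat_lit 5) (nat_lit 37) (nat_lit 5) (nat_lit 38) (nat_lit 4) (nat_lit 539) (nat_lit 409) (nat_lit 252)) (XT.lf (nat_lit 0) (nat_lit 34530896241) (nat_lit 76) (nat_lit 4380814842) (nat_lit 152) (nat_lit 24687478072) (nat_lit 36) (nat_lit 5) (nat_lit 37) (nat_lit 5) (nat_lit 38) (nat_lit 4) (nat_lit 540) (nat_lit 409) (nat_lit 251))) (XT.nd (nat_lit 78) (nat_lit 152) (nat_lit 0)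 (XT.lf (nat_lit 0) (nat_lit 53685199667) (nat_lit 152) (nat_lit 865780498) (nat_lit 0) (nat_lit 10508379194) (nat_lit 36) (nat_lit 5) (nat_lit 38) (nat_lit 4) (nat_lit 36) (nat_lit 4) (nat_lit 541) (nat_lit 409) (nat_lit 250)) (XT.lf (nat_lit 0) (nat_lit 2607207825) (nat_lit 152) (nat_lit 37895733340) (nat_lit 76) (nat_lit 26050290822) (nat_lit 34) (nat_lit 5) (nat_lit 36) (nat_lit 5) (nat_lit 35) (nat_lit 4) (nat_lit 542) (nat_lit 409) (nat_lit 249))))) (XT.nd (nat_lit 312) (nat_lit 152) (nat_lit 0) (XT.nd (nat_lit 156) (nat_lit 76) (nat_lit 0) (XT.nd (nat_lit 78) (nat_lit 76) (nat_lit 0) (XT.lf (nat_lit 0) (nat_lit 16780344208) (nat_lit 152) (nat_lit 9135474981) (nat_lit 76) (nat_lit 42172695229) (nat_lit 34) (nat_lit 5) (nat_lit 36) (nat_lit 5) (nat_lit 35) (nat_lit 4) (nat_lit 543) (nat_lit 409) (nat_lit 248)) (XT.lf (nat_lit 0) (nat_lit 20880146458) (nat_lit 76) (nat_lit 10691578773) (nat_lit 152) (nat_lit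 38092338771) (nat_lit 33) (nat_lit 5) (nat_lit 34) (nat_lit 5) (nat_lit 35) (nat_lit 4) (nat_lit 544) (nat_lit 409) (nat_lit 247))) (XT.nd (nat_lit 78) (nat_lit 76) (nat_lit 0) (XT.lf (nat_lit 0) (nat_lit 46940322861) (nat_lit 152) (nat_lit 19364386449) (nat_lit 0) (nat_lit 4978166698) (nat_lit 33) (nat_lit 5) (nat_lit 35) (nat_lit 4) (nat_lit 33) (nat_lit 4) (nat_lit 545) (nat_lit 409) (nat_lit 246)) (XT.lf (nat_lit 0) (nat_lit 11032690722) (nat_lit 76) (nat_lit 51941771052) (nat_lit 76) (nat_lit 9969656284) (nat_lit 32) (nat_lit 4) (nat_lit 33) (nat_lit 5) (nat_lit 33) (nat_lit 4) (nat_lit 546) (nat_lit 409) (nat_lit 245)))) (XT.nd (nat_lit 156) (nat_lit 76) (nat_lit 0) (XT.nd (nat_lit 78) (nat_lit 0) (nat_lit 0) (XT.lf (nat_lit 0) (nat_lit 4930147608) (nat_lit 152) (nat_lit 31973583672) (nat_lit 76) (nat_lit 37744370403) (nat_lit 31) (nat_lit 5) (nat_lit 33) (nat_lit 5) (nat_lit 32) (nat_lit 4) (nat_lit 547)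 (nat_lit 409) (nat_lit 244)) (XT.lf (nat_lit 0) (nat_lit 20069360368) (nat_lit 152) (nat_lit 1250368711) (nat_lit 76) (nat_lit 55080730775) (nat_lit 31) (nat_lit 5) (nat_lit 33) (nat_lit 5) (nat_lit 32) (nat_lit 4) (nat_lit 548) (nat_lit 409) (nat_lit 243))) (XT.nd (nat_lit 78) (nat_lit 0) (nat_lit 0) (XT.lf (nat_lit 0) (nat_lit 30985536941) (nat_lit 76) (nat_lit 4968069331) (nat_lit 152) (nat_lit 42243056957) (nat_lit 30) (nat_lit 5) (nat_lit 31) (nat_lit 5) (nat_lit 32) (nat_lit 4) (nat_lit 549) (nat_lit 409) (nat_lit 242)) (XT.lf (nat_lit 0) (nat_lit 52434287680) (nat_lit 152) (nat_lit 15960145198) (nat_lit 0) (nat_lit 11648722743) (nat_lit 30) (nat_lit 5) (nat_lit 32) (nat_lit 4) (nat_lit 30) (nat_lit 4) (nat_lit 550) (nat_lit 409) (nat_lit 241))))))))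
noncomputable def xc121 : XT := (XT.nd (nat_lit 2340) (nat_lit 7980) (nat_lit 0) (XT.nd (nat_lit 1170) (nat_lit 7980) (nat_lit 0) (XT.nd (nat_lit 546) (nat_lit 1596) (nat_lit 0) (XT.nd (nat_lit 234) (nat_lit 684) (nat_lit 0) (XT.nd (nat_lit 78) (nat_lit 684) (nat_lit 0) (XT.lf (nat_lit 0) (nat_lit 2534111212) (nat_lit 684) (nat_lit 449718349) (nat_lit 684) (nat_lit 449718349) (nat_lit 378) (nat_lit 3) (nat_lit 387) (nat_lit 3) (nat_lit 387) (nat_lit 5) (nat_lit 410) (nat_lit 410) (nat_lit 380)) (XT.nd (nat_lit 78) (nat_lit 0) (nat_lit 0) (XT.lf (nat_lit 0) (nat_lit 178855560) (nat_lit 684) (nat_lit 4385069484) (nat_lit 760) (nat_lit 2347010000) (nat_lit 369) (nat_lit 5) (nat_lit 378) (nat_lit 3) (nat_lit 379) (nat_lit 5) (nat_lit 411) (nat_lit 410) (nat_lit 379)) (XT.lf (nat_lit 0) (nat_lit 2112659964) (nat_lit 684) (nat_lit 942365763) (nat_lit 760) (nat_lit 3902566667) (nat_lit 369) (nat_lit 5) (nat_lit 378) (nat_lit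 3) (nat_lit 379) (nat_lit 5) (nat_lit 412) (nat_lit 410) (nat_lit 378)))) (XT.nd (nat_lit 156) (nat_lit 684) (nat_lit 0) (XT.nd (nat_lit 78) (nat_lit 0) (nat_lit 76) (XT.lf (nat_lit 76) (nat_lit 2614825576) (nat_lit 0) (nat_lit 1440736459) (nat_lit 760) (nat_lit 2951578464) (nat_lit 370) (nat_lit 5) (nat_lit 369) (nat_lit 5) (nat_lit 379) (nat_lit 5) (nat_lit 413) (nat_lit 410) (nat_lit 377)) (XT.lf (nat_lit 0) (nat_lit 5996537068) (nat_lit 684) (nat_lit 804001970) (nat_lit 760) (nat_lit 259465287) (nat_lit 370) (nat_lit 5) (nat_lit 379) (nat_lit 5) (nat_lit 380) (nat_lit 5) (nat_lit 414) (nat_lit 410) (nat_lit 376))) (XT.nd (nat_lit 78) (nat_lit 0) (nat_lit 0) (XT.lf (nat_lit 0) (nat_lit 836009302) (nat_lit 760) (nat_lit 4230061975) (nat_lit 836) (nat_lit 2048992613) (nat_lit 360) (nat_lit 5) (nat_lit 370) (nat_lit 5) (nat_lit 371) (nat_lit 5) (nat_lit 415) (nat_lit 410) (nat_lit 375)) (XT.lf (nat_lit 0) (nat_lit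 2710383214) (nat_lit 760) (nat_lit 522690707) (nat_lit 836) (nat_lit 3940227724) (nat_lit 360) (nat_lit 5) (nat_lit 370) (nat_lit 5) (nat_lit 371) (nat_lit 5) (nat_lit 416) (nat_lit 410) (nat_lit 374))))) (XT.nd (nat_lit 312) (nat_lit 836) (nat_lit 0) (XT.nd (nat_lit 156) (nat_lit 760) (nat_lit 0) (XT.nd (nat_lit 78) (nat_lit 0) (nat_lit 76) (XT.lf (nat_lit 76) (nat_lit 3320199052) (nat_lit 0) (nat_lit 1285800671) (nat_lit 836) (nat_lit 2628356774) (nat_lit 361) (nat_lit 5) (nat_lit 360) (nat_lit 5) (nat_lit 371) (nat_lit 5) (nat_lit 417) (nat_lit 410) (nat_lit 373)) (XT.lf (nat_lit 0) (nat_lit 6505636709) (nat_lit 760) (nat_lit 57284130) (nat_lit 836) (nat_lit 735927311) (nat_lit 361) (nat_lit 5) (nat_lit 371) (nat_lit 5) (nat_lit 372) (nat_lit 5) (nat_lit 418) (nat_lit 410) (nat_lit 372))) (XT.nd (nat_lit 78) (nat_lit 0) (nat_lit 0) (XT.lf (nat_lit 0) (nat_lit 1062824355) (nat_lit 836) (nat_lit 3437761054) (nat_lit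 912) (nat_lit 2864774108) (nat_lit 350) (nat_lit 5) (nat_lit 361) (nat_lit 5) (nat_lit 362) (nat_lit 5) (nat_lit 419) (nat_lit 410) (nat_lit 371)) (XT.lf (nat_lit 76) (nat_lit 560489211) (nat_lit 0) (nat_lit 2341698964) (nat_lit 912) (nat_lit 4533152795) (nat_lit 351) (nat_lit 5) (nat_lit 350) (nat_lit 5) (nat_lit 362) (nat_lit 5) (nat_lit 420) (nat_lit 410) (nat_lit 370)))) (XT.nd (nat_lit 156) (nat_lit 836) (nat_lit 0) (XT.nd (nat_lit 78) (nat_lit 0) (nat_lit 76) (XT.lf (nat_lit 76) (nat_lit 4707627332) (nat_lit 0) (nat_lit 62855732) (nat_lit 912) (nat_lit 2737743813) (nat_lit 351) (nat_lit 5) (nat_lit 350) (nat_lit 5) (nat_lit 362) (nat_lit 5) (nat_lit 421) (nat_lit 410) (nat_lit 369)) (XT.lf (nat_lit 76) (nat_lit 1358128818) (nat_lit 0) (nat_lit 5312704285) (nat_lit 912) (nat_lit 913203075) (nat_lit 352) (nat_lit 5) (nat_lit 351) (nat_lit 5) (nat_lit 363) (nat_lit 5) (nat_lit 422) (nat_lit 410) (nat_lit 368)))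 (XT.nd (nat_lit 78) (nat_lit 0) (nat_lit 0) (XT.lf (nat_lit 0) (nat_lit 918126447) (nat_lit 912) (nat_lit 2015487635) (nat_lit 988) (nat_lit 4729115985) (nat_lit 339) (nat_lit 5) (nat_lit 351) (nat_lit 5) (nat_lit 352) (nat_lit 5) (nat_lit 423) (nat_lit 410) (nat_lit 367)) (XT.lf (nat_lit 76) (nat_lit 2315586518) (nat_lit 0) (nat_lit 436132372) (nat_lit 988) (nat_lit 4992839873) (nat_lit 340) (nat_lit 5) (nat_lit 339) (nat_lit 5) (nat_lit 352) (nat_lit 5) (nat_lit 424) (nat_lit 410) (nat_lit 366)))))) (XT.nd (nat_lit 546) (nat_lit 3876) (nat_lit 0) (XT.nd (nat_lit 234) (nat_lit 2204) (nat_lit 0) (XT.nd (nat_lit 78) (nat_lit 1976) (nat_lit 0) (XT.lf (nat_lit 0) (nat_lit 4626211043) (nat_lit 912) (nat_lit 1074261203) (nat_lit 76) (nat_lit 2128808425) (nat_lit 340) (nat_lit 5) (nat_lit 352) (nat_lit 5) (nat_lit 341) (nat_lit 5) (nat_lit 425) (nat_lit 410) (nat_lit 365)) (XT.nd (nat_lit 78) (nat_lit 1064) (nat_lit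 0) (XT.lf (nat_lit 0) (nat_lit 3431796838) (nat_lit 912) (nat_lit 3108858264) (nat_lit 988) (nat_lit 1376392290) (nat_lit 328) (nat_lit 5) (nat_lit 340) (nat_lit 5) (nat_lit 341) (nat_lit 5) (nat_lit 426) (nat_lit 410) (nat_lit 364)) (XT.lf (nat_lit 0) (nat_lit 41177619) (nat_lit 988) (nat_lit 412441923) (nat_lit 1064) (nat_lit 7554944036) (nat_lit 314) (nat_lit 5) (nat_lit 327) (nat_lit 5) (nat_lit 328) (nat_lit 5) (nat_lit 427) (nat_lit 410) (nat_lit 363)))) (XT.nd (nat_lit 156) (nat_lit 1140) (nat_lit 0) (XT.nd (nat_lit 78) (nat_lit 1064) (nat_lit 0) (XT.lf (nat_lit 0) (nat_lit 2327609637) (nat_lit 1064) (nat_lit 3386775977) (nat_lit 76) (nat_lit 2387541971) (nat_lit 314) (nat_lit 5) (nat_lit 328) (nat_lit 5) (nat_lit 315) (nat_lit 5) (nat_lit 428) (nat_lit 410) (nat_lit 362)) (XT.lf (nat_lit 0) (nat_lit 1310169072) (nat_lit 1064) (nat_lit 2914103631) (nat_lit 1140) (nat_lit 3974839245) (nat_lit 300) (nat_lit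 5) (nat_lit 314) (nat_lit 5) (nat_lit 315) (nat_lit 5) (nat_lit 429) (nat_lit 410) (nat_lit 361))) (XT.nd (nat_lit 78) (nat_lit 1140) (nat_lit 0) (XT.lf (nat_lit 0) (nat_lit 6162988185) (nat_lit 1140) (nat_lit 2124493391) (nat_lit 76) (nat_lit 12188344) (nat_lit 300) (nat_lit 5) (nat_lit 315) (nat_lit 5) (nat_lit 301) (nat_lit 5) (nat_lit 430) (nat_lit 410) (nat_lit 360)) (XT.lf (nat_lit 0) (nat_lit 2765572695) (nat_lit 1140) (nat_lit 5402060096) (nat_lit 1216) (nat_lit 235391096) (nat_lit 285) (nat_lit 5) (nat_lit 300) (nat_lit 5) (nat_lit 301) (nat_lit 5) (nat_lit 431) (nat_lit 410) (nat_lit 359))))) (XT.nd (nat_lit 312) (nat_lit 1824) (nat_lit 0) (XT.nd (nat_lit 156) (nat_lit 760) (nat_lit 0) (XT.nd (nat_lit 78) (nat_lit 1216) (nat_lit 0) (XT.lf (nat_lit 0) (nat_lit 1663824563) (nat_lit 1216) (nat_lit 722683221) (nat_lit 76) (nat_lit 6123250198) (nat_lit 284) (nat_lit 5) (nat_lit 300) (nat_lit 5) (nat_lit 285)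 (nat_lit 5) (nat_lit 432) (nat_lit 410) (nat_lit 358)) (XT.lf (nat_lit 0) (nat_lit 3619008661) (nat_lit 1292) (nat_lit 4246168816) (nat_lit 76) (nat_lit 754346257) (nat_lit 268) (nat_lit 5) (nat_lit 285) (nat_lit 5) (nat_lit 269) (nat_lit 5) (nat_lit 433) (nat_lit 410) (nat_lit 357))) (XT.nd (nat_lit 78) (nat_lit 0) (nat_lit 0) (XT.lf (nat_lit 0) (nat_lit 855013440) (nat_lit 760) (nat_lit 4772238009) (nat_lit 836) (nat_lit 3105509828) (nat_lit 258) (nat_lit 5) (nat_lit 268) (nat_lit 5) (nat_lit 269) (nat_lit 5) (nat_lit 434) (nat_lit 410) (nat_lit 356)) (XT.lf (nat_lit 0) (nat_lit 6153997160) (nat_lit 760) (nat_lit 1540706759) (nat_lit 836) (nat_lit 1154733755) (nat_lit 258) (nat_lit 5) (nat_lit 268) (nat_lit 5) (nat_lit 269) (nat_lit 5) (nat_lit 435) (nat_lit 410) (nat_lit 355)))) (XT.nd (nat_lit 156) (nat_lit 1140) (nat_lit 0) (XT.nd (nat_lit 78) (nat_lit 0) (nat_lit 0) (XT.lf (nat_lit 0) (nat_lit 837764261)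 (nat_lit 684) (nat_lit 6343637402) (nat_lit 76) (nat_lit 1787980020) (nat_lit 249) (nat_lit 5) (nat_lit 258) (nat_lit 5) (nat_lit 250) (nat_lit 5) (nat_lit 436) (nat_lit 410) (nat_lit 354)) (XT.lf (nat_lit 0) (nat_lit 2867364511) (nat_lit 684) (nat_lit 1000030096) (nat_lit 76) (nat_lit 5225180024) (nat_lit 249) (nat_lit 5) (nat_lit 258) (nat_lit 5) (nat_lit 250) (nat_lit 5) (nat_lit 437) (nat_lit 410) (nat_lit 353))) (XT.nd (nat_lit 78) (nat_lit 532) (nat_lit 0) (XT.lf (nat_lit 0) (nat_lit 4551156899) (nat_lit 608) (nat_lit 409467304) (nat_lit 684) (nat_lit 4258765438) (nat_lit 241) (nat_lit 5) (nat_lit 249) (nat_lit 5) (nat_lit 250) (nat_lit 5) (nat_lit 438) (nat_lit 410) (nat_lit 352)) (XT.lf (nat_lit 0) (nat_lit 884189763) (nat_lit 532) (nat_lit 6241302393) (nat_lit 608) (nat_lit 2224261773) (nat_lit 234) (nat_lit 5) (nat_lit 241) (nat_lit 5) (nat_lit 242) (nat_lit 5) (nat_lit 439) (nat_lit 410) (nat_lit 351)))))))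 (XT.nd (nat_lit 1170) (nat_lit 3496) (nat_lit 0) (XT.nd (nat_lit 546) (nat_lit 2280) (nat_lit 0) (XT.nd (nat_lit 234) (nat_lit 1596) (nat_lit 0) (XT.nd (nat_lit 78) (nat_lit 608) (nat_lit 0) (XT.lf (nat_lit 0) (nat_lit 6652823264) (nat_lit 532) (nat_lit 2714216735) (nat_lit 608) (nat_lit 116646004) (nat_lit 234) (nat_lit 5) (nat_lit 241) (nat_lit 5) (nat_lit 242) (nat_lit 5) (nat_lit 440) (nat_lit 410) (nat_lit 350)) (XT.nd (nat_lit 78) (nat_lit 0) (nat_lit 0) (XT.lf (nat_lit 0) (nat_lit 2013281309) (nat_lit 608) (nat_lit 6661034070) (nat_lit 76) (nat_lit 946761605) (nat_lit 226) (nat_lit 5) (nat_lit 234) (nat_lit 5) (nat_lit 227) (nat_lit 5) (nat_lit 441) (nat_lit 410) (nat_lit 349)) (XT.lf (nat_lit 0) (nat_lit 4222545862) (nat_lit 608) (nat_lit 849524784) (nat_lit 76) (nat_lit 4689959006) (nat_lit 226) (nat_lit 5) (nat_lit 234) (nat_lit 5) (nat_lit 227) (nat_lit 5) (nat_lit 442) (nat_lit 410) (nat_lit 348))))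 (XT.nd (nat_lit 156) (nat_lit 532) (nat_lit 0) (XT.nd (nat_lit 78) (nat_lit 532) (nat_lit 0) (XT.lf (nat_lit 0) (nat_lit 5196779461) (nat_lit 532) (nat_lit 1314410367) (nat_lit 608) (nat_lit 3395635914) (nat_lit 219) (nat_lit 5) (nat_lit 226) (nat_lit 5) (nat_lit 227) (nat_lit 5) (nat_lit 443) (nat_lit 410) (nat_lit 347)) (XT.lf (nat_lit 0) (nat_lit 1346186038) (nat_lit 532) (nat_lit 7532268772) (nat_lit 608) (nat_lit 1177219709) (nat_lit 212) (nat_lit 5) (nat_lit 219) (nat_lit 5) (nat_lit 220) (nat_lit 5) (nat_lit 444) (nat_lit 410) (nat_lit 346))) (XT.nd (nat_lit 78) (nat_lit 456) (nat_lit 0) (XT.lf (nat_lit 0) (nat_lit 1111267518) (nat_lit 608) (nat_lit 2592959727) (nat_lit 76) (nat_lit 6503695237) (nat_lit 211) (nat_lit 5) (nat_lit 219) (nat_lit 5) (nat_lit 212) (nat_lit 5) (nat_lit 445) (nat_lit 410) (nat_lit 345)) (XT.lf (nat_lit 0) (nat_lit 3448420671) (nat_lit 532) (nat_lit 6639629610) (nat_lit 76) (nat_lit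 276234774) (nat_lit 205) (nat_lit 5) (nat_lit 212) (nat_lit 5) (nat_lit 206) (nat_lit 5) (nat_lit 446) (nat_lit 410) (nat_lit 344))))) (XT.nd (nat_lit 312) (nat_lit 1292) (nat_lit 0) (XT.nd (nat_lit 156) (nat_lit 532) (nat_lit 0) (XT.nd (nat_lit 78) (nat_lit 456) (nat_lit 0) (XT.lf (nat_lit 0) (nat_lit 5884510429) (nat_lit 532) (nat_lit 317812442) (nat_lit 76) (nat_lit 4322157775) (nat_lit 205) (nat_lit 5) (nat_lit 212) (nat_lit 5) (nat_lit 206) (nat_lit 5) (nat_lit 447) (nat_lit 410) (nat_lit 343)) (XT.lf (nat_lit 0) (nat_lit 6276052984) (nat_lit 456) (nat_lit 2144661525) (nat_lit 532) (nat_lit 2267963253) (nat_lit 199) (nat_lit 5) (nat_lit 205) (nat_lit 5) (nat_lit 206) (nat_lit 5) (nat_lit 448) (nat_lit 410) (nat_lit 342))) (XT.nd (nat_lit 78) (nat_lit 0) (nat_lit 0) (XT.lf (nat_lit 0) (nat_lit 183053871) (nat_lit 532) (nat_lit 8659999857) (nat_lit 76) (nat_lit 2014364697) (nat_lit 192) (nat_lit 5) (nat_lit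 199) (nat_lit 5) (nat_lit 193) (nat_lit 5) (nat_lit 449) (nat_lit 410) (nat_lit 341)) (XT.lf (nat_lit 0) (nat_lit 2695718918) (nat_lit 532) (nat_lit 2018655260) (nat_lit 76) (nat_lit 6315168485) (nat_lit 192) (nat_lit 5) (nat_lit 199) (nat_lit 5) (nat_lit 193) (nat_lit 5) (nat_lit 450) (nat_lit 410) (nat_lit 340)))) (XT.nd (nat_lit 156) (nat_lit 456) (nat_lit 0) (XT.nd (nat_lit 78) (nat_lit 380) (nat_lit 0) (XT.lf (nat_lit 0) (nat_lit 4877438213) (nat_lit 456) (nat_lit 421625105) (nat_lit 532) (nat_lit 5907314195) (nat_lit 186) (nat_lit 5) (nat_lit 192) (nat_lit 5) (nat_lit 193) (nat_lit 5) (nat_lit 451) (nat_lit 410) (nat_lit 339)) (XT.lf (nat_lit 0) (nat_lit 566148521) (nat_lit 380) (nat_lit 7447715237) (nat_lit 456) (nat_lit 3373658676) (nat_lit 181) (nat_lit 5) (nat_lit 186) (nat_lit 5) (nat_lit 187) (nat_lit 5) (nat_lit 452) (nat_lit 410) (nat_lit 338))) (XT.nd (nat_lit 78) (nat_lit 456) (nat_lit 0) (XT.lf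 (nat_lit 0) (nat_lit 7753825169) (nat_lit 380) (nat_lit 3093728644) (nat_lit 456) (nat_lit 725430053) (nat_lit 181) (nat_lit 5) (nat_lit 186) (nat_lit 5) (nat_lit 187) (nat_lit 5) (nat_lit 453) (nat_lit 410) (nat_lit 337)) (XT.lf (nat_lit 0) (nat_lit 1979657342) (nat_lit 456) (nat_lit 8376097395) (nat_lit 76) (nat_lit 1407187724) (nat_lit 175) (nat_lit 5) (nat_lit 181) (nat_lit 5) (nat_lit 176) (nat_lit 5) (nat_lit 454) (nat_lit 410) (nat_lit 336)))))) (XT.nd (nat_lit 624) (nat_lit 1596) (nat_lit 0) (XT.nd (nat_lit 312) (nat_lit 1064) (nat_lit 0) (XT.nd (nat_lit 156) (nat_lit 456) (nat_lit 0) (XT.nd (nat_lit 78) (nat_lit 380) (nat_lit 0) (XT.lf (nat_lit 0) (nat_lit 4791301291) (nat_lit 456) (nat_lit 1147924901) (nat_lit 76) (nat_lit 6017963678) (nat_lit 175) (nat_lit 5) (nat_lit 181) (nat_lit 5) (nat_lit 176) (nat_lit 5) (nat_lit 455) (nat_lit 410) (nat_lit 335)) (XT.lf (nat_lit 0) (nat_lit 6383200817) (nat_lit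 380) (nat_lit 1336720473) (nat_lit 456) (nat_lit 4436369525) (nat_lit 170) (nat_lit 5) (nat_lit 175) (nat_lit 5) (nat_lit 176) (nat_lit 5) (nat_lit 456) (nat_lit 410) (nat_lit 334))) (XT.nd (nat_lit 78) (nat_lit 76) (nat_lit 0) (XT.lf (nat_lit 0) (nat_lit 1765559766) (nat_lit 380) (nat_lit 9003882364) (nat_lit 456) (nat_lit 1590936161) (nat_lit 165) (nat_lit 5) (nat_lit 170) (nat_lit 5) (nat_lit 171) (nat_lit 5) (nat_lit 457) (nat_lit 410) (nat_lit 333)) (XT.lf (nat_lit 0) (nat_lit 1357643202) (nat_lit 456) (nat_lit 2985836528) (nat_lit 76) (nat_lit 8225408916) (nat_lit 164) (nat_lit 5) (nat_lit 170) (nat_lit 5) (nat_lit 165) (nat_lit 5) (nat_lit 458) (nat_lit 410) (nat_lit 332)))) (XT.nd (nat_lit 156) (nat_lit 760) (nat_lit 0) (XT.nd (nat_lit 78) (nat_lit 0) (nat_lit 0) (XT.lf (nat_lit 0) (nat_lit 4387292085) (nat_lit 380) (nat_lit 7894239117) (nat_lit 76) (nat_lit 500917270) (nat_lit 160) (nat_lit 5) (nat_lit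 165) (nat_lit 5) (nat_lit 161) (nat_lit 5) (nat_lit 459) (nat_lit 410) (nat_lit 331)) (XT.lf (nat_lit 0) (nat_lit 7554259710) (nat_lit 380) (nat_lit 23350020) (nat_lit 76) (nat_lit 5423416722) (nat_lit 160) (nat_lit 5) (nat_lit 165) (nat_lit 5) (nat_lit 161) (nat_lit 5) (nat_lit 460) (nat_lit 410) (nat_lit 330))) (XT.nd (nat_lit 78) (nat_lit 380) (nat_lit 0) (XT.lf (nat_lit 0) (nat_lit 8206701726) (nat_lit 380) (nat_lit 2662184520) (nat_lit 456) (nat_lit 2355700146) (nat_lit 155) (nat_lit 5) (nat_lit 160) (nat_lit 5) (nat_lit 161) (nat_lit 5) (nat_lit 461) (nat_lit 410) (nat_lit 329)) (XT.lf (nat_lit 0) (nat_lit 840666906) (nat_lit 380) (nat_lit 10230388456) (nat_lit 76) (nat_lit 2382701011) (nat_lit 150) (nat_lit 5) (nat_lit 155) (nat_lit 5) (nat_lit 151) (nat_lit 5) (nat_lit 462) (nat_lit 410) (nat_lit 328))))) (XT.nd (nat_lit 312) (nat_lit 912) (nat_lit 0) (XT.nd (nat_lit 156) (nat_lit 380) (nat_lit 0) (XT.nd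 (nat_lit 78) (nat_lit 304) (nat_lit 0) (XT.lf (nat_lit 0) (nat_lit 4137319169) (nat_lit 380) (nat_lit 1961311869) (nat_lit 76) (nat_lit 7588922226) (nat_lit 150) (nat_lit 5) (nat_lit 155) (nat_lit 5) (nat_lit 151) (nat_lit 5) (nat_lit 463) (nat_lit 410) (nat_lit 327)) (XT.lf (nat_lit 0) (nat_lit 6649112708) (nat_lit 304) (nat_lit 922635464) (nat_lit 380) (nat_lit 6355453233) (nat_lit 146) (nat_lit 5) (nat_lit 150) (nat_lit 5) (nat_lit 151) (nat_lit 5) (nat_lit 464) (nat_lit 410) (nat_lit 326))) (XT.nd (nat_lit 78) (nat_lit 76) (nat_lit 0) (XT.lf (nat_lit 0) (nat_lit 1331265357) (nat_lit 304) (nat_lit 9828355458) (nat_lit 380) (nat_lit 3012909398) (nat_lit 142) (nat_lit 5) (nat_lit 146) (nat_lit 5) (nat_lit 147) (nat_lit 5) (nat_lit 465) (nat_lit 410) (nat_lit 325)) (XT.lf (nat_lit 0) (nat_lit 480239188) (nat_lit 380) (nat_lit 4125796978) (nat_lit 76) (nat_lit 9817300565) (nat_lit 141) (nat_lit 5) (nat_lit 146)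 (nat_lit 5) (nat_lit 142) (nat_lit 5) (nat_lit 466) (nat_lit 410) (nat_lit 324)))) (XT.nd (nat_lit 156) (nat_lit 608) (nat_lit 0) (XT.nd (nat_lit 78) (nat_lit 0) (nat_lit 0) (XT.lf (nat_lit 0) (nat_lit 4048696200) (nat_lit 380) (nat_lit 9807423911) (nat_lit 76) (nat_lit 823723544) (nat_lit 137) (nat_lit 5) (nat_lit 142) (nat_lit 5) (nat_lit 138) (nat_lit 5) (nat_lit 467) (nat_lit 410) (nat_lit 323)) (XT.lf (nat_lit 0) (nat_lit 7788205937) (nat_lit 380) (nat_lit 799706942) (nat_lit 76) (nat_lit 6354216093) (nat_lit 137) (nat_lit 5) (nat_lit 142) (nat_lit 5) (nat_lit 138) (nat_lit 5) (nat_lit 468) (nat_lit 410) (nat_lit 322))) (XT.nd (nat_lit 78) (nat_lit 380) (nat_lit 0) (XT.lf (nat_lit 0) (nat_lit 8611276645) (nat_lit 228) (nat_lit 3088410633) (nat_lit 304) (nat_lit 3510805041) (nat_lit 134) (nat_lit 5) (nat_lit 137) (nat_lit 5) (nat_lit 138) (nat_lit 5) (nat_lit 469) (nat_lit 410) (nat_lit 321)) (XT.lf (nat_lit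 0) (nat_lit 274606044) (nat_lit 380) (nat_lit 12659018419) (nat_lit 76) (nat_lit 2552083892) (nat_lit 129) (nat_lit 5) (nat_lit 134) (nat_lit 5) (nat_lit 130) (nat_lit 5) (nat_lit 470) (nat_lit 410) (nat_lit 320))))))))
noncomputable def xc122 : XT := (XT.nd (nat_lit 2340) (nat_lit 2508) (nat_lit 0) (XT.nd (nat_lit 1170) (nat_lit 1824) (nat_lit 0) (XT.nd (nat_lit 546) (nat_lit 1140) (nat_lit 0) (XT.nd (nat_lit 234) (nat_lit 532) (nat_lit 0) (XT.nd (nat_lit 78) (nat_lit 532) (nat_lit 0) (XT.lf (nat_lit 0) (nat_lit 4178226407) (nat_lit 380) (nat_lit 3197864611) (nat_lit 76) (nat_lit 8389793523) (nat_lit 129) (nat_lit 5) (nat_lit 134) (nat_lit 5) (nat_lit 130) (nat_lit 5) (nat_lit 471) (nat_lit 410) (nat_lit 319)) (XT.nd (nat_lit 78) (nat_lit 304) (nat_lit 0) (XT.lf (nat_lit 0) (nat_lit 6642436311) (nat_lit 228) (nat_lit 1598363818) (nat_lit 304) (nat_lit 7812413263) (nat_lit 126) (nat_lit 5) (nat_lit 129) (nat_lit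 5) (nat_lit 130) (nat_lit 5) (nat_lit 472) (nat_lit 410) (nat_lit 318)) (XT.lf (nat_lit 0) (nat_lit 426972876) (nat_lit 304) (nat_lit 12055025171) (nat_lit 380) (nat_lit 3865464292) (nat_lit 122) (nat_lit 5) (nat_lit 126) (nat_lit 5) (nat_lit 127) (nat_lit 5) (nat_lit 473) (nat_lit 410) (nat_lit 317)))) (XT.nd (nat_lit 156) (nat_lit 228) (nat_lit 0) (XT.nd (nat_lit 78) (nat_lit 228) (nat_lit 0) (XT.lf (nat_lit 0) (nat_lit 286070592) (nat_lit 380) (nat_lit 5948209452) (nat_lit 76) (nat_lit 10413501213) (nat_lit 121) (nat_lit 5) (nat_lit 126) (nat_lit 5) (nat_lit 122) (nat_lit 5) (nat_lit 474) (nat_lit 410) (nat_lit 316)) (XT.lf (nat_lit 0) (nat_lit 4335984634) (nat_lit 228) (nat_lit 169069005) (nat_lit 304) (nat_lit 12450292540) (nat_lit 118) (nat_lit 5) (nat_lit 121) (nat_lit 5) (nat_lit 122) (nat_lit 5) (nat_lit 475) (nat_lit 410) (nat_lit 315))) (XT.nd (nat_lit 78) (nat_lit 228) (nat_lit 0) (XT.lf (nat_lit 0)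 (nat_lit 8948781036) (nat_lit 304) (nat_lit 2312490131) (nat_lit 76) (nat_lit 6007923983) (nat_lit 118) (nat_lit 5) (nat_lit 122) (nat_lit 5) (nat_lit 119) (nat_lit 5) (nat_lit 476) (nat_lit 410) (nat_lit 314)) (XT.lf (nat_lit 0) (nat_lit 8433698969) (nat_lit 228) (nat_lit 5154562681) (nat_lit 304) (nat_lit 4002326977) (nat_lit 115) (nat_lit 5) (nat_lit 118) (nat_lit 5) (nat_lit 119) (nat_lit 5) (nat_lit 477) (nat_lit 410) (nat_lit 313))))) (XT.nd (nat_lit 312) (nat_lit 608) (nat_lit 0) (XT.nd (nat_lit 156) (nat_lit 228) (nat_lit 0) (XT.nd (nat_lit 78) (nat_lit 0) (nat_lit 0) (XT.lf (nat_lit 0) (nat_lit 466796679) (nat_lit 304) (nat_lit 16309106926) (nat_lit 76) (nat_lit 1144688535) (nat_lit 111) (nat_lit 5) (nat_lit 115) (nat_lit 5) (nat_lit 112) (nat_lit 5) (nat_lit 478) (nat_lit 410) (nat_lit 312)) (XT.lf (nat_lit 0) (nat_lit 5113900121) (nat_lit 304) (nat_lit 5491707639) (nat_lit 76) (nat_lit 7649970807) (nat_lit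 111) (nat_lit 5) (nat_lit 115) (nat_lit 5) (nat_lit 112) (nat_lit 5) (nat_lit 479) (nat_lit 410) (nat_lit 311))) (XT.nd (nat_lit 78) (nat_lit 0) (nat_lit 0) (XT.lf (nat_lit 0) (nat_lit 5729961056) (nat_lit 228) (nat_lit 4206051489) (nat_lit 304) (nat_lit 8663536188) (nat_lit 108) (nat_lit 5) (nat_lit 111) (nat_lit 5) (nat_lit 112) (nat_lit 5) (nat_lit 480) (nat_lit 410) (nat_lit 310)) (XT.lf (nat_lit 0) (nat_lit 14962381536) (nat_lit 304) (nat_lit 1607008345) (nat_lit 76) (nat_lit 2382662294) (nat_lit 108) (nat_lit 5) (nat_lit 112) (nat_lit 5) (nat_lit 109) (nat_lit 5) (nat_lit 481) (nat_lit 410) (nat_lit 309)))) (XT.nd (nat_lit 156) (nat_lit 152) (nat_lit 0) (XT.nd (nat_lit 78) (nat_lit 228) (nat_lit 0) (XT.lf (nat_lit 0) (nat_lit 929636560) (nat_lit 228) (nat_lit 9202671041) (nat_lit 76) (nat_lit 9178947842) (nat_lit 105) (nat_lit 5) (nat_lit 108) (nat_lit 5) (nat_lit 106) (nat_lit 5) (nat_lit 482) (nat_lit 410)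 (nat_lit 308)) (XT.lf (nat_lit 0) (nat_lit 2505734448) (nat_lit 228) (nat_lit 3432360298) (nat_lit 304) (nat_lit 13741304006) (nat_lit 102) (nat_lit 5) (nat_lit 105) (nat_lit 5) (nat_lit 106) (nat_lit 5) (nat_lit 483) (nat_lit 410) (nat_lit 307))) (XT.nd (nat_lit 78) (nat_lit 152) (nat_lit 0) (XT.lf (nat_lit 0) (nat_lit 11205409149) (nat_lit 304) (nat_lit 5367488838) (nat_lit 76) (nat_lit 3482432045) (nat_lit 102) (nat_lit 5) (nat_lit 106) (nat_lit 5) (nat_lit 103) (nat_lit 5) (nat_lit 484) (nat_lit 410) (nat_lit 306)) (XT.lf (nat_lit 0) (nat_lit 6862245813) (nat_lit 152) (nat_lit 9850397744) (nat_lit 228) (nat_lit 3727440372) (nat_lit 100) (nat_lit 5) (nat_lit 102) (nat_lit 5) (nat_lit 103) (nat_lit 5) (nat_lit 485) (nat_lit 410) (nat_lit 305)))))) (XT.nd (nat_lit 546) (nat_lit 912) (nat_lit 0) (XT.nd (nat_lit 234) (nat_lit 456) (nat_lit 0) (XT.nd (nat_lit 78) (nat_lit 380) (nat_lit 0) (XT.lf (nat_lit 0) (nat_lit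 1555240909) (nat_lit 228) (nat_lit 1311887067) (nat_lit 76) (nat_lit 17967705028) (nat_lit 99) (nat_lit 5) (nat_lit 102) (nat_lit 5) (nat_lit 100) (nat_lit 5) (nat_lit 486) (nat_lit 410) (nat_lit 304)) (XT.nd (nat_lit 78) (nat_lit 152) (nat_lit 0) (XT.lf (nat_lit 0) (nat_lit 7057286477) (nat_lit 304) (nat_lit 9801029362) (nat_lit 76) (nat_lit 4377929053) (nat_lit 96) (nat_lit 5) (nat_lit 100) (nat_lit 5) (nat_lit 97) (nat_lit 5) (nat_lit 487) (nat_lit 410) (nat_lit 303)) (XT.lf (nat_lit 0) (nat_lit 2941371811) (nat_lit 152) (nat_lit 9835704233) (nat_lit 228) (nat_lit 8871044119) (nat_lit 94) (nat_lit 5) (nat_lit 96) (nat_lit 5) (nat_lit 97) (nat_lit 5) (nat_lit 488) (nat_lit 410) (nat_lit 302)))) (XT.nd (nat_lit 156) (nat_lit 152) (nat_lit 0) (XT.nd (nat_lit 78) (nat_lit 304) (nat_lit 0) (XT.lf (nat_lit 0) (nat_lit 16237420675) (nat_lit 152) (nat_lit 2512873762) (nat_lit 228) (nat_lit 3319603664) (nat_lit 94) (nat_lit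 5) (nat_lit 96) (nat_lit 5) (nat_lit 97) (nat_lit 5) (nat_lit 489) (nat_lit 410) (nat_lit 301)) (XT.lf (nat_lit 0) (nat_lit 2456264089) (nat_lit 304) (nat_lit 15028397138) (nat_lit 76) (nat_lit 5015837335) (nat_lit 90) (nat_lit 5) (nat_lit 94) (nat_lit 5) (nat_lit 91) (nat_lit 5) (nat_lit 490) (nat_lit 410) (nat_lit 300))) (XT.nd (nat_lit 78) (nat_lit 152) (nat_lit 0) (XT.lf (nat_lit 0) (nat_lit 8406340338) (nat_lit 304) (nat_lit 1734312164) (nat_lit 76) (nat_lit 12800350255) (nat_lit 90) (nat_lit 5) (nat_lit 94) (nat_lit 5) (nat_lit 91) (nat_lit 5) (nat_lit 491) (nat_lit 410) (nat_lit 299)) (XT.lf (nat_lit 0) (nat_lit 12167770940) (nat_lit 152) (nat_lit 2467892138) (nat_lit 228) (nat_lit 8756037973) (nat_lit 88) (nat_lit 5) (nat_lit 90) (nat_lit 5) (nat_lit 91) (nat_lit 5) (nat_lit 492) (nat_lit 410) (nat_lit 298))))) (XT.nd (nat_lit 312) (nat_lit 532) (nat_lit 0) (XT.nd (nat_lit 156) (nat_lit 152) (nat_lit 0)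 (XT.nd (nat_lit 78) (nat_lit 76) (nat_lit 0) (XT.lf (nat_lit 0) (nat_lit 2637776326) (nat_lit 152) (nat_lit 18493245204) (nat_lit 228) (nat_lit 2722525346) (nat_lit 86) (nat_lit 5) (nat_lit 88) (nat_lit 5) (nat_lit 89) (nat_lit 5) (nat_lit 493) (nat_lit 410) (nat_lit 297)) (XT.lf (nat_lit 0) (nat_lit 3546657319) (nat_lit 228) (nat_lit 7267952847) (nat_lit 76) (nat_lit 13509947902) (nat_lit 85) (nat_lit 5) (nat_lit 88) (nat_lit 5) (nat_lit 86) (nat_lit 5) (nat_lit 494) (nat_lit 410) (nat_lit 296))) (XT.nd (nat_lit 78) (nat_lit 0) (nat_lit 0) (XT.lf (nat_lit 0) (nat_lit 7183961111) (nat_lit 152) (nat_lit 2818669150) (nat_lit 228) (nat_lit 14804658774) (nat_lit 83) (nat_lit 5) (nat_lit 85) (nat_lit 5) (nat_lit 86) (nat_lit 5) (nat_lit 495) (nat_lit 410) (nat_lit 295)) (XT.lf (nat_lit 0) (nat_lit 16762930831) (nat_lit 228) (nat_lit 3164328565) (nat_lit 76) (nat_lit 5373924201) (nat_lit 83) (nat_lit 5) (nat_lit 86)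 (nat_lit 5) (nat_lit 84) (nat_lit 5) (nat_lit 496) (nat_lit 410) (nat_lit 294)))) (XT.nd (nat_lit 156) (nat_lit 152) (nat_lit 0) (XT.nd (nat_lit 78) (nat_lit 228) (nat_lit 0) (XT.lf (nat_lit 0) (nat_lit 11906020582) (nat_lit 152) (nat_lit 11947284872) (nat_lit 228) (nat_lit 1952772680) (nat_lit 81) (nat_lit 5) (nat_lit 83) (nat_lit 5) (nat_lit 84) (nat_lit 5) (nat_lit 497) (nat_lit 410) (nat_lit 293)) (XT.lf (nat_lit 0) (nat_lit 1116341461) (nat_lit 152) (nat_lit 3647620069) (nat_lit 228) (nat_lit 21559927685) (nat_lit 78) (nat_lit 5) (nat_lit 80) (nat_lit 5) (nat_lit 81) (nat_lit 5) (nat_lit 498) (nat_lit 410) (nat_lit 292))) (XT.nd (nat_lit 78) (nat_lit 152) (nat_lit 0) (XT.lf (nat_lit 0) (nat_lit 11816828425) (nat_lit 228) (nat_lit 10079639771) (nat_lit 76) (nat_lit 4954971013) (nat_lit 78) (nat_lit 5) (nat_lit 81) (nat_lit 5) (nat_lit 79) (nat_lit 5) (nat_lit 499) (nat_lit 410) (nat_lit 291)) (XT.lf (nat_lit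 0) (nat_lit 5548088365) (nat_lit 152) (nat_lit 13608090743) (nat_lit 228) (nat_lit 8236390629) (nat_lit 76) (nat_lit 5) (nat_lit 78) (nat_lit 5) (nat_lit 79) (nat_lit 5) (nat_lit 500) (nat_lit 410) (nat_lit 290))))))) (XT.nd (nat_lit 1170) (nat_lit 1140) (nat_lit 0) (XT.nd (nat_lit 546) (nat_lit 608) (nat_lit 0) (XT.nd (nat_lit 234) (nat_lit 532) (nat_lit 0) (XT.nd (nat_lit 78) (nat_lit 228) (nat_lit 0) (XT.lf (nat_lit 0) (nat_lit 21825362380) (nat_lit 152) (nat_lit 4977758348) (nat_lit 228) (nat_lit 1144192079) (nat_lit 76) (nat_lit 5) (nat_lit 78) (nat_lit 5) (nat_lit 79) (nat_lit 5) (nat_lit 501) (nat_lit 410) (nat_lit 289)) (XT.nd (nat_lit 78) (nat_lit 0) (nat_lit 0) (XT.lf (nat_lit 0) (nat_lit 6163423018) (nat_lit 228) (nat_lit 18367081441) (nat_lit 76) (nat_lit 3982731878) (nat_lit 73) (nat_lit 5) (nat_lit 76) (nat_lit 5) (nat_lit 74) (nat_lit 5) (nat_lit 502) (nat_lit 410) (nat_lit 288)) (XT.lf (nat_lit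 0) (nat_lit 13764951545) (nat_lit 228) (nat_lit 2153207577) (nat_lit 76) (nat_lit 13174708988) (nat_lit 73) (nat_lit 5) (nat_lit 76) (nat_lit 5) (nat_lit 74) (nat_lit 5) (nat_lit 503) (nat_lit 410) (nat_lit 287)))) (XT.nd (nat_lit 156) (nat_lit 228) (nat_lit 0) (XT.nd (nat_lit 78) (nat_lit 152) (nat_lit 0) (XT.lf (nat_lit 0) (nat_lit 14811351421) (nat_lit 152) (nat_lit 6911924642) (nat_lit 228) (nat_lit 7962751103) (nat_lit 71) (nat_lit 5) (nat_lit 73) (nat_lit 5) (nat_lit 74) (nat_lit 5) (nat_lit 504) (nat_lit 410) (nat_lit 286)) (XT.lf (nat_lit 0) (nat_lit 2024406567) (nat_lit 152) (nat_lit 27946520452) (nat_lit 228) (nat_lit 324537484) (nat_lit 69) (nat_lit 5) (nat_lit 71) (nat_lit 5) (nat_lit 72) (nat_lit 4) (nat_lit 505) (nat_lit 410) (nat_lit 285))) (XT.nd (nat_lit 78) (nat_lit 152) (nat_lit 0) (XT.lf (nat_lit 0) (nat_lit 7602217018) (nat_lit 228) (nat_lit 11350566354) (nat_lit 76) (nat_lit 11962029700) (nat_lit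 68) (nat_lit 5) (nat_lit 71) (nat_lit 5) (nat_lit 69) (nat_lit 5) (nat_lit 506) (nat_lit 410) (nat_lit 284)) (XT.lf (nat_lit 0) (nat_lit 6170624378) (nat_lit 152) (nat_lit 9635792203) (nat_lit 228) (nat_lit 15744844902) (nat_lit 66) (nat_lit 5) (nat_lit 68) (nat_lit 5) (nat_lit 69) (nat_lit 5) (nat_lit 507) (nat_lit 410) (nat_lit 283))))) (XT.nd (nat_lit 312) (nat_lit 304) (nat_lit 0) (XT.nd (nat_lit 156) (nat_lit 152) (nat_lit 0) (XT.nd (nat_lit 78) (nat_lit 152) (nat_lit 0) (XT.lf (nat_lit 0) (nat_lit 24359016150) (nat_lit 228) (nat_lit 7778158722) (nat_lit 76) (nat_lit 66560974) (nat_lit 66) (nat_lit 5) (nat_lit 69) (nat_lit 5) (nat_lit 67) (nat_lit 4) (nat_lit 508) (nat_lit 410) (nat_lit 282)) (XT.lf (nat_lit 0) (nat_lit 471527253) (nat_lit 152) (nat_lit 22437719436) (nat_lit 76) (nat_lit 9960909386) (nat_lit 64) (nat_lit 5) (nat_lit 66) (nat_lit 5) (nat_lit 65) (nat_lit 5) (nat_lit 509) (nat_lit 410) (nat_lit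 281))) (XT.nd (nat_lit 78) (nat_lit 152) (nat_lit 0) (XT.lf (nat_lit 0) (nat_lit 8946214382) (nat_lit 152) (nat_lit 4307348952) (nat_lit 76) (nat_lit 20298677405) (nat_lit 64) (nat_lit 5) (nat_lit 66) (nat_lit 5) (nat_lit 65) (nat_lit 5) (nat_lit 510) (nat_lit 410) (nat_lit 280)) (XT.lf (nat_lit 0) (nat_lit 14629610301) (nat_lit 152) (nat_lit 3173832482) (nat_lit 228) (nat_lit 16447496779) (nat_lit 62) (nat_lit 5) (nat_lit 64) (nat_lit 5) (nat_lit 65) (nat_lit 5) (nat_lit 511) (nat_lit 410) (nat_lit 279)))) (XT.nd (nat_lit 156) (nat_lit 152) (nat_lit 0) (XT.nd (nat_lit 78) (nat_lit 152) (nat_lit 0) (XT.lf (nat_lit 0) (nat_lit 27027319053) (nat_lit 228) (nat_lit 838882414) (nat_lit 76) (nat_lit 7101370571) (nat_lit 62) (nat_lit 5) (nat_lit 65) (nat_lit 5) (nat_lit 63) (nat_lit 4) (nat_lit 512) (nat_lit 410) (nat_lit 278)) (XT.lf (nat_lit 0) (nat_lit 1008559638) (nat_lit 152) (nat_lit 16888882494) (nat_lit 76) (nat_lit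 17801952963) (nat_lit 60) (nat_lit 5) (nat_lit 62) (nat_lit 5) (nat_lit 61) (nat_lit 5) (nat_lit 513) (nat_lit 410) (nat_lit 277))) (XT.nd (nat_lit 78) (nat_lit 0) (nat_lit 0) (XT.lf (nat_lit 0) (nat_lit 2562779409) (nat_lit 152) (nat_lit 7524746899) (nat_lit 228) (nat_lit 26362650186) (nat_lit 58) (nat_lit 5) (nat_lit 60) (nat_lit 5) (nat_lit 61) (nat_lit 5) (nat_lit 514) (nat_lit 410) (nat_lit 276)) (XT.lf (nat_lit 0) (nat_lit 19629591059) (nat_lit 228) (nat_lit 14328458813) (nat_lit 76) (nat_lit 3259710142) (nat_lit 58) (nat_lit 5) (nat_lit 61) (nat_lit 5) (nat_lit 59) (nat_lit 4) (nat_lit 515) (nat_lit 410) (nat_lit 275)))))) (XT.nd (nat_lit 624) (nat_lit 532) (nat_lit 0) (XT.nd (nat_lit 312) (nat_lit 304) (nat_lit 0) (XT.nd (nat_lit 156) (nat_lit 152) (nat_lit 0) (XT.nd (nat_lit 78) (nat_lit 76) (nat_lit 0) (XT.lf (nat_lit 0) (nat_lit 5835020560) (nat_lit 76) (nat_lit 23741963636) (nat_lit 152) (nat_lit 8427815385)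 (nat_lit 57) (nat_lit 5) (nat_lit 58) (nat_lit 5) (nat_lit 59) (nat_lit 4) (nat_lit 516) (nat_lit 410) (nat_lit 274)) (XT.lf (nat_lit 0) (nat_lit 1122304802) (nat_lit 152) (nat_lit 11946706591) (nat_lit 76) (nat_lit 25742110559) (nat_lit 56) (nat_lit 5) (nat_lit 58) (nat_lit 5) (nat_lit 57) (nat_lit 5) (nat_lit 517) (nat_lit 410) (nat_lit 273))) (XT.nd (nat_lit 78) (nat_lit 0) (nat_lit 0) (XT.lf (nat_lit 0) (nat_lit 8953350897) (nat_lit 152) (nat_lit 1911078356) (nat_lit 228) (nat_lit 28772455178) (nat_lit 54) (nat_lit 5) (nat_lit 56) (nat_lit 5) (nat_lit 57) (nat_lit 5) (nat_lit 518) (nat_lit 410) (nat_lit 272)) (XT.lf (nat_lit 0) (nat_lit 21101612977) (nat_lit 228) (nat_lit 9872801659) (nat_lit 76) (nat_lit 9506921757) (nat_lit 54) (nat_lit 5) (nat_lit 57) (nat_lit 5) (nat_lit 55) (nat_lit 4) (nat_lit 519) (nat_lit 410) (nat_lit 271)))) (XT.nd (nat_lit 156) (nat_lit 152) (nat_lit 0) (XT.nd (nat_lit 78) (nat_lit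 76) (nat_lit 0) (XT.lf (nat_lit 0) (nat_lit 11752263142) (nat_lit 76) (nat_lit 20014723744) (nat_lit 152) (nat_lit 9580503249) (nat_lit 53) (nat_lit 5) (nat_lit 54) (nat_lit 5) (nat_lit 55) (nat_lit 4) (nat_lit 520) (nat_lit 410) (nat_lit 270)) (XT.lf (nat_lit 0) (nat_lit 592569786) (nat_lit 152) (nat_lit 8034502284) (nat_lit 76) (nat_lit 33609712583) (nat_lit 52) (nat_lit 5) (nat_lit 54) (nat_lit 5) (nat_lit 53) (nat_lit 5) (nat_lit 521) (nat_lit 410) (nat_lit 269))) (XT.nd (nat_lit 78) (nat_lit 0) (nat_lit 0) (XT.lf (nat_lit 0) (nat_lit 11037650357) (nat_lit 228) (nat_lit 28839967544) (nat_lit 76) (nat_lit 3267513615) (nat_lit 50) (nat_lit 5) (nat_lit 53) (nat_lit 5) (nat_lit 51) (nat_lit 4) (nat_lit 522) (nat_lit 410) (nat_lit 268)) (XT.lf (nat_lit 0) (nat_lit 21952976175) (nat_lit 228) (nat_lit 6704640703) (nat_lit 76) (nat_lit 15418405532) (nat_lit 50) (nat_lit 5) (nat_lit 53) (nat_lit 5) (nat_lit 51) (nat_lit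 4) (nat_lit 523) (nat_lit 410) (nat_lit 267))))) (XT.nd (nat_lit 312) (nat_lit 228) (nat_lit 0) (XT.nd (nat_lit 156) (nat_lit 228) (nat_lit 0) (XT.nd (nat_lit 78) (nat_lit 0) (nat_lit 0) (XT.lf (nat_lit 0) (nat_lit 16395411822) (nat_lit 76) (nat_lit 16947797587) (nat_lit 152) (nat_lit 11687207591) (nat_lit 49) (nat_lit 5) (nat_lit 50) (nat_lit 5) (nat_lit 51) (nat_lit 4) (nat_lit 524) (nat_lit 410) (nat_lit 266)) (XT.lf (nat_lit 0) (nat_lit 40306825726) (nat_lit 76) (nat_lit 4825984938) (nat_lit 152) (nat_lit 878903320) (nat_lit 49) (nat_lit 5) (nat_lit 50) (nat_lit 5) (nat_lit 51) (nat_lit 4) (nat_lit 525) (nat_lit 410) (nat_lit 265))) (XT.nd (nat_lit 78) (nat_lit 0) (nat_lit 0) (XT.lf (nat_lit 0) (nat_lit 10294432076) (nat_lit 228) (nat_lit 28940779615) (nat_lit 76) (nat_lit 7777055591) (nat_lit 46) (nat_lit 5) (nat_lit 49) (nat_lit 5) (nat_lit 47) (nat_lit 4) (nat_lit 526) (nat_lit 410) (nat_lit 264)) (XT.lf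 (nat_lit 0) (nat_lit 21881440003) (nat_lit 228) (nat_lit 5438807692) (nat_lit 76) (nat_lit 20719444650) (nat_lit 46) (nat_lit 5) (nat_lit 49) (nat_lit 5) (nat_lit 47) (nat_lit 4) (nat_lit 527) (nat_lit 410) (nat_lit 263)))) (XT.nd (nat_lit 156) (nat_lit 152) (nat_lit 0) (XT.nd (nat_lit 78) (nat_lit 0) (nat_lit 0) (XT.lf (nat_lit 0) (nat_lit 19123187769) (nat_lit 76) (nat_lit 14867157248) (nat_lit 152) (nat_lit 15102366881) (nat_lit 45) (nat_lit 5) (nat_lit 46) (nat_lit 5) (nat_lit 47) (nat_lit 4) (nat_lit 528) (nat_lit 410) (nat_lit 262)) (XT.lf (nat_lit 0) (nat_lit 44515513842) (nat_lit 76) (nat_lit 1992492266) (nat_lit 152) (nat_lit 3667951598) (nat_lit 45) (nat_lit 5) (nat_lit 46) (nat_lit 5) (nat_lit 47) (nat_lit 4) (nat_lit 529) (nat_lit 410) (nat_lit 261))) (XT.nd (nat_lit 78) (nat_lit 0) (nat_lit 0) (XT.lf (nat_lit 0) (nat_lit 8241925319) (nat_lit 152) (nat_lit 31728818696) (nat_lit 76) (nat_lit 11309898342)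 (nat_lit 43) (nat_lit 5) (nat_lit 45) (nat_lit 5) (nat_lit 44) (nat_lit 4) (nat_lit 530) (nat_lit 410) (nat_lit 260)) (XT.lf (nat_lit 0) (nat_lit 20503601444) (nat_lit 152) (nat_lit 6854570021) (nat_lit 76) (nat_lit 25057160145) (nat_lit 43) (nat_lit 5) (nat_lit 45) (nat_lit 5) (nat_lit 44) (nat_lit 4) (nat_lit 531) (nat_lit 410) (nat_lit 259))))))))
noncomputable def xc123 : XT := (XT.nd (nat_lit 53898) (nat_lit 0) (nat_lit 11856) (XT.nd (nat_lit 1170) (nat_lit 228) (nat_lit 0) (XT.nd (nat_lit 546) (nat_lit 380) (nat_lit 0) (XT.nd (nat_lit 234) (nat_lit 152) (nat_lit 0) (XT.nd (nat_lit 78) (nat_lit 152) (nat_lit 0) (XT.lf (nat_lit 0) (nat_lit 19121857886) (nat_lit 76) (nat_lit 14186121866) (nat_lit 152) (nat_lit 20270836529) (nat_lit 42) (nat_lit 5) (nat_lit 43) (nat_lit 5) (nat_lit 44) (nat_lit 4) (nat_lit 532) (nat_lit 410) (nat_lit 258)) (XT.nd (nat_lit 78) (nat_lit 152) (nat_lit 0) (XT.lf (nat_lit 0) (nat_lit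 46001074526) (nat_lit 76) (nat_lit 555770881) (nat_lit 152) (nat_lit 8218549693) (nat_lit 42) (nat_lit 5) (nat_lit 43) (nat_lit 5) (nat_lit 44) (nat_lit 4) (nat_lit 533) (nat_lit 410) (nat_lit 257)) (XT.lf (nat_lit 0) (nat_lit 4409158070) (nat_lit 152) (nat_lit 38160901187) (nat_lit 76) (nat_lit 13427730925) (nat_lit 40) (nat_lit 5) (nat_lit 42) (nat_lit 5) (nat_lit 41) (nat_lit 4) (nat_lit 534) (nat_lit 410) (nat_lit 256)))) (XT.nd (nat_lit 156) (nat_lit 76) (nat_lit 0) (XT.nd (nat_lit 78) (nat_lit 76) (nat_lit 0) (XT.lf (nat_lit 0) (nat_lit 17336824569) (nat_lit 152) (nat_lit 11932362744) (nat_lit 76) (nat_lit 27982639549) (nat_lit 40) (nat_lit 5) (nat_lit 42) (nat_lit 5) (nat_lit 41) (nat_lit 4) (nat_lit 535) (nat_lit 410) (nat_lit 255)) (XT.lf (nat_lit 0) (nat_lit 15366665773) (nat_lit 76) (nat_lit 15424950474) (nat_lit 152) (nat_lit 27747689795) (nat_lit 39) (nat_lit 5) (nat_lit 40) (nat_lit 5) (nat_lit 41)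 (nat_lit 4) (nat_lit 536) (nat_lit 410) (nat_lit 254))) (XT.nd (nat_lit 78) (nat_lit 76) (nat_lit 0) (XT.lf (nat_lit 0) (nat_lit 43713200878) (nat_lit 76) (nat_lit 1049016426) (nat_lit 152) (nat_lit 15099827573) (nat_lit 39) (nat_lit 5) (nat_lit 40) (nat_lit 5) (nat_lit 41) (nat_lit 4) (nat_lit 537) (nat_lit 410) (nat_lit 253)) (XT.lf (nat_lit 0) (nat_lit 11767267083) (nat_lit 76) (nat_lit 47621878173) (nat_lit 76) (nat_lit 1828204596) (nat_lit 38) (nat_lit 4) (nat_lit 39) (nat_lit 5) (nat_lit 39) (nat_lit 4) (nat_lit 538) (nat_lit 410) (nat_lit 252))))) (XT.nd (nat_lit 312) (nat_lit 228) (nat_lit 0) (XT.nd (nat_lit 156) (nat_lit 0) (nat_lit 0) (XT.nd (nat_lit 78) (nat_lit 76) (nat_lit 0) (XT.lf (nat_lit 0) (nat_lit 11777417851) (nat_lit 152) (nat_lit 21898130600) (nat_lit 76) (nat_lit 28929343228) (nat_lit 37) (nat_lit 5) (nat_lit 39) (nat_lit 5) (nat_lit 38) (nat_lit 4) (nat_lit 539) (nat_lit 410) (nat_lit 251))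 (XT.lf (nat_lit 0) (nat_lit 6575269312) (nat_lit 76) (nat_lit 19234487328) (nat_lit 152) (nat_lit 38222101529) (nat_lit 36) (nat_lit 5) (nat_lit 37) (nat_lit 5) (nat_lit 38) (nat_lit 4) (nat_lit 540) (nat_lit 410) (nat_lit 250))) (XT.nd (nat_lit 78) (nat_lit 0) (nat_lit 0) (XT.lf (nat_lit 0) (nat_lit 36336594624) (nat_lit 76) (nat_lit 4139771084) (nat_lit 152) (nat_lit 25018869155) (nat_lit 36) (nat_lit 5) (nat_lit 37) (nat_lit 5) (nat_lit 38) (nat_lit 4) (nat_lit 541) (nat_lit 410) (nat_lit 249)) (XT.lf (nat_lit 0) (nat_lit 55684963118) (nat_lit 152) (nat_lit 136296563) (nat_lit 0) (nat_lit 11178193683) (nat_lit 36) (nat_lit 5) (nat_lit 38) (nat_lit 4) (nat_lit 36) (nat_lit 4) (nat_lit 542) (nat_lit 410) (nat_lit 248)))) (XT.nd (nat_lit 156) (nat_lit 76) (nat_lit 0) (XT.nd (nat_lit 78) (nat_lit 0) (nat_lit 0) (XT.lf (nat_lit 0) (nat_lit 3074308644) (nat_lit 152) (nat_lit 38276804924) (nat_lit 76) (nat_lit 27187038896)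 (nat_lit 34) (nat_lit 5) (nat_lit 36) (nat_lit 5) (nat_lit 35) (nat_lit 4) (nat_lit 543) (nat_lit 410) (nat_lit 247)) (XT.lf (nat_lit 0) (nat_lit 17661312383) (nat_lit 152) (nat_lit 8675752418) (nat_lit 76) (nat_lit 43782768658) (nat_lit 34) (nat_lit 5) (nat_lit 36) (nat_lit 5) (nat_lit 35) (nat_lit 4) (nat_lit 544) (nat_lit 410) (nat_lit 246))) (XT.nd (nat_lit 78) (nat_lit 0) (nat_lit 0) (XT.lf (nat_lit 0) (nat_lit 22233143675) (nat_lit 76) (nat_lit 10659278785) (nat_lit 152) (nat_lit 38850347722) (nat_lit 33) (nat_lit 5) (nat_lit 34) (nat_lit 5) (nat_lit 35) (nat_lit 4) (nat_lit 545) (nat_lit 410) (nat_lit 245)) (XT.lf (nat_lit 0) (nat_lit 48714492915) (nat_lit 152) (nat_lit 19232293910) (nat_lit 0) (nat_lit 5463587549) (nat_lit 33) (nat_lit 5) (nat_lit 35) (nat_lit 4) (nat_lit 33) (nat_lit 4) (nat_lit 546) (nat_lit 410) (nat_lit 244)))))) (XT.nd (nat_lit 52104) (nat_lit 0) (nat_lit 24244) (XT.nd (nat_lit 234)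 (nat_lit 76) (nat_lit 0) (XT.nd (nat_lit 78) (nat_lit 76) (nat_lit 0) (XT.lf (nat_lit 0) (nat_lit 12069705143) (nat_lit 76) (nat_lit 53156078641) (nat_lit 76) (nat_lit 9895786334) (nat_lit 32) (nat_lit 4) (nat_lit 33) (nat_lit 5) (nat_lit 33) (nat_lit 4) (nat_lit 547) (nat_lit 410) (nat_lit 243)) (XT.nd (nat_lit 78) (nat_lit 0) (nat_lit 0) (XT.lf (nat_lit 0) (nat_lit 5433082961) (nat_lit 152) (nat_lit 32240247430) (nat_lit 76) (nat_lit 39203555086) (nat_lit 31) (nat_lit 5) (nat_lit 33) (nat_lit 5) (nat_lit 32) (nat_lit 4) (nat_lit 548) (nat_lit 410) (nat_lit 242)) (XT.lf (nat_lit 0) (nat_lit 21016131397) (nat_lit 152) (nat_lit 615507197) (nat_lit 76) (nat_lit 57050486261) (nat_lit 31) (nat_lit 5) (nat_lit 33) (nat_lit 5) (nat_lit 32) (nat_lit 4) (nat_lit 549) (nat_lit 410) (nat_lit 241)))) (XT.nd (nat_lit 51714) (nat_lit 0) (nat_lit 25764) (XT.nd (nat_lit 51636) (nat_lit 0) (nat_lit 25764) (XT.lf (nat_lit 0) (nat_lit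 32580883736) (nat_lit 76) (nat_lit 4792381313) (nat_lit 152) (nat_lit 43159058708) (nat_lit 30) (nat_lit 5) (nat_lit 31) (nat_lit 5) (nat_lit 32) (nat_lit 4) (nat_lit 550) (nat_lit 410) (nat_lit 240)) (XT.lf (nat_lit 0) (nat_lit 513793544) (nat_lit 0) (nat_lit 513793544) (nat_lit 684) (nat_lit 2450541256) (nat_lit 369) (nat_lit 5) (nat_lit 369) (nat_lit 3) (nat_lit 378) (nat_lit 3) (nat_lit 411) (nat_lit 411) (nat_lit 378))) (XT.nd (nat_lit 78) (nat_lit 0) (nat_lit 0) (XT.lf (nat_lit 0) (nat_lit 3942622081) (nat_lit 684) (nat_lit 2495702940) (nat_lit 760) (nat_lit 565991308) (nat_lit 369) (nat_lit 5) (nat_lit 378) (nat_lit 3) (nat_lit 379) (nat_lit 5) (nat_lit 412) (nat_lit 411) (nat_lit 377)) (XT.lf (nat_lit 76) (nat_lit 1011151389) (nat_lit 0) (nat_lit 4823541048) (nat_lit 760) (nat_lit 1220708207) (nat_lit 370) (nat_lit 5) (nat_lit 369) (nat_lit 5) (nat_lit 379) (nat_lit 5) (nat_lit 413) (nat_lit 411) (nat_lit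 376))))) (XT.nd (nat_lit 312) (nat_lit 760) (nat_lit 0) (XT.nd (nat_lit 156) (nat_lit 0) (nat_lit 76) (XT.nd (nat_lit 78) (nat_lit 0) (nat_lit 0) (XT.lf (nat_lit 0) (nat_lit 616891704) (nat_lit 760) (nat_lit 2479345239) (nat_lit 836) (nat_lit 4012970310) (nat_lit 359) (nat_lit 5) (nat_lit 369) (nat_lit 5) (nat_lit 370) (nat_lit 5) (nat_lit 414) (nat_lit 411) (nat_lit 375)) (XT.lf (nat_lit 76) (nat_lit 1164589972) (nat_lit 0) (nat_lit 1262868632) (nat_lit 836) (nat_lit 4738556564) (nat_lit 360) (nat_lit 5) (nat_lit 359) (nat_lit 5) (nat_lit 370) (nat_lit 5) (nat_lit 415) (nat_lit 411) (nat_lit 374))) (XT.nd (nat_lit 78) (nat_lit 0) (nat_lit 0) (XT.lf (nat_lit 0) (nat_lit 4256735216) (nat_lit 760) (nat_lit 2301861107) (nat_lit 836) (nat_lit 667019522) (nat_lit 360) (nat_lit 5) (nat_lit 370) (nat_lit 5) (nat_lit 371) (nat_lit 5) (nat_lit 416) (nat_lit 411) (nat_lit 373)) (XT.lf (nat_lit 76) (nat_lit 1485868585) (nat_lit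 0) (nat_lit 4616852538) (nat_lit 836) (nat_lit 1185448204) (nat_lit 361) (nat_lit 5) (nat_lit 360) (nat_lit 5) (nat_lit 371) (nat_lit 5) (nat_lit 417) (nat_lit 411) (nat_lit 372)))) (XT.nd (nat_lit 156) (nat_lit 0) (nat_lit 76) (XT.nd (nat_lit 78) (nat_lit 0) (nat_lit 0) (XT.lf (nat_lit 0) (nat_lit 598163885) (nat_lit 836) (nat_lit 1964199555) (nat_lit 912) (nat_lit 4791284993) (nat_lit 349) (nat_lit 5) (nat_lit 360) (nat_lit 5) (nat_lit 361) (nat_lit 5) (nat_lit 418) (nat_lit 411) (nat_lit 371)) (XT.lf (nat_lit 76) (nat_lit 1976833275) (nat_lit 0) (nat_lit 391408936) (nat_lit 912) (nat_lit 5053812105) (nat_lit 350) (nat_lit 5) (nat_lit 349) (nat_lit 5) (nat_lit 361) (nat_lit 5) (nat_lit 419) (nat_lit 411) (nat_lit 370))) (XT.nd (nat_lit 78) (nat_lit 0) (nat_lit 0) (XT.lf (nat_lit 0) (nat_lit 4168620692) (nat_lit 836) (nat_lit 1474204579) (nat_lit 912) (nat_lit 1850388685) (nat_lit 350) (nat_lit 5) (nat_lit 361)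 (nat_lit 5) (nat_lit 362) (nat_lit 5) (nat_lit 420) (nat_lit 411) (nat_lit 369)) (XT.lf (nat_lit 76) (nat_lit 2623731535) (nat_lit 0) (nat_lit 3369574001) (nat_lit 912) (nat_lit 1574111006) (nat_lit 351) (nat_lit 5) (nat_lit 350) (nat_lit 5) (nat_lit 362) (nat_lit 5) (nat_lit 421) (nat_lit 411) (nat_lit 368))))))) (XT.nd (nat_lit 1170) (nat_lit 5396) (nat_lit 0) (XT.nd (nat_lit 546) (nat_lit 4332) (nat_lit 0) (XT.nd (nat_lit 234) (nat_lit 1824) (nat_lit 0) (XT.nd (nat_lit 78) (nat_lit 0) (nat_lit 76) (XT.lf (nat_lit 0) (nat_lit 181403272) (nat_lit 912) (nat_lit 811238418) (nat_lit 988) (nat_lit 6652444020) (nat_lit 338) (nat_lit 5) (nat_lit 350) (nat_lit 5) (nat_lit 351) (nat_lit 5) (nat_lit 422) (nat_lit 411) (nat_lit 367)) (XT.nd (nat_lit 78) (nat_lit 0) (nat_lit 0) (XT.lf (nat_lit 0) (nat_lit 1949466399) (nat_lit 912) (nat_lit 4282037991) (nat_lit 988) (nat_lit 1493382925) (nat_lit 339) (nat_lit 5) (nat_lit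 351) (nat_lit 5) (nat_lit 352) (nat_lit 5) (nat_lit 423) (nat_lit 411) (nat_lit 366)) (XT.lf (nat_lit 0) (nat_lit 3733739259) (nat_lit 912) (nat_lit 16141609) (nat_lit 988) (nat_lit 4058322173) (nat_lit 339) (nat_lit 5) (nat_lit 351) (nat_lit 5) (nat_lit 352) (nat_lit 5) (nat_lit 424) (nat_lit 411) (nat_lit 365)))) (XT.nd (nat_lit 156) (nat_lit 1064) (nat_lit 0) (XT.nd (nat_lit 78) (nat_lit 836) (nat_lit 0) (XT.lf (nat_lit 76) (nat_lit 4424670547) (nat_lit 0) (nat_lit 1136069076) (nat_lit 988) (nat_lit 2333617306) (nat_lit 340) (nat_lit 5) (nat_lit 339) (nat_lit 5) (nat_lit 352) (nat_lit 5) (nat_lit 425) (nat_lit 411) (nat_lit 364)) (XT.lf (nat_lit 0) (nat_lit 979376966) (nat_lit 912) (nat_lit 6435682077) (nat_lit 988) (nat_lit 568875361) (nat_lit 328) (nat_lit 5) (nat_lit 340) (nat_lit 5) (nat_lit 341) (nat_lit 5) (nat_lit 426) (nat_lit 411) (nat_lit 363))) (XT.nd (nat_lit 78) (nat_lit 988) (nat_lit 0) (XT.lf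 (nat_lit 0) (nat_lit 1219653822) (nat_lit 988) (nat_lit 2507068924) (nat_lit 76) (nat_lit 4349273340) (nat_lit 327) (nat_lit 5) (nat_lit 340) (nat_lit 5) (nat_lit 328) (nat_lit 5) (nat_lit 427) (nat_lit 411) (nat_lit 362)) (XT.lf (nat_lit 0) (nat_lit 2120944923) (nat_lit 988) (nat_lit 899927170) (nat_lit 1064) (nat_lit 5150677575) (nat_lit 314) (nat_lit 5) (nat_lit 327) (nat_lit 5) (nat_lit 328) (nat_lit 5) (nat_lit 428) (nat_lit 411) (nat_lit 361))))) (XT.nd (nat_lit 312) (nat_lit 2052) (nat_lit 0) (XT.nd (nat_lit 156) (nat_lit 1216) (nat_lit 0) (XT.nd (nat_lit 78) (nat_lit 1064) (nat_lit 0) (XT.lf (nat_lit 0) (nat_lit 4872269866) (nat_lit 1064) (nat_lit 1390932791) (nat_lit 76) (nat_lit 2006895567) (nat_lit 314) (nat_lit 5) (nat_lit 328) (nat_lit 5) (nat_lit 315) (nat_lit 5) (nat_lit 429) (nat_lit 411) (nat_lit 360)) (XT.lf (nat_lit 0) (nat_lit 3426357410) (nat_lit 1064) (nat_lit 3347357203) (nat_lit 1140) (nat_lit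 1598065756) (nat_lit 300) (nat_lit 5) (nat_lit 314) (nat_lit 5) (nat_lit 315) (nat_lit 5) (nat_lit 430) (nat_lit 411) (nat_lit 359))) (XT.nd (nat_lit 78) (nat_lit 1140) (nat_lit 0) (XT.lf (nat_lit 0) (nat_lit 218070111) (nat_lit 1140) (nat_lit 102681695) (nat_lit 76) (nat_lit 8156677924) (nat_lit 299) (nat_lit 5) (nat_lit 314) (nat_lit 5) (nat_lit 300) (nat_lit 5) (nat_lit 431) (nat_lit 411) (nat_lit 358)) (XT.lf (nat_lit 0) (nat_lit 2086038322) (nat_lit 1216) (nat_lit 3687135187) (nat_lit 76) (nat_lit 2811727597) (nat_lit 284) (nat_lit 5) (nat_lit 300) (nat_lit 5) (nat_lit 285) (nat_lit 5) (nat_lit 432) (nat_lit 411) (nat_lit 357)))) (XT.nd (nat_lit 156) (nat_lit 836) (nat_lit 0) (XT.nd (nat_lit 78) (nat_lit 0) (nat_lit 0) (XT.lf (nat_lit 0) (nat_lit 1337174950) (nat_lit 1216) (nat_lit 2645495787) (nat_lit 1292) (nat_lit 4713758048) (nat_lit 268) (nat_lit 5) (nat_lit 284) (nat_lit 5) (nat_lit 285) (nat_lit 5)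 (nat_lit 433) (nat_lit 411) (nat_lit 356)) (XT.lf (nat_lit 0) (nat_lit 5935831388) (nat_lit 1292) (nat_lit 2269745226) (nat_lit 76) (nat_lit 605747399) (nat_lit 268) (nat_lit 5) (nat_lit 285) (nat_lit 5) (nat_lit 269) (nat_lit 5) (nat_lit 434) (nat_lit 411) (nat_lit 355))) (XT.nd (nat_lit 78) (nat_lit 76) (nat_lit 0) (XT.lf (nat_lit 0) (nat_lit 2963846923) (nat_lit 760) (nat_lit 4996181334) (nat_lit 836) (nat_lit 969274888) (nat_lit 258) (nat_lit 5) (nat_lit 268) (nat_lit 5) (nat_lit 269) (nat_lit 5) (nat_lit 435) (nat_lit 411) (nat_lit 354)) (XT.lf (nat_lit 0) (nat_lit 956062952) (nat_lit 836) (nat_lit 699634129) (nat_lit 76) (nat_lit 7395407605) (nat_lit 257) (nat_lit 5) (nat_lit 268) (nat_lit 5) (nat_lit 258) (nat_lit 5) (nat_lit 436) (nat_lit 411) (nat_lit 353)))))) (XT.nd (nat_lit 624) (nat_lit 2508) (nat_lit 0) (XT.nd (nat_lit 312) (nat_lit 1140) (nat_lit 0) (XT.nd (nat_lit 156) (nat_lit 532) (nat_lit 0)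 (XT.nd (nat_lit 78) (nat_lit 608) (nat_lit 0) (XT.lf (nat_lit 0) (nat_lit 2942634810) (nat_lit 684) (nat_lit 4425739955) (nat_lit 76) (nat_lit 1807218359) (nat_lit 249) (nat_lit 5) (nat_lit 258) (nat_lit 5) (nat_lit 250) (nat_lit 5) (nat_lit 437) (nat_lit 411) (nat_lit 352)) (XT.lf (nat_lit 0) (nat_lit 1037007240) (nat_lit 608) (nat_lit 3945509292) (nat_lit 684) (nat_lit 4321497444) (nat_lit 241) (nat_lit 5) (nat_lit 249) (nat_lit 5) (nat_lit 250) (nat_lit 5) (nat_lit 438) (nat_lit 411) (nat_lit 351))) (XT.nd (nat_lit 78) (nat_lit 532) (nat_lit 0) (XT.lf (nat_lit 0) (nat_lit 6714427409) (nat_lit 608) (nat_lit 374849918) (nat_lit 684) (nat_lit 2346848523) (nat_lit 241) (nat_lit 5) (nat_lit 249) (nat_lit 5) (nat_lit 250) (nat_lit 5) (nat_lit 439) (nat_lit 411) (nat_lit 350)) (XT.lf (nat_lit 0) (nat_lit 2976393634) (nat_lit 532) (nat_lit 6305326880) (nat_lit 608) (nat_lit 289814795) (nat_lit 234) (nat_lit 5) (nat_lit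 241) (nat_lit 5) (nat_lit 242) (nat_lit 5) (nat_lit 440) (nat_lit 411) (nat_lit 349)))) (XT.nd (nat_lit 156) (nat_lit 532) (nat_lit 0) (XT.nd (nat_lit 78) (nat_lit 532) (nat_lit 0) (XT.lf (nat_lit 0) (nat_lit 1787174522) (nat_lit 608) (nat_lit 870795945) (nat_lit 76) (nat_lit 7052699276) (nat_lit 233) (nat_lit 5) (nat_lit 241) (nat_lit 5) (nat_lit 234) (nat_lit 5) (nat_lit 441) (nat_lit 411) (nat_lit 348)) (XT.lf (nat_lit 0) (nat_lit 3944113036) (nat_lit 608) (nat_lit 4782084958) (nat_lit 76) (nat_lit 1126998084) (nat_lit 226) (nat_lit 5) (nat_lit 234) (nat_lit 5) (nat_lit 227) (nat_lit 5) (nat_lit 442) (nat_lit 411) (nat_lit 347))) (XT.nd (nat_lit 78) (nat_lit 0) (nat_lit 0) (XT.lf (nat_lit 0) (nat_lit 1165974983) (nat_lit 532) (nat_lit 5010409966) (nat_lit 608) (nat_lit 3823302150) (nat_lit 219) (nat_lit 5) (nat_lit 226) (nat_lit 5) (nat_lit 227) (nat_lit 5) (nat_lit 443) (nat_lit 411) (nat_lit 346)) (XT.lf (nat_lit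 0) (nat_lit 7351129386) (nat_lit 532) (nat_lit 1137669192) (nat_lit 608) (nat_lit 1661386501) (nat_lit 219) (nat_lit 5) (nat_lit 226) (nat_lit 5) (nat_lit 227) (nat_lit 5) (nat_lit 444) (nat_lit 411) (nat_lit 345))))) (XT.nd (nat_lit 312) (nat_lit 988) (nat_lit 0) (XT.nd (nat_lit 156) (nat_lit 912) (nat_lit 0) (XT.nd (nat_lit 78) (nat_lit 0) (nat_lit 0) (XT.lf (nat_lit 0) (nat_lit 580723600) (nat_lit 608) (nat_lit 6893429571) (nat_lit 76) (nat_lit 2830097695) (nat_lit 211) (nat_lit 5) (nat_lit 219) (nat_lit 5) (nat_lit 212) (nat_lit 5) (nat_lit 445) (nat_lit 411) (nat_lit 344)) (XT.lf (nat_lit 0) (nat_lit 2862662778) (nat_lit 608) (nat_lit 665226263) (nat_lit 76) (nat_lit 6934384168) (nat_lit 211) (nat_lit 5) (nat_lit 219) (nat_lit 5) (nat_lit 212) (nat_lit 5) (nat_lit 446) (nat_lit 411) (nat_lit 343))) (XT.nd (nat_lit 78) (nat_lit 456) (nat_lit 0) (XT.lf (nat_lit 0) (nat_lit 5241851135) (nat_lit 532) (nat_lit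 4804881677) (nat_lit 76) (nat_lit 577446284) (nat_lit 205) (nat_lit 5) (nat_lit 212) (nat_lit 5) (nat_lit 206) (nat_lit 5) (nat_lit 447) (nat_lit 411) (nat_lit 342)) (XT.lf (nat_lit 0) (nat_lit 1680134605) (nat_lit 456) (nat_lit 6037816807) (nat_lit 532) (nat_lit 3072231071) (nat_lit 199) (nat_lit 5) (nat_lit 205) (nat_lit 5) (nat_lit 206) (nat_lit 5) (nat_lit 448) (nat_lit 411) (nat_lit 341)))) (XT.nd (nat_lit 156) (nat_lit 456) (nat_lit 0) (XT.nd (nat_lit 78) (nat_lit 532) (nat_lit 0) (XT.lf (nat_lit 0) (nat_lit 8419670752) (nat_lit 456) (nat_lit 1865427282) (nat_lit 532) (nat_lit 675571262) (nat_lit 199) (nat_lit 5) (nat_lit 205) (nat_lit 5) (nat_lit 206) (nat_lit 5) (nat_lit 449) (nat_lit 411) (nat_lit 340)) (XT.lf (nat_lit 0) (nat_lit 1791627214) (nat_lit 532) (nat_lit 6906509979) (nat_lit 76) (nat_lit 2436613533) (nat_lit 192) (nat_lit 5) (nat_lit 199) (nat_lit 5) (nat_lit 193) (nat_lit 5) (nat_lit 450) (nat_lit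 411) (nat_lit 339))) (XT.nd (nat_lit 78) (nat_lit 456) (nat_lit 0) (XT.lf (nat_lit 0) (nat_lit 4332980512) (nat_lit 532) (nat_lit 124564555) (nat_lit 76) (nat_lit 6855903049) (nat_lit 192) (nat_lit 5) (nat_lit 199) (nat_lit 5) (nat_lit 193) (nat_lit 5) (nat_lit 451) (nat_lit 411) (nat_lit 338)) (XT.lf (nat_lit 0) (nat_lit 6959248483) (nat_lit 456) (nat_lit 28450098) (nat_lit 532) (nat_lit 4508699651) (nat_lit 186) (nat_lit 5) (nat_lit 192) (nat_lit 5) (nat_lit 193) (nat_lit 5) (nat_lit 452) (nat_lit 411) (nat_lit 337))))))))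
noncomputable def xc124 : XT := (XT.nd (nat_lit 2340) (nat_lit 3496) (nat_lit 0) (XT.nd (nat_lit 1170) (nat_lit 2508) (nat_lit 0) (XT.nd (nat_lit 546) (nat_lit 1748) (nat_lit 0) (XT.nd (nat_lit 234) (nat_lit 836) (nat_lit 0) (XT.nd (nat_lit 78) (nat_lit 456) (nat_lit 0) (XT.lf (nat_lit 0) (nat_lit 2541499908) (nat_lit 380) (nat_lit 7220502250) (nat_lit 456) (nat_lit 1921641746) (nat_lit 181) (nat_lit 5) (nat_lit 186) (nat_lit 5) (nat_lit 187) (nat_lit 5) (nat_lit 453) (nat_lit 411) (nat_lit 336)) (XT.nd (nat_lit 78) (nat_lit 380) (nat_lit 0) (XT.lf (nat_lit 0) (nat_lit 745948289) (nat_lit 456) (nat_lit 1995540721) (nat_lit 76) (nat_lit 9134286136) (nat_lit 180) (nat_lit 5) (nat_lit 186) (nat_lit 5) (nat_lit 181) (nat_lit 5) (nat_lit 454) (nat_lit 411) (nat_lit 335)) (XT.lf (nat_lit 0) (nat_lit 3497327599) (nat_lit 456) (nat_lit 6675840371) (nat_lit 76) (nat_lit 1898664946) (nat_lit 175) (nat_lit 5) (nat_lit 181)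 (nat_lit 5) (nat_lit 176) (nat_lit 5) (nat_lit 455) (nat_lit 411) (nat_lit 334)))) (XT.nd (nat_lit 156) (nat_lit 456) (nat_lit 0) (XT.nd (nat_lit 78) (nat_lit 0) (nat_lit 0) (XT.lf (nat_lit 0) (nat_lit 726513217) (nat_lit 380) (nat_lit 5631317148) (nat_lit 456) (nat_lit 5915149362) (nat_lit 170) (nat_lit 5) (nat_lit 175) (nat_lit 5) (nat_lit 176) (nat_lit 5) (nat_lit 456) (nat_lit 411) (nat_lit 333)) (XT.lf (nat_lit 0) (nat_lit 8450820337) (nat_lit 380) (nat_lit 893302306) (nat_lit 456) (nat_lit 3134843699) (nat_lit 170) (nat_lit 5) (nat_lit 175) (nat_lit 5) (nat_lit 176) (nat_lit 5) (nat_lit 457) (nat_lit 411) (nat_lit 332))) (XT.nd (nat_lit 78) (nat_lit 76) (nat_lit 0) (XT.lf (nat_lit 0) (nat_lit 3713255670) (nat_lit 380) (nat_lit 8754037973) (nat_lit 456) (nat_lit 222424710) (nat_lit 165) (nat_lit 5) (nat_lit 170) (nat_lit 5) (nat_lit 171) (nat_lit 5) (nat_lit 458) (nat_lit 411) (nat_lit 331)) (XT.lf (nat_lit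 0) (nat_lit 2746531334) (nat_lit 456) (nat_lit 1208822657) (nat_lit 76) (nat_lit 8949941412) (nat_lit 164) (nat_lit 5) (nat_lit 170) (nat_lit 5) (nat_lit 165) (nat_lit 5) (nat_lit 459) (nat_lit 411) (nat_lit 330))))) (XT.nd (nat_lit 312) (nat_lit 684) (nat_lit 0) (XT.nd (nat_lit 156) (nat_lit 380) (nat_lit 0) (XT.nd (nat_lit 78) (nat_lit 380) (nat_lit 0) (XT.lf (nat_lit 0) (nat_lit 5850584035) (nat_lit 380) (nat_lit 6247782803) (nat_lit 76) (nat_lit 1027396021) (nat_lit 160) (nat_lit 5) (nat_lit 165) (nat_lit 5) (nat_lit 161) (nat_lit 5) (nat_lit 460) (nat_lit 411) (nat_lit 329)) (XT.lf (nat_lit 0) (nat_lit 1840290749) (nat_lit 380) (nat_lit 7251173342) (nat_lit 456) (nat_lit 4260073070) (nat_lit 155) (nat_lit 5) (nat_lit 160) (nat_lit 5) (nat_lit 161) (nat_lit 5) (nat_lit 461) (nat_lit 411) (nat_lit 328))) (XT.nd (nat_lit 78) (nat_lit 380) (nat_lit 0) (XT.lf (nat_lit 0) (nat_lit 10263407557) (nat_lit 380) (nat_lit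 2204178654) (nat_lit 456) (nat_lit 1115361891) (nat_lit 155) (nat_lit 5) (nat_lit 160) (nat_lit 5) (nat_lit 161) (nat_lit 5) (nat_lit 462) (nat_lit 411) (nat_lit 327)) (XT.lf (nat_lit 0) (nat_lit 2136666375) (nat_lit 380) (nat_lit 8686188807) (nat_lit 76) (nat_lit 2996204921) (nat_lit 150) (nat_lit 5) (nat_lit 155) (nat_lit 5) (nat_lit 151) (nat_lit 5) (nat_lit 463) (nat_lit 411) (nat_lit 326)))) (XT.nd (nat_lit 156) (nat_lit 380) (nat_lit 0) (XT.nd (nat_lit 78) (nat_lit 304) (nat_lit 0) (XT.lf (nat_lit 0) (nat_lit 5495205211) (nat_lit 380) (nat_lit 222955786) (nat_lit 76) (nat_lit 8342825698) (nat_lit 150) (nat_lit 5) (nat_lit 155) (nat_lit 5) (nat_lit 151) (nat_lit 5) (nat_lit 464) (nat_lit 411) (nat_lit 325)) (XT.lf (nat_lit 0) (nat_lit 8628161965) (nat_lit 304) (nat_lit 385676544) (nat_lit 380) (nat_lit 5294555874) (nat_lit 146) (nat_lit 5) (nat_lit 150) (nat_lit 5) (nat_lit 151) (nat_lit 5) (nat_lit 465) (nat_lit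 411) (nat_lit 324))) (XT.nd (nat_lit 78) (nat_lit 76) (nat_lit 0) (XT.lf (nat_lit 0) (nat_lit 3164221952) (nat_lit 304) (nat_lit 9532243992) (nat_lit 380) (nat_lit 1865008650) (nat_lit 142) (nat_lit 5) (nat_lit 146) (nat_lit 5) (nat_lit 147) (nat_lit 5) (nat_lit 466) (nat_lit 411) (nat_lit 323)) (XT.lf (nat_lit 0) (nat_lit 1673408082) (nat_lit 380) (nat_lit 2485156346) (nat_lit 76) (nat_lit 10661949472) (nat_lit 141) (nat_lit 5) (nat_lit 146) (nat_lit 5) (nat_lit 142) (nat_lit 5) (nat_lit 467) (nat_lit 411) (nat_lit 322)))))) (XT.nd (nat_lit 546) (nat_lit 1064) (nat_lit 0) (XT.nd (nat_lit 234) (nat_lit 912) (nat_lit 0) (XT.nd (nat_lit 78) (nat_lit 228) (nat_lit 0) (XT.lf (nat_lit 0) (nat_lit 5337012253) (nat_lit 380) (nat_lit 8325170117) (nat_lit 76) (nat_lit 1422895520) (nat_lit 137) (nat_lit 5) (nat_lit 142) (nat_lit 5) (nat_lit 138) (nat_lit 5) (nat_lit 468) (nat_lit 411) (nat_lit 321)) (XT.nd (nat_lit 78) (nat_lit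 0) (nat_lit 0) (XT.lf (nat_lit 0) (nat_lit 918968716) (nat_lit 228) (nat_lit 8244586183) (nat_lit 304) (nat_lit 6192435965) (nat_lit 134) (nat_lit 5) (nat_lit 137) (nat_lit 5) (nat_lit 138) (nat_lit 5) (nat_lit 469) (nat_lit 411) (nat_lit 320)) (XT.lf (nat_lit 0) (nat_lit 10577440260) (nat_lit 228) (nat_lit 2589527206) (nat_lit 304) (nat_lit 2466204438) (nat_lit 134) (nat_lit 5) (nat_lit 137) (nat_lit 5) (nat_lit 138) (nat_lit 5) (nat_lit 470) (nat_lit 411) (nat_lit 319)))) (XT.nd (nat_lit 156) (nat_lit 532) (nat_lit 0) (XT.nd (nat_lit 78) (nat_lit 0) (nat_lit 0) (XT.lf (nat_lit 0) (nat_lit 1399750989) (nat_lit 380) (nat_lit 11297665347) (nat_lit 76) (nat_lit 3219217978) (nat_lit 129) (nat_lit 5) (nat_lit 134) (nat_lit 5) (nat_lit 130) (nat_lit 5) (nat_lit 471) (nat_lit 411) (nat_lit 318)) (XT.lf (nat_lit 0) (nat_lit 5387948698) (nat_lit 380) (nat_lit 1603389263) (nat_lit 76) (nat_lit 9214857785) (nat_lit 129)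 (nat_lit 5) (nat_lit 134) (nat_lit 5) (nat_lit 130) (nat_lit 5) (nat_lit 472) (nat_lit 411) (nat_lit 317))) (XT.nd (nat_lit 78) (nat_lit 304) (nat_lit 0) (XT.lf (nat_lit 0) (nat_lit 8515548026) (nat_lit 228) (nat_lit 1041357813) (nat_lit 304) (nat_lit 6945707341) (nat_lit 126) (nat_lit 5) (nat_lit 129) (nat_lit 5) (nat_lit 130) (nat_lit 5) (nat_lit 473) (nat_lit 411) (nat_lit 316)) (XT.lf (nat_lit 0) (nat_lit 2123333261) (nat_lit 304) (nat_lit 11792703122) (nat_lit 380) (nat_lit 2889936103) (nat_lit 122) (nat_lit 5) (nat_lit 126) (nat_lit 5) (nat_lit 127) (nat_lit 5) (nat_lit 474) (nat_lit 411) (nat_lit 315))))) (XT.nd (nat_lit 312) (nat_lit 532) (nat_lit 0) (XT.nd (nat_lit 156) (nat_lit 228) (nat_lit 0) (XT.nd (nat_lit 78) (nat_lit 228) (nat_lit 0) (XT.lf (nat_lit 0) (nat_lit 1333675209) (nat_lit 380) (nat_lit 4471342308) (nat_lit 76) (nat_lit 11310907387) (nat_lit 121) (nat_lit 5) (nat_lit 126) (nat_lit 5) (nat_lit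 122) (nat_lit 5) (nat_lit 475) (nat_lit 411) (nat_lit 314)) (XT.lf (nat_lit 0) (nat_lit 5668954509) (nat_lit 304) (nat_lit 11332240078) (nat_lit 76) (nat_lit 431833854) (nat_lit 118) (nat_lit 5) (nat_lit 122) (nat_lit 5) (nat_lit 119) (nat_lit 5) (nat_lit 476) (nat_lit 411) (nat_lit 313))) (XT.nd (nat_lit 78) (nat_lit 228) (nat_lit 0) (XT.lf (nat_lit 0) (nat_lit 10217655351) (nat_lit 304) (nat_lit 766303317) (nat_lit 76) (nat_lit 6773187732) (nat_lit 118) (nat_lit 5) (nat_lit 122) (nat_lit 5) (nat_lit 119) (nat_lit 5) (nat_lit 477) (nat_lit 411) (nat_lit 312)) (XT.lf (nat_lit 0) (nat_lit 10286432617) (nat_lit 228) (nat_lit 4696127098) (nat_lit 304) (nat_lit 3106038056) (nat_lit 115) (nat_lit 5) (nat_lit 118) (nat_lit 5) (nat_lit 119) (nat_lit 5) (nat_lit 478) (nat_lit 411) (nat_lit 311)))) (XT.nd (nat_lit 156) (nat_lit 228) (nat_lit 0) (XT.nd (nat_lit 78) (nat_lit 0) (nat_lit 0) (XT.lf (nat_lit 0) (nat_lit 1469686133)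 (nat_lit 304) (nat_lit 15170975694) (nat_lit 76) (nat_lit 1787778760) (nat_lit 111) (nat_lit 5) (nat_lit 115) (nat_lit 5) (nat_lit 112) (nat_lit 5) (nat_lit 479) (nat_lit 411) (nat_lit 310)) (XT.lf (nat_lit 0) (nat_lit 6227400186) (nat_lit 304) (nat_lit 4076454557) (nat_lit 76) (nat_lit 8470488930) (nat_lit 111) (nat_lit 5) (nat_lit 115) (nat_lit 5) (nat_lit 112) (nat_lit 5) (nat_lit 480) (nat_lit 411) (nat_lit 309))) (XT.nd (nat_lit 78) (nat_lit 0) (nat_lit 0) (XT.lf (nat_lit 0) (nat_lit 7466373960) (nat_lit 228) (nat_lit 3714877505) (nat_lit 304) (nat_lit 7947772121) (nat_lit 108) (nat_lit 5) (nat_lit 111) (nat_lit 5) (nat_lit 112) (nat_lit 5) (nat_lit 481) (nat_lit 411) (nat_lit 308)) (XT.lf (nat_lit 0) (nat_lit 16336585937) (nat_lit 304) (nat_lit 114353274) (nat_lit 76) (nat_lit 3041820510) (nat_lit 108) (nat_lit 5) (nat_lit 112) (nat_lit 5) (nat_lit 109) (nat_lit 5) (nat_lit 482) (nat_lit 411) (nat_lit 307)))))))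 (XT.nd (nat_lit 1170) (nat_lit 1596) (nat_lit 0) (XT.nd (nat_lit 546) (nat_lit 836) (nat_lit 0) (XT.nd (nat_lit 234) (nat_lit 608) (nat_lit 0) (XT.nd (nat_lit 78) (nat_lit 228) (nat_lit 0) (XT.lf (nat_lit 0) (nat_lit 1879703283) (nat_lit 228) (nat_lit 7934550597) (nat_lit 76) (nat_lit 10048585264) (nat_lit 105) (nat_lit 5) (nat_lit 108) (nat_lit 5) (nat_lit 106) (nat_lit 5) (nat_lit 483) (nat_lit 411) (nat_lit 306)) (XT.nd (nat_lit 78) (nat_lit 0) (nat_lit 0) (XT.lf (nat_lit 0) (nat_lit 4109967836) (nat_lit 228) (nat_lit 2916286110) (nat_lit 304) (nat_lit 13216140227) (nat_lit 102) (nat_lit 5) (nat_lit 105) (nat_lit 5) (nat_lit 106) (nat_lit 5) (nat_lit 484) (nat_lit 411) (nat_lit 305)) (XT.lf (nat_lit 0) (nat_lit 12430859770) (nat_lit 304) (nat_lit 4023176360) (nat_lit 76) (nat_lit 4176191608) (nat_lit 102) (nat_lit 5) (nat_lit 106) (nat_lit 5) (nat_lit 103) (nat_lit 5) (nat_lit 485) (nat_lit 411) (nat_lit 304))))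 (XT.nd (nat_lit 156) (nat_lit 152) (nat_lit 0) (XT.nd (nat_lit 78) (nat_lit 304) (nat_lit 0) (XT.lf (nat_lit 0) (nat_lit 8558692123) (nat_lit 152) (nat_lit 9533045841) (nat_lit 228) (nat_lit 2935135918) (nat_lit 100) (nat_lit 5) (nat_lit 102) (nat_lit 5) (nat_lit 103) (nat_lit 5) (nat_lit 486) (nat_lit 411) (nat_lit 303)) (XT.lf (nat_lit 0) (nat_lit 115377135) (nat_lit 228) (nat_lit 2348295007) (nat_lit 304) (nat_lit 18970276176) (nat_lit 96) (nat_lit 5) (nat_lit 99) (nat_lit 5) (nat_lit 100) (nat_lit 5) (nat_lit 487) (nat_lit 411) (nat_lit 302))) (XT.nd (nat_lit 78) (nat_lit 152) (nat_lit 0) (XT.lf (nat_lit 0) (nat_lit 8124312657) (nat_lit 304) (nat_lit 8625259278) (nat_lit 76) (nat_lit 5098026846) (nat_lit 96) (nat_lit 5) (nat_lit 100) (nat_lit 5) (nat_lit 97) (nat_lit 5) (nat_lit 488) (nat_lit 411) (nat_lit 301)) (XT.lf (nat_lit 0) (nat_lit 4485004116) (nat_lit 152) (nat_lit 9519770034) (nat_lit 228) (nat_lit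 8267385976) (nat_lit 94) (nat_lit 5) (nat_lit 96) (nat_lit 5) (nat_lit 97) (nat_lit 5) (nat_lit 489) (nat_lit 411) (nat_lit 300))))) (XT.nd (nat_lit 312) (nat_lit 380) (nat_lit 0) (XT.nd (nat_lit 156) (nat_lit 152) (nat_lit 0) (XT.nd (nat_lit 78) (nat_lit 304) (nat_lit 0) (XT.lf (nat_lit 0) (nat_lit 18137544413) (nat_lit 152) (nat_lit 1995050920) (nat_lit 228) (nat_lit 2574735981) (nat_lit 94) (nat_lit 5) (nat_lit 96) (nat_lit 5) (nat_lit 97) (nat_lit 5) (nat_lit 490) (nat_lit 411) (nat_lit 299)) (XT.lf (nat_lit 0) (nat_lit 3353169499) (nat_lit 304) (nat_lit 14044875748) (nat_lit 76) (nat_lit 5752705795) (nat_lit 90) (nat_lit 5) (nat_lit 94) (nat_lit 5) (nat_lit 91) (nat_lit 5) (nat_lit 491) (nat_lit 411) (nat_lit 298))) (XT.nd (nat_lit 78) (nat_lit 152) (nat_lit 0) (XT.lf (nat_lit 0) (nat_lit 9457770827) (nat_lit 304) (nat_lit 393746088) (nat_lit 76) (nat_lit 13753674686) (nat_lit 90) (nat_lit 5) (nat_lit 94)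 (nat_lit 5) (nat_lit 91) (nat_lit 5) (nat_lit 492) (nat_lit 411) (nat_lit 297)) (XT.lf (nat_lit 0) (nat_lit 13911746613) (nat_lit 152) (nat_lit 1952203033) (nat_lit 228) (nat_lit 8205763771) (nat_lit 88) (nat_lit 5) (nat_lit 90) (nat_lit 5) (nat_lit 91) (nat_lit 5) (nat_lit 493) (nat_lit 411) (nat_lit 296)))) (XT.nd (nat_lit 156) (nat_lit 152) (nat_lit 0) (XT.nd (nat_lit 78) (nat_lit 76) (nat_lit 0) (XT.lf (nat_lit 0) (nat_lit 4100225820) (nat_lit 152) (nat_lit 18449757114) (nat_lit 228) (nat_lit 1995559070) (nat_lit 86) (nat_lit 5) (nat_lit 88) (nat_lit 5) (nat_lit 89) (nat_lit 5) (nat_lit 494) (nat_lit 411) (nat_lit 295)) (XT.lf (nat_lit 0) (nat_lit 4422826474) (nat_lit 228) (nat_lit 6127589179) (nat_lit 76) (nat_lit 14480729184) (nat_lit 85) (nat_lit 5) (nat_lit 88) (nat_lit 5) (nat_lit 86) (nat_lit 5) (nat_lit 495) (nat_lit 411) (nat_lit 294))) (XT.nd (nat_lit 78) (nat_lit 0) (nat_lit 0) (XT.lf (nat_lit 0)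 (nat_lit 8744564528) (nat_lit 152) (nat_lit 2318423382) (nat_lit 228) (nat_lit 14465656199) (nat_lit 83) (nat_lit 5) (nat_lit 85) (nat_lit 5) (nat_lit 86) (nat_lit 5) (nat_lit 496) (nat_lit 411) (nat_lit 293)) (XT.lf (nat_lit 0) (nat_lit 18009411235) (nat_lit 228) (nat_lit 1936611172) (nat_lit 76) (nat_lit 6091835300) (nat_lit 83) (nat_lit 5) (nat_lit 86) (nat_lit 5) (nat_lit 84) (nat_lit 5) (nat_lit 497) (nat_lit 411) (nat_lit 292)))))) (XT.nd (nat_lit 546) (nat_lit 836) (nat_lit 0) (XT.nd (nat_lit 234) (nat_lit 380) (nat_lit 0) (XT.nd (nat_lit 78) (nat_lit 228) (nat_lit 0) (XT.lf (nat_lit 0) (nat_lit 13572881320) (nat_lit 152) (nat_lit 11730547189) (nat_lit 228) (nat_lit 1254744189) (nat_lit 81) (nat_lit 5) (nat_lit 83) (nat_lit 5) (nat_lit 84) (nat_lit 5) (nat_lit 498) (nat_lit 411) (nat_lit 291)) (XT.nd (nat_lit 78) (nat_lit 0) (nat_lit 0) (XT.lf (nat_lit 0) (nat_lit 2461341347) (nat_lit 152) (nat_lit 3178386308)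 (nat_lit 228) (nat_lit 21451843744) (nat_lit 78) (nat_lit 5) (nat_lit 80) (nat_lit 5) (nat_lit 81) (nat_lit 5) (nat_lit 499) (nat_lit 411) (nat_lit 290)) (XT.lf (nat_lit 0) (nat_lit 12888235933) (nat_lit 228) (nat_lit 9092726365) (nat_lit 76) (nat_lit 5654465364) (nat_lit 78) (nat_lit 5) (nat_lit 81) (nat_lit 5) (nat_lit 79) (nat_lit 5) (nat_lit 500) (nat_lit 411) (nat_lit 289)))) (XT.nd (nat_lit 156) (nat_lit 228) (nat_lit 0) (XT.nd (nat_lit 78) (nat_lit 0) (nat_lit 0) (XT.lf (nat_lit 0) (nat_lit 6991193395) (nat_lit 152) (nat_lit 13447965143) (nat_lit 228) (nat_lit 7753893214) (nat_lit 76) (nat_lit 5) (nat_lit 78) (nat_lit 5) (nat_lit 79) (nat_lit 5) (nat_lit 501) (nat_lit 411) (nat_lit 288)) (XT.lf (nat_lit 0) (nat_lit 23719601289) (nat_lit 152) (nat_lit 4575277192) (nat_lit 228) (nat_lit 470178877) (nat_lit 76) (nat_lit 5) (nat_lit 78) (nat_lit 5) (nat_lit 79) (nat_lit 5) (nat_lit 502) (nat_lit 411) (nat_lit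 287))) (XT.nd (nat_lit 78) (nat_lit 0) (nat_lit 0) (XT.lf (nat_lit 0) (nat_lit 7039877024) (nat_lit 228) (nat_lit 17661742263) (nat_lit 76) (nat_lit 4646225269) (nat_lit 73) (nat_lit 5) (nat_lit 76) (nat_lit 5) (nat_lit 74) (nat_lit 5) (nat_lit 503) (nat_lit 411) (nat_lit 286)) (XT.lf (nat_lit 0) (nat_lit 14849309135) (nat_lit 228) (nat_lit 998044949) (nat_lit 76) (nat_lit 14098116699) (nat_lit 73) (nat_lit 5) (nat_lit 76) (nat_lit 5) (nat_lit 74) (nat_lit 5) (nat_lit 504) (nat_lit 411) (nat_lit 285))))) (XT.nd (nat_lit 312) (nat_lit 304) (nat_lit 0) (XT.nd (nat_lit 156) (nat_lit 152) (nat_lit 0) (XT.nd (nat_lit 78) (nat_lit 228) (nat_lit 0) (XT.lf (nat_lit 0) (nat_lit 16463492399) (nat_lit 152) (nat_lit 6574945504) (nat_lit 228) (nat_lit 7518226270) (nat_lit 71) (nat_lit 5) (nat_lit 73) (nat_lit 5) (nat_lit 74) (nat_lit 5) (nat_lit 505) (nat_lit 411) (nat_lit 284)) (XT.lf (nat_lit 0) (nat_lit 339686175) (nat_lit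 228) (nat_lit 27892129182) (nat_lit 76) (nat_lit 2952548759) (nat_lit 68) (nat_lit 5) (nat_lit 71) (nat_lit 5) (nat_lit 69) (nat_lit 5) (nat_lit 506) (nat_lit 411) (nat_lit 283))) (XT.nd (nat_lit 78) (nat_lit 152) (nat_lit 0) (XT.lf (nat_lit 0) (nat_lit 8478280521) (nat_lit 228) (nat_lit 10502882132) (nat_lit 76) (nat_lit 12841618386) (nat_lit 68) (nat_lit 5) (nat_lit 71) (nat_lit 5) (nat_lit 69) (nat_lit 5) (nat_lit 507) (nat_lit 411) (nat_lit 282)) (XT.lf (nat_lit 0) (nat_lit 7532295291) (nat_lit 152) (nat_lit 9388746821) (nat_lit 228) (nat_lit 15557508774) (nat_lit 66) (nat_lit 5) (nat_lit 68) (nat_lit 5) (nat_lit 69) (nat_lit 5) (nat_lit 508) (nat_lit 411) (nat_lit 281)))) (XT.nd (nat_lit 156) (nat_lit 152) (nat_lit 0) (XT.nd (nat_lit 78) (nat_lit 152) (nat_lit 0) (XT.lf (nat_lit 0) (nat_lit 25716569681) (nat_lit 228) (nat_lit 6855535406) (nat_lit 76) (nat_lit 578904923) (nat_lit 66) (nat_lit 5) (nat_lit 69)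 (nat_lit 5) (nat_lit 67) (nat_lit 4) (nat_lit 509) (nat_lit 411) (nat_lit 280)) (XT.lf (nat_lit 0) (nat_lit 1111369960) (nat_lit 152) (nat_lit 21953730924) (nat_lit 76) (nat_lit 10772356523) (nat_lit 64) (nat_lit 5) (nat_lit 66) (nat_lit 5) (nat_lit 65) (nat_lit 5) (nat_lit 510) (nat_lit 411) (nat_lit 279))) (XT.nd (nat_lit 78) (nat_lit 152) (nat_lit 0) (XT.lf (nat_lit 0) (nat_lit 9822073521) (nat_lit 152) (nat_lit 3313151852) (nat_lit 76) (nat_lit 21405326908) (nat_lit 64) (nat_lit 5) (nat_lit 66) (nat_lit 5) (nat_lit 65) (nat_lit 5) (nat_lit 511) (nat_lit 411) (nat_lit 278)) (XT.lf (nat_lit 0) (nat_lit 16180902281) (nat_lit 152) (nat_lit 2757116218) (nat_lit 228) (nat_lit 16322404495) (nat_lit 62) (nat_lit 5) (nat_lit 64) (nat_lit 5) (nat_lit 65) (nat_lit 5) (nat_lit 512) (nat_lit 411) (nat_lit 277))))))))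
noncomputable def xc125 : XT := (XT.nd (nat_lit 2340) (nat_lit 380) (nat_lit 0) (XT.nd (nat_lit 1170) (nat_lit 760) (nat_lit 0) (XT.nd (nat_lit 546) (nat_lit 608) (nat_lit 0) (XT.nd (nat_lit 234) (nat_lit 304) (nat_lit 0) (XT.nd (nat_lit 78) (nat_lit 228) (nat_lit 0) (XT.lf (nat_lit 0) (nat_lit 233247692) (nat_lit 76) (nat_lit 28194893663) (nat_lit 152) (nat_lit 7570728072) (nat_lit 61) (nat_lit 5) (nat_lit 62) (nat_lit 5) (nat_lit 63) (nat_lit 4) (nat_lit 513) (nat_lit 411) (nat_lit 276)) (XT.nd (nat_lit 78) (nat_lit 152) (nat_lit 0) (XT.lf (nat_lit 0) (nat_lit 1625640109) (nat_lit 152) (nat_lit 16301810151) (nat_lit 76) (nat_lit 18825293992) (nat_lit 60) (nat_lit 5) (nat_lit 62) (nat_lit 5) (nat_lit 61) (nat_lit 5) (nat_lit 514) (nat_lit 411) (nat_lit 275)) (XT.lf (nat_lit 0) (nat_lit 3722678679) (nat_lit 152) (nat_lit 7247615759) (nat_lit 228) (nat_lit 26555955909) (nat_lit 58) (nat_lit 5) (nat_lit 60) (nat_lit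 5) (nat_lit 61) (nat_lit 5) (nat_lit 515) (nat_lit 411) (nat_lit 274)))) (XT.nd (nat_lit 156) (nat_lit 228) (nat_lit 0) (XT.nd (nat_lit 78) (nat_lit 76) (nat_lit 0) (XT.lf (nat_lit 0) (nat_lit 20786416916) (nat_lit 228) (nat_lit 13694610246) (nat_lit 76) (nat_lit 3836201129) (nat_lit 58) (nat_lit 5) (nat_lit 61) (nat_lit 5) (nat_lit 59) (nat_lit 4) (nat_lit 516) (nat_lit 411) (nat_lit 273)) (XT.lf (nat_lit 0) (nat_lit 7063345054) (nat_lit 76) (nat_lit 23962469619) (nat_lit 152) (nat_lit 8102257656) (nat_lit 57) (nat_lit 5) (nat_lit 58) (nat_lit 5) (nat_lit 59) (nat_lit 4) (nat_lit 517) (nat_lit 411) (nat_lit 272))) (XT.nd (nat_lit 78) (nat_lit 152) (nat_lit 0) (XT.lf (nat_lit 0) (nat_lit 1706561981) (nat_lit 152) (nat_lit 11271529869) (nat_lit 76) (nat_lit 26980821979) (nat_lit 56) (nat_lit 5) (nat_lit 58) (nat_lit 5) (nat_lit 57) (nat_lit 5) (nat_lit 518) (nat_lit 411) (nat_lit 271)) (XT.lf (nat_lit 0) (nat_lit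 10245396227) (nat_lit 152) (nat_lit 1489355371) (nat_lit 228) (nat_lit 29074884243) (nat_lit 54) (nat_lit 5) (nat_lit 56) (nat_lit 5) (nat_lit 57) (nat_lit 5) (nat_lit 519) (nat_lit 411) (nat_lit 270))))) (XT.nd (nat_lit 312) (nat_lit 304) (nat_lit 0) (XT.nd (nat_lit 156) (nat_lit 228) (nat_lit 0) (XT.nd (nat_lit 78) (nat_lit 76) (nat_lit 0) (XT.lf (nat_lit 0) (nat_lit 22267665678) (nat_lit 228) (nat_lit 9163942065) (nat_lit 76) (nat_lit 10248155856) (nat_lit 54) (nat_lit 5) (nat_lit 57) (nat_lit 5) (nat_lit 55) (nat_lit 4) (nat_lit 520) (nat_lit 411) (nat_lit 269)) (XT.lf (nat_lit 0) (nat_lit 13100021311) (nat_lit 76) (nat_lit 20147021474) (nat_lit 152) (nat_lit 9325038574) (nat_lit 53) (nat_lit 5) (nat_lit 54) (nat_lit 5) (nat_lit 55) (nat_lit 4) (nat_lit 521) (nat_lit 411) (nat_lit 268))) (XT.nd (nat_lit 78) (nat_lit 152) (nat_lit 0) (XT.lf (nat_lit 0) (nat_lit 1127129631) (nat_lit 152) (nat_lit 7299027388)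 (nat_lit 76) (nat_lit 35062206867) (nat_lit 52) (nat_lit 5) (nat_lit 54) (nat_lit 5) (nat_lit 53) (nat_lit 5) (nat_lit 522) (nat_lit 411) (nat_lit 267)) (XT.lf (nat_lit 0) (nat_lit 11884187970) (nat_lit 228) (nat_lit 28727261740) (nat_lit 76) (nat_lit 3812553291) (nat_lit 50) (nat_lit 5) (nat_lit 53) (nat_lit 5) (nat_lit 51) (nat_lit 4) (nat_lit 523) (nat_lit 411) (nat_lit 266)))) (XT.nd (nat_lit 156) (nat_lit 228) (nat_lit 0) (XT.nd (nat_lit 78) (nat_lit 76) (nat_lit 0) (XT.lf (nat_lit 0) (nat_lit 23111961676) (nat_lit 228) (nat_lit 5956357759) (nat_lit 76) (nat_lit 16314952132) (nat_lit 50) (nat_lit 5) (nat_lit 53) (nat_lit 5) (nat_lit 51) (nat_lit 4) (nat_lit 524) (nat_lit 411) (nat_lit 265)) (XT.lf (nat_lit 0) (nat_lit 17827388282) (nat_lit 76) (nat_lit 17010975931) (nat_lit 152) (nat_lit 11528100485) (nat_lit 49) (nat_lit 5) (nat_lit 50) (nat_lit 5) (nat_lit 51) (nat_lit 4) (nat_lit 525) (nat_lit 411) (nat_lit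 264))) (XT.nd (nat_lit 78) (nat_lit 228) (nat_lit 0) (XT.lf (nat_lit 0) (nat_lit 42428762639) (nat_lit 76) (nat_lit 4538477511) (nat_lit 152) (nat_lit 410393397) (nat_lit 49) (nat_lit 5) (nat_lit 50) (nat_lit 5) (nat_lit 51) (nat_lit 4) (nat_lit 526) (nat_lit 411) (nat_lit 263)) (XT.lf (nat_lit 0) (nat_lit 11087299444) (nat_lit 228) (nat_lit 28885392842) (nat_lit 76) (nat_lit 8435404542) (nat_lit 46) (nat_lit 5) (nat_lit 49) (nat_lit 5) (nat_lit 47) (nat_lit 4) (nat_lit 527) (nat_lit 411) (nat_lit 262)))))) (XT.nd (nat_lit 546) (nat_lit 456) (nat_lit 0) (XT.nd (nat_lit 234) (nat_lit 228) (nat_lit 0) (XT.nd (nat_lit 78) (nat_lit 76) (nat_lit 0) (XT.lf (nat_lit 0) (nat_lit 23007819520) (nat_lit 228) (nat_lit 4705263028) (nat_lit 76) (nat_lit 21753685546) (nat_lit 46) (nat_lit 5) (nat_lit 49) (nat_lit 5) (nat_lit 47) (nat_lit 4) (nat_lit 528) (nat_lit 411) (nat_lit 261)) (XT.nd (nat_lit 78) (nat_lit 0) (nat_lit 0)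 (XT.lf (nat_lit 0) (nat_lit 20584801033) (nat_lit 76) (nat_lit 14890038393) (nat_lit 152) (nat_lit 15076693868) (nat_lit 45) (nat_lit 5) (nat_lit 46) (nat_lit 5) (nat_lit 47) (nat_lit 4) (nat_lit 529) (nat_lit 411) (nat_lit 260)) (XT.lf (nat_lit 0) (nat_lit 46713035209) (nat_lit 76) (nat_lit 1641457740) (nat_lit 152) (nat_lit 3313190127) (nat_lit 45) (nat_lit 5) (nat_lit 46) (nat_lit 5) (nat_lit 47) (nat_lit 4) (nat_lit 530) (nat_lit 411) (nat_lit 259)))) (XT.nd (nat_lit 156) (nat_lit 76) (nat_lit 0) (XT.nd (nat_lit 78) (nat_lit 0) (nat_lit 0) (XT.lf (nat_lit 0) (nat_lit 8943890307) (nat_lit 152) (nat_lit 31808503975) (nat_lit 76) (nat_lit 12053011084) (nat_lit 43) (nat_lit 5) (nat_lit 45) (nat_lit 5) (nat_lit 44) (nat_lit 4) (nat_lit 531) (nat_lit 411) (nat_lit 258)) (XT.lf (nat_lit 0) (nat_lit 21560172816) (nat_lit 152) (nat_lit 6213431120) (nat_lit 76) (nat_lit 26200929116) (nat_lit 43) (nat_lit 5) (nat_lit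 45) (nat_lit 5) (nat_lit 44) (nat_lit 4) (nat_lit 532) (nat_lit 411) (nat_lit 257))) (XT.nd (nat_lit 78) (nat_lit 0) (nat_lit 0) (XT.lf (nat_lit 0) (nat_lit 20533987899) (nat_lit 76) (nat_lit 14209896347) (nat_lit 152) (nat_lit 20429182390) (nat_lit 42) (nat_lit 5) (nat_lit 43) (nat_lit 5) (nat_lit 44) (nat_lit 4) (nat_lit 533) (nat_lit 411) (nat_lit 256)) (XT.lf (nat_lit 0) (nat_lit 48195159457) (nat_lit 76) (nat_lit 182338012) (nat_lit 152) (nat_lit 8028427315) (nat_lit 42) (nat_lit 5) (nat_lit 43) (nat_lit 5) (nat_lit 44) (nat_lit 4) (nat_lit 534) (nat_lit 411) (nat_lit 255))))) (XT.nd (nat_lit 312) (nat_lit 228) (nat_lit 0) (XT.nd (nat_lit 156) (nat_lit 76) (nat_lit 0) (XT.nd (nat_lit 78) (nat_lit 0) (nat_lit 0) (XT.lf (nat_lit 0) (nat_lit 4968708169) (nat_lit 152) (nat_lit 38482245672) (nat_lit 76) (nat_lit 14213938809) (nat_lit 40) (nat_lit 5) (nat_lit 42) (nat_lit 5) (nat_lit 41) (nat_lit 4) (nat_lit 535)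 (nat_lit 411) (nat_lit 254)) (XT.lf (nat_lit 0) (nat_lit 18271759749) (nat_lit 152) (nat_lit 11490836004) (nat_lit 76) (nat_lit 29194328402) (nat_lit 40) (nat_lit 5) (nat_lit 42) (nat_lit 5) (nat_lit 41) (nat_lit 4) (nat_lit 536) (nat_lit 411) (nat_lit 253))) (XT.nd (nat_lit 78) (nat_lit 0) (nat_lit 0) (XT.lf (nat_lit 0) (nat_lit 16619325157) (nat_lit 76) (nat_lit 15506397496) (nat_lit 152) (nat_lit 28157439601) (nat_lit 39) (nat_lit 5) (nat_lit 40) (nat_lit 5) (nat_lit 41) (nat_lit 4) (nat_lit 537) (nat_lit 411) (nat_lit 252)) (XT.lf (nat_lit 0) (nat_lit 45793198274) (nat_lit 76) (nat_lit 710291295) (nat_lit 152) (nat_lit 15142452607) (nat_lit 39) (nat_lit 5) (nat_lit 40) (nat_lit 5) (nat_lit 41) (nat_lit 4) (nat_lit 538) (nat_lit 411) (nat_lit 251)))) (XT.nd (nat_lit 156) (nat_lit 76) (nat_lit 0) (XT.nd (nat_lit 78) (nat_lit 76) (nat_lit 0) (XT.lf (nat_lit 0) (nat_lit 12889674252) (nat_lit 76) (nat_lit 48678797795)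 (nat_lit 76) (nat_lit 1473457198) (nat_lit 38) (nat_lit 4) (nat_lit 39) (nat_lit 5) (nat_lit 39) (nat_lit 4) (nat_lit 539) (nat_lit 411) (nat_lit 250)) (XT.lf (nat_lit 0) (nat_lit 12520644165) (nat_lit 152) (nat_lit 21800324037) (nat_lit 76) (nat_lit 30150362247) (nat_lit 37) (nat_lit 5) (nat_lit 39) (nat_lit 5) (nat_lit 38) (nat_lit 4) (nat_lit 540) (nat_lit 411) (nat_lit 249))) (XT.nd (nat_lit 78) (nat_lit 0) (nat_lit 0) (XT.lf (nat_lit 0) (nat_lit 7519878358) (nat_lit 76) (nat_lit 19449902333) (nat_lit 152) (nat_lit 38971450730) (nat_lit 36) (nat_lit 5) (nat_lit 37) (nat_lit 5) (nat_lit 38) (nat_lit 4) (nat_lit 541) (nat_lit 411) (nat_lit 248)) (XT.lf (nat_lit 0) (nat_lit 38152275925) (nat_lit 76) (nat_lit 3912877212) (nat_lit 152) (nat_lit 25383693633) (nat_lit 36) (nat_lit 5) (nat_lit 37) (nat_lit 5) (nat_lit 38) (nat_lit 4) (nat_lit 542) (nat_lit 411) (nat_lit 247))))))) (XT.nd (nat_lit 52806) (nat_lit 0)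 (nat_lit 18012) (XT.nd (nat_lit 546) (nat_lit 0) (nat_lit 0) (XT.nd (nat_lit 234) (nat_lit 228) (nat_lit 0) (XT.nd (nat_lit 78) (nat_lit 76) (nat_lit 0) (XT.lf (nat_lit 0) (nat_lit 583083608) (nat_lit 76) (nat_lit 57144898720) (nat_lit 76) (nat_lit 11270270581) (nat_lit 35) (nat_lit 4) (nat_lit 36) (nat_lit 5) (nat_lit 36) (nat_lit 4) (nat_lit 543) (nat_lit 411) (nat_lit 246)) (XT.nd (nat_lit 78) (nat_lit 0) (nat_lit 0) (XT.lf (nat_lit 0) (nat_lit 3533098921) (nat_lit 152) (nat_lit 38712694691) (nat_lit 76) (nat_lit 28337497220) (nat_lit 34) (nat_lit 5) (nat_lit 36) (nat_lit 5) (nat_lit 35) (nat_lit 4) (nat_lit 544) (nat_lit 411) (nat_lit 245)) (XT.lf (nat_lit 0) (nat_lit 18547036238) (nat_lit 152) (nat_lit 8244360543) (nat_lit 76) (nat_lit 45421346045) (nat_lit 34) (nat_lit 5) (nat_lit 36) (nat_lit 5) (nat_lit 35) (nat_lit 4) (nat_lit 545) (nat_lit 411) (nat_lit 244)))) (XT.nd (nat_lit 156) (nat_lit 152) (nat_lit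 0) (XT.nd (nat_lit 78) (nat_lit 0) (nat_lit 0) (XT.lf (nat_lit 0) (nat_lit 23585021409) (nat_lit 76) (nat_lit 10646276160) (nat_lit 152) (nat_lit 39653183809) (nat_lit 33) (nat_lit 5) (nat_lit 34) (nat_lit 5) (nat_lit 35) (nat_lit 4) (nat_lit 546) (nat_lit 411) (nat_lit 243)) (XT.lf (nat_lit 0) (nat_lit 50520880450) (nat_lit 152) (nat_lit 19137169098) (nat_lit 0) (nat_lit 5944278897) (nat_lit 33) (nat_lit 5) (nat_lit 35) (nat_lit 4) (nat_lit 33) (nat_lit 4) (nat_lit 547) (nat_lit 411) (nat_lit 242))) (XT.nd (nat_lit 78) (nat_lit 76) (nat_lit 0) (XT.lf (nat_lit 0) (nat_lit 13097300774) (nat_lit 76) (nat_lit 54426559339) (nat_lit 76) (nat_lit 9841109695) (nat_lit 32) (nat_lit 4) (nat_lit 33) (nat_lit 5) (nat_lit 33) (nat_lit 4) (nat_lit 548) (nat_lit 411) (nat_lit 241)) (XT.lf (nat_lit 0) (nat_lit 5930726147) (nat_lit 152) (nat_lit 32554665946) (nat_lit 76) (nat_lit 40687752576) (nat_lit 31) (nat_lit 5) (nat_lit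 33) (nat_lit 5) (nat_lit 32) (nat_lit 4) (nat_lit 549) (nat_lit 411) (nat_lit 240))))) (XT.nd (nat_lit 51948) (nat_lit 0) (nat_lit 24092) (XT.nd (nat_lit 51792) (nat_lit 0) (nat_lit 24852) (XT.nd (nat_lit 51714) (nat_lit 0) (nat_lit 25688) (XT.lf (nat_lit 0) (nat_lit 21971518928) (nat_lit 152) (nat_lit 196774) (nat_lit 76) (nat_lit 59061118168) (nat_lit 31) (nat_lit 5) (nat_lit 33) (nat_lit 5) (nat_lit 32) (nat_lit 4) (nat_lit 550) (nat_lit 411) (nat_lit 239)) (XT.lf (nat_lit 0) (nat_lit 1445846214) (nat_lit 0) (nat_lit 1445846214) (nat_lit 684) (nat_lit 635201463) (nat_lit 369) (nat_lit 5) (nat_lit 369) (nat_lit 3) (nat_lit 378) (nat_lit 3) (nat_lit 412) (nat_lit 412) (nat_lit 376))) (XT.nd (nat_lit 78) (nat_lit 0) (nat_lit 76) (XT.lf (nat_lit 0) (nat_lit 498331889) (nat_lit 836) (nat_lit 681943909) (nat_lit 836) (nat_lit 5926275880) (nat_lit 358) (nat_lit 3) (nat_lit 369) (nat_lit 3) (nat_lit 369) (nat_lit 5)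 (nat_lit 413) (nat_lit 412) (nat_lit 375)) (XT.lf (nat_lit 0) (nat_lit 2260112095) (nat_lit 760) (nat_lit 4256679267) (nat_lit 836) (nat_lit 644785181) (nat_lit 359) (nat_lit 5) (nat_lit 369) (nat_lit 5) (nat_lit 370) (nat_lit 5) (nat_lit 414) (nat_lit 412) (nat_lit 374)))) (XT.nd (nat_lit 156) (nat_lit 836) (nat_lit 0) (XT.nd (nat_lit 78) (nat_lit 0) (nat_lit 0) (XT.lf (nat_lit 0) (nat_lit 4026569837) (nat_lit 760) (nat_lit 653908852) (nat_lit 836) (nat_lit 2539239047) (nat_lit 359) (nat_lit 5) (nat_lit 369) (nat_lit 5) (nat_lit 370) (nat_lit 5) (nat_lit 415) (nat_lit 412) (nat_lit 373)) (XT.lf (nat_lit 76) (nat_lit 3080718761) (nat_lit 0) (nat_lit 2730046160) (nat_lit 836) (nat_lit 1469915649) (nat_lit 360) (nat_lit 5) (nat_lit 359) (nat_lit 5) (nat_lit 370) (nat_lit 5) (nat_lit 416) (nat_lit 412) (nat_lit 372))) (XT.nd (nat_lit 78) (nat_lit 0) (nat_lit 76) (XT.lf (nat_lit 0) (nat_lit 241757831) (nat_lit 836)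 (nat_lit 442759154) (nat_lit 912) (nat_lit 6660605042) (nat_lit 348) (nat_lit 5) (nat_lit 359) (nat_lit 5) (nat_lit 360) (nat_lit 5) (nat_lit 417) (nat_lit 412) (nat_lit 371)) (XT.lf (nat_lit 0) (nat_lit 1960624387) (nat_lit 836) (nat_lit 3982730441) (nat_lit 912) (nat_lit 1468161731) (nat_lit 349) (nat_lit 5) (nat_lit 360) (nat_lit 5) (nat_lit 361) (nat_lit 5) (nat_lit 418) (nat_lit 412) (nat_lit 370)))))) (XT.nd (nat_lit 624) (nat_lit 4408) (nat_lit 0) (XT.nd (nat_lit 312) (nat_lit 912) (nat_lit 0) (XT.nd (nat_lit 156) (nat_lit 836) (nat_lit 0) (XT.nd (nat_lit 78) (nat_lit 0) (nat_lit 0) (XT.lf (nat_lit 0) (nat_lit 3681943465) (nat_lit 836) (nat_lit 98948637) (nat_lit 912) (nat_lit 3700501747) (nat_lit 349) (nat_lit 5) (nat_lit 360) (nat_lit 5) (nat_lit 361) (nat_lit 5) (nat_lit 419) (nat_lit 412) (nat_lit 369)) (XT.lf (nat_lit 76) (nat_lit 3941450699) (nat_lit 0) (nat_lit 1492692315) (nat_lit 912) (nat_lit 2119864220)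 (nat_lit 350) (nat_lit 5) (nat_lit 349) (nat_lit 5) (nat_lit 361) (nat_lit 5) (nat_lit 420) (nat_lit 412) (nat_lit 368))) (XT.nd (nat_lit 78) (nat_lit 912) (nat_lit 0) (XT.lf (nat_lit 76) (nat_lit 438172493) (nat_lit 0) (nat_lit 6757175307) (nat_lit 912) (nat_lit 434774554) (nat_lit 351) (nat_lit 5) (nat_lit 350) (nat_lit 5) (nat_lit 362) (nat_lit 5) (nat_lit 421) (nat_lit 412) (nat_lit 367)) (XT.lf (nat_lit 0) (nat_lit 1270743988) (nat_lit 912) (nat_lit 3089737738) (nat_lit 988) (nat_lit 3347821798) (nat_lit 338) (nat_lit 5) (nat_lit 350) (nat_lit 5) (nat_lit 351) (nat_lit 5) (nat_lit 422) (nat_lit 412) (nat_lit 366)))) (XT.nd (nat_lit 156) (nat_lit 912) (nat_lit 0) (XT.nd (nat_lit 78) (nat_lit 0) (nat_lit 76) (XT.lf (nat_lit 76) (nat_lit 1114990216) (nat_lit 0) (nat_lit 1859699581) (nat_lit 988) (nat_lit 4815346294) (nat_lit 339) (nat_lit 5) (nat_lit 338) (nat_lit 5) (nat_lit 351) (nat_lit 5) (nat_lit 423) (nat_lit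 412) (nat_lit 365)) (XT.lf (nat_lit 0) (nat_lit 4714813515) (nat_lit 912) (nat_lit 2410682961) (nat_lit 988) (nat_lit 749187042) (nat_lit 339) (nat_lit 5) (nat_lit 351) (nat_lit 5) (nat_lit 352) (nat_lit 5) (nat_lit 424) (nat_lit 412) (nat_lit 364))) (XT.nd (nat_lit 78) (nat_lit 988) (nat_lit 0) (XT.lf (nat_lit 76) (nat_lit 1963253384) (nat_lit 0) (nat_lit 4529392496) (nat_lit 988) (nat_lit 1469673582) (nat_lit 340) (nat_lit 5) (nat_lit 339) (nat_lit 5) (nat_lit 352) (nat_lit 5) (nat_lit 425) (nat_lit 412) (nat_lit 363)) (XT.lf (nat_lit 0) (nat_lit 239369478) (nat_lit 988) (nat_lit 1575789084) (nat_lit 1064) (nat_lit 6238158129) (nat_lit 326) (nat_lit 5) (nat_lit 339) (nat_lit 5) (nat_lit 340) (nat_lit 5) (nat_lit 426) (nat_lit 412) (nat_lit 362))))) (XT.nd (nat_lit 312) (nat_lit 2432) (nat_lit 0) (XT.nd (nat_lit 156) (nat_lit 2052) (nat_lit 0) (XT.nd (nat_lit 78) (nat_lit 0) (nat_lit 0) (XT.lf (nat_lit 0) (nat_lit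 1959156052) (nat_lit 988) (nat_lit 5171089402) (nat_lit 76) (nat_lit 1016704541) (nat_lit 327) (nat_lit 5) (nat_lit 340) (nat_lit 5) (nat_lit 328) (nat_lit 5) (nat_lit 427) (nat_lit 412) (nat_lit 361)) (XT.lf (nat_lit 0) (nat_lit 3716111246) (nat_lit 988) (nat_lit 603667079) (nat_lit 76) (nat_lit 3924059378) (nat_lit 327) (nat_lit 5) (nat_lit 340) (nat_lit 5) (nat_lit 328) (nat_lit 5) (nat_lit 428) (nat_lit 412) (nat_lit 360))) (XT.nd (nat_lit 78) (nat_lit 1064) (nat_lit 0) (XT.lf (nat_lit 0) (nat_lit 4143789008) (nat_lit 988) (nat_lit 1374763603) (nat_lit 1064) (nat_lit 2825308391) (nat_lit 314) (nat_lit 5) (nat_lit 327) (nat_lit 5) (nat_lit 328) (nat_lit 5) (nat_lit 429) (nat_lit 412) (nat_lit 359)) (XT.lf (nat_lit 0) (nat_lit 555217986) (nat_lit 1064) (nat_lit 6801323532) (nat_lit 1140) (nat_lit 1090911181) (nat_lit 300) (nat_lit 5) (nat_lit 314) (nat_lit 5) (nat_lit 315) (nat_lit 5) (nat_lit 430) (nat_lit 412)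 (nat_lit 358)))) (XT.nd (nat_lit 156) (nat_lit 1216) (nat_lit 0) (XT.nd (nat_lit 78) (nat_lit 1140) (nat_lit 0) (XT.lf (nat_lit 0) (nat_lit 692938421) (nat_lit 1140) (nat_lit 3073820558) (nat_lit 76) (nat_lit 4786874062) (nat_lit 299) (nat_lit 5) (nat_lit 314) (nat_lit 5) (nat_lit 300) (nat_lit 5) (nat_lit 431) (nat_lit 412) (nat_lit 357)) (XT.lf (nat_lit 0) (nat_lit 1876627179) (nat_lit 1140) (nat_lit 605661810) (nat_lit 1216) (nat_lit 6181179335) (nat_lit 284) (nat_lit 5) (nat_lit 299) (nat_lit 5) (nat_lit 300) (nat_lit 5) (nat_lit 432) (nat_lit 412) (nat_lit 356))) (XT.nd (nat_lit 78) (nat_lit 1216) (nat_lit 0) (XT.lf (nat_lit 0) (nat_lit 4338986165) (nat_lit 1216) (nat_lit 1802171020) (nat_lit 76) (nat_lit 2635042095) (nat_lit 284) (nat_lit 5) (nat_lit 300) (nat_lit 5) (nat_lit 285) (nat_lit 5) (nat_lit 433) (nat_lit 412) (nat_lit 355)) (XT.lf (nat_lit 0) (nat_lit 3353303928) (nat_lit 1216) (nat_lit 2894411188)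 (nat_lit 1292) (nat_lit 2644717411) (nat_lit 268) (nat_lit 5) (nat_lit 284) (nat_lit 5) (nat_lit 285) (nat_lit 5) (nat_lit 434) (nat_lit 412) (nat_lit 354))))))))
noncomputable def xc126 : XT := (XT.nd (nat_lit 2340) (nat_lit 4864) (nat_lit 0) (XT.nd (nat_lit 1170) (nat_lit 3724) (nat_lit 0) (XT.nd (nat_lit 546) (nat_lit 2584) (nat_lit 0) (XT.nd (nat_lit 234) (nat_lit 1216) (nat_lit 0) (XT.nd (nat_lit 78) (nat_lit 1444) (nat_lit 0) (XT.lf (nat_lit 0) (nat_lit 8195396071) (nat_lit 1292) (nat_lit 354796151) (nat_lit 76) (nat_lit 462519835) (nat_lit 268) (nat_lit 5) (nat_lit 285) (nat_lit 5) (nat_lit 269) (nat_lit 5) (nat_lit 435) (nat_lit 412) (nat_lit 353)) (XT.nd (nat_lit 78) (nat_lit 608) (nat_lit 0) (XT.lf (nat_lit 0) (nat_lit 1081545529) (nat_lit 836) (nat_lit 4129739057) (nat_lit 76) (nat_lit 3923895161) (nat_lit 257) (nat_lit 5) (nat_lit 268) (nat_lit 5) (nat_lit 258) (nat_lit 5) (nat_lit 436) (nat_lit 412)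 (nat_lit 352)) (XT.lf (nat_lit 0) (nat_lit 1250461417) (nat_lit 608) (nat_lit 1746708670) (nat_lit 684) (nat_lit 6264631020) (nat_lit 249) (nat_lit 5) (nat_lit 257) (nat_lit 5) (nat_lit 258) (nat_lit 5) (nat_lit 437) (nat_lit 412) (nat_lit 351)))) (XT.nd (nat_lit 156) (nat_lit 608) (nat_lit 0) (XT.nd (nat_lit 78) (nat_lit 608) (nat_lit 0) (XT.lf (nat_lit 0) (nat_lit 4991266027) (nat_lit 684) (nat_lit 2571325267) (nat_lit 76) (nat_lit 1829008610) (nat_lit 249) (nat_lit 5) (nat_lit 258) (nat_lit 5) (nat_lit 250) (nat_lit 5) (nat_lit 438) (nat_lit 412) (nat_lit 350)) (XT.lf (nat_lit 0) (nat_lit 3035822120) (nat_lit 608) (nat_lit 4018339226) (nat_lit 684) (nat_lit 2470870641) (nat_lit 241) (nat_lit 5) (nat_lit 249) (nat_lit 5) (nat_lit 250) (nat_lit 5) (nat_lit 439) (nat_lit 412) (nat_lit 349))) (XT.nd (nat_lit 78) (nat_lit 608) (nat_lit 0) (XT.lf (nat_lit 0) (nat_lit 8826253107) (nat_lit 608) (nat_lit 341886344) (nat_lit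 684) (nat_lit 494660069) (nat_lit 241) (nat_lit 5) (nat_lit 249) (nat_lit 5) (nat_lit 250) (nat_lit 5) (nat_lit 440) (nat_lit 412) (nat_lit 348)) (XT.lf (nat_lit 0) (nat_lit 1556806467) (nat_lit 608) (nat_lit 4805817963) (nat_lit 76) (nat_lit 3440258084) (nat_lit 233) (nat_lit 5) (nat_lit 241) (nat_lit 5) (nat_lit 234) (nat_lit 5) (nat_lit 441) (nat_lit 412) (nat_lit 347))))) (XT.nd (nat_lit 312) (nat_lit 1444) (nat_lit 0) (XT.nd (nat_lit 156) (nat_lit 608) (nat_lit 0) (XT.nd (nat_lit 78) (nat_lit 0) (nat_lit 0) (XT.lf (nat_lit 0) (nat_lit 1050084217) (nat_lit 532) (nat_lit 2596421648) (nat_lit 608) (nat_lit 6300923927) (nat_lit 226) (nat_lit 5) (nat_lit 233) (nat_lit 5) (nat_lit 234) (nat_lit 5) (nat_lit 442) (nat_lit 412) (nat_lit 346)) (XT.lf (nat_lit 0) (nat_lit 5825499191) (nat_lit 608) (nat_lit 2966097856) (nat_lit 76) (nat_lit 1303925786) (nat_lit 226) (nat_lit 5) (nat_lit 234) (nat_lit 5) (nat_lit 227)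 (nat_lit 5) (nat_lit 443) (nat_lit 412) (nat_lit 345))) (XT.nd (nat_lit 78) (nat_lit 76) (nat_lit 0) (XT.lf (nat_lit 0) (nat_lit 3141193592) (nat_lit 532) (nat_lit 4950845095) (nat_lit 608) (nat_lit 2155361904) (nat_lit 219) (nat_lit 5) (nat_lit 226) (nat_lit 5) (nat_lit 227) (nat_lit 5) (nat_lit 444) (nat_lit 412) (nat_lit 344)) (XT.lf (nat_lit 0) (nat_lit 19109367) (nat_lit 608) (nat_lit 948732690) (nat_lit 76) (nat_lit 9436088467) (nat_lit 218) (nat_lit 5) (nat_lit 226) (nat_lit 5) (nat_lit 219) (nat_lit 5) (nat_lit 445) (nat_lit 412) (nat_lit 343)))) (XT.nd (nat_lit 156) (nat_lit 456) (nat_lit 0) (XT.nd (nat_lit 78) (nat_lit 456) (nat_lit 0) (XT.lf (nat_lit 0) (nat_lit 2266162040) (nat_lit 608) (nat_lit 5153123472) (nat_lit 76) (nat_lit 3143717203) (nat_lit 211) (nat_lit 5) (nat_lit 219) (nat_lit 5) (nat_lit 212) (nat_lit 5) (nat_lit 446) (nat_lit 412) (nat_lit 342)) (XT.lf (nat_lit 0) (nat_lit 1229200144)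 (nat_lit 456) (nat_lit 3350592060) (nat_lit 532) (nat_lit 6147086301) (nat_lit 205) (nat_lit 5) (nat_lit 211) (nat_lit 5) (nat_lit 212) (nat_lit 5) (nat_lit 447) (nat_lit 412) (nat_lit 341))) (XT.nd (nat_lit 78) (nat_lit 456) (nat_lit 0) (XT.lf (nat_lit 0) (nat_lit 6992072872) (nat_lit 532) (nat_lit 3031847600) (nat_lit 76) (nat_lit 870879076) (nat_lit 205) (nat_lit 5) (nat_lit 212) (nat_lit 5) (nat_lit 206) (nat_lit 5) (nat_lit 448) (nat_lit 412) (nat_lit 340)) (XT.lf (nat_lit 0) (nat_lit 3628923283) (nat_lit 456) (nat_lit 5885384235) (nat_lit 532) (nat_lit 1552329180) (nat_lit 199) (nat_lit 5) (nat_lit 205) (nat_lit 5) (nat_lit 206) (nat_lit 5) (nat_lit 449) (nat_lit 412) (nat_lit 339)))))) (XT.nd (nat_lit 546) (nat_lit 1900) (nat_lit 0) (XT.nd (nat_lit 234) (nat_lit 836) (nat_lit 0) (XT.nd (nat_lit 78) (nat_lit 912) (nat_lit 0) (XT.lf (nat_lit 0) (nat_lit 852314237) (nat_lit 532) (nat_lit 736617629) (nat_lit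 76) (nat_lit 9654431819) (nat_lit 198) (nat_lit 5) (nat_lit 205) (nat_lit 5) (nat_lit 199) (nat_lit 5) (nat_lit 450) (nat_lit 412) (nat_lit 338)) (XT.nd (nat_lit 78) (nat_lit 456) (nat_lit 0) (XT.lf (nat_lit 0) (nat_lit 3356434308) (nat_lit 532) (nat_lit 5215986480) (nat_lit 76) (nat_lit 2850760007) (nat_lit 192) (nat_lit 5) (nat_lit 199) (nat_lit 5) (nat_lit 193) (nat_lit 5) (nat_lit 451) (nat_lit 412) (nat_lit 337)) (XT.lf (nat_lit 0) (nat_lit 1748258768) (nat_lit 456) (nat_lit 4198563363) (nat_lit 532) (nat_lit 5661241334) (nat_lit 186) (nat_lit 5) (nat_lit 192) (nat_lit 5) (nat_lit 193) (nat_lit 5) (nat_lit 452) (nat_lit 412) (nat_lit 336)))) (XT.nd (nat_lit 156) (nat_lit 456) (nat_lit 0) (XT.nd (nat_lit 78) (nat_lit 380) (nat_lit 0) (XT.lf (nat_lit 0) (nat_lit 8642579376) (nat_lit 532) (nat_lit 2808757181) (nat_lit 76) (nat_lit 346331537) (nat_lit 186) (nat_lit 5) (nat_lit 193) (nat_lit 5) (nat_lit 187) (nat_lit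 5) (nat_lit 453) (nat_lit 412) (nat_lit 335)) (XT.lf (nat_lit 0) (nat_lit 4463693563) (nat_lit 380) (nat_lit 7012341708) (nat_lit 456) (nat_lit 515225874) (nat_lit 181) (nat_lit 5) (nat_lit 186) (nat_lit 5) (nat_lit 187) (nat_lit 5) (nat_lit 454) (nat_lit 412) (nat_lit 334))) (XT.nd (nat_lit 78) (nat_lit 380) (nat_lit 0) (XT.lf (nat_lit 0) (nat_lit 2162012117) (nat_lit 456) (nat_lit 235244570) (nat_lit 76) (nat_lit 9792739015) (nat_lit 180) (nat_lit 5) (nat_lit 186) (nat_lit 5) (nat_lit 181) (nat_lit 5) (nat_lit 455) (nat_lit 412) (nat_lit 333)) (XT.lf (nat_lit 0) (nat_lit 4976816695) (nat_lit 456) (nat_lit 5036602013) (nat_lit 76) (nat_lit 2379097031) (nat_lit 175) (nat_lit 5) (nat_lit 181) (nat_lit 5) (nat_lit 176) (nat_lit 5) (nat_lit 456) (nat_lit 412) (nat_lit 332))))) (XT.nd (nat_lit 312) (nat_lit 760) (nat_lit 0) (XT.nd (nat_lit 156) (nat_lit 760) (nat_lit 0) (XT.nd (nat_lit 78) (nat_lit 0) (nat_lit 0) (XT.lf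 (nat_lit 0) (nat_lit 2569787736) (nat_lit 380) (nat_lit 5330819982) (nat_lit 456) (nat_lit 4699771889) (nat_lit 170) (nat_lit 5) (nat_lit 175) (nat_lit 5) (nat_lit 176) (nat_lit 5) (nat_lit 457) (nat_lit 412) (nat_lit 331)) (XT.lf (nat_lit 0) (nat_lit 10472771280) (nat_lit 380) (nat_lit 464337608) (nat_lit 456) (nat_lit 1876624977) (nat_lit 170) (nat_lit 5) (nat_lit 175) (nat_lit 5) (nat_lit 176) (nat_lit 5) (nat_lit 458) (nat_lit 412) (nat_lit 330))) (XT.nd (nat_lit 78) (nat_lit 304) (nat_lit 0) (XT.lf (nat_lit 0) (nat_lit 1084265138) (nat_lit 456) (nat_lit 7431332041) (nat_lit 76) (nat_lit 4515403158) (nat_lit 164) (nat_lit 5) (nat_lit 170) (nat_lit 5) (nat_lit 165) (nat_lit 5) (nat_lit 459) (nat_lit 412) (nat_lit 329)) (XT.lf (nat_lit 0) (nat_lit 524588396) (nat_lit 304) (nat_lit 3580150547) (nat_lit 380) (nat_lit 9149238187) (nat_lit 160) (nat_lit 5) (nat_lit 164) (nat_lit 5) (nat_lit 165) (nat_lit 5) (nat_lit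 460) (nat_lit 412) (nat_lit 328)))) (XT.nd (nat_lit 156) (nat_lit 380) (nat_lit 0) (XT.nd (nat_lit 78) (nat_lit 380) (nat_lit 0) (XT.lf (nat_lit 0) (nat_lit 7281331254) (nat_lit 380) (nat_lit 4660040977) (nat_lit 76) (nat_lit 1540309743) (nat_lit 160) (nat_lit 5) (nat_lit 165) (nat_lit 5) (nat_lit 161) (nat_lit 5) (nat_lit 461) (nat_lit 412) (nat_lit 327)) (XT.lf (nat_lit 0) (nat_lit 3653271102) (nat_lit 380) (nat_lit 6946503298) (nat_lit 456) (nat_lit 3115050739) (nat_lit 155) (nat_lit 5) (nat_lit 160) (nat_lit 5) (nat_lit 161) (nat_lit 5) (nat_lit 462) (nat_lit 412) (nat_lit 326))) (XT.nd (nat_lit 78) (nat_lit 304) (nat_lit 0) (XT.lf (nat_lit 0) (nat_lit 85232914) (nat_lit 456) (nat_lit 1677215030) (nat_lit 76) (nat_lit 12191790583) (nat_lit 154) (nat_lit 5) (nat_lit 160) (nat_lit 5) (nat_lit 155) (nat_lit 5) (nat_lit 463) (nat_lit 412) (nat_lit 325)) (XT.lf (nat_lit 0) (nat_lit 3398597887) (nat_lit 380) (nat_lit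 7201924529) (nat_lit 76) (nat_lit 3596999617) (nat_lit 150) (nat_lit 5) (nat_lit 155) (nat_lit 5) (nat_lit 151) (nat_lit 5) (nat_lit 464) (nat_lit 412) (nat_lit 324))))))) (XT.nd (nat_lit 1170) (nat_lit 2204) (nat_lit 0) (XT.nd (nat_lit 546) (nat_lit 1444) (nat_lit 0) (XT.nd (nat_lit 234) (nat_lit 608) (nat_lit 0) (XT.nd (nat_lit 78) (nat_lit 304) (nat_lit 0) (XT.lf (nat_lit 0) (nat_lit 1493528734) (nat_lit 304) (nat_lit 5343832569) (nat_lit 380) (nat_lit 7609966163) (nat_lit 146) (nat_lit 5) (nat_lit 150) (nat_lit 5) (nat_lit 151) (nat_lit 5) (nat_lit 465) (nat_lit 412) (nat_lit 323)) (XT.nd (nat_lit 78) (nat_lit 304) (nat_lit 0) (XT.lf (nat_lit 0) (nat_lit 10430746651) (nat_lit 380) (nat_lit 4139995198) (nat_lit 76) (nat_lit 132344692) (nat_lit 146) (nat_lit 5) (nat_lit 151) (nat_lit 5) (nat_lit 147) (nat_lit 5) (nat_lit 466) (nat_lit 412) (nat_lit 322)) (XT.lf (nat_lit 0) (nat_lit 4949240640) (nat_lit 304) (nat_lit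 9261172826) (nat_lit 380) (nat_lit 753753679) (nat_lit 142) (nat_lit 5) (nat_lit 146) (nat_lit 5) (nat_lit 147) (nat_lit 5) (nat_lit 467) (nat_lit 412) (nat_lit 321)))) (XT.nd (nat_lit 156) (nat_lit 228) (nat_lit 0) (XT.nd (nat_lit 78) (nat_lit 304) (nat_lit 0) (XT.lf (nat_lit 0) (nat_lit 2834706299) (nat_lit 380) (nat_lit 896581108) (nat_lit 76) (nat_lit 11500358139) (nat_lit 141) (nat_lit 5) (nat_lit 146) (nat_lit 5) (nat_lit 142) (nat_lit 5) (nat_lit 468) (nat_lit 412) (nat_lit 320)) (XT.lf (nat_lit 0) (nat_lit 6596995529) (nat_lit 380) (nat_lit 6900425728) (nat_lit 76) (nat_lit 2007066286) (nat_lit 137) (nat_lit 5) (nat_lit 142) (nat_lit 5) (nat_lit 138) (nat_lit 5) (nat_lit 469) (nat_lit 412) (nat_lit 319))) (XT.nd (nat_lit 78) (nat_lit 0) (nat_lit 0) (XT.lf (nat_lit 0) (nat_lit 2604620608) (nat_lit 228) (nat_lit 7917617218) (nat_lit 304) (nat_lit 5261777244) (nat_lit 134) (nat_lit 5) (nat_lit 137) (nat_lit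 5) (nat_lit 138) (nat_lit 5) (nat_lit 470) (nat_lit 412) (nat_lit 318)) (XT.lf (nat_lit 0) (nat_lit 12504552624) (nat_lit 228) (nat_lit 2109633847) (nat_lit 304) (nat_lit 1456276202) (nat_lit 134) (nat_lit 5) (nat_lit 137) (nat_lit 5) (nat_lit 138) (nat_lit 5) (nat_lit 471) (nat_lit 412) (nat_lit 317))))) (XT.nd (nat_lit 312) (nat_lit 532) (nat_lit 0) (XT.nd (nat_lit 156) (nat_lit 532) (nat_lit 0) (XT.nd (nat_lit 78) (nat_lit 0) (nat_lit 0) (XT.lf (nat_lit 0) (nat_lit 2494535265) (nat_lit 380) (nat_lit 9995419302) (nat_lit 76) (nat_lit 3872464863) (nat_lit 129) (nat_lit 5) (nat_lit 134) (nat_lit 5) (nat_lit 130) (nat_lit 5) (nat_lit 472) (nat_lit 412) (nat_lit 316)) (XT.lf (nat_lit 0) (nat_lit 6571715068) (nat_lit 380) (nat_lit 58116178) (nat_lit 76) (nat_lit 10031760165) (nat_lit 129) (nat_lit 5) (nat_lit 134) (nat_lit 5) (nat_lit 130) (nat_lit 5) (nat_lit 473) (nat_lit 412) (nat_lit 315))) (XT.nd (nat_lit 78)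 (nat_lit 304) (nat_lit 0) (XT.lf (nat_lit 0) (nat_lit 10348767909) (nat_lit 228) (nat_lit 502368631) (nat_lit 304) (nat_lit 6116206641) (nat_lit 126) (nat_lit 5) (nat_lit 129) (nat_lit 5) (nat_lit 130) (nat_lit 5) (nat_lit 474) (nat_lit 412) (nat_lit 314)) (XT.lf (nat_lit 0) (nat_lit 3773941732) (nat_lit 304) (nat_lit 11558330004) (nat_lit 380) (nat_lit 1947798182) (nat_lit 122) (nat_lit 5) (nat_lit 126) (nat_lit 5) (nat_lit 127) (nat_lit 5) (nat_lit 475) (nat_lit 412) (nat_lit 313)))) (XT.nd (nat_lit 156) (nat_lit 228) (nat_lit 0) (XT.nd (nat_lit 78) (nat_lit 228) (nat_lit 0) (XT.lf (nat_lit 0) (nat_lit 2353063823) (nat_lit 380) (nat_lit 3045190911) (nat_lit 76) (nat_lit 12201654288) (nat_lit 121) (nat_lit 5) (nat_lit 126) (nat_lit 5) (nat_lit 122) (nat_lit 5) (nat_lit 476) (nat_lit 412) (nat_lit 312)) (XT.lf (nat_lit 0) (nat_lit 6810295847) (nat_lit 304) (nat_lit 10103700952) (nat_lit 76) (nat_lit 1012775305)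 (nat_lit 118) (nat_lit 5) (nat_lit 122) (nat_lit 5) (nat_lit 119) (nat_lit 5) (nat_lit 477) (nat_lit 412) (nat_lit 311))) (XT.nd (nat_lit 78) (nat_lit 0) (nat_lit 0) (XT.lf (nat_lit 0) (nat_lit 748127931) (nat_lit 228) (nat_lit 10726231750) (nat_lit 304) (nat_lit 6786890038) (nat_lit 115) (nat_lit 5) (nat_lit 118) (nat_lit 5) (nat_lit 119) (nat_lit 5) (nat_lit 478) (nat_lit 412) (nat_lit 310)) (XT.lf (nat_lit 0) (nat_lit 12102917650) (nat_lit 228) (nat_lit 4259131315) (nat_lit 304) (nat_lit 2241203616) (nat_lit 115) (nat_lit 5) (nat_lit 118) (nat_lit 5) (nat_lit 119) (nat_lit 5) (nat_lit 479) (nat_lit 412) (nat_lit 309)))))) (XT.nd (nat_lit 624) (nat_lit 1064) (nat_lit 0) (XT.nd (nat_lit 312) (nat_lit 456) (nat_lit 0) (XT.nd (nat_lit 156) (nat_lit 380) (nat_lit 0) (XT.nd (nat_lit 78) (nat_lit 0) (nat_lit 0) (XT.lf (nat_lit 0) (nat_lit 2445896195) (nat_lit 304) (nat_lit 14092120197) (nat_lit 76) (nat_lit 2415216976)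 (nat_lit 111) (nat_lit 5) (nat_lit 115) (nat_lit 5) (nat_lit 112) (nat_lit 5) (nat_lit 480) (nat_lit 412) (nat_lit 308)) (XT.lf (nat_lit 0) (nat_lit 7319192559) (nat_lit 304) (nat_lit 2709442595) (nat_lit 76) (nat_lit 9281695688) (nat_lit 111) (nat_lit 5) (nat_lit 115) (nat_lit 5) (nat_lit 112) (nat_lit 5) (nat_lit 481) (nat_lit 412) (nat_lit 307))) (XT.nd (nat_lit 78) (nat_lit 152) (nat_lit 0) (XT.lf (nat_lit 0) (nat_lit 9165069743) (nat_lit 228) (nat_lit 3244407035) (nat_lit 304) (nat_lit 7266542591) (nat_lit 108) (nat_lit 5) (nat_lit 111) (nat_lit 5) (nat_lit 112) (nat_lit 5) (nat_lit 482) (nat_lit 412) (nat_lit 306)) (XT.lf (nat_lit 0) (nat_lit 1361191219) (nat_lit 152) (nat_lit 16350791955) (nat_lit 228) (nat_lit 2338911714) (nat_lit 106) (nat_lit 5) (nat_lit 108) (nat_lit 5) (nat_lit 109) (nat_lit 5) (nat_lit 483) (nat_lit 412) (nat_lit 305)))) (XT.nd (nat_lit 156) (nat_lit 152) (nat_lit 0) (XT.nd (nat_lit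 78) (nat_lit 228) (nat_lit 0) (XT.lf (nat_lit 0) (nat_lit 2805335240) (nat_lit 228) (nat_lit 6717029970) (nat_lit 76) (nat_lit 10910198338) (nat_lit 105) (nat_lit 5) (nat_lit 108) (nat_lit 5) (nat_lit 106) (nat_lit 5) (nat_lit 484) (nat_lit 412) (nat_lit 304)) (XT.lf (nat_lit 0) (nat_lit 5674553848) (nat_lit 228) (nat_lit 2420265412) (nat_lit 304) (nat_lit 12729032295) (nat_lit 102) (nat_lit 5) (nat_lit 105) (nat_lit 5) (nat_lit 106) (nat_lit 5) (nat_lit 485) (nat_lit 412) (nat_lit 303))) (XT.nd (nat_lit 78) (nat_lit 152) (nat_lit 0) (XT.lf (nat_lit 0) (nat_lit 13642025120) (nat_lit 304) (nat_lit 2724947018) (nat_lit 76) (nat_lit 4856936495) (nat_lit 102) (nat_lit 5) (nat_lit 106) (nat_lit 5) (nat_lit 103) (nat_lit 5) (nat_lit 486) (nat_lit 412) (nat_lit 302)) (XT.lf (nat_lit 0) (nat_lit 10220466494) (nat_lit 152) (nat_lit 9241354272) (nat_lit 228) (nat_lit 2170962956) (nat_lit 100) (nat_lit 5) (nat_lit 102) (nat_lit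 5) (nat_lit 103) (nat_lit 5) (nat_lit 487) (nat_lit 412) (nat_lit 301))))) (XT.nd (nat_lit 312) (nat_lit 608) (nat_lit 0) (XT.nd (nat_lit 156) (nat_lit 152) (nat_lit 0) (XT.nd (nat_lit 78) (nat_lit 0) (nat_lit 0) (XT.lf (nat_lit 0) (nat_lit 1526617894) (nat_lit 228) (nat_lit 1835756092) (nat_lit 304) (nat_lit 18689776965) (nat_lit 96) (nat_lit 5) (nat_lit 99) (nat_lit 5) (nat_lit 100) (nat_lit 5) (nat_lit 488) (nat_lit 412) (nat_lit 300)) (XT.lf (nat_lit 0) (nat_lit 9174251469) (nat_lit 304) (nat_lit 7498588680) (nat_lit 76) (nat_lit 5805930345) (nat_lit 96) (nat_lit 5) (nat_lit 100) (nat_lit 5) (nat_lit 97) (nat_lit 5) (nat_lit 489) (nat_lit 412) (nat_lit 299))) (XT.nd (nat_lit 78) (nat_lit 0) (nat_lit 0) (XT.lf (nat_lit 0) (nat_lit 5991399985) (nat_lit 152) (nat_lit 9229432014) (nat_lit 228) (nat_lit 7695547562) (nat_lit 94) (nat_lit 5) (nat_lit 96) (nat_lit 5) (nat_lit 97) (nat_lit 5) (nat_lit 490) (nat_lit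 412) (nat_lit 298)) (XT.lf (nat_lit 0) (nat_lit 20013559818) (nat_lit 152) (nat_lit 1495746020) (nat_lit 228) (nat_lit 1855997485) (nat_lit 94) (nat_lit 5) (nat_lit 96) (nat_lit 5) (nat_lit 97) (nat_lit 5) (nat_lit 491) (nat_lit 412) (nat_lit 297)))) (XT.nd (nat_lit 156) (nat_lit 152) (nat_lit 0) (XT.nd (nat_lit 78) (nat_lit 152) (nat_lit 0) (XT.lf (nat_lit 0) (nat_lit 4229726021) (nat_lit 304) (nat_lit 13114187611) (nat_lit 76) (nat_lit 6478018932) (nat_lit 90) (nat_lit 5) (nat_lit 94) (nat_lit 5) (nat_lit 91) (nat_lit 5) (nat_lit 492) (nat_lit 412) (nat_lit 296)) (XT.lf (nat_lit 0) (nat_lit 925149289) (nat_lit 152) (nat_lit 9578608381) (nat_lit 228) (nat_lit 13786661711) (nat_lit 88) (nat_lit 5) (nat_lit 90) (nat_lit 5) (nat_lit 91) (nat_lit 5) (nat_lit 493) (nat_lit 412) (nat_lit 295))) (XT.nd (nat_lit 78) (nat_lit 152) (nat_lit 0) (XT.lf (nat_lit 0) (nat_lit 15628884613) (nat_lit 152) (nat_lit 1454895933) (nat_lit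 228) (nat_lit 7685648304) (nat_lit 88) (nat_lit 5) (nat_lit 90) (nat_lit 5) (nat_lit 91) (nat_lit 5) (nat_lit 494) (nat_lit 412) (nat_lit 294)) (XT.lf (nat_lit 0) (nat_lit 5527140790) (nat_lit 152) (nat_lit 18439308414) (nat_lit 228) (nat_lit 1293203166) (nat_lit 86) (nat_lit 5) (nat_lit 88) (nat_lit 5) (nat_lit 89) (nat_lit 5) (nat_lit 495) (nat_lit 412) (nat_lit 293))))))))
noncomputable def xc127 : XT := (XT.nd (nat_lit 2340) (nat_lit 1444) (nat_lit 0) (XT.nd (nat_lit 1170) (nat_lit 1216) (nat_lit 0) (XT.nd (nat_lit 546) (nat_lit 760) (nat_lit 0) (XT.nd (nat_lit 234) (nat_lit 532) (nat_lit 0) (XT.nd (nat_lit 78) (nat_lit 152) (nat_lit 0) (XT.lf (nat_lit 0) (nat_lit 5281092788) (nat_lit 228) (nat_lit 5030992448) (nat_lit 76) (nat_lit 15448172875) (nat_lit 85) (nat_lit 5) (nat_lit 88) (nat_lit 5) (nat_lit 86) (nat_lit 5) (nat_lit 496) (nat_lit 412) (nat_lit 292)) (XT.nd (nat_lit 78) (nat_lit 0) (nat_lit 0) (XT.lf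 (nat_lit 0) (nat_lit 10274772690) (nat_lit 152) (nat_lit 1836740489) (nat_lit 228) (nat_lit 14161439122) (nat_lit 83) (nat_lit 5) (nat_lit 85) (nat_lit 5) (nat_lit 86) (nat_lit 5) (nat_lit 497) (nat_lit 412) (nat_lit 291)) (XT.lf (nat_lit 0) (nat_lit 19250600800) (nat_lit 228) (nat_lit 747987619) (nat_lit 76) (nat_lit 6799327254) (nat_lit 83) (nat_lit 5) (nat_lit 86) (nat_lit 5) (nat_lit 84) (nat_lit 5) (nat_lit 498) (nat_lit 412) (nat_lit 290)))) (XT.nd (nat_lit 156) (nat_lit 152) (nat_lit 0) (XT.nd (nat_lit 78) (nat_lit 228) (nat_lit 0) (XT.lf (nat_lit 0) (nat_lit 15214566884) (nat_lit 152) (nat_lit 11540323697) (nat_lit 228) (nat_lit 579207448) (nat_lit 81) (nat_lit 5) (nat_lit 83) (nat_lit 5) (nat_lit 84) (nat_lit 5) (nat_lit 499) (nat_lit 412) (nat_lit 289)) (XT.lf (nat_lit 0) (nat_lit 3771405211) (nat_lit 152) (nat_lit 2728293120) (nat_lit 228) (nat_lit 21383850588) (nat_lit 78) (nat_lit 5) (nat_lit 80) (nat_lit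 5) (nat_lit 81) (nat_lit 5) (nat_lit 500) (nat_lit 412) (nat_lit 288))) (XT.nd (nat_lit 78) (nat_lit 152) (nat_lit 0) (XT.lf (nat_lit 0) (nat_lit 13950632521) (nat_lit 228) (nat_lit 8150216799) (nat_lit 76) (nat_lit 6343323776) (nat_lit 78) (nat_lit 5) (nat_lit 81) (nat_lit 5) (nat_lit 79) (nat_lit 5) (nat_lit 501) (nat_lit 412) (nat_lit 287)) (XT.lf (nat_lit 0) (nat_lit 8404305931) (nat_lit 152) (nat_lit 13315662441) (nat_lit 228) (nat_lit 7298802277) (nat_lit 76) (nat_lit 5) (nat_lit 78) (nat_lit 5) (nat_lit 79) (nat_lit 5) (nat_lit 502) (nat_lit 412) (nat_lit 286))))) (XT.nd (nat_lit 312) (nat_lit 380) (nat_lit 0) (XT.nd (nat_lit 156) (nat_lit 152) (nat_lit 0) (XT.nd (nat_lit 78) (nat_lit 152) (nat_lit 0) (XT.lf (nat_lit 0) (nat_lit 179814505) (nat_lit 228) (nat_lit 4010767698) (nat_lit 76) (nat_lit 25417885975) (nat_lit 75) (nat_lit 5) (nat_lit 78) (nat_lit 5) (nat_lit 76) (nat_lit 5) (nat_lit 503) (nat_lit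 412) (nat_lit 285)) (XT.lf (nat_lit 0) (nat_lit 7902926775) (nat_lit 228) (nat_lit 17007362633) (nat_lit 76) (nat_lit 5298394980) (nat_lit 73) (nat_lit 5) (nat_lit 76) (nat_lit 5) (nat_lit 74) (nat_lit 5) (nat_lit 504) (nat_lit 412) (nat_lit 284))) (XT.nd (nat_lit 78) (nat_lit 0) (nat_lit 0) (XT.lf (nat_lit 0) (nat_lit 124176540) (nat_lit 152) (nat_lit 15804672948) (nat_lit 228) (nat_lit 14895924847) (nat_lit 71) (nat_lit 5) (nat_lit 73) (nat_lit 5) (nat_lit 74) (nat_lit 5) (nat_lit 505) (nat_lit 412) (nat_lit 283)) (XT.lf (nat_lit 0) (nat_lit 18095864920) (nat_lit 152) (nat_lit 6259104155) (nat_lit 228) (nat_lit 7099596071) (nat_lit 71) (nat_lit 5) (nat_lit 73) (nat_lit 5) (nat_lit 74) (nat_lit 5) (nat_lit 506) (nat_lit 412) (nat_lit 282)))) (XT.nd (nat_lit 156) (nat_lit 152) (nat_lit 0) (XT.nd (nat_lit 78) (nat_lit 0) (nat_lit 0) (XT.lf (nat_lit 0) (nat_lit 979000054) (nat_lit 228) (nat_lit 27575299647) (nat_lit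 76) (nat_lit 3546686189) (nat_lit 68) (nat_lit 5) (nat_lit 71) (nat_lit 5) (nat_lit 69) (nat_lit 5) (nat_lit 507) (nat_lit 412) (nat_lit 281)) (XT.lf (nat_lit 0) (nat_lit 9343428251) (nat_lit 228) (nat_lit 9697974993) (nat_lit 76) (nat_lit 13717702827) (nat_lit 68) (nat_lit 5) (nat_lit 71) (nat_lit 5) (nat_lit 69) (nat_lit 5) (nat_lit 508) (nat_lit 412) (nat_lit 280))) (XT.nd (nat_lit 78) (nat_lit 0) (nat_lit 0) (XT.lf (nat_lit 0) (nat_lit 8867277423) (nat_lit 152) (nat_lit 9165065509) (nat_lit 228) (nat_lit 15402420976) (nat_lit 66) (nat_lit 5) (nat_lit 68) (nat_lit 5) (nat_lit 69) (nat_lit 5) (nat_lit 509) (nat_lit 412) (nat_lit 279)) (XT.lf (nat_lit 0) (nat_lit 27078869907) (nat_lit 228) (nat_lit 5971590688) (nat_lit 76) (nat_lit 1077323178) (nat_lit 66) (nat_lit 5) (nat_lit 69) (nat_lit 5) (nat_lit 67) (nat_lit 4) (nat_lit 510) (nat_lit 412) (nat_lit 278)))))) (XT.nd (nat_lit 546) (nat_lit 608) (nat_lit 0)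 (XT.nd (nat_lit 234) (nat_lit 304) (nat_lit 0) (XT.nd (nat_lit 78) (nat_lit 152) (nat_lit 0) (XT.lf (nat_lit 0) (nat_lit 1734490386) (nat_lit 152) (nat_lit 21521646183) (nat_lit 76) (nat_lit 11578720598) (nat_lit 64) (nat_lit 5) (nat_lit 66) (nat_lit 5) (nat_lit 65) (nat_lit 5) (nat_lit 511) (nat_lit 412) (nat_lit 277)) (XT.nd (nat_lit 78) (nat_lit 152) (nat_lit 0) (XT.lf (nat_lit 0) (nat_lit 10689337016) (nat_lit 152) (nat_lit 2353617603) (nat_lit 76) (nat_lit 22516606500) (nat_lit 64) (nat_lit 5) (nat_lit 66) (nat_lit 5) (nat_lit 65) (nat_lit 5) (nat_lit 512) (nat_lit 412) (nat_lit 276)) (XT.lf (nat_lit 0) (nat_lit 17714876499) (nat_lit 152) (nat_lit 2357285413) (nat_lit 228) (nat_lit 16229064860) (nat_lit 62) (nat_lit 5) (nat_lit 64) (nat_lit 5) (nat_lit 65) (nat_lit 5) (nat_lit 513) (nat_lit 412) (nat_lit 275)))) (XT.nd (nat_lit 156) (nat_lit 152) (nat_lit 0) (XT.nd (nat_lit 78) (nat_lit 76) (nat_lit 0) (XT.lf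 (nat_lit 0) (nat_lit 1290761521) (nat_lit 76) (nat_lit 28554343028) (nat_lit 152) (nat_lit 7216779406) (nat_lit 61) (nat_lit 5) (nat_lit 62) (nat_lit 5) (nat_lit 63) (nat_lit 4) (nat_lit 514) (nat_lit 412) (nat_lit 274)) (XT.lf (nat_lit 0) (nat_lit 2227546914) (nat_lit 152) (nat_lit 15759910720) (nat_lit 76) (nat_lit 19851248437) (nat_lit 60) (nat_lit 5) (nat_lit 62) (nat_lit 5) (nat_lit 61) (nat_lit 5) (nat_lit 515) (nat_lit 412) (nat_lit 273))) (XT.nd (nat_lit 78) (nat_lit 0) (nat_lit 0) (XT.lf (nat_lit 0) (nat_lit 4855205386) (nat_lit 152) (nat_lit 6991037683) (nat_lit 228) (nat_lit 26789363984) (nat_lit 58) (nat_lit 5) (nat_lit 60) (nat_lit 5) (nat_lit 61) (nat_lit 5) (nat_lit 516) (nat_lit 412) (nat_lit 272)) (XT.lf (nat_lit 0) (nat_lit 21945345577) (nat_lit 228) (nat_lit 13102807087) (nat_lit 76) (nat_lit 4402507525) (nat_lit 58) (nat_lit 5) (nat_lit 61) (nat_lit 5) (nat_lit 59) (nat_lit 4) (nat_lit 517)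 (nat_lit 412) (nat_lit 271))))) (XT.nd (nat_lit 312) (nat_lit 304) (nat_lit 0) (XT.nd (nat_lit 156) (nat_lit 152) (nat_lit 0) (XT.nd (nat_lit 78) (nat_lit 76) (nat_lit 0) (XT.lf (nat_lit 0) (nat_lit 8268057054) (nat_lit 76) (nat_lit 24217819411) (nat_lit 152) (nat_lit 7800135272) (nat_lit 57) (nat_lit 5) (nat_lit 58) (nat_lit 5) (nat_lit 59) (nat_lit 4) (nat_lit 518) (nat_lit 412) (nat_lit 270)) (XT.lf (nat_lit 0) (nat_lit 2276740870) (nat_lit 152) (nat_lit 10635429445) (nat_lit 76) (nat_lit 28229918712) (nat_lit 56) (nat_lit 5) (nat_lit 58) (nat_lit 5) (nat_lit 57) (nat_lit 5) (nat_lit 519) (nat_lit 412) (nat_lit 269))) (XT.nd (nat_lit 78) (nat_lit 0) (nat_lit 0) (XT.lf (nat_lit 0) (nat_lit 11517452999) (nat_lit 152) (nat_lit 1082480433) (nat_lit 228) (nat_lit 29418575213) (nat_lit 54) (nat_lit 5) (nat_lit 56) (nat_lit 5) (nat_lit 57) (nat_lit 5) (nat_lit 520) (nat_lit 412) (nat_lit 268)) (XT.lf (nat_lit 0) (nat_lit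 23438103332) (nat_lit 228) (nat_lit 8491510301) (nat_lit 76) (nat_lit 10985449195) (nat_lit 54) (nat_lit 5) (nat_lit 57) (nat_lit 5) (nat_lit 55) (nat_lit 4) (nat_lit 521) (nat_lit 412) (nat_lit 267)))) (XT.nd (nat_lit 156) (nat_lit 152) (nat_lit 0) (XT.nd (nat_lit 78) (nat_lit 76) (nat_lit 0) (XT.lf (nat_lit 0) (nat_lit 14431084231) (nat_lit 76) (nat_lit 20310161515) (nat_lit 152) (nat_lit 9093073478) (nat_lit 53) (nat_lit 5) (nat_lit 54) (nat_lit 5) (nat_lit 55) (nat_lit 4) (nat_lit 522) (nat_lit 412) (nat_lit 266)) (XT.lf (nat_lit 0) (nat_lit 1648060827) (nat_lit 152) (nat_lit 6597543912) (nat_lit 76) (nat_lit 36532776915) (nat_lit 52) (nat_lit 5) (nat_lit 54) (nat_lit 5) (nat_lit 53) (nat_lit 5) (nat_lit 523) (nat_lit 412) (nat_lit 265))) (XT.nd (nat_lit 78) (nat_lit 0) (nat_lit 0) (XT.lf (nat_lit 0) (nat_lit 12726535178) (nat_lit 228) (nat_lit 28667310499) (nat_lit 76) (nat_lit 4348283709) (nat_lit 50) (nat_lit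 5) (nat_lit 53) (nat_lit 5) (nat_lit 51) (nat_lit 4) (nat_lit 524) (nat_lit 412) (nat_lit 264)) (XT.lf (nat_lit 0) (nat_lit 24276991952) (nat_lit 228) (nat_lit 5240127042) (nat_lit 76) (nat_lit 17213482074) (nat_lit 50) (nat_lit 5) (nat_lit 53) (nat_lit 5) (nat_lit 51) (nat_lit 4) (nat_lit 525) (nat_lit 412) (nat_lit 263))))))) (XT.nd (nat_lit 1170) (nat_lit 532) (nat_lit 0) (XT.nd (nat_lit 546) (nat_lit 380) (nat_lit 0) (XT.nd (nat_lit 234) (nat_lit 228) (nat_lit 0) (XT.nd (nat_lit 78) (nat_lit 228) (nat_lit 0) (XT.lf (nat_lit 0) (nat_lit 19248357640) (nat_lit 76) (nat_lit 17101609117) (nat_lit 152) (nat_lit 11393480370) (nat_lit 49) (nat_lit 5) (nat_lit 50) (nat_lit 5) (nat_lit 51) (nat_lit 4) (nat_lit 526) (nat_lit 412) (nat_lit 262)) (XT.nd (nat_lit 78) (nat_lit 152) (nat_lit 0) (XT.lf (nat_lit 0) (nat_lit 42909867) (nat_lit 152) (nat_lit 4223816729) (nat_lit 76) (nat_lit 44518619927) (nat_lit 48) (nat_lit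 5) (nat_lit 50) (nat_lit 5) (nat_lit 49) (nat_lit 5) (nat_lit 527) (nat_lit 412) (nat_lit 261)) (XT.lf (nat_lit 0) (nat_lit 11876167279) (nat_lit 228) (nat_lit 28881363467) (nat_lit 76) (nat_lit 9089105082) (nat_lit 46) (nat_lit 5) (nat_lit 49) (nat_lit 5) (nat_lit 47) (nat_lit 4) (nat_lit 528) (nat_lit 412) (nat_lit 260)))) (XT.nd (nat_lit 156) (nat_lit 152) (nat_lit 0) (XT.nd (nat_lit 78) (nat_lit 76) (nat_lit 0) (XT.lf (nat_lit 0) (nat_lit 24141014155) (nat_lit 228) (nat_lit 4001186783) (nat_lit 76) (nat_lit 22795265437) (nat_lit 46) (nat_lit 5) (nat_lit 49) (nat_lit 5) (nat_lit 47) (nat_lit 4) (nat_lit 529) (nat_lit 412) (nat_lit 259)) (XT.lf (nat_lit 0) (nat_lit 22039292591) (nat_lit 76) (nat_lit 14937895571) (nat_lit 152) (nat_lit 15077732530) (nat_lit 45) (nat_lit 5) (nat_lit 46) (nat_lit 5) (nat_lit 47) (nat_lit 4) (nat_lit 530) (nat_lit 412) (nat_lit 258))) (XT.nd (nat_lit 78) (nat_lit 152) (nat_lit 0)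 (XT.lf (nat_lit 0) (nat_lit 48926996679) (nat_lit 76) (nat_lit 1303474313) (nat_lit 152) (nat_lit 2974467234) (nat_lit 45) (nat_lit 5) (nat_lit 46) (nat_lit 5) (nat_lit 47) (nat_lit 4) (nat_lit 531) (nat_lit 412) (nat_lit 257)) (XT.lf (nat_lit 0) (nat_lit 9640812190) (nat_lit 152) (nat_lit 31940646472) (nat_lit 76) (nat_lit 12795236530) (nat_lit 43) (nat_lit 5) (nat_lit 45) (nat_lit 5) (nat_lit 44) (nat_lit 4) (nat_lit 532) (nat_lit 412) (nat_lit 256))))) (XT.nd (nat_lit 312) (nat_lit 152) (nat_lit 0) (XT.nd (nat_lit 156) (nat_lit 152) (nat_lit 0) (XT.nd (nat_lit 78) (nat_lit 76) (nat_lit 0) (XT.lf (nat_lit 0) (nat_lit 22623099529) (nat_lit 152) (nat_lit 5601666459) (nat_lit 76) (nat_lit 27356505644) (nat_lit 43) (nat_lit 5) (nat_lit 45) (nat_lit 5) (nat_lit 44) (nat_lit 4) (nat_lit 533) (nat_lit 412) (nat_lit 255)) (XT.lf (nat_lit 0) (nat_lit 21940349958) (nat_lit 76) (nat_lit 14257449553) (nat_lit 152) (nat_lit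 20618097795) (nat_lit 42) (nat_lit 5) (nat_lit 43) (nat_lit 5) (nat_lit 44) (nat_lit 4) (nat_lit 534) (nat_lit 412) (nat_lit 254))) (XT.nd (nat_lit 78) (nat_lit 152) (nat_lit 0) (XT.lf (nat_lit 0) (nat_lit 50230162168) (nat_lit 152) (nat_lit 7679493606) (nat_lit 0) (nat_lit 176393583) (nat_lit 42) (nat_lit 5) (nat_lit 44) (nat_lit 4) (nat_lit 42) (nat_lit 4) (nat_lit 535) (nat_lit 412) (nat_lit 253)) (XT.lf (nat_lit 0) (nat_lit 5520517418) (nat_lit 152) (nat_lit 38860501759) (nat_lit 76) (nat_lit 15001725581) (nat_lit 40) (nat_lit 5) (nat_lit 42) (nat_lit 5) (nat_lit 41) (nat_lit 4) (nat_lit 536) (nat_lit 412) (nat_lit 252)))) (XT.nd (nat_lit 156) (nat_lit 76) (nat_lit 0) (XT.nd (nat_lit 78) (nat_lit 76) (nat_lit 0) (XT.lf (nat_lit 0) (nat_lit 19210930021) (nat_lit 152) (nat_lit 11081957896) (nat_lit 76) (nat_lit 30421001563) (nat_lit 40) (nat_lit 5) (nat_lit 42) (nat_lit 5) (nat_lit 41) (nat_lit 4) (nat_lit 537)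 (nat_lit 412) (nat_lit 251)) (XT.lf (nat_lit 0) (nat_lit 17864119833) (nat_lit 76) (nat_lit 15612176194) (nat_lit 152) (nat_lit 28603745514) (nat_lit 39) (nat_lit 5) (nat_lit 40) (nat_lit 5) (nat_lit 41) (nat_lit 4) (nat_lit 538) (nat_lit 412) (nat_lit 250))) (XT.nd (nat_lit 78) (nat_lit 76) (nat_lit 0) (XT.lf (nat_lit 0) (nat_lit 47891474728) (nat_lit 76) (nat_lit 382655153) (nat_lit 152) (nat_lit 15209913296) (nat_lit 39) (nat_lit 5) (nat_lit 40) (nat_lit 5) (nat_lit 41) (nat_lit 4) (nat_lit 539) (nat_lit 412) (nat_lit 249)) (XT.lf (nat_lit 0) (nat_lit 14001587550) (nat_lit 76) (nat_lit 49788764215) (nat_lit 76) (nat_lit 1131579721) (nat_lit 38) (nat_lit 4) (nat_lit 39) (nat_lit 5) (nat_lit 39) (nat_lit 4) (nat_lit 540) (nat_lit 412) (nat_lit 248)))))) (XT.nd (nat_lit 624) (nat_lit 152) (nat_lit 0) (XT.nd (nat_lit 312) (nat_lit 152) (nat_lit 0) (XT.nd (nat_lit 156) (nat_lit 76) (nat_lit 0) (XT.nd (nat_lit 78)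 (nat_lit 76) (nat_lit 0) (XT.lf (nat_lit 0) (nat_lit 13263785196) (nat_lit 152) (nat_lit 21742909042) (nat_lit 76) (nat_lit 31387740228) (nat_lit 37) (nat_lit 5) (nat_lit 39) (nat_lit 5) (nat_lit 38) (nat_lit 4) (nat_lit 541) (nat_lit 412) (nat_lit 247)) (XT.lf (nat_lit 0) (nat_lit 8449924672) (nat_lit 76) (nat_lit 19692538234) (nat_lit 152) (nat_lit 39766087848) (nat_lit 36) (nat_lit 5) (nat_lit 37) (nat_lit 5) (nat_lit 38) (nat_lit 4) (nat_lit 542) (nat_lit 412) (nat_lit 246))) (XT.nd (nat_lit 78) (nat_lit 76) (nat_lit 0) (XT.lf (nat_lit 0) (nat_lit 39980776207) (nat_lit 76) (nat_lit 3699330355) (nat_lit 152) (nat_lit 25781605991) (nat_lit 36) (nat_lit 5) (nat_lit 37) (nat_lit 5) (nat_lit 38) (nat_lit 4) (nat_lit 543) (nat_lit 412) (nat_lit 245)) (XT.lf (nat_lit 0) (nat_lit 1285148663) (nat_lit 76) (nat_lit 58527059453) (nat_lit 76) (nat_lit 11245411416) (nat_lit 35) (nat_lit 4) (nat_lit 36) (nat_lit 5) (nat_lit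 36) (nat_lit 4) (nat_lit 544) (nat_lit 412) (nat_lit 244)))) (XT.nd (nat_lit 156) (nat_lit 76) (nat_lit 0) (XT.nd (nat_lit 78) (nat_lit 0) (nat_lit 0) (XT.lf (nat_lit 0) (nat_lit 3984610805) (nat_lit 152) (nat_lit 39202556650) (nat_lit 76) (nat_lit 29503247697) (nat_lit 34) (nat_lit 5) (nat_lit 36) (nat_lit 5) (nat_lit 35) (nat_lit 4) (nat_lit 545) (nat_lit 412) (nat_lit 243)) (XT.lf (nat_lit 0) (nat_lit 19438902584) (nat_lit 152) (nat_lit 7839731281) (nat_lit 76) (nat_lit 47090419010) (nat_lit 34) (nat_lit 5) (nat_lit 36) (nat_lit 5) (nat_lit 35) (nat_lit 4) (nat_lit 546) (nat_lit 412) (nat_lit 242))) (XT.nd (nat_lit 78) (nat_lit 0) (nat_lit 0) (XT.lf (nat_lit 0) (nat_lit 24938140365) (nat_lit 76) (nat_lit 10651986446) (nat_lit 152) (nat_lit 40500923970) (nat_lit 33) (nat_lit 5) (nat_lit 34) (nat_lit 5) (nat_lit 35) (nat_lit 4) (nat_lit 547) (nat_lit 412) (nat_lit 241)) (XT.lf (nat_lit 0) (nat_lit 52361657911)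 (nat_lit 152) (nat_lit 19077771465) (nat_lit 0) (nat_lit 6421206304) (nat_lit 33) (nat_lit 5) (nat_lit 35) (nat_lit 4) (nat_lit 33) (nat_lit 4) (nat_lit 548) (nat_lit 412) (nat_lit 240))))) (XT.nd (nat_lit 52026) (nat_lit 0) (nat_lit 24092) (XT.nd (nat_lit 51870) (nat_lit 0) (nat_lit 24852) (XT.nd (nat_lit 78) (nat_lit 76) (nat_lit 0) (XT.lf (nat_lit 0) (nat_lit 14117521594) (nat_lit 76) (nat_lit 55753764960) (nat_lit 76) (nat_lit 9804973178) (nat_lit 32) (nat_lit 4) (nat_lit 33) (nat_lit 5) (nat_lit 33) (nat_lit 4) (nat_lit 549) (nat_lit 412) (nat_lit 239)) (XT.lf (nat_lit 0) (nat_lit 6424088309) (nat_lit 152) (nat_lit 32915989770) (nat_lit 76) (nat_lit 42198790317) (nat_lit 31) (nat_lit 5) (nat_lit 33) (nat_lit 5) (nat_lit 32) (nat_lit 4) (nat_lit 550) (nat_lit 412) (nat_lit 238))) (XT.nd (nat_lit 78) (nat_lit 0) (nat_lit 0) (XT.lf (nat_lit 0) (nat_lit 1104194817) (nat_lit 836) (nat_lit 1237896623) (nat_lit 836)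 (nat_lit 1237896623) (nat_lit 358) (nat_lit 3) (nat_lit 369) (nat_lit 3) (nat_lit 369) (nat_lit 5) (nat_lit 413) (nat_lit 413) (nat_lit 374)) (XT.lf (nat_lit 76) (nat_lit 1064572110) (nat_lit 0) (nat_lit 2848623452) (nat_lit 836) (nat_lit 3303524663) (nat_lit 359) (nat_lit 5) (nat_lit 358) (nat_lit 3) (nat_lit 369) (nat_lit 5) (nat_lit 414) (nat_lit 413) (nat_lit 373)))) (XT.nd (nat_lit 156) (nat_lit 0) (nat_lit 0) (XT.nd (nat_lit 78) (nat_lit 760) (nat_lit 0) (XT.lf (nat_lit 76) (nat_lit 4727831680) (nat_lit 0) (nat_lit 901145539) (nat_lit 836) (nat_lit 1647414192) (nat_lit 359) (nat_lit 5) (nat_lit 358) (nat_lit 3) (nat_lit 369) (nat_lit 5) (nat_lit 415) (nat_lit 413) (nat_lit 372)) (XT.lf (nat_lit 0) (nat_lit 15403795) (nat_lit 836) (nat_lit 6199796620) (nat_lit 912) (nat_lit 1123909163) (nat_lit 348) (nat_lit 5) (nat_lit 359) (nat_lit 5) (nat_lit 360) (nat_lit 5) (nat_lit 416) (nat_lit 413) (nat_lit 371)))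 (XT.nd (nat_lit 78) (nat_lit 0) (nat_lit 0) (XT.lf (nat_lit 0) (nat_lit 1667798300) (nat_lit 836) (nat_lit 2474552044) (nat_lit 912) (nat_lit 3261703556) (nat_lit 348) (nat_lit 5) (nat_lit 359) (nat_lit 5) (nat_lit 360) (nat_lit 5) (nat_lit 417) (nat_lit 413) (nat_lit 370)) (XT.lf (nat_lit 76) (nat_lit 1353728559) (nat_lit 0) (nat_lit 1968748826) (nat_lit 912) (nat_lit 4149905301) (nat_lit 349) (nat_lit 5) (nat_lit 348) (nat_lit 5) (nat_lit 360) (nat_lit 5) (nat_lit 418) (nat_lit 413) (nat_lit 369))))))))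
noncomputable def xc128 : XT := (XT.nd (nat_lit 2340) (nat_lit 6612) (nat_lit 0) (XT.nd (nat_lit 1170) (nat_lit 6004) (nat_lit 0) (XT.nd (nat_lit 546) (nat_lit 4028) (nat_lit 0) (XT.nd (nat_lit 234) (nat_lit 0) (nat_lit 0) (XT.nd (nat_lit 78) (nat_lit 912) (nat_lit 0) (XT.lf (nat_lit 0) (nat_lit 4995981627) (nat_lit 836) (nat_lit 2234079436) (nat_lit 912) (nat_lit 313641733) (nat_lit 349) (nat_lit 5) (nat_lit 360) (nat_lit 5) (nat_lit 361) (nat_lit 5) (nat_lit 419) (nat_lit 413) (nat_lit 368)) (XT.nd (nat_lit 78) (nat_lit 912) (nat_lit 0) (XT.lf (nat_lit 76) (nat_lit 1745872442) (nat_lit 0) (nat_lit 4953154931) (nat_lit 912) (nat_lit 918771555) (nat_lit 350) (nat_lit 5) (nat_lit 349) (nat_lit 5) (nat_lit 361) (nat_lit 5) (nat_lit 420) (nat_lit 413) (nat_lit 367)) (XT.lf (nat_lit 0) (nat_lit 710831268) (nat_lit 912) (nat_lit 1846460807) (nat_lit 988) (nat_lit 5137624647) (nat_lit 337) (nat_lit 5) (nat_lit 349) (nat_lit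 5) (nat_lit 350) (nat_lit 5) (nat_lit 421) (nat_lit 413) (nat_lit 366)))) (XT.nd (nat_lit 156) (nat_lit 0) (nat_lit 76) (XT.nd (nat_lit 78) (nat_lit 0) (nat_lit 76) (XT.lf (nat_lit 76) (nat_lit 2300099805) (nat_lit 0) (nat_lit 38315715) (nat_lit 988) (nat_lit 5436647945) (nat_lit 338) (nat_lit 5) (nat_lit 337) (nat_lit 5) (nat_lit 350) (nat_lit 5) (nat_lit 422) (nat_lit 413) (nat_lit 365)) (XT.lf (nat_lit 0) (nat_lit 4005105589) (nat_lit 912) (nat_lit 1309800440) (nat_lit 988) (nat_lit 2543014900) (nat_lit 338) (nat_lit 5) (nat_lit 350) (nat_lit 5) (nat_lit 351) (nat_lit 5) (nat_lit 423) (nat_lit 413) (nat_lit 364))) (XT.nd (nat_lit 78) (nat_lit 0) (nat_lit 76) (XT.lf (nat_lit 76) (nat_lit 3002710241) (nat_lit 0) (nat_lit 2696752671) (nat_lit 988) (nat_lit 2244485452) (nat_lit 339) (nat_lit 5) (nat_lit 338) (nat_lit 5) (nat_lit 351) (nat_lit 5) (nat_lit 424) (nat_lit 413) (nat_lit 363)) (XT.lf (nat_lit 0) (nat_lit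 7407736029) (nat_lit 912) (nat_lit 597984909) (nat_lit 988) (nat_lit 27956959) (nat_lit 339) (nat_lit 5) (nat_lit 351) (nat_lit 5) (nat_lit 352) (nat_lit 5) (nat_lit 425) (nat_lit 413) (nat_lit 362))))) (XT.nd (nat_lit 312) (nat_lit 2280) (nat_lit 0) (XT.nd (nat_lit 156) (nat_lit 912) (nat_lit 0) (XT.nd (nat_lit 78) (nat_lit 0) (nat_lit 0) (XT.lf (nat_lit 0) (nat_lit 1036252773) (nat_lit 988) (nat_lit 4247124926) (nat_lit 1064) (nat_lit 2841972058) (nat_lit 326) (nat_lit 5) (nat_lit 339) (nat_lit 5) (nat_lit 340) (nat_lit 5) (nat_lit 426) (nat_lit 413) (nat_lit 361)) (XT.lf (nat_lit 76) (nat_lit 243199357) (nat_lit 0) (nat_lit 2452754596) (nat_lit 1064) (nat_lit 5524837904) (nat_lit 327) (nat_lit 5) (nat_lit 326) (nat_lit 5) (nat_lit 340) (nat_lit 5) (nat_lit 427) (nat_lit 413) (nat_lit 360))) (XT.nd (nat_lit 78) (nat_lit 988) (nat_lit 0) (XT.lf (nat_lit 0) (nat_lit 4406151908) (nat_lit 988) (nat_lit 3405237703)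 (nat_lit 76) (nat_lit 507698723) (nat_lit 327) (nat_lit 5) (nat_lit 340) (nat_lit 5) (nat_lit 328) (nat_lit 5) (nat_lit 428) (nat_lit 413) (nat_lit 359)) (XT.lf (nat_lit 0) (nat_lit 1267999526) (nat_lit 988) (nat_lit 4890445179) (nat_lit 1064) (nat_lit 2262177261) (nat_lit 314) (nat_lit 5) (nat_lit 327) (nat_lit 5) (nat_lit 328) (nat_lit 5) (nat_lit 429) (nat_lit 413) (nat_lit 358)))) (XT.nd (nat_lit 156) (nat_lit 1140) (nat_lit 0) (XT.nd (nat_lit 78) (nat_lit 1140) (nat_lit 0) (XT.lf (nat_lit 0) (nat_lit 6114851418) (nat_lit 988) (nat_lit 1838137360) (nat_lit 1064) (nat_lit 572533935) (nat_lit 314) (nat_lit 5) (nat_lit 327) (nat_lit 5) (nat_lit 328) (nat_lit 5) (nat_lit 430) (nat_lit 413) (nat_lit 357)) (XT.lf (nat_lit 0) (nat_lit 1137925204) (nat_lit 1140) (nat_lit 6172431084) (nat_lit 76) (nat_lit 1323100906) (nat_lit 299) (nat_lit 5) (nat_lit 314) (nat_lit 5) (nat_lit 300) (nat_lit 5) (nat_lit 431) (nat_lit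 413) (nat_lit 356))) (XT.nd (nat_lit 78) (nat_lit 1140) (nat_lit 0) (XT.lf (nat_lit 0) (nat_lit 2888131900) (nat_lit 1140) (nat_lit 1276938505) (nat_lit 76) (nat_lit 4579401608) (nat_lit 299) (nat_lit 5) (nat_lit 314) (nat_lit 5) (nat_lit 300) (nat_lit 5) (nat_lit 432) (nat_lit 413) (nat_lit 355)) (XT.lf (nat_lit 0) (nat_lit 3803502108) (nat_lit 1140) (nat_lit 882309805) (nat_lit 1216) (nat_lit 4173166640) (nat_lit 284) (nat_lit 5) (nat_lit 299) (nat_lit 5) (nat_lit 300) (nat_lit 5) (nat_lit 433) (nat_lit 413) (nat_lit 354)))))) (XT.nd (nat_lit 546) (nat_lit 2736) (nat_lit 0) (XT.nd (nat_lit 234) (nat_lit 1216) (nat_lit 0) (XT.nd (nat_lit 78) (nat_lit 836) (nat_lit 0) (XT.lf (nat_lit 0) (nat_lit 25281041) (nat_lit 1216) (nat_lit 6508748409) (nat_lit 1292) (nat_lit 2443002614) (nat_lit 268) (nat_lit 5) (nat_lit 284) (nat_lit 5) (nat_lit 285) (nat_lit 5) (nat_lit 434) (nat_lit 413) (nat_lit 353)) (XT.nd (nat_lit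 78) (nat_lit 836) (nat_lit 0) (XT.lf (nat_lit 0) (nat_lit 5316485504) (nat_lit 1216) (nat_lit 3141061157) (nat_lit 1292) (nat_lit 640494622) (nat_lit 268) (nat_lit 5) (nat_lit 284) (nat_lit 5) (nat_lit 285) (nat_lit 5) (nat_lit 435) (nat_lit 413) (nat_lit 352)) (XT.lf (nat_lit 0) (nat_lit 1171378604) (nat_lit 836) (nat_lit 7701102638) (nat_lit 76) (nat_lit 350487378) (nat_lit 257) (nat_lit 5) (nat_lit 268) (nat_lit 5) (nat_lit 258) (nat_lit 5) (nat_lit 436) (nat_lit 413) (nat_lit 351)))) (XT.nd (nat_lit 156) (nat_lit 608) (nat_lit 0) (XT.nd (nat_lit 78) (nat_lit 608) (nat_lit 0) (XT.lf (nat_lit 0) (nat_lit 3056132717) (nat_lit 836) (nat_lit 2363647185) (nat_lit 76) (nat_lit 3930740563) (nat_lit 257) (nat_lit 5) (nat_lit 268) (nat_lit 5) (nat_lit 258) (nat_lit 5) (nat_lit 437) (nat_lit 413) (nat_lit 350)) (XT.lf (nat_lit 0) (nat_lit 3159430048) (nat_lit 608) (nat_lit 1831218325) (nat_lit 684) (nat_lit 4491462544)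 (nat_lit 249) (nat_lit 5) (nat_lit 257) (nat_lit 5) (nat_lit 258) (nat_lit 5) (nat_lit 438) (nat_lit 413) (nat_lit 349))) (XT.nd (nat_lit 78) (nat_lit 608) (nat_lit 0) (XT.lf (nat_lit 0) (nat_lit 6988823947) (nat_lit 684) (nat_lit 775350794) (nat_lit 76) (nat_lit 1853313971) (nat_lit 249) (nat_lit 5) (nat_lit 258) (nat_lit 5) (nat_lit 250) (nat_lit 5) (nat_lit 439) (nat_lit 413) (nat_lit 348)) (XT.lf (nat_lit 0) (nat_lit 4981647149) (nat_lit 608) (nat_lit 4095967974) (nat_lit 684) (nat_lit 678400732) (nat_lit 241) (nat_lit 5) (nat_lit 249) (nat_lit 5) (nat_lit 250) (nat_lit 5) (nat_lit 440) (nat_lit 413) (nat_lit 347))))) (XT.nd (nat_lit 312) (nat_lit 1596) (nat_lit 0) (XT.nd (nat_lit 156) (nat_lit 532) (nat_lit 0) (XT.nd (nat_lit 78) (nat_lit 0) (nat_lit 0) (XT.lf (nat_lit 0) (nat_lit 999233654) (nat_lit 532) (nat_lit 287679931) (nat_lit 608) (nat_lit 8611934151) (nat_lit 233) (nat_lit 5) (nat_lit 240) (nat_lit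 5) (nat_lit 241) (nat_lit 5) (nat_lit 441) (nat_lit 413) (nat_lit 346)) (XT.lf (nat_lit 0) (nat_lit 3346833045) (nat_lit 608) (nat_lit 3079591418) (nat_lit 76) (nat_lit 3617867612) (nat_lit 233) (nat_lit 5) (nat_lit 241) (nat_lit 5) (nat_lit 234) (nat_lit 5) (nat_lit 442) (nat_lit 413) (nat_lit 345))) (XT.nd (nat_lit 78) (nat_lit 0) (nat_lit 0) (XT.lf (nat_lit 0) (nat_lit 2933650562) (nat_lit 532) (nat_lit 2532599653) (nat_lit 608) (nat_lit 4727925740) (nat_lit 226) (nat_lit 5) (nat_lit 233) (nat_lit 5) (nat_lit 234) (nat_lit 5) (nat_lit 443) (nat_lit 413) (nat_lit 344)) (XT.lf (nat_lit 0) (nat_lit 7662119916) (nat_lit 608) (nat_lit 1208111567) (nat_lit 76) (nat_lit 1477945775) (nat_lit 226) (nat_lit 5) (nat_lit 234) (nat_lit 5) (nat_lit 227) (nat_lit 5) (nat_lit 444) (nat_lit 413) (nat_lit 343)))) (XT.nd (nat_lit 156) (nat_lit 456) (nat_lit 0) (XT.nd (nat_lit 78) (nat_lit 608) (nat_lit 0) (XT.lf (nat_lit 0) (nat_lit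 5064291083) (nat_lit 532) (nat_lit 4901541086) (nat_lit 608) (nat_lit 539714239) (nat_lit 219) (nat_lit 5) (nat_lit 226) (nat_lit 5) (nat_lit 227) (nat_lit 5) (nat_lit 445) (nat_lit 413) (nat_lit 342)) (XT.lf (nat_lit 0) (nat_lit 847088206) (nat_lit 532) (nat_lit 780270812) (nat_lit 608) (nat_lit 9040133717) (nat_lit 211) (nat_lit 5) (nat_lit 218) (nat_lit 5) (nat_lit 219) (nat_lit 5) (nat_lit 446) (nat_lit 413) (nat_lit 341))) (XT.nd (nat_lit 78) (nat_lit 456) (nat_lit 0) (XT.lf (nat_lit 0) (nat_lit 3906412649) (nat_lit 608) (nat_lit 3472380211) (nat_lit 76) (nat_lit 3453616029) (nat_lit 211) (nat_lit 5) (nat_lit 219) (nat_lit 5) (nat_lit 212) (nat_lit 5) (nat_lit 447) (nat_lit 413) (nat_lit 340)) (XT.lf (nat_lit 0) (nat_lit 3083419614) (nat_lit 456) (nat_lit 3177707373) (nat_lit 532) (nat_lit 4740932909) (nat_lit 205) (nat_lit 5) (nat_lit 211) (nat_lit 5) (nat_lit 212) (nat_lit 5) (nat_lit 448) (nat_lit 413)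 (nat_lit 339))))))) (XT.nd (nat_lit 1170) (nat_lit 2812) (nat_lit 0) (XT.nd (nat_lit 546) (nat_lit 1900) (nat_lit 0) (XT.nd (nat_lit 234) (nat_lit 912) (nat_lit 0) (XT.nd (nat_lit 78) (nat_lit 988) (nat_lit 0) (XT.lf (nat_lit 0) (nat_lit 8703358484) (nat_lit 532) (nat_lit 1315676506) (nat_lit 76) (nat_lit 1157265042) (nat_lit 205) (nat_lit 5) (nat_lit 212) (nat_lit 5) (nat_lit 206) (nat_lit 5) (nat_lit 449) (nat_lit 413) (nat_lit 338)) (XT.nd (nat_lit 78) (nat_lit 532) (nat_lit 0) (XT.lf (nat_lit 0) (nat_lit 5527200577) (nat_lit 456) (nat_lit 5747526800) (nat_lit 532) (nat_lit 79369577) (nat_lit 199) (nat_lit 5) (nat_lit 205) (nat_lit 5) (nat_lit 206) (nat_lit 5) (nat_lit 450) (nat_lit 413) (nat_lit 337)) (XT.lf (nat_lit 0) (nat_lit 1027689011) (nat_lit 456) (nat_lit 1306556909) (nat_lit 532) (nat_lit 9202455279) (nat_lit 192) (nat_lit 5) (nat_lit 198) (nat_lit 5) (nat_lit 199) (nat_lit 5) (nat_lit 451) (nat_lit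 413) (nat_lit 336)))) (XT.nd (nat_lit 156) (nat_lit 456) (nat_lit 0) (XT.nd (nat_lit 78) (nat_lit 456) (nat_lit 0) (XT.lf (nat_lit 0) (nat_lit 4881444689) (nat_lit 532) (nat_lit 3583684099) (nat_lit 76) (nat_lit 3257753321) (nat_lit 192) (nat_lit 5) (nat_lit 199) (nat_lit 5) (nat_lit 193) (nat_lit 5) (nat_lit 452) (nat_lit 413) (nat_lit 335)) (XT.lf (nat_lit 0) (nat_lit 3571951429) (nat_lit 456) (nat_lit 3953134035) (nat_lit 532) (nat_lit 4388967260) (nat_lit 186) (nat_lit 5) (nat_lit 192) (nat_lit 5) (nat_lit 193) (nat_lit 5) (nat_lit 453) (nat_lit 413) (nat_lit 334))) (XT.nd (nat_lit 78) (nat_lit 456) (nat_lit 0) (XT.lf (nat_lit 0) (nat_lit 10264408855) (nat_lit 532) (nat_lit 1135808683) (nat_lit 76) (nat_lit 710254634) (nat_lit 186) (nat_lit 5) (nat_lit 193) (nat_lit 5) (nat_lit 187) (nat_lit 5) (nat_lit 454) (nat_lit 413) (nat_lit 333)) (XT.lf (nat_lit 0) (nat_lit 832765479) (nat_lit 456) (nat_lit 5981145429)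 (nat_lit 76) (nat_lit 5496413245) (nat_lit 180) (nat_lit 5) (nat_lit 186) (nat_lit 5) (nat_lit 181) (nat_lit 5) (nat_lit 455) (nat_lit 413) (nat_lit 332))))) (XT.nd (nat_lit 312) (nat_lit 1140) (nat_lit 0) (XT.nd (nat_lit 156) (nat_lit 380) (nat_lit 0) (XT.nd (nat_lit 78) (nat_lit 0) (nat_lit 0) (XT.lf (nat_lit 0) (nat_lit 1502698764) (nat_lit 380) (nat_lit 2052300713) (nat_lit 456) (nat_lit 8960624048) (nat_lit 175) (nat_lit 5) (nat_lit 180) (nat_lit 5) (nat_lit 181) (nat_lit 5) (nat_lit 456) (nat_lit 413) (nat_lit 331)) (XT.lf (nat_lit 0) (nat_lit 6421784565) (nat_lit 456) (nat_lit 3453782109) (nat_lit 76) (nat_lit 2849633046) (nat_lit 175) (nat_lit 5) (nat_lit 181) (nat_lit 5) (nat_lit 176) (nat_lit 5) (nat_lit 457) (nat_lit 413) (nat_lit 330))) (XT.nd (nat_lit 78) (nat_lit 0) (nat_lit 0) (XT.lf (nat_lit 0) (nat_lit 4363800137) (nat_lit 380) (nat_lit 5048255487) (nat_lit 456) (nat_lit 3527887344) (nat_lit 170)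 (nat_lit 5) (nat_lit 175) (nat_lit 5) (nat_lit 176) (nat_lit 5) (nat_lit 458) (nat_lit 413) (nat_lit 329)) (XT.lf (nat_lit 0) (nat_lit 12453865844) (nat_lit 380) (nat_lit 48666674) (nat_lit 456) (nat_lit 658285181) (nat_lit 170) (nat_lit 5) (nat_lit 175) (nat_lit 5) (nat_lit 176) (nat_lit 5) (nat_lit 459) (nat_lit 413) (nat_lit 328)))) (XT.nd (nat_lit 156) (nat_lit 380) (nat_lit 0) (XT.nd (nat_lit 78) (nat_lit 304) (nat_lit 0) (XT.lf (nat_lit 0) (nat_lit 2350549407) (nat_lit 456) (nat_lit 5946078678) (nat_lit 76) (nat_lit 5088092694) (nat_lit 164) (nat_lit 5) (nat_lit 170) (nat_lit 5) (nat_lit 165) (nat_lit 5) (nat_lit 460) (nat_lit 413) (nat_lit 327)) (XT.lf (nat_lit 0) (nat_lit 2231772379) (nat_lit 304) (nat_lit 3210189613) (nat_lit 380) (nat_lit 8173020878) (nat_lit 160) (nat_lit 5) (nat_lit 164) (nat_lit 5) (nat_lit 165) (nat_lit 5) (nat_lit 461) (nat_lit 413) (nat_lit 326))) (XT.nd (nat_lit 78) (nat_lit 380)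 (nat_lit 0) (XT.lf (nat_lit 0) (nat_lit 8682945571) (nat_lit 380) (nat_lit 3126569221) (nat_lit 76) (nat_lit 2040936832) (nat_lit 160) (nat_lit 5) (nat_lit 165) (nat_lit 5) (nat_lit 161) (nat_lit 5) (nat_lit 462) (nat_lit 413) (nat_lit 325)) (XT.lf (nat_lit 0) (nat_lit 5419737584) (nat_lit 380) (nat_lit 6662669869) (nat_lit 456) (nat_lit 2008743071) (nat_lit 155) (nat_lit 5) (nat_lit 160) (nat_lit 5) (nat_lit 161) (nat_lit 5) (nat_lit 463) (nat_lit 413) (nat_lit 324)))))) (XT.nd (nat_lit 546) (nat_lit 1444) (nat_lit 0) (XT.nd (nat_lit 234) (nat_lit 684) (nat_lit 0) (XT.nd (nat_lit 78) (nat_lit 608) (nat_lit 0) (XT.lf (nat_lit 0) (nat_lit 1229874917) (nat_lit 456) (nat_lit 96021872) (nat_lit 76) (nat_lit 13012536512) (nat_lit 154) (nat_lit 5) (nat_lit 160) (nat_lit 5) (nat_lit 155) (nat_lit 5) (nat_lit 464) (nat_lit 413) (nat_lit 323)) (XT.nd (nat_lit 78) (nat_lit 304) (nat_lit 0) (XT.lf (nat_lit 0) (nat_lit 4629626916)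 (nat_lit 380) (nat_lit 5773293848) (nat_lit 76) (nat_lit 4186489913) (nat_lit 150) (nat_lit 5) (nat_lit 155) (nat_lit 5) (nat_lit 151) (nat_lit 5) (nat_lit 465) (nat_lit 413) (nat_lit 322)) (XT.lf (nat_lit 0) (nat_lit 3166898617) (nat_lit 304) (nat_lit 4987423806) (nat_lit 380) (nat_lit 6692909578) (nat_lit 146) (nat_lit 5) (nat_lit 150) (nat_lit 5) (nat_lit 151) (nat_lit 5) (nat_lit 466) (nat_lit 413) (nat_lit 321)))) (XT.nd (nat_lit 156) (nat_lit 304) (nat_lit 0) (XT.nd (nat_lit 78) (nat_lit 380) (nat_lit 0) (XT.lf (nat_lit 0) (nat_lit 11827948026) (nat_lit 380) (nat_lit 2655348213) (nat_lit 76) (nat_lit 628199110) (nat_lit 146) (nat_lit 5) (nat_lit 151) (nat_lit 5) (nat_lit 147) (nat_lit 5) (nat_lit 467) (nat_lit 413) (nat_lit 320)) (XT.lf (nat_lit 0) (nat_lit 317517368) (nat_lit 380) (nat_lit 8693222141) (nat_lit 76) (nat_lit 6370068020) (nat_lit 141) (nat_lit 5) (nat_lit 146) (nat_lit 5) (nat_lit 142) (nat_lit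 5) (nat_lit 468) (nat_lit 413) (nat_lit 319))) (XT.nd (nat_lit 78) (nat_lit 0) (nat_lit 0) (XT.lf (nat_lit 0) (nat_lit 657001389) (nat_lit 304) (nat_lit 3316376117) (nat_lit 380) (nat_lit 11683466274) (nat_lit 137) (nat_lit 5) (nat_lit 141) (nat_lit 5) (nat_lit 142) (nat_lit 5) (nat_lit 469) (nat_lit 413) (nat_lit 318)) (XT.lf (nat_lit 0) (nat_lit 7831641098) (nat_lit 380) (nat_lit 5529062128) (nat_lit 76) (nat_lit 2577678784) (nat_lit 137) (nat_lit 5) (nat_lit 142) (nat_lit 5) (nat_lit 138) (nat_lit 5) (nat_lit 470) (nat_lit 413) (nat_lit 317))))) (XT.nd (nat_lit 312) (nat_lit 608) (nat_lit 0) (XT.nd (nat_lit 156) (nat_lit 608) (nat_lit 0) (XT.nd (nat_lit 78) (nat_lit 0) (nat_lit 0) (XT.lf (nat_lit 0) (nat_lit 4245661320) (nat_lit 228) (nat_lit 7613806730) (nat_lit 304) (nat_lit 4367286514) (nat_lit 134) (nat_lit 5) (nat_lit 137) (nat_lit 5) (nat_lit 138) (nat_lit 5) (nat_lit 471) (nat_lit 413) (nat_lit 316))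 (XT.lf (nat_lit 0) (nat_lit 14397069876) (nat_lit 228) (nat_lit 1647351014) (nat_lit 304) (nat_lit 478271238) (nat_lit 134) (nat_lit 5) (nat_lit 137) (nat_lit 5) (nat_lit 138) (nat_lit 5) (nat_lit 472) (nat_lit 413) (nat_lit 315))) (XT.nd (nat_lit 78) (nat_lit 228) (nat_lit 0) (XT.lf (nat_lit 0) (nat_lit 3561728517) (nat_lit 380) (nat_lit 8748316092) (nat_lit 76) (nat_lit 4513353999) (nat_lit 129) (nat_lit 5) (nat_lit 134) (nat_lit 5) (nat_lit 130) (nat_lit 5) (nat_lit 473) (nat_lit 413) (nat_lit 314)) (XT.lf (nat_lit 0) (nat_lit 1470748468) (nat_lit 228) (nat_lit 6275709371) (nat_lit 304) (nat_lit 9385534458) (nat_lit 126) (nat_lit 5) (nat_lit 129) (nat_lit 5) (nat_lit 130) (nat_lit 5) (nat_lit 474) (nat_lit 413) (nat_lit 313)))) (XT.nd (nat_lit 156) (nat_lit 304) (nat_lit 0) (XT.nd (nat_lit 78) (nat_lit 304) (nat_lit 0) (XT.lf (nat_lit 0) (nat_lit 12126550986) (nat_lit 304) (nat_lit 5301535115) (nat_lit 76) (nat_lit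 19665318) (nat_lit 126) (nat_lit 5) (nat_lit 130) (nat_lit 5) (nat_lit 127) (nat_lit 5) (nat_lit 475) (nat_lit 413) (nat_lit 312)) (XT.lf (nat_lit 0) (nat_lit 5382973418) (nat_lit 304) (nat_lit 11350688150) (nat_lit 380) (nat_lit 1036455518) (nat_lit 122) (nat_lit 5) (nat_lit 126) (nat_lit 5) (nat_lit 127) (nat_lit 5) (nat_lit 476) (nat_lit 413) (nat_lit 311))) (XT.nd (nat_lit 78) (nat_lit 228) (nat_lit 0) (XT.lf (nat_lit 0) (nat_lit 3346813771) (nat_lit 380) (nat_lit 1665822098) (nat_lit 76) (nat_lit 13087469850) (nat_lit 121) (nat_lit 5) (nat_lit 126) (nat_lit 5) (nat_lit 122) (nat_lit 5) (nat_lit 477) (nat_lit 413) (nat_lit 310)) (XT.lf (nat_lit 0) (nat_lit 7930122399) (nat_lit 304) (nat_lit 8928344332) (nat_lit 76) (nat_lit 1578540256) (nat_lit 118) (nat_lit 5) (nat_lit 122) (nat_lit 5) (nat_lit 119) (nat_lit 5) (nat_lit 478) (nat_lit 413) (nat_lit 309))))))))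
noncomputable def xc129 : XT := (XT.nd (nat_lit 2340) (nat_lit 2204) (nat_lit 0) (XT.nd (nat_lit 1170) (nat_lit 1672) (nat_lit 0) (XT.nd (nat_lit 546) (nat_lit 1140) (nat_lit 0) (XT.nd (nat_lit 234) (nat_lit 456) (nat_lit 0) (XT.nd (nat_lit 78) (nat_lit 304) (nat_lit 0) (XT.lf (nat_lit 0) (nat_lit 2234544636) (nat_lit 228) (nat_lit 10486970551) (nat_lit 304) (nat_lit 6060384524) (nat_lit 115) (nat_lit 5) (nat_lit 118) (nat_lit 5) (nat_lit 119) (nat_lit 5) (nat_lit 479) (nat_lit 413) (nat_lit 308)) (XT.nd (nat_lit 78) (nat_lit 304) (nat_lit 0) (XT.lf (nat_lit 0) (nat_lit 13887338060) (nat_lit 228) (nat_lit 3842198311) (nat_lit 304) (nat_lit 1405418157) (nat_lit 115) (nat_lit 5) (nat_lit 118) (nat_lit 5) (nat_lit 119) (nat_lit 5) (nat_lit 480) (nat_lit 413) (nat_lit 307)) (XT.lf (nat_lit 0) (nat_lit 3397885087) (nat_lit 304) (nat_lit 13068956037) (nat_lit 76) (nat_lit 3028539592) (nat_lit 111) (nat_lit 5) (nat_lit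 115) (nat_lit 5) (nat_lit 112) (nat_lit 5) (nat_lit 481) (nat_lit 413) (nat_lit 306)))) (XT.nd (nat_lit 156) (nat_lit 228) (nat_lit 0) (XT.nd (nat_lit 78) (nat_lit 228) (nat_lit 0) (XT.lf (nat_lit 0) (nat_lit 8391789701) (nat_lit 304) (nat_lit 1386912507) (nat_lit 76) (nat_lit 10085259284) (nat_lit 111) (nat_lit 5) (nat_lit 115) (nat_lit 5) (nat_lit 112) (nat_lit 5) (nat_lit 482) (nat_lit 413) (nat_lit 305)) (XT.lf (nat_lit 0) (nat_lit 10830072324) (nat_lit 228) (nat_lit 2793226856) (nat_lit 304) (nat_lit 6617668575) (nat_lit 108) (nat_lit 5) (nat_lit 111) (nat_lit 5) (nat_lit 112) (nat_lit 5) (nat_lit 483) (nat_lit 413) (nat_lit 304))) (XT.nd (nat_lit 78) (nat_lit 76) (nat_lit 0) (XT.lf (nat_lit 0) (nat_lit 2798312395) (nat_lit 152) (nat_lit 16280598570) (nat_lit 228) (nat_lit 1548360176) (nat_lit 106) (nat_lit 5) (nat_lit 108) (nat_lit 5) (nat_lit 109) (nat_lit 5) (nat_lit 484) (nat_lit 413) (nat_lit 303)) (XT.lf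 (nat_lit 0) (nat_lit 3708838174) (nat_lit 228) (nat_lit 5546538658) (nat_lit 76) (nat_lit 11765504585) (nat_lit 105) (nat_lit 5) (nat_lit 108) (nat_lit 5) (nat_lit 106) (nat_lit 5) (nat_lit 485) (nat_lit 413) (nat_lit 302))))) (XT.nd (nat_lit 312) (nat_lit 456) (nat_lit 0) (XT.nd (nat_lit 156) (nat_lit 456) (nat_lit 0) (XT.nd (nat_lit 78) (nat_lit 0) (nat_lit 0) (XT.lf (nat_lit 0) (nat_lit 7203341672) (nat_lit 228) (nat_lit 1942859912) (nat_lit 304) (nat_lit 12278032928) (nat_lit 102) (nat_lit 5) (nat_lit 105) (nat_lit 5) (nat_lit 106) (nat_lit 5) (nat_lit 486) (nat_lit 413) (nat_lit 301)) (XT.lf (nat_lit 0) (nat_lit 14841407051) (nat_lit 304) (nat_lit 1469222874) (nat_lit 76) (nat_lit 5526218103) (nat_lit 102) (nat_lit 5) (nat_lit 106) (nat_lit 5) (nat_lit 103) (nat_lit 5) (nat_lit 487) (nat_lit 413) (nat_lit 300))) (XT.nd (nat_lit 78) (nat_lit 304) (nat_lit 0) (XT.lf (nat_lit 0) (nat_lit 11851440567) (nat_lit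 152) (nat_lit 8974073320) (nat_lit 228) (nat_lit 1432786125) (nat_lit 100) (nat_lit 5) (nat_lit 102) (nat_lit 5) (nat_lit 103) (nat_lit 5) (nat_lit 488) (nat_lit 413) (nat_lit 299)) (XT.lf (nat_lit 0) (nat_lit 2899383577) (nat_lit 228) (nat_lit 1341306892) (nat_lit 304) (nat_lit 18449633722) (nat_lit 96) (nat_lit 5) (nat_lit 99) (nat_lit 5) (nat_lit 100) (nat_lit 5) (nat_lit 489) (nat_lit 413) (nat_lit 298)))) (XT.nd (nat_lit 156) (nat_lit 304) (nat_lit 0) (XT.nd (nat_lit 78) (nat_lit 152) (nat_lit 0) (XT.lf (nat_lit 0) (nat_lit 10209408725) (nat_lit 304) (nat_lit 6417647221) (nat_lit 76) (nat_lit 6503213820) (nat_lit 96) (nat_lit 5) (nat_lit 100) (nat_lit 5) (nat_lit 97) (nat_lit 5) (nat_lit 490) (nat_lit 413) (nat_lit 297)) (XT.lf (nat_lit 0) (nat_lit 7464238172) (nat_lit 152) (nat_lit 8963444656) (nat_lit 228) (nat_lit 7153617313) (nat_lit 94) (nat_lit 5) (nat_lit 96) (nat_lit 5) (nat_lit 97) (nat_lit 5) (nat_lit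 491) (nat_lit 413) (nat_lit 296))) (XT.nd (nat_lit 78) (nat_lit 304) (nat_lit 0) (XT.lf (nat_lit 0) (nat_lit 21869399804) (nat_lit 152) (nat_lit 1013559839) (nat_lit 228) (nat_lit 1161389375) (nat_lit 94) (nat_lit 5) (nat_lit 96) (nat_lit 5) (nat_lit 97) (nat_lit 5) (nat_lit 492) (nat_lit 413) (nat_lit 295)) (XT.lf (nat_lit 0) (nat_lit 5088035877) (nat_lit 304) (nat_lit 12233191137) (nat_lit 76) (nat_lit 7193362388) (nat_lit 90) (nat_lit 5) (nat_lit 94) (nat_lit 5) (nat_lit 91) (nat_lit 5) (nat_lit 493) (nat_lit 413) (nat_lit 294)))))) (XT.nd (nat_lit 546) (nat_lit 912) (nat_lit 0) (XT.nd (nat_lit 234) (nat_lit 456) (nat_lit 0) (XT.nd (nat_lit 78) (nat_lit 152) (nat_lit 0) (XT.lf (nat_lit 0) (nat_lit 2214831537) (nat_lit 152) (nat_lit 9326283922) (nat_lit 228) (nat_lit 13456292262) (nat_lit 88) (nat_lit 5) (nat_lit 90) (nat_lit 5) (nat_lit 91) (nat_lit 5) (nat_lit 494) (nat_lit 413) (nat_lit 293)) (XT.nd (nat_lit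 78) (nat_lit 152) (nat_lit 0) (XT.lf (nat_lit 0) (nat_lit 17322923742) (nat_lit 152) (nat_lit 974579014) (nat_lit 228) (nat_lit 7193917462) (nat_lit 88) (nat_lit 5) (nat_lit 90) (nat_lit 5) (nat_lit 91) (nat_lit 5) (nat_lit 495) (nat_lit 413) (nat_lit 292)) (XT.lf (nat_lit 0) (nat_lit 6922013545) (nat_lit 152) (nat_lit 18460918797) (nat_lit 228) (nat_lit 613531285) (nat_lit 86) (nat_lit 5) (nat_lit 88) (nat_lit 5) (nat_lit 89) (nat_lit 5) (nat_lit 496) (nat_lit 413) (nat_lit 291)))) (XT.nd (nat_lit 156) (nat_lit 228) (nat_lit 0) (XT.nd (nat_lit 78) (nat_lit 152) (nat_lit 0) (XT.lf (nat_lit 0) (nat_lit 6123455745) (nat_lit 228) (nat_lit 3974999414) (nat_lit 76) (nat_lit 16414042245) (nat_lit 85) (nat_lit 5) (nat_lit 88) (nat_lit 5) (nat_lit 86) (nat_lit 5) (nat_lit 497) (nat_lit 413) (nat_lit 290)) (XT.lf (nat_lit 0) (nat_lit 11778106102) (nat_lit 152) (nat_lit 1372250288) (nat_lit 228) (nat_lit 13890470472) (nat_lit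 83) (nat_lit 5) (nat_lit 85) (nat_lit 5) (nat_lit 86) (nat_lit 5) (nat_lit 498) (nat_lit 413) (nat_lit 289))) (XT.nd (nat_lit 78) (nat_lit 76) (nat_lit 0) (XT.lf (nat_lit 0) (nat_lit 412782577) (nat_lit 152) (nat_lit 20079976452) (nat_lit 228) (nat_lit 7089107264) (nat_lit 81) (nat_lit 5) (nat_lit 83) (nat_lit 5) (nat_lit 84) (nat_lit 5) (nat_lit 499) (nat_lit 413) (nat_lit 288)) (XT.lf (nat_lit 0) (nat_lit 74179677) (nat_lit 228) (nat_lit 11300585802) (nat_lit 76) (nat_lit 16759708968) (nat_lit 80) (nat_lit 5) (nat_lit 83) (nat_lit 5) (nat_lit 81) (nat_lit 5) (nat_lit 500) (nat_lit 413) (nat_lit 287))))) (XT.nd (nat_lit 312) (nat_lit 532) (nat_lit 0) (XT.nd (nat_lit 156) (nat_lit 228) (nat_lit 0) (XT.nd (nat_lit 78) (nat_lit 0) (nat_lit 0) (XT.lf (nat_lit 0) (nat_lit 5049806697) (nat_lit 152) (nat_lit 2296007899) (nat_lit 228) (nat_lit 21354663429) (nat_lit 78) (nat_lit 5) (nat_lit 80) (nat_lit 5) (nat_lit 81)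 (nat_lit 5) (nat_lit 501) (nat_lit 413) (nat_lit 286)) (XT.lf (nat_lit 0) (nat_lit 15006110221) (nat_lit 228) (nat_lit 7249194643) (nat_lit 76) (nat_lit 7023042332) (nat_lit 78) (nat_lit 5) (nat_lit 81) (nat_lit 5) (nat_lit 79) (nat_lit 5) (nat_lit 502) (nat_lit 413) (nat_lit 285))) (XT.nd (nat_lit 78) (nat_lit 76) (nat_lit 0) (XT.lf (nat_lit 0) (nat_lit 9790733097) (nat_lit 152) (nat_lit 13210144420) (nat_lit 228) (nat_lit 6869535850) (nat_lit 76) (nat_lit 5) (nat_lit 78) (nat_lit 5) (nat_lit 79) (nat_lit 5) (nat_lit 503) (nat_lit 413) (nat_lit 284)) (XT.lf (nat_lit 0) (nat_lit 802278051) (nat_lit 228) (nat_lit 3017510922) (nat_lit 76) (nat_lit 26658382438) (nat_lit 75) (nat_lit 5) (nat_lit 78) (nat_lit 5) (nat_lit 76) (nat_lit 5) (nat_lit 504) (nat_lit 413) (nat_lit 283)))) (XT.nd (nat_lit 156) (nat_lit 228) (nat_lit 0) (XT.nd (nat_lit 78) (nat_lit 152) (nat_lit 0) (XT.lf (nat_lit 0) (nat_lit 8754448964) (nat_lit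 228) (nat_lit 16401331370) (nat_lit 76) (nat_lit 5940693943) (nat_lit 73) (nat_lit 5) (nat_lit 76) (nat_lit 5) (nat_lit 74) (nat_lit 5) (nat_lit 505) (nat_lit 413) (nat_lit 282)) (XT.lf (nat_lit 0) (nat_lit 1233210330) (nat_lit 152) (nat_lit 15780667783) (nat_lit 228) (nat_lit 14717388042) (nat_lit 71) (nat_lit 5) (nat_lit 73) (nat_lit 5) (nat_lit 74) (nat_lit 5) (nat_lit 506) (nat_lit 413) (nat_lit 281))) (XT.nd (nat_lit 78) (nat_lit 228) (nat_lit 0) (XT.lf (nat_lit 0) (nat_lit 19711855911) (nat_lit 152) (nat_lit 5963241014) (nat_lit 228) (nat_lit 6705385360) (nat_lit 71) (nat_lit 5) (nat_lit 73) (nat_lit 5) (nat_lit 74) (nat_lit 5) (nat_lit 507) (nat_lit 413) (nat_lit 280)) (XT.lf (nat_lit 0) (nat_lit 1601379098) (nat_lit 228) (nat_lit 27315186207) (nat_lit 76) (nat_lit 4129626473) (nat_lit 68) (nat_lit 5) (nat_lit 71) (nat_lit 5) (nat_lit 69) (nat_lit 5) (nat_lit 508) (nat_lit 413) (nat_lit 279))))))) (XT.nd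 (nat_lit 1170) (nat_lit 1064) (nat_lit 0) (XT.nd (nat_lit 546) (nat_lit 608) (nat_lit 0) (XT.nd (nat_lit 234) (nat_lit 380) (nat_lit 0) (XT.nd (nat_lit 78) (nat_lit 152) (nat_lit 0) (XT.lf (nat_lit 0) (nat_lit 10199468033) (nat_lit 228) (nat_lit 8933212855) (nat_lit 76) (nat_lit 14591893814) (nat_lit 68) (nat_lit 5) (nat_lit 71) (nat_lit 5) (nat_lit 69) (nat_lit 5) (nat_lit 509) (nat_lit 413) (nat_lit 278)) (XT.nd (nat_lit 78) (nat_lit 0) (nat_lit 0) (XT.lf (nat_lit 0) (nat_lit 10178647120) (nat_lit 152) (nat_lit 8963682554) (nat_lit 228) (nat_lit 15278375158) (nat_lit 66) (nat_lit 5) (nat_lit 68) (nat_lit 5) (nat_lit 69) (nat_lit 5) (nat_lit 510) (nat_lit 413) (nat_lit 277)) (XT.lf (nat_lit 0) (nat_lit 28448124623) (nat_lit 228) (nat_lit 5123675744) (nat_lit 76) (nat_lit 1563079679) (nat_lit 66) (nat_lit 5) (nat_lit 69) (nat_lit 5) (nat_lit 67) (nat_lit 4) (nat_lit 511) (nat_lit 413) (nat_lit 276)))) (XT.nd (nat_lit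 156) (nat_lit 228) (nat_lit 0) (XT.nd (nat_lit 78) (nat_lit 0) (nat_lit 0) (XT.lf (nat_lit 0) (nat_lit 2342448680) (nat_lit 152) (nat_lit 21139209351) (nat_lit 76) (nat_lit 12381538319) (nat_lit 64) (nat_lit 5) (nat_lit 66) (nat_lit 5) (nat_lit 65) (nat_lit 5) (nat_lit 512) (nat_lit 413) (nat_lit 275)) (XT.lf (nat_lit 0) (nat_lit 11549748759) (nat_lit 152) (nat_lit 1426084172) (nat_lit 76) (nat_lit 23634295086) (nat_lit 64) (nat_lit 5) (nat_lit 66) (nat_lit 5) (nat_lit 65) (nat_lit 5) (nat_lit 513) (nat_lit 413) (nat_lit 274))) (XT.nd (nat_lit 78) (nat_lit 76) (nat_lit 0) (XT.lf (nat_lit 0) (nat_lit 19234679047) (nat_lit 152) (nat_lit 1973159701) (nat_lit 228) (nat_lit 16166392296) (nat_lit 62) (nat_lit 5) (nat_lit 64) (nat_lit 5) (nat_lit 65) (nat_lit 5) (nat_lit 514) (nat_lit 413) (nat_lit 273)) (XT.lf (nat_lit 0) (nat_lit 2319696825) (nat_lit 76) (nat_lit 28952497078) (nat_lit 152) (nat_lit 6885568104) (nat_lit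 61) (nat_lit 5) (nat_lit 62) (nat_lit 5) (nat_lit 63) (nat_lit 4) (nat_lit 515) (nat_lit 413) (nat_lit 272))))) (XT.nd (nat_lit 312) (nat_lit 304) (nat_lit 0) (XT.nd (nat_lit 156) (nat_lit 76) (nat_lit 0) (XT.nd (nat_lit 78) (nat_lit 152) (nat_lit 0) (XT.lf (nat_lit 0) (nat_lit 2815758562) (nat_lit 152) (nat_lit 15260935268) (nat_lit 76) (nat_lit 20881507001) (nat_lit 60) (nat_lit 5) (nat_lit 62) (nat_lit 5) (nat_lit 61) (nat_lit 5) (nat_lit 516) (nat_lit 413) (nat_lit 271)) (XT.lf (nat_lit 0) (nat_lit 5963107137) (nat_lit 152) (nat_lit 6753972180) (nat_lit 228) (nat_lit 27062108337) (nat_lit 58) (nat_lit 5) (nat_lit 60) (nat_lit 5) (nat_lit 61) (nat_lit 5) (nat_lit 517) (nat_lit 413) (nat_lit 270))) (XT.nd (nat_lit 78) (nat_lit 76) (nat_lit 0) (XT.lf (nat_lit 0) (nat_lit 23108311613) (nat_lit 228) (nat_lit 12550805555) (nat_lit 76) (nat_lit 4959901219) (nat_lit 58) (nat_lit 5) (nat_lit 61) (nat_lit 5) (nat_lit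 59) (nat_lit 4) (nat_lit 518) (nat_lit 413) (nat_lit 269)) (XT.lf (nat_lit 0) (nat_lit 9451918963) (nat_lit 76) (nat_lit 24507437887) (nat_lit 152) (nat_lit 7520245360) (nat_lit 57) (nat_lit 5) (nat_lit 58) (nat_lit 5) (nat_lit 59) (nat_lit 4) (nat_lit 519) (nat_lit 413) (nat_lit 268)))) (XT.nd (nat_lit 156) (nat_lit 76) (nat_lit 0) (XT.nd (nat_lit 78) (nat_lit 152) (nat_lit 0) (XT.lf (nat_lit 0) (nat_lit 2834233434) (nat_lit 152) (nat_lit 10036171733) (nat_lit 76) (nat_lit 29491249371) (nat_lit 56) (nat_lit 5) (nat_lit 58) (nat_lit 5) (nat_lit 57) (nat_lit 5) (nat_lit 520) (nat_lit 413) (nat_lit 267)) (XT.lf (nat_lit 0) (nat_lit 12772294041) (nat_lit 152) (nat_lit 689320385) (nat_lit 228) (nat_lit 29802918164) (nat_lit 54) (nat_lit 5) (nat_lit 56) (nat_lit 5) (nat_lit 57) (nat_lit 5) (nat_lit 521) (nat_lit 413) (nat_lit 266))) (XT.nd (nat_lit 78) (nat_lit 76) (nat_lit 0) (XT.lf (nat_lit 0) (nat_lit 24614813859)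 (nat_lit 228) (nat_lit 7853287350) (nat_lit 76) (nat_lit 11720186263) (nat_lit 54) (nat_lit 5) (nat_lit 57) (nat_lit 5) (nat_lit 55) (nat_lit 4) (nat_lit 522) (nat_lit 413) (nat_lit 265)) (XT.lf (nat_lit 0) (nat_lit 15748230427) (nat_lit 76) (nat_lit 20503526496) (nat_lit 152) (nat_lit 8883524035) (nat_lit 53) (nat_lit 5) (nat_lit 54) (nat_lit 5) (nat_lit 55) (nat_lit 4) (nat_lit 523) (nat_lit 413) (nat_lit 264)))))) (XT.nd (nat_lit 624) (nat_lit 456) (nat_lit 0) (XT.nd (nat_lit 312) (nat_lit 304) (nat_lit 0) (XT.nd (nat_lit 156) (nat_lit 76) (nat_lit 0) (XT.nd (nat_lit 78) (nat_lit 152) (nat_lit 0) (XT.lf (nat_lit 0) (nat_lit 2156657432) (nat_lit 152) (nat_lit 5927853774) (nat_lit 76) (nat_lit 38023428752) (nat_lit 52) (nat_lit 5) (nat_lit 54) (nat_lit 5) (nat_lit 53) (nat_lit 5) (nat_lit 524) (nat_lit 413) (nat_lit 263)) (XT.lf (nat_lit 0) (nat_lit 13566264657) (nat_lit 228) (nat_lit 28658474038) (nat_lit 76)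 (nat_lit 4875898607) (nat_lit 50) (nat_lit 5) (nat_lit 53) (nat_lit 5) (nat_lit 51) (nat_lit 4) (nat_lit 525) (nat_lit 413) (nat_lit 262))) (XT.nd (nat_lit 78) (nat_lit 76) (nat_lit 0) (XT.lf (nat_lit 0) (nat_lit 25449897268) (nat_lit 228) (nat_lit 4553781557) (nat_lit 76) (nat_lit 18115484970) (nat_lit 50) (nat_lit 5) (nat_lit 53) (nat_lit 5) (nat_lit 51) (nat_lit 4) (nat_lit 526) (nat_lit 413) (nat_lit 261)) (XT.lf (nat_lit 0) (nat_lit 20661087575) (nat_lit 76) (nat_lit 17219053570) (nat_lit 152) (nat_lit 11282402201) (nat_lit 49) (nat_lit 5) (nat_lit 50) (nat_lit 5) (nat_lit 51) (nat_lit 4) (nat_lit 527) (nat_lit 413) (nat_lit 260)))) (XT.nd (nat_lit 156) (nat_lit 76) (nat_lit 0) (XT.nd (nat_lit 78) (nat_lit 152) (nat_lit 0) (XT.lf (nat_lit 0) (nat_lit 475309018) (nat_lit 152) (nat_lit 3530984614) (nat_lit 76) (nat_lit 46229663971) (nat_lit 48) (nat_lit 5) (nat_lit 50) (nat_lit 5) (nat_lit 49) (nat_lit 5) (nat_lit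 528) (nat_lit 413) (nat_lit 259)) (XT.lf (nat_lit 0) (nat_lit 12662510598) (nat_lit 228) (nat_lit 28927188706) (nat_lit 76) (nat_lit 9739418355) (nat_lit 46) (nat_lit 5) (nat_lit 49) (nat_lit 5) (nat_lit 47) (nat_lit 4) (nat_lit 529) (nat_lit 413) (nat_lit 258))) (XT.nd (nat_lit 78) (nat_lit 76) (nat_lit 0) (XT.lf (nat_lit 0) (nat_lit 25282776910) (nat_lit 228) (nat_lit 3324508148) (nat_lit 76) (nat_lit 23845764294) (nat_lit 46) (nat_lit 5) (nat_lit 49) (nat_lit 5) (nat_lit 47) (nat_lit 4) (nat_lit 530) (nat_lit 413) (nat_lit 257)) (XT.lf (nat_lit 0) (nat_lit 23489374683) (nat_lit 76) (nat_lit 15010083740) (nat_lit 152) (nat_lit 15104706646) (nat_lit 45) (nat_lit 5) (nat_lit 46) (nat_lit 5) (nat_lit 47) (nat_lit 4) (nat_lit 531) (nat_lit 413) (nat_lit 256))))) (XT.nd (nat_lit 312) (nat_lit 228) (nat_lit 0) (XT.nd (nat_lit 156) (nat_lit 76) (nat_lit 0) (XT.nd (nat_lit 78) (nat_lit 152) (nat_lit 0) (XT.lf (nat_lit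 0) (nat_lit 51160732128) (nat_lit 76) (nat_lit 977579806) (nat_lit 152) (nat_lit 2650732455) (nat_lit 45) (nat_lit 5) (nat_lit 46) (nat_lit 5) (nat_lit 47) (nat_lit 4) (nat_lit 532) (nat_lit 413) (nat_lit 255)) (XT.lf (nat_lit 0) (nat_lit 10334038039) (nat_lit 152) (nat_lit 32123945871) (nat_lit 76) (nat_lit 13537878727) (nat_lit 43) (nat_lit 5) (nat_lit 45) (nat_lit 5) (nat_lit 44) (nat_lit 4) (nat_lit 533) (nat_lit 413) (nat_lit 254))) (XT.nd (nat_lit 78) (nat_lit 76) (nat_lit 0) (XT.lf (nat_lit 0) (nat_lit 23694026965) (nat_lit 152) (nat_lit 5017366943) (nat_lit 76) (nat_lit 28525535862) (nat_lit 43) (nat_lit 5) (nat_lit 45) (nat_lit 5) (nat_lit 44) (nat_lit 4) (nat_lit 534) (nat_lit 413) (nat_lit 253)) (XT.lf (nat_lit 0) (nat_lit 23343533992) (nat_lit 76) (nat_lit 14328170793) (nat_lit 152) (nat_lit 20837017704) (nat_lit 42) (nat_lit 5) (nat_lit 43) (nat_lit 5) (nat_lit 44) (nat_lit 4) (nat_lit 535) (nat_lit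 413) (nat_lit 252)))) (XT.nd (nat_lit 156) (nat_lit 76) (nat_lit 0) (XT.nd (nat_lit 78) (nat_lit 152) (nat_lit 0) (XT.lf (nat_lit 0) (nat_lit 52117069956) (nat_lit 152) (nat_lit 7178622542) (nat_lit 0) (nat_lit 521526019) (nat_lit 42) (nat_lit 5) (nat_lit 44) (nat_lit 4) (nat_lit 42) (nat_lit 4) (nat_lit 536) (nat_lit 413) (nat_lit 251)) (XT.lf (nat_lit 0) (nat_lit 6065761561) (nat_lit 152) (nat_lit 39294663231) (nat_lit 76) (nat_lit 15792401920) (nat_lit 40) (nat_lit 5) (nat_lit 42) (nat_lit 5) (nat_lit 41) (nat_lit 4) (nat_lit 537) (nat_lit 413) (nat_lit 250))) (XT.nd (nat_lit 78) (nat_lit 76) (nat_lit 0) (XT.lf (nat_lit 0) (nat_lit 20155829398) (nat_lit 152) (nat_lit 10704073351) (nat_lit 76) (nat_lit 31664335077) (nat_lit 40) (nat_lit 5) (nat_lit 42) (nat_lit 5) (nat_lit 41) (nat_lit 4) (nat_lit 538) (nat_lit 413) (nat_lit 249)) (XT.lf (nat_lit 0) (nat_lit 19103422560) (nat_lit 76) (nat_lit 15741760043) (nat_lit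 152) (nat_lit 29086311385) (nat_lit 39) (nat_lit 5) (nat_lit 40) (nat_lit 5) (nat_lit 41) (nat_lit 4) (nat_lit 539) (nat_lit 413) (nat_lit 248))))))))
noncomputable def xc130 : XT := (XT.nd (nat_lit 54132) (nat_lit 0) (nat_lit 9728) (XT.nd (nat_lit 52962) (nat_lit 0) (nat_lit 20292) (XT.nd (nat_lit 546) (nat_lit 152) (nat_lit 0) (XT.nd (nat_lit 234) (nat_lit 228) (nat_lit 0) (XT.nd (nat_lit 78) (nat_lit 152) (nat_lit 0) (XT.lf (nat_lit 0) (nat_lit 50011111332) (nat_lit 76) (nat_lit 65220791) (nat_lit 152) (nat_lit 15301602448) (nat_lit 39) (nat_lit 5) (nat_lit 40) (nat_lit 5) (nat_lit 41) (nat_lit 4) (nat_lit 540) (nat_lit 413) (nat_lit 247)) (XT.nd (nat_lit 78) (nat_lit 76) (nat_lit 0) (XT.lf (nat_lit 0) (nat_lit 15105227477) (nat_lit 76) (nat_lit 50952143879) (nat_lit 76) (nat_lit 801608561) (nat_lit 38) (nat_lit 4) (nat_lit 39) (nat_lit 5) (nat_lit 39) (nat_lit 4) (nat_lit 541) (nat_lit 413) (nat_lit 246)) (XT.lf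 (nat_lit 0) (nat_lit 14008123209) (nat_lit 152) (nat_lit 21724610287) (nat_lit 76) (nat_lit 32643131615) (nat_lit 37) (nat_lit 5) (nat_lit 39) (nat_lit 5) (nat_lit 38) (nat_lit 4) (nat_lit 542) (nat_lit 413) (nat_lit 245)))) (XT.nd (nat_lit 156) (nat_lit 152) (nat_lit 0) (XT.nd (nat_lit 78) (nat_lit 0) (nat_lit 0) (XT.lf (nat_lit 0) (nat_lit 9367434067) (nat_lit 76) (nat_lit 19962020038) (nat_lit 152) (nat_lit 40606062279) (nat_lit 36) (nat_lit 5) (nat_lit 37) (nat_lit 5) (nat_lit 38) (nat_lit 4) (nat_lit 543) (nat_lit 413) (nat_lit 244)) (XT.lf (nat_lit 0) (nat_lit 41824871002) (nat_lit 76) (nat_lit 3498374009) (nat_lit 152) (nat_lit 26212327759) (nat_lit 36) (nat_lit 5) (nat_lit 37) (nat_lit 5) (nat_lit 38) (nat_lit 4) (nat_lit 544) (nat_lit 413) (nat_lit 243))) (XT.nd (nat_lit 78) (nat_lit 76) (nat_lit 0) (XT.lf (nat_lit 0) (nat_lit 1968978405) (nat_lit 76) (nat_lit 59969753857) (nat_lit 76) (nat_lit 11240642282)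 (nat_lit 35) (nat_lit 4) (nat_lit 36) (nat_lit 5) (nat_lit 36) (nat_lit 4) (nat_lit 545) (nat_lit 413) (nat_lit 242)) (XT.lf (nat_lit 0) (nat_lit 4429833846) (nat_lit 152) (nat_lit 39745662400) (nat_lit 76) (nat_lit 30685852490) (nat_lit 34) (nat_lit 5) (nat_lit 36) (nat_lit 5) (nat_lit 35) (nat_lit 4) (nat_lit 546) (nat_lit 413) (nat_lit 241))))) (XT.nd (nat_lit 52104) (nat_lit 0) (nat_lit 23940) (XT.nd (nat_lit 156) (nat_lit 76) (nat_lit 0) (XT.nd (nat_lit 78) (nat_lit 76) (nat_lit 0) (XT.lf (nat_lit 0) (nat_lit 20338268416) (nat_lit 152) (nat_lit 7460388316) (nat_lit 76) (nat_lit 48791973680) (nat_lit 34) (nat_lit 5) (nat_lit 36) (nat_lit 5) (nat_lit 35) (nat_lit 4) (nat_lit 547) (nat_lit 413) (nat_lit 240)) (XT.lf (nat_lit 0) (nat_lit 26294794627) (nat_lit 76) (nat_lit 10675874441) (nat_lit 152) (nat_lit 41393720232) (nat_lit 33) (nat_lit 5) (nat_lit 34) (nat_lit 5) (nat_lit 35) (nat_lit 4) (nat_lit 548) (nat_lit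 413) (nat_lit 239))) (XT.nd (nat_lit 78) (nat_lit 76) (nat_lit 0) (XT.lf (nat_lit 0) (nat_lit 54238993696) (nat_lit 152) (nat_lit 19052958123) (nat_lit 0) (nat_lit 6895300727) (nat_lit 33) (nat_lit 5) (nat_lit 35) (nat_lit 4) (nat_lit 33) (nat_lit 4) (nat_lit 549) (nat_lit 413) (nat_lit 238)) (XT.lf (nat_lit 0) (nat_lit 15132339350) (nat_lit 76) (nat_lit 57138328932) (nat_lit 76) (nat_lit 9786774548) (nat_lit 32) (nat_lit 4) (nat_lit 33) (nat_lit 5) (nat_lit 33) (nat_lit 4) (nat_lit 550) (nat_lit 413) (nat_lit 237)))) (XT.nd (nat_lit 156) (nat_lit 836) (nat_lit 0) (XT.nd (nat_lit 78) (nat_lit 0) (nat_lit 0) (XT.lf (nat_lit 0) (nat_lit 2782796583) (nat_lit 836) (nat_lit 427363278) (nat_lit 836) (nat_lit 427363278) (nat_lit 358) (nat_lit 3) (nat_lit 369) (nat_lit 3) (nat_lit 369) (nat_lit 5) (nat_lit 414) (nat_lit 414) (nat_lit 372)) (XT.lf (nat_lit 76) (nat_lit 2775228775) (nat_lit 0) (nat_lit 4466598409) (nat_lit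 836) (nat_lit 94086142) (nat_lit 359) (nat_lit 5) (nat_lit 358) (nat_lit 3) (nat_lit 369) (nat_lit 5) (nat_lit 415) (nat_lit 414) (nat_lit 371))) (XT.nd (nat_lit 78) (nat_lit 0) (nat_lit 0) (XT.lf (nat_lit 0) (nat_lit 1485772489) (nat_lit 836) (nat_lit 915283884) (nat_lit 912) (nat_lit 4998715511) (nat_lit 347) (nat_lit 5) (nat_lit 358) (nat_lit 3) (nat_lit 359) (nat_lit 5) (nat_lit 416) (nat_lit 414) (nat_lit 370)) (XT.lf (nat_lit 76) (nat_lit 2862001540) (nat_lit 0) (nat_lit 216398475) (nat_lit 912) (nat_lit 4388117829) (nat_lit 348) (nat_lit 5) (nat_lit 347) (nat_lit 5) (nat_lit 359) (nat_lit 5) (nat_lit 417) (nat_lit 414) (nat_lit 369)))))) (XT.nd (nat_lit 546) (nat_lit 2812) (nat_lit 0) (XT.nd (nat_lit 234) (nat_lit 0) (nat_lit 76) (XT.nd (nat_lit 78) (nat_lit 912) (nat_lit 0) (XT.lf (nat_lit 0) (nat_lit 4689146765) (nat_lit 836) (nat_lit 817376597) (nat_lit 912) (nat_lit 2029649614) (nat_lit 348) (nat_lit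 5) (nat_lit 359) (nat_lit 5) (nat_lit 360) (nat_lit 5) (nat_lit 418) (nat_lit 414) (nat_lit 368)) (XT.nd (nat_lit 78) (nat_lit 912) (nat_lit 0) (XT.lf (nat_lit 76) (nat_lit 3108777796) (nat_lit 0) (nat_lit 3214625506) (nat_lit 912) (nat_lit 1285275350) (nat_lit 349) (nat_lit 5) (nat_lit 348) (nat_lit 5) (nat_lit 360) (nat_lit 5) (nat_lit 419) (nat_lit 414) (nat_lit 367)) (XT.lf (nat_lit 0) (nat_lit 269290754) (nat_lit 912) (nat_lit 550756414) (nat_lit 988) (nat_lit 6864666490) (nat_lit 336) (nat_lit 5) (nat_lit 348) (nat_lit 5) (nat_lit 349) (nat_lit 5) (nat_lit 420) (nat_lit 414) (nat_lit 366)))) (XT.nd (nat_lit 156) (nat_lit 0) (nat_lit 0) (XT.nd (nat_lit 78) (nat_lit 0) (nat_lit 0) (XT.lf (nat_lit 0) (nat_lit 1840757175) (nat_lit 912) (nat_lit 4239488825) (nat_lit 988) (nat_lit 1682534176) (nat_lit 337) (nat_lit 5) (nat_lit 349) (nat_lit 5) (nat_lit 350) (nat_lit 5) (nat_lit 421) (nat_lit 414) (nat_lit 365))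 (XT.lf (nat_lit 0) (nat_lit 3420142109) (nat_lit 912) (nat_lit 154768506) (nat_lit 988) (nat_lit 4269469509) (nat_lit 337) (nat_lit 5) (nat_lit 349) (nat_lit 5) (nat_lit 350) (nat_lit 5) (nat_lit 422) (nat_lit 414) (nat_lit 364))) (XT.nd (nat_lit 78) (nat_lit 0) (nat_lit 76) (XT.lf (nat_lit 76) (nat_lit 4099060629) (nat_lit 0) (nat_lit 935831821) (nat_lit 988) (nat_lit 2893910348) (nat_lit 338) (nat_lit 5) (nat_lit 337) (nat_lit 5) (nat_lit 350) (nat_lit 5) (nat_lit 423) (nat_lit 414) (nat_lit 363)) (XT.lf (nat_lit 76) (nat_lit 424318365) (nat_lit 0) (nat_lit 6246483315) (nat_lit 988) (nat_lit 1345788806) (nat_lit 339) (nat_lit 5) (nat_lit 338) (nat_lit 5) (nat_lit 351) (nat_lit 5) (nat_lit 424) (nat_lit 414) (nat_lit 362))))) (XT.nd (nat_lit 312) (nat_lit 1976) (nat_lit 0) (XT.nd (nat_lit 156) (nat_lit 0) (nat_lit 76) (XT.nd (nat_lit 78) (nat_lit 0) (nat_lit 0) (XT.lf (nat_lit 0) (nat_lit 242798500) (nat_lit 988)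 (nat_lit 3268819423) (nat_lit 1064) (nat_lit 4595368874) (nat_lit 325) (nat_lit 5) (nat_lit 338) (nat_lit 5) (nat_lit 339) (nat_lit 5) (nat_lit 425) (nat_lit 414) (nat_lit 361)) (XT.lf (nat_lit 76) (nat_lit 1159230522) (nat_lit 0) (nat_lit 655902449) (nat_lit 1064) (nat_lit 6385680786) (nat_lit 326) (nat_lit 5) (nat_lit 325) (nat_lit 5) (nat_lit 339) (nat_lit 5) (nat_lit 426) (nat_lit 414) (nat_lit 360))) (XT.nd (nat_lit 78) (nat_lit 0) (nat_lit 0) (XT.lf (nat_lit 0) (nat_lit 3443132212) (nat_lit 988) (nat_lit 2567241179) (nat_lit 1064) (nat_lit 2286839577) (nat_lit 326) (nat_lit 5) (nat_lit 339) (nat_lit 5) (nat_lit 340) (nat_lit 5) (nat_lit 427) (nat_lit 414) (nat_lit 359)) (XT.lf (nat_lit 76) (nat_lit 2040074229) (nat_lit 0) (nat_lit 3060554904) (nat_lit 1064) (nat_lit 3296467218) (nat_lit 327) (nat_lit 5) (nat_lit 326) (nat_lit 5) (nat_lit 340) (nat_lit 5) (nat_lit 428) (nat_lit 414) (nat_lit 358)))) (XT.nd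 (nat_lit 156) (nat_lit 1140) (nat_lit 0) (XT.nd (nat_lit 78) (nat_lit 988) (nat_lit 0) (XT.lf (nat_lit 0) (nat_lit 6789463975) (nat_lit 988) (nat_lit 1696682814) (nat_lit 76) (nat_lit 14392637) (nat_lit 327) (nat_lit 5) (nat_lit 340) (nat_lit 5) (nat_lit 328) (nat_lit 5) (nat_lit 429) (nat_lit 414) (nat_lit 357)) (XT.lf (nat_lit 0) (nat_lit 3098999452) (nat_lit 988) (nat_lit 5446994310) (nat_lit 1064) (nat_lit 60592377) (nat_lit 314) (nat_lit 5) (nat_lit 327) (nat_lit 5) (nat_lit 328) (nat_lit 5) (nat_lit 430) (nat_lit 414) (nat_lit 356))) (XT.nd (nat_lit 78) (nat_lit 1064) (nat_lit 0) (XT.lf (nat_lit 0) (nat_lit 1582151833) (nat_lit 1064) (nat_lit 693051826) (nat_lit 76) (nat_lit 6440906301) (nat_lit 313) (nat_lit 5) (nat_lit 327) (nat_lit 5) (nat_lit 314) (nat_lit 5) (nat_lit 431) (nat_lit 414) (nat_lit 355)) (XT.lf (nat_lit 0) (nat_lit 3283136093) (nat_lit 1140) (nat_lit 4523529580) (nat_lit 76) (nat_lit 1021940850)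 (nat_lit 299) (nat_lit 5) (nat_lit 314) (nat_lit 5) (nat_lit 300) (nat_lit 5) (nat_lit 432) (nat_lit 414) (nat_lit 354))))))) (XT.nd (nat_lit 1170) (nat_lit 3876) (nat_lit 0) (XT.nd (nat_lit 546) (nat_lit 2888) (nat_lit 0) (XT.nd (nat_lit 234) (nat_lit 1444) (nat_lit 0) (XT.nd (nat_lit 78) (nat_lit 1216) (nat_lit 0) (XT.lf (nat_lit 0) (nat_lit 474670666) (nat_lit 1140) (nat_lit 4554253581) (nat_lit 1216) (nat_lit 3915750492) (nat_lit 284) (nat_lit 5) (nat_lit 299) (nat_lit 5) (nat_lit 300) (nat_lit 5) (nat_lit 433) (nat_lit 414) (nat_lit 353)) (XT.nd (nat_lit 78) (nat_lit 1216) (nat_lit 0) (XT.lf (nat_lit 0) (nat_lit 5680804565) (nat_lit 1140) (nat_lit 1152419536) (nat_lit 1216) (nat_lit 2230826456) (nat_lit 284) (nat_lit 5) (nat_lit 299) (nat_lit 5) (nat_lit 300) (nat_lit 5) (nat_lit 434) (nat_lit 414) (nat_lit 352)) (XT.lf (nat_lit 0) (nat_lit 1834371956) (nat_lit 1216) (nat_lit 6859173612) (nat_lit 1292) (nat_lit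 493414720) (nat_lit 268) (nat_lit 5) (nat_lit 284) (nat_lit 5) (nat_lit 285) (nat_lit 5) (nat_lit 435) (nat_lit 414) (nat_lit 351)))) (XT.nd (nat_lit 156) (nat_lit 608) (nat_lit 0) (XT.nd (nat_lit 78) (nat_lit 760) (nat_lit 0) (XT.lf (nat_lit 0) (nat_lit 1278799124) (nat_lit 1292) (nat_lit 2094223950) (nat_lit 76) (nat_lit 5939930186) (nat_lit 267) (nat_lit 5) (nat_lit 284) (nat_lit 5) (nat_lit 268) (nat_lit 5) (nat_lit 436) (nat_lit 414) (nat_lit 350)) (XT.lf (nat_lit 0) (nat_lit 3092093577) (nat_lit 836) (nat_lit 6097199753) (nat_lit 76) (nat_lit 253359813) (nat_lit 257) (nat_lit 5) (nat_lit 268) (nat_lit 5) (nat_lit 258) (nat_lit 5) (nat_lit 437) (nat_lit 414) (nat_lit 349))) (XT.nd (nat_lit 78) (nat_lit 608) (nat_lit 0) (XT.lf (nat_lit 0) (nat_lit 4978470694) (nat_lit 836) (nat_lit 653065374) (nat_lit 76) (nat_lit 3944155802) (nat_lit 257) (nat_lit 5) (nat_lit 268) (nat_lit 5) (nat_lit 258) (nat_lit 5) (nat_lit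 438) (nat_lit 414) (nat_lit 348)) (XT.lf (nat_lit 0) (nat_lit 5018238577) (nat_lit 608) (nat_lit 1916420117) (nat_lit 684) (nat_lit 2777674601) (nat_lit 249) (nat_lit 5) (nat_lit 257) (nat_lit 5) (nat_lit 258) (nat_lit 5) (nat_lit 439) (nat_lit 414) (nat_lit 347))))) (XT.nd (nat_lit 312) (nat_lit 1672) (nat_lit 0) (XT.nd (nat_lit 156) (nat_lit 532) (nat_lit 0) (XT.nd (nat_lit 78) (nat_lit 76) (nat_lit 0) (XT.lf (nat_lit 0) (nat_lit 986223260) (nat_lit 608) (nat_lit 7963493102) (nat_lit 684) (nat_lit 903359964) (nat_lit 241) (nat_lit 5) (nat_lit 249) (nat_lit 5) (nat_lit 250) (nat_lit 5) (nat_lit 440) (nat_lit 414) (nat_lit 346)) (XT.lf (nat_lit 0) (nat_lit 1039995084) (nat_lit 684) (nat_lit 3127892454) (nat_lit 76) (nat_lit 5828879675) (nat_lit 240) (nat_lit 5) (nat_lit 249) (nat_lit 5) (nat_lit 241) (nat_lit 5) (nat_lit 441) (nat_lit 414) (nat_lit 345))) (XT.nd (nat_lit 78) (nat_lit 0) (nat_lit 0) (XT.lf (nat_lit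 0) (nat_lit 2794720840) (nat_lit 532) (nat_lit 222637973) (nat_lit 608) (nat_lit 7127332965) (nat_lit 233) (nat_lit 5) (nat_lit 240) (nat_lit 5) (nat_lit 241) (nat_lit 5) (nat_lit 442) (nat_lit 414) (nat_lit 344)) (XT.lf (nat_lit 0) (nat_lit 5090486583) (nat_lit 608) (nat_lit 1408946750) (nat_lit 76) (nat_lit 3796534459) (nat_lit 233) (nat_lit 5) (nat_lit 241) (nat_lit 5) (nat_lit 234) (nat_lit 5) (nat_lit 443) (nat_lit 414) (nat_lit 343)))) (XT.nd (nat_lit 156) (nat_lit 608) (nat_lit 0) (XT.nd (nat_lit 78) (nat_lit 532) (nat_lit 0) (XT.lf (nat_lit 0) (nat_lit 4767407858) (nat_lit 532) (nat_lit 2474997998) (nat_lit 608) (nat_lit 3208885103) (nat_lit 226) (nat_lit 5) (nat_lit 233) (nat_lit 5) (nat_lit 234) (nat_lit 5) (nat_lit 444) (nat_lit 414) (nat_lit 342)) (XT.lf (nat_lit 0) (nat_lit 506473850) (nat_lit 532) (nat_lit 8956836631) (nat_lit 608) (nat_lit 1147837110) (nat_lit 219) (nat_lit 5) (nat_lit 226) (nat_lit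 5) (nat_lit 227) (nat_lit 5) (nat_lit 445) (nat_lit 414) (nat_lit 341))) (XT.nd (nat_lit 78) (nat_lit 532) (nat_lit 0) (XT.lf (nat_lit 0) (nat_lit 1007887337) (nat_lit 608) (nat_lit 3844049147) (nat_lit 76) (nat_lit 5922032334) (nat_lit 218) (nat_lit 5) (nat_lit 226) (nat_lit 5) (nat_lit 219) (nat_lit 5) (nat_lit 446) (nat_lit 414) (nat_lit 340)) (XT.lf (nat_lit 0) (nat_lit 2610394121) (nat_lit 532) (nat_lit 590205228) (nat_lit 608) (nat_lit 7740878848) (nat_lit 211) (nat_lit 5) (nat_lit 218) (nat_lit 5) (nat_lit 219) (nat_lit 5) (nat_lit 447) (nat_lit 414) (nat_lit 339)))))) (XT.nd (nat_lit 546) (nat_lit 1976) (nat_lit 0) (XT.nd (nat_lit 234) (nat_lit 988) (nat_lit 0) (XT.nd (nat_lit 78) (nat_lit 912) (nat_lit 0) (XT.lf (nat_lit 0) (nat_lit 5505616290) (nat_lit 608) (nat_lit 1846570502) (nat_lit 76) (nat_lit 3760436226) (nat_lit 211) (nat_lit 5) (nat_lit 219) (nat_lit 5) (nat_lit 212) (nat_lit 5) (nat_lit 448)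 (nat_lit 414) (nat_lit 338)) (XT.nd (nat_lit 78) (nat_lit 456) (nat_lit 0) (XT.lf (nat_lit 0) (nat_lit 4888942719) (nat_lit 456) (nat_lit 3015330565) (nat_lit 532) (nat_lit 3383899910) (nat_lit 205) (nat_lit 5) (nat_lit 211) (nat_lit 5) (nat_lit 212) (nat_lit 5) (nat_lit 449) (nat_lit 414) (nat_lit 337)) (XT.lf (nat_lit 0) (nat_lit 355173989) (nat_lit 456) (nat_lit 10028029237) (nat_lit 532) (nat_lit 1085542782) (nat_lit 199) (nat_lit 5) (nat_lit 205) (nat_lit 5) (nat_lit 206) (nat_lit 5) (nat_lit 450) (nat_lit 414) (nat_lit 336)))) (XT.nd (nat_lit 156) (nat_lit 456) (nat_lit 0) (XT.nd (nat_lit 78) (nat_lit 456) (nat_lit 0) (XT.lf (nat_lit 0) (nat_lit 1324197478) (nat_lit 532) (nat_lit 4286013299) (nat_lit 76) (nat_lit 6042137482) (nat_lit 198) (nat_lit 5) (nat_lit 205) (nat_lit 5) (nat_lit 199) (nat_lit 5) (nat_lit 451) (nat_lit 414) (nat_lit 335)) (XT.lf (nat_lit 0) (nat_lit 2756611027) (nat_lit 456) (nat_lit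 1027434774) (nat_lit 532) (nat_lit 8057106374) (nat_lit 192) (nat_lit 5) (nat_lit 198) (nat_lit 5) (nat_lit 199) (nat_lit 5) (nat_lit 452) (nat_lit 414) (nat_lit 334))) (XT.nd (nat_lit 78) (nat_lit 456) (nat_lit 0) (XT.lf (nat_lit 0) (nat_lit 6370443738) (nat_lit 532) (nat_lit 2005096049) (nat_lit 76) (nat_lit 3658502711) (nat_lit 192) (nat_lit 5) (nat_lit 199) (nat_lit 5) (nat_lit 193) (nat_lit 5) (nat_lit 453) (nat_lit 414) (nat_lit 333)) (XT.lf (nat_lit 0) (nat_lit 5348678167) (nat_lit 456) (nat_lit 3721660916) (nat_lit 532) (nat_lit 3161308054) (nat_lit 186) (nat_lit 5) (nat_lit 192) (nat_lit 5) (nat_lit 193) (nat_lit 5) (nat_lit 454) (nat_lit 414) (nat_lit 332))))) (XT.nd (nat_lit 312) (nat_lit 1140) (nat_lit 0) (XT.nd (nat_lit 156) (nat_lit 380) (nat_lit 0) (XT.nd (nat_lit 78) (nat_lit 76) (nat_lit 0) (XT.lf (nat_lit 0) (nat_lit 496138609) (nat_lit 380) (nat_lit 11365307732) (nat_lit 456) (nat_lit 573431753)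 (nat_lit 181) (nat_lit 5) (nat_lit 186) (nat_lit 5) (nat_lit 187) (nat_lit 5) (nat_lit 455) (nat_lit 414) (nat_lit 331)) (XT.lf (nat_lit 0) (nat_lit 2133167994) (nat_lit 456) (nat_lit 4494873378) (nat_lit 76) (nat_lit 6013108328) (nat_lit 180) (nat_lit 5) (nat_lit 186) (nat_lit 5) (nat_lit 181) (nat_lit 5) (nat_lit 456) (nat_lit 414) (nat_lit 330))) (XT.nd (nat_lit 78) (nat_lit 0) (nat_lit 0) (XT.lf (nat_lit 0) (nat_lit 3197155686) (nat_lit 380) (nat_lit 1718619994) (nat_lit 456) (nat_lit 7937477627) (nat_lit 175) (nat_lit 5) (nat_lit 180) (nat_lit 5) (nat_lit 181) (nat_lit 5) (nat_lit 457) (nat_lit 414) (nat_lit 329)) (XT.lf (nat_lit 0) (nat_lit 7835725094) (nat_lit 456) (nat_lit 1923011592) (nat_lit 76) (nat_lit 3311371547) (nat_lit 175) (nat_lit 5) (nat_lit 181) (nat_lit 5) (nat_lit 176) (nat_lit 5) (nat_lit 458) (nat_lit 414) (nat_lit 328)))) (XT.nd (nat_lit 156) (nat_lit 304) (nat_lit 0) (XT.nd (nat_lit 78)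 (nat_lit 456) (nat_lit 0) (XT.lf (nat_lit 0) (nat_lit 6113074750) (nat_lit 380) (nat_lit 4782614742) (nat_lit 456) (nat_lit 2396210814) (nat_lit 170) (nat_lit 5) (nat_lit 175) (nat_lit 5) (nat_lit 176) (nat_lit 5) (nat_lit 459) (nat_lit 414) (nat_lit 327)) (XT.lf (nat_lit 0) (nat_lit 525327450) (nat_lit 456) (nat_lit 12632998301) (nat_lit 76) (nat_lit 361616954) (nat_lit 164) (nat_lit 5) (nat_lit 170) (nat_lit 5) (nat_lit 165) (nat_lit 5) (nat_lit 460) (nat_lit 414) (nat_lit 326))) (XT.nd (nat_lit 78) (nat_lit 304) (nat_lit 0) (XT.lf (nat_lit 0) (nat_lit 3583999544) (nat_lit 456) (nat_lit 4514324998) (nat_lit 76) (nat_lit 5652864271) (nat_lit 164) (nat_lit 5) (nat_lit 170) (nat_lit 5) (nat_lit 165) (nat_lit 5) (nat_lit 461) (nat_lit 414) (nat_lit 325)) (XT.lf (nat_lit 0) (nat_lit 3893075943) (nat_lit 304) (nat_lit 2856532581) (nat_lit 380) (nat_lit 7239312029) (nat_lit 160) (nat_lit 5) (nat_lit 164) (nat_lit 5)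 (nat_lit 165) (nat_lit 5) (nat_lit 462) (nat_lit 414) (nat_lit 324))))))))
noncomputable def xc131 : XT := (XT.nd (nat_lit 2340) (nat_lit 3040) (nat_lit 0) (XT.nd (nat_lit 1170) (nat_lit 2128) (nat_lit 0) (XT.nd (nat_lit 546) (nat_lit 1444) (nat_lit 0) (XT.nd (nat_lit 234) (nat_lit 684) (nat_lit 0) (XT.nd (nat_lit 78) (nat_lit 760) (nat_lit 0) (XT.lf (nat_lit 0) (nat_lit 10058689267) (nat_lit 380) (nat_lit 1643146027) (nat_lit 76) (nat_lit 2530497293) (nat_lit 160) (nat_lit 5) (nat_lit 165) (nat_lit 5) (nat_lit 161) (nat_lit 5) (nat_lit 463) (nat_lit 414) (nat_lit 323)) (XT.nd (nat_lit 78) (nat_lit 380) (nat_lit 0) (XT.lf (nat_lit 0) (nat_lit 7144087039) (nat_lit 380) (nat_lit 6398577369) (nat_lit 456) (nat_lit 938117260) (nat_lit 155) (nat_lit 5) (nat_lit 160) (nat_lit 5) (nat_lit 161) (nat_lit 5) (nat_lit 464) (nat_lit 414) (nat_lit 322)) (XT.lf (nat_lit 0) (nat_lit 1467589715) (nat_lit 304) (nat_lit 889813483)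 (nat_lit 380) (nat_lit 12378304060) (nat_lit 150) (nat_lit 5) (nat_lit 154) (nat_lit 5) (nat_lit 155) (nat_lit 5) (nat_lit 465) (nat_lit 414) (nat_lit 321)))) (XT.nd (nat_lit 156) (nat_lit 380) (nat_lit 0) (XT.nd (nat_lit 78) (nat_lit 304) (nat_lit 0) (XT.lf (nat_lit 0) (nat_lit 5832773516) (nat_lit 380) (nat_lit 4396216090) (nat_lit 76) (nat_lit 4766020239) (nat_lit 150) (nat_lit 5) (nat_lit 155) (nat_lit 5) (nat_lit 151) (nat_lit 5) (nat_lit 466) (nat_lit 414) (nat_lit 320)) (XT.lf (nat_lit 0) (nat_lit 4796983359) (nat_lit 304) (nat_lit 4649984835) (nat_lit 380) (nat_lit 5814089391) (nat_lit 146) (nat_lit 5) (nat_lit 150) (nat_lit 5) (nat_lit 151) (nat_lit 5) (nat_lit 467) (nat_lit 414) (nat_lit 319))) (XT.nd (nat_lit 78) (nat_lit 380) (nat_lit 0) (XT.lf (nat_lit 0) (nat_lit 13204823393) (nat_lit 380) (nat_lit 1218516208) (nat_lit 76) (nat_lit 1110693003) (nat_lit 146) (nat_lit 5) (nat_lit 151) (nat_lit 5) (nat_lit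 147) (nat_lit 5) (nat_lit 468) (nat_lit 414) (nat_lit 318)) (XT.lf (nat_lit 0) (nat_lit 1343853102) (nat_lit 380) (nat_lit 7432019323) (nat_lit 76) (nat_lit 7035716936) (nat_lit 141) (nat_lit 5) (nat_lit 146) (nat_lit 5) (nat_lit 142) (nat_lit 5) (nat_lit 469) (nat_lit 414) (nat_lit 317))))) (XT.nd (nat_lit 312) (nat_lit 836) (nat_lit 0) (XT.nd (nat_lit 156) (nat_lit 304) (nat_lit 0) (XT.nd (nat_lit 78) (nat_lit 0) (nat_lit 0) (XT.lf (nat_lit 0) (nat_lit 2183789350) (nat_lit 304) (nat_lit 2910470818) (nat_lit 380) (nat_lit 11002104420) (nat_lit 137) (nat_lit 5) (nat_lit 141) (nat_lit 5) (nat_lit 142) (nat_lit 5) (nat_lit 470) (nat_lit 414) (nat_lit 316)) (XT.lf (nat_lit 0) (nat_lit 9043813164) (nat_lit 380) (nat_lit 4207162881) (nat_lit 76) (nat_lit 3136110579) (nat_lit 137) (nat_lit 5) (nat_lit 142) (nat_lit 5) (nat_lit 138) (nat_lit 5) (nat_lit 471) (nat_lit 414) (nat_lit 315))) (XT.nd (nat_lit 78) (nat_lit 76)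 (nat_lit 0) (XT.lf (nat_lit 0) (nat_lit 5846216279) (nat_lit 228) (nat_lit 7331957001) (nat_lit 304) (nat_lit 3506369915) (nat_lit 134) (nat_lit 5) (nat_lit 137) (nat_lit 5) (nat_lit 138) (nat_lit 5) (nat_lit 472) (nat_lit 414) (nat_lit 314)) (XT.lf (nat_lit 0) (nat_lit 461244825) (nat_lit 304) (nat_lit 735467175) (nat_lit 76) (nat_lit 15793356294) (nat_lit 133) (nat_lit 5) (nat_lit 137) (nat_lit 5) (nat_lit 134) (nat_lit 5) (nat_lit 473) (nat_lit 414) (nat_lit 313)))) (XT.nd (nat_lit 156) (nat_lit 304) (nat_lit 0) (XT.nd (nat_lit 78) (nat_lit 228) (nat_lit 0) (XT.lf (nat_lit 0) (nat_lit 4603972203) (nat_lit 380) (nat_lit 7552601950) (nat_lit 76) (nat_lit 5143349011) (nat_lit 129) (nat_lit 5) (nat_lit 134) (nat_lit 5) (nat_lit 130) (nat_lit 5) (nat_lit 474) (nat_lit 414) (nat_lit 312)) (XT.lf (nat_lit 0) (nat_lit 2958738825) (nat_lit 228) (nat_lit 5942139500) (nat_lit 304) (nat_lit 8717300661) (nat_lit 126) (nat_lit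 5) (nat_lit 129) (nat_lit 5) (nat_lit 130) (nat_lit 5) (nat_lit 475) (nat_lit 414) (nat_lit 311))) (XT.nd (nat_lit 78) (nat_lit 304) (nat_lit 0) (XT.lf (nat_lit 0) (nat_lit 13390389270) (nat_lit 304) (nat_lit 4036673667) (nat_lit 76) (nat_lit 517010765) (nat_lit 126) (nat_lit 5) (nat_lit 130) (nat_lit 5) (nat_lit 127) (nat_lit 5) (nat_lit 476) (nat_lit 414) (nat_lit 310)) (XT.lf (nat_lit 0) (nat_lit 6954410245) (nat_lit 304) (nat_lit 11168641395) (nat_lit 380) (nat_lit 153441719) (nat_lit 122) (nat_lit 5) (nat_lit 126) (nat_lit 5) (nat_lit 127) (nat_lit 5) (nat_lit 477) (nat_lit 414) (nat_lit 309)))))) (XT.nd (nat_lit 546) (nat_lit 1064) (nat_lit 0) (XT.nd (nat_lit 234) (nat_lit 532) (nat_lit 0) (XT.nd (nat_lit 78) (nat_lit 456) (nat_lit 0) (XT.lf (nat_lit 0) (nat_lit 4317383170) (nat_lit 380) (nat_lit 329497825) (nat_lit 76) (nat_lit 13970023188) (nat_lit 121) (nat_lit 5) (nat_lit 126) (nat_lit 5) (nat_lit 122)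 (nat_lit 5) (nat_lit 478) (nat_lit 414) (nat_lit 308)) (XT.nd (nat_lit 78) (nat_lit 228) (nat_lit 0) (XT.lf (nat_lit 0) (nat_lit 9030989287) (nat_lit 304) (nat_lit 7802597105) (nat_lit 76) (nat_lit 2130545056) (nat_lit 118) (nat_lit 5) (nat_lit 122) (nat_lit 5) (nat_lit 119) (nat_lit 5) (nat_lit 479) (nat_lit 414) (nat_lit 307)) (XT.lf (nat_lit 0) (nat_lit 3681515812) (nat_lit 228) (nat_lit 10272737975) (nat_lit 304) (nat_lit 5365476091) (nat_lit 115) (nat_lit 5) (nat_lit 118) (nat_lit 5) (nat_lit 119) (nat_lit 5) (nat_lit 480) (nat_lit 414) (nat_lit 306)))) (XT.nd (nat_lit 156) (nat_lit 228) (nat_lit 0) (XT.nd (nat_lit 78) (nat_lit 304) (nat_lit 0) (XT.lf (nat_lit 0) (nat_lit 15643700761) (nat_lit 228) (nat_lit 3444025723) (nat_lit 304) (nat_lit 596396266) (nat_lit 115) (nat_lit 5) (nat_lit 118) (nat_lit 5) (nat_lit 119) (nat_lit 5) (nat_lit 481) (nat_lit 414) (nat_lit 305)) (XT.lf (nat_lit 0) (nat_lit 4327997723)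 (nat_lit 304) (nat_lit 12098099120) (nat_lit 76) (nat_lit 3629213960) (nat_lit 111) (nat_lit 5) (nat_lit 115) (nat_lit 5) (nat_lit 112) (nat_lit 5) (nat_lit 482) (nat_lit 414) (nat_lit 304))) (XT.nd (nat_lit 78) (nat_lit 228) (nat_lit 0) (XT.lf (nat_lit 0) (nat_lit 9447597841) (nat_lit 304) (nat_lit 105291147) (nat_lit 76) (nat_lit 10882786169) (nat_lit 111) (nat_lit 5) (nat_lit 115) (nat_lit 5) (nat_lit 112) (nat_lit 5) (nat_lit 483) (nat_lit 414) (nat_lit 303)) (XT.lf (nat_lit 0) (nat_lit 12465230399) (nat_lit 228) (nat_lit 2359998126) (nat_lit 304) (nat_lit 5999090240) (nat_lit 108) (nat_lit 5) (nat_lit 111) (nat_lit 5) (nat_lit 112) (nat_lit 5) (nat_lit 484) (nat_lit 414) (nat_lit 302))))) (XT.nd (nat_lit 312) (nat_lit 608) (nat_lit 0) (XT.nd (nat_lit 156) (nat_lit 228) (nat_lit 0) (XT.nd (nat_lit 78) (nat_lit 76) (nat_lit 0) (XT.lf (nat_lit 0) (nat_lit 4198394710) (nat_lit 152) (nat_lit 16240486840) (nat_lit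 228) (nat_lit 783500878) (nat_lit 106) (nat_lit 5) (nat_lit 108) (nat_lit 5) (nat_lit 109) (nat_lit 5) (nat_lit 485) (nat_lit 414) (nat_lit 301)) (XT.lf (nat_lit 0) (nat_lit 4592412564) (nat_lit 228) (nat_lit 4419691147) (nat_lit 76) (nat_lit 12616160644) (nat_lit 105) (nat_lit 5) (nat_lit 108) (nat_lit 5) (nat_lit 106) (nat_lit 5) (nat_lit 486) (nat_lit 414) (nat_lit 300))) (XT.nd (nat_lit 78) (nat_lit 0) (nat_lit 0) (XT.lf (nat_lit 0) (nat_lit 8700006734) (nat_lit 228) (nat_lit 1482705271) (nat_lit 304) (nat_lit 11861313745) (nat_lit 102) (nat_lit 5) (nat_lit 105) (nat_lit 5) (nat_lit 106) (nat_lit 5) (nat_lit 487) (nat_lit 414) (nat_lit 299)) (XT.lf (nat_lit 0) (nat_lit 16031414252) (nat_lit 304) (nat_lit 252603401) (nat_lit 76) (nat_lit 6185522897) (nat_lit 102) (nat_lit 5) (nat_lit 106) (nat_lit 5) (nat_lit 103) (nat_lit 5) (nat_lit 488) (nat_lit 414) (nat_lit 298)))) (XT.nd (nat_lit 156) (nat_lit 152) (nat_lit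 0) (XT.nd (nat_lit 78) (nat_lit 304) (nat_lit 0) (XT.lf (nat_lit 0) (nat_lit 13455320177) (nat_lit 152) (nat_lit 8730031706) (nat_lit 228) (nat_lit 718577022) (nat_lit 100) (nat_lit 5) (nat_lit 102) (nat_lit 5) (nat_lit 103) (nat_lit 5) (nat_lit 489) (nat_lit 414) (nat_lit 297)) (XT.lf (nat_lit 0) (nat_lit 4237158887) (nat_lit 228) (nat_lit 863569020) (nat_lit 304) (nat_lit 18248257477) (nat_lit 96) (nat_lit 5) (nat_lit 99) (nat_lit 5) (nat_lit 100) (nat_lit 5) (nat_lit 490) (nat_lit 414) (nat_lit 296))) (XT.nd (nat_lit 78) (nat_lit 152) (nat_lit 0) (XT.lf (nat_lit 0) (nat_lit 11231997625) (nat_lit 304) (nat_lit 5379241469) (nat_lit 76) (nat_lit 7191387400) (nat_lit 96) (nat_lit 5) (nat_lit 100) (nat_lit 5) (nat_lit 97) (nat_lit 5) (nat_lit 491) (nat_lit 414) (nat_lit 295)) (XT.lf (nat_lit 0) (nat_lit 8907032493) (nat_lit 152) (nat_lit 8720640654) (nat_lit 228) (nat_lit 6639790848) (nat_lit 94) (nat_lit 5) (nat_lit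 96) (nat_lit 5) (nat_lit 97) (nat_lit 5) (nat_lit 492) (nat_lit 414) (nat_lit 294))))))) (XT.nd (nat_lit 1170) (nat_lit 1292) (nat_lit 0) (XT.nd (nat_lit 546) (nat_lit 912) (nat_lit 0) (XT.nd (nat_lit 234) (nat_lit 380) (nat_lit 0) (XT.nd (nat_lit 78) (nat_lit 456) (nat_lit 0) (XT.lf (nat_lit 0) (nat_lit 23708847989) (nat_lit 152) (nat_lit 547163390) (nat_lit 228) (nat_lit 489012624) (nat_lit 94) (nat_lit 5) (nat_lit 96) (nat_lit 5) (nat_lit 97) (nat_lit 5) (nat_lit 493) (nat_lit 414) (nat_lit 293)) (XT.nd (nat_lit 78) (nat_lit 152) (nat_lit 0) (XT.lf (nat_lit 0) (nat_lit 5930108639) (nat_lit 304) (nat_lit 11398921811) (nat_lit 76) (nat_lit 7900258450) (nat_lit 90) (nat_lit 5) (nat_lit 94) (nat_lit 5) (nat_lit 91) (nat_lit 5) (nat_lit 494) (nat_lit 414) (nat_lit 292)) (XT.lf (nat_lit 0) (nat_lit 3470764435) (nat_lit 152) (nat_lit 9097369725) (nat_lit 228) (nat_lit 13158718611) (nat_lit 88) (nat_lit 5) (nat_lit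 90) (nat_lit 5) (nat_lit 91) (nat_lit 5) (nat_lit 495) (nat_lit 414) (nat_lit 291)))) (XT.nd (nat_lit 156) (nat_lit 152) (nat_lit 0) (XT.nd (nat_lit 78) (nat_lit 228) (nat_lit 0) (XT.lf (nat_lit 0) (nat_lit 18997454126) (nat_lit 152) (nat_lit 509930254) (nat_lit 228) (nat_lit 6728897686) (nat_lit 88) (nat_lit 5) (nat_lit 90) (nat_lit 5) (nat_lit 91) (nat_lit 5) (nat_lit 496) (nat_lit 414) (nat_lit 290)) (XT.lf (nat_lit 0) (nat_lit 44404023) (nat_lit 228) (nat_lit 18468839302) (nat_lit 76) (nat_lit 8243327078) (nat_lit 85) (nat_lit 5) (nat_lit 88) (nat_lit 5) (nat_lit 86) (nat_lit 5) (nat_lit 497) (nat_lit 414) (nat_lit 289))) (XT.nd (nat_lit 78) (nat_lit 152) (nat_lit 0) (XT.lf (nat_lit 0) (nat_lit 6951829200) (nat_lit 228) (nat_lit 2956608895) (nat_lit 76) (nat_lit 17380046492) (nat_lit 85) (nat_lit 5) (nat_lit 88) (nat_lit 5) (nat_lit 86) (nat_lit 5) (nat_lit 498) (nat_lit 414) (nat_lit 288)) (XT.lf (nat_lit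 0) (nat_lit 13257936448) (nat_lit 152) (nat_lit 923652110) (nat_lit 228) (nat_lit 13651315208) (nat_lit 83) (nat_lit 5) (nat_lit 85) (nat_lit 5) (nat_lit 86) (nat_lit 5) (nat_lit 499) (nat_lit 414) (nat_lit 287))))) (XT.nd (nat_lit 312) (nat_lit 532) (nat_lit 0) (XT.nd (nat_lit 156) (nat_lit 152) (nat_lit 0) (XT.nd (nat_lit 78) (nat_lit 76) (nat_lit 0) (XT.lf (nat_lit 0) (nat_lit 1554907631) (nat_lit 152) (nat_lit 20186240930) (nat_lit 228) (nat_lit 6649120608) (nat_lit 81) (nat_lit 5) (nat_lit 83) (nat_lit 5) (nat_lit 84) (nat_lit 5) (nat_lit 500) (nat_lit 414) (nat_lit 286)) (XT.lf (nat_lit 0) (nat_lit 697690629) (nat_lit 228) (nat_lit 10530359761) (nat_lit 76) (nat_lit 17731777391) (nat_lit 80) (nat_lit 5) (nat_lit 83) (nat_lit 5) (nat_lit 81) (nat_lit 5) (nat_lit 501) (nat_lit 414) (nat_lit 285))) (XT.nd (nat_lit 78) (nat_lit 0) (nat_lit 0) (XT.lf (nat_lit 0) (nat_lit 6299669576) (nat_lit 152) (nat_lit 1880267516)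 (nat_lit 228) (nat_lit 21363101733) (nat_lit 78) (nat_lit 5) (nat_lit 80) (nat_lit 5) (nat_lit 81) (nat_lit 5) (nat_lit 502) (nat_lit 414) (nat_lit 284)) (XT.lf (nat_lit 0) (nat_lit 16056688215) (nat_lit 228) (nat_lit 6386899853) (nat_lit 76) (nat_lit 7695057802) (nat_lit 78) (nat_lit 5) (nat_lit 81) (nat_lit 5) (nat_lit 79) (nat_lit 5) (nat_lit 503) (nat_lit 414) (nat_lit 283)))) (XT.nd (nat_lit 156) (nat_lit 304) (nat_lit 0) (XT.nd (nat_lit 78) (nat_lit 76) (nat_lit 0) (XT.lf (nat_lit 0) (nat_lit 11153639733) (nat_lit 152) (nat_lit 13130449231) (nat_lit 228) (nat_lit 6464602512) (nat_lit 76) (nat_lit 5) (nat_lit 78) (nat_lit 5) (nat_lit 79) (nat_lit 5) (nat_lit 504) (nat_lit 414) (nat_lit 282)) (XT.lf (nat_lit 0) (nat_lit 1407993212) (nat_lit 228) (nat_lit 2058380479) (nat_lit 76) (nat_lit 27908656942) (nat_lit 75) (nat_lit 5) (nat_lit 78) (nat_lit 5) (nat_lit 76) (nat_lit 5) (nat_lit 505) (nat_lit 414) (nat_lit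 281))) (XT.nd (nat_lit 78) (nat_lit 152) (nat_lit 0) (XT.lf (nat_lit 0) (nat_lit 9596245772) (nat_lit 228) (nat_lit 15841196607) (nat_lit 76) (nat_lit 6574515773) (nat_lit 73) (nat_lit 5) (nat_lit 76) (nat_lit 5) (nat_lit 74) (nat_lit 5) (nat_lit 506) (nat_lit 414) (nat_lit 280)) (XT.lf (nat_lit 0) (nat_lit 2312065905) (nat_lit 152) (nat_lit 15784538044) (nat_lit 228) (nat_lit 14569396487) (nat_lit 71) (nat_lit 5) (nat_lit 73) (nat_lit 5) (nat_lit 74) (nat_lit 5) (nat_lit 507) (nat_lit 414) (nat_lit 279)))))) (XT.nd (nat_lit 624) (nat_lit 608) (nat_lit 0) (XT.nd (nat_lit 312) (nat_lit 304) (nat_lit 0) (XT.nd (nat_lit 156) (nat_lit 152) (nat_lit 0) (XT.nd (nat_lit 78) (nat_lit 228) (nat_lit 0) (XT.lf (nat_lit 0) (nat_lit 21314725437) (nat_lit 152) (nat_lit 5686264678) (nat_lit 228) (nat_lit 6334204012) (nat_lit 71) (nat_lit 5) (nat_lit 73) (nat_lit 5) (nat_lit 74) (nat_lit 5) (nat_lit 508) (nat_lit 414) (nat_lit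 278)) (XT.lf (nat_lit 0) (nat_lit 2208388369) (nat_lit 228) (nat_lit 27109688989) (nat_lit 76) (nat_lit 4702699638) (nat_lit 68) (nat_lit 5) (nat_lit 71) (nat_lit 5) (nat_lit 69) (nat_lit 5) (nat_lit 509) (nat_lit 414) (nat_lit 277))) (XT.nd (nat_lit 78) (nat_lit 152) (nat_lit 0) (XT.lf (nat_lit 0) (nat_lit 11048139353) (nat_lit 228) (nat_lit 8206109431) (nat_lit 76) (nat_lit 15465751959) (nat_lit 68) (nat_lit 5) (nat_lit 71) (nat_lit 5) (nat_lit 69) (nat_lit 5) (nat_lit 510) (nat_lit 414) (nat_lit 276)) (XT.lf (nat_lit 0) (nat_lit 11469350463) (nat_lit 152) (nat_lit 8783601684) (nat_lit 228) (nat_lit 15184253563) (nat_lit 66) (nat_lit 5) (nat_lit 68) (nat_lit 5) (nat_lit 69) (nat_lit 5) (nat_lit 511) (nat_lit 414) (nat_lit 275)))) (XT.nd (nat_lit 156) (nat_lit 152) (nat_lit 0) (XT.nd (nat_lit 78) (nat_lit 152) (nat_lit 0) (XT.lf (nat_lit 0) (nat_lit 29826489296) (nat_lit 228) (nat_lit 4309280950) (nat_lit 76)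 (nat_lit 2037379748) (nat_lit 66) (nat_lit 5) (nat_lit 69) (nat_lit 5) (nat_lit 67) (nat_lit 4) (nat_lit 512) (nat_lit 414) (nat_lit 274)) (XT.lf (nat_lit 0) (nat_lit 2936733434) (nat_lit 152) (nat_lit 20804315768) (nat_lit 76) (nat_lit 13182295528) (nat_lit 64) (nat_lit 5) (nat_lit 66) (nat_lit 5) (nat_lit 65) (nat_lit 5) (nat_lit 513) (nat_lit 414) (nat_lit 273))) (XT.nd (nat_lit 78) (nat_lit 152) (nat_lit 0) (XT.lf (nat_lit 0) (nat_lit 12404990051) (nat_lit 152) (nat_lit 528022170) (nat_lit 76) (nat_lit 24760130793) (nat_lit 64) (nat_lit 5) (nat_lit 66) (nat_lit 5) (nat_lit 65) (nat_lit 5) (nat_lit 514) (nat_lit 414) (nat_lit 272)) (XT.lf (nat_lit 0) (nat_lit 20743339980) (nat_lit 152) (nat_lit 1603620140) (nat_lit 228) (nat_lit 16133385658) (nat_lit 62) (nat_lit 5) (nat_lit 64) (nat_lit 5) (nat_lit 65) (nat_lit 5) (nat_lit 515) (nat_lit 414) (nat_lit 271))))) (XT.nd (nat_lit 312) (nat_lit 304) (nat_lit 0) (XT.nd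 (nat_lit 156) (nat_lit 152) (nat_lit 0) (XT.nd (nat_lit 78) (nat_lit 76) (nat_lit 0) (XT.lf (nat_lit 0) (nat_lit 3322657943) (nat_lit 76) (nat_lit 29388914160) (nat_lit 152) (nat_lit 6575861527) (nat_lit 61) (nat_lit 5) (nat_lit 62) (nat_lit 5) (nat_lit 63) (nat_lit 4) (nat_lit 516) (nat_lit 414) (nat_lit 270)) (XT.lf (nat_lit 0) (nat_lit 3391686913) (nat_lit 152) (nat_lit 14802774285) (nat_lit 76) (nat_lit 21917718551) (nat_lit 60) (nat_lit 5) (nat_lit 62) (nat_lit 5) (nat_lit 61) (nat_lit 5) (nat_lit 517) (nat_lit 414) (nat_lit 269))) (XT.nd (nat_lit 78) (nat_lit 0) (nat_lit 0) (XT.lf (nat_lit 0) (nat_lit 7049009107) (nat_lit 152) (nat_lit 6535442666) (nat_lit 228) (nat_lit 27373512953) (nat_lit 58) (nat_lit 5) (nat_lit 60) (nat_lit 5) (nat_lit 61) (nat_lit 5) (nat_lit 518) (nat_lit 414) (nat_lit 268)) (XT.lf (nat_lit 0) (nat_lit 24277200200) (nat_lit 228) (nat_lit 12036495765) (nat_lit 76) (nat_lit 5509601703)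 (nat_lit 58) (nat_lit 5) (nat_lit 61) (nat_lit 5) (nat_lit 59) (nat_lit 4) (nat_lit 519) (nat_lit 414) (nat_lit 267)))) (XT.nd (nat_lit 156) (nat_lit 152) (nat_lit 0) (XT.nd (nat_lit 78) (nat_lit 76) (nat_lit 0) (XT.lf (nat_lit 0) (nat_lit 10617576823) (nat_lit 76) (nat_lit 24830825690) (nat_lit 152) (nat_lit 7261458367) (nat_lit 57) (nat_lit 5) (nat_lit 58) (nat_lit 5) (nat_lit 59) (nat_lit 4) (nat_lit 520) (nat_lit 414) (nat_lit 266)) (XT.lf (nat_lit 0) (nat_lit 3380369248) (nat_lit 152) (nat_lit 9471651649) (nat_lit 76) (nat_lit 30766629795) (nat_lit 56) (nat_lit 5) (nat_lit 58) (nat_lit 5) (nat_lit 57) (nat_lit 5) (nat_lit 521) (nat_lit 414) (nat_lit 265))) (XT.nd (nat_lit 78) (nat_lit 0) (nat_lit 0) (XT.lf (nat_lit 0) (nat_lit 14012581773) (nat_lit 152) (nat_lit 308798695) (nat_lit 228) (nat_lit 30227390943) (nat_lit 54) (nat_lit 5) (nat_lit 56) (nat_lit 5) (nat_lit 57) (nat_lit 5) (nat_lit 522) (nat_lit 414)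 (nat_lit 264)) (XT.lf (nat_lit 0) (nat_lit 25799640995) (nat_lit 228) (nat_lit 7247177742) (nat_lit 76) (nat_lit 12453706821) (nat_lit 54) (nat_lit 5) (nat_lit 57) (nat_lit 5) (nat_lit 55) (nat_lit 4) (nat_lit 523) (nat_lit 414) (nat_lit 263))))))))
noncomputable def xc132 : XT := (XT.nd (nat_lit 54210) (nat_lit 0) (nat_lit 14060) (XT.nd (nat_lit 1170) (nat_lit 532) (nat_lit 0) (XT.nd (nat_lit 546) (nat_lit 456) (nat_lit 0) (XT.nd (nat_lit 234) (nat_lit 304) (nat_lit 0) (XT.nd (nat_lit 78) (nat_lit 228) (nat_lit 0) (XT.lf (nat_lit 0) (nat_lit 17054133527) (nat_lit 76) (nat_lit 20726569076) (nat_lit 152) (nat_lit 8695376493) (nat_lit 53) (nat_lit 5) (nat_lit 54) (nat_lit 5) (nat_lit 55) (nat_lit 4) (nat_lit 524) (nat_lit 414) (nat_lit 262)) (XT.nd (nat_lit 78) (nat_lit 152) (nat_lit 0) (XT.lf (nat_lit 0) (nat_lit 2654154573) (nat_lit 152) (nat_lit 5287877666) (nat_lit 76) (nat_lit 39536144555) (nat_lit 52) (nat_lit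 5) (nat_lit 54) (nat_lit 5) (nat_lit 53) (nat_lit 5) (nat_lit 525) (nat_lit 414) (nat_lit 261)) (XT.lf (nat_lit 0) (nat_lit 14404898768) (nat_lit 228) (nat_lit 28699248360) (nat_lit 76) (nat_lit 5396542976) (nat_lit 50) (nat_lit 5) (nat_lit 53) (nat_lit 5) (nat_lit 51) (nat_lit 4) (nat_lit 526) (nat_lit 414) (nat_lit 260)))) (XT.nd (nat_lit 156) (nat_lit 228) (nat_lit 0) (XT.nd (nat_lit 78) (nat_lit 76) (nat_lit 0) (XT.lf (nat_lit 0) (nat_lit 26632468139) (nat_lit 228) (nat_lit 3895268887) (nat_lit 76) (nat_lit 19022413025) (nat_lit 50) (nat_lit 5) (nat_lit 53) (nat_lit 5) (nat_lit 51) (nat_lit 4) (nat_lit 527) (nat_lit 414) (nat_lit 259)) (XT.lf (nat_lit 0) (nat_lit 22068250965) (nat_lit 76) (nat_lit 17362730636) (nat_lit 152) (nat_lit 11193989000) (nat_lit 49) (nat_lit 5) (nat_lit 50) (nat_lit 5) (nat_lit 51) (nat_lit 4) (nat_lit 528) (nat_lit 414) (nat_lit 258))) (XT.nd (nat_lit 78) (nat_lit 152) (nat_lit 0)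 (XT.lf (nat_lit 0) (nat_lit 895932558) (nat_lit 152) (nat_lit 2864412864) (nat_lit 76) (nat_lit 47970484937) (nat_lit 48) (nat_lit 5) (nat_lit 50) (nat_lit 5) (nat_lit 49) (nat_lit 5) (nat_lit 529) (nat_lit 414) (nat_lit 257)) (XT.lf (nat_lit 0) (nat_lit 13447757110) (nat_lit 228) (nat_lit 29021495397) (nat_lit 76) (nat_lit 10387562939) (nat_lit 46) (nat_lit 5) (nat_lit 49) (nat_lit 5) (nat_lit 47) (nat_lit 4) (nat_lit 530) (nat_lit 414) (nat_lit 256))))) (XT.nd (nat_lit 312) (nat_lit 228) (nat_lit 0) (XT.nd (nat_lit 156) (nat_lit 152) (nat_lit 0) (XT.nd (nat_lit 78) (nat_lit 76) (nat_lit 0) (XT.lf (nat_lit 0) (nat_lit 26434824485) (nat_lit 228) (nat_lit 2673263811) (nat_lit 76) (nat_lit 24906731429) (nat_lit 46) (nat_lit 5) (nat_lit 49) (nat_lit 5) (nat_lit 47) (nat_lit 4) (nat_lit 531) (nat_lit 414) (nat_lit 255)) (XT.lf (nat_lit 0) (nat_lit 24937672961) (nat_lit 76) (nat_lit 15106018547) (nat_lit 152) (nat_lit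 15156907266) (nat_lit 45) (nat_lit 5) (nat_lit 46) (nat_lit 5) (nat_lit 47) (nat_lit 4) (nat_lit 532) (nat_lit 414) (nat_lit 254))) (XT.nd (nat_lit 78) (nat_lit 152) (nat_lit 0) (XT.lf (nat_lit 0) (nat_lit 53417512380) (nat_lit 76) (nat_lit 662860885) (nat_lit 152) (nat_lit 2340991730) (nat_lit 45) (nat_lit 5) (nat_lit 46) (nat_lit 5) (nat_lit 47) (nat_lit 4) (nat_lit 533) (nat_lit 414) (nat_lit 253)) (XT.lf (nat_lit 0) (nat_lit 11024869326) (nat_lit 152) (nat_lit 32357227830) (nat_lit 76) (nat_lit 14282204457) (nat_lit 43) (nat_lit 5) (nat_lit 45) (nat_lit 5) (nat_lit 44) (nat_lit 4) (nat_lit 534) (nat_lit 414) (nat_lit 252)))) (XT.nd (nat_lit 156) (nat_lit 152) (nat_lit 0) (XT.nd (nat_lit 78) (nat_lit 76) (nat_lit 0) (XT.lf (nat_lit 0) (nat_lit 24774566361) (nat_lit 152) (nat_lit 4458726381) (nat_lit 76) (nat_lit 29709641131) (nat_lit 43) (nat_lit 5) (nat_lit 45) (nat_lit 5) (nat_lit 44) (nat_lit 4) (nat_lit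 535) (nat_lit 414) (nat_lit 251)) (XT.lf (nat_lit 0) (nat_lit 24746049017) (nat_lit 76) (nat_lit 14421507058) (nat_lit 152) (nat_lit 21085445207) (nat_lit 42) (nat_lit 5) (nat_lit 43) (nat_lit 5) (nat_lit 44) (nat_lit 4) (nat_lit 536) (nat_lit 414) (nat_lit 250))) (XT.nd (nat_lit 78) (nat_lit 152) (nat_lit 0) (XT.lf (nat_lit 0) (nat_lit 54038771256) (nat_lit 152) (nat_lit 6704702425) (nat_lit 0) (nat_lit 857504186) (nat_lit 42) (nat_lit 5) (nat_lit 44) (nat_lit 4) (nat_lit 42) (nat_lit 4) (nat_lit 537) (nat_lit 414) (nat_lit 249)) (XT.lf (nat_lit 0) (nat_lit 6605570792) (nat_lit 152) (nat_lit 39783849456) (nat_lit 76) (nat_lit 16587245306) (nat_lit 40) (nat_lit 5) (nat_lit 42) (nat_lit 5) (nat_lit 41) (nat_lit 4) (nat_lit 538) (nat_lit 414) (nat_lit 248)))))) (XT.nd (nat_lit 546) (nat_lit 228) (nat_lit 0) (XT.nd (nat_lit 234) (nat_lit 228) (nat_lit 0) (XT.nd (nat_lit 78) (nat_lit 76) (nat_lit 0) (XT.lf (nat_lit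 0) (nat_lit 21107918245) (nat_lit 152) (nat_lit 10355628880) (nat_lit 76) (nat_lit 32925984866) (nat_lit 40) (nat_lit 5) (nat_lit 42) (nat_lit 5) (nat_lit 41) (nat_lit 4) (nat_lit 539) (nat_lit 414) (nat_lit 247)) (XT.nd (nat_lit 78) (nat_lit 0) (nat_lit 0) (XT.lf (nat_lit 0) (nat_lit 20339527530) (nat_lit 76) (nat_lit 15894678847) (nat_lit 152) (nat_lit 29604912138) (nat_lit 39) (nat_lit 5) (nat_lit 40) (nat_lit 5) (nat_lit 41) (nat_lit 4) (nat_lit 540) (nat_lit 414) (nat_lit 246)) (XT.lf (nat_lit 0) (nat_lit 51914615103) (nat_lit 152) (nat_lit 15176451165) (nat_lit 0) (nat_lit 238116603) (nat_lit 39) (nat_lit 5) (nat_lit 41) (nat_lit 4) (nat_lit 39) (nat_lit 4) (nat_lit 541) (nat_lit 414) (nat_lit 245)))) (XT.nd (nat_lit 156) (nat_lit 76) (nat_lit 0) (XT.nd (nat_lit 78) (nat_lit 76) (nat_lit 0) (XT.lf (nat_lit 0) (nat_lit 16202735607) (nat_lit 76) (nat_lit 52169384543) (nat_lit 76) (nat_lit 482628679) (nat_lit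 38) (nat_lit 4) (nat_lit 39) (nat_lit 5) (nat_lit 39) (nat_lit 4) (nat_lit 542) (nat_lit 414) (nat_lit 244)) (XT.lf (nat_lit 0) (nat_lit 14754905181) (nat_lit 152) (nat_lit 21744256950) (nat_lit 76) (nat_lit 33918173683) (nat_lit 37) (nat_lit 5) (nat_lit 39) (nat_lit 5) (nat_lit 38) (nat_lit 4) (nat_lit 543) (nat_lit 414) (nat_lit 243))) (XT.nd (nat_lit 78) (nat_lit 0) (nat_lit 0) (XT.lf (nat_lit 0) (nat_lit 10274351757) (nat_lit 76) (nat_lit 20258029905) (nat_lit 152) (nat_lit 41491500057) (nat_lit 36) (nat_lit 5) (nat_lit 37) (nat_lit 5) (nat_lit 38) (nat_lit 4) (nat_lit 544) (nat_lit 414) (nat_lit 242)) (XT.lf (nat_lit 0) (nat_lit 43687281859) (nat_lit 76) (nat_lit 3309295391) (nat_lit 152) (nat_lit 26675645077) (nat_lit 36) (nat_lit 5) (nat_lit 37) (nat_lit 5) (nat_lit 38) (nat_lit 4) (nat_lit 545) (nat_lit 414) (nat_lit 241))))) (XT.nd (nat_lit 312) (nat_lit 0) (nat_lit 0) (XT.nd (nat_lit 156) (nat_lit 76)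 (nat_lit 0) (XT.nd (nat_lit 78) (nat_lit 76) (nat_lit 0) (XT.lf (nat_lit 0) (nat_lit 2636281598) (nat_lit 76) (nat_lit 61473703311) (nat_lit 76) (nat_lit 11255369821) (nat_lit 35) (nat_lit 4) (nat_lit 36) (nat_lit 5) (nat_lit 36) (nat_lit 4) (nat_lit 546) (nat_lit 414) (nat_lit 240)) (XT.lf (nat_lit 0) (nat_lit 4869717944) (nat_lit 152) (nat_lit 40341396443) (nat_lit 76) (nat_lit 31886857288) (nat_lit 34) (nat_lit 5) (nat_lit 36) (nat_lit 5) (nat_lit 35) (nat_lit 4) (nat_lit 547) (nat_lit 414) (nat_lit 239))) (XT.nd (nat_lit 78) (nat_lit 76) (nat_lit 0) (XT.lf (nat_lit 0) (nat_lit 21246464121) (nat_lit 152) (nat_lit 7104941880) (nat_lit 76) (nat_lit 50527994271) (nat_lit 34) (nat_lit 5) (nat_lit 36) (nat_lit 5) (nat_lit 35) (nat_lit 4) (nat_lit 548) (nat_lit 414) (nat_lit 238)) (XT.lf (nat_lit 0) (nat_lit 27657217551) (nat_lit 76) (nat_lit 10717451835) (nat_lit 152) (nat_lit 42331797785) (nat_lit 33) (nat_lit 5)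 (nat_lit 34) (nat_lit 5) (nat_lit 35) (nat_lit 4) (nat_lit 549) (nat_lit 414) (nat_lit 237)))) (XT.nd (nat_lit 52026) (nat_lit 0) (nat_lit 23864) (XT.nd (nat_lit 51948) (nat_lit 0) (nat_lit 23864) (XT.lf (nat_lit 0) (nat_lit 56155056001) (nat_lit 152) (nat_lit 19061679033) (nat_lit 0) (nat_lit 7367461128) (nat_lit 33) (nat_lit 5) (nat_lit 35) (nat_lit 4) (nat_lit 33) (nat_lit 4) (nat_lit 550) (nat_lit 414) (nat_lit 236)) (XT.lf (nat_lit 0) (nat_lit 355308421) (nat_lit 0) (nat_lit 355308421) (nat_lit 836) (nat_lit 2988613856) (nat_lit 347) (nat_lit 5) (nat_lit 347) (nat_lit 3) (nat_lit 358) (nat_lit 3) (nat_lit 415) (nat_lit 415) (nat_lit 370))) (XT.nd (nat_lit 78) (nat_lit 0) (nat_lit 0) (XT.lf (nat_lit 0) (nat_lit 2962747081) (nat_lit 836) (nat_lit 3052474894) (nat_lit 912) (nat_lit 1448174755) (nat_lit 347) (nat_lit 5) (nat_lit 358) (nat_lit 3) (nat_lit 359) (nat_lit 5) (nat_lit 416) (nat_lit 415) (nat_lit 369))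 (XT.lf (nat_lit 76) (nat_lit 666475210) (nat_lit 0) (nat_lit 3838980682) (nat_lit 912) (nat_lit 3026192737) (nat_lit 348) (nat_lit 5) (nat_lit 347) (nat_lit 5) (nat_lit 359) (nat_lit 5) (nat_lit 417) (nat_lit 415) (nat_lit 368))))))) (XT.nd (nat_lit 1170) (nat_lit 6156) (nat_lit 0) (XT.nd (nat_lit 546) (nat_lit 2812) (nat_lit 0) (XT.nd (nat_lit 234) (nat_lit 0) (nat_lit 0) (XT.nd (nat_lit 78) (nat_lit 836) (nat_lit 0) (XT.lf (nat_lit 76) (nat_lit 4528424726) (nat_lit 0) (nat_lit 1539757193) (nat_lit 912) (nat_lit 1534570597) (nat_lit 348) (nat_lit 5) (nat_lit 347) (nat_lit 5) (nat_lit 359) (nat_lit 5) (nat_lit 418) (nat_lit 415) (nat_lit 367)) (XT.nd (nat_lit 78) (nat_lit 912) (nat_lit 0) (XT.lf (nat_lit 76) (nat_lit 805848996) (nat_lit 0) (nat_lit 6832467392) (nat_lit 912) (nat_lit 38873361) (nat_lit 349) (nat_lit 5) (nat_lit 348) (nat_lit 5) (nat_lit 360) (nat_lit 5) (nat_lit 419) (nat_lit 415) (nat_lit 366))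 (XT.lf (nat_lit 0) (nat_lit 1464557803) (nat_lit 912) (nat_lit 2950403529) (nat_lit 988) (nat_lit 3338715826) (nat_lit 336) (nat_lit 5) (nat_lit 348) (nat_lit 5) (nat_lit 349) (nat_lit 5) (nat_lit 420) (nat_lit 415) (nat_lit 365)))) (XT.nd (nat_lit 156) (nat_lit 0) (nat_lit 76) (XT.nd (nat_lit 78) (nat_lit 0) (nat_lit 76) (XT.lf (nat_lit 76) (nat_lit 1076809889) (nat_lit 0) (nat_lit 1893006321) (nat_lit 988) (nat_lit 4863920933) (nat_lit 337) (nat_lit 5) (nat_lit 336) (nat_lit 5) (nat_lit 349) (nat_lit 5) (nat_lit 421) (nat_lit 415) (nat_lit 364)) (XT.lf (nat_lit 0) (nat_lit 4505674942) (nat_lit 912) (nat_lit 2670473368) (nat_lit 988) (nat_lit 740501583) (nat_lit 337) (nat_lit 5) (nat_lit 349) (nat_lit 5) (nat_lit 350) (nat_lit 5) (nat_lit 422) (nat_lit 415) (nat_lit 363))) (XT.nd (nat_lit 78) (nat_lit 0) (nat_lit 0) (XT.lf (nat_lit 76) (nat_lit 1516986543) (nat_lit 0) (nat_lit 4554026547) (nat_lit 988) (nat_lit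 1931548653) (nat_lit 338) (nat_lit 5) (nat_lit 337) (nat_lit 5) (nat_lit 350) (nat_lit 5) (nat_lit 423) (nat_lit 415) (nat_lit 362)) (XT.lf (nat_lit 76) (nat_lit 5852683621) (nat_lit 0) (nat_lit 1808818298) (nat_lit 988) (nat_lit 430216738) (nat_lit 338) (nat_lit 5) (nat_lit 337) (nat_lit 5) (nat_lit 350) (nat_lit 5) (nat_lit 424) (nat_lit 415) (nat_lit 361))))) (XT.nd (nat_lit 312) (nat_lit 1976) (nat_lit 0) (XT.nd (nat_lit 156) (nat_lit 0) (nat_lit 0) (XT.nd (nat_lit 78) (nat_lit 0) (nat_lit 0) (XT.lf (nat_lit 0) (nat_lit 1077300709) (nat_lit 988) (nat_lit 6060663977) (nat_lit 1064) (nat_lit 1045788598) (nat_lit 325) (nat_lit 5) (nat_lit 338) (nat_lit 5) (nat_lit 339) (nat_lit 5) (nat_lit 425) (nat_lit 415) (nat_lit 360)) (XT.lf (nat_lit 0) (nat_lit 2615533094) (nat_lit 988) (nat_lit 1671688213) (nat_lit 1064) (nat_lit 3991388050) (nat_lit 325) (nat_lit 5) (nat_lit 338) (nat_lit 5) (nat_lit 339) (nat_lit 5) (nat_lit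 426) (nat_lit 415) (nat_lit 359))) (XT.nd (nat_lit 78) (nat_lit 0) (nat_lit 76) (XT.lf (nat_lit 76) (nat_lit 2872583664) (nat_lit 0) (nat_lit 1309692815) (nat_lit 1064) (nat_lit 4194575640) (nat_lit 326) (nat_lit 5) (nat_lit 325) (nat_lit 5) (nat_lit 339) (nat_lit 5) (nat_lit 427) (nat_lit 415) (nat_lit 358)) (XT.lf (nat_lit 0) (nat_lit 5785837862) (nat_lit 988) (nat_lit 940707190) (nat_lit 1064) (nat_lit 1751814221) (nat_lit 326) (nat_lit 5) (nat_lit 339) (nat_lit 5) (nat_lit 340) (nat_lit 5) (nat_lit 428) (nat_lit 415) (nat_lit 357)))) (XT.nd (nat_lit 156) (nat_lit 988) (nat_lit 0) (XT.nd (nat_lit 78) (nat_lit 1064) (nat_lit 0) (XT.lf (nat_lit 76) (nat_lit 3788126198) (nat_lit 0) (nat_lit 3655922942) (nat_lit 1064) (nat_lit 1138677453) (nat_lit 327) (nat_lit 5) (nat_lit 326) (nat_lit 5) (nat_lit 340) (nat_lit 5) (nat_lit 429) (nat_lit 415) (nat_lit 356)) (XT.lf (nat_lit 0) (nat_lit 420038131) (nat_lit 1064) (nat_lit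 49485701) (nat_lit 1140) (nat_lit 8221560511) (nat_lit 312) (nat_lit 5) (nat_lit 326) (nat_lit 5) (nat_lit 327) (nat_lit 5) (nat_lit 430) (nat_lit 415) (nat_lit 355))) (XT.nd (nat_lit 78) (nat_lit 1064) (nat_lit 0) (XT.lf (nat_lit 0) (nat_lit 2036239175) (nat_lit 1064) (nat_lit 3939912466) (nat_lit 76) (nat_lit 2825204942) (nat_lit 313) (nat_lit 5) (nat_lit 327) (nat_lit 5) (nat_lit 314) (nat_lit 5) (nat_lit 431) (nat_lit 415) (nat_lit 354)) (XT.lf (nat_lit 0) (nat_lit 987268280) (nat_lit 1064) (nat_lit 2688179575) (nat_lit 1140) (nat_lit 5240263478) (nat_lit 299) (nat_lit 5) (nat_lit 313) (nat_lit 5) (nat_lit 314) (nat_lit 5) (nat_lit 432) (nat_lit 415) (nat_lit 353)))))) (XT.nd (nat_lit 546) (nat_lit 2356) (nat_lit 0) (XT.nd (nat_lit 234) (nat_lit 2660) (nat_lit 0) (XT.nd (nat_lit 78) (nat_lit 1140) (nat_lit 0) (XT.lf (nat_lit 0) (nat_lit 5371519074) (nat_lit 1140) (nat_lit 2930444406) (nat_lit 76) (nat_lit 731312354)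 (nat_lit 299) (nat_lit 5) (nat_lit 314) (nat_lit 5) (nat_lit 300) (nat_lit 5) (nat_lit 433) (nat_lit 415) (nat_lit 352)) (XT.nd (nat_lit 78) (nat_lit 0) (nat_lit 0) (XT.lf (nat_lit 0) (nat_lit 2200752915) (nat_lit 1140) (nat_lit 4927425303) (nat_lit 1216) (nat_lit 2025907295) (nat_lit 284) (nat_lit 5) (nat_lit 299) (nat_lit 5) (nat_lit 300) (nat_lit 5) (nat_lit 434) (nat_lit 415) (nat_lit 351)) (XT.lf (nat_lit 0) (nat_lit 7513211351) (nat_lit 1140) (nat_lit 1416646602) (nat_lit 1216) (nat_lit 348901045) (nat_lit 284) (nat_lit 5) (nat_lit 299) (nat_lit 5) (nat_lit 300) (nat_lit 5) (nat_lit 435) (nat_lit 415) (nat_lit 350)))) (XT.nd (nat_lit 156) (nat_lit 1368) (nat_lit 0) (XT.nd (nat_lit 78) (nat_lit 0) (nat_lit 0) (XT.lf (nat_lit 0) (nat_lit 1371248799) (nat_lit 1292) (nat_lit 5826108870) (nat_lit 76) (nat_lit 2208834193) (nat_lit 267) (nat_lit 5) (nat_lit 284) (nat_lit 5) (nat_lit 268) (nat_lit 5) (nat_lit 436)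 (nat_lit 415) (nat_lit 349)) (XT.lf (nat_lit 0) (nat_lit 3132259034) (nat_lit 1292) (nat_lit 465621720) (nat_lit 76) (nat_lit 5939583636) (nat_lit 267) (nat_lit 5) (nat_lit 284) (nat_lit 5) (nat_lit 268) (nat_lit 5) (nat_lit 437) (nat_lit 415) (nat_lit 348))) (XT.nd (nat_lit 78) (nat_lit 608) (nat_lit 0) (XT.lf (nat_lit 0) (nat_lit 4962190359) (nat_lit 836) (nat_lit 4550512612) (nat_lit 76) (nat_lit 159497522) (nat_lit 257) (nat_lit 5) (nat_lit 268) (nat_lit 5) (nat_lit 258) (nat_lit 5) (nat_lit 438) (nat_lit 415) (nat_lit 347)) (XT.lf (nat_lit 0) (nat_lit 1026601704) (nat_lit 608) (nat_lit 5836658400) (nat_lit 684) (nat_lit 2947239245) (nat_lit 249) (nat_lit 5) (nat_lit 257) (nat_lit 5) (nat_lit 258) (nat_lit 5) (nat_lit 439) (nat_lit 415) (nat_lit 346))))) (XT.nd (nat_lit 312) (nat_lit 1140) (nat_lit 0) (XT.nd (nat_lit 156) (nat_lit 532) (nat_lit 0) (XT.nd (nat_lit 78) (nat_lit 684) (nat_lit 0) (XT.lf (nat_lit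 0) (nat_lit 6831549074) (nat_lit 608) (nat_lit 2002440613) (nat_lit 684) (nat_lit 1118586309) (nat_lit 249) (nat_lit 5) (nat_lit 257) (nat_lit 5) (nat_lit 258) (nat_lit 5) (nat_lit 440) (nat_lit 415) (nat_lit 345)) (XT.lf (nat_lit 0) (nat_lit 762562533) (nat_lit 684) (nat_lit 7392855787) (nat_lit 76) (nat_lit 1942906365) (nat_lit 240) (nat_lit 5) (nat_lit 249) (nat_lit 5) (nat_lit 241) (nat_lit 5) (nat_lit 441) (nat_lit 415) (nat_lit 344))) (XT.nd (nat_lit 78) (nat_lit 532) (nat_lit 0) (XT.lf (nat_lit 0) (nat_lit 2697279068) (nat_lit 684) (nat_lit 1541089700) (nat_lit 76) (nat_lit 6009163349) (nat_lit 240) (nat_lit 5) (nat_lit 249) (nat_lit 5) (nat_lit 241) (nat_lit 5) (nat_lit 442) (nat_lit 415) (nat_lit 343)) (XT.lf (nat_lit 0) (nat_lit 4542725134) (nat_lit 532) (nat_lit 159873850) (nat_lit 608) (nat_lit 5698246733) (nat_lit 233) (nat_lit 5) (nat_lit 240) (nat_lit 5) (nat_lit 241) (nat_lit 5) (nat_lit 443) (nat_lit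 415) (nat_lit 342)))) (XT.nd (nat_lit 156) (nat_lit 608) (nat_lit 0) (XT.nd (nat_lit 78) (nat_lit 0) (nat_lit 0) (XT.lf (nat_lit 0) (nat_lit 214803575) (nat_lit 532) (nat_lit 6579381786) (nat_lit 608) (nat_lit 3763796763) (nat_lit 226) (nat_lit 5) (nat_lit 233) (nat_lit 5) (nat_lit 234) (nat_lit 5) (nat_lit 444) (nat_lit 415) (nat_lit 341)) (XT.lf (nat_lit 0) (nat_lit 6555964808) (nat_lit 532) (nat_lit 2423336312) (nat_lit 608) (nat_lit 1739614461) (nat_lit 226) (nat_lit 5) (nat_lit 233) (nat_lit 5) (nat_lit 234) (nat_lit 5) (nat_lit 445) (nat_lit 415) (nat_lit 340))) (XT.nd (nat_lit 78) (nat_lit 0) (nat_lit 0) (XT.lf (nat_lit 0) (nat_lit 348512032) (nat_lit 608) (nat_lit 8692468519) (nat_lit 76) (nat_lit 1843304261) (nat_lit 218) (nat_lit 5) (nat_lit 226) (nat_lit 5) (nat_lit 219) (nat_lit 5) (nat_lit 446) (nat_lit 415) (nat_lit 339)) (XT.lf (nat_lit 0) (nat_lit 2501923828) (nat_lit 608) (nat_lit 2305020417) (nat_lit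 76) (nat_lit 6246031843) (nat_lit 218) (nat_lit 5) (nat_lit 226) (nat_lit 5) (nat_lit 219) (nat_lit 5) (nat_lit 447) (nat_lit 415) (nat_lit 338))))))))
noncomputable def xc133 : XT := (XT.nd (nat_lit 2340) (nat_lit 4180) (nat_lit 0) (XT.nd (nat_lit 1170) (nat_lit 2888) (nat_lit 0) (XT.nd (nat_lit 546) (nat_lit 2128) (nat_lit 0) (XT.nd (nat_lit 234) (nat_lit 988) (nat_lit 0) (XT.nd (nat_lit 78) (nat_lit 456) (nat_lit 0) (XT.lf (nat_lit 0) (nat_lit 4326837030) (nat_lit 532) (nat_lit 406691940) (nat_lit 608) (nat_lit 6492797098) (nat_lit 211) (nat_lit 5) (nat_lit 218) (nat_lit 5) (nat_lit 219) (nat_lit 5) (nat_lit 448) (nat_lit 415) (nat_lit 337)) (XT.nd (nat_lit 78) (nat_lit 456) (nat_lit 0) (XT.lf (nat_lit 0) (nat_lit 7067722532) (nat_lit 608) (nat_lit 271294495) (nat_lit 76) (nat_lit 4064795845) (nat_lit 211) (nat_lit 5) (nat_lit 219) (nat_lit 5) (nat_lit 212) (nat_lit 5) (nat_lit 449) (nat_lit 415) (nat_lit 336))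 (XT.lf (nat_lit 0) (nat_lit 6650297132) (nat_lit 456) (nat_lit 2862875947) (nat_lit 532) (nat_lit 2072219634) (nat_lit 205) (nat_lit 5) (nat_lit 211) (nat_lit 5) (nat_lit 212) (nat_lit 5) (nat_lit 450) (nat_lit 415) (nat_lit 335)))) (XT.nd (nat_lit 156) (nat_lit 456) (nat_lit 0) (XT.nd (nat_lit 78) (nat_lit 0) (nat_lit 0) (XT.lf (nat_lit 0) (nat_lit 267158680) (nat_lit 532) (nat_lit 9771275764) (nat_lit 76) (nat_lit 1733536017) (nat_lit 198) (nat_lit 5) (nat_lit 205) (nat_lit 5) (nat_lit 199) (nat_lit 5) (nat_lit 451) (nat_lit 415) (nat_lit 334)) (XT.lf (nat_lit 0) (nat_lit 2687660695) (nat_lit 532) (nat_lit 2798132079) (nat_lit 76) (nat_lit 6476164412) (nat_lit 198) (nat_lit 5) (nat_lit 205) (nat_lit 5) (nat_lit 199) (nat_lit 5) (nat_lit 452) (nat_lit 415) (nat_lit 333))) (XT.nd (nat_lit 78) (nat_lit 0) (nat_lit 0) (XT.lf (nat_lit 0) (nat_lit 4439923314) (nat_lit 456) (nat_lit 758211779) (nat_lit 532) (nat_lit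 6958992472) (nat_lit 192) (nat_lit 5) (nat_lit 198) (nat_lit 5) (nat_lit 199) (nat_lit 5) (nat_lit 453) (nat_lit 415) (nat_lit 332)) (XT.lf (nat_lit 0) (nat_lit 7827044568) (nat_lit 532) (nat_lit 475939313) (nat_lit 76) (nat_lit 4053880180) (nat_lit 192) (nat_lit 5) (nat_lit 199) (nat_lit 5) (nat_lit 193) (nat_lit 5) (nat_lit 454) (nat_lit 415) (nat_lit 331))))) (XT.nd (nat_lit 312) (nat_lit 836) (nat_lit 0) (XT.nd (nat_lit 156) (nat_lit 380) (nat_lit 0) (XT.nd (nat_lit 78) (nat_lit 456) (nat_lit 0) (XT.lf (nat_lit 0) (nat_lit 7082866662) (nat_lit 456) (nat_lit 3503338889) (nat_lit 532) (nat_lit 1974850071) (nat_lit 186) (nat_lit 5) (nat_lit 192) (nat_lit 5) (nat_lit 193) (nat_lit 5) (nat_lit 455) (nat_lit 415) (nat_lit 330)) (XT.lf (nat_lit 0) (nat_lit 659162112) (nat_lit 456) (nat_lit 10674033435) (nat_lit 76) (nat_lit 1437535938) (nat_lit 180) (nat_lit 5) (nat_lit 186) (nat_lit 5) (nat_lit 181) (nat_lit 5) (nat_lit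 456) (nat_lit 415) (nat_lit 329))) (XT.nd (nat_lit 78) (nat_lit 380) (nat_lit 0) (XT.lf (nat_lit 0) (nat_lit 3399368285) (nat_lit 456) (nat_lit 3059631528) (nat_lit 76) (nat_lit 6525109352) (nat_lit 180) (nat_lit 5) (nat_lit 186) (nat_lit 5) (nat_lit 181) (nat_lit 5) (nat_lit 457) (nat_lit 415) (nat_lit 328)) (XT.lf (nat_lit 0) (nat_lit 4847765388) (nat_lit 380) (nat_lit 1397617805) (nat_lit 456) (nat_lit 6957800898) (nat_lit 175) (nat_lit 5) (nat_lit 180) (nat_lit 5) (nat_lit 181) (nat_lit 5) (nat_lit 458) (nat_lit 415) (nat_lit 327)))) (XT.nd (nat_lit 156) (nat_lit 456) (nat_lit 0) (XT.nd (nat_lit 78) (nat_lit 380) (nat_lit 0) (XT.lf (nat_lit 0) (nat_lit 9221976969) (nat_lit 456) (nat_lit 440138285) (nat_lit 76) (nat_lit 3765363941) (nat_lit 175) (nat_lit 5) (nat_lit 181) (nat_lit 5) (nat_lit 176) (nat_lit 5) (nat_lit 459) (nat_lit 415) (nat_lit 326)) (XT.lf (nat_lit 0) (nat_lit 7821927081) (nat_lit 380) (nat_lit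 4532947354) (nat_lit 456) (nat_lit 1301622305) (nat_lit 170) (nat_lit 5) (nat_lit 175) (nat_lit 5) (nat_lit 176) (nat_lit 5) (nat_lit 460) (nat_lit 415) (nat_lit 325))) (XT.nd (nat_lit 78) (nat_lit 0) (nat_lit 0) (XT.lf (nat_lit 0) (nat_lit 1670149074) (nat_lit 456) (nat_lit 11448749377) (nat_lit 76) (nat_lit 772590508) (nat_lit 164) (nat_lit 5) (nat_lit 170) (nat_lit 5) (nat_lit 165) (nat_lit 5) (nat_lit 461) (nat_lit 415) (nat_lit 324)) (XT.lf (nat_lit 0) (nat_lit 4787696036) (nat_lit 456) (nat_lit 3132047104) (nat_lit 76) (nat_lit 6210921117) (nat_lit 164) (nat_lit 5) (nat_lit 170) (nat_lit 5) (nat_lit 165) (nat_lit 5) (nat_lit 462) (nat_lit 415) (nat_lit 323)))))) (XT.nd (nat_lit 546) (nat_lit 1216) (nat_lit 0) (XT.nd (nat_lit 234) (nat_lit 912) (nat_lit 0) (XT.nd (nat_lit 78) (nat_lit 456) (nat_lit 0) (XT.lf (nat_lit 0) (nat_lit 5512696378) (nat_lit 304) (nat_lit 2518095539) (nat_lit 380) (nat_lit 6345265567)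 (nat_lit 160) (nat_lit 5) (nat_lit 164) (nat_lit 5) (nat_lit 165) (nat_lit 5) (nat_lit 463) (nat_lit 415) (nat_lit 322)) (XT.nd (nat_lit 78) (nat_lit 456) (nat_lit 0) (XT.lf (nat_lit 0) (nat_lit 11411685056) (nat_lit 380) (nat_lit 205759032) (nat_lit 76) (nat_lit 3010156538) (nat_lit 160) (nat_lit 5) (nat_lit 165) (nat_lit 5) (nat_lit 161) (nat_lit 5) (nat_lit 464) (nat_lit 415) (nat_lit 321)) (XT.lf (nat_lit 0) (nat_lit 97764026) (nat_lit 456) (nat_lit 6054444768) (nat_lit 76) (nat_lit 8731764466) (nat_lit 154) (nat_lit 5) (nat_lit 160) (nat_lit 5) (nat_lit 155) (nat_lit 5) (nat_lit 465) (nat_lit 415) (nat_lit 320)))) (XT.nd (nat_lit 156) (nat_lit 608) (nat_lit 0) (XT.nd (nat_lit 78) (nat_lit 0) (nat_lit 0) (XT.lf (nat_lit 0) (nat_lit 2990041951) (nat_lit 304) (nat_lit 467022609) (nat_lit 380) (nat_lit 11689694846) (nat_lit 150) (nat_lit 5) (nat_lit 154) (nat_lit 5) (nat_lit 155) (nat_lit 5) (nat_lit 466) (nat_lit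 415) (nat_lit 319)) (XT.lf (nat_lit 0) (nat_lit 7010921763) (nat_lit 380) (nat_lit 3066818216) (nat_lit 76) (nat_lit 5336878712) (nat_lit 150) (nat_lit 5) (nat_lit 155) (nat_lit 5) (nat_lit 151) (nat_lit 5) (nat_lit 467) (nat_lit 415) (nat_lit 318))) (XT.nd (nat_lit 78) (nat_lit 304) (nat_lit 0) (XT.lf (nat_lit 0) (nat_lit 6387850899) (nat_lit 304) (nat_lit 4330382029) (nat_lit 380) (nat_lit 4970878483) (nat_lit 146) (nat_lit 5) (nat_lit 150) (nat_lit 5) (nat_lit 151) (nat_lit 5) (nat_lit 468) (nat_lit 415) (nat_lit 317)) (XT.lf (nat_lit 0) (nat_lit 177838148) (nat_lit 304) (nat_lit 14388207262) (nat_lit 380) (nat_lit 1404917765) (nat_lit 142) (nat_lit 5) (nat_lit 146) (nat_lit 5) (nat_lit 147) (nat_lit 5) (nat_lit 469) (nat_lit 415) (nat_lit 316))))) (XT.nd (nat_lit 312) (nat_lit 608) (nat_lit 0) (XT.nd (nat_lit 156) (nat_lit 228) (nat_lit 0) (XT.nd (nat_lit 78) (nat_lit 304) (nat_lit 0) (XT.lf (nat_lit 0) (nat_lit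 2342609842) (nat_lit 380) (nat_lit 6220349416) (nat_lit 76) (nat_lit 7694094388) (nat_lit 141) (nat_lit 5) (nat_lit 146) (nat_lit 5) (nat_lit 142) (nat_lit 5) (nat_lit 470) (nat_lit 415) (nat_lit 315)) (XT.lf (nat_lit 0) (nat_lit 3669868512) (nat_lit 304) (nat_lit 2521400192) (nat_lit 380) (nat_lit 10359535030) (nat_lit 137) (nat_lit 5) (nat_lit 141) (nat_lit 5) (nat_lit 142) (nat_lit 5) (nat_lit 471) (nat_lit 415) (nat_lit 314))) (XT.nd (nat_lit 78) (nat_lit 228) (nat_lit 0) (XT.lf (nat_lit 0) (nat_lit 10236253803) (nat_lit 380) (nat_lit 2931010805) (nat_lit 76) (nat_lit 3683678138) (nat_lit 137) (nat_lit 5) (nat_lit 142) (nat_lit 5) (nat_lit 138) (nat_lit 5) (nat_lit 472) (nat_lit 415) (nat_lit 313)) (XT.lf (nat_lit 0) (nat_lit 7410221035) (nat_lit 228) (nat_lit 7070943017) (nat_lit 304) (nat_lit 2676566957) (nat_lit 134) (nat_lit 5) (nat_lit 137) (nat_lit 5) (nat_lit 138) (nat_lit 5) (nat_lit 473) (nat_lit 415)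 (nat_lit 312)))) (XT.nd (nat_lit 156) (nat_lit 228) (nat_lit 0) (XT.nd (nat_lit 78) (nat_lit 0) (nat_lit 0) (XT.lf (nat_lit 0) (nat_lit 620577556) (nat_lit 304) (nat_lit 750517513) (nat_lit 380) (nat_lit 16101682609) (nat_lit 129) (nat_lit 5) (nat_lit 133) (nat_lit 5) (nat_lit 134) (nat_lit 5) (nat_lit 474) (nat_lit 415) (nat_lit 311)) (XT.lf (nat_lit 0) (nat_lit 5623787883) (nat_lit 380) (nat_lit 6404720941) (nat_lit 76) (nat_lit 5763852132) (nat_lit 129) (nat_lit 5) (nat_lit 134) (nat_lit 5) (nat_lit 130) (nat_lit 5) (nat_lit 475) (nat_lit 415) (nat_lit 310))) (XT.nd (nat_lit 78) (nat_lit 0) (nat_lit 0) (XT.lf (nat_lit 0) (nat_lit 4408484968) (nat_lit 228) (nat_lit 5628518349) (nat_lit 304) (nat_lit 8083542246) (nat_lit 126) (nat_lit 5) (nat_lit 129) (nat_lit 5) (nat_lit 130) (nat_lit 5) (nat_lit 476) (nat_lit 415) (nat_lit 309)) (XT.lf (nat_lit 0) (nat_lit 14640476623) (nat_lit 304) (nat_lit 2815604490) (nat_lit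 76) (nat_lit 1000760778) (nat_lit 126) (nat_lit 5) (nat_lit 130) (nat_lit 5) (nat_lit 127) (nat_lit 5) (nat_lit 477) (nat_lit 415) (nat_lit 308))))))) (XT.nd (nat_lit 1170) (nat_lit 1900) (nat_lit 0) (XT.nd (nat_lit 546) (nat_lit 912) (nat_lit 0) (XT.nd (nat_lit 234) (nat_lit 760) (nat_lit 0) (XT.nd (nat_lit 78) (nat_lit 228) (nat_lit 0) (XT.lf (nat_lit 0) (nat_lit 689859429) (nat_lit 380) (nat_lit 10314305086) (nat_lit 76) (nat_lit 7795227759) (nat_lit 121) (nat_lit 5) (nat_lit 126) (nat_lit 5) (nat_lit 122) (nat_lit 5) (nat_lit 478) (nat_lit 415) (nat_lit 307)) (XT.nd (nat_lit 78) (nat_lit 0) (nat_lit 0) (XT.lf (nat_lit 0) (nat_lit 986588847) (nat_lit 228) (nat_lit 4290013469) (nat_lit 304) (nat_lit 13873824032) (nat_lit 118) (nat_lit 5) (nat_lit 121) (nat_lit 5) (nat_lit 122) (nat_lit 5) (nat_lit 479) (nat_lit 415) (nat_lit 306)) (XT.lf (nat_lit 0) (nat_lit 10115344564) (nat_lit 304) (nat_lit 6723075662) (nat_lit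 76) (nat_lit 2670141106) (nat_lit 118) (nat_lit 5) (nat_lit 122) (nat_lit 5) (nat_lit 119) (nat_lit 5) (nat_lit 480) (nat_lit 415) (nat_lit 305)))) (XT.nd (nat_lit 156) (nat_lit 456) (nat_lit 0) (XT.nd (nat_lit 78) (nat_lit 76) (nat_lit 0) (XT.lf (nat_lit 0) (nat_lit 5092682217) (nat_lit 228) (nat_lit 10082436098) (nat_lit 304) (nat_lit 4700047718) (nat_lit 115) (nat_lit 5) (nat_lit 118) (nat_lit 5) (nat_lit 119) (nat_lit 5) (nat_lit 481) (nat_lit 415) (nat_lit 304)) (XT.lf (nat_lit 0) (nat_lit 184365576) (nat_lit 304) (nat_lit 2877154124) (nat_lit 76) (nat_lit 17189620333) (nat_lit 114) (nat_lit 5) (nat_lit 118) (nat_lit 5) (nat_lit 115) (nat_lit 5) (nat_lit 482) (nat_lit 415) (nat_lit 303))) (XT.nd (nat_lit 78) (nat_lit 228) (nat_lit 0) (XT.lf (nat_lit 0) (nat_lit 5238473042) (nat_lit 304) (nat_lit 11176354001) (nat_lit 76) (nat_lit 4218642910) (nat_lit 111) (nat_lit 5) (nat_lit 115) (nat_lit 5) (nat_lit 112)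 (nat_lit 5) (nat_lit 483) (nat_lit 415) (nat_lit 302)) (XT.lf (nat_lit 0) (nat_lit 1161484863) (nat_lit 228) (nat_lit 9338604251) (nat_lit 304) (nat_lit 10525505649) (nat_lit 108) (nat_lit 5) (nat_lit 111) (nat_lit 5) (nat_lit 112) (nat_lit 5) (nat_lit 484) (nat_lit 415) (nat_lit 301))))) (XT.nd (nat_lit 312) (nat_lit 456) (nat_lit 0) (XT.nd (nat_lit 156) (nat_lit 304) (nat_lit 0) (XT.nd (nat_lit 78) (nat_lit 152) (nat_lit 0) (XT.lf (nat_lit 0) (nat_lit 14074229167) (nat_lit 228) (nat_lit 1943451915) (nat_lit 304) (nat_lit 5408859919) (nat_lit 108) (nat_lit 5) (nat_lit 111) (nat_lit 5) (nat_lit 112) (nat_lit 5) (nat_lit 485) (nat_lit 415) (nat_lit 300)) (XT.lf (nat_lit 0) (nat_lit 5564928079) (nat_lit 152) (nat_lit 16229511525) (nat_lit 228) (nat_lit 42268319) (nat_lit 106) (nat_lit 5) (nat_lit 108) (nat_lit 5) (nat_lit 109) (nat_lit 5) (nat_lit 486) (nat_lit 415) (nat_lit 299))) (XT.nd (nat_lit 78) (nat_lit 228)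 (nat_lit 0) (XT.lf (nat_lit 0) (nat_lit 5458160475) (nat_lit 228) (nat_lit 3333275688) (nat_lit 76) (nat_lit 13463766888) (nat_lit 105) (nat_lit 5) (nat_lit 108) (nat_lit 5) (nat_lit 106) (nat_lit 5) (nat_lit 487) (nat_lit 415) (nat_lit 298)) (XT.lf (nat_lit 0) (nat_lit 10168062088) (nat_lit 228) (nat_lit 1038506592) (nat_lit 304) (nat_lit 11477158652) (nat_lit 102) (nat_lit 5) (nat_lit 105) (nat_lit 5) (nat_lit 106) (nat_lit 5) (nat_lit 488) (nat_lit 415) (nat_lit 297)))) (XT.nd (nat_lit 156) (nat_lit 304) (nat_lit 0) (XT.nd (nat_lit 78) (nat_lit 0) (nat_lit 0) (XT.lf (nat_lit 0) (nat_lit 946617453) (nat_lit 152) (nat_lit 16276851124) (nat_lit 228) (nat_lit 5898758881) (nat_lit 100) (nat_lit 5) (nat_lit 102) (nat_lit 5) (nat_lit 103) (nat_lit 5) (nat_lit 489) (nat_lit 415) (nat_lit 296)) (XT.lf (nat_lit 0) (nat_lit 15035656558) (nat_lit 152) (nat_lit 8508132286) (nat_lit 228) (nat_lit 26407605) (nat_lit 100) (nat_lit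 5) (nat_lit 102) (nat_lit 5) (nat_lit 103) (nat_lit 5) (nat_lit 490) (nat_lit 415) (nat_lit 295))) (XT.nd (nat_lit 78) (nat_lit 0) (nat_lit 0) (XT.lf (nat_lit 0) (nat_lit 5543266776) (nat_lit 228) (nat_lit 401233015) (nat_lit 304) (nat_lit 18084172298) (nat_lit 96) (nat_lit 5) (nat_lit 99) (nat_lit 5) (nat_lit 100) (nat_lit 5) (nat_lit 491) (nat_lit 415) (nat_lit 294)) (XT.lf (nat_lit 0) (nat_lit 12244145261) (nat_lit 304) (nat_lit 4380344259) (nat_lit 76) (nat_lit 7871901541) (nat_lit 96) (nat_lit 5) (nat_lit 100) (nat_lit 5) (nat_lit 97) (nat_lit 5) (nat_lit 492) (nat_lit 415) (nat_lit 293)))))) (XT.nd (nat_lit 624) (nat_lit 912) (nat_lit 0) (XT.nd (nat_lit 312) (nat_lit 380) (nat_lit 0) (XT.nd (nat_lit 156) (nat_lit 152) (nat_lit 0) (XT.nd (nat_lit 78) (nat_lit 304) (nat_lit 0) (XT.lf (nat_lit 0) (nat_lit 10323142682) (nat_lit 152) (nat_lit 8499926627) (nat_lit 228) (nat_lit 6152364736) (nat_lit 94) (nat_lit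 5) (nat_lit 96) (nat_lit 5) (nat_lit 97) (nat_lit 5) (nat_lit 493) (nat_lit 415) (nat_lit 292)) (XT.lf (nat_lit 0) (nat_lit 67393438) (nat_lit 228) (nat_lit 93013074) (nat_lit 304) (nat_lit 25307432012) (nat_lit 90) (nat_lit 5) (nat_lit 93) (nat_lit 5) (nat_lit 94) (nat_lit 5) (nat_lit 494) (nat_lit 415) (nat_lit 291))) (XT.nd (nat_lit 78) (nat_lit 152) (nat_lit 0) (XT.lf (nat_lit 0) (nat_lit 6757867385) (nat_lit 304) (nat_lit 10608581933) (nat_lit 76) (nat_lit 8600170522) (nat_lit 90) (nat_lit 5) (nat_lit 94) (nat_lit 5) (nat_lit 91) (nat_lit 5) (nat_lit 495) (nat_lit 415) (nat_lit 290)) (XT.lf (nat_lit 0) (nat_lit 4696093845) (nat_lit 152) (nat_lit 8890789719) (nat_lit 228) (nat_lit 12892473082) (nat_lit 88) (nat_lit 5) (nat_lit 90) (nat_lit 5) (nat_lit 91) (nat_lit 5) (nat_lit 496) (nat_lit 415) (nat_lit 289)))) (XT.nd (nat_lit 156) (nat_lit 152) (nat_lit 0) (XT.nd (nat_lit 78) (nat_lit 228) (nat_lit 0) (XT.lf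 (nat_lit 0) (nat_lit 20655927728) (nat_lit 152) (nat_lit 59693115) (nat_lit 228) (nat_lit 6289010163) (nat_lit 88) (nat_lit 5) (nat_lit 90) (nat_lit 5) (nat_lit 91) (nat_lit 5) (nat_lit 497) (nat_lit 415) (nat_lit 288)) (XT.lf (nat_lit 0) (nat_lit 671629137) (nat_lit 228) (nat_lit 17918399140) (nat_lit 76) (nat_lit 8950416191) (nat_lit 85) (nat_lit 5) (nat_lit 88) (nat_lit 5) (nat_lit 86) (nat_lit 5) (nat_lit 498) (nat_lit 415) (nat_lit 287))) (XT.nd (nat_lit 78) (nat_lit 152) (nat_lit 0) (XT.lf (nat_lit 0) (nat_lit 7768047176) (nat_lit 228) (nat_lit 1972971880) (nat_lit 76) (nat_lit 18347845266) (nat_lit 85) (nat_lit 5) (nat_lit 88) (nat_lit 5) (nat_lit 86) (nat_lit 5) (nat_lit 499) (nat_lit 415) (nat_lit 286)) (XT.lf (nat_lit 0) (nat_lit 14717496733) (nat_lit 152) (nat_lit 489710542) (nat_lit 228) (nat_lit 13442634871) (nat_lit 83) (nat_lit 5) (nat_lit 85) (nat_lit 5) (nat_lit 86) (nat_lit 5) (nat_lit 500) (nat_lit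 415) (nat_lit 285))))) (XT.nd (nat_lit 312) (nat_lit 532) (nat_lit 0) (XT.nd (nat_lit 156) (nat_lit 152) (nat_lit 0) (XT.nd (nat_lit 78) (nat_lit 76) (nat_lit 0) (XT.lf (nat_lit 0) (nat_lit 2666444649) (nat_lit 152) (nat_lit 20324173511) (nat_lit 228) (nat_lit 6233399699) (nat_lit 81) (nat_lit 5) (nat_lit 83) (nat_lit 5) (nat_lit 84) (nat_lit 5) (nat_lit 501) (nat_lit 415) (nat_lit 284)) (XT.lf (nat_lit 0) (nat_lit 1304242578) (nat_lit 228) (nat_lit 9800702060) (nat_lit 76) (nat_lit 18706069438) (nat_lit 80) (nat_lit 5) (nat_lit 83) (nat_lit 5) (nat_lit 81) (nat_lit 5) (nat_lit 502) (nat_lit 415) (nat_lit 283))) (XT.nd (nat_lit 78) (nat_lit 0) (nat_lit 0) (XT.lf (nat_lit 0) (nat_lit 7523977485) (nat_lit 152) (nat_lit 1479874128) (nat_lit 228) (nat_lit 21408084145) (nat_lit 78) (nat_lit 5) (nat_lit 80) (nat_lit 5) (nat_lit 81) (nat_lit 5) (nat_lit 503) (nat_lit 415) (nat_lit 282)) (XT.lf (nat_lit 0) (nat_lit 17104318437)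 (nat_lit 228) (nat_lit 5560719470) (nat_lit 76) (nat_lit 8360751839) (nat_lit 78) (nat_lit 5) (nat_lit 81) (nat_lit 5) (nat_lit 79) (nat_lit 5) (nat_lit 504) (nat_lit 415) (nat_lit 281)))) (XT.nd (nat_lit 156) (nat_lit 304) (nat_lit 0) (XT.nd (nat_lit 78) (nat_lit 76) (nat_lit 0) (XT.lf (nat_lit 0) (nat_lit 12496057995) (nat_lit 152) (nat_lit 13075687505) (nat_lit 228) (nat_lit 6082596188) (nat_lit 76) (nat_lit 5) (nat_lit 78) (nat_lit 5) (nat_lit 79) (nat_lit 5) (nat_lit 505) (nat_lit 415) (nat_lit 280)) (XT.lf (nat_lit 0) (nat_lit 1998490921) (nat_lit 228) (nat_lit 1130730658) (nat_lit 76) (nat_lit 29170577816) (nat_lit 75) (nat_lit 5) (nat_lit 78) (nat_lit 5) (nat_lit 76) (nat_lit 5) (nat_lit 506) (nat_lit 415) (nat_lit 279))) (XT.nd (nat_lit 78) (nat_lit 152) (nat_lit 0) (XT.lf (nat_lit 0) (nat_lit 10430050140) (nat_lit 228) (nat_lit 15324656935) (nat_lit 76) (nat_lit 7201198897) (nat_lit 73) (nat_lit 5) (nat_lit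 76) (nat_lit 5) (nat_lit 74) (nat_lit 5) (nat_lit 507) (nat_lit 415) (nat_lit 278)) (XT.lf (nat_lit 0) (nat_lit 3363480163) (nat_lit 152) (nat_lit 15815478490) (nat_lit 228) (nat_lit 14450805653) (nat_lit 71) (nat_lit 5) (nat_lit 73) (nat_lit 5) (nat_lit 74) (nat_lit 5) (nat_lit 508) (nat_lit 415) (nat_lit 277))))))))
noncomputable def xc134 : XT := (XT.nd (nat_lit 2340) (nat_lit 684) (nat_lit 0) (XT.nd (nat_lit 1170) (nat_lit 912) (nat_lit 0) (XT.nd (nat_lit 546) (nat_lit 608) (nat_lit 0) (XT.nd (nat_lit 234) (nat_lit 456) (nat_lit 0) (XT.nd (nat_lit 78) (nat_lit 228) (nat_lit 0) (XT.lf (nat_lit 0) (nat_lit 22907616017) (nat_lit 152) (nat_lit 5427148061) (nat_lit 228) (nat_lit 5984742047) (nat_lit 71) (nat_lit 5) (nat_lit 73) (nat_lit 5) (nat_lit 74) (nat_lit 5) (nat_lit 509) (nat_lit 415) (nat_lit 276)) (XT.nd (nat_lit 78) (nat_lit 0) (nat_lit 0) (XT.lf (nat_lit 0) (nat_lit 2801520873) (nat_lit 228) (nat_lit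 26956863338) (nat_lit 76) (nat_lit 5267179977) (nat_lit 68) (nat_lit 5) (nat_lit 71) (nat_lit 5) (nat_lit 69) (nat_lit 5) (nat_lit 510) (nat_lit 415) (nat_lit 275)) (XT.lf (nat_lit 0) (nat_lit 11891118343) (nat_lit 228) (nat_lit 7514315704) (nat_lit 76) (nat_lit 16340791848) (nat_lit 68) (nat_lit 5) (nat_lit 71) (nat_lit 5) (nat_lit 69) (nat_lit 5) (nat_lit 511) (nat_lit 415) (nat_lit 274)))) (XT.nd (nat_lit 156) (nat_lit 304) (nat_lit 0) (XT.nd (nat_lit 78) (nat_lit 0) (nat_lit 0) (XT.lf (nat_lit 0) (nat_lit 12742212134) (nat_lit 152) (nat_lit 8623892328) (nat_lit 228) (nat_lit 15119022521) (nat_lit 66) (nat_lit 5) (nat_lit 68) (nat_lit 5) (nat_lit 69) (nat_lit 5) (nat_lit 512) (nat_lit 415) (nat_lit 273)) (XT.lf (nat_lit 0) (nat_lit 31216072299) (nat_lit 228) (nat_lit 3526027504) (nat_lit 76) (nat_lit 2501373869) (nat_lit 66) (nat_lit 5) (nat_lit 69) (nat_lit 5) (nat_lit 67) (nat_lit 4) (nat_lit 513) (nat_lit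 415) (nat_lit 272))) (XT.nd (nat_lit 78) (nat_lit 152) (nat_lit 0) (XT.lf (nat_lit 0) (nat_lit 3518766340) (nat_lit 152) (nat_lit 20515003952) (nat_lit 76) (nat_lit 13982431241) (nat_lit 64) (nat_lit 5) (nat_lit 66) (nat_lit 5) (nat_lit 65) (nat_lit 5) (nat_lit 514) (nat_lit 415) (nat_lit 271)) (XT.lf (nat_lit 0) (nat_lit 349799209) (nat_lit 152) (nat_lit 12910247592) (nat_lit 228) (nat_lit 25549378425) (nat_lit 62) (nat_lit 5) (nat_lit 64) (nat_lit 5) (nat_lit 65) (nat_lit 5) (nat_lit 515) (nat_lit 415) (nat_lit 270))))) (XT.nd (nat_lit 312) (nat_lit 304) (nat_lit 0) (XT.nd (nat_lit 156) (nat_lit 228) (nat_lit 0) (XT.nd (nat_lit 78) (nat_lit 76) (nat_lit 0) (XT.lf (nat_lit 0) (nat_lit 22243781910) (nat_lit 152) (nat_lit 1247605497) (nat_lit 228) (nat_lit 16129124049) (nat_lit 62) (nat_lit 5) (nat_lit 64) (nat_lit 5) (nat_lit 65) (nat_lit 5) (nat_lit 516) (nat_lit 415) (nat_lit 269)) (XT.lf (nat_lit 0) (nat_lit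 4302128626) (nat_lit 76) (nat_lit 29863231383) (nat_lit 152) (nat_lit 6286499970) (nat_lit 61) (nat_lit 5) (nat_lit 62) (nat_lit 5) (nat_lit 63) (nat_lit 4) (nat_lit 517) (nat_lit 415) (nat_lit 268))) (XT.nd (nat_lit 78) (nat_lit 152) (nat_lit 0) (XT.lf (nat_lit 0) (nat_lit 3956681554) (nat_lit 152) (nat_lit 14383449991) (nat_lit 76) (nat_lit 22961494184) (nat_lit 60) (nat_lit 5) (nat_lit 62) (nat_lit 5) (nat_lit 61) (nat_lit 5) (nat_lit 518) (nat_lit 415) (nat_lit 267)) (XT.lf (nat_lit 0) (nat_lit 8115422123) (nat_lit 152) (nat_lit 6334532924) (nat_lit 228) (nat_lit 27722988079) (nat_lit 58) (nat_lit 5) (nat_lit 60) (nat_lit 5) (nat_lit 61) (nat_lit 5) (nat_lit 519) (nat_lit 415) (nat_lit 266)))) (XT.nd (nat_lit 156) (nat_lit 228) (nat_lit 0) (XT.nd (nat_lit 78) (nat_lit 76) (nat_lit 0) (XT.lf (nat_lit 0) (nat_lit 25453851806) (nat_lit 228) (nat_lit 11557894195) (nat_lit 76) (nat_lit 6052779705) (nat_lit 58) (nat_lit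 5) (nat_lit 61) (nat_lit 5) (nat_lit 59) (nat_lit 4) (nat_lit 520) (nat_lit 415) (nat_lit 265)) (XT.lf (nat_lit 0) (nat_lit 11767568252) (nat_lit 76) (nat_lit 25187556159) (nat_lit 152) (nat_lit 7022713981) (nat_lit 57) (nat_lit 5) (nat_lit 58) (nat_lit 5) (nat_lit 59) (nat_lit 4) (nat_lit 521) (nat_lit 415) (nat_lit 264))) (XT.nd (nat_lit 78) (nat_lit 152) (nat_lit 0) (XT.lf (nat_lit 0) (nat_lit 3916419605) (nat_lit 152) (nat_lit 8939885244) (nat_lit 76) (nat_lit 32057847129) (nat_lit 56) (nat_lit 5) (nat_lit 58) (nat_lit 5) (nat_lit 57) (nat_lit 5) (nat_lit 522) (nat_lit 415) (nat_lit 263)) (XT.lf (nat_lit 0) (nat_lit 15181345751) (nat_lit 228) (nat_lit 30632025460) (nat_lit 76) (nat_lit 58935124) (nat_lit 54) (nat_lit 5) (nat_lit 57) (nat_lit 5) (nat_lit 55) (nat_lit 4) (nat_lit 523) (nat_lit 415) (nat_lit 262)))))) (XT.nd (nat_lit 546) (nat_lit 456) (nat_lit 0) (XT.nd (nat_lit 234) (nat_lit 304) (nat_lit 0)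 (XT.nd (nat_lit 78) (nat_lit 152) (nat_lit 0) (XT.lf (nat_lit 0) (nat_lit 26994388750) (nat_lit 228) (nat_lit 6671202342) (nat_lit 76) (nat_lit 13187309514) (nat_lit 54) (nat_lit 5) (nat_lit 57) (nat_lit 5) (nat_lit 55) (nat_lit 4) (nat_lit 524) (nat_lit 415) (nat_lit 261)) (XT.nd (nat_lit 78) (nat_lit 76) (nat_lit 0) (XT.lf (nat_lit 0) (nat_lit 18351369925) (nat_lit 76) (nat_lit 20978808965) (nat_lit 152) (nat_lit 8527683481) (nat_lit 53) (nat_lit 5) (nat_lit 54) (nat_lit 5) (nat_lit 55) (nat_lit 4) (nat_lit 525) (nat_lit 415) (nat_lit 260)) (XT.lf (nat_lit 0) (nat_lit 3141732286) (nat_lit 152) (nat_lit 4675648013) (nat_lit 76) (nat_lit 41072886768) (nat_lit 52) (nat_lit 5) (nat_lit 54) (nat_lit 5) (nat_lit 53) (nat_lit 5) (nat_lit 526) (nat_lit 415) (nat_lit 259)))) (XT.nd (nat_lit 156) (nat_lit 152) (nat_lit 0) (XT.nd (nat_lit 78) (nat_lit 0) (nat_lit 0) (XT.lf (nat_lit 0) (nat_lit 15243913647) (nat_lit 228)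 (nat_lit 28788258707) (nat_lit 76) (nat_lit 5911316456) (nat_lit 50) (nat_lit 5) (nat_lit 53) (nat_lit 5) (nat_lit 51) (nat_lit 4) (nat_lit 527) (nat_lit 415) (nat_lit 258)) (XT.lf (nat_lit 0) (nat_lit 27826459577) (nat_lit 228) (nat_lit 3262644329) (nat_lit 76) (nat_lit 19935684630) (nat_lit 50) (nat_lit 5) (nat_lit 53) (nat_lit 5) (nat_lit 51) (nat_lit 4) (nat_lit 528) (nat_lit 415) (nat_lit 257))) (XT.nd (nat_lit 78) (nat_lit 76) (nat_lit 0) (XT.lf (nat_lit 0) (nat_lit 23472433250) (nat_lit 76) (nat_lit 17532123685) (nat_lit 152) (nat_lit 11127428363) (nat_lit 49) (nat_lit 5) (nat_lit 50) (nat_lit 5) (nat_lit 51) (nat_lit 4) (nat_lit 529) (nat_lit 415) (nat_lit 256)) (XT.lf (nat_lit 0) (nat_lit 1305847834) (nat_lit 152) (nat_lit 2222188695) (nat_lit 76) (nat_lit 49743213441) (nat_lit 48) (nat_lit 5) (nat_lit 50) (nat_lit 5) (nat_lit 49) (nat_lit 5) (nat_lit 530) (nat_lit 415) (nat_lit 255))))) (XT.nd (nat_lit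 312) (nat_lit 228) (nat_lit 0) (XT.nd (nat_lit 156) (nat_lit 76) (nat_lit 0) (XT.nd (nat_lit 78) (nat_lit 0) (nat_lit 0) (XT.lf (nat_lit 0) (nat_lit 14233291054) (nat_lit 228) (nat_lit 29163033869) (nat_lit 76) (nat_lit 11034718183) (nat_lit 46) (nat_lit 5) (nat_lit 49) (nat_lit 5) (nat_lit 47) (nat_lit 4) (nat_lit 531) (nat_lit 415) (nat_lit 254)) (XT.lf (nat_lit 0) (nat_lit 27598841287) (nat_lit 228) (nat_lit 2045591444) (nat_lit 76) (nat_lit 25979689057) (nat_lit 46) (nat_lit 5) (nat_lit 49) (nat_lit 5) (nat_lit 47) (nat_lit 4) (nat_lit 532) (nat_lit 415) (nat_lit 253))) (XT.nd (nat_lit 78) (nat_lit 0) (nat_lit 0) (XT.lf (nat_lit 0) (nat_lit 26386733527) (nat_lit 76) (nat_lit 15225173554) (nat_lit 152) (nat_lit 15233689534) (nat_lit 45) (nat_lit 5) (nat_lit 46) (nat_lit 5) (nat_lit 47) (nat_lit 4) (nat_lit 533) (nat_lit 415) (nat_lit 252)) (XT.lf (nat_lit 0) (nat_lit 55700552681) (nat_lit 76) (nat_lit 358450062)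 (nat_lit 152) (nat_lit 2044304055) (nat_lit 45) (nat_lit 5) (nat_lit 46) (nat_lit 5) (nat_lit 47) (nat_lit 4) (nat_lit 534) (nat_lit 415) (nat_lit 251)))) (XT.nd (nat_lit 156) (nat_lit 76) (nat_lit 0) (XT.nd (nat_lit 78) (nat_lit 0) (nat_lit 0) (XT.lf (nat_lit 0) (nat_lit 11714565491) (nat_lit 152) (nat_lit 32639438286) (nat_lit 76) (nat_lit 15029446506) (nat_lit 43) (nat_lit 5) (nat_lit 45) (nat_lit 5) (nat_lit 44) (nat_lit 4) (nat_lit 535) (nat_lit 415) (nat_lit 250)) (XT.lf (nat_lit 0) (nat_lit 25866298581) (nat_lit 152) (nat_lit 3924035377) (nat_lit 76) (nat_lit 30910421544) (nat_lit 43) (nat_lit 5) (nat_lit 45) (nat_lit 5) (nat_lit 44) (nat_lit 4) (nat_lit 536) (nat_lit 415) (nat_lit 249))) (XT.nd (nat_lit 78) (nat_lit 0) (nat_lit 0) (XT.lf (nat_lit 0) (nat_lit 26150329824) (nat_lit 76) (nat_lit 14536960397) (nat_lit 152) (nat_lit 21362948682) (nat_lit 42) (nat_lit 5) (nat_lit 43) (nat_lit 5) (nat_lit 44)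 (nat_lit 4) (nat_lit 537) (nat_lit 415) (nat_lit 248)) (XT.lf (nat_lit 0) (nat_lit 55997562069) (nat_lit 152) (nat_lit 6256132127) (nat_lit 0) (nat_lit 1185173309) (nat_lit 42) (nat_lit 5) (nat_lit 44) (nat_lit 4) (nat_lit 42) (nat_lit 4) (nat_lit 538) (nat_lit 415) (nat_lit 247))))))) (XT.nd (nat_lit 53118) (nat_lit 0) (nat_lit 20216) (XT.nd (nat_lit 546) (nat_lit 228) (nat_lit 0) (XT.nd (nat_lit 234) (nat_lit 228) (nat_lit 0) (XT.nd (nat_lit 78) (nat_lit 76) (nat_lit 0) (XT.lf (nat_lit 0) (nat_lit 7141033028) (nat_lit 152) (nat_lit 40327300210) (nat_lit 76) (nat_lit 17387503185) (nat_lit 40) (nat_lit 5) (nat_lit 42) (nat_lit 5) (nat_lit 41) (nat_lit 4) (nat_lit 539) (nat_lit 415) (nat_lit 246)) (XT.nd (nat_lit 78) (nat_lit 76) (nat_lit 0) (XT.lf (nat_lit 0) (nat_lit 22068626775) (nat_lit 152) (nat_lit 10035166941) (nat_lit 76) (nat_lit 34207590159) (nat_lit 40) (nat_lit 5) (nat_lit 42) (nat_lit 5) (nat_lit 41)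 (nat_lit 4) (nat_lit 540) (nat_lit 415) (nat_lit 245)) (XT.lf (nat_lit 0) (nat_lit 21574656604) (nat_lit 76) (nat_lit 16070516294) (nat_lit 152) (nat_lit 30159391306) (nat_lit 39) (nat_lit 5) (nat_lit 40) (nat_lit 5) (nat_lit 41) (nat_lit 4) (nat_lit 541) (nat_lit 415) (nat_lit 244)))) (XT.nd (nat_lit 156) (nat_lit 152) (nat_lit 0) (XT.nd (nat_lit 78) (nat_lit 76) (nat_lit 0) (XT.lf (nat_lit 0) (nat_lit 53789367881) (nat_lit 152) (nat_lit 15018368302) (nat_lit 0) (nat_lit 531793371) (nat_lit 39) (nat_lit 5) (nat_lit 41) (nat_lit 4) (nat_lit 39) (nat_lit 4) (nat_lit 542) (nat_lit 415) (nat_lit 243)) (XT.lf (nat_lit 0) (nat_lit 17296180580) (nat_lit 76) (nat_lit 53441013677) (nat_lit 76) (nat_lit 173770619) (nat_lit 38) (nat_lit 4) (nat_lit 39) (nat_lit 5) (nat_lit 39) (nat_lit 4) (nat_lit 543) (nat_lit 415) (nat_lit 242))) (XT.nd (nat_lit 78) (nat_lit 76) (nat_lit 0) (XT.lf (nat_lit 0) (nat_lit 15505345980) (nat_lit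 152) (nat_lit 21800777659) (nat_lit 76) (nat_lit 35214489861) (nat_lit 37) (nat_lit 5) (nat_lit 39) (nat_lit 5) (nat_lit 38) (nat_lit 4) (nat_lit 544) (nat_lit 415) (nat_lit 241)) (XT.lf (nat_lit 0) (nat_lit 11172548064) (nat_lit 76) (nat_lit 20580304939) (nat_lit 152) (nat_lit 42422601842) (nat_lit 36) (nat_lit 5) (nat_lit 37) (nat_lit 5) (nat_lit 38) (nat_lit 4) (nat_lit 545) (nat_lit 415) (nat_lit 240))))) (XT.nd (nat_lit 312) (nat_lit 76) (nat_lit 0) (XT.nd (nat_lit 156) (nat_lit 76) (nat_lit 0) (XT.nd (nat_lit 78) (nat_lit 76) (nat_lit 0) (XT.lf (nat_lit 0) (nat_lit 45570682600) (nat_lit 76) (nat_lit 3131422929) (nat_lit 152) (nat_lit 27171406452) (nat_lit 36) (nat_lit 5) (nat_lit 37) (nat_lit 5) (nat_lit 38) (nat_lit 4) (nat_lit 546) (nat_lit 415) (nat_lit 239)) (XT.lf (nat_lit 0) (nat_lit 3288688776) (nat_lit 76) (nat_lit 63039713674) (nat_lit 76) (nat_lit 11289051531) (nat_lit 35) (nat_lit 4) (nat_lit 36)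 (nat_lit 5) (nat_lit 36) (nat_lit 4) (nat_lit 547) (nat_lit 415) (nat_lit 238))) (XT.nd (nat_lit 78) (nat_lit 0) (nat_lit 0) (XT.lf (nat_lit 0) (nat_lit 5305176135) (nat_lit 152) (nat_lit 40989251846) (nat_lit 76) (nat_lit 33107794444) (nat_lit 34) (nat_lit 5) (nat_lit 36) (nat_lit 5) (nat_lit 35) (nat_lit 4) (nat_lit 548) (nat_lit 415) (nat_lit 237)) (XT.lf (nat_lit 0) (nat_lit 22164796542) (nat_lit 152) (nat_lit 6772083834) (nat_lit 76) (nat_lit 52300466563) (nat_lit 34) (nat_lit 5) (nat_lit 36) (nat_lit 5) (nat_lit 35) (nat_lit 4) (nat_lit 549) (nat_lit 415) (nat_lit 236)))) (XT.nd (nat_lit 52104) (nat_lit 0) (nat_lit 23864) (XT.nd (nat_lit 52026) (nat_lit 0) (nat_lit 23864) (XT.lf (nat_lit 0) (nat_lit 29027587376) (nat_lit 76) (nat_lit 10776275004) (nat_lit 152) (nat_lit 43315453242) (nat_lit 33) (nat_lit 5) (nat_lit 34) (nat_lit 5) (nat_lit 35) (nat_lit 4) (nat_lit 550) (nat_lit 415) (nat_lit 235)) (XT.lf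 (nat_lit 0) (nat_lit 1111727941) (nat_lit 0) (nat_lit 1111727941) (nat_lit 836) (nat_lit 1541574569) (nat_lit 347) (nat_lit 5) (nat_lit 347) (nat_lit 3) (nat_lit 358) (nat_lit 3) (nat_lit 416) (nat_lit 416) (nat_lit 368))) (XT.nd (nat_lit 78) (nat_lit 0) (nat_lit 0) (XT.lf (nat_lit 0) (nat_lit 5933866058) (nat_lit 836) (nat_lit 1594328481) (nat_lit 912) (nat_lit 71799030) (nat_lit 347) (nat_lit 5) (nat_lit 358) (nat_lit 3) (nat_lit 359) (nat_lit 5) (nat_lit 417) (nat_lit 416) (nat_lit 367)) (XT.lf (nat_lit 76) (nat_lit 2220996786) (nat_lit 0) (nat_lit 5232661524) (nat_lit 912) (nat_lit 218735056) (nat_lit 348) (nat_lit 5) (nat_lit 347) (nat_lit 5) (nat_lit 359) (nat_lit 5) (nat_lit 418) (nat_lit 416) (nat_lit 366)))))) (XT.nd (nat_lit 624) (nat_lit 1900) (nat_lit 0) (XT.nd (nat_lit 312) (nat_lit 836) (nat_lit 0) (XT.nd (nat_lit 156) (nat_lit 0) (nat_lit 76) (XT.nd (nat_lit 78) (nat_lit 0) (nat_lit 0) (XT.lf (nat_lit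 0) (nat_lit 1209156308) (nat_lit 912) (nat_lit 1605856717) (nat_lit 988) (nat_lit 4932743400) (nat_lit 335) (nat_lit 5) (nat_lit 347) (nat_lit 5) (nat_lit 348) (nat_lit 5) (nat_lit 419) (nat_lit 416) (nat_lit 365)) (XT.lf (nat_lit 76) (nat_lit 2369558060) (nat_lit 0) (nat_lit 275931898) (nat_lit 988) (nat_lit 5180740062) (nat_lit 336) (nat_lit 5) (nat_lit 335) (nat_lit 5) (nat_lit 348) (nat_lit 5) (nat_lit 420) (nat_lit 416) (nat_lit 364))) (XT.nd (nat_lit 78) (nat_lit 0) (nat_lit 0) (XT.lf (nat_lit 0) (nat_lit 4112471021) (nat_lit 912) (nat_lit 1463113153) (nat_lit 988) (nat_lit 2331861167) (nat_lit 336) (nat_lit 5) (nat_lit 348) (nat_lit 5) (nat_lit 349) (nat_lit 5) (nat_lit 421) (nat_lit 416) (nat_lit 363)) (XT.lf (nat_lit 76) (nat_lit 2669467624) (nat_lit 0) (nat_lit 2932574653) (nat_lit 988) (nat_lit 2389711250) (nat_lit 337) (nat_lit 5) (nat_lit 336) (nat_lit 5) (nat_lit 349) (nat_lit 5) (nat_lit 422) (nat_lit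 416) (nat_lit 362)))) (XT.nd (nat_lit 156) (nat_lit 0) (nat_lit 0) (XT.nd (nat_lit 78) (nat_lit 912) (nat_lit 0) (XT.lf (nat_lit 76) (nat_lit 6926170014) (nat_lit 0) (nat_lit 176257348) (nat_lit 988) (nat_lit 977193219) (nat_lit 337) (nat_lit 5) (nat_lit 336) (nat_lit 5) (nat_lit 349) (nat_lit 5) (nat_lit 423) (nat_lit 416) (nat_lit 361)) (XT.lf (nat_lit 0) (nat_lit 477231244) (nat_lit 988) (nat_lit 5028899449) (nat_lit 1064) (nat_lit 2663602274) (nat_lit 324) (nat_lit 5) (nat_lit 337) (nat_lit 5) (nat_lit 338) (nat_lit 5) (nat_lit 424) (nat_lit 416) (nat_lit 360))) (XT.nd (nat_lit 78) (nat_lit 0) (nat_lit 76) (XT.lf (nat_lit 0) (nat_lit 1922712176) (nat_lit 988) (nat_lit 717365192) (nat_lit 1064) (nat_lit 5623181455) (nat_lit 324) (nat_lit 5) (nat_lit 337) (nat_lit 5) (nat_lit 338) (nat_lit 5) (nat_lit 425) (nat_lit 416) (nat_lit 359)) (XT.lf (nat_lit 0) (nat_lit 3406173748) (nat_lit 988) (nat_lit 4596662738)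 (nat_lit 1064) (nat_lit 356927410) (nat_lit 325) (nat_lit 5) (nat_lit 338) (nat_lit 5) (nat_lit 339) (nat_lit 5) (nat_lit 426) (nat_lit 416) (nat_lit 358))))) (XT.nd (nat_lit 312) (nat_lit 988) (nat_lit 0) (XT.nd (nat_lit 156) (nat_lit 988) (nat_lit 0) (XT.nd (nat_lit 78) (nat_lit 0) (nat_lit 0) (XT.lf (nat_lit 0) (nat_lit 4923663181) (nat_lit 988) (nat_lit 123954240) (nat_lit 1064) (nat_lit 3411872560) (nat_lit 325) (nat_lit 5) (nat_lit 338) (nat_lit 5) (nat_lit 339) (nat_lit 5) (nat_lit 427) (nat_lit 416) (nat_lit 357)) (XT.lf (nat_lit 76) (nat_lit 4540980257) (nat_lit 0) (nat_lit 1946696196) (nat_lit 1064) (nat_lit 2074512664) (nat_lit 326) (nat_lit 5) (nat_lit 325) (nat_lit 5) (nat_lit 339) (nat_lit 5) (nat_lit 428) (nat_lit 416) (nat_lit 356))) (XT.nd (nat_lit 78) (nat_lit 1064) (nat_lit 0) (XT.lf (nat_lit 76) (nat_lit 649506214) (nat_lit 0) (nat_lit 7427010526) (nat_lit 1064) (nat_lit 592126204) (nat_lit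 327) (nat_lit 5) (nat_lit 326) (nat_lit 5) (nat_lit 340) (nat_lit 5) (nat_lit 429) (nat_lit 416) (nat_lit 355)) (XT.lf (nat_lit 0) (nat_lit 935681231) (nat_lit 1064) (nat_lit 3295116334) (nat_lit 1140) (nat_lit 4546657873) (nat_lit 312) (nat_lit 5) (nat_lit 326) (nat_lit 5) (nat_lit 327) (nat_lit 5) (nat_lit 430) (nat_lit 416) (nat_lit 354)))) (XT.nd (nat_lit 156) (nat_lit 988) (nat_lit 0) (XT.nd (nat_lit 78) (nat_lit 0) (nat_lit 76) (XT.lf (nat_lit 76) (nat_lit 1564062888) (nat_lit 0) (nat_lit 908497251) (nat_lit 1140) (nat_lit 6417552124) (nat_lit 313) (nat_lit 5) (nat_lit 312) (nat_lit 5) (nat_lit 327) (nat_lit 5) (nat_lit 431) (nat_lit 416) (nat_lit 353)) (XT.lf (nat_lit 0) (nat_lit 4074356681) (nat_lit 1064) (nat_lit 2425249158) (nat_lit 76) (nat_lit 2505988315) (nat_lit 313) (nat_lit 5) (nat_lit 327) (nat_lit 5) (nat_lit 314) (nat_lit 5) (nat_lit 432) (nat_lit 416) (nat_lit 352))) (XT.nd (nat_lit 78) (nat_lit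 0) (nat_lit 0) (XT.lf (nat_lit 0) (nat_lit 2633738573) (nat_lit 1064) (nat_lit 3086961814) (nat_lit 1140) (nat_lit 3403954733) (nat_lit 299) (nat_lit 5) (nat_lit 313) (nat_lit 5) (nat_lit 314) (nat_lit 5) (nat_lit 433) (nat_lit 416) (nat_lit 351)) (XT.lf (nat_lit 0) (nat_lit 7408325782) (nat_lit 1140) (nat_lit 1388806356) (nat_lit 76) (nat_lit 450408175) (nat_lit 299) (nat_lit 5) (nat_lit 314) (nat_lit 5) (nat_lit 300) (nat_lit 5) (nat_lit 434) (nat_lit 416) (nat_lit 350))))))))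
noncomputable def xc135 : XT := (XT.nd (nat_lit 2340) (nat_lit 5320) (nat_lit 0) (XT.nd (nat_lit 1170) (nat_lit 3876) (nat_lit 0) (XT.nd (nat_lit 546) (nat_lit 2812) (nat_lit 0) (XT.nd (nat_lit 234) (nat_lit 1444) (nat_lit 0) (XT.nd (nat_lit 78) (nat_lit 1292) (nat_lit 0) (XT.lf (nat_lit 0) (nat_lit 3880350890) (nat_lit 1140) (nat_lit 5298213576) (nat_lit 1216) (nat_lit 194596936) (nat_lit 284) (nat_lit 5) (nat_lit 299) (nat_lit 5) (nat_lit 300) (nat_lit 5) (nat_lit 435) (nat_lit 416) (nat_lit 349)) (XT.nd (nat_lit 78) (nat_lit 1216) (nat_lit 0) (XT.lf (nat_lit 0) (nat_lit 1448776657) (nat_lit 1216) (nat_lit 212210912) (nat_lit 76) (nat_lit 7841779277) (nat_lit 283) (nat_lit 5) (nat_lit 299) (nat_lit 5) (nat_lit 284) (nat_lit 5) (nat_lit 436) (nat_lit 416) (nat_lit 348)) (XT.lf (nat_lit 0) (nat_lit 3174615327) (nat_lit 1292) (nat_lit 4358728109) (nat_lit 76) (nat_lit 2101755087) (nat_lit 267) (nat_lit 5) (nat_lit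 284) (nat_lit 5) (nat_lit 268) (nat_lit 5) (nat_lit 437) (nat_lit 416) (nat_lit 347)))) (XT.nd (nat_lit 156) (nat_lit 684) (nat_lit 0) (XT.nd (nat_lit 78) (nat_lit 0) (nat_lit 0) (XT.lf (nat_lit 0) (nat_lit 1136929219) (nat_lit 760) (nat_lit 3811128449) (nat_lit 836) (nat_lit 4823475511) (nat_lit 257) (nat_lit 5) (nat_lit 267) (nat_lit 5) (nat_lit 268) (nat_lit 5) (nat_lit 438) (nat_lit 416) (nat_lit 346)) (XT.lf (nat_lit 0) (nat_lit 6786363805) (nat_lit 836) (nat_lit 3056711152) (nat_lit 76) (nat_lit 68643758) (nat_lit 257) (nat_lit 5) (nat_lit 268) (nat_lit 5) (nat_lit 258) (nat_lit 5) (nat_lit 439) (nat_lit 416) (nat_lit 345))) (XT.nd (nat_lit 78) (nat_lit 76) (nat_lit 0) (XT.lf (nat_lit 0) (nat_lit 2671733095) (nat_lit 608) (nat_lit 6039455135) (nat_lit 684) (nat_lit 1343987947) (nat_lit 249) (nat_lit 5) (nat_lit 257) (nat_lit 5) (nat_lit 258) (nat_lit 5) (nat_lit 440) (nat_lit 416) (nat_lit 344)) (XT.lf (nat_lit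 0) (nat_lit 480686084) (nat_lit 684) (nat_lit 1603864035) (nat_lit 76) (nat_lit 8118269396) (nat_lit 248) (nat_lit 5) (nat_lit 257) (nat_lit 5) (nat_lit 249) (nat_lit 5) (nat_lit 441) (nat_lit 416) (nat_lit 343))))) (XT.nd (nat_lit 312) (nat_lit 1140) (nat_lit 0) (XT.nd (nat_lit 156) (nat_lit 1064) (nat_lit 0) (XT.nd (nat_lit 78) (nat_lit 0) (nat_lit 0) (XT.lf (nat_lit 0) (nat_lit 2364161867) (nat_lit 684) (nat_lit 5982952599) (nat_lit 76) (nat_lit 2006453054) (nat_lit 240) (nat_lit 5) (nat_lit 249) (nat_lit 5) (nat_lit 241) (nat_lit 5) (nat_lit 442) (nat_lit 416) (nat_lit 342)) (XT.lf (nat_lit 0) (nat_lit 4310937691) (nat_lit 684) (nat_lit 3158448) (nat_lit 76) (nat_lit 6194544559) (nat_lit 240) (nat_lit 5) (nat_lit 249) (nat_lit 5) (nat_lit 241) (nat_lit 5) (nat_lit 443) (nat_lit 416) (nat_lit 341))) (XT.nd (nat_lit 78) (nat_lit 532) (nat_lit 0) (XT.lf (nat_lit 0) (nat_lit 6247639813) (nat_lit 532) (nat_lit 99213132)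 (nat_lit 608) (nat_lit 4320597452) (nat_lit 233) (nat_lit 5) (nat_lit 240) (nat_lit 5) (nat_lit 241) (nat_lit 5) (nat_lit 444) (nat_lit 416) (nat_lit 340)) (XT.lf (nat_lit 0) (nat_lit 1818854202) (nat_lit 532) (nat_lit 6654518943) (nat_lit 608) (nat_lit 2356771642) (nat_lit 226) (nat_lit 5) (nat_lit 233) (nat_lit 5) (nat_lit 234) (nat_lit 5) (nat_lit 445) (nat_lit 416) (nat_lit 339)))) (XT.nd (nat_lit 156) (nat_lit 532) (nat_lit 0) (XT.nd (nat_lit 78) (nat_lit 608) (nat_lit 0) (XT.lf (nat_lit 0) (nat_lit 8303718043) (nat_lit 532) (nat_lit 2377352618) (nat_lit 608) (nat_lit 316133940) (nat_lit 226) (nat_lit 5) (nat_lit 233) (nat_lit 5) (nat_lit 234) (nat_lit 5) (nat_lit 446) (nat_lit 416) (nat_lit 338)) (XT.lf (nat_lit 0) (nat_lit 1780132315) (nat_lit 608) (nat_lit 7347077327) (nat_lit 76) (nat_lit 2040679640) (nat_lit 218) (nat_lit 5) (nat_lit 226) (nat_lit 5) (nat_lit 219) (nat_lit 5) (nat_lit 447) (nat_lit 416)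 (nat_lit 337))) (XT.nd (nat_lit 78) (nat_lit 532) (nat_lit 0) (XT.lf (nat_lit 0) (nat_lit 3956753312) (nat_lit 608) (nat_lit 814787294) (nat_lit 76) (nat_lit 6571350906) (nat_lit 218) (nat_lit 5) (nat_lit 226) (nat_lit 5) (nat_lit 219) (nat_lit 5) (nat_lit 448) (nat_lit 416) (nat_lit 336)) (XT.lf (nat_lit 0) (nat_lit 6000737801) (nat_lit 532) (nat_lit 229224073) (nat_lit 608) (nat_lit 5292248636) (nat_lit 211) (nat_lit 5) (nat_lit 218) (nat_lit 5) (nat_lit 219) (nat_lit 5) (nat_lit 449) (nat_lit 416) (nat_lit 335)))))) (XT.nd (nat_lit 546) (nat_lit 1976) (nat_lit 0) (XT.nd (nat_lit 234) (nat_lit 912) (nat_lit 0) (XT.nd (nat_lit 78) (nat_lit 532) (nat_lit 0) (XT.lf (nat_lit 0) (nat_lit 1282661836) (nat_lit 456) (nat_lit 7326169913) (nat_lit 532) (nat_lit 3096958592) (nat_lit 205) (nat_lit 5) (nat_lit 211) (nat_lit 5) (nat_lit 212) (nat_lit 5) (nat_lit 450) (nat_lit 416) (nat_lit 334)) (XT.nd (nat_lit 78) (nat_lit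 532) (nat_lit 0) (XT.lf (nat_lit 0) (nat_lit 8371802587) (nat_lit 456) (nat_lit 2719791979) (nat_lit 532) (nat_lit 802312255) (nat_lit 205) (nat_lit 5) (nat_lit 211) (nat_lit 5) (nat_lit 212) (nat_lit 5) (nat_lit 451) (nat_lit 416) (nat_lit 333)) (XT.lf (nat_lit 0) (nat_lit 1560355277) (nat_lit 532) (nat_lit 8495033825) (nat_lit 76) (nat_lit 2030942879) (nat_lit 198) (nat_lit 5) (nat_lit 205) (nat_lit 5) (nat_lit 199) (nat_lit 5) (nat_lit 452) (nat_lit 416) (nat_lit 332)))) (XT.nd (nat_lit 156) (nat_lit 456) (nat_lit 0) (XT.nd (nat_lit 78) (nat_lit 456) (nat_lit 0) (XT.lf (nat_lit 0) (nat_lit 4016039873) (nat_lit 532) (nat_lit 1358405932) (nat_lit 76) (nat_lit 6908702531) (nat_lit 198) (nat_lit 5) (nat_lit 205) (nat_lit 5) (nat_lit 199) (nat_lit 5) (nat_lit 453) (nat_lit 416) (nat_lit 331)) (XT.lf (nat_lit 0) (nat_lit 6081853181) (nat_lit 456) (nat_lit 498135964) (nat_lit 532) (nat_lit 5904846708) (nat_lit 192)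 (nat_lit 5) (nat_lit 198) (nat_lit 5) (nat_lit 199) (nat_lit 5) (nat_lit 454) (nat_lit 416) (nat_lit 330))) (XT.nd (nat_lit 78) (nat_lit 0) (nat_lit 0) (XT.lf (nat_lit 0) (nat_lit 1027917625) (nat_lit 456) (nat_lit 8236662610) (nat_lit 532) (nat_lit 3426686427) (nat_lit 186) (nat_lit 5) (nat_lit 192) (nat_lit 5) (nat_lit 193) (nat_lit 5) (nat_lit 455) (nat_lit 416) (nat_lit 329)) (XT.lf (nat_lit 0) (nat_lit 8778742379) (nat_lit 456) (nat_lit 3297408936) (nat_lit 532) (nat_lit 826350052) (nat_lit 186) (nat_lit 5) (nat_lit 192) (nat_lit 5) (nat_lit 193) (nat_lit 5) (nat_lit 456) (nat_lit 416) (nat_lit 328))))) (XT.nd (nat_lit 312) (nat_lit 760) (nat_lit 0) (XT.nd (nat_lit 156) (nat_lit 760) (nat_lit 0) (XT.nd (nat_lit 78) (nat_lit 0) (nat_lit 0) (XT.lf (nat_lit 0) (nat_lit 1846126539) (nat_lit 456) (nat_lit 9469897106) (nat_lit 76) (nat_lit 1802611311) (nat_lit 180) (nat_lit 5) (nat_lit 186) (nat_lit 5) (nat_lit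 181) (nat_lit 5) (nat_lit 457) (nat_lit 416) (nat_lit 327)) (XT.lf (nat_lit 0) (nat_lit 4634543084) (nat_lit 456) (nat_lit 1671461899) (nat_lit 76) (nat_lit 7033434763) (nat_lit 180) (nat_lit 5) (nat_lit 186) (nat_lit 5) (nat_lit 181) (nat_lit 5) (nat_lit 458) (nat_lit 416) (nat_lit 326))) (XT.nd (nat_lit 78) (nat_lit 380) (nat_lit 0) (XT.lf (nat_lit 0) (nat_lit 6458647527) (nat_lit 380) (nat_lit 1088372065) (nat_lit 456) (nat_lit 6018640630) (nat_lit 175) (nat_lit 5) (nat_lit 180) (nat_lit 5) (nat_lit 181) (nat_lit 5) (nat_lit 459) (nat_lit 416) (nat_lit 325)) (XT.lf (nat_lit 0) (nat_lit 1018664374) (nat_lit 380) (nat_lit 9574861602) (nat_lit 456) (nat_lit 3203745325) (nat_lit 170) (nat_lit 5) (nat_lit 175) (nat_lit 5) (nat_lit 176) (nat_lit 5) (nat_lit 460) (nat_lit 416) (nat_lit 324)))) (XT.nd (nat_lit 156) (nat_lit 304) (nat_lit 0) (XT.nd (nat_lit 78) (nat_lit 456) (nat_lit 0) (XT.lf (nat_lit 0) (nat_lit 9494477333)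 (nat_lit 380) (nat_lit 4298358125) (nat_lit 456) (nat_lit 241156569) (nat_lit 170) (nat_lit 5) (nat_lit 175) (nat_lit 5) (nat_lit 176) (nat_lit 5) (nat_lit 461) (nat_lit 416) (nat_lit 323)) (XT.lf (nat_lit 0) (nat_lit 2784502581) (nat_lit 456) (nat_lit 10318709291) (nat_lit 76) (nat_lit 1172924454) (nat_lit 164) (nat_lit 5) (nat_lit 170) (nat_lit 5) (nat_lit 165) (nat_lit 5) (nat_lit 462) (nat_lit 416) (nat_lit 322))) (XT.nd (nat_lit 78) (nat_lit 304) (nat_lit 0) (XT.lf (nat_lit 0) (nat_lit 5964578407) (nat_lit 456) (nat_lit 1795423500) (nat_lit 76) (nat_lit 6763419848) (nat_lit 164) (nat_lit 5) (nat_lit 170) (nat_lit 5) (nat_lit 165) (nat_lit 5) (nat_lit 463) (nat_lit 416) (nat_lit 321)) (XT.lf (nat_lit 0) (nat_lit 7094636943) (nat_lit 304) (nat_lit 2193852356) (nat_lit 380) (nat_lit 5488186619) (nat_lit 160) (nat_lit 5) (nat_lit 164) (nat_lit 5) (nat_lit 165) (nat_lit 5) (nat_lit 464) (nat_lit 416) (nat_lit 320)))))))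 (XT.nd (nat_lit 1170) (nat_lit 2356) (nat_lit 0) (XT.nd (nat_lit 546) (nat_lit 1520) (nat_lit 0) (XT.nd (nat_lit 234) (nat_lit 684) (nat_lit 0) (XT.nd (nat_lit 78) (nat_lit 380) (nat_lit 0) (XT.lf (nat_lit 0) (nat_lit 1213079529) (nat_lit 380) (nat_lit 11543506855) (nat_lit 456) (nat_lit 2279610318) (nat_lit 155) (nat_lit 5) (nat_lit 160) (nat_lit 5) (nat_lit 161) (nat_lit 5) (nat_lit 465) (nat_lit 416) (nat_lit 319)) (XT.nd (nat_lit 78) (nat_lit 304) (nat_lit 0) (XT.lf (nat_lit 0) (nat_lit 1085869514) (nat_lit 456) (nat_lit 4828723591) (nat_lit 76) (nat_lit 9386197679) (nat_lit 154) (nat_lit 5) (nat_lit 160) (nat_lit 5) (nat_lit 155) (nat_lit 5) (nat_lit 466) (nat_lit 416) (nat_lit 318)) (XT.lf (nat_lit 0) (nat_lit 4473300137) (nat_lit 304) (nat_lit 57350302) (nat_lit 380) (nat_lit 11041273300) (nat_lit 150) (nat_lit 5) (nat_lit 154) (nat_lit 5) (nat_lit 155) (nat_lit 5) (nat_lit 467) (nat_lit 416) (nat_lit 317))))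 (XT.nd (nat_lit 156) (nat_lit 380) (nat_lit 0) (XT.nd (nat_lit 78) (nat_lit 304) (nat_lit 0) (XT.lf (nat_lit 0) (nat_lit 8166828680) (nat_lit 380) (nat_lit 1781422107) (nat_lit 76) (nat_lit 5900301000) (nat_lit 150) (nat_lit 5) (nat_lit 155) (nat_lit 5) (nat_lit 151) (nat_lit 5) (nat_lit 468) (nat_lit 416) (nat_lit 316)) (XT.lf (nat_lit 0) (nat_lit 7943383155) (nat_lit 304) (nat_lit 4027545492) (nat_lit 380) (nat_lit 4160787579) (nat_lit 146) (nat_lit 5) (nat_lit 150) (nat_lit 5) (nat_lit 151) (nat_lit 5) (nat_lit 469) (nat_lit 416) (nat_lit 315))) (XT.nd (nat_lit 78) (nat_lit 76) (nat_lit 0) (XT.lf (nat_lit 0) (nat_lit 1557372775) (nat_lit 304) (nat_lit 14366930215) (nat_lit 380) (nat_lit 498020633) (nat_lit 142) (nat_lit 5) (nat_lit 146) (nat_lit 5) (nat_lit 147) (nat_lit 5) (nat_lit 470) (nat_lit 416) (nat_lit 314)) (XT.lf (nat_lit 0) (nat_lit 3316310842) (nat_lit 380) (nat_lit 5054683072) (nat_lit 76) (nat_lit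 8346545971) (nat_lit 141) (nat_lit 5) (nat_lit 146) (nat_lit 5) (nat_lit 142) (nat_lit 5) (nat_lit 471) (nat_lit 416) (nat_lit 313))))) (XT.nd (nat_lit 312) (nat_lit 608) (nat_lit 0) (XT.nd (nat_lit 156) (nat_lit 608) (nat_lit 0) (XT.nd (nat_lit 78) (nat_lit 0) (nat_lit 0) (XT.lf (nat_lit 0) (nat_lit 5118983778) (nat_lit 304) (nat_lit 2148003880) (nat_lit 380) (nat_lit 9753521645) (nat_lit 137) (nat_lit 5) (nat_lit 141) (nat_lit 5) (nat_lit 142) (nat_lit 5) (nat_lit 472) (nat_lit 416) (nat_lit 312)) (XT.lf (nat_lit 0) (nat_lit 11411591247) (nat_lit 380) (nat_lit 1697075767) (nat_lit 76) (nat_lit 4221640873) (nat_lit 137) (nat_lit 5) (nat_lit 142) (nat_lit 5) (nat_lit 138) (nat_lit 5) (nat_lit 473) (nat_lit 416) (nat_lit 311))) (XT.nd (nat_lit 78) (nat_lit 380) (nat_lit 0) (XT.lf (nat_lit 0) (nat_lit 8941433564) (nat_lit 228) (nat_lit 6829708414) (nat_lit 304) (nat_lit 1875542393) (nat_lit 134) (nat_lit 5) (nat_lit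 137) (nat_lit 5) (nat_lit 138) (nat_lit 5) (nat_lit 474) (nat_lit 416) (nat_lit 310)) (XT.lf (nat_lit 0) (nat_lit 1952405462) (nat_lit 304) (nat_lit 311401002) (nat_lit 380) (nat_lit 15707501355) (nat_lit 129) (nat_lit 5) (nat_lit 133) (nat_lit 5) (nat_lit 134) (nat_lit 5) (nat_lit 475) (nat_lit 416) (nat_lit 309)))) (XT.nd (nat_lit 156) (nat_lit 380) (nat_lit 0) (XT.nd (nat_lit 78) (nat_lit 228) (nat_lit 0) (XT.lf (nat_lit 0) (nat_lit 6623585046) (nat_lit 380) (nat_lit 5301303075) (nat_lit 76) (nat_lit 6376208408) (nat_lit 129) (nat_lit 5) (nat_lit 134) (nat_lit 5) (nat_lit 130) (nat_lit 5) (nat_lit 476) (nat_lit 416) (nat_lit 308)) (XT.lf (nat_lit 0) (nat_lit 5823597448) (nat_lit 228) (nat_lit 5333724795) (nat_lit 304) (nat_lit 7482163665) (nat_lit 126) (nat_lit 5) (nat_lit 129) (nat_lit 5) (nat_lit 130) (nat_lit 5) (nat_lit 477) (nat_lit 416) (nat_lit 307))) (XT.nd (nat_lit 78) (nat_lit 380) (nat_lit 0) (XT.lf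 (nat_lit 0) (nat_lit 15879366363) (nat_lit 304) (nat_lit 1634949252) (nat_lit 76) (nat_lit 1472144418) (nat_lit 126) (nat_lit 5) (nat_lit 130) (nat_lit 5) (nat_lit 127) (nat_lit 5) (nat_lit 478) (nat_lit 416) (nat_lit 306)) (XT.lf (nat_lit 0) (nat_lit 1506879441) (nat_lit 380) (nat_lit 9355074330) (nat_lit 76) (nat_lit 8477439252) (nat_lit 121) (nat_lit 5) (nat_lit 126) (nat_lit 5) (nat_lit 122) (nat_lit 5) (nat_lit 479) (nat_lit 416) (nat_lit 305)))))) (XT.nd (nat_lit 624) (nat_lit 1140) (nat_lit 0) (XT.nd (nat_lit 312) (nat_lit 684) (nat_lit 0) (XT.nd (nat_lit 156) (nat_lit 304) (nat_lit 0) (XT.nd (nat_lit 78) (nat_lit 0) (nat_lit 0) (XT.lf (nat_lit 0) (nat_lit 2272408579) (nat_lit 228) (nat_lit 3947697701) (nat_lit 304) (nat_lit 13481188048) (nat_lit 118) (nat_lit 5) (nat_lit 121) (nat_lit 5) (nat_lit 122) (nat_lit 5) (nat_lit 480) (nat_lit 416) (nat_lit 304)) (XT.lf (nat_lit 0) (nat_lit 11185536541) (nat_lit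 304) (nat_lit 5686574552) (nat_lit 76) (nat_lit 3198619077) (nat_lit 118) (nat_lit 5) (nat_lit 122) (nat_lit 5) (nat_lit 119) (nat_lit 5) (nat_lit 481) (nat_lit 416) (nat_lit 303))) (XT.nd (nat_lit 78) (nat_lit 76) (nat_lit 0) (XT.lf (nat_lit 0) (nat_lit 6471516913) (nat_lit 228) (nat_lit 9915040186) (nat_lit 304) (nat_lit 4062094812) (nat_lit 115) (nat_lit 5) (nat_lit 118) (nat_lit 5) (nat_lit 119) (nat_lit 5) (nat_lit 482) (nat_lit 416) (nat_lit 302)) (XT.lf (nat_lit 0) (nat_lit 931405410) (nat_lit 304) (nat_lit 1758288606) (nat_lit 76) (nat_lit 18146656202) (nat_lit 114) (nat_lit 5) (nat_lit 118) (nat_lit 5) (nat_lit 115) (nat_lit 5) (nat_lit 483) (nat_lit 416) (nat_lit 301)))) (XT.nd (nat_lit 156) (nat_lit 228) (nat_lit 0) (XT.nd (nat_lit 78) (nat_lit 228) (nat_lit 0) (XT.lf (nat_lit 0) (nat_lit 6131450957) (nat_lit 304) (nat_lit 10300702881) (nat_lit 76) (nat_lit 4798169047) (nat_lit 111) (nat_lit 5) (nat_lit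 115) (nat_lit 5) (nat_lit 112) (nat_lit 5) (nat_lit 484) (nat_lit 416) (nat_lit 300)) (XT.lf (nat_lit 0) (nat_lit 2395399172) (nat_lit 228) (nat_lit 9145610772) (nat_lit 304) (nat_lit 10093500888) (nat_lit 108) (nat_lit 5) (nat_lit 111) (nat_lit 5) (nat_lit 112) (nat_lit 5) (nat_lit 485) (nat_lit 416) (nat_lit 299))) (XT.nd (nat_lit 78) (nat_lit 228) (nat_lit 0) (XT.lf (nat_lit 0) (nat_lit 15660601442) (nat_lit 228) (nat_lit 1542384981) (nat_lit 304) (nat_lit 4845135493) (nat_lit 108) (nat_lit 5) (nat_lit 111) (nat_lit 5) (nat_lit 112) (nat_lit 5) (nat_lit 486) (nat_lit 416) (nat_lit 298)) (XT.lf (nat_lit 0) (nat_lit 664085545) (nat_lit 228) (nat_lit 15576013583) (nat_lit 76) (nat_lit 6230451488) (nat_lit 105) (nat_lit 5) (nat_lit 108) (nat_lit 5) (nat_lit 106) (nat_lit 5) (nat_lit 487) (nat_lit 416) (nat_lit 297))))) (XT.nd (nat_lit 312) (nat_lit 684) (nat_lit 0) (XT.nd (nat_lit 156) (nat_lit 228) (nat_lit 0)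 (XT.nd (nat_lit 78) (nat_lit 228) (nat_lit 0) (XT.lf (nat_lit 0) (nat_lit 6308092050) (nat_lit 228) (nat_lit 2284243707) (nat_lit 76) (nat_lit 14309871832) (nat_lit 105) (nat_lit 5) (nat_lit 108) (nat_lit 5) (nat_lit 106) (nat_lit 5) (nat_lit 488) (nat_lit 416) (nat_lit 296)) (XT.lf (nat_lit 0) (nat_lit 11610869200) (nat_lit 228) (nat_lit 609034174) (nat_lit 304) (nat_lit 11123957618) (nat_lit 102) (nat_lit 5) (nat_lit 105) (nat_lit 5) (nat_lit 106) (nat_lit 5) (nat_lit 489) (nat_lit 416) (nat_lit 295))) (XT.nd (nat_lit 78) (nat_lit 76) (nat_lit 0) (XT.lf (nat_lit 0) (nat_lit 2117420614) (nat_lit 152) (nat_lit 16295447560) (nat_lit 228) (nat_lit 5382783077) (nat_lit 100) (nat_lit 5) (nat_lit 102) (nat_lit 5) (nat_lit 103) (nat_lit 5) (nat_lit 490) (nat_lit 416) (nat_lit 294)) (XT.lf (nat_lit 0) (nat_lit 632958936) (nat_lit 228) (nat_lit 7667997423) (nat_lit 76) (nat_lit 15956506390) (nat_lit 99) (nat_lit 5) (nat_lit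 102) (nat_lit 5) (nat_lit 100) (nat_lit 5) (nat_lit 491) (nat_lit 416) (nat_lit 293)))) (XT.nd (nat_lit 156) (nat_lit 456) (nat_lit 0) (XT.nd (nat_lit 78) (nat_lit 0) (nat_lit 0) (XT.lf (nat_lit 0) (nat_lit 6774384227) (nat_lit 304) (nat_lit 17909514817) (nat_lit 76) (nat_lit 46029835) (nat_lit 96) (nat_lit 5) (nat_lit 100) (nat_lit 5) (nat_lit 97) (nat_lit 5) (nat_lit 492) (nat_lit 416) (nat_lit 292)) (XT.lf (nat_lit 0) (nat_lit 13247898789) (nat_lit 304) (nat_lit 3418084633) (nat_lit 76) (nat_lit 8546151262) (nat_lit 96) (nat_lit 5) (nat_lit 100) (nat_lit 5) (nat_lit 97) (nat_lit 5) (nat_lit 493) (nat_lit 416) (nat_lit 291))) (XT.nd (nat_lit 78) (nat_lit 304) (nat_lit 0) (XT.lf (nat_lit 0) (nat_lit 11715784662) (nat_lit 152) (nat_lit 8300279081) (nat_lit 228) (nat_lit 5689730629) (nat_lit 94) (nat_lit 5) (nat_lit 96) (nat_lit 5) (nat_lit 97) (nat_lit 5) (nat_lit 494) (nat_lit 416) (nat_lit 290)) (XT.lf (nat_lit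 0) (nat_lit 795225444) (nat_lit 304) (nat_lit 25062209817) (nat_lit 76) (nat_lit 355487671) (nat_lit 90) (nat_lit 5) (nat_lit 94) (nat_lit 5) (nat_lit 91) (nat_lit 5) (nat_lit 495) (nat_lit 416) (nat_lit 289))))))))
noncomputable def xc136 : XT := (XT.nd (nat_lit 2340) (nat_lit 1520) (nat_lit 0) (XT.nd (nat_lit 1170) (nat_lit 1292) (nat_lit 0) (XT.nd (nat_lit 546) (nat_lit 760) (nat_lit 0) (XT.nd (nat_lit 234) (nat_lit 532) (nat_lit 0) (XT.nd (nat_lit 78) (nat_lit 152) (nat_lit 0) (XT.lf (nat_lit 0) (nat_lit 7573154530) (nat_lit 304) (nat_lit 9859530944) (nat_lit 76) (nat_lit 9294507353) (nat_lit 90) (nat_lit 5) (nat_lit 94) (nat_lit 5) (nat_lit 91) (nat_lit 5) (nat_lit 496) (nat_lit 416) (nat_lit 288)) (XT.nd (nat_lit 78) (nat_lit 0) (nat_lit 0) (XT.lf (nat_lit 0) (nat_lit 5893821300) (nat_lit 152) (nat_lit 8705537637) (nat_lit 228) (nat_lit 12656184698) (nat_lit 88) (nat_lit 5) (nat_lit 90) (nat_lit 5) (nat_lit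 91) (nat_lit 5) (nat_lit 497) (nat_lit 416) (nat_lit 287)) (XT.lf (nat_lit 0) (nat_lit 21927967898) (nat_lit 228) (nat_lit 5499064926) (nat_lit 76) (nat_lit 369964502) (nat_lit 88) (nat_lit 5) (nat_lit 91) (nat_lit 5) (nat_lit 89) (nat_lit 5) (nat_lit 498) (nat_lit 416) (nat_lit 286)))) (XT.nd (nat_lit 156) (nat_lit 304) (nat_lit 0) (XT.nd (nat_lit 78) (nat_lit 0) (nat_lit 0) (XT.lf (nat_lit 0) (nat_lit 1281742186) (nat_lit 228) (nat_lit 17414848898) (nat_lit 76) (nat_lit 9652324191) (nat_lit 85) (nat_lit 5) (nat_lit 88) (nat_lit 5) (nat_lit 86) (nat_lit 5) (nat_lit 499) (nat_lit 416) (nat_lit 285)) (XT.lf (nat_lit 0) (nat_lit 8573869344) (nat_lit 228) (nat_lit 1021382186) (nat_lit 76) (nat_lit 19319052968) (nat_lit 85) (nat_lit 5) (nat_lit 88) (nat_lit 5) (nat_lit 86) (nat_lit 5) (nat_lit 500) (nat_lit 416) (nat_lit 284))) (XT.nd (nat_lit 78) (nat_lit 152) (nat_lit 0) (XT.lf (nat_lit 0) (nat_lit 16159890888) (nat_lit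 152) (nat_lit 69251389) (nat_lit 228) (nat_lit 13263182470) (nat_lit 83) (nat_lit 5) (nat_lit 85) (nat_lit 5) (nat_lit 86) (nat_lit 5) (nat_lit 501) (nat_lit 416) (nat_lit 283)) (XT.lf (nat_lit 0) (nat_lit 3750198747) (nat_lit 152) (nat_lit 20493089359) (nat_lit 228) (nat_lit 5840521845) (nat_lit 81) (nat_lit 5) (nat_lit 83) (nat_lit 5) (nat_lit 84) (nat_lit 5) (nat_lit 502) (nat_lit 416) (nat_lit 282))))) (XT.nd (nat_lit 312) (nat_lit 380) (nat_lit 0) (XT.nd (nat_lit 156) (nat_lit 152) (nat_lit 0) (XT.nd (nat_lit 78) (nat_lit 152) (nat_lit 0) (XT.lf (nat_lit 0) (nat_lit 1895374031) (nat_lit 228) (nat_lit 9109174537) (nat_lit 76) (nat_lit 19684198194) (nat_lit 80) (nat_lit 5) (nat_lit 83) (nat_lit 5) (nat_lit 81) (nat_lit 5) (nat_lit 503) (nat_lit 416) (nat_lit 281)) (XT.lf (nat_lit 0) (nat_lit 8725583154) (nat_lit 152) (nat_lit 1093691209) (nat_lit 228) (nat_lit 21488623737) (nat_lit 78) (nat_lit 5) (nat_lit 80)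 (nat_lit 5) (nat_lit 81) (nat_lit 5) (nat_lit 504) (nat_lit 416) (nat_lit 280))) (XT.nd (nat_lit 78) (nat_lit 152) (nat_lit 0) (XT.lf (nat_lit 0) (nat_lit 18150890894) (nat_lit 228) (nat_lit 4768178835) (nat_lit 76) (nat_lit 9021454971) (nat_lit 78) (nat_lit 5) (nat_lit 81) (nat_lit 5) (nat_lit 79) (nat_lit 5) (nat_lit 505) (nat_lit 416) (nat_lit 279)) (XT.lf (nat_lit 0) (nat_lit 13820896442) (nat_lit 152) (nat_lit 13045038719) (nat_lit 228) (nat_lit 5722191238) (nat_lit 76) (nat_lit 5) (nat_lit 78) (nat_lit 5) (nat_lit 79) (nat_lit 5) (nat_lit 506) (nat_lit 416) (nat_lit 278)))) (XT.nd (nat_lit 156) (nat_lit 152) (nat_lit 0) (XT.nd (nat_lit 78) (nat_lit 152) (nat_lit 0) (XT.lf (nat_lit 0) (nat_lit 2575231314) (nat_lit 228) (nat_lit 232047021) (nat_lit 76) (nat_lit 30445979028) (nat_lit 75) (nat_lit 5) (nat_lit 78) (nat_lit 5) (nat_lit 76) (nat_lit 5) (nat_lit 507) (nat_lit 416) (nat_lit 277)) (XT.lf (nat_lit 0)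 (nat_lit 11257530769) (nat_lit 228) (nat_lit 14849553047) (nat_lit 76) (nat_lit 7822030462) (nat_lit 73) (nat_lit 5) (nat_lit 76) (nat_lit 5) (nat_lit 74) (nat_lit 5) (nat_lit 508) (nat_lit 416) (nat_lit 276))) (XT.nd (nat_lit 78) (nat_lit 0) (nat_lit 0) (XT.lf (nat_lit 0) (nat_lit 4390063031) (nat_lit 152) (nat_lit 15872753954) (nat_lit 228) (nat_lit 14360554983) (nat_lit 71) (nat_lit 5) (nat_lit 73) (nat_lit 5) (nat_lit 74) (nat_lit 5) (nat_lit 509) (nat_lit 416) (nat_lit 275)) (XT.lf (nat_lit 0) (nat_lit 24493561452) (nat_lit 152) (nat_lit 5184924744) (nat_lit 228) (nat_lit 5655765046) (nat_lit 71) (nat_lit 5) (nat_lit 73) (nat_lit 5) (nat_lit 74) (nat_lit 5) (nat_lit 510) (nat_lit 416) (nat_lit 274)))))) (XT.nd (nat_lit 546) (nat_lit 608) (nat_lit 0) (XT.nd (nat_lit 234) (nat_lit 304) (nat_lit 0) (XT.nd (nat_lit 78) (nat_lit 152) (nat_lit 0) (XT.lf (nat_lit 0) (nat_lit 3382202237) (nat_lit 228) (nat_lit 26854911947)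 (nat_lit 76) (nat_lit 5824289872) (nat_lit 68) (nat_lit 5) (nat_lit 71) (nat_lit 5) (nat_lit 69) (nat_lit 5) (nat_lit 511) (nat_lit 416) (nat_lit 273)) (XT.nd (nat_lit 78) (nat_lit 152) (nat_lit 0) (XT.lf (nat_lit 0) (nat_lit 12730022512) (nat_lit 228) (nat_lit 6855611882) (nat_lit 76) (nat_lit 17218485987) (nat_lit 68) (nat_lit 5) (nat_lit 71) (nat_lit 5) (nat_lit 69) (nat_lit 5) (nat_lit 512) (nat_lit 416) (nat_lit 272)) (XT.lf (nat_lit 0) (nat_lit 13999943816) (nat_lit 152) (nat_lit 8483686101) (nat_lit 228) (nat_lit 15081728224) (nat_lit 66) (nat_lit 5) (nat_lit 68) (nat_lit 5) (nat_lit 69) (nat_lit 5) (nat_lit 513) (nat_lit 416) (nat_lit 271)))) (XT.nd (nat_lit 156) (nat_lit 152) (nat_lit 0) (XT.nd (nat_lit 78) (nat_lit 152) (nat_lit 0) (XT.lf (nat_lit 0) (nat_lit 32618939919) (nat_lit 228) (nat_lit 2771659517) (nat_lit 76) (nat_lit 2956161272) (nat_lit 66) (nat_lit 5) (nat_lit 69) (nat_lit 5) (nat_lit 67)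 (nat_lit 4) (nat_lit 514) (nat_lit 416) (nat_lit 270)) (XT.lf (nat_lit 0) (nat_lit 4089906578) (nat_lit 152) (nat_lit 20269448049) (nat_lit 76) (nat_lit 14783341494) (nat_lit 64) (nat_lit 5) (nat_lit 66) (nat_lit 5) (nat_lit 65) (nat_lit 5) (nat_lit 515) (nat_lit 416) (nat_lit 269))) (XT.nd (nat_lit 78) (nat_lit 0) (nat_lit 0) (XT.lf (nat_lit 0) (nat_lit 1212857972) (nat_lit 152) (nat_lit 12905202353) (nat_lit 228) (nat_lit 25841817857) (nat_lit 62) (nat_lit 5) (nat_lit 64) (nat_lit 5) (nat_lit 65) (nat_lit 5) (nat_lit 516) (nat_lit 416) (nat_lit 268)) (XT.lf (nat_lit 0) (nat_lit 23738828169) (nat_lit 152) (nat_lit 904108743) (nat_lit 228) (nat_lit 16152762895) (nat_lit 62) (nat_lit 5) (nat_lit 64) (nat_lit 5) (nat_lit 65) (nat_lit 5) (nat_lit 517) (nat_lit 416) (nat_lit 267))))) (XT.nd (nat_lit 312) (nat_lit 304) (nat_lit 0) (XT.nd (nat_lit 156) (nat_lit 152) (nat_lit 0) (XT.nd (nat_lit 78) (nat_lit 76) (nat_lit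 0) (XT.lf (nat_lit 0) (nat_lit 5260479830) (nat_lit 76) (nat_lit 30375161690) (nat_lit 152) (nat_lit 6016392544) (nat_lit 61) (nat_lit 5) (nat_lit 62) (nat_lit 5) (nat_lit 63) (nat_lit 4) (nat_lit 518) (nat_lit 416) (nat_lit 266)) (XT.lf (nat_lit 0) (nat_lit 4512033931) (nat_lit 152) (nat_lit 14001109091) (nat_lit 76) (nat_lit 24014411095) (nat_lit 60) (nat_lit 5) (nat_lit 62) (nat_lit 5) (nat_lit 61) (nat_lit 5) (nat_lit 519) (nat_lit 416) (nat_lit 265))) (XT.nd (nat_lit 78) (nat_lit 0) (nat_lit 0) (XT.lf (nat_lit 0) (nat_lit 9164750319) (nat_lit 152) (nat_lit 6150383765) (nat_lit 228) (nat_lit 28110026706) (nat_lit 58) (nat_lit 5) (nat_lit 60) (nat_lit 5) (nat_lit 61) (nat_lit 5) (nat_lit 520) (nat_lit 416) (nat_lit 264)) (XT.lf (nat_lit 0) (nat_lit 26640066664) (nat_lit 228) (nat_lit 11113136589) (nat_lit 76) (nat_lit 6590560617) (nat_lit 58) (nat_lit 5) (nat_lit 61) (nat_lit 5) (nat_lit 59) (nat_lit 4) (nat_lit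 521) (nat_lit 416) (nat_lit 263)))) (XT.nd (nat_lit 156) (nat_lit 152) (nat_lit 0) (XT.nd (nat_lit 78) (nat_lit 76) (nat_lit 0) (XT.lf (nat_lit 0) (nat_lit 12904329983) (nat_lit 76) (nat_lit 25577272484) (nat_lit 152) (nat_lit 6803017291) (nat_lit 57) (nat_lit 5) (nat_lit 58) (nat_lit 5) (nat_lit 59) (nat_lit 4) (nat_lit 522) (nat_lit 416) (nat_lit 262)) (XT.lf (nat_lit 0) (nat_lit 4443601399) (nat_lit 152) (nat_lit 8439002760) (nat_lit 76) (nat_lit 33366663738) (nat_lit 56) (nat_lit 5) (nat_lit 58) (nat_lit 5) (nat_lit 57) (nat_lit 5) (nat_lit 523) (nat_lit 416) (nat_lit 261))) (XT.nd (nat_lit 78) (nat_lit 0) (nat_lit 0) (XT.lf (nat_lit 0) (nat_lit 16045289546) (nat_lit 228) (nat_lit 30780703959) (nat_lit 76) (nat_lit 410209477) (nat_lit 54) (nat_lit 5) (nat_lit 57) (nat_lit 5) (nat_lit 55) (nat_lit 4) (nat_lit 524) (nat_lit 416) (nat_lit 260)) (XT.lf (nat_lit 0) (nat_lit 28200825677) (nat_lit 228) (nat_lit 6123491553)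 (nat_lit 76) (nat_lit 13922255303) (nat_lit 54) (nat_lit 5) (nat_lit 57) (nat_lit 5) (nat_lit 55) (nat_lit 4) (nat_lit 525) (nat_lit 416) (nat_lit 259))))))) (XT.nd (nat_lit 1170) (nat_lit 456) (nat_lit 0) (XT.nd (nat_lit 546) (nat_lit 456) (nat_lit 0) (XT.nd (nat_lit 234) (nat_lit 304) (nat_lit 0) (XT.nd (nat_lit 78) (nat_lit 228) (nat_lit 0) (XT.lf (nat_lit 0) (nat_lit 19642426050) (nat_lit 76) (nat_lit 21259830146) (nat_lit 152) (nat_lit 8379560450) (nat_lit 53) (nat_lit 5) (nat_lit 54) (nat_lit 5) (nat_lit 55) (nat_lit 4) (nat_lit 526) (nat_lit 416) (nat_lit 258)) (XT.nd (nat_lit 78) (nat_lit 152) (nat_lit 0) (XT.lf (nat_lit 0) (nat_lit 3620519155) (nat_lit 152) (nat_lit 4089302331) (nat_lit 76) (nat_lit 42635602051) (nat_lit 52) (nat_lit 5) (nat_lit 54) (nat_lit 5) (nat_lit 53) (nat_lit 5) (nat_lit 527) (nat_lit 416) (nat_lit 257)) (XT.lf (nat_lit 0) (nat_lit 16084743089) (nat_lit 228) (nat_lit 28924253434)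 (nat_lit 76) (nat_lit 6421276545) (nat_lit 50) (nat_lit 5) (nat_lit 53) (nat_lit 5) (nat_lit 51) (nat_lit 4) (nat_lit 528) (nat_lit 416) (nat_lit 256)))) (XT.nd (nat_lit 156) (nat_lit 228) (nat_lit 0) (XT.nd (nat_lit 78) (nat_lit 76) (nat_lit 0) (XT.lf (nat_lit 0) (nat_lit 29033595144) (nat_lit 228) (nat_lit 2654064402) (nat_lit 76) (nat_lit 20856687786) (nat_lit 50) (nat_lit 5) (nat_lit 53) (nat_lit 5) (nat_lit 51) (nat_lit 4) (nat_lit 529) (nat_lit 416) (nat_lit 255)) (XT.lf (nat_lit 0) (nat_lit 24876139432) (nat_lit 76) (nat_lit 17726775425) (nat_lit 152) (nat_lit 11081969183) (nat_lit 49) (nat_lit 5) (nat_lit 50) (nat_lit 5) (nat_lit 51) (nat_lit 4) (nat_lit 530) (nat_lit 416) (nat_lit 254))) (XT.nd (nat_lit 78) (nat_lit 152) (nat_lit 0) (XT.lf (nat_lit 0) (nat_lit 1706072659) (nat_lit 152) (nat_lit 1602496967) (nat_lit 76) (nat_lit 51549972994) (nat_lit 48) (nat_lit 5) (nat_lit 50) (nat_lit 5) (nat_lit 49)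 (nat_lit 5) (nat_lit 531) (nat_lit 416) (nat_lit 253)) (XT.lf (nat_lit 0) (nat_lit 15020456842) (nat_lit 228) (nat_lit 29350672184) (nat_lit 76) (nat_lit 11682027384) (nat_lit 46) (nat_lit 5) (nat_lit 49) (nat_lit 5) (nat_lit 47) (nat_lit 4) (nat_lit 532) (nat_lit 416) (nat_lit 252))))) (XT.nd (nat_lit 312) (nat_lit 228) (nat_lit 0) (XT.nd (nat_lit 156) (nat_lit 152) (nat_lit 0) (XT.nd (nat_lit 78) (nat_lit 76) (nat_lit 0) (XT.lf (nat_lit 0) (nat_lit 28776483279) (nat_lit 228) (nat_lit 1439723555) (nat_lit 76) (nat_lit 27066135706) (nat_lit 46) (nat_lit 5) (nat_lit 49) (nat_lit 5) (nat_lit 47) (nat_lit 4) (nat_lit 533) (nat_lit 416) (nat_lit 251)) (XT.lf (nat_lit 0) (nat_lit 27839029638) (nat_lit 76) (nat_lit 15367077644) (nat_lit 152) (nat_lit 15334469709) (nat_lit 45) (nat_lit 5) (nat_lit 46) (nat_lit 5) (nat_lit 47) (nat_lit 4) (nat_lit 534) (nat_lit 416) (nat_lit 250))) (XT.nd (nat_lit 78) (nat_lit 152) (nat_lit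 0) (XT.lf (nat_lit 0) (nat_lit 58013019850) (nat_lit 76) (nat_lit 63522868) (nat_lit 152) (nat_lit 1759778311) (nat_lit 45) (nat_lit 5) (nat_lit 46) (nat_lit 5) (nat_lit 47) (nat_lit 4) (nat_lit 535) (nat_lit 416) (nat_lit 249)) (XT.lf (nat_lit 0) (nat_lit 12404347338) (nat_lit 152) (nat_lit 32969638138) (nat_lit 76) (nat_lit 15780806775) (nat_lit 43) (nat_lit 5) (nat_lit 45) (nat_lit 5) (nat_lit 44) (nat_lit 4) (nat_lit 536) (nat_lit 416) (nat_lit 248)))) (XT.nd (nat_lit 156) (nat_lit 152) (nat_lit 0) (XT.nd (nat_lit 78) (nat_lit 76) (nat_lit 0) (XT.lf (nat_lit 0) (nat_lit 26970777715) (nat_lit 152) (nat_lit 3411675569) (nat_lit 76) (nat_lit 32129459311) (nat_lit 43) (nat_lit 5) (nat_lit 45) (nat_lit 5) (nat_lit 44) (nat_lit 4) (nat_lit 537) (nat_lit 416) (nat_lit 247)) (XT.lf (nat_lit 0) (nat_lit 27558743325) (nat_lit 76) (nat_lit 14674085447) (nat_lit 152) (nat_lit 21669159150) (nat_lit 42) (nat_lit 5) (nat_lit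 43) (nat_lit 5) (nat_lit 44) (nat_lit 4) (nat_lit 538) (nat_lit 416) (nat_lit 246))) (XT.nd (nat_lit 78) (nat_lit 152) (nat_lit 0) (XT.lf (nat_lit 0) (nat_lit 57995735397) (nat_lit 152) (nat_lit 5831400811) (nat_lit 0) (nat_lit 1505339685) (nat_lit 42) (nat_lit 5) (nat_lit 44) (nat_lit 4) (nat_lit 42) (nat_lit 4) (nat_lit 539) (nat_lit 416) (nat_lit 245)) (XT.lf (nat_lit 0) (nat_lit 7673197012) (nat_lit 152) (nat_lit 40924370861) (nat_lit 76) (nat_lit 18194395997) (nat_lit 40) (nat_lit 5) (nat_lit 42) (nat_lit 5) (nat_lit 41) (nat_lit 4) (nat_lit 540) (nat_lit 416) (nat_lit 244)))))) (XT.nd (nat_lit 546) (nat_lit 152) (nat_lit 0) (XT.nd (nat_lit 234) (nat_lit 228) (nat_lit 0) (XT.nd (nat_lit 78) (nat_lit 76) (nat_lit 0) (XT.lf (nat_lit 0) (nat_lit 23039358387) (nat_lit 152) (nat_lit 9741320633) (nat_lit 76) (nat_lit 35510776812) (nat_lit 40) (nat_lit 5) (nat_lit 42) (nat_lit 5) (nat_lit 41) (nat_lit 4) (nat_lit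 541) (nat_lit 416) (nat_lit 243)) (XT.nd (nat_lit 78) (nat_lit 0) (nat_lit 0) (XT.lf (nat_lit 0) (nat_lit 22810965252) (nat_lit 76) (nat_lit 16268907663) (nat_lit 152) (nat_lit 30749658769) (nat_lit 39) (nat_lit 5) (nat_lit 40) (nat_lit 5) (nat_lit 41) (nat_lit 4) (nat_lit 542) (nat_lit 416) (nat_lit 242)) (XT.lf (nat_lit 0) (nat_lit 55702148101) (nat_lit 152) (nat_lit 14890753266) (nat_lit 0) (nat_lit 817832261) (nat_lit 39) (nat_lit 5) (nat_lit 41) (nat_lit 4) (nat_lit 39) (nat_lit 4) (nat_lit 543) (nat_lit 416) (nat_lit 241)))) (XT.nd (nat_lit 156) (nat_lit 76) (nat_lit 0) (XT.nd (nat_lit 78) (nat_lit 0) (nat_lit 0) (XT.lf (nat_lit 0) (nat_lit 123337658) (nat_lit 152) (nat_lit 54643053927) (nat_lit 76) (nat_lit 18262980659) (nat_lit 37) (nat_lit 5) (nat_lit 39) (nat_lit 5) (nat_lit 38) (nat_lit 4) (nat_lit 544) (nat_lit 416) (nat_lit 240)) (XT.lf (nat_lit 0) (nat_lit 16260631388) (nat_lit 152) (nat_lit 21893195748)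 (nat_lit 76) (nat_lit 36533692931) (nat_lit 37) (nat_lit 5) (nat_lit 39) (nat_lit 5) (nat_lit 38) (nat_lit 4) (nat_lit 545) (nat_lit 416) (nat_lit 239))) (XT.nd (nat_lit 78) (nat_lit 0) (nat_lit 0) (XT.lf (nat_lit 0) (nat_lit 12063823813) (nat_lit 76) (nat_lit 20928635133) (nat_lit 152) (nat_lit 43399641083) (nat_lit 36) (nat_lit 5) (nat_lit 37) (nat_lit 5) (nat_lit 38) (nat_lit 4) (nat_lit 546) (nat_lit 416) (nat_lit 238)) (XT.lf (nat_lit 0) (nat_lit 47477705317) (nat_lit 76) (nat_lit 2964123914) (nat_lit 152) (nat_lit 27699520671) (nat_lit 36) (nat_lit 5) (nat_lit 37) (nat_lit 5) (nat_lit 38) (nat_lit 4) (nat_lit 547) (nat_lit 416) (nat_lit 237))))) (XT.nd (nat_lit 52338) (nat_lit 0) (nat_lit 22800) (XT.nd (nat_lit 156) (nat_lit 0) (nat_lit 0) (XT.nd (nat_lit 78) (nat_lit 76) (nat_lit 0) (XT.lf (nat_lit 0) (nat_lit 3927757330) (nat_lit 76) (nat_lit 64668674208) (nat_lit 76) (nat_lit 11341193352) (nat_lit 35)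 (nat_lit 4) (nat_lit 36) (nat_lit 5) (nat_lit 36) (nat_lit 4) (nat_lit 548) (nat_lit 416) (nat_lit 236)) (XT.lf (nat_lit 0) (nat_lit 5737087242) (nat_lit 152) (nat_lit 41688826195) (nat_lit 76) (nat_lit 34350186010) (nat_lit 34) (nat_lit 5) (nat_lit 36) (nat_lit 5) (nat_lit 35) (nat_lit 4) (nat_lit 549) (nat_lit 416) (nat_lit 235))) (XT.nd (nat_lit 52104) (nat_lit 0) (nat_lit 23788) (XT.lf (nat_lit 0) (nat_lit 23094551917) (nat_lit 152) (nat_lit 6460583043) (nat_lit 76) (nat_lit 54111381271) (nat_lit 34) (nat_lit 5) (nat_lit 36) (nat_lit 5) (nat_lit 35) (nat_lit 4) (nat_lit 550) (nat_lit 416) (nat_lit 234)) (XT.lf (nat_lit 0) (nat_lit 1848030356) (nat_lit 0) (nat_lit 1848030356) (nat_lit 836) (nat_lit 139336838) (nat_lit 347) (nat_lit 5) (nat_lit 347) (nat_lit 3) (nat_lit 358) (nat_lit 3) (nat_lit 417) (nat_lit 417) (nat_lit 366)))) (XT.nd (nat_lit 156) (nat_lit 0) (nat_lit 76) (XT.nd (nat_lit 78) (nat_lit 0) (nat_lit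 76) (XT.lf (nat_lit 0) (nat_lit 1074352336) (nat_lit 988) (nat_lit 204326577) (nat_lit 988) (nat_lit 6466333210) (nat_lit 334) (nat_lit 3) (nat_lit 347) (nat_lit 3) (nat_lit 347) (nat_lit 5) (nat_lit 418) (nat_lit 417) (nat_lit 365)) (XT.lf (nat_lit 0) (nat_lit 2457663011) (nat_lit 912) (nat_lit 4112280416) (nat_lit 988) (nat_lit 1251585275) (nat_lit 335) (nat_lit 5) (nat_lit 347) (nat_lit 5) (nat_lit 348) (nat_lit 5) (nat_lit 419) (nat_lit 417) (nat_lit 364))) (XT.nd (nat_lit 78) (nat_lit 0) (nat_lit 0) (XT.lf (nat_lit 0) (nat_lit 3845978339) (nat_lit 912) (nat_lit 197243712) (nat_lit 988) (nat_lit 3858227810) (nat_lit 335) (nat_lit 5) (nat_lit 347) (nat_lit 5) (nat_lit 348) (nat_lit 5) (nat_lit 420) (nat_lit 417) (nat_lit 363)) (XT.lf (nat_lit 76) (nat_lit 3883151266) (nat_lit 0) (nat_lit 1380372889) (nat_lit 988) (nat_lit 2720630897) (nat_lit 336) (nat_lit 5) (nat_lit 335) (nat_lit 5) (nat_lit 348) (nat_lit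 5) (nat_lit 421) (nat_lit 417) (nat_lit 362))))))))
noncomputable def xc137 : XT := (XT.nd (nat_lit 2340) (nat_lit 6612) (nat_lit 0) (XT.nd (nat_lit 1170) (nat_lit 5928) (nat_lit 0) (XT.nd (nat_lit 546) (nat_lit 3040) (nat_lit 0) (XT.nd (nat_lit 234) (nat_lit 0) (nat_lit 76) (XT.nd (nat_lit 78) (nat_lit 988) (nat_lit 0) (XT.lf (nat_lit 0) (nat_lit 6690342733) (nat_lit 912) (nat_lit 21661574) (nat_lit 988) (nat_lit 1358348124) (nat_lit 336) (nat_lit 5) (nat_lit 348) (nat_lit 5) (nat_lit 349) (nat_lit 5) (nat_lit 422) (nat_lit 417) (nat_lit 361)) (XT.nd (nat_lit 78) (nat_lit 0) (nat_lit 0) (XT.lf (nat_lit 0) (nat_lit 8156370) (nat_lit 988) (nat_lit 3938675815) (nat_lit 1064) (nat_lit 4212095687) (nat_lit 323) (nat_lit 5) (nat_lit 336) (nat_lit 5) (nat_lit 337) (nat_lit 5) (nat_lit 423) (nat_lit 417) (nat_lit 360)) (XT.lf (nat_lit 76) (nat_lit 302888984) (nat_lit 0) (nat_lit 1064152352) (nat_lit 1064) (nat_lit 6884017301)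 (nat_lit 324) (nat_lit 5) (nat_lit 323) (nat_lit 5) (nat_lit 337) (nat_lit 5) (nat_lit 424) (nat_lit 417) (nat_lit 359)))) (XT.nd (nat_lit 156) (nat_lit 0) (nat_lit 0) (XT.nd (nat_lit 78) (nat_lit 0) (nat_lit 0) (XT.lf (nat_lit 0) (nat_lit 2780080693) (nat_lit 988) (nat_lit 3641337963) (nat_lit 1064) (nat_lit 1924144960) (nat_lit 324) (nat_lit 5) (nat_lit 337) (nat_lit 5) (nat_lit 338) (nat_lit 5) (nat_lit 425) (nat_lit 417) (nat_lit 358)) (XT.lf (nat_lit 76) (nat_lit 769754405) (nat_lit 0) (nat_lit 3439914711) (nat_lit 1064) (nat_lit 4234021472) (nat_lit 325) (nat_lit 5) (nat_lit 324) (nat_lit 5) (nat_lit 338) (nat_lit 5) (nat_lit 426) (nat_lit 417) (nat_lit 357))) (XT.nd (nat_lit 78) (nat_lit 0) (nat_lit 76) (XT.lf (nat_lit 76) (nat_lit 5358683130) (nat_lit 0) (nat_lit 317449774) (nat_lit 1064) (nat_lit 2868820077) (nat_lit 325) (nat_lit 5) (nat_lit 324) (nat_lit 5) (nat_lit 338) (nat_lit 5) (nat_lit 427) (nat_lit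 417) (nat_lit 356)) (XT.lf (nat_lit 76) (nat_lit 1405921224) (nat_lit 0) (nat_lit 5780638682) (nat_lit 1064) (nat_lit 1462705176) (nat_lit 326) (nat_lit 5) (nat_lit 325) (nat_lit 5) (nat_lit 339) (nat_lit 5) (nat_lit 428) (nat_lit 417) (nat_lit 355))))) (XT.nd (nat_lit 312) (nat_lit 2204) (nat_lit 0) (XT.nd (nat_lit 156) (nat_lit 0) (nat_lit 0) (XT.nd (nat_lit 78) (nat_lit 988) (nat_lit 0) (XT.lf (nat_lit 76) (nat_lit 6168602901) (nat_lit 0) (nat_lit 2568498530) (nat_lit 1064) (nat_lit 19771661) (nat_lit 326) (nat_lit 5) (nat_lit 325) (nat_lit 5) (nat_lit 339) (nat_lit 5) (nat_lit 429) (nat_lit 417) (nat_lit 354)) (XT.lf (nat_lit 0) (nat_lit 1426897294) (nat_lit 1064) (nat_lit 6669335538) (nat_lit 1140) (nat_lit 771391712) (nat_lit 312) (nat_lit 5) (nat_lit 326) (nat_lit 5) (nat_lit 327) (nat_lit 5) (nat_lit 430) (nat_lit 417) (nat_lit 353))) (XT.nd (nat_lit 78) (nat_lit 0) (nat_lit 0) (XT.lf (nat_lit 0) (nat_lit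 2929660537) (nat_lit 1064) (nat_lit 1855608018) (nat_lit 1140) (nat_lit 4196041062) (nat_lit 312) (nat_lit 5) (nat_lit 326) (nat_lit 5) (nat_lit 327) (nat_lit 5) (nat_lit 431) (nat_lit 417) (nat_lit 352)) (XT.lf (nat_lit 76) (nat_lit 3134264602) (nat_lit 0) (nat_lit 1335764427) (nat_lit 1140) (nat_lit 4628609960) (nat_lit 313) (nat_lit 5) (nat_lit 312) (nat_lit 5) (nat_lit 327) (nat_lit 5) (nat_lit 432) (nat_lit 417) (nat_lit 351)))) (XT.nd (nat_lit 156) (nat_lit 1216) (nat_lit 0) (XT.nd (nat_lit 78) (nat_lit 1064) (nat_lit 0) (XT.lf (nat_lit 0) (nat_lit 6060128083) (nat_lit 1064) (nat_lit 958878834) (nat_lit 76) (nat_lit 2200384879) (nat_lit 313) (nat_lit 5) (nat_lit 327) (nat_lit 5) (nat_lit 314) (nat_lit 5) (nat_lit 433) (nat_lit 417) (nat_lit 350)) (XT.lf (nat_lit 0) (nat_lit 4236789040) (nat_lit 1064) (nat_lit 3479445163) (nat_lit 1140) (nat_lit 1626992737) (nat_lit 299) (nat_lit 5) (nat_lit 313) (nat_lit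 5) (nat_lit 314) (nat_lit 5) (nat_lit 434) (nat_lit 417) (nat_lit 349))) (XT.nd (nat_lit 78) (nat_lit 76) (nat_lit 0) (XT.lf (nat_lit 0) (nat_lit 107638330) (nat_lit 1140) (nat_lit 9291962424) (nat_lit 1216) (nat_lit 71857685) (nat_lit 284) (nat_lit 5) (nat_lit 299) (nat_lit 5) (nat_lit 300) (nat_lit 5) (nat_lit 435) (nat_lit 417) (nat_lit 348)) (XT.lf (nat_lit 0) (nat_lit 1552148369) (nat_lit 1216) (nat_lit 4099504340) (nat_lit 76) (nat_lit 3949888952) (nat_lit 283) (nat_lit 5) (nat_lit 299) (nat_lit 5) (nat_lit 284) (nat_lit 5) (nat_lit 436) (nat_lit 417) (nat_lit 347)))))) (XT.nd (nat_lit 546) (nat_lit 2660) (nat_lit 0) (XT.nd (nat_lit 234) (nat_lit 1292) (nat_lit 0) (XT.nd (nat_lit 78) (nat_lit 760) (nat_lit 0) (XT.lf (nat_lit 0) (nat_lit 1317979921) (nat_lit 1216) (nat_lit 1884669079) (nat_lit 1292) (nat_lit 6533488363) (nat_lit 267) (nat_lit 5) (nat_lit 283) (nat_lit 5) (nat_lit 284) (nat_lit 5) (nat_lit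 437) (nat_lit 417) (nat_lit 346)) (XT.nd (nat_lit 78) (nat_lit 760) (nat_lit 0) (XT.lf (nat_lit 0) (nat_lit 4930923694) (nat_lit 1292) (nat_lit 2941592857) (nat_lit 76) (nat_lit 2001414269) (nat_lit 267) (nat_lit 5) (nat_lit 284) (nat_lit 5) (nat_lit 268) (nat_lit 5) (nat_lit 438) (nat_lit 417) (nat_lit 345)) (XT.lf (nat_lit 0) (nat_lit 2703758729) (nat_lit 760) (nat_lit 4020163357) (nat_lit 836) (nat_lit 3291557164) (nat_lit 257) (nat_lit 5) (nat_lit 267) (nat_lit 5) (nat_lit 268) (nat_lit 5) (nat_lit 439) (nat_lit 417) (nat_lit 344)))) (XT.nd (nat_lit 156) (nat_lit 608) (nat_lit 0) (XT.nd (nat_lit 78) (nat_lit 684) (nat_lit 0) (XT.lf (nat_lit 0) (nat_lit 8549451008) (nat_lit 760) (nat_lit 19832570) (nat_lit 836) (nat_lit 1592040577) (nat_lit 257) (nat_lit 5) (nat_lit 267) (nat_lit 5) (nat_lit 268) (nat_lit 5) (nat_lit 440) (nat_lit 417) (nat_lit 343)) (XT.lf (nat_lit 0) (nat_lit 206149421) (nat_lit 684) (nat_lit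 6038514726) (nat_lit 76) (nat_lit 4065317963) (nat_lit 248) (nat_lit 5) (nat_lit 257) (nat_lit 5) (nat_lit 249) (nat_lit 5) (nat_lit 441) (nat_lit 417) (nat_lit 342))) (XT.nd (nat_lit 78) (nat_lit 608) (nat_lit 0) (XT.lf (nat_lit 0) (nat_lit 2013013638) (nat_lit 684) (nat_lit 144091764) (nat_lit 76) (nat_lit 8305926314) (nat_lit 248) (nat_lit 5) (nat_lit 257) (nat_lit 5) (nat_lit 249) (nat_lit 5) (nat_lit 442) (nat_lit 417) (nat_lit 341)) (XT.lf (nat_lit 0) (nat_lit 3923184054) (nat_lit 684) (nat_lit 4624417931) (nat_lit 76) (nat_lit 2071604228) (nat_lit 240) (nat_lit 5) (nat_lit 249) (nat_lit 5) (nat_lit 241) (nat_lit 5) (nat_lit 443) (nat_lit 417) (nat_lit 340))))) (XT.nd (nat_lit 312) (nat_lit 1520) (nat_lit 0) (XT.nd (nat_lit 156) (nat_lit 608) (nat_lit 0) (XT.nd (nat_lit 78) (nat_lit 0) (nat_lit 0) (XT.lf (nat_lit 0) (nat_lit 1519626640) (nat_lit 532) (nat_lit 4380001453) (nat_lit 608) (nat_lit 4880175023)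 (nat_lit 233) (nat_lit 5) (nat_lit 240) (nat_lit 5) (nat_lit 241) (nat_lit 5) (nat_lit 444) (nat_lit 417) (nat_lit 339)) (XT.lf (nat_lit 0) (nat_lit 7913655984) (nat_lit 532) (nat_lit 40490087) (nat_lit 608) (nat_lit 2990514477) (nat_lit 233) (nat_lit 5) (nat_lit 240) (nat_lit 5) (nat_lit 241) (nat_lit 5) (nat_lit 445) (nat_lit 417) (nat_lit 338))) (XT.nd (nat_lit 78) (nat_lit 76) (nat_lit 0) (XT.lf (nat_lit 0) (nat_lit 3379317197) (nat_lit 532) (nat_lit 6738927537) (nat_lit 608) (nat_lit 994786485) (nat_lit 226) (nat_lit 5) (nat_lit 233) (nat_lit 5) (nat_lit 234) (nat_lit 5) (nat_lit 446) (nat_lit 417) (nat_lit 337)) (XT.lf (nat_lit 0) (nat_lit 1044552910) (nat_lit 608) (nat_lit 1281701500) (nat_lit 76) (nat_lit 8959765018) (nat_lit 225) (nat_lit 5) (nat_lit 233) (nat_lit 5) (nat_lit 226) (nat_lit 5) (nat_lit 447) (nat_lit 417) (nat_lit 336)))) (XT.nd (nat_lit 156) (nat_lit 456) (nat_lit 0) (XT.nd (nat_lit 78)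 (nat_lit 532) (nat_lit 0) (XT.lf (nat_lit 0) (nat_lit 3173120527) (nat_lit 608) (nat_lit 6053524855) (nat_lit 76) (nat_lit 2235820522) (nat_lit 218) (nat_lit 5) (nat_lit 226) (nat_lit 5) (nat_lit 219) (nat_lit 5) (nat_lit 448) (nat_lit 417) (nat_lit 335)) (XT.lf (nat_lit 0) (nat_lit 643188746) (nat_lit 532) (nat_lit 4739017115) (nat_lit 608) (nat_lit 6261505307) (nat_lit 211) (nat_lit 5) (nat_lit 218) (nat_lit 5) (nat_lit 219) (nat_lit 5) (nat_lit 449) (nat_lit 417) (nat_lit 334))) (XT.nd (nat_lit 78) (nat_lit 456) (nat_lit 0) (XT.lf (nat_lit 0) (nat_lit 7636218187) (nat_lit 532) (nat_lit 57319926) (nat_lit 608) (nat_lit 4135781508) (nat_lit 211) (nat_lit 5) (nat_lit 218) (nat_lit 5) (nat_lit 219) (nat_lit 5) (nat_lit 450) (nat_lit 417) (nat_lit 333)) (XT.lf (nat_lit 0) (nat_lit 2798808236) (nat_lit 456) (nat_lit 7323653800) (nat_lit 532) (nat_lit 1896591652) (nat_lit 205) (nat_lit 5) (nat_lit 211) (nat_lit 5)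 (nat_lit 212) (nat_lit 5) (nat_lit 451) (nat_lit 417) (nat_lit 332))))))) (XT.nd (nat_lit 1170) (nat_lit 2812) (nat_lit 0) (XT.nd (nat_lit 546) (nat_lit 1900) (nat_lit 0) (XT.nd (nat_lit 234) (nat_lit 912) (nat_lit 0) (XT.nd (nat_lit 78) (nat_lit 912) (nat_lit 0) (XT.lf (nat_lit 0) (nat_lit 420850107) (nat_lit 532) (nat_lit 2160459453) (nat_lit 76) (nat_lit 9632484510) (nat_lit 204) (nat_lit 5) (nat_lit 211) (nat_lit 5) (nat_lit 205) (nat_lit 5) (nat_lit 452) (nat_lit 417) (nat_lit 331)) (XT.nd (nat_lit 78) (nat_lit 456) (nat_lit 0) (XT.lf (nat_lit 0) (nat_lit 2818573078) (nat_lit 532) (nat_lit 7270593471) (nat_lit 76) (nat_lit 2323184939) (nat_lit 198) (nat_lit 5) (nat_lit 205) (nat_lit 5) (nat_lit 199) (nat_lit 5) (nat_lit 453) (nat_lit 417) (nat_lit 330)) (XT.lf (nat_lit 0) (nat_lit 37784411) (nat_lit 456) (nat_lit 5275223304) (nat_lit 532) (nat_lit 7303118881) (nat_lit 192) (nat_lit 5) (nat_lit 198) (nat_lit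 5) (nat_lit 199) (nat_lit 5) (nat_lit 454) (nat_lit 417) (nat_lit 329)))) (XT.nd (nat_lit 156) (nat_lit 456) (nat_lit 0) (XT.nd (nat_lit 78) (nat_lit 456) (nat_lit 0) (XT.lf (nat_lit 0) (nat_lit 7686433545) (nat_lit 456) (nat_lit 246493024) (nat_lit 532) (nat_lit 4891573091) (nat_lit 192) (nat_lit 5) (nat_lit 198) (nat_lit 5) (nat_lit 199) (nat_lit 5) (nat_lit 455) (nat_lit 417) (nat_lit 328)) (XT.lf (nat_lit 0) (nat_lit 2498939345) (nat_lit 456) (nat_lit 8181791499) (nat_lit 532) (nat_lit 2356918552) (nat_lit 186) (nat_lit 5) (nat_lit 192) (nat_lit 5) (nat_lit 193) (nat_lit 5) (nat_lit 456) (nat_lit 417) (nat_lit 327))) (XT.nd (nat_lit 78) (nat_lit 380) (nat_lit 0) (XT.lf (nat_lit 0) (nat_lit 281669655) (nat_lit 532) (nat_lit 2818641520) (nat_lit 76) (nat_lit 10155827762) (nat_lit 185) (nat_lit 5) (nat_lit 192) (nat_lit 5) (nat_lit 186) (nat_lit 5) (nat_lit 457) (nat_lit 417) (nat_lit 326)) (XT.lf (nat_lit 0)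 (nat_lit 3001698443) (nat_lit 456) (nat_lit 8317141034) (nat_lit 76) (nat_lit 2160157738) (nat_lit 180) (nat_lit 5) (nat_lit 186) (nat_lit 5) (nat_lit 181) (nat_lit 5) (nat_lit 458) (nat_lit 417) (nat_lit 325))))) (XT.nd (nat_lit 312) (nat_lit 1064) (nat_lit 0) (XT.nd (nat_lit 156) (nat_lit 456) (nat_lit 0) (XT.nd (nat_lit 78) (nat_lit 380) (nat_lit 0) (XT.lf (nat_lit 0) (nat_lit 5841723171) (nat_lit 456) (nat_lit 326602858) (nat_lit 76) (nat_lit 7539067017) (nat_lit 180) (nat_lit 5) (nat_lit 186) (nat_lit 5) (nat_lit 181) (nat_lit 5) (nat_lit 459) (nat_lit 417) (nat_lit 324)) (XT.lf (nat_lit 0) (nat_lit 8033733352) (nat_lit 380) (nat_lit 790007792) (nat_lit 456) (nat_lit 5117199383) (nat_lit 175) (nat_lit 5) (nat_lit 180) (nat_lit 5) (nat_lit 181) (nat_lit 5) (nat_lit 460) (nat_lit 417) (nat_lit 323))) (XT.nd (nat_lit 78) (nat_lit 76) (nat_lit 0) (XT.lf (nat_lit 0) (nat_lit 2445236382) (nat_lit 380) (nat_lit 9502323323)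 (nat_lit 456) (nat_lit 2232367970) (nat_lit 170) (nat_lit 5) (nat_lit 175) (nat_lit 5) (nat_lit 176) (nat_lit 5) (nat_lit 461) (nat_lit 417) (nat_lit 322)) (XT.lf (nat_lit 0) (nat_lit 772629669) (nat_lit 456) (nat_lit 3297572177) (nat_lit 76) (nat_lit 10354231469) (nat_lit 169) (nat_lit 5) (nat_lit 175) (nat_lit 5) (nat_lit 170) (nat_lit 5) (nat_lit 462) (nat_lit 417) (nat_lit 321)))) (XT.nd (nat_lit 156) (nat_lit 684) (nat_lit 0) (XT.nd (nat_lit 78) (nat_lit 0) (nat_lit 0) (XT.lf (nat_lit 0) (nat_lit 3871194445) (nat_lit 456) (nat_lit 9239353078) (nat_lit 76) (nat_lit 1563618107) (nat_lit 164) (nat_lit 5) (nat_lit 170) (nat_lit 5) (nat_lit 165) (nat_lit 5) (nat_lit 463) (nat_lit 417) (nat_lit 320)) (XT.lf (nat_lit 0) (nat_lit 7117454386) (nat_lit 456) (nat_lit 500822621) (nat_lit 76) (nat_lit 7311473823) (nat_lit 164) (nat_lit 5) (nat_lit 170) (nat_lit 5) (nat_lit 165) (nat_lit 5) (nat_lit 464) (nat_lit 417) (nat_lit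 319))) (XT.nd (nat_lit 78) (nat_lit 380) (nat_lit 0) (XT.lf (nat_lit 0) (nat_lit 8642719405) (nat_lit 304) (nat_lit 1882831233) (nat_lit 380) (nat_lit 4665522466) (nat_lit 160) (nat_lit 5) (nat_lit 164) (nat_lit 5) (nat_lit 165) (nat_lit 5) (nat_lit 465) (nat_lit 417) (nat_lit 318)) (XT.lf (nat_lit 0) (nat_lit 2596657504) (nat_lit 380) (nat_lit 11489585224) (nat_lit 456) (nat_lit 1372484615) (nat_lit 155) (nat_lit 5) (nat_lit 160) (nat_lit 5) (nat_lit 161) (nat_lit 5) (nat_lit 466) (nat_lit 417) (nat_lit 317)))))) (XT.nd (nat_lit 624) (nat_lit 1444) (nat_lit 0) (XT.nd (nat_lit 312) (nat_lit 684) (nat_lit 0) (XT.nd (nat_lit 156) (nat_lit 304) (nat_lit 0) (XT.nd (nat_lit 78) (nat_lit 304) (nat_lit 0) (XT.lf (nat_lit 0) (nat_lit 2047065231) (nat_lit 456) (nat_lit 3647018685) (nat_lit 76) (nat_lit 10037733915) (nat_lit 154) (nat_lit 5) (nat_lit 160) (nat_lit 5) (nat_lit 155) (nat_lit 5) (nat_lit 467) (nat_lit 417)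 (nat_lit 316)) (XT.lf (nat_lit 0) (nat_lit 5584040248) (nat_lit 380) (nat_lit 10093732295) (nat_lit 76) (nat_lit 333650733) (nat_lit 150) (nat_lit 5) (nat_lit 155) (nat_lit 5) (nat_lit 151) (nat_lit 5) (nat_lit 468) (nat_lit 417) (nat_lit 315))) (XT.nd (nat_lit 78) (nat_lit 304) (nat_lit 0) (XT.lf (nat_lit 0) (nat_lit 9303132687) (nat_lit 380) (nat_lit 536532546) (nat_lit 76) (nat_lit 6457473972) (nat_lit 150) (nat_lit 5) (nat_lit 155) (nat_lit 5) (nat_lit 151) (nat_lit 5) (nat_lit 469) (nat_lit 417) (nat_lit 314)) (XT.lf (nat_lit 0) (nat_lit 9467288126) (nat_lit 304) (nat_lit 3740465364) (nat_lit 380) (nat_lit 3381456943) (nat_lit 146) (nat_lit 5) (nat_lit 150) (nat_lit 5) (nat_lit 151) (nat_lit 5) (nat_lit 470) (nat_lit 417) (nat_lit 313)))) (XT.nd (nat_lit 156) (nat_lit 304) (nat_lit 0) (XT.nd (nat_lit 78) (nat_lit 0) (nat_lit 0) (XT.lf (nat_lit 0) (nat_lit 374157891) (nat_lit 380) (nat_lit 13993078353) (nat_lit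 76) (nat_lit 2521472616) (nat_lit 141) (nat_lit 5) (nat_lit 146) (nat_lit 5) (nat_lit 142) (nat_lit 5) (nat_lit 471) (nat_lit 417) (nat_lit 312)) (XT.lf (nat_lit 0) (nat_lit 4267362713) (nat_lit 380) (nat_lit 3931672958) (nat_lit 76) (nat_lit 8994367887) (nat_lit 141) (nat_lit 5) (nat_lit 146) (nat_lit 5) (nat_lit 142) (nat_lit 5) (nat_lit 472) (nat_lit 417) (nat_lit 311))) (XT.nd (nat_lit 78) (nat_lit 0) (nat_lit 0) (XT.lf (nat_lit 0) (nat_lit 6534707323) (nat_lit 304) (nat_lit 1789182315) (nat_lit 380) (nat_lit 9181955896) (nat_lit 137) (nat_lit 5) (nat_lit 141) (nat_lit 5) (nat_lit 142) (nat_lit 5) (nat_lit 473) (nat_lit 417) (nat_lit 310)) (XT.lf (nat_lit 0) (nat_lit 12572347722) (nat_lit 380) (nat_lit 502003157) (nat_lit 76) (nat_lit 4751204974) (nat_lit 137) (nat_lit 5) (nat_lit 142) (nat_lit 5) (nat_lit 138) (nat_lit 5) (nat_lit 474) (nat_lit 417) (nat_lit 309))))) (XT.nd (nat_lit 312) (nat_lit 608) (nat_lit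 0) (XT.nd (nat_lit 156) (nat_lit 228) (nat_lit 0) (XT.nd (nat_lit 78) (nat_lit 380) (nat_lit 0) (XT.lf (nat_lit 0) (nat_lit 10443445916) (nat_lit 228) (nat_lit 6607261657) (nat_lit 304) (nat_lit 1101078556) (nat_lit 134) (nat_lit 5) (nat_lit 137) (nat_lit 5) (nat_lit 138) (nat_lit 5) (nat_lit 475) (nat_lit 417) (nat_lit 308)) (XT.lf (nat_lit 0) (nat_lit 3135514690) (nat_lit 380) (nat_lit 15238561498) (nat_lit 76) (nat_lit 112157286) (nat_lit 129) (nat_lit 5) (nat_lit 134) (nat_lit 5) (nat_lit 130) (nat_lit 5) (nat_lit 476) (nat_lit 417) (nat_lit 307))) (XT.nd (nat_lit 78) (nat_lit 228) (nat_lit 0) (XT.lf (nat_lit 0) (nat_lit 7605668529) (nat_lit 380) (nat_lit 4239153088) (nat_lit 76) (nat_lit 6981709677) (nat_lit 129) (nat_lit 5) (nat_lit 134) (nat_lit 5) (nat_lit 130) (nat_lit 5) (nat_lit 477) (nat_lit 417) (nat_lit 306)) (XT.lf (nat_lit 0) (nat_lit 7207522008) (nat_lit 228) (nat_lit 5056702789) (nat_lit 304)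 (nat_lit 6911186170) (nat_lit 126) (nat_lit 5) (nat_lit 129) (nat_lit 5) (nat_lit 130) (nat_lit 5) (nat_lit 478) (nat_lit 417) (nat_lit 305)))) (XT.nd (nat_lit 156) (nat_lit 228) (nat_lit 0) (XT.nd (nat_lit 78) (nat_lit 380) (nat_lit 0) (XT.lf (nat_lit 0) (nat_lit 17109518153) (nat_lit 304) (nat_lit 491497614) (nat_lit 76) (nat_lit 1932333650) (nat_lit 126) (nat_lit 5) (nat_lit 130) (nat_lit 5) (nat_lit 127) (nat_lit 5) (nat_lit 479) (nat_lit 417) (nat_lit 304)) (XT.lf (nat_lit 0) (nat_lit 2302697785) (nat_lit 380) (nat_lit 8439892920) (nat_lit 76) (nat_lit 9154379698) (nat_lit 121) (nat_lit 5) (nat_lit 126) (nat_lit 5) (nat_lit 122) (nat_lit 5) (nat_lit 480) (nat_lit 417) (nat_lit 303))) (XT.nd (nat_lit 78) (nat_lit 0) (nat_lit 0) (XT.lf (nat_lit 0) (nat_lit 3524690617) (nat_lit 228) (nat_lit 3622150715) (nat_lit 304) (nat_lit 13123204324) (nat_lit 118) (nat_lit 5) (nat_lit 121) (nat_lit 5) (nat_lit 122) (nat_lit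 5) (nat_lit 481) (nat_lit 417) (nat_lit 302)) (XT.lf (nat_lit 0) (nat_lit 12243820746) (nat_lit 304) (nat_lit 4690055774) (nat_lit 76) (nat_lit 3717212900) (nat_lit 118) (nat_lit 5) (nat_lit 122) (nat_lit 5) (nat_lit 119) (nat_lit 5) (nat_lit 482) (nat_lit 417) (nat_lit 301))))))))
noncomputable def xc138 : XT := (XT.nd (nat_lit 2340) (nat_lit 2128) (nat_lit 0) (XT.nd (nat_lit 1170) (nat_lit 1672) (nat_lit 0) (XT.nd (nat_lit 546) (nat_lit 1140) (nat_lit 0) (XT.nd (nat_lit 234) (nat_lit 456) (nat_lit 0) (XT.nd (nat_lit 78) (nat_lit 304) (nat_lit 0) (XT.lf (nat_lit 0) (nat_lit 7821336121) (nat_lit 228) (nat_lit 9769594800) (nat_lit 304) (nat_lit 3449718485) (nat_lit 115) (nat_lit 5) (nat_lit 118) (nat_lit 5) (nat_lit 119) (nat_lit 5) (nat_lit 483) (nat_lit 417) (nat_lit 300)) (XT.nd (nat_lit 78) (nat_lit 228) (nat_lit 0) (XT.lf (nat_lit 0) (nat_lit 1658290796) (nat_lit 304) (nat_lit 675039393) (nat_lit 76) (nat_lit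 19107068010) (nat_lit 114) (nat_lit 5) (nat_lit 118) (nat_lit 5) (nat_lit 115) (nat_lit 5) (nat_lit 484) (nat_lit 417) (nat_lit 299)) (XT.lf (nat_lit 0) (nat_lit 7008978917) (nat_lit 304) (nat_lit 9468295236) (nat_lit 76) (nat_lit 5369078818) (nat_lit 111) (nat_lit 5) (nat_lit 115) (nat_lit 5) (nat_lit 112) (nat_lit 5) (nat_lit 485) (nat_lit 417) (nat_lit 298)))) (XT.nd (nat_lit 156) (nat_lit 228) (nat_lit 0) (XT.nd (nat_lit 78) (nat_lit 0) (nat_lit 0) (XT.lf (nat_lit 0) (nat_lit 3597499400) (nat_lit 228) (nat_lit 8973988326) (nat_lit 304) (nat_lit 9691461038) (nat_lit 108) (nat_lit 5) (nat_lit 111) (nat_lit 5) (nat_lit 112) (nat_lit 5) (nat_lit 486) (nat_lit 417) (nat_lit 297)) (XT.lf (nat_lit 0) (nat_lit 17227738178) (nat_lit 228) (nat_lit 1155655784) (nat_lit 304) (nat_lit 4306174143) (nat_lit 108) (nat_lit 5) (nat_lit 111) (nat_lit 5) (nat_lit 112) (nat_lit 5) (nat_lit 487) (nat_lit 417) (nat_lit 296))) (XT.nd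 (nat_lit 78) (nat_lit 0) (nat_lit 0) (XT.lf (nat_lit 0) (nat_lit 1350208849) (nat_lit 228) (nat_lit 14927730640) (nat_lit 76) (nat_lit 6846677592) (nat_lit 105) (nat_lit 5) (nat_lit 108) (nat_lit 5) (nat_lit 106) (nat_lit 5) (nat_lit 488) (nat_lit 417) (nat_lit 295)) (XT.lf (nat_lit 0) (nat_lit 7144131645) (nat_lit 228) (nat_lit 1269699803) (nat_lit 76) (nat_lit 15155976297) (nat_lit 105) (nat_lit 5) (nat_lit 108) (nat_lit 5) (nat_lit 106) (nat_lit 5) (nat_lit 489) (nat_lit 417) (nat_lit 294))))) (XT.nd (nat_lit 312) (nat_lit 456) (nat_lit 0) (XT.nd (nat_lit 156) (nat_lit 304) (nat_lit 0) (XT.nd (nat_lit 78) (nat_lit 152) (nat_lit 0) (XT.lf (nat_lit 0) (nat_lit 13031648146) (nat_lit 228) (nat_lit 193119494) (nat_lit 304) (nat_lit 10800200813) (nat_lit 102) (nat_lit 5) (nat_lit 105) (nat_lit 5) (nat_lit 106) (nat_lit 5) (nat_lit 490) (nat_lit 417) (nat_lit 293)) (XT.lf (nat_lit 0) (nat_lit 3257769170) (nat_lit 152)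 (nat_lit 16341565112) (nat_lit 228) (nat_lit 4891105507) (nat_lit 100) (nat_lit 5) (nat_lit 102) (nat_lit 5) (nat_lit 103) (nat_lit 5) (nat_lit 491) (nat_lit 417) (nat_lit 292))) (XT.nd (nat_lit 78) (nat_lit 228) (nat_lit 0) (XT.lf (nat_lit 0) (nat_lit 1273710362) (nat_lit 228) (nat_lit 6840145740) (nat_lit 76) (nat_lit 16852622416) (nat_lit 99) (nat_lit 5) (nat_lit 102) (nat_lit 5) (nat_lit 100) (nat_lit 5) (nat_lit 492) (nat_lit 417) (nat_lit 291)) (XT.lf (nat_lit 0) (nat_lit 7595508152) (nat_lit 304) (nat_lit 17384984772) (nat_lit 76) (nat_lit 472743424) (nat_lit 96) (nat_lit 5) (nat_lit 100) (nat_lit 5) (nat_lit 97) (nat_lit 5) (nat_lit 493) (nat_lit 417) (nat_lit 290)))) (XT.nd (nat_lit 156) (nat_lit 304) (nat_lit 0) (XT.nd (nat_lit 78) (nat_lit 152) (nat_lit 0) (XT.lf (nat_lit 0) (nat_lit 14245231285) (nat_lit 304) (nat_lit 2489738348) (nat_lit 76) (nat_lit 9215480163) (nat_lit 96) (nat_lit 5) (nat_lit 100)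 (nat_lit 5) (nat_lit 97) (nat_lit 5) (nat_lit 494) (nat_lit 417) (nat_lit 289)) (XT.lf (nat_lit 0) (nat_lit 13088040273) (nat_lit 152) (nat_lit 8120740611) (nat_lit 228) (nat_lit 5250369716) (nat_lit 94) (nat_lit 5) (nat_lit 96) (nat_lit 5) (nat_lit 97) (nat_lit 5) (nat_lit 495) (nat_lit 417) (nat_lit 288))) (XT.nd (nat_lit 78) (nat_lit 0) (nat_lit 0) (XT.lf (nat_lit 0) (nat_lit 1413792035) (nat_lit 304) (nat_lit 24777854318) (nat_lit 76) (nat_lit 789775326) (nat_lit 90) (nat_lit 5) (nat_lit 94) (nat_lit 5) (nat_lit 91) (nat_lit 5) (nat_lit 496) (nat_lit 417) (nat_lit 287)) (XT.lf (nat_lit 0) (nat_lit 8377737349) (nat_lit 304) (nat_lit 9149276296) (nat_lit 76) (nat_lit 9984627065) (nat_lit 90) (nat_lit 5) (nat_lit 94) (nat_lit 5) (nat_lit 91) (nat_lit 5) (nat_lit 497) (nat_lit 417) (nat_lit 286)))))) (XT.nd (nat_lit 546) (nat_lit 912) (nat_lit 0) (XT.nd (nat_lit 234) (nat_lit 380) (nat_lit 0) (XT.nd (nat_lit 78)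 (nat_lit 228) (nat_lit 0) (XT.lf (nat_lit 0) (nat_lit 7066813372) (nat_lit 152) (nat_lit 8540673251) (nat_lit 228) (nat_lit 12448574003) (nat_lit 88) (nat_lit 5) (nat_lit 90) (nat_lit 5) (nat_lit 91) (nat_lit 5) (nat_lit 498) (nat_lit 417) (nat_lit 285)) (XT.nd (nat_lit 78) (nat_lit 228) (nat_lit 0) (XT.lf (nat_lit 0) (nat_lit 23143323619) (nat_lit 228) (nat_lit 4684200481) (nat_lit 76) (nat_lit 786614044) (nat_lit 88) (nat_lit 5) (nat_lit 91) (nat_lit 5) (nat_lit 89) (nat_lit 5) (nat_lit 499) (nat_lit 417) (nat_lit 284)) (XT.lf (nat_lit 0) (nat_lit 1876292269) (nat_lit 228) (nat_lit 16955955675) (nat_lit 76) (nat_lit 10350410755) (nat_lit 85) (nat_lit 5) (nat_lit 88) (nat_lit 5) (nat_lit 86) (nat_lit 5) (nat_lit 500) (nat_lit 417) (nat_lit 283)))) (XT.nd (nat_lit 156) (nat_lit 228) (nat_lit 0) (XT.nd (nat_lit 78) (nat_lit 152) (nat_lit 0) (XT.lf (nat_lit 0) (nat_lit 9370986218) (nat_lit 228) (nat_lit 99267642)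 (nat_lit 76) (nat_lit 20295242847) (nat_lit 85) (nat_lit 5) (nat_lit 88) (nat_lit 5) (nat_lit 86) (nat_lit 5) (nat_lit 501) (nat_lit 417) (nat_lit 282)) (XT.lf (nat_lit 0) (nat_lit 17252517917) (nat_lit 228) (nat_lit 12776212703) (nat_lit 76) (nat_lit 332230089) (nat_lit 83) (nat_lit 5) (nat_lit 86) (nat_lit 5) (nat_lit 84) (nat_lit 5) (nat_lit 502) (nat_lit 417) (nat_lit 281))) (XT.nd (nat_lit 78) (nat_lit 76) (nat_lit 0) (XT.lf (nat_lit 0) (nat_lit 4808845494) (nat_lit 152) (nat_lit 20692376943) (nat_lit 228) (nat_lit 5469145130) (nat_lit 81) (nat_lit 5) (nat_lit 83) (nat_lit 5) (nat_lit 84) (nat_lit 5) (nat_lit 503) (nat_lit 417) (nat_lit 280)) (XT.lf (nat_lit 0) (nat_lit 2472552129) (nat_lit 228) (nat_lit 8453475709) (nat_lit 76) (nat_lit 20667736368) (nat_lit 80) (nat_lit 5) (nat_lit 83) (nat_lit 5) (nat_lit 81) (nat_lit 5) (nat_lit 504) (nat_lit 417) (nat_lit 279))))) (XT.nd (nat_lit 312) (nat_lit 380) (nat_lit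 0) (XT.nd (nat_lit 156) (nat_lit 380) (nat_lit 0) (XT.nd (nat_lit 78) (nat_lit 0) (nat_lit 0) (XT.lf (nat_lit 0) (nat_lit 9907217124) (nat_lit 152) (nat_lit 720639806) (nat_lit 228) (nat_lit 21603823563) (nat_lit 78) (nat_lit 5) (nat_lit 80) (nat_lit 5) (nat_lit 81) (nat_lit 5) (nat_lit 505) (nat_lit 417) (nat_lit 278)) (XT.lf (nat_lit 0) (nat_lit 19198238719) (nat_lit 228) (nat_lit 4006933297) (nat_lit 76) (nat_lit 9678450375) (nat_lit 78) (nat_lit 5) (nat_lit 81) (nat_lit 5) (nat_lit 79) (nat_lit 5) (nat_lit 506) (nat_lit 417) (nat_lit 277))) (XT.nd (nat_lit 78) (nat_lit 228) (nat_lit 0) (XT.lf (nat_lit 0) (nat_lit 15130948642) (nat_lit 152) (nat_lit 13037747775) (nat_lit 228) (nat_lit 5382137836) (nat_lit 76) (nat_lit 5) (nat_lit 78) (nat_lit 5) (nat_lit 79) (nat_lit 5) (nat_lit 507) (nat_lit 417) (nat_lit 276)) (XT.lf (nat_lit 0) (nat_lit 652800234) (nat_lit 152) (nat_lit 2493083189) (nat_lit 228) (nat_lit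 31090139225) (nat_lit 73) (nat_lit 5) (nat_lit 75) (nat_lit 5) (nat_lit 76) (nat_lit 5) (nat_lit 508) (nat_lit 417) (nat_lit 275)))) (XT.nd (nat_lit 156) (nat_lit 228) (nat_lit 0) (XT.nd (nat_lit 78) (nat_lit 152) (nat_lit 0) (XT.lf (nat_lit 0) (nat_lit 12080296871) (nat_lit 228) (nat_lit 14413859889) (nat_lit 76) (nat_lit 8438250050) (nat_lit 73) (nat_lit 5) (nat_lit 76) (nat_lit 5) (nat_lit 74) (nat_lit 5) (nat_lit 509) (nat_lit 417) (nat_lit 274)) (XT.lf (nat_lit 0) (nat_lit 5394305654) (nat_lit 152) (nat_lit 15955696030) (nat_lit 228) (nat_lit 14297663611) (nat_lit 71) (nat_lit 5) (nat_lit 73) (nat_lit 5) (nat_lit 74) (nat_lit 5) (nat_lit 510) (nat_lit 417) (nat_lit 273))) (XT.nd (nat_lit 78) (nat_lit 228) (nat_lit 0) (XT.lf (nat_lit 0) (nat_lit 26075495220) (nat_lit 152) (nat_lit 4958685552) (nat_lit 228) (nat_lit 5346109821) (nat_lit 71) (nat_lit 5) (nat_lit 73) (nat_lit 5) (nat_lit 74) (nat_lit 5) (nat_lit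 511) (nat_lit 417) (nat_lit 272)) (XT.lf (nat_lit 0) (nat_lit 3951795118) (nat_lit 228) (nat_lit 26802177469) (nat_lit 76) (nat_lit 6375203406) (nat_lit 68) (nat_lit 5) (nat_lit 71) (nat_lit 5) (nat_lit 69) (nat_lit 5) (nat_lit 512) (nat_lit 417) (nat_lit 271))))))) (XT.nd (nat_lit 1170) (nat_lit 988) (nat_lit 0) (XT.nd (nat_lit 546) (nat_lit 608) (nat_lit 0) (XT.nd (nat_lit 234) (nat_lit 380) (nat_lit 0) (XT.nd (nat_lit 78) (nat_lit 152) (nat_lit 0) (XT.lf (nat_lit 0) (nat_lit 13566415240) (nat_lit 228) (nat_lit 6227899814) (nat_lit 76) (nat_lit 18100268566) (nat_lit 68) (nat_lit 5) (nat_lit 71) (nat_lit 5) (nat_lit 69) (nat_lit 5) (nat_lit 513) (nat_lit 417) (nat_lit 270)) (XT.nd (nat_lit 78) (nat_lit 0) (nat_lit 0) (XT.lf (nat_lit 0) (nat_lit 15245152159) (nat_lit 152) (nat_lit 8362173500) (nat_lit 228) (nat_lit 15071492756) (nat_lit 66) (nat_lit 5) (nat_lit 68) (nat_lit 5) (nat_lit 69) (nat_lit 5) (nat_lit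 514) (nat_lit 417) (nat_lit 269)) (XT.lf (nat_lit 0) (nat_lit 34037121135) (nat_lit 228) (nat_lit 2044036551) (nat_lit 76) (nat_lit 3402793312) (nat_lit 66) (nat_lit 5) (nat_lit 69) (nat_lit 5) (nat_lit 67) (nat_lit 4) (nat_lit 515) (nat_lit 417) (nat_lit 268)))) (XT.nd (nat_lit 156) (nat_lit 76) (nat_lit 0) (XT.nd (nat_lit 78) (nat_lit 152) (nat_lit 0) (XT.lf (nat_lit 0) (nat_lit 4651454984) (nat_lit 152) (nat_lit 20065950736) (nat_lit 76) (nat_lit 15586382992) (nat_lit 64) (nat_lit 5) (nat_lit 66) (nat_lit 5) (nat_lit 65) (nat_lit 5) (nat_lit 516) (nat_lit 417) (nat_lit 267)) (XT.lf (nat_lit 0) (nat_lit 2052867791) (nat_lit 152) (nat_lit 12922528405) (nat_lit 228) (nat_lit 26170242417) (nat_lit 62) (nat_lit 5) (nat_lit 64) (nat_lit 5) (nat_lit 65) (nat_lit 5) (nat_lit 517) (nat_lit 417) (nat_lit 266))) (XT.nd (nat_lit 78) (nat_lit 76) (nat_lit 0) (XT.lf (nat_lit 0) (nat_lit 25231210568) (nat_lit 152) (nat_lit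 572173734) (nat_lit 228) (nat_lit 16203530271) (nat_lit 62) (nat_lit 5) (nat_lit 64) (nat_lit 5) (nat_lit 65) (nat_lit 5) (nat_lit 518) (nat_lit 417) (nat_lit 265)) (XT.lf (nat_lit 0) (nat_lit 6199977084) (nat_lit 76) (nat_lit 30924491162) (nat_lit 152) (nat_lit 5764513291) (nat_lit 61) (nat_lit 5) (nat_lit 62) (nat_lit 5) (nat_lit 63) (nat_lit 4) (nat_lit 519) (nat_lit 417) (nat_lit 264))))) (XT.nd (nat_lit 312) (nat_lit 304) (nat_lit 0) (XT.nd (nat_lit 156) (nat_lit 76) (nat_lit 0) (XT.nd (nat_lit 78) (nat_lit 152) (nat_lit 0) (XT.lf (nat_lit 0) (nat_lit 5058981273) (nat_lit 152) (nat_lit 13654015963) (nat_lit 76) (nat_lit 25078016287) (nat_lit 60) (nat_lit 5) (nat_lit 62) (nat_lit 5) (nat_lit 61) (nat_lit 5) (nat_lit 520) (nat_lit 417) (nat_lit 263)) (XT.lf (nat_lit 0) (nat_lit 10199298383) (nat_lit 152) (nat_lit 5982189890) (nat_lit 228) (nat_lit 28534201280) (nat_lit 58) (nat_lit 5) (nat_lit 60) (nat_lit 5)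 (nat_lit 61) (nat_lit 5) (nat_lit 521) (nat_lit 417) (nat_lit 262))) (XT.nd (nat_lit 78) (nat_lit 76) (nat_lit 0) (XT.lf (nat_lit 0) (nat_lit 27837609038) (nat_lit 228) (nat_lit 10700471272) (nat_lit 76) (nat_lit 7124027761) (nat_lit 58) (nat_lit 5) (nat_lit 61) (nat_lit 5) (nat_lit 59) (nat_lit 4) (nat_lit 522) (nat_lit 417) (nat_lit 261)) (XT.lf (nat_lit 0) (nat_lit 14030204988) (nat_lit 76) (nat_lit 25999685050) (nat_lit 152) (nat_lit 6601435164) (nat_lit 57) (nat_lit 5) (nat_lit 58) (nat_lit 5) (nat_lit 59) (nat_lit 4) (nat_lit 523) (nat_lit 417) (nat_lit 260)))) (XT.nd (nat_lit 156) (nat_lit 76) (nat_lit 0) (XT.nd (nat_lit 78) (nat_lit 152) (nat_lit 0) (XT.lf (nat_lit 0) (nat_lit 4963080811) (nat_lit 152) (nat_lit 7967242085) (nat_lit 76) (nat_lit 34694820964) (nat_lit 56) (nat_lit 5) (nat_lit 58) (nat_lit 5) (nat_lit 57) (nat_lit 5) (nat_lit 524) (nat_lit 417) (nat_lit 259)) (XT.lf (nat_lit 0) (nat_lit 16911701888)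 (nat_lit 228) (nat_lit 30978060166) (nat_lit 76) (nat_lit 751958969) (nat_lit 54) (nat_lit 5) (nat_lit 57) (nat_lit 5) (nat_lit 55) (nat_lit 4) (nat_lit 525) (nat_lit 417) (nat_lit 258))) (XT.nd (nat_lit 78) (nat_lit 76) (nat_lit 0) (XT.lf (nat_lit 0) (nat_lit 29420688948) (nat_lit 228) (nat_lit 5602278909) (nat_lit 76) (nat_lit 14659770737) (nat_lit 54) (nat_lit 5) (nat_lit 57) (nat_lit 5) (nat_lit 55) (nat_lit 4) (nat_lit 526) (nat_lit 417) (nat_lit 257)) (XT.lf (nat_lit 0) (nat_lit 20929705267) (nat_lit 76) (nat_lit 21569278280) (nat_lit 152) (nat_lit 8250182313) (nat_lit 53) (nat_lit 5) (nat_lit 54) (nat_lit 5) (nat_lit 55) (nat_lit 4) (nat_lit 527) (nat_lit 417) (nat_lit 256)))))) (XT.nd (nat_lit 546) (nat_lit 456) (nat_lit 0) (XT.nd (nat_lit 234) (nat_lit 304) (nat_lit 0) (XT.nd (nat_lit 78) (nat_lit 152) (nat_lit 0) (XT.lf (nat_lit 0) (nat_lit 4091595754) (nat_lit 152) (nat_lit 3527076959) (nat_lit 76) (nat_lit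 44226225093) (nat_lit 52) (nat_lit 5) (nat_lit 54) (nat_lit 5) (nat_lit 53) (nat_lit 5) (nat_lit 528) (nat_lit 417) (nat_lit 255)) (XT.nd (nat_lit 78) (nat_lit 0) (nat_lit 0) (XT.lf (nat_lit 0) (nat_lit 16928782255) (nat_lit 228) (nat_lit 29106098265) (nat_lit 76) (nat_lit 6927441655) (nat_lit 50) (nat_lit 5) (nat_lit 53) (nat_lit 5) (nat_lit 51) (nat_lit 4) (nat_lit 529) (nat_lit 417) (nat_lit 254)) (XT.lf (nat_lit 0) (nat_lit 30255570836) (nat_lit 228) (nat_lit 2067780730) (nat_lit 76) (nat_lit 21786783384) (nat_lit 50) (nat_lit 5) (nat_lit 53) (nat_lit 5) (nat_lit 51) (nat_lit 4) (nat_lit 530) (nat_lit 417) (nat_lit 253)))) (XT.nd (nat_lit 156) (nat_lit 152) (nat_lit 0) (XT.nd (nat_lit 78) (nat_lit 76) (nat_lit 0) (XT.lf (nat_lit 0) (nat_lit 26281800733) (nat_lit 76) (nat_lit 17946285379) (nat_lit 152) (nat_lit 11056918568) (nat_lit 49) (nat_lit 5) (nat_lit 50) (nat_lit 5) (nat_lit 51) (nat_lit 4) (nat_lit 531)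 (nat_lit 417) (nat_lit 252)) (XT.lf (nat_lit 0) (nat_lit 2097578518) (nat_lit 152) (nat_lit 1003614209) (nat_lit 76) (nat_lit 53392883863) (nat_lit 48) (nat_lit 5) (nat_lit 50) (nat_lit 5) (nat_lit 49) (nat_lit 5) (nat_lit 532) (nat_lit 417) (nat_lit 251))) (XT.nd (nat_lit 78) (nat_lit 0) (nat_lit 0) (XT.lf (nat_lit 0) (nat_lit 15810562541) (nat_lit 228) (nat_lit 29583390766) (nat_lit 76) (nat_lit 12330600804) (nat_lit 46) (nat_lit 5) (nat_lit 49) (nat_lit 5) (nat_lit 47) (nat_lit 4) (nat_lit 533) (nat_lit 417) (nat_lit 250)) (XT.lf (nat_lit 0) (nat_lit 29969381655) (nat_lit 228) (nat_lit 853981685) (nat_lit 76) (nat_lit 28167549484) (nat_lit 46) (nat_lit 5) (nat_lit 49) (nat_lit 5) (nat_lit 47) (nat_lit 4) (nat_lit 534) (nat_lit 417) (nat_lit 249))))) (XT.nd (nat_lit 312) (nat_lit 228) (nat_lit 0) (XT.nd (nat_lit 156) (nat_lit 152) (nat_lit 0) (XT.nd (nat_lit 78) (nat_lit 0) (nat_lit 0) (XT.lf (nat_lit 0) (nat_lit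 29296968089) (nat_lit 76) (nat_lit 15531312599) (nat_lit 152) (nat_lit 15458722377) (nat_lit 45) (nat_lit 5) (nat_lit 46) (nat_lit 5) (nat_lit 47) (nat_lit 4) (nat_lit 535) (nat_lit 417) (nat_lit 248)) (XT.lf (nat_lit 0) (nat_lit 60137475102) (nat_lit 152) (nat_lit 1266006235) (nat_lit 0) (nat_lit 218359045) (nat_lit 45) (nat_lit 5) (nat_lit 47) (nat_lit 4) (nat_lit 45) (nat_lit 4) (nat_lit 536) (nat_lit 417) (nat_lit 247))) (XT.nd (nat_lit 78) (nat_lit 0) (nat_lit 0) (XT.lf (nat_lit 0) (nat_lit 13095400260) (nat_lit 152) (nat_lit 33346998282) (nat_lit 76) (nat_lit 16537459250) (nat_lit 43) (nat_lit 5) (nat_lit 45) (nat_lit 5) (nat_lit 44) (nat_lit 4) (nat_lit 537) (nat_lit 417) (nat_lit 246)) (XT.lf (nat_lit 0) (nat_lit 28089534543) (nat_lit 152) (nat_lit 2920114185) (nat_lit 76) (nat_lit 33368321995) (nat_lit 43) (nat_lit 5) (nat_lit 45) (nat_lit 5) (nat_lit 44) (nat_lit 4) (nat_lit 538) (nat_lit 417) (nat_lit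 245)))) (XT.nd (nat_lit 156) (nat_lit 152) (nat_lit 0) (XT.nd (nat_lit 78) (nat_lit 0) (nat_lit 0) (XT.lf (nat_lit 0) (nat_lit 28973594612) (nat_lit 76) (nat_lit 14832487140) (nat_lit 152) (nat_lit 22003767819) (nat_lit 42) (nat_lit 5) (nat_lit 43) (nat_lit 5) (nat_lit 44) (nat_lit 4) (nat_lit 539) (nat_lit 417) (nat_lit 244)) (XT.lf (nat_lit 0) (nat_lit 60035585275) (nat_lit 152) (nat_lit 5429082697) (nat_lit 0) (nat_lit 1818773206) (nat_lit 42) (nat_lit 5) (nat_lit 44) (nat_lit 4) (nat_lit 42) (nat_lit 4) (nat_lit 540) (nat_lit 417) (nat_lit 243))) (XT.nd (nat_lit 78) (nat_lit 0) (nat_lit 0) (XT.lf (nat_lit 0) (nat_lit 8203075261) (nat_lit 152) (nat_lit 41574527894) (nat_lit 76) (nat_lit 19009120059) (nat_lit 40) (nat_lit 5) (nat_lit 42) (nat_lit 5) (nat_lit 41) (nat_lit 4) (nat_lit 541) (nat_lit 417) (nat_lit 242)) (XT.lf (nat_lit 0) (nat_lit 24021492865) (nat_lit 152) (nat_lit 9472808706) (nat_lit 76) (nat_lit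 36837160487) (nat_lit 40) (nat_lit 5) (nat_lit 42) (nat_lit 5) (nat_lit 41) (nat_lit 4) (nat_lit 542) (nat_lit 417) (nat_lit 241))))))))
noncomputable def xc139 : XT := (XT.nd (nat_lit 54444) (nat_lit 0) (nat_lit 8512) (XT.nd (nat_lit 53274) (nat_lit 0) (nat_lit 17708) (XT.nd (nat_lit 546) (nat_lit 76) (nat_lit 0) (XT.nd (nat_lit 234) (nat_lit 152) (nat_lit 0) (XT.nd (nat_lit 78) (nat_lit 152) (nat_lit 0) (XT.lf (nat_lit 0) (nat_lit 24050548192) (nat_lit 76) (nat_lit 16489537697) (nat_lit 152) (nat_lit 31375688661) (nat_lit 39) (nat_lit 5) (nat_lit 40) (nat_lit 5) (nat_lit 41) (nat_lit 4) (nat_lit 543) (nat_lit 417) (nat_lit 240)) (XT.nd (nat_lit 78) (nat_lit 152) (nat_lit 0) (XT.lf (nat_lit 0) (nat_lit 57655142211) (nat_lit 152) (nat_lit 14792498879) (nat_lit 0) (nat_lit 1096948327) (nat_lit 39) (nat_lit 5) (nat_lit 41) (nat_lit 4) (nat_lit 39) (nat_lit 4) (nat_lit 544) (nat_lit 417) (nat_lit 239)) (XT.lf (nat_lit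 0) (nat_lit 408712573) (nat_lit 152) (nat_lit 55737097739) (nat_lit 76) (nat_lit 19065985005) (nat_lit 37) (nat_lit 5) (nat_lit 39) (nat_lit 5) (nat_lit 38) (nat_lit 4) (nat_lit 545) (nat_lit 417) (nat_lit 238)))) (XT.nd (nat_lit 156) (nat_lit 76) (nat_lit 0) (XT.nd (nat_lit 78) (nat_lit 76) (nat_lit 0) (XT.lf (nat_lit 0) (nat_lit 17021920995) (nat_lit 152) (nat_lit 22020624819) (nat_lit 76) (nat_lit 37877388113) (nat_lit 37) (nat_lit 5) (nat_lit 39) (nat_lit 5) (nat_lit 38) (nat_lit 4) (nat_lit 546) (nat_lit 417) (nat_lit 237)) (XT.lf (nat_lit 0) (nat_lit 12949915459) (nat_lit 76) (nat_lit 21302861465) (nat_lit 152) (nat_lit 44422962379) (nat_lit 36) (nat_lit 5) (nat_lit 37) (nat_lit 5) (nat_lit 38) (nat_lit 4) (nat_lit 547) (nat_lit 417) (nat_lit 236))) (XT.nd (nat_lit 78) (nat_lit 76) (nat_lit 0) (XT.lf (nat_lit 0) (nat_lit 49410946119) (nat_lit 76) (nat_lit 2806802270) (nat_lit 152) (nat_lit 28259954896) (nat_lit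 36) (nat_lit 5) (nat_lit 37) (nat_lit 5) (nat_lit 38) (nat_lit 4) (nat_lit 548) (nat_lit 417) (nat_lit 235)) (XT.lf (nat_lit 0) (nat_lit 4554976316) (nat_lit 76) (nat_lit 66361556683) (nat_lit 76) (nat_lit 11411347406) (nat_lit 35) (nat_lit 4) (nat_lit 36) (nat_lit 5) (nat_lit 36) (nat_lit 4) (nat_lit 549) (nat_lit 417) (nat_lit 234))))) (XT.nd (nat_lit 52416) (nat_lit 0) (nat_lit 21964) (XT.nd (nat_lit 52260) (nat_lit 0) (nat_lit 22800) (XT.nd (nat_lit 52182) (nat_lit 0) (nat_lit 22800) (XT.lf (nat_lit 0) (nat_lit 6166298382) (nat_lit 152) (nat_lit 42439817868) (nat_lit 76) (nat_lit 35615546649) (nat_lit 34) (nat_lit 5) (nat_lit 36) (nat_lit 5) (nat_lit 35) (nat_lit 4) (nat_lit 550) (nat_lit 417) (nat_lit 233)) (XT.lf (nat_lit 0) (nat_lit 1197976971) (nat_lit 988) (nat_lit 1355995414) (nat_lit 988) (nat_lit 1355995414) (nat_lit 334) (nat_lit 3) (nat_lit 347) (nat_lit 3) (nat_lit 347) (nat_lit 5) (nat_lit 418)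 (nat_lit 418) (nat_lit 364))) (XT.nd (nat_lit 78) (nat_lit 0) (nat_lit 76) (XT.lf (nat_lit 76) (nat_lit 1151059748) (nat_lit 0) (nat_lit 2565992474) (nat_lit 988) (nat_lit 4181273347) (nat_lit 335) (nat_lit 5) (nat_lit 334) (nat_lit 3) (nat_lit 347) (nat_lit 5) (nat_lit 419) (nat_lit 418) (nat_lit 363)) (XT.lf (nat_lit 0) (nat_lit 5056196145) (nat_lit 912) (nat_lit 2821290861) (nat_lit 988) (nat_lit 102241676) (nat_lit 335) (nat_lit 5) (nat_lit 347) (nat_lit 5) (nat_lit 348) (nat_lit 5) (nat_lit 420) (nat_lit 418) (nat_lit 362)))) (XT.nd (nat_lit 156) (nat_lit 912) (nat_lit 0) (XT.nd (nat_lit 78) (nat_lit 0) (nat_lit 0) (XT.lf (nat_lit 76) (nat_lit 1193287386) (nat_lit 0) (nat_lit 5230806196) (nat_lit 988) (nat_lit 1639836355) (nat_lit 336) (nat_lit 5) (nat_lit 335) (nat_lit 5) (nat_lit 348) (nat_lit 5) (nat_lit 421) (nat_lit 418) (nat_lit 361)) (XT.lf (nat_lit 76) (nat_lit 5359346496) (nat_lit 0) (nat_lit 2455022868)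 (nat_lit 988) (nat_lit 336860657) (nat_lit 336) (nat_lit 5) (nat_lit 335) (nat_lit 5) (nat_lit 348) (nat_lit 5) (nat_lit 422) (nat_lit 418) (nat_lit 360))) (XT.nd (nat_lit 78) (nat_lit 0) (nat_lit 0) (XT.lf (nat_lit 0) (nat_lit 957104115) (nat_lit 988) (nat_lit 6846201967) (nat_lit 1064) (nat_lit 438419981) (nat_lit 323) (nat_lit 5) (nat_lit 336) (nat_lit 5) (nat_lit 337) (nat_lit 5) (nat_lit 423) (nat_lit 418) (nat_lit 359)) (XT.lf (nat_lit 0) (nat_lit 2290923568) (nat_lit 988) (nat_lit 2624450231) (nat_lit 1064) (nat_lit 3419240869) (nat_lit 323) (nat_lit 5) (nat_lit 336) (nat_lit 5) (nat_lit 337) (nat_lit 5) (nat_lit 424) (nat_lit 418) (nat_lit 358)))))) (XT.nd (nat_lit 546) (nat_lit 3344) (nat_lit 0) (XT.nd (nat_lit 234) (nat_lit 912) (nat_lit 0) (XT.nd (nat_lit 78) (nat_lit 0) (nat_lit 76) (XT.lf (nat_lit 76) (nat_lit 1730318514) (nat_lit 0) (nat_lit 1907409310) (nat_lit 1064) (nat_lit 4793384581) (nat_lit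 324) (nat_lit 5) (nat_lit 323) (nat_lit 5) (nat_lit 337) (nat_lit 5) (nat_lit 425) (nat_lit 418) (nat_lit 357)) (XT.nd (nat_lit 78) (nat_lit 0) (nat_lit 0) (XT.lf (nat_lit 0) (nat_lit 5020644497) (nat_lit 988) (nat_lit 2300461720) (nat_lit 1064) (nat_lit 1209538852) (nat_lit 324) (nat_lit 5) (nat_lit 337) (nat_lit 5) (nat_lit 338) (nat_lit 5) (nat_lit 426) (nat_lit 418) (nat_lit 356)) (XT.lf (nat_lit 76) (nat_lit 2228746592) (nat_lit 0) (nat_lit 4215346783) (nat_lit 1064) (nat_lit 2189109911) (nat_lit 325) (nat_lit 5) (nat_lit 324) (nat_lit 5) (nat_lit 338) (nat_lit 5) (nat_lit 427) (nat_lit 418) (nat_lit 355)))) (XT.nd (nat_lit 156) (nat_lit 0) (nat_lit 0) (XT.nd (nat_lit 78) (nat_lit 988) (nat_lit 0) (XT.lf (nat_lit 76) (nat_lit 6913520861) (nat_lit 0) (nat_lit 979628248) (nat_lit 1064) (nat_lit 846212636) (nat_lit 325) (nat_lit 5) (nat_lit 324) (nat_lit 5) (nat_lit 338) (nat_lit 5) (nat_lit 428) (nat_lit 418)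 (nat_lit 354)) (XT.lf (nat_lit 0) (nat_lit 538022835) (nat_lit 1064) (nat_lit 5957593728) (nat_lit 1140) (nat_lit 2352597647) (nat_lit 311) (nat_lit 5) (nat_lit 325) (nat_lit 5) (nat_lit 326) (nat_lit 5) (nat_lit 429) (nat_lit 418) (nat_lit 353))) (XT.nd (nat_lit 78) (nat_lit 0) (nat_lit 76) (XT.lf (nat_lit 0) (nat_lit 1936547376) (nat_lit 1064) (nat_lit 1220510678) (nat_lit 1140) (nat_lit 5803339442) (nat_lit 311) (nat_lit 5) (nat_lit 325) (nat_lit 5) (nat_lit 326) (nat_lit 5) (nat_lit 430) (nat_lit 418) (nat_lit 352)) (XT.lf (nat_lit 0) (nat_lit 3378353601) (nat_lit 1064) (nat_lit 5375860453) (nat_lit 1140) (nat_lit 321701865) (nat_lit 312) (nat_lit 5) (nat_lit 326) (nat_lit 5) (nat_lit 327) (nat_lit 5) (nat_lit 431) (nat_lit 418) (nat_lit 351))))) (XT.nd (nat_lit 312) (nat_lit 2356) (nat_lit 0) (XT.nd (nat_lit 156) (nat_lit 1064) (nat_lit 0) (XT.nd (nat_lit 78) (nat_lit 0) (nat_lit 0) (XT.lf (nat_lit 0) (nat_lit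 4870608011) (nat_lit 1064) (nat_lit 461222714) (nat_lit 1140) (nat_lit 3862862490) (nat_lit 312) (nat_lit 5) (nat_lit 326) (nat_lit 5) (nat_lit 327) (nat_lit 5) (nat_lit 432) (nat_lit 418) (nat_lit 350)) (XT.lf (nat_lit 76) (nat_lit 4664129873) (nat_lit 0) (nat_lit 1752887278) (nat_lit 1140) (nat_lit 2899743941) (nat_lit 313) (nat_lit 5) (nat_lit 312) (nat_lit 5) (nat_lit 327) (nat_lit 5) (nat_lit 433) (nat_lit 418) (nat_lit 349))) (XT.nd (nat_lit 78) (nat_lit 76) (nat_lit 0) (XT.lf (nat_lit 0) (nat_lit 472347570) (nat_lit 1064) (nat_lit 7530690692) (nat_lit 1140) (nat_lit 1439664770) (nat_lit 299) (nat_lit 5) (nat_lit 313) (nat_lit 5) (nat_lit 314) (nat_lit 5) (nat_lit 434) (nat_lit 418) (nat_lit 348)) (XT.lf (nat_lit 0) (nat_lit 93549386) (nat_lit 1140) (nat_lit 3771994938) (nat_lit 76) (nat_lit 5705950937) (nat_lit 298) (nat_lit 5) (nat_lit 313) (nat_lit 5) (nat_lit 299) (nat_lit 5) (nat_lit 435) (nat_lit 418)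 (nat_lit 347)))) (XT.nd (nat_lit 156) (nat_lit 1216) (nat_lit 0) (XT.nd (nat_lit 78) (nat_lit 0) (nat_lit 0) (XT.lf (nat_lit 0) (nat_lit 1570560558) (nat_lit 1140) (nat_lit 55140148) (nat_lit 1216) (nat_lit 8078574516) (nat_lit 283) (nat_lit 5) (nat_lit 298) (nat_lit 5) (nat_lit 299) (nat_lit 5) (nat_lit 436) (nat_lit 418) (nat_lit 346)) (XT.lf (nat_lit 0) (nat_lit 3247003902) (nat_lit 1216) (nat_lit 2755655852) (nat_lit 76) (nat_lit 3837090864) (nat_lit 283) (nat_lit 5) (nat_lit 299) (nat_lit 5) (nat_lit 284) (nat_lit 5) (nat_lit 437) (nat_lit 418) (nat_lit 345))) (XT.nd (nat_lit 78) (nat_lit 0) (nat_lit 0) (XT.lf (nat_lit 0) (nat_lit 2809972216) (nat_lit 1216) (nat_lit 2103000724) (nat_lit 1292) (nat_lit 5066443967) (nat_lit 267) (nat_lit 5) (nat_lit 283) (nat_lit 5) (nat_lit 284) (nat_lit 5) (nat_lit 438) (nat_lit 418) (nat_lit 344)) (XT.lf (nat_lit 0) (nat_lit 6644569104) (nat_lit 1292) (nat_lit 1570799173)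 (nat_lit 76) (nat_lit 1907442681) (nat_lit 267) (nat_lit 5) (nat_lit 284) (nat_lit 5) (nat_lit 268) (nat_lit 5) (nat_lit 439) (nat_lit 418) (nat_lit 343))))))) (XT.nd (nat_lit 1170) (nat_lit 3952) (nat_lit 0) (XT.nd (nat_lit 546) (nat_lit 2660) (nat_lit 0) (XT.nd (nat_lit 234) (nat_lit 1140) (nat_lit 0) (XT.nd (nat_lit 78) (nat_lit 684) (nat_lit 0) (XT.lf (nat_lit 0) (nat_lit 4229608632) (nat_lit 760) (nat_lit 4230033085) (nat_lit 836) (nat_lit 1809926264) (nat_lit 257) (nat_lit 5) (nat_lit 267) (nat_lit 5) (nat_lit 268) (nat_lit 5) (nat_lit 440) (nat_lit 418) (nat_lit 342)) (XT.nd (nat_lit 78) (nat_lit 684) (nat_lit 0) (XT.lf (nat_lit 0) (nat_lit 10208591957) (nat_lit 760) (nat_lit 107092427) (nat_lit 836) (nat_lit 105454595) (nat_lit 257) (nat_lit 5) (nat_lit 267) (nat_lit 5) (nat_lit 268) (nat_lit 5) (nat_lit 441) (nat_lit 418) (nat_lit 341)) (XT.lf (nat_lit 0) (nat_lit 1686029993) (nat_lit 684) (nat_lit 4755701049)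 (nat_lit 76) (nat_lit 4133014236) (nat_lit 248) (nat_lit 5) (nat_lit 257) (nat_lit 5) (nat_lit 249) (nat_lit 5) (nat_lit 442) (nat_lit 418) (nat_lit 340)))) (XT.nd (nat_lit 156) (nat_lit 532) (nat_lit 0) (XT.nd (nat_lit 78) (nat_lit 0) (nat_lit 0) (XT.lf (nat_lit 0) (nat_lit 1298248222) (nat_lit 608) (nat_lit 2218408282) (nat_lit 684) (nat_lit 7216652654) (nat_lit 240) (nat_lit 5) (nat_lit 248) (nat_lit 5) (nat_lit 249) (nat_lit 5) (nat_lit 443) (nat_lit 418) (nat_lit 339)) (XT.lf (nat_lit 0) (nat_lit 5443554032) (nat_lit 684) (nat_lit 3313416049) (nat_lit 76) (nat_lit 2138425351) (nat_lit 240) (nat_lit 5) (nat_lit 249) (nat_lit 5) (nat_lit 241) (nat_lit 5) (nat_lit 444) (nat_lit 418) (nat_lit 338))) (XT.nd (nat_lit 78) (nat_lit 0) (nat_lit 0) (XT.lf (nat_lit 0) (nat_lit 3000736776) (nat_lit 532) (nat_lit 4451499129) (nat_lit 608) (nat_lit 3609394935) (nat_lit 233) (nat_lit 5) (nat_lit 240) (nat_lit 5) (nat_lit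 241) (nat_lit 5) (nat_lit 445) (nat_lit 418) (nat_lit 337)) (XT.lf (nat_lit 0) (nat_lit 9528481007) (nat_lit 608) (nat_lit 1688027123) (nat_lit 76) (nat_lit 16131793) (nat_lit 233) (nat_lit 5) (nat_lit 241) (nat_lit 5) (nat_lit 234) (nat_lit 5) (nat_lit 446) (nat_lit 418) (nat_lit 336))))) (XT.nd (nat_lit 312) (nat_lit 988) (nat_lit 0) (XT.nd (nat_lit 156) (nat_lit 532) (nat_lit 0) (XT.nd (nat_lit 78) (nat_lit 532) (nat_lit 0) (XT.lf (nat_lit 0) (nat_lit 319458211) (nat_lit 608) (nat_lit 6509798775) (nat_lit 76) (nat_lit 4577465300) (nat_lit 225) (nat_lit 5) (nat_lit 233) (nat_lit 5) (nat_lit 226) (nat_lit 5) (nat_lit 447) (nat_lit 418) (nat_lit 335)) (XT.lf (nat_lit 0) (nat_lit 85473898) (nat_lit 532) (nat_lit 2276765448) (nat_lit 608) (nat_lit 9223505579) (nat_lit 218) (nat_lit 5) (nat_lit 225) (nat_lit 5) (nat_lit 226) (nat_lit 5) (nat_lit 448) (nat_lit 418) (nat_lit 334))) (XT.nd (nat_lit 78) (nat_lit 532)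 (nat_lit 0) (XT.lf (nat_lit 0) (nat_lit 4531000770) (nat_lit 608) (nat_lit 4808073581) (nat_lit 76) (nat_lit 2429128047) (nat_lit 218) (nat_lit 5) (nat_lit 226) (nat_lit 5) (nat_lit 219) (nat_lit 5) (nat_lit 449) (nat_lit 418) (nat_lit 333)) (XT.lf (nat_lit 0) (nat_lit 2075550672) (nat_lit 532) (nat_lit 4707613968) (nat_lit 608) (nat_lit 5172423682) (nat_lit 211) (nat_lit 5) (nat_lit 218) (nat_lit 5) (nat_lit 219) (nat_lit 5) (nat_lit 450) (nat_lit 418) (nat_lit 332)))) (XT.nd (nat_lit 156) (nat_lit 532) (nat_lit 0) (XT.nd (nat_lit 78) (nat_lit 456) (nat_lit 0) (XT.lf (nat_lit 0) (nat_lit 9128787509) (nat_lit 608) (nat_lit 2911693993) (nat_lit 76) (nat_lit 107342271) (nat_lit 211) (nat_lit 5) (nat_lit 219) (nat_lit 5) (nat_lit 212) (nat_lit 5) (nat_lit 451) (nat_lit 418) (nat_lit 331)) (XT.lf (nat_lit 0) (nat_lit 4275614924) (nat_lit 456) (nat_lit 7333823203) (nat_lit 532) (nat_lit 734453020) (nat_lit 205) (nat_lit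 5) (nat_lit 211) (nat_lit 5) (nat_lit 212) (nat_lit 5) (nat_lit 452) (nat_lit 418) (nat_lit 330))) (XT.nd (nat_lit 78) (nat_lit 456) (nat_lit 0) (XT.lf (nat_lit 0) (nat_lit 1593911135) (nat_lit 532) (nat_lit 849682489) (nat_lit 76) (nat_lit 10101579611) (nat_lit 204) (nat_lit 5) (nat_lit 211) (nat_lit 5) (nat_lit 205) (nat_lit 5) (nat_lit 453) (nat_lit 418) (nat_lit 329)) (XT.lf (nat_lit 0) (nat_lit 4044997687) (nat_lit 532) (nat_lit 6094337283) (nat_lit 76) (nat_lit 2610915903) (nat_lit 198) (nat_lit 5) (nat_lit 205) (nat_lit 5) (nat_lit 199) (nat_lit 5) (nat_lit 454) (nat_lit 418) (nat_lit 328)))))) (XT.nd (nat_lit 624) (nat_lit 1824) (nat_lit 0) (XT.nd (nat_lit 312) (nat_lit 1140) (nat_lit 0) (XT.nd (nat_lit 156) (nat_lit 532) (nat_lit 0) (XT.nd (nat_lit 78) (nat_lit 0) (nat_lit 0) (XT.lf (nat_lit 0) (nat_lit 1419621602) (nat_lit 456) (nat_lit 5174657655) (nat_lit 532) (nat_lit 6366465827) (nat_lit 192) (nat_lit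 5) (nat_lit 198) (nat_lit 5) (nat_lit 199) (nat_lit 5) (nat_lit 455) (nat_lit 418) (nat_lit 327)) (XT.lf (nat_lit 0) (nat_lit 9257515541) (nat_lit 456) (nat_lit 2603982) (nat_lit 532) (nat_lit 3916236186) (nat_lit 192) (nat_lit 5) (nat_lit 198) (nat_lit 5) (nat_lit 199) (nat_lit 5) (nat_lit 456) (nat_lit 418) (nat_lit 326))) (XT.nd (nat_lit 78) (nat_lit 76) (nat_lit 0) (XT.lf (nat_lit 0) (nat_lit 3931419252) (nat_lit 456) (nat_lit 8142608624) (nat_lit 532) (nat_lit 1322367868) (nat_lit 186) (nat_lit 5) (nat_lit 192) (nat_lit 5) (nat_lit 193) (nat_lit 5) (nat_lit 457) (nat_lit 418) (nat_lit 325)) (XT.lf (nat_lit 0) (nat_lit 1342246610) (nat_lit 532) (nat_lit 1564103249) (nat_lit 76) (nat_lit 10715723862) (nat_lit 185) (nat_lit 5) (nat_lit 192) (nat_lit 5) (nat_lit 186) (nat_lit 5) (nat_lit 458) (nat_lit 418) (nat_lit 324)))) (XT.nd (nat_lit 156) (nat_lit 380) (nat_lit 0) (XT.nd (nat_lit 78) (nat_lit 380) (nat_lit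 0) (XT.lf (nat_lit 0) (nat_lit 4128782206) (nat_lit 456) (nat_lit 7212283519) (nat_lit 76) (nat_lit 2511010248) (nat_lit 180) (nat_lit 5) (nat_lit 186) (nat_lit 5) (nat_lit 181) (nat_lit 5) (nat_lit 459) (nat_lit 418) (nat_lit 323)) (XT.lf (nat_lit 0) (nat_lit 997997609) (nat_lit 380) (nat_lit 6035398591) (nat_lit 456) (nat_lit 7054551071) (nat_lit 175) (nat_lit 5) (nat_lit 180) (nat_lit 5) (nat_lit 181) (nat_lit 5) (nat_lit 460) (nat_lit 418) (nat_lit 322))) (XT.nd (nat_lit 78) (nat_lit 380) (nat_lit 0) (XT.lf (nat_lit 0) (nat_lit 9576777965) (nat_lit 380) (nat_lit 501694231) (nat_lit 456) (nat_lit 4250826151) (nat_lit 175) (nat_lit 5) (nat_lit 180) (nat_lit 5) (nat_lit 181) (nat_lit 5) (nat_lit 461) (nat_lit 418) (nat_lit 321)) (XT.lf (nat_lit 0) (nat_lit 3834468747) (nat_lit 380) (nat_lit 9448261977) (nat_lit 456) (nat_lit 1293127571) (nat_lit 170) (nat_lit 5) (nat_lit 175) (nat_lit 5) (nat_lit 176) (nat_lit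 5) (nat_lit 462) (nat_lit 418) (nat_lit 320))))) (XT.nd (nat_lit 312) (nat_lit 1064) (nat_lit 0) (XT.nd (nat_lit 156) (nat_lit 304) (nat_lit 0) (XT.nd (nat_lit 78) (nat_lit 380) (nat_lit 0) (XT.lf (nat_lit 0) (nat_lit 1753649946) (nat_lit 456) (nat_lit 2099732192) (nat_lit 76) (nat_lit 10974893515) (nat_lit 169) (nat_lit 5) (nat_lit 175) (nat_lit 5) (nat_lit 170) (nat_lit 5) (nat_lit 463) (nat_lit 418) (nat_lit 319)) (XT.lf (nat_lit 0) (nat_lit 4932901761) (nat_lit 456) (nat_lit 8207345724) (nat_lit 76) (nat_lit 1945625077) (nat_lit 164) (nat_lit 5) (nat_lit 170) (nat_lit 5) (nat_lit 165) (nat_lit 5) (nat_lit 464) (nat_lit 418) (nat_lit 318))) (XT.nd (nat_lit 78) (nat_lit 0) (nat_lit 0) (XT.lf (nat_lit 0) (nat_lit 770239097) (nat_lit 304) (nat_lit 7486173496) (nat_lit 380) (nat_lit 7093321227) (nat_lit 160) (nat_lit 5) (nat_lit 164) (nat_lit 5) (nat_lit 165) (nat_lit 5) (nat_lit 465) (nat_lit 418) (nat_lit 317))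 (XT.lf (nat_lit 0) (nat_lit 10160595909) (nat_lit 304) (nat_lit 1584111443) (nat_lit 380) (nat_lit 3874854008) (nat_lit 160) (nat_lit 5) (nat_lit 164) (nat_lit 5) (nat_lit 165) (nat_lit 5) (nat_lit 466) (nat_lit 418) (nat_lit 316)))) (XT.nd (nat_lit 156) (nat_lit 608) (nat_lit 0) (XT.nd (nat_lit 78) (nat_lit 76) (nat_lit 0) (XT.lf (nat_lit 0) (nat_lit 3944408855) (nat_lit 380) (nat_lit 11457020601) (nat_lit 456) (nat_lit 494143636) (nat_lit 155) (nat_lit 5) (nat_lit 160) (nat_lit 5) (nat_lit 161) (nat_lit 5) (nat_lit 467) (nat_lit 418) (nat_lit 315)) (XT.lf (nat_lit 0) (nat_lit 2983790253) (nat_lit 456) (nat_lit 2506012982) (nat_lit 76) (nat_lit 10687579576) (nat_lit 154) (nat_lit 5) (nat_lit 160) (nat_lit 5) (nat_lit 155) (nat_lit 5) (nat_lit 468) (nat_lit 418) (nat_lit 314))) (XT.nd (nat_lit 78) (nat_lit 304) (nat_lit 0) (XT.lf (nat_lit 0) (nat_lit 6616900432) (nat_lit 380) (nat_lit 9136027542) (nat_lit 76) (nat_lit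 712751461) (nat_lit 150) (nat_lit 5) (nat_lit 155) (nat_lit 5) (nat_lit 151) (nat_lit 5) (nat_lit 469) (nat_lit 418) (nat_lit 313)) (XT.lf (nat_lit 0) (nat_lit 684531801) (nat_lit 304) (nat_lit 9744409934) (nat_lit 380) (nat_lit 6331587505) (nat_lit 146) (nat_lit 5) (nat_lit 150) (nat_lit 5) (nat_lit 151) (nat_lit 5) (nat_lit 470) (nat_lit 418) (nat_lit 312))))))))
noncomputable def xc140 : XT := (XT.nd (nat_lit 2340) (nat_lit 2888) (nat_lit 0) (XT.nd (nat_lit 1170) (nat_lit 1748) (nat_lit 0) (XT.nd (nat_lit 546) (nat_lit 1368) (nat_lit 0) (XT.nd (nat_lit 234) (nat_lit 912) (nat_lit 0) (XT.nd (nat_lit 78) (nat_lit 380) (nat_lit 0) (XT.lf (nat_lit 0) (nat_lit 10963111348) (nat_lit 304) (nat_lit 3468188334) (nat_lit 380) (nat_lit 2630648541) (nat_lit 146) (nat_lit 5) (nat_lit 150) (nat_lit 5) (nat_lit 151) (nat_lit 5) (nat_lit 471) (nat_lit 418) (nat_lit 311)) (XT.nd (nat_lit 78) (nat_lit 0) (nat_lit 0) (XT.lf (nat_lit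 0) (nat_lit 1212142381) (nat_lit 380) (nat_lit 13175345844) (nat_lit 76) (nat_lit 2982966830) (nat_lit 141) (nat_lit 5) (nat_lit 146) (nat_lit 5) (nat_lit 142) (nat_lit 5) (nat_lit 472) (nat_lit 418) (nat_lit 310)) (XT.lf (nat_lit 0) (nat_lit 5198062967) (nat_lit 380) (nat_lit 2848142701) (nat_lit 76) (nat_lit 9638810609) (nat_lit 141) (nat_lit 5) (nat_lit 146) (nat_lit 5) (nat_lit 142) (nat_lit 5) (nat_lit 473) (nat_lit 418) (nat_lit 309)))) (XT.nd (nat_lit 156) (nat_lit 380) (nat_lit 0) (XT.nd (nat_lit 78) (nat_lit 228) (nat_lit 0) (XT.lf (nat_lit 0) (nat_lit 7920449769) (nat_lit 304) (nat_lit 1443893055) (nat_lit 380) (nat_lit 8642850148) (nat_lit 137) (nat_lit 5) (nat_lit 141) (nat_lit 5) (nat_lit 142) (nat_lit 5) (nat_lit 474) (nat_lit 418) (nat_lit 308)) (XT.lf (nat_lit 0) (nat_lit 670480490) (nat_lit 228) (nat_lit 13056911460) (nat_lit 304) (nat_lit 4609491615) (nat_lit 134) (nat_lit 5) (nat_lit 137) (nat_lit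 5) (nat_lit 138) (nat_lit 5) (nat_lit 475) (nat_lit 418) (nat_lit 307))) (XT.nd (nat_lit 78) (nat_lit 380) (nat_lit 0) (XT.lf (nat_lit 0) (nat_lit 11919695230) (nat_lit 228) (nat_lit 6402672448) (nat_lit 304) (nat_lit 351068111) (nat_lit 134) (nat_lit 5) (nat_lit 137) (nat_lit 5) (nat_lit 138) (nat_lit 5) (nat_lit 476) (nat_lit 418) (nat_lit 306)) (XT.lf (nat_lit 0) (nat_lit 3990139289) (nat_lit 380) (nat_lit 14510097878) (nat_lit 76) (nat_lit 517672506) (nat_lit 129) (nat_lit 5) (nat_lit 134) (nat_lit 5) (nat_lit 130) (nat_lit 5) (nat_lit 477) (nat_lit 418) (nat_lit 305))))) (XT.nd (nat_lit 312) (nat_lit 760) (nat_lit 0) (XT.nd (nat_lit 156) (nat_lit 380) (nat_lit 0) (XT.nd (nat_lit 78) (nat_lit 228) (nat_lit 0) (XT.lf (nat_lit 0) (nat_lit 8572245534) (nat_lit 380) (nat_lit 3215239851) (nat_lit 76) (nat_lit 7581598347) (nat_lit 129) (nat_lit 5) (nat_lit 134) (nat_lit 5) (nat_lit 130) (nat_lit 5) (nat_lit 478)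 (nat_lit 418) (nat_lit 304)) (XT.lf (nat_lit 0) (nat_lit 8563550324) (nat_lit 228) (nat_lit 4796457648) (nat_lit 304) (nat_lit 6368740998) (nat_lit 126) (nat_lit 5) (nat_lit 129) (nat_lit 5) (nat_lit 130) (nat_lit 5) (nat_lit 479) (nat_lit 418) (nat_lit 303))) (XT.nd (nat_lit 78) (nat_lit 76) (nat_lit 0) (XT.lf (nat_lit 0) (nat_lit 630098682) (nat_lit 304) (nat_lit 17709263181) (nat_lit 380) (nat_lit 1758405240) (nat_lit 122) (nat_lit 5) (nat_lit 126) (nat_lit 5) (nat_lit 127) (nat_lit 5) (nat_lit 480) (nat_lit 418) (nat_lit 302)) (XT.lf (nat_lit 0) (nat_lit 3079302482) (nat_lit 380) (nat_lit 7565901811) (nat_lit 76) (nat_lit 9827368397) (nat_lit 121) (nat_lit 5) (nat_lit 126) (nat_lit 5) (nat_lit 122) (nat_lit 5) (nat_lit 481) (nat_lit 418) (nat_lit 301)))) (XT.nd (nat_lit 156) (nat_lit 532) (nat_lit 0) (XT.nd (nat_lit 78) (nat_lit 0) (nat_lit 0) (XT.lf (nat_lit 0) (nat_lit 4746568371) (nat_lit 228) (nat_lit 3312323469)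 (nat_lit 304) (nat_lit 12798247079) (nat_lit 118) (nat_lit 5) (nat_lit 121) (nat_lit 5) (nat_lit 122) (nat_lit 5) (nat_lit 482) (nat_lit 418) (nat_lit 300)) (XT.lf (nat_lit 0) (nat_lit 13292366500) (nat_lit 304) (nat_lit 3730638667) (nat_lit 76) (nat_lit 4227103545) (nat_lit 118) (nat_lit 5) (nat_lit 122) (nat_lit 5) (nat_lit 119) (nat_lit 5) (nat_lit 483) (nat_lit 418) (nat_lit 299))) (XT.nd (nat_lit 78) (nat_lit 304) (nat_lit 0) (XT.lf (nat_lit 0) (nat_lit 9145309507) (nat_lit 228) (nat_lit 9645210129) (nat_lit 304) (nat_lit 2861119200) (nat_lit 115) (nat_lit 5) (nat_lit 118) (nat_lit 5) (nat_lit 119) (nat_lit 5) (nat_lit 484) (nat_lit 418) (nat_lit 298)) (XT.lf (nat_lit 0) (nat_lit 382969484) (nat_lit 228) (nat_lit 1987572395) (nat_lit 304) (nat_lit 19693123226) (nat_lit 111) (nat_lit 5) (nat_lit 114) (nat_lit 5) (nat_lit 115) (nat_lit 5) (nat_lit 485) (nat_lit 418) (nat_lit 297)))))) (XT.nd (nat_lit 546) (nat_lit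 912) (nat_lit 0) (XT.nd (nat_lit 234) (nat_lit 608) (nat_lit 0) (XT.nd (nat_lit 78) (nat_lit 228) (nat_lit 0) (XT.lf (nat_lit 0) (nat_lit 7873018132) (nat_lit 304) (nat_lit 8676438041) (nat_lit 76) (nat_lit 5932606362) (nat_lit 111) (nat_lit 5) (nat_lit 115) (nat_lit 5) (nat_lit 112) (nat_lit 5) (nat_lit 486) (nat_lit 418) (nat_lit 296)) (XT.nd (nat_lit 78) (nat_lit 0) (nat_lit 0) (XT.lf (nat_lit 0) (nat_lit 4770782336) (nat_lit 228) (nat_lit 8822818902) (nat_lit 304) (nat_lit 9317820971) (nat_lit 108) (nat_lit 5) (nat_lit 111) (nat_lit 5) (nat_lit 112) (nat_lit 5) (nat_lit 487) (nat_lit 418) (nat_lit 295)) (XT.lf (nat_lit 0) (nat_lit 18778898434) (nat_lit 228) (nat_lit 782180726) (nat_lit 304) (nat_lit 3790326457) (nat_lit 108) (nat_lit 5) (nat_lit 111) (nat_lit 5) (nat_lit 112) (nat_lit 5) (nat_lit 488) (nat_lit 418) (nat_lit 294)))) (XT.nd (nat_lit 156) (nat_lit 380) (nat_lit 0) (XT.nd (nat_lit 78) (nat_lit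 0) (nat_lit 0) (XT.lf (nat_lit 0) (nat_lit 2018673206) (nat_lit 228) (nat_lit 14324037108) (nat_lit 76) (nat_lit 7456746183) (nat_lit 105) (nat_lit 5) (nat_lit 108) (nat_lit 5) (nat_lit 106) (nat_lit 5) (nat_lit 489) (nat_lit 418) (nat_lit 293)) (XT.lf (nat_lit 0) (nat_lit 7968123643) (nat_lit 228) (nat_lit 286892301) (nat_lit 76) (nat_lit 16003537395) (nat_lit 105) (nat_lit 5) (nat_lit 108) (nat_lit 5) (nat_lit 106) (nat_lit 5) (nat_lit 490) (nat_lit 418) (nat_lit 292))) (XT.nd (nat_lit 78) (nat_lit 152) (nat_lit 0) (XT.lf (nat_lit 0) (nat_lit 14225160686) (nat_lit 304) (nat_lit 10296146498) (nat_lit 76) (nat_lit 206243932) (nat_lit 102) (nat_lit 5) (nat_lit 106) (nat_lit 5) (nat_lit 103) (nat_lit 5) (nat_lit 491) (nat_lit 418) (nat_lit 291)) (XT.lf (nat_lit 0) (nat_lit 4370513969) (nat_lit 152) (nat_lit 16414481615) (nat_lit 228) (nat_lit 4422171726) (nat_lit 100) (nat_lit 5) (nat_lit 102) (nat_lit 5) (nat_lit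 103) (nat_lit 5) (nat_lit 492) (nat_lit 418) (nat_lit 290))))) (XT.nd (nat_lit 312) (nat_lit 456) (nat_lit 0) (XT.nd (nat_lit 156) (nat_lit 152) (nat_lit 0) (XT.nd (nat_lit 78) (nat_lit 228) (nat_lit 0) (XT.lf (nat_lit 0) (nat_lit 1897992611) (nat_lit 228) (nat_lit 6048185813) (nat_lit 76) (nat_lit 17751660259) (nat_lit 99) (nat_lit 5) (nat_lit 102) (nat_lit 5) (nat_lit 100) (nat_lit 5) (nat_lit 493) (nat_lit 418) (nat_lit 289)) (XT.lf (nat_lit 0) (nat_lit 8405796243) (nat_lit 304) (nat_lit 16905671379) (nat_lit 76) (nat_lit 887842584) (nat_lit 96) (nat_lit 5) (nat_lit 100) (nat_lit 5) (nat_lit 97) (nat_lit 5) (nat_lit 494) (nat_lit 418) (nat_lit 288))) (XT.nd (nat_lit 78) (nat_lit 152) (nat_lit 0) (XT.lf (nat_lit 0) (nat_lit 15238047298) (nat_lit 304) (nat_lit 1592718910) (nat_lit 76) (nat_lit 9881184236) (nat_lit 96) (nat_lit 5) (nat_lit 100) (nat_lit 5) (nat_lit 97) (nat_lit 5) (nat_lit 495) (nat_lit 418) (nat_lit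 287)) (XT.lf (nat_lit 0) (nat_lit 14442866486) (nat_lit 152) (nat_lit 7960416329) (nat_lit 228) (nat_lit 4832847504) (nat_lit 94) (nat_lit 5) (nat_lit 96) (nat_lit 5) (nat_lit 97) (nat_lit 5) (nat_lit 496) (nat_lit 418) (nat_lit 286)))) (XT.nd (nat_lit 156) (nat_lit 152) (nat_lit 0) (XT.nd (nat_lit 78) (nat_lit 0) (nat_lit 0) (XT.lf (nat_lit 0) (nat_lit 2016776848) (nat_lit 304) (nat_lit 24544451524) (nat_lit 76) (nat_lit 1212773917) (nat_lit 90) (nat_lit 5) (nat_lit 94) (nat_lit 5) (nat_lit 91) (nat_lit 5) (nat_lit 497) (nat_lit 418) (nat_lit 285)) (XT.lf (nat_lit 0) (nat_lit 9173313209) (nat_lit 304) (nat_lit 8475464853) (nat_lit 76) (nat_lit 10671840955) (nat_lit 90) (nat_lit 5) (nat_lit 94) (nat_lit 5) (nat_lit 91) (nat_lit 5) (nat_lit 498) (nat_lit 418) (nat_lit 284))) (XT.nd (nat_lit 78) (nat_lit 0) (nat_lit 0) (XT.lf (nat_lit 0) (nat_lit 8217810547) (nat_lit 152) (nat_lit 8395318828) (nat_lit 228) (nat_lit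 12268448194) (nat_lit 88) (nat_lit 5) (nat_lit 90) (nat_lit 5) (nat_lit 91) (nat_lit 5) (nat_lit 499) (nat_lit 418) (nat_lit 283)) (XT.lf (nat_lit 0) (nat_lit 24363136273) (nat_lit 228) (nat_lit 3901136719) (nat_lit 76) (nat_lit 1192482808) (nat_lit 88) (nat_lit 5) (nat_lit 91) (nat_lit 5) (nat_lit 89) (nat_lit 5) (nat_lit 500) (nat_lit 418) (nat_lit 282))))))) (XT.nd (nat_lit 1170) (nat_lit 1216) (nat_lit 0) (XT.nd (nat_lit 546) (nat_lit 912) (nat_lit 0) (XT.nd (nat_lit 234) (nat_lit 380) (nat_lit 0) (XT.nd (nat_lit 78) (nat_lit 152) (nat_lit 0) (XT.lf (nat_lit 0) (nat_lit 2456756566) (nat_lit 228) (nat_lit 16539628511) (nat_lit 76) (nat_lit 11045989378) (nat_lit 85) (nat_lit 5) (nat_lit 88) (nat_lit 5) (nat_lit 86) (nat_lit 5) (nat_lit 501) (nat_lit 418) (nat_lit 281)) (XT.nd (nat_lit 78) (nat_lit 0) (nat_lit 0) (XT.lf (nat_lit 0) (nat_lit 811656588) (nat_lit 152) (nat_lit 9357169635) (nat_lit 228) (nat_lit 20474096460)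 (nat_lit 83) (nat_lit 5) (nat_lit 85) (nat_lit 5) (nat_lit 86) (nat_lit 5) (nat_lit 502) (nat_lit 418) (nat_lit 280)) (XT.lf (nat_lit 0) (nat_lit 18276443750) (nat_lit 228) (nat_lit 12258840666) (nat_lit 76) (nat_lit 721278090) (nat_lit 83) (nat_lit 5) (nat_lit 86) (nat_lit 5) (nat_lit 84) (nat_lit 5) (nat_lit 503) (nat_lit 418) (nat_lit 279)))) (XT.nd (nat_lit 156) (nat_lit 152) (nat_lit 0) (XT.nd (nat_lit 78) (nat_lit 76) (nat_lit 0) (XT.lf (nat_lit 0) (nat_lit 5844939291) (nat_lit 152) (nat_lit 20921494847) (nat_lit 228) (nat_lit 5118003753) (nat_lit 81) (nat_lit 5) (nat_lit 83) (nat_lit 5) (nat_lit 84) (nat_lit 5) (nat_lit 504) (nat_lit 418) (nat_lit 278)) (XT.lf (nat_lit 0) (nat_lit 3037177253) (nat_lit 228) (nat_lit 7831432827) (nat_lit 76) (nat_lit 21658220178) (nat_lit 80) (nat_lit 5) (nat_lit 83) (nat_lit 5) (nat_lit 81) (nat_lit 5) (nat_lit 505) (nat_lit 418) (nat_lit 277))) (XT.nd (nat_lit 78) (nat_lit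 0) (nat_lit 0) (XT.lf (nat_lit 0) (nat_lit 11071496015) (nat_lit 152) (nat_lit 359695008) (nat_lit 228) (nat_lit 21752872490) (nat_lit 78) (nat_lit 5) (nat_lit 80) (nat_lit 5) (nat_lit 81) (nat_lit 5) (nat_lit 506) (nat_lit 418) (nat_lit 276)) (XT.lf (nat_lit 0) (nat_lit 20248142991) (nat_lit 228) (nat_lit 3274760390) (nat_lit 76) (nat_lit 10332977469) (nat_lit 78) (nat_lit 5) (nat_lit 81) (nat_lit 5) (nat_lit 79) (nat_lit 5) (nat_lit 507) (nat_lit 418) (nat_lit 275))))) (XT.nd (nat_lit 312) (nat_lit 380) (nat_lit 0) (XT.nd (nat_lit 156) (nat_lit 152) (nat_lit 0) (XT.nd (nat_lit 78) (nat_lit 228) (nat_lit 0) (XT.lf (nat_lit 0) (nat_lit 16428901331) (nat_lit 152) (nat_lit 13053121789) (nat_lit 228) (nat_lit 5061257604) (nat_lit 76) (nat_lit 5) (nat_lit 78) (nat_lit 5) (nat_lit 79) (nat_lit 5) (nat_lit 508) (nat_lit 418) (nat_lit 274)) (XT.lf (nat_lit 0) (nat_lit 1517483122) (nat_lit 152) (nat_lit 2190057781) (nat_lit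 228) (nat_lit 31541515169) (nat_lit 73) (nat_lit 5) (nat_lit 75) (nat_lit 5) (nat_lit 76) (nat_lit 5) (nat_lit 509) (nat_lit 418) (nat_lit 273))) (XT.nd (nat_lit 78) (nat_lit 152) (nat_lit 0) (XT.lf (nat_lit 0) (nat_lit 12899902665) (nat_lit 228) (nat_lit 14015679259) (nat_lit 76) (nat_lit 9051053198) (nat_lit 73) (nat_lit 5) (nat_lit 76) (nat_lit 5) (nat_lit 74) (nat_lit 5) (nat_lit 510) (nat_lit 418) (nat_lit 272)) (XT.lf (nat_lit 0) (nat_lit 6378588148) (nat_lit 152) (nat_lit 16063699985) (nat_lit 228) (nat_lit 14261226358) (nat_lit 71) (nat_lit 5) (nat_lit 73) (nat_lit 5) (nat_lit 74) (nat_lit 5) (nat_lit 511) (nat_lit 418) (nat_lit 271)))) (XT.nd (nat_lit 156) (nat_lit 152) (nat_lit 0) (XT.nd (nat_lit 78) (nat_lit 228) (nat_lit 0) (XT.lf (nat_lit 0) (nat_lit 27656258450) (nat_lit 152) (nat_lit 4747575316) (nat_lit 228) (nat_lit 5054680338) (nat_lit 71) (nat_lit 5) (nat_lit 73) (nat_lit 5) (nat_lit 74) (nat_lit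 5) (nat_lit 512) (nat_lit 418) (nat_lit 270)) (XT.lf (nat_lit 0) (nat_lit 4511603392) (nat_lit 228) (nat_lit 26797135584) (nat_lit 76) (nat_lit 6921049799) (nat_lit 68) (nat_lit 5) (nat_lit 71) (nat_lit 5) (nat_lit 69) (nat_lit 5) (nat_lit 513) (nat_lit 418) (nat_lit 269))) (XT.nd (nat_lit 78) (nat_lit 152) (nat_lit 0) (XT.lf (nat_lit 0) (nat_lit 14401810047) (nat_lit 228) (nat_lit 5629195830) (nat_lit 76) (nat_lit 18987539040) (nat_lit 68) (nat_lit 5) (nat_lit 71) (nat_lit 5) (nat_lit 69) (nat_lit 5) (nat_lit 514) (nat_lit 418) (nat_lit 268)) (XT.lf (nat_lit 0) (nat_lit 16480346321) (nat_lit 152) (nat_lit 8258600789) (nat_lit 228) (nat_lit 15087510369) (nat_lit 66) (nat_lit 5) (nat_lit 68) (nat_lit 5) (nat_lit 69) (nat_lit 5) (nat_lit 515) (nat_lit 418) (nat_lit 267)))))) (XT.nd (nat_lit 546) (nat_lit 608) (nat_lit 0) (XT.nd (nat_lit 234) (nat_lit 304) (nat_lit 0) (XT.nd (nat_lit 78) (nat_lit 304) (nat_lit 0)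 (XT.lf (nat_lit 0) (nat_lit 35472612201) (nat_lit 228) (nat_lit 1341126569) (nat_lit 76) (nat_lit 3842276679) (nat_lit 66) (nat_lit 5) (nat_lit 69) (nat_lit 5) (nat_lit 67) (nat_lit 4) (nat_lit 516) (nat_lit 418) (nat_lit 266)) (XT.nd (nat_lit 78) (nat_lit 152) (nat_lit 0) (XT.lf (nat_lit 0) (nat_lit 5204657988) (nat_lit 152) (nat_lit 19902936560) (nat_lit 76) (nat_lit 16392876597) (nat_lit 64) (nat_lit 5) (nat_lit 66) (nat_lit 5) (nat_lit 65) (nat_lit 5) (nat_lit 517) (nat_lit 418) (nat_lit 265)) (XT.lf (nat_lit 0) (nat_lit 2871946596) (nat_lit 152) (nat_lit 12961603995) (nat_lit 228) (nat_lit 26534169582) (nat_lit 62) (nat_lit 5) (nat_lit 64) (nat_lit 5) (nat_lit 65) (nat_lit 5) (nat_lit 518) (nat_lit 418) (nat_lit 264)))) (XT.nd (nat_lit 156) (nat_lit 228) (nat_lit 0) (XT.nd (nat_lit 78) (nat_lit 76) (nat_lit 0) (XT.lf (nat_lit 0) (nat_lit 26723576759) (nat_lit 152) (nat_lit 250892089) (nat_lit 228) (nat_lit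 16280723454) (nat_lit 62) (nat_lit 5) (nat_lit 64) (nat_lit 5) (nat_lit 65) (nat_lit 5) (nat_lit 519) (nat_lit 418) (nat_lit 263)) (XT.lf (nat_lit 0) (nat_lit 7122787462) (nat_lit 76) (nat_lit 31511076516) (nat_lit 152) (nat_lit 5529897526) (nat_lit 61) (nat_lit 5) (nat_lit 62) (nat_lit 5) (nat_lit 63) (nat_lit 4) (nat_lit 520) (nat_lit 418) (nat_lit 262))) (XT.nd (nat_lit 78) (nat_lit 152) (nat_lit 0) (XT.lf (nat_lit 0) (nat_lit 5598710296) (nat_lit 152) (nat_lit 13340546234) (nat_lit 76) (nat_lit 26153830108) (nat_lit 60) (nat_lit 5) (nat_lit 62) (nat_lit 5) (nat_lit 61) (nat_lit 5) (nat_lit 521) (nat_lit 418) (nat_lit 261)) (XT.lf (nat_lit 0) (nat_lit 11221278422) (nat_lit 152) (nat_lit 5829196930) (nat_lit 228) (nat_lit 28995160650) (nat_lit 58) (nat_lit 5) (nat_lit 60) (nat_lit 5) (nat_lit 61) (nat_lit 5) (nat_lit 522) (nat_lit 418) (nat_lit 260))))) (XT.nd (nat_lit 312) (nat_lit 304) (nat_lit 0) (XT.nd (nat_lit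 156) (nat_lit 228) (nat_lit 0) (XT.nd (nat_lit 78) (nat_lit 76) (nat_lit 0) (XT.lf (nat_lit 0) (nat_lit 29048211317) (nat_lit 228) (nat_lit 10318252859) (nat_lit 76) (nat_lit 7654225478) (nat_lit 58) (nat_lit 5) (nat_lit 61) (nat_lit 5) (nat_lit 59) (nat_lit 4) (nat_lit 523) (nat_lit 418) (nat_lit 259)) (XT.lf (nat_lit 0) (nat_lit 15147449253) (nat_lit 76) (nat_lit 26454568986) (nat_lit 152) (nat_lit 6417092842) (nat_lit 57) (nat_lit 5) (nat_lit 58) (nat_lit 5) (nat_lit 59) (nat_lit 4) (nat_lit 524) (nat_lit 418) (nat_lit 258))) (XT.nd (nat_lit 78) (nat_lit 152) (nat_lit 0) (XT.lf (nat_lit 0) (nat_lit 5475976789) (nat_lit 152) (nat_lit 7522942581) (nat_lit 76) (nat_lit 36044042739) (nat_lit 56) (nat_lit 5) (nat_lit 58) (nat_lit 5) (nat_lit 57) (nat_lit 5) (nat_lit 525) (nat_lit 418) (nat_lit 257)) (XT.lf (nat_lit 0) (nat_lit 17782002944) (nat_lit 228) (nat_lit 31223016156) (nat_lit 76) (nat_lit 1085049559) (nat_lit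 54) (nat_lit 5) (nat_lit 57) (nat_lit 5) (nat_lit 55) (nat_lit 4) (nat_lit 526) (nat_lit 418) (nat_lit 256)))) (XT.nd (nat_lit 156) (nat_lit 228) (nat_lit 0) (XT.nd (nat_lit 78) (nat_lit 76) (nat_lit 0) (XT.lf (nat_lit 0) (nat_lit 30655688257) (nat_lit 228) (nat_lit 5105895028) (nat_lit 76) (nat_lit 15401051063) (nat_lit 54) (nat_lit 5) (nat_lit 57) (nat_lit 5) (nat_lit 55) (nat_lit 4) (nat_lit 527) (nat_lit 418) (nat_lit 255)) (XT.lf (nat_lit 0) (nat_lit 22215534435) (nat_lit 76) (nat_lit 21906858306) (nat_lit 152) (nat_lit 8138780298) (nat_lit 53) (nat_lit 5) (nat_lit 54) (nat_lit 5) (nat_lit 55) (nat_lit 4) (nat_lit 528) (nat_lit 418) (nat_lit 254))) (XT.nd (nat_lit 78) (nat_lit 152) (nat_lit 0) (XT.lf (nat_lit 0) (nat_lit 4555997905) (nat_lit 152) (nat_lit 2987301143) (nat_lit 76) (nat_lit 45846682297) (nat_lit 52) (nat_lit 5) (nat_lit 54) (nat_lit 5) (nat_lit 53) (nat_lit 5) (nat_lit 529) (nat_lit 418) (nat_lit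 253)) (XT.lf (nat_lit 0) (nat_lit 17777391197) (nat_lit 228) (nat_lit 29332770917) (nat_lit 76) (nat_lit 7430793996) (nat_lit 50) (nat_lit 5) (nat_lit 53) (nat_lit 5) (nat_lit 51) (nat_lit 4) (nat_lit 530) (nat_lit 418) (nat_lit 252))))))))
noncomputable def xc141 : XT := (XT.nd (nat_lit 54522) (nat_lit 0) (nat_lit 11400) (XT.nd (nat_lit 1170) (nat_lit 304) (nat_lit 0) (XT.nd (nat_lit 546) (nat_lit 456) (nat_lit 0) (XT.nd (nat_lit 234) (nat_lit 228) (nat_lit 0) (XT.nd (nat_lit 78) (nat_lit 152) (nat_lit 0) (XT.lf (nat_lit 0) (nat_lit 31494058810) (nat_lit 228) (nat_lit 1502134253) (nat_lit 76) (nat_lit 22727308333) (nat_lit 50) (nat_lit 5) (nat_lit 53) (nat_lit 5) (nat_lit 51) (nat_lit 4) (nat_lit 531) (nat_lit 418) (nat_lit 251)) (XT.nd (nat_lit 78) (nat_lit 76) (nat_lit 0) (XT.lf (nat_lit 0) (nat_lit 27691780930) (nat_lit 76) (nat_lit 18190307546) (nat_lit 152) (nat_lit 11051638953) (nat_lit 49) (nat_lit 5) (nat_lit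 50) (nat_lit 5) (nat_lit 51) (nat_lit 4) (nat_lit 532) (nat_lit 418) (nat_lit 250)) (XT.lf (nat_lit 0) (nat_lit 2481293581) (nat_lit 152) (nat_lit 423902985) (nat_lit 76) (nat_lit 55274066815) (nat_lit 48) (nat_lit 5) (nat_lit 50) (nat_lit 5) (nat_lit 49) (nat_lit 5) (nat_lit 533) (nat_lit 418) (nat_lit 249)))) (XT.nd (nat_lit 156) (nat_lit 76) (nat_lit 0) (XT.nd (nat_lit 78) (nat_lit 0) (nat_lit 0) (XT.lf (nat_lit 0) (nat_lit 16604883181) (nat_lit 228) (nat_lit 29860277365) (nat_lit 76) (nat_lit 12981518544) (nat_lit 46) (nat_lit 5) (nat_lit 49) (nat_lit 5) (nat_lit 47) (nat_lit 4) (nat_lit 534) (nat_lit 418) (nat_lit 248)) (XT.lf (nat_lit 0) (nat_lit 31179146372) (nat_lit 228) (nat_lit 286770918) (nat_lit 76) (nat_lit 29285391227) (nat_lit 46) (nat_lit 5) (nat_lit 49) (nat_lit 5) (nat_lit 47) (nat_lit 4) (nat_lit 535) (nat_lit 418) (nat_lit 247))) (XT.nd (nat_lit 78) (nat_lit 0) (nat_lit 0) (XT.lf (nat_lit 0)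 (nat_lit 30762895288) (nat_lit 76) (nat_lit 15717510839) (nat_lit 152) (nat_lit 15605977853) (nat_lit 45) (nat_lit 5) (nat_lit 46) (nat_lit 5) (nat_lit 47) (nat_lit 4) (nat_lit 536) (nat_lit 418) (nat_lit 246)) (XT.lf (nat_lit 0) (nat_lit 62242537278) (nat_lit 152) (nat_lit 727716237) (nat_lit 0) (nat_lit 491203391) (nat_lit 45) (nat_lit 5) (nat_lit 47) (nat_lit 4) (nat_lit 45) (nat_lit 4) (nat_lit 537) (nat_lit 418) (nat_lit 245))))) (XT.nd (nat_lit 312) (nat_lit 228) (nat_lit 0) (XT.nd (nat_lit 156) (nat_lit 76) (nat_lit 0) (XT.nd (nat_lit 78) (nat_lit 0) (nat_lit 0) (XT.lf (nat_lit 0) (nat_lit 13788877313) (nat_lit 152) (nat_lit 33770794978) (nat_lit 76) (nat_lit 17300552838) (nat_lit 43) (nat_lit 5) (nat_lit 45) (nat_lit 5) (nat_lit 44) (nat_lit 4) (nat_lit 538) (nat_lit 418) (nat_lit 244)) (XT.lf (nat_lit 0) (nat_lit 29224079847) (nat_lit 152) (nat_lit 2447898919) (nat_lit 76) (nat_lit 34628565645) (nat_lit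 43) (nat_lit 5) (nat_lit 45) (nat_lit 5) (nat_lit 44) (nat_lit 4) (nat_lit 539) (nat_lit 418) (nat_lit 243))) (XT.nd (nat_lit 78) (nat_lit 0) (nat_lit 0) (XT.lf (nat_lit 0) (nat_lit 30397132724) (nat_lit 76) (nat_lit 15011818554) (nat_lit 152) (nat_lit 22366523793) (nat_lit 42) (nat_lit 5) (nat_lit 43) (nat_lit 5) (nat_lit 44) (nat_lit 4) (nat_lit 540) (nat_lit 418) (nat_lit 242)) (XT.lf (nat_lit 0) (nat_lit 62119410696) (nat_lit 152) (nat_lit 5047832134) (nat_lit 0) (nat_lit 2126209746) (nat_lit 42) (nat_lit 5) (nat_lit 44) (nat_lit 4) (nat_lit 42) (nat_lit 4) (nat_lit 541) (nat_lit 418) (nat_lit 241)))) (XT.nd (nat_lit 156) (nat_lit 76) (nat_lit 0) (XT.nd (nat_lit 78) (nat_lit 0) (nat_lit 0) (XT.lf (nat_lit 0) (nat_lit 8731646865) (nat_lit 152) (nat_lit 42277344754) (nat_lit 76) (nat_lit 19832850332) (nat_lit 40) (nat_lit 5) (nat_lit 42) (nat_lit 5) (nat_lit 41) (nat_lit 4) (nat_lit 542) (nat_lit 418) (nat_lit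 240)) (XT.lf (nat_lit 0) (nat_lit 25016389444) (nat_lit 152) (nat_lit 9228430853) (nat_lit 76) (nat_lit 38188349740) (nat_lit 40) (nat_lit 5) (nat_lit 42) (nat_lit 5) (nat_lit 41) (nat_lit 4) (nat_lit 543) (nat_lit 418) (nat_lit 239))) (XT.nd (nat_lit 78) (nat_lit 0) (nat_lit 0) (XT.lf (nat_lit 0) (nat_lit 25295444770) (nat_lit 76) (nat_lit 16732138622) (nat_lit 152) (nat_lit 32037517460) (nat_lit 39) (nat_lit 5) (nat_lit 40) (nat_lit 5) (nat_lit 41) (nat_lit 4) (nat_lit 544) (nat_lit 418) (nat_lit 238)) (XT.lf (nat_lit 0) (nat_lit 59650542228) (nat_lit 152) (nat_lit 14722580768) (nat_lit 0) (nat_lit 1369823880) (nat_lit 39) (nat_lit 5) (nat_lit 41) (nat_lit 4) (nat_lit 39) (nat_lit 4) (nat_lit 545) (nat_lit 418) (nat_lit 237)))))) (XT.nd (nat_lit 52728) (nat_lit 0) (nat_lit 21812) (XT.nd (nat_lit 234) (nat_lit 76) (nat_lit 0) (XT.nd (nat_lit 78) (nat_lit 76) (nat_lit 0) (XT.lf (nat_lit 0) (nat_lit 686479451) (nat_lit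 152) (nat_lit 56895262320) (nat_lit 76) (nat_lit 19878434840) (nat_lit 37) (nat_lit 5) (nat_lit 39) (nat_lit 5) (nat_lit 38) (nat_lit 4) (nat_lit 546) (nat_lit 418) (nat_lit 236)) (XT.nd (nat_lit 78) (nat_lit 76) (nat_lit 0) (XT.lf (nat_lit 0) (nat_lit 17790350955) (nat_lit 152) (nat_lit 22182264581) (nat_lit 76) (nat_lit 39247176053) (nat_lit 37) (nat_lit 5) (nat_lit 39) (nat_lit 5) (nat_lit 38) (nat_lit 4) (nat_lit 547) (nat_lit 418) (nat_lit 235)) (XT.lf (nat_lit 0) (nat_lit 13832499954) (nat_lit 76) (nat_lit 21702874143) (nat_lit 152) (nat_lit 45492979993) (nat_lit 36) (nat_lit 5) (nat_lit 37) (nat_lit 5) (nat_lit 38) (nat_lit 4) (nat_lit 548) (nat_lit 418) (nat_lit 234)))) (XT.nd (nat_lit 52338) (nat_lit 0) (nat_lit 22724) (XT.nd (nat_lit 78) (nat_lit 76) (nat_lit 0) (XT.lf (nat_lit 0) (nat_lit 51372970649) (nat_lit 76) (nat_lit 2658896469) (nat_lit 152) (nat_lit 28852732905) (nat_lit 36) (nat_lit 5) (nat_lit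 37) (nat_lit 5) (nat_lit 38) (nat_lit 4) (nat_lit 549) (nat_lit 418) (nat_lit 233)) (XT.lf (nat_lit 0) (nat_lit 5171771016) (nat_lit 76) (nat_lit 68119414647) (nat_lit 76) (nat_lit 11499109879) (nat_lit 35) (nat_lit 4) (nat_lit 36) (nat_lit 5) (nat_lit 36) (nat_lit 4) (nat_lit 550) (nat_lit 418) (nat_lit 232))) (XT.nd (nat_lit 78) (nat_lit 0) (nat_lit 0) (XT.lf (nat_lit 0) (nat_lit 2495763186) (nat_lit 988) (nat_lit 746648674) (nat_lit 988) (nat_lit 746648674) (nat_lit 334) (nat_lit 3) (nat_lit 347) (nat_lit 3) (nat_lit 347) (nat_lit 5) (nat_lit 419) (nat_lit 419) (nat_lit 362)) (XT.lf (nat_lit 76) (nat_lit 2472899126) (nat_lit 0) (nat_lit 3818227218) (nat_lit 988) (nat_lit 1769590773) (nat_lit 335) (nat_lit 5) (nat_lit 334) (nat_lit 3) (nat_lit 347) (nat_lit 5) (nat_lit 420) (nat_lit 419) (nat_lit 361))))) (XT.nd (nat_lit 312) (nat_lit 0) (nat_lit 76) (XT.nd (nat_lit 156) (nat_lit 0) (nat_lit 0) (XT.nd (nat_lit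 78) (nat_lit 912) (nat_lit 0) (XT.lf (nat_lit 76) (nat_lit 6564067560) (nat_lit 0) (nat_lit 1033619461) (nat_lit 988) (nat_lit 549077874) (nat_lit 335) (nat_lit 5) (nat_lit 334) (nat_lit 3) (nat_lit 347) (nat_lit 5) (nat_lit 421) (nat_lit 419) (nat_lit 360)) (XT.lf (nat_lit 0) (nat_lit 690801955) (nat_lit 988) (nat_lit 5693097139) (nat_lit 1064) (nat_lit 1851406065) (nat_lit 322) (nat_lit 5) (nat_lit 335) (nat_lit 5) (nat_lit 336) (nat_lit 5) (nat_lit 422) (nat_lit 419) (nat_lit 359))) (XT.nd (nat_lit 78) (nat_lit 0) (nat_lit 0) (XT.lf (nat_lit 0) (nat_lit 1938322841) (nat_lit 988) (nat_lit 1544704111) (nat_lit 1064) (nat_lit 4843879100) (nat_lit 322) (nat_lit 5) (nat_lit 335) (nat_lit 5) (nat_lit 336) (nat_lit 5) (nat_lit 423) (nat_lit 419) (nat_lit 358)) (XT.lf (nat_lit 76) (nat_lit 2756534790) (nat_lit 0) (nat_lit 449645989) (nat_lit 1064) (nat_lit 5215598426) (nat_lit 323) (nat_lit 5) (nat_lit 322) (nat_lit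 5) (nat_lit 336) (nat_lit 5) (nat_lit 424) (nat_lit 419) (nat_lit 357)))) (XT.nd (nat_lit 156) (nat_lit 0) (nat_lit 76) (XT.nd (nat_lit 78) (nat_lit 0) (nat_lit 0) (XT.lf (nat_lit 0) (nat_lit 4511147652) (nat_lit 988) (nat_lit 1353022688) (nat_lit 1064) (nat_lit 2655367263) (nat_lit 323) (nat_lit 5) (nat_lit 336) (nat_lit 5) (nat_lit 337) (nat_lit 5) (nat_lit 425) (nat_lit 419) (nat_lit 356)) (XT.lf (nat_lit 76) (nat_lit 3119152246) (nat_lit 0) (nat_lit 2729390180) (nat_lit 1064) (nat_lit 2771898874) (nat_lit 324) (nat_lit 5) (nat_lit 323) (nat_lit 5) (nat_lit 337) (nat_lit 5) (nat_lit 426) (nat_lit 419) (nat_lit 355))) (XT.nd (nat_lit 78) (nat_lit 0) (nat_lit 0) (XT.lf (nat_lit 0) (nat_lit 7204595327) (nat_lit 988) (nat_lit 1002601802) (nat_lit 1064) (nat_lit 517829488) (nat_lit 324) (nat_lit 5) (nat_lit 337) (nat_lit 5) (nat_lit 338) (nat_lit 5) (nat_lit 427) (nat_lit 419) (nat_lit 354)) (XT.lf (nat_lit 76) (nat_lit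 3649082036) (nat_lit 0) (nat_lit 4975452799) (nat_lit 1064) (nat_lit 207528796) (nat_lit 325) (nat_lit 5) (nat_lit 324) (nat_lit 5) (nat_lit 338) (nat_lit 5) (nat_lit 428) (nat_lit 419) (nat_lit 353))))))) (XT.nd (nat_lit 1170) (nat_lit 4788) (nat_lit 0) (XT.nd (nat_lit 546) (nat_lit 3800) (nat_lit 0) (XT.nd (nat_lit 234) (nat_lit 912) (nat_lit 0) (XT.nd (nat_lit 78) (nat_lit 0) (nat_lit 76) (XT.lf (nat_lit 0) (nat_lit 1094248927) (nat_lit 1064) (nat_lit 518908314) (nat_lit 1140) (nat_lit 7329679292) (nat_lit 310) (nat_lit 5) (nat_lit 324) (nat_lit 5) (nat_lit 325) (nat_lit 5) (nat_lit 429) (nat_lit 419) (nat_lit 352)) (XT.nd (nat_lit 78) (nat_lit 0) (nat_lit 0) (XT.lf (nat_lit 0) (nat_lit 2453692450) (nat_lit 1064) (nat_lit 4733203229) (nat_lit 1140) (nat_lit 1869301210) (nat_lit 311) (nat_lit 5) (nat_lit 325) (nat_lit 5) (nat_lit 326) (nat_lit 5) (nat_lit 430) (nat_lit 419) (nat_lit 351)) (XT.lf (nat_lit 76)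 (nat_lit 107216978) (nat_lit 0) (nat_lit 3732660299) (nat_lit 1140) (nat_lit 5333511179) (nat_lit 312) (nat_lit 5) (nat_lit 311) (nat_lit 5) (nat_lit 326) (nat_lit 5) (nat_lit 431) (nat_lit 419) (nat_lit 350)))) (XT.nd (nat_lit 156) (nat_lit 988) (nat_lit 0) (XT.nd (nat_lit 78) (nat_lit 0) (nat_lit 76) (XT.lf (nat_lit 76) (nat_lit 5163298533) (nat_lit 0) (nat_lit 116611723) (nat_lit 1140) (nat_lit 4013826510) (nat_lit 312) (nat_lit 5) (nat_lit 311) (nat_lit 5) (nat_lit 326) (nat_lit 5) (nat_lit 432) (nat_lit 419) (nat_lit 349)) (XT.lf (nat_lit 76) (nat_lit 909502819) (nat_lit 0) (nat_lit 5862650697) (nat_lit 1140) (nat_lit 2645280348) (nat_lit 313) (nat_lit 5) (nat_lit 312) (nat_lit 5) (nat_lit 327) (nat_lit 5) (nat_lit 433) (nat_lit 419) (nat_lit 348))) (XT.nd (nat_lit 78) (nat_lit 1064) (nat_lit 0) (XT.lf (nat_lit 76) (nat_lit 6157468166) (nat_lit 0) (nat_lit 2160879606) (nat_lit 1140) (nat_lit 1226226958) (nat_lit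 313) (nat_lit 5) (nat_lit 312) (nat_lit 5) (nat_lit 327) (nat_lit 5) (nat_lit 434) (nat_lit 419) (nat_lit 347)) (XT.lf (nat_lit 0) (nat_lit 232150018) (nat_lit 1140) (nat_lit 7796544776) (nat_lit 76) (nat_lit 1646734666) (nat_lit 298) (nat_lit 5) (nat_lit 313) (nat_lit 5) (nat_lit 299) (nat_lit 5) (nat_lit 435) (nat_lit 419) (nat_lit 346))))) (XT.nd (nat_lit 312) (nat_lit 1444) (nat_lit 0) (XT.nd (nat_lit 156) (nat_lit 1216) (nat_lit 0) (XT.nd (nat_lit 78) (nat_lit 1140) (nat_lit 0) (XT.lf (nat_lit 0) (nat_lit 1733315961) (nat_lit 1140) (nat_lit 2498099210) (nat_lit 76) (nat_lit 5577727584) (nat_lit 298) (nat_lit 5) (nat_lit 313) (nat_lit 5) (nat_lit 299) (nat_lit 5) (nat_lit 436) (nat_lit 419) (nat_lit 345)) (XT.lf (nat_lit 0) (nat_lit 2991134367) (nat_lit 1140) (nat_lit 285821514) (nat_lit 1216) (nat_lit 6669995830) (nat_lit 283) (nat_lit 5) (nat_lit 298) (nat_lit 5) (nat_lit 299) (nat_lit 5) (nat_lit 437) (nat_lit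 419) (nat_lit 344))) (XT.nd (nat_lit 78) (nat_lit 1216) (nat_lit 0) (XT.lf (nat_lit 0) (nat_lit 4898086450) (nat_lit 1216) (nat_lit 1455694160) (nat_lit 76) (nat_lit 3734186098) (nat_lit 283) (nat_lit 5) (nat_lit 299) (nat_lit 5) (nat_lit 284) (nat_lit 5) (nat_lit 438) (nat_lit 419) (nat_lit 343)) (XT.lf (nat_lit 0) (nat_lit 4263347540) (nat_lit 1216) (nat_lit 2318594821) (nat_lit 1292) (nat_lit 3650854058) (nat_lit 267) (nat_lit 5) (nat_lit 283) (nat_lit 5) (nat_lit 284) (nat_lit 5) (nat_lit 439) (nat_lit 419) (nat_lit 342)))) (XT.nd (nat_lit 156) (nat_lit 684) (nat_lit 0) (XT.nd (nat_lit 78) (nat_lit 760) (nat_lit 0) (XT.lf (nat_lit 0) (nat_lit 8319745275) (nat_lit 1292) (nat_lit 242636628) (nat_lit 76) (nat_lit 1819492980) (nat_lit 267) (nat_lit 5) (nat_lit 284) (nat_lit 5) (nat_lit 268) (nat_lit 5) (nat_lit 440) (nat_lit 419) (nat_lit 341)) (XT.lf (nat_lit 0) (nat_lit 5718300210) (nat_lit 760) (nat_lit 4441074738)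 (nat_lit 836) (nat_lit 374566577) (nat_lit 257) (nat_lit 5) (nat_lit 267) (nat_lit 5) (nat_lit 268) (nat_lit 5) (nat_lit 441) (nat_lit 419) (nat_lit 340))) (XT.nd (nat_lit 78) (nat_lit 0) (nat_lit 0) (XT.lf (nat_lit 0) (nat_lit 1155342570) (nat_lit 608) (nat_lit 167312055) (nat_lit 684) (nat_lit 9367959311) (nat_lit 248) (nat_lit 5) (nat_lit 256) (nat_lit 5) (nat_lit 257) (nat_lit 5) (nat_lit 442) (nat_lit 419) (nat_lit 339)) (XT.lf (nat_lit 0) (nat_lit 3125710797) (nat_lit 684) (nat_lit 3518440778) (nat_lit 76) (nat_lit 4205856330) (nat_lit 248) (nat_lit 5) (nat_lit 257) (nat_lit 5) (nat_lit 249) (nat_lit 5) (nat_lit 443) (nat_lit 419) (nat_lit 338)))))) (XT.nd (nat_lit 624) (nat_lit 1976) (nat_lit 0) (XT.nd (nat_lit 312) (nat_lit 1672) (nat_lit 0) (XT.nd (nat_lit 156) (nat_lit 532) (nat_lit 0) (XT.nd (nat_lit 78) (nat_lit 0) (nat_lit 0) (XT.lf (nat_lit 0) (nat_lit 2703598233) (nat_lit 608) (nat_lit 2280333348)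 (nat_lit 684) (nat_lit 6030225791) (nat_lit 240) (nat_lit 5) (nat_lit 248) (nat_lit 5) (nat_lit 249) (nat_lit 5) (nat_lit 444) (nat_lit 419) (nat_lit 337)) (XT.lf (nat_lit 0) (nat_lit 6929015858) (nat_lit 684) (nat_lit 2046304797) (nat_lit 76) (nat_lit 2206982859) (nat_lit 240) (nat_lit 5) (nat_lit 249) (nat_lit 5) (nat_lit 241) (nat_lit 5) (nat_lit 445) (nat_lit 419) (nat_lit 336))) (XT.nd (nat_lit 78) (nat_lit 0) (nat_lit 0) (XT.lf (nat_lit 0) (nat_lit 4443875419) (nat_lit 532) (nat_lit 4528580376) (nat_lit 608) (nat_lit 2381843681) (nat_lit 233) (nat_lit 5) (nat_lit 240) (nat_lit 5) (nat_lit 241) (nat_lit 5) (nat_lit 446) (nat_lit 419) (nat_lit 335)) (XT.lf (nat_lit 0) (nat_lit 11073748619) (nat_lit 608) (nat_lit 387450398) (nat_lit 76) (nat_lit 70365180) (nat_lit 233) (nat_lit 5) (nat_lit 241) (nat_lit 5) (nat_lit 234) (nat_lit 5) (nat_lit 447) (nat_lit 419) (nat_lit 334)))) (XT.nd (nat_lit 156) (nat_lit 532)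 (nat_lit 0) (XT.nd (nat_lit 78) (nat_lit 532) (nat_lit 0) (XT.lf (nat_lit 0) (nat_lit 1577127609) (nat_lit 608) (nat_lit 5342026194) (nat_lit 76) (nat_lit 4792070697) (nat_lit 225) (nat_lit 5) (nat_lit 233) (nat_lit 5) (nat_lit 226) (nat_lit 5) (nat_lit 448) (nat_lit 419) (nat_lit 333)) (XT.lf (nat_lit 0) (nat_lit 1437741261) (nat_lit 532) (nat_lit 2220073080) (nat_lit 608) (nat_lit 8238512295) (nat_lit 218) (nat_lit 5) (nat_lit 225) (nat_lit 5) (nat_lit 226) (nat_lit 5) (nat_lit 449) (nat_lit 419) (nat_lit 332))) (XT.nd (nat_lit 78) (nat_lit 532) (nat_lit 0) (XT.lf (nat_lit 0) (nat_lit 5857134042) (nat_lit 608) (nat_lit 3607177680) (nat_lit 76) (nat_lit 2620988513) (nat_lit 218) (nat_lit 5) (nat_lit 226) (nat_lit 5) (nat_lit 219) (nat_lit 5) (nat_lit 450) (nat_lit 419) (nat_lit 331)) (XT.lf (nat_lit 0) (nat_lit 3469767672) (nat_lit 532) (nat_lit 4685232565) (nat_lit 608) (nat_lit 4123970430) (nat_lit 211) (nat_lit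 5) (nat_lit 218) (nat_lit 5) (nat_lit 219) (nat_lit 5) (nat_lit 451) (nat_lit 419) (nat_lit 330))))) (XT.nd (nat_lit 312) (nat_lit 988) (nat_lit 0) (XT.nd (nat_lit 156) (nat_lit 456) (nat_lit 0) (XT.nd (nat_lit 78) (nat_lit 532) (nat_lit 0) (XT.lf (nat_lit 0) (nat_lit 10538489363) (nat_lit 608) (nat_lit 1673158339) (nat_lit 76) (nat_lit 266307398) (nat_lit 211) (nat_lit 5) (nat_lit 219) (nat_lit 5) (nat_lit 212) (nat_lit 5) (nat_lit 452) (nat_lit 419) (nat_lit 329)) (XT.lf (nat_lit 0) (nat_lit 384911599) (nat_lit 532) (nat_lit 6967527701) (nat_lit 76) (nat_lit 5327972506) (nat_lit 204) (nat_lit 5) (nat_lit 211) (nat_lit 5) (nat_lit 205) (nat_lit 5) (nat_lit 453) (nat_lit 419) (nat_lit 328))) (XT.nd (nat_lit 78) (nat_lit 0) (nat_lit 0) (XT.lf (nat_lit 0) (nat_lit 429840992) (nat_lit 456) (nat_lit 2309841151) (nat_lit 532) (nat_lit 10148698809) (nat_lit 198) (nat_lit 5) (nat_lit 204) (nat_lit 5) (nat_lit 205) (nat_lit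 5) (nat_lit 454) (nat_lit 419) (nat_lit 327)) (XT.lf (nat_lit 0) (nat_lit 5242667174) (nat_lit 532) (nat_lit 4962836181) (nat_lit 76) (nat_lit 2894762672) (nat_lit 198) (nat_lit 5) (nat_lit 205) (nat_lit 5) (nat_lit 199) (nat_lit 5) (nat_lit 455) (nat_lit 419) (nat_lit 326)))) (XT.nd (nat_lit 156) (nat_lit 532) (nat_lit 0) (XT.nd (nat_lit 78) (nat_lit 0) (nat_lit 0) (XT.lf (nat_lit 0) (nat_lit 2763655871) (nat_lit 456) (nat_lit 5085932498) (nat_lit 532) (nat_lit 5468057765) (nat_lit 192) (nat_lit 5) (nat_lit 198) (nat_lit 5) (nat_lit 199) (nat_lit 5) (nat_lit 456) (nat_lit 419) (nat_lit 325)) (XT.lf (nat_lit 0) (nat_lit 10566854486) (nat_lit 532) (nat_lit 2744125433) (nat_lit 76) (nat_lit 229607374) (nat_lit 192) (nat_lit 5) (nat_lit 199) (nat_lit 5) (nat_lit 193) (nat_lit 5) (nat_lit 457) (nat_lit 419) (nat_lit 324))) (XT.nd (nat_lit 78) (nat_lit 76) (nat_lit 0) (XT.lf (nat_lit 0) (nat_lit 5328946830) (nat_lit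 456) (nat_lit 8118589569) (nat_lit 532) (nat_lit 320227008) (nat_lit 186) (nat_lit 5) (nat_lit 192) (nat_lit 5) (nat_lit 193) (nat_lit 5) (nat_lit 458) (nat_lit 419) (nat_lit 323)) (XT.lf (nat_lit 0) (nat_lit 2374244487) (nat_lit 532) (nat_lit 348798505) (nat_lit 76) (nat_lit 11277766099) (nat_lit 185) (nat_lit 5) (nat_lit 192) (nat_lit 5) (nat_lit 186) (nat_lit 5) (nat_lit 459) (nat_lit 419) (nat_lit 322))))))))
noncomputable def xc142 : XT := (XT.nd (nat_lit 2340) (nat_lit 3496) (nat_lit 0) (XT.nd (nat_lit 1170) (nat_lit 2508) (nat_lit 0) (XT.nd (nat_lit 546) (nat_lit 1444) (nat_lit 0) (XT.nd (nat_lit 234) (nat_lit 1140) (nat_lit 0) (XT.nd (nat_lit 78) (nat_lit 380) (nat_lit 0) (XT.lf (nat_lit 0) (nat_lit 5230148556) (nat_lit 456) (nat_lit 6152026758) (nat_lit 76) (nat_lit 2855968021) (nat_lit 180) (nat_lit 5) (nat_lit 186) (nat_lit 5) (nat_lit 181) (nat_lit 5) (nat_lit 460) (nat_lit 419) (nat_lit 321)) (XT.nd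 (nat_lit 78) (nat_lit 0) (nat_lit 0) (XT.lf (nat_lit 0) (nat_lit 2292046870) (nat_lit 380) (nat_lit 5913534535) (nat_lit 456) (nat_lit 6276003901) (nat_lit 175) (nat_lit 5) (nat_lit 180) (nat_lit 5) (nat_lit 181) (nat_lit 5) (nat_lit 461) (nat_lit 419) (nat_lit 320)) (XT.lf (nat_lit 0) (nat_lit 11091371919) (nat_lit 380) (nat_lit 222642131) (nat_lit 456) (nat_lit 3417007535) (nat_lit 175) (nat_lit 5) (nat_lit 180) (nat_lit 5) (nat_lit 181) (nat_lit 5) (nat_lit 462) (nat_lit 419) (nat_lit 319)))) (XT.nd (nat_lit 156) (nat_lit 684) (nat_lit 0) (XT.nd (nat_lit 78) (nat_lit 76) (nat_lit 0) (XT.lf (nat_lit 0) (nat_lit 5189841458) (nat_lit 380) (nat_lit 9412046300) (nat_lit 456) (nat_lit 383470613) (nat_lit 170) (nat_lit 5) (nat_lit 175) (nat_lit 5) (nat_lit 176) (nat_lit 5) (nat_lit 463) (nat_lit 419) (nat_lit 318)) (XT.lf (nat_lit 0) (nat_lit 2709116818) (nat_lit 456) (nat_lit 940396748) (nat_lit 76) (nat_lit 11596378139)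 (nat_lit 169) (nat_lit 5) (nat_lit 175) (nat_lit 5) (nat_lit 170) (nat_lit 5) (nat_lit 464) (nat_lit 419) (nat_lit 317))) (XT.nd (nat_lit 78) (nat_lit 304) (nat_lit 0) (XT.lf (nat_lit 0) (nat_lit 5972180626) (nat_lit 456) (nat_lit 7219530893) (nat_lit 76) (nat_lit 2319856235) (nat_lit 164) (nat_lit 5) (nat_lit 170) (nat_lit 5) (nat_lit 165) (nat_lit 5) (nat_lit 465) (nat_lit 419) (nat_lit 316)) (XT.lf (nat_lit 0) (nat_lit 2015283088) (nat_lit 304) (nat_lit 7365899743) (nat_lit 380) (nat_lit 6402592580) (nat_lit 160) (nat_lit 5) (nat_lit 164) (nat_lit 5) (nat_lit 165) (nat_lit 5) (nat_lit 466) (nat_lit 419) (nat_lit 315))))) (XT.nd (nat_lit 312) (nat_lit 684) (nat_lit 0) (XT.nd (nat_lit 156) (nat_lit 304) (nat_lit 0) (XT.nd (nat_lit 78) (nat_lit 456) (nat_lit 0) (XT.lf (nat_lit 0) (nat_lit 11651760212) (nat_lit 304) (nat_lit 1296820265) (nat_lit 380) (nat_lit 3113887702) (nat_lit 160) (nat_lit 5) (nat_lit 164) (nat_lit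 5) (nat_lit 165) (nat_lit 5) (nat_lit 467) (nat_lit 419) (nat_lit 314)) (XT.lf (nat_lit 0) (nat_lit 350782362) (nat_lit 456) (nat_lit 11090810282) (nat_lit 76) (nat_lit 4905373491) (nat_lit 154) (nat_lit 5) (nat_lit 160) (nat_lit 5) (nat_lit 155) (nat_lit 5) (nat_lit 468) (nat_lit 419) (nat_lit 313))) (XT.nd (nat_lit 78) (nat_lit 304) (nat_lit 0) (XT.lf (nat_lit 0) (nat_lit 3898370476) (nat_lit 456) (nat_lit 1402556117) (nat_lit 76) (nat_lit 11336903018) (nat_lit 154) (nat_lit 5) (nat_lit 160) (nat_lit 5) (nat_lit 155) (nat_lit 5) (nat_lit 469) (nat_lit 419) (nat_lit 312)) (XT.lf (nat_lit 0) (nat_lit 7631072425) (nat_lit 380) (nat_lit 8221950462) (nat_lit 76) (nat_lit 1082037865) (nat_lit 150) (nat_lit 5) (nat_lit 155) (nat_lit 5) (nat_lit 151) (nat_lit 5) (nat_lit 470) (nat_lit 419) (nat_lit 311)))) (XT.nd (nat_lit 156) (nat_lit 380) (nat_lit 0) (XT.nd (nat_lit 78) (nat_lit 0) (nat_lit 0) (XT.lf (nat_lit 0) (nat_lit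 1881577054) (nat_lit 304) (nat_lit 9663450007) (nat_lit 380) (nat_lit 5694105897) (nat_lit 146) (nat_lit 5) (nat_lit 150) (nat_lit 5) (nat_lit 151) (nat_lit 5) (nat_lit 471) (nat_lit 419) (nat_lit 310)) (XT.lf (nat_lit 0) (nat_lit 12434246726) (nat_lit 304) (nat_lit 3209814349) (nat_lit 380) (nat_lit 1906238645) (nat_lit 146) (nat_lit 5) (nat_lit 150) (nat_lit 5) (nat_lit 151) (nat_lit 5) (nat_lit 472) (nat_lit 419) (nat_lit 309))) (XT.nd (nat_lit 78) (nat_lit 0) (nat_lit 0) (XT.lf (nat_lit 0) (nat_lit 2027807013) (nat_lit 380) (nat_lit 12404120349) (nat_lit 76) (nat_lit 3436156500) (nat_lit 141) (nat_lit 5) (nat_lit 146) (nat_lit 5) (nat_lit 142) (nat_lit 5) (nat_lit 473) (nat_lit 419) (nat_lit 308)) (XT.lf (nat_lit 0) (nat_lit 6110607148) (nat_lit 380) (nat_lit 1801076428) (nat_lit 76) (nat_lit 10281082370) (nat_lit 141) (nat_lit 5) (nat_lit 146) (nat_lit 5) (nat_lit 142) (nat_lit 5) (nat_lit 474) (nat_lit 419)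 (nat_lit 307)))))) (XT.nd (nat_lit 546) (nat_lit 1064) (nat_lit 0) (XT.nd (nat_lit 234) (nat_lit 836) (nat_lit 0) (XT.nd (nat_lit 78) (nat_lit 304) (nat_lit 0) (XT.lf (nat_lit 0) (nat_lit 9279470771) (nat_lit 304) (nat_lit 1111147325) (nat_lit 380) (nat_lit 8134330557) (nat_lit 137) (nat_lit 5) (nat_lit 141) (nat_lit 5) (nat_lit 142) (nat_lit 5) (nat_lit 475) (nat_lit 419) (nat_lit 306)) (XT.nd (nat_lit 78) (nat_lit 76) (nat_lit 0) (XT.lf (nat_lit 0) (nat_lit 1819668630) (nat_lit 228) (nat_lit 13057543990) (nat_lit 304) (nat_lit 3987540633) (nat_lit 134) (nat_lit 5) (nat_lit 137) (nat_lit 5) (nat_lit 138) (nat_lit 5) (nat_lit 476) (nat_lit 419) (nat_lit 305)) (XT.lf (nat_lit 0) (nat_lit 369146057) (nat_lit 304) (nat_lit 5842194626) (nat_lit 76) (nat_lit 13000600462) (nat_lit 133) (nat_lit 5) (nat_lit 137) (nat_lit 5) (nat_lit 134) (nat_lit 5) (nat_lit 477) (nat_lit 419) (nat_lit 304)))) (XT.nd (nat_lit 156) (nat_lit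 532) (nat_lit 0) (XT.nd (nat_lit 78) (nat_lit 0) (nat_lit 0) (XT.lf (nat_lit 0) (nat_lit 4826743418) (nat_lit 380) (nat_lit 13827839814) (nat_lit 76) (nat_lit 912268099) (nat_lit 129) (nat_lit 5) (nat_lit 134) (nat_lit 5) (nat_lit 130) (nat_lit 5) (nat_lit 478) (nat_lit 419) (nat_lit 303)) (XT.lf (nat_lit 0) (nat_lit 9525432270) (nat_lit 380) (nat_lit 2226686366) (nat_lit 76) (nat_lit 8177070975) (nat_lit 129) (nat_lit 5) (nat_lit 134) (nat_lit 5) (nat_lit 130) (nat_lit 5) (nat_lit 479) (nat_lit 419) (nat_lit 302))) (XT.nd (nat_lit 78) (nat_lit 304) (nat_lit 0) (XT.lf (nat_lit 0) (nat_lit 9894830154) (nat_lit 228) (nat_lit 4552052552) (nat_lit 304) (nat_lit 5853062953) (nat_lit 126) (nat_lit 5) (nat_lit 129) (nat_lit 5) (nat_lit 130) (nat_lit 5) (nat_lit 480) (nat_lit 419) (nat_lit 301)) (XT.lf (nat_lit 0) (nat_lit 1729609094) (nat_lit 304) (nat_lit 17840036677) (nat_lit 380) (nat_lit 1110570141) (nat_lit 122)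 (nat_lit 5) (nat_lit 126) (nat_lit 5) (nat_lit 127) (nat_lit 5) (nat_lit 481) (nat_lit 419) (nat_lit 300))))) (XT.nd (nat_lit 312) (nat_lit 532) (nat_lit 0) (XT.nd (nat_lit 156) (nat_lit 228) (nat_lit 0) (XT.nd (nat_lit 78) (nat_lit 228) (nat_lit 0) (XT.lf (nat_lit 0) (nat_lit 3838590561) (nat_lit 380) (nat_lit 6730396164) (nat_lit 76) (nat_lit 10497679418) (nat_lit 121) (nat_lit 5) (nat_lit 126) (nat_lit 5) (nat_lit 122) (nat_lit 5) (nat_lit 482) (nat_lit 419) (nat_lit 299)) (XT.lf (nat_lit 0) (nat_lit 5941031626) (nat_lit 228) (nat_lit 3017224544) (nat_lit 304) (nat_lit 12504794760) (nat_lit 118) (nat_lit 5) (nat_lit 121) (nat_lit 5) (nat_lit 122) (nat_lit 5) (nat_lit 483) (nat_lit 419) (nat_lit 298))) (XT.nd (nat_lit 78) (nat_lit 228) (nat_lit 0) (XT.lf (nat_lit 0) (nat_lit 14333263173) (nat_lit 304) (nat_lit 2805590365) (nat_lit 76) (nat_lit 4729422598) (nat_lit 118) (nat_lit 5) (nat_lit 122) (nat_lit 5) (nat_lit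 119) (nat_lit 5) (nat_lit 484) (nat_lit 419) (nat_lit 297)) (XT.lf (nat_lit 0) (nat_lit 10446469906) (nat_lit 228) (nat_lit 9541058547) (nat_lit 304) (nat_lit 2294590782) (nat_lit 115) (nat_lit 5) (nat_lit 118) (nat_lit 5) (nat_lit 119) (nat_lit 5) (nat_lit 485) (nat_lit 419) (nat_lit 296)))) (XT.nd (nat_lit 156) (nat_lit 228) (nat_lit 0) (XT.nd (nat_lit 78) (nat_lit 0) (nat_lit 0) (XT.lf (nat_lit 0) (nat_lit 1423865399) (nat_lit 228) (nat_lit 1648690027) (nat_lit 304) (nat_lit 19634026762) (nat_lit 111) (nat_lit 5) (nat_lit 114) (nat_lit 5) (nat_lit 115) (nat_lit 5) (nat_lit 486) (nat_lit 419) (nat_lit 295)) (XT.lf (nat_lit 0) (nat_lit 8725449460) (nat_lit 304) (nat_lit 7922586539) (nat_lit 76) (nat_lit 6489937158) (nat_lit 111) (nat_lit 5) (nat_lit 115) (nat_lit 5) (nat_lit 112) (nat_lit 5) (nat_lit 487) (nat_lit 419) (nat_lit 294))) (XT.nd (nat_lit 78) (nat_lit 0) (nat_lit 0) (XT.lf (nat_lit 0) (nat_lit 5918107855)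 (nat_lit 228) (nat_lit 8691246448) (nat_lit 304) (nat_lit 8971110056) (nat_lit 108) (nat_lit 5) (nat_lit 111) (nat_lit 5) (nat_lit 112) (nat_lit 5) (nat_lit 488) (nat_lit 419) (nat_lit 293)) (XT.lf (nat_lit 0) (nat_lit 20317218832) (nat_lit 228) (nat_lit 420930593) (nat_lit 304) (nat_lit 3296030868) (nat_lit 108) (nat_lit 5) (nat_lit 111) (nat_lit 5) (nat_lit 112) (nat_lit 5) (nat_lit 489) (nat_lit 419) (nat_lit 292))))))) (XT.nd (nat_lit 1170) (nat_lit 1596) (nat_lit 0) (XT.nd (nat_lit 546) (nat_lit 988) (nat_lit 0) (XT.nd (nat_lit 234) (nat_lit 456) (nat_lit 0) (XT.nd (nat_lit 78) (nat_lit 228) (nat_lit 0) (XT.lf (nat_lit 0) (nat_lit 2671144129) (nat_lit 228) (nat_lit 13762594632) (nat_lit 76) (nat_lit 8061887217) (nat_lit 105) (nat_lit 5) (nat_lit 108) (nat_lit 5) (nat_lit 106) (nat_lit 5) (nat_lit 490) (nat_lit 419) (nat_lit 291)) (XT.nd (nat_lit 78) (nat_lit 0) (nat_lit 0) (XT.lf (nat_lit 0) (nat_lit 680066216)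 (nat_lit 228) (nat_lit 8108308957) (nat_lit 304) (nat_lit 16180443298) (nat_lit 102) (nat_lit 5) (nat_lit 105) (nat_lit 5) (nat_lit 106) (nat_lit 5) (nat_lit 491) (nat_lit 419) (nat_lit 290)) (XT.lf (nat_lit 0) (nat_lit 15222715856) (nat_lit 304) (nat_lit 9638812263) (nat_lit 76) (nat_lit 590671895) (nat_lit 102) (nat_lit 5) (nat_lit 106) (nat_lit 5) (nat_lit 103) (nat_lit 5) (nat_lit 492) (nat_lit 419) (nat_lit 289)))) (XT.nd (nat_lit 156) (nat_lit 228) (nat_lit 0) (XT.nd (nat_lit 78) (nat_lit 76) (nat_lit 0) (XT.lf (nat_lit 0) (nat_lit 5458375287) (nat_lit 152) (nat_lit 16513542089) (nat_lit 228) (nat_lit 3974511734) (nat_lit 100) (nat_lit 5) (nat_lit 102) (nat_lit 5) (nat_lit 103) (nat_lit 5) (nat_lit 493) (nat_lit 419) (nat_lit 288)) (XT.lf (nat_lit 0) (nat_lit 2507360457) (nat_lit 228) (nat_lit 5289708399) (nat_lit 76) (nat_lit 18655083072) (nat_lit 99) (nat_lit 5) (nat_lit 102) (nat_lit 5) (nat_lit 100) (nat_lit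 5) (nat_lit 494) (nat_lit 419) (nat_lit 287))) (XT.nd (nat_lit 78) (nat_lit 0) (nat_lit 0) (XT.lf (nat_lit 0) (nat_lit 9206959523) (nat_lit 304) (nat_lit 16469432211) (nat_lit 76) (nat_lit 1292380452) (nat_lit 96) (nat_lit 5) (nat_lit 100) (nat_lit 5) (nat_lit 97) (nat_lit 5) (nat_lit 495) (nat_lit 419) (nat_lit 286)) (XT.lf (nat_lit 0) (nat_lit 16228188127) (nat_lit 304) (nat_lit 724569109) (nat_lit 76) (nat_lit 10544515481) (nat_lit 96) (nat_lit 5) (nat_lit 100) (nat_lit 5) (nat_lit 97) (nat_lit 5) (nat_lit 496) (nat_lit 419) (nat_lit 285))))) (XT.nd (nat_lit 312) (nat_lit 380) (nat_lit 0) (XT.nd (nat_lit 156) (nat_lit 152) (nat_lit 0) (XT.nd (nat_lit 78) (nat_lit 304) (nat_lit 0) (XT.lf (nat_lit 0) (nat_lit 15783104129) (nat_lit 152) (nat_lit 7818470499) (nat_lit 228) (nat_lit 4435808889) (nat_lit 94) (nat_lit 5) (nat_lit 96) (nat_lit 5) (nat_lit 97) (nat_lit 5) (nat_lit 497) (nat_lit 419) (nat_lit 284)) (XT.lf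 (nat_lit 0) (nat_lit 2605672133) (nat_lit 304) (nat_lit 24360115427) (nat_lit 76) (nat_lit 1625540705) (nat_lit 90) (nat_lit 5) (nat_lit 94) (nat_lit 5) (nat_lit 91) (nat_lit 5) (nat_lit 498) (nat_lit 419) (nat_lit 283))) (XT.nd (nat_lit 78) (nat_lit 152) (nat_lit 0) (XT.lf (nat_lit 0) (nat_lit 9961514527) (nat_lit 304) (nat_lit 7835874777) (nat_lit 76) (nat_lit 11357417127) (nat_lit 90) (nat_lit 5) (nat_lit 94) (nat_lit 5) (nat_lit 91) (nat_lit 5) (nat_lit 499) (nat_lit 419) (nat_lit 282)) (XT.lf (nat_lit 0) (nat_lit 9349435610) (nat_lit 152) (nat_lit 8268655798) (nat_lit 228) (nat_lit 12114696541) (nat_lit 88) (nat_lit 5) (nat_lit 90) (nat_lit 5) (nat_lit 91) (nat_lit 5) (nat_lit 500) (nat_lit 419) (nat_lit 281)))) (XT.nd (nat_lit 156) (nat_lit 152) (nat_lit 0) (XT.nd (nat_lit 78) (nat_lit 228) (nat_lit 0) (XT.lf (nat_lit 0) (nat_lit 25589376713) (nat_lit 228) (nat_lit 3147598877) (nat_lit 76) (nat_lit 1588583754)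 (nat_lit 88) (nat_lit 5) (nat_lit 91) (nat_lit 5) (nat_lit 89) (nat_lit 5) (nat_lit 501) (nat_lit 419) (nat_lit 280)) (XT.lf (nat_lit 0) (nat_lit 3024544971) (nat_lit 228) (nat_lit 16163910651) (nat_lit 76) (nat_lit 11740330980) (nat_lit 85) (nat_lit 5) (nat_lit 88) (nat_lit 5) (nat_lit 86) (nat_lit 5) (nat_lit 502) (nat_lit 419) (nat_lit 279))) (XT.nd (nat_lit 78) (nat_lit 0) (nat_lit 0) (XT.lf (nat_lit 0) (nat_lit 1699364896) (nat_lit 152) (nat_lit 9262520107) (nat_lit 228) (nat_lit 20585650089) (nat_lit 83) (nat_lit 5) (nat_lit 85) (nat_lit 5) (nat_lit 86) (nat_lit 5) (nat_lit 503) (nat_lit 419) (nat_lit 278)) (XT.lf (nat_lit 0) (nat_lit 19302020779) (nat_lit 228) (nat_lit 11777648947) (nat_lit 76) (nat_lit 1100236725) (nat_lit 83) (nat_lit 5) (nat_lit 86) (nat_lit 5) (nat_lit 84) (nat_lit 5) (nat_lit 504) (nat_lit 419) (nat_lit 277)))))) (XT.nd (nat_lit 624) (nat_lit 684) (nat_lit 0) (XT.nd (nat_lit 312) (nat_lit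 532) (nat_lit 0) (XT.nd (nat_lit 156) (nat_lit 152) (nat_lit 0) (XT.nd (nat_lit 78) (nat_lit 76) (nat_lit 0) (XT.lf (nat_lit 0) (nat_lit 6860921303) (nat_lit 152) (nat_lit 21179968795) (nat_lit 228) (nat_lit 4785903624) (nat_lit 81) (nat_lit 5) (nat_lit 83) (nat_lit 5) (nat_lit 84) (nat_lit 5) (nat_lit 505) (nat_lit 419) (nat_lit 276)) (XT.lf (nat_lit 0) (nat_lit 3590587377) (nat_lit 228) (nat_lit 7240994388) (nat_lit 76) (nat_lit 22657153058) (nat_lit 80) (nat_lit 5) (nat_lit 83) (nat_lit 5) (nat_lit 81) (nat_lit 5) (nat_lit 506) (nat_lit 419) (nat_lit 275))) (XT.nd (nat_lit 78) (nat_lit 0) (nat_lit 0) (XT.lf (nat_lit 0) (nat_lit 12220930344) (nat_lit 152) (nat_lit 9882604) (nat_lit 228) (nat_lit 21935041302) (nat_lit 78) (nat_lit 5) (nat_lit 80) (nat_lit 5) (nat_lit 81) (nat_lit 5) (nat_lit 507) (nat_lit 419) (nat_lit 274)) (XT.lf (nat_lit 0) (nat_lit 21302337314) (nat_lit 228) (nat_lit 2569552447) (nat_lit 76)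 (nat_lit 10986235323) (nat_lit 78) (nat_lit 5) (nat_lit 81) (nat_lit 5) (nat_lit 79) (nat_lit 5) (nat_lit 508) (nat_lit 419) (nat_lit 273)))) (XT.nd (nat_lit 156) (nat_lit 152) (nat_lit 0) (XT.nd (nat_lit 78) (nat_lit 228) (nat_lit 0) (XT.lf (nat_lit 0) (nat_lit 17717342158) (nat_lit 152) (nat_lit 13090527095) (nat_lit 228) (nat_lit 4758439504) (nat_lit 76) (nat_lit 5) (nat_lit 78) (nat_lit 5) (nat_lit 79) (nat_lit 5) (nat_lit 509) (nat_lit 419) (nat_lit 272)) (XT.lf (nat_lit 0) (nat_lit 2359594364) (nat_lit 152) (nat_lit 1899629904) (nat_lit 228) (nat_lit 32034062600) (nat_lit 73) (nat_lit 5) (nat_lit 75) (nat_lit 5) (nat_lit 76) (nat_lit 5) (nat_lit 510) (nat_lit 419) (nat_lit 271))) (XT.nd (nat_lit 78) (nat_lit 152) (nat_lit 0) (XT.lf (nat_lit 0) (nat_lit 13717851661) (nat_lit 228) (nat_lit 13653232842) (nat_lit 76) (nat_lit 9661594734) (nat_lit 73) (nat_lit 5) (nat_lit 76) (nat_lit 5) (nat_lit 74) (nat_lit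 5) (nat_lit 511) (nat_lit 419) (nat_lit 270)) (XT.lf (nat_lit 0) (nat_lit 7345186932) (nat_lit 152) (nat_lit 16196221856) (nat_lit 228) (nat_lit 14250409966) (nat_lit 71) (nat_lit 5) (nat_lit 73) (nat_lit 5) (nat_lit 74) (nat_lit 5) (nat_lit 512) (nat_lit 419) (nat_lit 269))))) (XT.nd (nat_lit 312) (nat_lit 304) (nat_lit 0) (XT.nd (nat_lit 156) (nat_lit 152) (nat_lit 0) (XT.nd (nat_lit 78) (nat_lit 228) (nat_lit 0) (XT.lf (nat_lit 0) (nat_lit 29238607504) (nat_lit 152) (nat_lit 4550789830) (nat_lit 228) (nat_lit 4780443872) (nat_lit 71) (nat_lit 5) (nat_lit 73) (nat_lit 5) (nat_lit 74) (nat_lit 5) (nat_lit 513) (nat_lit 419) (nat_lit 268)) (XT.lf (nat_lit 0) (nat_lit 5062876105) (nat_lit 228) (nat_lit 26838388507) (nat_lit 76) (nat_lit 7462916649) (nat_lit 68) (nat_lit 5) (nat_lit 71) (nat_lit 5) (nat_lit 69) (nat_lit 5) (nat_lit 514) (nat_lit 419) (nat_lit 267))) (XT.nd (nat_lit 78) (nat_lit 152) (nat_lit 0) (XT.lf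 (nat_lit 0) (nat_lit 15237674651) (nat_lit 228) (nat_lit 5057623992) (nat_lit 76) (nat_lit 19881665558) (nat_lit 68) (nat_lit 5) (nat_lit 71) (nat_lit 5) (nat_lit 69) (nat_lit 5) (nat_lit 515) (nat_lit 419) (nat_lit 266)) (XT.lf (nat_lit 0) (nat_lit 17707945132) (nat_lit 152) (nat_lit 8172267084) (nat_lit 228) (nat_lit 15129043994) (nat_lit 66) (nat_lit 5) (nat_lit 68) (nat_lit 5) (nat_lit 69) (nat_lit 5) (nat_lit 516) (nat_lit 419) (nat_lit 265)))) (XT.nd (nat_lit 156) (nat_lit 152) (nat_lit 0) (XT.nd (nat_lit 78) (nat_lit 152) (nat_lit 0) (XT.lf (nat_lit 0) (nat_lit 36927381040) (nat_lit 228) (nat_lit 660999277) (nat_lit 76) (nat_lit 4275576432) (nat_lit 66) (nat_lit 5) (nat_lit 69) (nat_lit 5) (nat_lit 67) (nat_lit 4) (nat_lit 517) (nat_lit 419) (nat_lit 264)) (XT.lf (nat_lit 0) (nat_lit 5750711343) (nat_lit 152) (nat_lit 19778945668) (nat_lit 76) (nat_lit 17204110641) (nat_lit 64) (nat_lit 5) (nat_lit 66) (nat_lit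 5) (nat_lit 65) (nat_lit 5) (nat_lit 518) (nat_lit 419) (nat_lit 263))) (XT.nd (nat_lit 78) (nat_lit 0) (nat_lit 0) (XT.lf (nat_lit 0) (nat_lit 3672114580) (nat_lit 152) (nat_lit 13021862933) (nat_lit 228) (nat_lit 26933192023) (nat_lit 62) (nat_lit 5) (nat_lit 64) (nat_lit 5) (nat_lit 65) (nat_lit 5) (nat_lit 519) (nat_lit 419) (nat_lit 262)) (XT.lf (nat_lit 0) (nat_lit 28158480004) (nat_lit 228) (nat_lit 16323688447) (nat_lit 76) (nat_lit 59417250) (nat_lit 62) (nat_lit 5) (nat_lit 65) (nat_lit 5) (nat_lit 63) (nat_lit 4) (nat_lit 520) (nat_lit 419) (nat_lit 261))))))))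
noncomputable def xc143 : XT := (XT.nd (nat_lit 54600) (nat_lit 0) (nat_lit 13832) (XT.nd (nat_lit 1170) (nat_lit 760) (nat_lit 0) (XT.nd (nat_lit 546) (nat_lit 608) (nat_lit 0) (XT.nd (nat_lit 234) (nat_lit 304) (nat_lit 0) (XT.nd (nat_lit 78) (nat_lit 228) (nat_lit 0) (XT.lf (nat_lit 0) (nat_lit 8030986182) (nat_lit 76) (nat_lit 32134842800) (nat_lit 152) (nat_lit 5311638393) (nat_lit 61) (nat_lit 5) (nat_lit 62) (nat_lit 5) (nat_lit 63) (nat_lit 4) (nat_lit 521) (nat_lit 419) (nat_lit 260)) (XT.nd (nat_lit 78) (nat_lit 152) (nat_lit 0) (XT.lf (nat_lit 0) (nat_lit 6132360722) (nat_lit 152) (nat_lit 13059180750) (nat_lit 76) (nat_lit 27243349652) (nat_lit 60) (nat_lit 5) (nat_lit 62) (nat_lit 5) (nat_lit 61) (nat_lit 5) (nat_lit 522) (nat_lit 419) (nat_lit 259)) (XT.lf (nat_lit 0) (nat_lit 12232816471) (nat_lit 152) (nat_lit 5690698669) (nat_lit 228) (nat_lit 29492627245) (nat_lit 58) (nat_lit 5) (nat_lit 60)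 (nat_lit 5) (nat_lit 61) (nat_lit 5) (nat_lit 523) (nat_lit 419) (nat_lit 258)))) (XT.nd (nat_lit 156) (nat_lit 228) (nat_lit 0) (XT.nd (nat_lit 78) (nat_lit 76) (nat_lit 0) (XT.lf (nat_lit 0) (nat_lit 30273577919) (nat_lit 228) (nat_lit 9964936319) (nat_lit 76) (nat_lit 8182162059) (nat_lit 58) (nat_lit 5) (nat_lit 61) (nat_lit 5) (nat_lit 59) (nat_lit 4) (nat_lit 524) (nat_lit 419) (nat_lit 257)) (XT.lf (nat_lit 0) (nat_lit 16258238189) (nat_lit 76) (nat_lit 26941761889) (nat_lit 152) (nat_lit 6249170736) (nat_lit 57) (nat_lit 5) (nat_lit 58) (nat_lit 5) (nat_lit 59) (nat_lit 4) (nat_lit 525) (nat_lit 419) (nat_lit 256))) (XT.nd (nat_lit 78) (nat_lit 152) (nat_lit 0) (XT.lf (nat_lit 0) (nat_lit 5983364354) (nat_lit 152) (nat_lit 7104539270) (nat_lit 76) (nat_lit 37416039058) (nat_lit 56) (nat_lit 5) (nat_lit 58) (nat_lit 5) (nat_lit 57) (nat_lit 5) (nat_lit 526) (nat_lit 419) (nat_lit 255)) (XT.lf (nat_lit 0)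 (nat_lit 18657578218) (nat_lit 228) (nat_lit 31514607370) (nat_lit 76) (nat_lit 1410307069) (nat_lit 54) (nat_lit 5) (nat_lit 57) (nat_lit 5) (nat_lit 55) (nat_lit 4) (nat_lit 527) (nat_lit 419) (nat_lit 254))))) (XT.nd (nat_lit 312) (nat_lit 304) (nat_lit 0) (XT.nd (nat_lit 156) (nat_lit 228) (nat_lit 0) (XT.nd (nat_lit 78) (nat_lit 76) (nat_lit 0) (XT.lf (nat_lit 0) (nat_lit 31907509570) (nat_lit 228) (nat_lit 4632761908) (nat_lit 76) (nat_lit 16147263201) (nat_lit 54) (nat_lit 5) (nat_lit 57) (nat_lit 5) (nat_lit 55) (nat_lit 4) (nat_lit 528) (nat_lit 419) (nat_lit 253)) (XT.lf (nat_lit 0) (nat_lit 23502170146) (nat_lit 76) (nat_lit 22272332202) (nat_lit 152) (nat_lit 8044638980) (nat_lit 53) (nat_lit 5) (nat_lit 54) (nat_lit 5) (nat_lit 55) (nat_lit 4) (nat_lit 529) (nat_lit 419) (nat_lit 252))) (XT.nd (nat_lit 78) (nat_lit 152) (nat_lit 0) (XT.lf (nat_lit 0) (nat_lit 5014719767) (nat_lit 152) (nat_lit 2468391452)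 (nat_lit 76) (nat_lit 47498895331) (nat_lit 52) (nat_lit 5) (nat_lit 54) (nat_lit 5) (nat_lit 53) (nat_lit 5) (nat_lit 530) (nat_lit 419) (nat_lit 251)) (XT.lf (nat_lit 0) (nat_lit 18631898222) (nat_lit 228) (nat_lit 29603356084) (nat_lit 76) (nat_lit 7932282328) (nat_lit 50) (nat_lit 5) (nat_lit 53) (nat_lit 5) (nat_lit 51) (nat_lit 4) (nat_lit 531) (nat_lit 419) (nat_lit 250)))) (XT.nd (nat_lit 156) (nat_lit 228) (nat_lit 0) (XT.nd (nat_lit 78) (nat_lit 76) (nat_lit 0) (XT.lf (nat_lit 0) (nat_lit 32750710952) (nat_lit 228) (nat_lit 955549776) (nat_lit 76) (nat_lit 23679578566) (nat_lit 50) (nat_lit 5) (nat_lit 53) (nat_lit 5) (nat_lit 51) (nat_lit 4) (nat_lit 532) (nat_lit 419) (nat_lit 249)) (XT.lf (nat_lit 0) (nat_lit 29108382387) (nat_lit 76) (nat_lit 18458548212) (nat_lit 152) (nat_lit 11065545391) (nat_lit 49) (nat_lit 5) (nat_lit 50) (nat_lit 5) (nat_lit 51) (nat_lit 4) (nat_lit 533) (nat_lit 419) (nat_lit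 248))) (XT.nd (nat_lit 78) (nat_lit 0) (nat_lit 0) (XT.lf (nat_lit 0) (nat_lit 140943753) (nat_lit 152) (nat_lit 2718516653) (nat_lit 228) (nat_lit 57056057842) (nat_lit 46) (nat_lit 5) (nat_lit 48) (nat_lit 5) (nat_lit 49) (nat_lit 5) (nat_lit 534) (nat_lit 419) (nat_lit 247)) (XT.lf (nat_lit 0) (nat_lit 17404663916) (nat_lit 228) (nat_lit 30180522369) (nat_lit 76) (nat_lit 13635833283) (nat_lit 46) (nat_lit 5) (nat_lit 49) (nat_lit 5) (nat_lit 47) (nat_lit 4) (nat_lit 535) (nat_lit 419) (nat_lit 246)))))) (XT.nd (nat_lit 546) (nat_lit 456) (nat_lit 0) (XT.nd (nat_lit 234) (nat_lit 228) (nat_lit 0) (XT.nd (nat_lit 78) (nat_lit 0) (nat_lit 0) (XT.lf (nat_lit 0) (nat_lit 268667970) (nat_lit 76) (nat_lit 32141284169) (nat_lit 152) (nat_lit 30155022140) (nat_lit 45) (nat_lit 5) (nat_lit 46) (nat_lit 5) (nat_lit 47) (nat_lit 4) (nat_lit 536) (nat_lit 419) (nat_lit 245)) (XT.nd (nat_lit 78) (nat_lit 0) (nat_lit 0) (XT.lf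 (nat_lit 0) (nat_lit 32239103059) (nat_lit 76) (nat_lit 15925353311) (nat_lit 152) (nat_lit 15775819743) (nat_lit 45) (nat_lit 5) (nat_lit 46) (nat_lit 5) (nat_lit 47) (nat_lit 4) (nat_lit 537) (nat_lit 419) (nat_lit 244)) (XT.lf (nat_lit 0) (nat_lit 64393476250) (nat_lit 152) (nat_lit 206357804) (nat_lit 0) (nat_lit 756946726) (nat_lit 45) (nat_lit 5) (nat_lit 47) (nat_lit 4) (nat_lit 45) (nat_lit 4) (nat_lit 538) (nat_lit 419) (nat_lit 243)))) (XT.nd (nat_lit 156) (nat_lit 76) (nat_lit 0) (XT.nd (nat_lit 78) (nat_lit 0) (nat_lit 0) (XT.lf (nat_lit 0) (nat_lit 14485902144) (nat_lit 152) (nat_lit 34240405534) (nat_lit 76) (nat_lit 18071214074) (nat_lit 43) (nat_lit 5) (nat_lit 45) (nat_lit 5) (nat_lit 44) (nat_lit 4) (nat_lit 539) (nat_lit 419) (nat_lit 242)) (XT.lf (nat_lit 0) (nat_lit 30375907594) (nat_lit 152) (nat_lit 1993653077) (nat_lit 76) (nat_lit 35911737810) (nat_lit 43) (nat_lit 5) (nat_lit 45) (nat_lit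 5) (nat_lit 44) (nat_lit 4) (nat_lit 540) (nat_lit 419) (nat_lit 241))) (XT.nd (nat_lit 78) (nat_lit 0) (nat_lit 0) (XT.lf (nat_lit 0) (nat_lit 31831556154) (nat_lit 76) (nat_lit 15211778917) (nat_lit 152) (nat_lit 22757231957) (nat_lit 42) (nat_lit 5) (nat_lit 43) (nat_lit 5) (nat_lit 44) (nat_lit 4) (nat_lit 541) (nat_lit 419) (nat_lit 240)) (XT.lf (nat_lit 0) (nat_lit 64249519422) (nat_lit 152) (nat_lit 4686378942) (nat_lit 0) (nat_lit 2428353418) (nat_lit 42) (nat_lit 5) (nat_lit 44) (nat_lit 4) (nat_lit 42) (nat_lit 4) (nat_lit 542) (nat_lit 419) (nat_lit 239))))) (XT.nd (nat_lit 312) (nat_lit 228) (nat_lit 0) (XT.nd (nat_lit 156) (nat_lit 76) (nat_lit 0) (XT.nd (nat_lit 78) (nat_lit 0) (nat_lit 0) (XT.lf (nat_lit 0) (nat_lit 9259860147) (nat_lit 152) (nat_lit 43032497996) (nat_lit 76) (nat_lit 20666743063) (nat_lit 40) (nat_lit 5) (nat_lit 42) (nat_lit 5) (nat_lit 41) (nat_lit 4) (nat_lit 543) (nat_lit 419)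 (nat_lit 238)) (XT.lf (nat_lit 0) (nat_lit 26025389745) (nat_lit 152) (nat_lit 9007063293) (nat_lit 76) (nat_lit 39565948990) (nat_lit 40) (nat_lit 5) (nat_lit 42) (nat_lit 5) (nat_lit 41) (nat_lit 4) (nat_lit 544) (nat_lit 419) (nat_lit 237))) (XT.nd (nat_lit 78) (nat_lit 0) (nat_lit 0) (XT.lf (nat_lit 0) (nat_lit 26547644085) (nat_lit 76) (nat_lit 16996488297) (nat_lit 152) (nat_lit 32735242229) (nat_lit 39) (nat_lit 5) (nat_lit 40) (nat_lit 5) (nat_lit 41) (nat_lit 4) (nat_lit 545) (nat_lit 419) (nat_lit 236)) (XT.lf (nat_lit 0) (nat_lit 61690549353) (nat_lit 152) (nat_lit 14680053197) (nat_lit 0) (nat_lit 1637110605) (nat_lit 39) (nat_lit 5) (nat_lit 41) (nat_lit 4) (nat_lit 39) (nat_lit 4) (nat_lit 546) (nat_lit 419) (nat_lit 235)))) (XT.nd (nat_lit 156) (nat_lit 76) (nat_lit 0) (XT.nd (nat_lit 78) (nat_lit 0) (nat_lit 0) (XT.lf (nat_lit 0) (nat_lit 957338233) (nat_lit 152) (nat_lit 58117674576) (nat_lit 76)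 (nat_lit 20701454193) (nat_lit 37) (nat_lit 5) (nat_lit 39) (nat_lit 5) (nat_lit 38) (nat_lit 4) (nat_lit 547) (nat_lit 419) (nat_lit 234)) (XT.lf (nat_lit 0) (nat_lit 18567036628) (nat_lit 152) (nat_lit 22377396972) (nat_lit 76) (nat_lit 40644655711) (nat_lit 37) (nat_lit 5) (nat_lit 39) (nat_lit 5) (nat_lit 38) (nat_lit 4) (nat_lit 548) (nat_lit 419) (nat_lit 233))) (XT.nd (nat_lit 78) (nat_lit 0) (nat_lit 0) (XT.lf (nat_lit 0) (nat_lit 14713199367) (nat_lit 76) (nat_lit 22128610979) (nat_lit 152) (nat_lit 46610176541) (nat_lit 36) (nat_lit 5) (nat_lit 37) (nat_lit 5) (nat_lit 38) (nat_lit 4) (nat_lit 549) (nat_lit 419) (nat_lit 232)) (XT.lf (nat_lit 0) (nat_lit 53366319395) (nat_lit 76) (nat_lit 2519877549) (nat_lit 152) (nat_lit 29477933482) (nat_lit 36) (nat_lit 5) (nat_lit 37) (nat_lit 5) (nat_lit 38) (nat_lit 4) (nat_lit 550) (nat_lit 419) (nat_lit 231))))))) (XT.nd (nat_lit 1170) (nat_lit 6916) (nat_lit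 0) (XT.nd (nat_lit 546) (nat_lit 912) (nat_lit 0) (XT.nd (nat_lit 234) (nat_lit 0) (nat_lit 76) (XT.nd (nat_lit 78) (nat_lit 988) (nat_lit 0) (XT.lf (nat_lit 0) (nat_lit 3760047814) (nat_lit 988) (nat_lit 156335718) (nat_lit 988) (nat_lit 156335718) (nat_lit 334) (nat_lit 3) (nat_lit 347) (nat_lit 3) (nat_lit 347) (nat_lit 5) (nat_lit 420) (nat_lit 420) (nat_lit 360)) (XT.nd (nat_lit 78) (nat_lit 0) (nat_lit 0) (XT.lf (nat_lit 0) (nat_lit 557701807) (nat_lit 988) (nat_lit 4477231059) (nat_lit 1064) (nat_lit 3197163461) (nat_lit 321) (nat_lit 5) (nat_lit 334) (nat_lit 3) (nat_lit 335) (nat_lit 5) (nat_lit 421) (nat_lit 420) (nat_lit 359)) (XT.lf (nat_lit 0) (nat_lit 1722003460) (nat_lit 988) (nat_lit 400760509) (nat_lit 1064) (nat_lit 6199666067) (nat_lit 321) (nat_lit 5) (nat_lit 334) (nat_lit 3) (nat_lit 335) (nat_lit 5) (nat_lit 422) (nat_lit 420) (nat_lit 358)))) (XT.nd (nat_lit 156) (nat_lit 0) (nat_lit 0)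 (XT.nd (nat_lit 78) (nat_lit 0) (nat_lit 0) (XT.lf (nat_lit 0) (nat_lit 2923680142) (nat_lit 988) (nat_lit 4574957368) (nat_lit 1064) (nat_lit 916774447) (nat_lit 322) (nat_lit 5) (nat_lit 335) (nat_lit 5) (nat_lit 336) (nat_lit 5) (nat_lit 423) (nat_lit 420) (nat_lit 357)) (XT.lf (nat_lit 0) (nat_lit 4144194981) (nat_lit 988) (nat_lit 339654278) (nat_lit 1064) (nat_lit 4027861686) (nat_lit 322) (nat_lit 5) (nat_lit 335) (nat_lit 5) (nat_lit 336) (nat_lit 5) (nat_lit 424) (nat_lit 420) (nat_lit 356))) (XT.nd (nat_lit 78) (nat_lit 0) (nat_lit 76) (XT.lf (nat_lit 76) (nat_lit 4078353252) (nat_lit 0) (nat_lit 1321091586) (nat_lit 1064) (nat_lit 3211521391) (nat_lit 323) (nat_lit 5) (nat_lit 322) (nat_lit 5) (nat_lit 336) (nat_lit 5) (nat_lit 425) (nat_lit 420) (nat_lit 355)) (XT.lf (nat_lit 0) (nat_lit 6674473766) (nat_lit 988) (nat_lit 120957085) (nat_lit 1064) (nat_lit 1918315270) (nat_lit 323) (nat_lit 5) (nat_lit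 336) (nat_lit 5) (nat_lit 337) (nat_lit 5) (nat_lit 426) (nat_lit 420) (nat_lit 354))))) (XT.nd (nat_lit 312) (nat_lit 0) (nat_lit 152) (XT.nd (nat_lit 156) (nat_lit 0) (nat_lit 76) (XT.nd (nat_lit 78) (nat_lit 1064) (nat_lit 0) (XT.lf (nat_lit 76) (nat_lit 4472906074) (nat_lit 0) (nat_lit 3532130204) (nat_lit 1064) (nat_lit 814064940) (nat_lit 324) (nat_lit 5) (nat_lit 323) (nat_lit 5) (nat_lit 337) (nat_lit 5) (nat_lit 427) (nat_lit 420) (nat_lit 353)) (XT.lf (nat_lit 76) (nat_lit 255270295) (nat_lit 0) (nat_lit 149295107) (nat_lit 1140) (nat_lit 8523969895) (nat_lit 310) (nat_lit 5) (nat_lit 309) (nat_lit 5) (nat_lit 324) (nat_lit 5) (nat_lit 428) (nat_lit 420) (nat_lit 352))) (XT.nd (nat_lit 78) (nat_lit 0) (nat_lit 0) (XT.lf (nat_lit 0) (nat_lit 1682494041) (nat_lit 1064) (nat_lit 4022504212) (nat_lit 1140) (nat_lit 3334848721) (nat_lit 310) (nat_lit 5) (nat_lit 324) (nat_lit 5) (nat_lit 325) (nat_lit 5) (nat_lit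 429) (nat_lit 420) (nat_lit 351)) (XT.lf (nat_lit 76) (nat_lit 755917923) (nat_lit 0) (nat_lit 2215393340) (nat_lit 1140) (nat_lit 6184019358) (nat_lit 311) (nat_lit 5) (nat_lit 310) (nat_lit 5) (nat_lit 325) (nat_lit 5) (nat_lit 430) (nat_lit 420) (nat_lit 350)))) (XT.nd (nat_lit 156) (nat_lit 0) (nat_lit 0) (XT.nd (nat_lit 78) (nat_lit 0) (nat_lit 0) (XT.lf (nat_lit 0) (nat_lit 4317791422) (nat_lit 1064) (nat_lit 3552625746) (nat_lit 1140) (nat_lit 1403300534) (nat_lit 311) (nat_lit 5) (nat_lit 325) (nat_lit 5) (nat_lit 326) (nat_lit 5) (nat_lit 431) (nat_lit 420) (nat_lit 349)) (XT.lf (nat_lit 76) (nat_lit 1420040660) (nat_lit 0) (nat_lit 4285959737) (nat_lit 1140) (nat_lit 3689624579) (nat_lit 312) (nat_lit 5) (nat_lit 311) (nat_lit 5) (nat_lit 326) (nat_lit 5) (nat_lit 432) (nat_lit 420) (nat_lit 348))) (XT.nd (nat_lit 78) (nat_lit 0) (nat_lit 76) (XT.lf (nat_lit 76) (nat_lit 6589660764) (nat_lit 0) (nat_lit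 548575735) (nat_lit 1140) (nat_lit 2382889913) (nat_lit 312) (nat_lit 5) (nat_lit 311) (nat_lit 5) (nat_lit 326) (nat_lit 5) (nat_lit 433) (nat_lit 420) (nat_lit 347)) (XT.lf (nat_lit 76) (nat_lit 2250782464) (nat_lit 0) (nat_lit 6383584306) (nat_lit 1140) (nat_lit 1015406428) (nat_lit 313) (nat_lit 5) (nat_lit 312) (nat_lit 5) (nat_lit 327) (nat_lit 5) (nat_lit 434) (nat_lit 420) (nat_lit 346)))))) (XT.nd (nat_lit 624) (nat_lit 2888) (nat_lit 0) (XT.nd (nat_lit 312) (nat_lit 2052) (nat_lit 0) (XT.nd (nat_lit 156) (nat_lit 1064) (nat_lit 0) (XT.nd (nat_lit 78) (nat_lit 0) (nat_lit 76) (XT.lf (nat_lit 0) (nat_lit 388699221) (nat_lit 1140) (nat_lit 2168085642) (nat_lit 1216) (nat_lit 7225290764) (nat_lit 297) (nat_lit 5) (nat_lit 312) (nat_lit 5) (nat_lit 313) (nat_lit 5) (nat_lit 435) (nat_lit 420) (nat_lit 345)) (XT.lf (nat_lit 0) (nat_lit 1828396163) (nat_lit 1140) (nat_lit 6683785221) (nat_lit 76) (nat_lit 1405455269)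 (nat_lit 298) (nat_lit 5) (nat_lit 313) (nat_lit 5) (nat_lit 299) (nat_lit 5) (nat_lit 436) (nat_lit 420) (nat_lit 344))) (XT.nd (nat_lit 78) (nat_lit 1140) (nat_lit 0) (XT.lf (nat_lit 0) (nat_lit 3328307328) (nat_lit 1140) (nat_lit 1265609275) (nat_lit 76) (nat_lit 5462844423) (nat_lit 298) (nat_lit 5) (nat_lit 313) (nat_lit 5) (nat_lit 299) (nat_lit 5) (nat_lit 437) (nat_lit 420) (nat_lit 343)) (XT.lf (nat_lit 0) (nat_lit 4375483340) (nat_lit 1140) (nat_lit 510276225) (nat_lit 1216) (nat_lit 5313930260) (nat_lit 283) (nat_lit 5) (nat_lit 298) (nat_lit 5) (nat_lit 299) (nat_lit 5) (nat_lit 438) (nat_lit 420) (nat_lit 342)))) (XT.nd (nat_lit 156) (nat_lit 836) (nat_lit 0) (XT.nd (nat_lit 78) (nat_lit 1216) (nat_lit 0) (XT.lf (nat_lit 0) (nat_lit 6509514321) (nat_lit 1216) (nat_lit 196102314) (nat_lit 76) (nat_lit 3640709285) (nat_lit 283) (nat_lit 5) (nat_lit 299) (nat_lit 5) (nat_lit 284) (nat_lit 5) (nat_lit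 439) (nat_lit 420) (nat_lit 341)) (XT.lf (nat_lit 0) (nat_lit 5681733553) (nat_lit 1216) (nat_lit 2531902383) (nat_lit 1292) (nat_lit 2282782141) (nat_lit 267) (nat_lit 5) (nat_lit 283) (nat_lit 5) (nat_lit 284) (nat_lit 5) (nat_lit 440) (nat_lit 420) (nat_lit 340))) (XT.nd (nat_lit 78) (nat_lit 76) (nat_lit 0) (XT.lf (nat_lit 0) (nat_lit 1067249604) (nat_lit 760) (nat_lit 8903466981) (nat_lit 836) (nat_lit 680247763) (nat_lit 257) (nat_lit 5) (nat_lit 267) (nat_lit 5) (nat_lit 268) (nat_lit 5) (nat_lit 441) (nat_lit 420) (nat_lit 339)) (XT.lf (nat_lit 0) (nat_lit 998469957) (nat_lit 836) (nat_lit 3645065077) (nat_lit 76) (nat_lit 6164926908) (nat_lit 256) (nat_lit 5) (nat_lit 267) (nat_lit 5) (nat_lit 257) (nat_lit 5) (nat_lit 442) (nat_lit 420) (nat_lit 338))))) (XT.nd (nat_lit 312) (nat_lit 1672) (nat_lit 0) (XT.nd (nat_lit 156) (nat_lit 608) (nat_lit 0) (XT.nd (nat_lit 78) (nat_lit 0) (nat_lit 0) (XT.lf (nat_lit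 0) (nat_lit 2488483502) (nat_lit 608) (nat_lit 222978296) (nat_lit 684) (nat_lit 8259098932) (nat_lit 248) (nat_lit 5) (nat_lit 256) (nat_lit 5) (nat_lit 257) (nat_lit 5) (nat_lit 443) (nat_lit 420) (nat_lit 337)) (XT.lf (nat_lit 0) (nat_lit 4528842008) (nat_lit 684) (nat_lit 2323276401) (nat_lit 76) (nat_lit 4283819811) (nat_lit 248) (nat_lit 5) (nat_lit 257) (nat_lit 5) (nat_lit 249) (nat_lit 5) (nat_lit 444) (nat_lit 420) (nat_lit 336))) (XT.nd (nat_lit 78) (nat_lit 0) (nat_lit 0) (XT.lf (nat_lit 0) (nat_lit 4072671647) (nat_lit 608) (nat_lit 2344381785) (nat_lit 684) (nat_lit 4888739840) (nat_lit 240) (nat_lit 5) (nat_lit 248) (nat_lit 5) (nat_lit 249) (nat_lit 5) (nat_lit 445) (nat_lit 420) (nat_lit 335)) (XT.lf (nat_lit 0) (nat_lit 8383144420) (nat_lit 684) (nat_lit 819623686) (nat_lit 76) (nat_lit 2277344241) (nat_lit 240) (nat_lit 5) (nat_lit 249) (nat_lit 5) (nat_lit 241) (nat_lit 5) (nat_lit 446) (nat_lit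 420) (nat_lit 334)))) (XT.nd (nat_lit 156) (nat_lit 532) (nat_lit 0) (XT.nd (nat_lit 78) (nat_lit 608) (nat_lit 0) (XT.lf (nat_lit 0) (nat_lit 5852633797) (nat_lit 532) (nat_lit 4611215310) (nat_lit 608) (nat_lit 1194148173) (nat_lit 233) (nat_lit 5) (nat_lit 240) (nat_lit 5) (nat_lit 241) (nat_lit 5) (nat_lit 447) (nat_lit 420) (nat_lit 333)) (XT.lf (nat_lit 0) (nat_lit 745434010) (nat_lit 608) (nat_lit 10956707619) (nat_lit 76) (nat_lit 139022603) (nat_lit 225) (nat_lit 5) (nat_lit 233) (nat_lit 5) (nat_lit 226) (nat_lit 5) (nat_lit 448) (nat_lit 420) (nat_lit 332))) (XT.nd (nat_lit 78) (nat_lit 532) (nat_lit 0) (XT.lf (nat_lit 0) (nat_lit 2800881867) (nat_lit 608) (nat_lit 4217466031) (nat_lit 76) (nat_lit 5008677985) (nat_lit 225) (nat_lit 5) (nat_lit 233) (nat_lit 5) (nat_lit 226) (nat_lit 5) (nat_lit 449) (nat_lit 420) (nat_lit 331)) (XT.lf (nat_lit 0) (nat_lit 2753098164) (nat_lit 532) (nat_lit 2168855184)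 (nat_lit 608) (nat_lit 7296395864) (nat_lit 218) (nat_lit 5) (nat_lit 225) (nat_lit 5) (nat_lit 226) (nat_lit 5) (nat_lit 450) (nat_lit 420) (nat_lit 330))))))))
noncomputable def xc144 : XT := (XT.nd (nat_lit 2340) (nat_lit 4028) (nat_lit 0) (XT.nd (nat_lit 1170) (nat_lit 2660) (nat_lit 0) (XT.nd (nat_lit 546) (nat_lit 2128) (nat_lit 0) (XT.nd (nat_lit 234) (nat_lit 1444) (nat_lit 0) (XT.nd (nat_lit 78) (nat_lit 532) (nat_lit 0) (XT.lf (nat_lit 0) (nat_lit 7154728777) (nat_lit 608) (nat_lit 2447471332) (nat_lit 76) (nat_lit 2811774473) (nat_lit 218) (nat_lit 5) (nat_lit 226) (nat_lit 5) (nat_lit 219) (nat_lit 5) (nat_lit 451) (nat_lit 420) (nat_lit 329)) (XT.nd (nat_lit 78) (nat_lit 0) (nat_lit 0) (XT.lf (nat_lit 0) (nat_lit 4829351776) (nat_lit 532) (nat_lit 4671571593) (nat_lit 608) (nat_lit 3113156633) (nat_lit 211) (nat_lit 5) (nat_lit 218) (nat_lit 5) (nat_lit 219) (nat_lit 5) (nat_lit 452) (nat_lit 420)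 (nat_lit 328)) (XT.lf (nat_lit 0) (nat_lit 11925280512) (nat_lit 608) (nat_lit 473577924) (nat_lit 76) (nat_lit 421101088) (nat_lit 211) (nat_lit 5) (nat_lit 219) (nat_lit 5) (nat_lit 212) (nat_lit 5) (nat_lit 453) (nat_lit 420) (nat_lit 327)))) (XT.nd (nat_lit 156) (nat_lit 456) (nat_lit 0) (XT.nd (nat_lit 78) (nat_lit 456) (nat_lit 0) (XT.lf (nat_lit 0) (nat_lit 1458421839) (nat_lit 532) (nat_lit 5917693133) (nat_lit 76) (nat_lit 5652647514) (nat_lit 204) (nat_lit 5) (nat_lit 211) (nat_lit 5) (nat_lit 205) (nat_lit 5) (nat_lit 454) (nat_lit 420) (nat_lit 326)) (XT.lf (nat_lit 0) (nat_lit 1689254852) (nat_lit 456) (nat_lit 2175631989) (nat_lit 532) (nat_lit 9378658232) (nat_lit 198) (nat_lit 5) (nat_lit 204) (nat_lit 5) (nat_lit 205) (nat_lit 5) (nat_lit 455) (nat_lit 420) (nat_lit 325))) (XT.nd (nat_lit 78) (nat_lit 456) (nat_lit 0) (XT.lf (nat_lit 0) (nat_lit 6414481599) (nat_lit 532) (nat_lit 3872838034) (nat_lit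 76) (nat_lit 3175327195) (nat_lit 198) (nat_lit 5) (nat_lit 205) (nat_lit 5) (nat_lit 199) (nat_lit 5) (nat_lit 456) (nat_lit 420) (nat_lit 324)) (XT.lf (nat_lit 0) (nat_lit 4073302865) (nat_lit 456) (nat_lit 5008550169) (nat_lit 532) (nat_lit 4605233595) (nat_lit 192) (nat_lit 5) (nat_lit 198) (nat_lit 5) (nat_lit 199) (nat_lit 5) (nat_lit 457) (nat_lit 420) (nat_lit 323))))) (XT.nd (nat_lit 312) (nat_lit 1216) (nat_lit 0) (XT.nd (nat_lit 156) (nat_lit 380) (nat_lit 0) (XT.nd (nat_lit 78) (nat_lit 532) (nat_lit 0) (XT.lf (nat_lit 0) (nat_lit 11853750929) (nat_lit 532) (nat_lit 1608375712) (nat_lit 76) (nat_lit 455401372) (nat_lit 192) (nat_lit 5) (nat_lit 199) (nat_lit 5) (nat_lit 193) (nat_lit 5) (nat_lit 458) (nat_lit 420) (nat_lit 322)) (XT.lf (nat_lit 0) (nat_lit 639447552) (nat_lit 532) (nat_lit 7463346587) (nat_lit 76) (nat_lit 6049042103) (nat_lit 185) (nat_lit 5) (nat_lit 192) (nat_lit 5) (nat_lit 186)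 (nat_lit 5) (nat_lit 459) (nat_lit 420) (nat_lit 321))) (XT.nd (nat_lit 78) (nat_lit 0) (nat_lit 0) (XT.lf (nat_lit 0) (nat_lit 847037083) (nat_lit 380) (nat_lit 2541378070) (nat_lit 456) (nat_lit 11003965027) (nat_lit 180) (nat_lit 5) (nat_lit 185) (nat_lit 5) (nat_lit 186) (nat_lit 5) (nat_lit 460) (nat_lit 420) (nat_lit 320)) (XT.lf (nat_lit 0) (nat_lit 6308443233) (nat_lit 456) (nat_lit 5133245807) (nat_lit 76) (nat_lit 3195796808) (nat_lit 180) (nat_lit 5) (nat_lit 186) (nat_lit 5) (nat_lit 181) (nat_lit 5) (nat_lit 461) (nat_lit 420) (nat_lit 319)))) (XT.nd (nat_lit 156) (nat_lit 836) (nat_lit 0) (XT.nd (nat_lit 78) (nat_lit 0) (nat_lit 0) (XT.lf (nat_lit 0) (nat_lit 3552352562) (nat_lit 380) (nat_lit 5805403749) (nat_lit 456) (nat_lit 5530940911) (nat_lit 175) (nat_lit 5) (nat_lit 180) (nat_lit 5) (nat_lit 181) (nat_lit 5) (nat_lit 462) (nat_lit 420) (nat_lit 318)) (XT.lf (nat_lit 0) (nat_lit 12533513801)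 (nat_lit 456) (nat_lit 2565921017) (nat_lit 76) (nat_lit 46964141) (nat_lit 175) (nat_lit 5) (nat_lit 181) (nat_lit 5) (nat_lit 176) (nat_lit 5) (nat_lit 463) (nat_lit 420) (nat_lit 317))) (XT.nd (nat_lit 78) (nat_lit 380) (nat_lit 0) (XT.lf (nat_lit 0) (nat_lit 489293203) (nat_lit 456) (nat_lit 8898860041) (nat_lit 76) (nat_lit 6020440733) (nat_lit 169) (nat_lit 5) (nat_lit 175) (nat_lit 5) (nat_lit 170) (nat_lit 5) (nat_lit 464) (nat_lit 420) (nat_lit 316)) (XT.lf (nat_lit 0) (nat_lit 187205213) (nat_lit 380) (nat_lit 3456014306) (nat_lit 456) (nat_lit 12034325973) (nat_lit 164) (nat_lit 5) (nat_lit 169) (nat_lit 5) (nat_lit 170) (nat_lit 5) (nat_lit 465) (nat_lit 420) (nat_lit 315)))))) (XT.nd (nat_lit 546) (nat_lit 1292) (nat_lit 0) (XT.nd (nat_lit 234) (nat_lit 1064) (nat_lit 0) (XT.nd (nat_lit 78) (nat_lit 304) (nat_lit 0) (XT.lf (nat_lit 0) (nat_lit 6991474060) (nat_lit 456) (nat_lit 6272920287) (nat_lit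 76) (nat_lit 2687182533) (nat_lit 164) (nat_lit 5) (nat_lit 170) (nat_lit 5) (nat_lit 165) (nat_lit 5) (nat_lit 466) (nat_lit 420) (nat_lit 314)) (XT.nd (nat_lit 78) (nat_lit 0) (nat_lit 0) (XT.lf (nat_lit 0) (nat_lit 3227534226) (nat_lit 304) (nat_lit 7261814093) (nat_lit 380) (nat_lit 5743008293) (nat_lit 160) (nat_lit 5) (nat_lit 164) (nat_lit 5) (nat_lit 165) (nat_lit 5) (nat_lit 467) (nat_lit 420) (nat_lit 313)) (XT.lf (nat_lit 0) (nat_lit 13119558305) (nat_lit 304) (nat_lit 1020130074) (nat_lit 380) (nat_lit 2380447960) (nat_lit 160) (nat_lit 5) (nat_lit 164) (nat_lit 5) (nat_lit 165) (nat_lit 5) (nat_lit 468) (nat_lit 420) (nat_lit 312)))) (XT.nd (nat_lit 156) (nat_lit 608) (nat_lit 0) (XT.nd (nat_lit 78) (nat_lit 0) (nat_lit 0) (XT.lf (nat_lit 0) (nat_lit 1162341285) (nat_lit 456) (nat_lit 10279226576) (nat_lit 76) (nat_lit 5371657079) (nat_lit 154) (nat_lit 5) (nat_lit 160) (nat_lit 5) (nat_lit 155) (nat_lit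 5) (nat_lit 469) (nat_lit 420) (nat_lit 311)) (XT.lf (nat_lit 0) (nat_lit 4793025912) (nat_lit 456) (nat_lit 333654146) (nat_lit 76) (nat_lit 11986837665) (nat_lit 154) (nat_lit 5) (nat_lit 160) (nat_lit 5) (nat_lit 155) (nat_lit 5) (nat_lit 470) (nat_lit 420) (nat_lit 310))) (XT.nd (nat_lit 78) (nat_lit 304) (nat_lit 0) (XT.lf (nat_lit 0) (nat_lit 8628847071) (nat_lit 380) (nat_lit 7348656194) (nat_lit 76) (nat_lit 1442431757) (nat_lit 150) (nat_lit 5) (nat_lit 155) (nat_lit 5) (nat_lit 151) (nat_lit 5) (nat_lit 471) (nat_lit 420) (nat_lit 309)) (XT.lf (nat_lit 0) (nat_lit 3046997218) (nat_lit 304) (nat_lit 9601489784) (nat_lit 380) (nat_lit 5084997663) (nat_lit 146) (nat_lit 5) (nat_lit 150) (nat_lit 5) (nat_lit 151) (nat_lit 5) (nat_lit 472) (nat_lit 420) (nat_lit 308))))) (XT.nd (nat_lit 312) (nat_lit 608) (nat_lit 0) (XT.nd (nat_lit 156) (nat_lit 304) (nat_lit 0) (XT.nd (nat_lit 78) (nat_lit 380) (nat_lit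 0) (XT.lf (nat_lit 0) (nat_lit 13883946800) (nat_lit 304) (nat_lit 2964493513) (nat_lit 380) (nat_lit 1206210843) (nat_lit 146) (nat_lit 5) (nat_lit 150) (nat_lit 5) (nat_lit 151) (nat_lit 5) (nat_lit 473) (nat_lit 420) (nat_lit 307)) (XT.lf (nat_lit 0) (nat_lit 2823206556) (nat_lit 380) (nat_lit 11676719150) (nat_lit 76) (nat_lit 3882063955) (nat_lit 141) (nat_lit 5) (nat_lit 146) (nat_lit 5) (nat_lit 142) (nat_lit 5) (nat_lit 474) (nat_lit 420) (nat_lit 306))) (XT.nd (nat_lit 78) (nat_lit 304) (nat_lit 0) (XT.lf (nat_lit 0) (nat_lit 7007095588) (nat_lit 380) (nat_lit 787608906) (nat_lit 76) (nat_lit 10922352471) (nat_lit 141) (nat_lit 5) (nat_lit 146) (nat_lit 5) (nat_lit 142) (nat_lit 5) (nat_lit 475) (nat_lit 420) (nat_lit 305)) (XT.lf (nat_lit 0) (nat_lit 10614889024) (nat_lit 304) (nat_lit 790006750) (nat_lit 380) (nat_lit 7654630533) (nat_lit 137) (nat_lit 5) (nat_lit 141) (nat_lit 5) (nat_lit 142) (nat_lit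 5) (nat_lit 476) (nat_lit 420) (nat_lit 304)))) (XT.nd (nat_lit 156) (nat_lit 304) (nat_lit 0) (XT.nd (nat_lit 78) (nat_lit 76) (nat_lit 0) (XT.lf (nat_lit 0) (nat_lit 2938518964) (nat_lit 228) (nat_lit 13080644789) (nat_lit 304) (nat_lit 3390571763) (nat_lit 134) (nat_lit 5) (nat_lit 137) (nat_lit 5) (nat_lit 138) (nat_lit 5) (nat_lit 477) (nat_lit 420) (nat_lit 303)) (XT.lf (nat_lit 0) (nat_lit 1062367757) (nat_lit 304) (nat_lit 4970535941) (nat_lit 76) (nat_lit 13734845209) (nat_lit 133) (nat_lit 5) (nat_lit 137) (nat_lit 5) (nat_lit 134) (nat_lit 5) (nat_lit 478) (nat_lit 420) (nat_lit 302))) (XT.nd (nat_lit 78) (nat_lit 0) (nat_lit 0) (XT.lf (nat_lit 0) (nat_lit 5647292681) (nat_lit 380) (nat_lit 13189266581) (nat_lit 76) (nat_lit 1296941654) (nat_lit 129) (nat_lit 5) (nat_lit 134) (nat_lit 5) (nat_lit 130) (nat_lit 5) (nat_lit 479) (nat_lit 420) (nat_lit 301)) (XT.lf (nat_lit 0) (nat_lit 10467260248) (nat_lit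 380) (nat_lit 1270760329) (nat_lit 76) (nat_lit 8769281660) (nat_lit 129) (nat_lit 5) (nat_lit 134) (nat_lit 5) (nat_lit 130) (nat_lit 5) (nat_lit 480) (nat_lit 420) (nat_lit 300))))))) (XT.nd (nat_lit 1170) (nat_lit 1748) (nat_lit 0) (XT.nd (nat_lit 546) (nat_lit 912) (nat_lit 0) (XT.nd (nat_lit 234) (nat_lit 760) (nat_lit 0) (XT.nd (nat_lit 78) (nat_lit 380) (nat_lit 0) (XT.lf (nat_lit 0) (nat_lit 11204374955) (nat_lit 228) (nat_lit 4322605243) (nat_lit 304) (nat_lit 5362484350) (nat_lit 126) (nat_lit 5) (nat_lit 129) (nat_lit 5) (nat_lit 130) (nat_lit 5) (nat_lit 481) (nat_lit 420) (nat_lit 299)) (XT.nd (nat_lit 78) (nat_lit 76) (nat_lit 0) (XT.lf (nat_lit 0) (nat_lit 2800073530) (nat_lit 304) (nat_lit 17997723970) (nat_lit 380) (nat_lit 483516564) (nat_lit 122) (nat_lit 5) (nat_lit 126) (nat_lit 5) (nat_lit 127) (nat_lit 5) (nat_lit 482) (nat_lit 420) (nat_lit 298)) (XT.lf (nat_lit 0) (nat_lit 4582373978) (nat_lit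 380) (nat_lit 5930816202) (nat_lit 76) (nat_lit 11166545110) (nat_lit 121) (nat_lit 5) (nat_lit 126) (nat_lit 5) (nat_lit 122) (nat_lit 5) (nat_lit 483) (nat_lit 420) (nat_lit 297)))) (XT.nd (nat_lit 156) (nat_lit 532) (nat_lit 0) (XT.nd (nat_lit 78) (nat_lit 0) (nat_lit 0) (XT.lf (nat_lit 0) (nat_lit 7110935874) (nat_lit 228) (nat_lit 2735916765) (nat_lit 304) (nat_lit 12241424388) (nat_lit 118) (nat_lit 5) (nat_lit 121) (nat_lit 5) (nat_lit 122) (nat_lit 5) (nat_lit 484) (nat_lit 420) (nat_lit 296)) (XT.lf (nat_lit 0) (nat_lit 15368526106) (nat_lit 304) (nat_lit 1912316788) (nat_lit 76) (nat_lit 5225255645) (nat_lit 118) (nat_lit 5) (nat_lit 122) (nat_lit 5) (nat_lit 119) (nat_lit 5) (nat_lit 485) (nat_lit 420) (nat_lit 295))) (XT.nd (nat_lit 78) (nat_lit 304) (nat_lit 0) (XT.lf (nat_lit 0) (nat_lit 11727722534) (nat_lit 228) (nat_lit 9456371380) (nat_lit 304) (nat_lit 1748514759) (nat_lit 115) (nat_lit 5) (nat_lit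 118) (nat_lit 5) (nat_lit 119) (nat_lit 5) (nat_lit 486) (nat_lit 420) (nat_lit 294)) (XT.lf (nat_lit 0) (nat_lit 2436896028) (nat_lit 228) (nat_lit 1322517266) (nat_lit 304) (nat_lit 19610463759) (nat_lit 111) (nat_lit 5) (nat_lit 114) (nat_lit 5) (nat_lit 115) (nat_lit 5) (nat_lit 487) (nat_lit 420) (nat_lit 293))))) (XT.nd (nat_lit 312) (nat_lit 456) (nat_lit 0) (XT.nd (nat_lit 156) (nat_lit 228) (nat_lit 0) (XT.nd (nat_lit 78) (nat_lit 228) (nat_lit 0) (XT.lf (nat_lit 0) (nat_lit 9568078986) (nat_lit 304) (nat_lit 7204335543) (nat_lit 76) (nat_lit 7042211487) (nat_lit 111) (nat_lit 5) (nat_lit 115) (nat_lit 5) (nat_lit 112) (nat_lit 5) (nat_lit 488) (nat_lit 420) (nat_lit 292)) (XT.lf (nat_lit 0) (nat_lit 7042207834) (nat_lit 228) (nat_lit 8578473594) (nat_lit 304) (nat_lit 8649946870) (nat_lit 108) (nat_lit 5) (nat_lit 111) (nat_lit 5) (nat_lit 112) (nat_lit 5) (nat_lit 489) (nat_lit 420) (nat_lit 291))) (XT.nd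 (nat_lit 78) (nat_lit 228) (nat_lit 0) (XT.lf (nat_lit 0) (nat_lit 21845722527) (nat_lit 228) (nat_lit 70927203) (nat_lit 304) (nat_lit 2821808407) (nat_lit 108) (nat_lit 5) (nat_lit 111) (nat_lit 5) (nat_lit 112) (nat_lit 5) (nat_lit 490) (nat_lit 420) (nat_lit 290)) (XT.lf (nat_lit 0) (nat_lit 3309211083) (nat_lit 228) (nat_lit 13241205728) (nat_lit 76) (nat_lit 8663286344) (nat_lit 105) (nat_lit 5) (nat_lit 108) (nat_lit 5) (nat_lit 106) (nat_lit 5) (nat_lit 491) (nat_lit 420) (nat_lit 289)))) (XT.nd (nat_lit 156) (nat_lit 228) (nat_lit 0) (XT.nd (nat_lit 78) (nat_lit 0) (nat_lit 0) (XT.lf (nat_lit 0) (nat_lit 1625575469) (nat_lit 228) (nat_lit 7977025822) (nat_lit 304) (nat_lit 16098712426) (nat_lit 102) (nat_lit 5) (nat_lit 105) (nat_lit 5) (nat_lit 106) (nat_lit 5) (nat_lit 492) (nat_lit 420) (nat_lit 288)) (XT.lf (nat_lit 0) (nat_lit 16217431406) (nat_lit 304) (nat_lit 9017222902) (nat_lit 76) (nat_lit 964920137)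 (nat_lit 102) (nat_lit 5) (nat_lit 106) (nat_lit 5) (nat_lit 103) (nat_lit 5) (nat_lit 493) (nat_lit 420) (nat_lit 287))) (XT.nd (nat_lit 78) (nat_lit 76) (nat_lit 0) (XT.lf (nat_lit 0) (nat_lit 6523951316) (nat_lit 152) (nat_lit 16638155652) (nat_lit 228) (nat_lit 3546734979) (nat_lit 100) (nat_lit 5) (nat_lit 102) (nat_lit 5) (nat_lit 103) (nat_lit 5) (nat_lit 494) (nat_lit 420) (nat_lit 286)) (XT.lf (nat_lit 0) (nat_lit 3103297708) (nat_lit 228) (nat_lit 4562432086) (nat_lit 76) (nat_lit 19564318941) (nat_lit 99) (nat_lit 5) (nat_lit 102) (nat_lit 5) (nat_lit 100) (nat_lit 5) (nat_lit 495) (nat_lit 420) (nat_lit 285)))))) (XT.nd (nat_lit 546) (nat_lit 912) (nat_lit 0) (XT.nd (nat_lit 234) (nat_lit 456) (nat_lit 0) (XT.nd (nat_lit 78) (nat_lit 152) (nat_lit 0) (XT.lf (nat_lit 0) (nat_lit 10000643465) (nat_lit 304) (nat_lit 16074261422) (nat_lit 76) (nat_lit 1687361300) (nat_lit 96) (nat_lit 5) (nat_lit 100) (nat_lit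 5) (nat_lit 97) (nat_lit 5) (nat_lit 496) (nat_lit 420) (nat_lit 284)) (XT.nd (nat_lit 78) (nat_lit 0) (nat_lit 0) (XT.lf (nat_lit 0) (nat_lit 119376442) (nat_lit 152) (nat_lit 17099207912) (nat_lit 228) (nat_lit 11088456425) (nat_lit 94) (nat_lit 5) (nat_lit 96) (nat_lit 5) (nat_lit 97) (nat_lit 5) (nat_lit 497) (nat_lit 420) (nat_lit 283)) (XT.lf (nat_lit 0) (nat_lit 17111486167) (nat_lit 152) (nat_lit 7694123381) (nat_lit 228) (nat_lit 4057973513) (nat_lit 94) (nat_lit 5) (nat_lit 96) (nat_lit 5) (nat_lit 97) (nat_lit 5) (nat_lit 498) (nat_lit 420) (nat_lit 282)))) (XT.nd (nat_lit 156) (nat_lit 152) (nat_lit 0) (XT.nd (nat_lit 78) (nat_lit 0) (nat_lit 0) (XT.lf (nat_lit 0) (nat_lit 3181902416) (nat_lit 304) (nat_lit 24223099452) (nat_lit 76) (nat_lit 2029084541) (nat_lit 90) (nat_lit 5) (nat_lit 94) (nat_lit 5) (nat_lit 91) (nat_lit 5) (nat_lit 499) (nat_lit 420) (nat_lit 281)) (XT.lf (nat_lit 0) (nat_lit 10743913476)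 (nat_lit 304) (nat_lit 7228407876) (nat_lit 76) (nat_lit 12042583926) (nat_lit 90) (nat_lit 5) (nat_lit 94) (nat_lit 5) (nat_lit 91) (nat_lit 5) (nat_lit 500) (nat_lit 420) (nat_lit 280))) (XT.nd (nat_lit 78) (nat_lit 0) (nat_lit 0) (XT.lf (nat_lit 0) (nat_lit 10464201596) (nat_lit 152) (nat_lit 8159921623) (nat_lit 228) (nat_lit 11986286086) (nat_lit 88) (nat_lit 5) (nat_lit 90) (nat_lit 5) (nat_lit 91) (nat_lit 5) (nat_lit 501) (nat_lit 420) (nat_lit 279)) (XT.lf (nat_lit 0) (nat_lit 26823969460) (nat_lit 228) (nat_lit 2421429290) (nat_lit 76) (nat_lit 1975883516) (nat_lit 88) (nat_lit 5) (nat_lit 91) (nat_lit 5) (nat_lit 89) (nat_lit 5) (nat_lit 502) (nat_lit 420) (nat_lit 278))))) (XT.nd (nat_lit 312) (nat_lit 380) (nat_lit 0) (XT.nd (nat_lit 156) (nat_lit 152) (nat_lit 0) (XT.nd (nat_lit 78) (nat_lit 152) (nat_lit 0) (XT.lf (nat_lit 0) (nat_lit 3581004488) (nat_lit 228) (nat_lit 15826972267) (nat_lit 76) (nat_lit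 12434667330) (nat_lit 85) (nat_lit 5) (nat_lit 88) (nat_lit 5) (nat_lit 86) (nat_lit 5) (nat_lit 503) (nat_lit 420) (nat_lit 277)) (XT.lf (nat_lit 0) (nat_lit 2564144138) (nat_lit 152) (nat_lit 9186578559) (nat_lit 228) (nat_lit 20729405598) (nat_lit 83) (nat_lit 5) (nat_lit 85) (nat_lit 5) (nat_lit 86) (nat_lit 5) (nat_lit 504) (nat_lit 420) (nat_lit 276))) (XT.nd (nat_lit 78) (nat_lit 152) (nat_lit 0) (XT.lf (nat_lit 0) (nat_lit 20330967081) (nat_lit 228) (nat_lit 11330755076) (nat_lit 76) (nat_lit 1470052472) (nat_lit 83) (nat_lit 5) (nat_lit 86) (nat_lit 5) (nat_lit 84) (nat_lit 5) (nat_lit 505) (nat_lit 420) (nat_lit 275)) (XT.lf (nat_lit 0) (nat_lit 7859126954) (nat_lit 152) (nat_lit 21467388882) (nat_lit 228) (nat_lit 4471718229) (nat_lit 81) (nat_lit 5) (nat_lit 83) (nat_lit 5) (nat_lit 84) (nat_lit 5) (nat_lit 506) (nat_lit 420) (nat_lit 274)))) (XT.nd (nat_lit 156) (nat_lit 152) (nat_lit 0) (XT.nd (nat_lit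 78) (nat_lit 152) (nat_lit 0) (XT.lf (nat_lit 0) (nat_lit 4134062192) (nat_lit 228) (nat_lit 6680223066) (nat_lit 76) (nat_lit 23666009204) (nat_lit 80) (nat_lit 5) (nat_lit 83) (nat_lit 5) (nat_lit 81) (nat_lit 5) (nat_lit 507) (nat_lit 420) (nat_lit 273)) (XT.lf (nat_lit 0) (nat_lit 13031377386) (nat_lit 228) (nat_lit 21823124499) (nat_lit 76) (nat_lit 323289965) (nat_lit 78) (nat_lit 5) (nat_lit 81) (nat_lit 5) (nat_lit 79) (nat_lit 5) (nat_lit 508) (nat_lit 420) (nat_lit 272))) (XT.nd (nat_lit 78) (nat_lit 152) (nat_lit 0) (XT.lf (nat_lit 0) (nat_lit 22362512188) (nat_lit 228) (nat_lit 1889309626) (nat_lit 76) (nat_lit 11639385894) (nat_lit 78) (nat_lit 5) (nat_lit 81) (nat_lit 5) (nat_lit 79) (nat_lit 5) (nat_lit 509) (nat_lit 420) (nat_lit 271)) (XT.lf (nat_lit 0) (nat_lit 18998767019) (nat_lit 152) (nat_lit 13149386419) (nat_lit 228) (nat_lit 4472635966) (nat_lit 76) (nat_lit 5) (nat_lit 78) (nat_lit 5)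 (nat_lit 79) (nat_lit 5) (nat_lit 510) (nat_lit 420) (nat_lit 270))))))))
noncomputable def xc145 : XT := (XT.nd (nat_lit 2340) (nat_lit 456) (nat_lit 0) (XT.nd (nat_lit 1170) (nat_lit 1140) (nat_lit 0) (XT.nd (nat_lit 546) (nat_lit 608) (nat_lit 0) (XT.nd (nat_lit 234) (nat_lit 380) (nat_lit 0) (XT.nd (nat_lit 78) (nat_lit 152) (nat_lit 0) (XT.lf (nat_lit 0) (nat_lit 3181241606) (nat_lit 152) (nat_lit 1620932487) (nat_lit 228) (nat_lit 32567430577) (nat_lit 73) (nat_lit 5) (nat_lit 75) (nat_lit 5) (nat_lit 76) (nat_lit 5) (nat_lit 511) (nat_lit 420) (nat_lit 269)) (XT.nd (nat_lit 78) (nat_lit 152) (nat_lit 0) (XT.lf (nat_lit 0) (nat_lit 14535600724) (nat_lit 228) (nat_lit 13324855660) (nat_lit 76) (nat_lit 10270991959) (nat_lit 73) (nat_lit 5) (nat_lit 76) (nat_lit 5) (nat_lit 74) (nat_lit 5) (nat_lit 512) (nat_lit 420) (nat_lit 268)) (XT.lf (nat_lit 0) (nat_lit 8296281667) (nat_lit 152) (nat_lit 16352775748)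 (nat_lit 228) (nat_lit 14264449570) (nat_lit 71) (nat_lit 5) (nat_lit 73) (nat_lit 5) (nat_lit 74) (nat_lit 5) (nat_lit 513) (nat_lit 420) (nat_lit 267)))) (XT.nd (nat_lit 156) (nat_lit 152) (nat_lit 0) (XT.nd (nat_lit 78) (nat_lit 228) (nat_lit 0) (XT.lf (nat_lit 0) (nat_lit 30825221191) (nat_lit 152) (nat_lit 4367572978) (nat_lit 228) (nat_lit 4522427387) (nat_lit 71) (nat_lit 5) (nat_lit 73) (nat_lit 5) (nat_lit 74) (nat_lit 5) (nat_lit 514) (nat_lit 420) (nat_lit 266)) (XT.lf (nat_lit 0) (nat_lit 5606811226) (nat_lit 228) (nat_lit 26924658888) (nat_lit 76) (nat_lit 8001853029) (nat_lit 68) (nat_lit 5) (nat_lit 71) (nat_lit 5) (nat_lit 69) (nat_lit 5) (nat_lit 515) (nat_lit 420) (nat_lit 265))) (XT.nd (nat_lit 78) (nat_lit 152) (nat_lit 0) (XT.lf (nat_lit 0) (nat_lit 16075434830) (nat_lit 228) (nat_lit 4511409726) (nat_lit 76) (nat_lit 20783988223) (nat_lit 68) (nat_lit 5) (nat_lit 71) (nat_lit 5) (nat_lit 69)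 (nat_lit 5) (nat_lit 516) (nat_lit 420) (nat_lit 264)) (XT.lf (nat_lit 0) (nat_lit 18930283893) (nat_lit 152) (nat_lit 8102521600) (nat_lit 228) (nat_lit 15195421972) (nat_lit 66) (nat_lit 5) (nat_lit 68) (nat_lit 5) (nat_lit 69) (nat_lit 5) (nat_lit 517) (nat_lit 420) (nat_lit 263))))) (XT.nd (nat_lit 312) (nat_lit 304) (nat_lit 0) (XT.nd (nat_lit 156) (nat_lit 152) (nat_lit 0) (XT.nd (nat_lit 78) (nat_lit 152) (nat_lit 0) (XT.lf (nat_lit 0) (nat_lit 38403371453) (nat_lit 228) (nat_lit 1819840) (nat_lit 76) (nat_lit 4703618871) (nat_lit 66) (nat_lit 5) (nat_lit 69) (nat_lit 5) (nat_lit 67) (nat_lit 4) (nat_lit 518) (nat_lit 420) (nat_lit 262)) (XT.lf (nat_lit 0) (nat_lit 6290763662) (nat_lit 152) (nat_lit 19692627934) (nat_lit 76) (nat_lit 18021344100) (nat_lit 64) (nat_lit 5) (nat_lit 66) (nat_lit 5) (nat_lit 65) (nat_lit 5) (nat_lit 519) (nat_lit 420) (nat_lit 261))) (XT.nd (nat_lit 78) (nat_lit 0) (nat_lit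 0) (XT.lf (nat_lit 0) (nat_lit 4455300533) (nat_lit 152) (nat_lit 13102792003) (nat_lit 228) (nat_lit 27366974714) (nat_lit 62) (nat_lit 5) (nat_lit 64) (nat_lit 5) (nat_lit 65) (nat_lit 5) (nat_lit 520) (nat_lit 420) (nat_lit 260)) (XT.lf (nat_lit 0) (nat_lit 29358839240) (nat_lit 228) (nat_lit 16152270358) (nat_lit 76) (nat_lit 356037566) (nat_lit 62) (nat_lit 5) (nat_lit 65) (nat_lit 5) (nat_lit 63) (nat_lit 4) (nat_lit 521) (nat_lit 420) (nat_lit 259)))) (XT.nd (nat_lit 156) (nat_lit 152) (nat_lit 0) (XT.nd (nat_lit 78) (nat_lit 76) (nat_lit 0) (XT.lf (nat_lit 0) (nat_lit 8926562855) (nat_lit 76) (nat_lit 32795781277) (nat_lit 152) (nat_lit 5108883614) (nat_lit 61) (nat_lit 5) (nat_lit 62) (nat_lit 5) (nat_lit 63) (nat_lit 4) (nat_lit 522) (nat_lit 420) (nat_lit 258)) (XT.lf (nat_lit 0) (nat_lit 6661028610) (nat_lit 152) (nat_lit 12808499889) (nat_lit 76) (nat_lit 28348052008) (nat_lit 60) (nat_lit 5) (nat_lit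 62) (nat_lit 5) (nat_lit 61) (nat_lit 5) (nat_lit 523) (nat_lit 420) (nat_lit 257))) (XT.nd (nat_lit 78) (nat_lit 0) (nat_lit 0) (XT.lf (nat_lit 0) (nat_lit 13235958658) (nat_lit 152) (nat_lit 5566034419) (nat_lit 228) (nat_lit 30026394445) (nat_lit 58) (nat_lit 5) (nat_lit 60) (nat_lit 5) (nat_lit 61) (nat_lit 5) (nat_lit 524) (nat_lit 420) (nat_lit 256)) (XT.lf (nat_lit 0) (nat_lit 31515389049) (nat_lit 228) (nat_lit 9639071394) (nat_lit 76) (nat_lit 8708812533) (nat_lit 58) (nat_lit 5) (nat_lit 61) (nat_lit 5) (nat_lit 59) (nat_lit 4) (nat_lit 525) (nat_lit 420) (nat_lit 255)))))) (XT.nd (nat_lit 546) (nat_lit 532) (nat_lit 0) (XT.nd (nat_lit 234) (nat_lit 304) (nat_lit 0) (XT.nd (nat_lit 78) (nat_lit 228) (nat_lit 0) (XT.lf (nat_lit 0) (nat_lit 17364672730) (nat_lit 76) (nat_lit 27461161729) (nat_lit 152) (nat_lit 6096901404) (nat_lit 57) (nat_lit 5) (nat_lit 58) (nat_lit 5) (nat_lit 59) (nat_lit 4) (nat_lit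 526) (nat_lit 420) (nat_lit 254)) (XT.nd (nat_lit 78) (nat_lit 152) (nat_lit 0) (XT.lf (nat_lit 0) (nat_lit 6486277727) (nat_lit 152) (nat_lit 6710557351) (nat_lit 76) (nat_lit 38812509330) (nat_lit 56) (nat_lit 5) (nat_lit 58) (nat_lit 5) (nat_lit 57) (nat_lit 5) (nat_lit 527) (nat_lit 420) (nat_lit 253)) (XT.lf (nat_lit 0) (nat_lit 19539781939) (nat_lit 228) (nat_lit 31851977658) (nat_lit 76) (nat_lit 1728519781) (nat_lit 54) (nat_lit 5) (nat_lit 57) (nat_lit 5) (nat_lit 55) (nat_lit 4) (nat_lit 528) (nat_lit 420) (nat_lit 252)))) (XT.nd (nat_lit 156) (nat_lit 228) (nat_lit 0) (XT.nd (nat_lit 78) (nat_lit 76) (nat_lit 0) (XT.lf (nat_lit 0) (nat_lit 33177818716) (nat_lit 228) (nat_lit 4181387549) (nat_lit 76) (nat_lit 16899548572) (nat_lit 54) (nat_lit 5) (nat_lit 57) (nat_lit 5) (nat_lit 55) (nat_lit 4) (nat_lit 529) (nat_lit 420) (nat_lit 251)) (XT.lf (nat_lit 0) (nat_lit 24791804651) (nat_lit 76) (nat_lit 22665516917)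 (nat_lit 152) (nat_lit 7967093499) (nat_lit 53) (nat_lit 5) (nat_lit 54) (nat_lit 5) (nat_lit 55) (nat_lit 4) (nat_lit 530) (nat_lit 420) (nat_lit 250))) (XT.nd (nat_lit 78) (nat_lit 152) (nat_lit 0) (XT.lf (nat_lit 0) (nat_lit 5468716761) (nat_lit 152) (nat_lit 1968846508) (nat_lit 76) (nat_lit 49184784583) (nat_lit 52) (nat_lit 5) (nat_lit 54) (nat_lit 5) (nat_lit 53) (nat_lit 5) (nat_lit 531) (nat_lit 420) (nat_lit 249)) (XT.lf (nat_lit 0) (nat_lit 19493603109) (nat_lit 228) (nat_lit 29917040742) (nat_lit 76) (nat_lit 8432824568) (nat_lit 50) (nat_lit 5) (nat_lit 53) (nat_lit 5) (nat_lit 51) (nat_lit 4) (nat_lit 532) (nat_lit 420) (nat_lit 248))))) (XT.nd (nat_lit 312) (nat_lit 228) (nat_lit 0) (XT.nd (nat_lit 156) (nat_lit 228) (nat_lit 0) (XT.nd (nat_lit 78) (nat_lit 76) (nat_lit 0) (XT.lf (nat_lit 0) (nat_lit 34027162320) (nat_lit 228) (nat_lit 426530808) (nat_lit 76) (nat_lit 24644891913) (nat_lit 50) (nat_lit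 5) (nat_lit 53) (nat_lit 5) (nat_lit 51) (nat_lit 4) (nat_lit 533) (nat_lit 420) (nat_lit 247)) (XT.lf (nat_lit 0) (nat_lit 30533851815) (nat_lit 76) (nat_lit 18750763930) (nat_lit 152) (nat_lit 11098103015) (nat_lit 49) (nat_lit 5) (nat_lit 50) (nat_lit 5) (nat_lit 51) (nat_lit 4) (nat_lit 534) (nat_lit 420) (nat_lit 246))) (XT.nd (nat_lit 78) (nat_lit 0) (nat_lit 0) (XT.lf (nat_lit 0) (nat_lit 697772145) (nat_lit 152) (nat_lit 2537799727) (nat_lit 228) (nat_lit 58468691543) (nat_lit 46) (nat_lit 5) (nat_lit 48) (nat_lit 5) (nat_lit 49) (nat_lit 5) (nat_lit 535) (nat_lit 420) (nat_lit 245)) (XT.lf (nat_lit 0) (nat_lit 18211123034) (nat_lit 228) (nat_lit 30543414412) (nat_lit 76) (nat_lit 14294572890) (nat_lit 46) (nat_lit 5) (nat_lit 49) (nat_lit 5) (nat_lit 47) (nat_lit 4) (nat_lit 536) (nat_lit 420) (nat_lit 244)))) (XT.nd (nat_lit 156) (nat_lit 152) (nat_lit 0) (XT.nd (nat_lit 78) (nat_lit 0) (nat_lit 0) (XT.lf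 (nat_lit 0) (nat_lit 813932778) (nat_lit 76) (nat_lit 32849519924) (nat_lit 152) (nat_lit 30770024799) (nat_lit 45) (nat_lit 5) (nat_lit 46) (nat_lit 5) (nat_lit 47) (nat_lit 4) (nat_lit 537) (nat_lit 420) (nat_lit 243)) (XT.lf (nat_lit 0) (nat_lit 33727834179) (nat_lit 76) (nat_lit 16154567531) (nat_lit 152) (nat_lit 15967882680) (nat_lit 45) (nat_lit 5) (nat_lit 46) (nat_lit 5) (nat_lit 47) (nat_lit 4) (nat_lit 538) (nat_lit 420) (nat_lit 242))) (XT.nd (nat_lit 78) (nat_lit 76) (nat_lit 0) (XT.lf (nat_lit 0) (nat_lit 305419900) (nat_lit 76) (nat_lit 66290175967) (nat_lit 76) (nat_lit 713769503) (nat_lit 44) (nat_lit 4) (nat_lit 45) (nat_lit 5) (nat_lit 45) (nat_lit 4) (nat_lit 539) (nat_lit 420) (nat_lit 241)) (XT.lf (nat_lit 0) (nat_lit 15187571783) (nat_lit 152) (nat_lit 34755304293) (nat_lit 76) (nat_lit 18850549715) (nat_lit 43) (nat_lit 5) (nat_lit 45) (nat_lit 5) (nat_lit 44) (nat_lit 4) (nat_lit 540) (nat_lit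 420) (nat_lit 240))))))) (XT.nd (nat_lit 53586) (nat_lit 0) (nat_lit 16644) (XT.nd (nat_lit 546) (nat_lit 152) (nat_lit 0) (XT.nd (nat_lit 234) (nat_lit 228) (nat_lit 0) (XT.nd (nat_lit 78) (nat_lit 76) (nat_lit 0) (XT.lf (nat_lit 0) (nat_lit 31546498000) (nat_lit 152) (nat_lit 1556071012) (nat_lit 76) (nat_lit 37219380448) (nat_lit 43) (nat_lit 5) (nat_lit 45) (nat_lit 5) (nat_lit 44) (nat_lit 4) (nat_lit 541) (nat_lit 420) (nat_lit 239)) (XT.nd (nat_lit 78) (nat_lit 0) (nat_lit 0) (XT.lf (nat_lit 0) (nat_lit 33279018107) (nat_lit 76) (nat_lit 15432111742) (nat_lit 152) (nat_lit 23175751019) (nat_lit 42) (nat_lit 5) (nat_lit 43) (nat_lit 5) (nat_lit 44) (nat_lit 4) (nat_lit 542) (nat_lit 420) (nat_lit 238)) (XT.lf (nat_lit 0) (nat_lit 66428231703) (nat_lit 152) (nat_lit 4343524033) (nat_lit 0) (nat_lit 2725878712) (nat_lit 42) (nat_lit 5) (nat_lit 44) (nat_lit 4) (nat_lit 42) (nat_lit 4) (nat_lit 543) (nat_lit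 420) (nat_lit 237)))) (XT.nd (nat_lit 156) (nat_lit 76) (nat_lit 0) (XT.nd (nat_lit 78) (nat_lit 0) (nat_lit 0) (XT.lf (nat_lit 0) (nat_lit 9788635192) (nat_lit 152) (nat_lit 43839763726) (nat_lit 76) (nat_lit 21511938324) (nat_lit 40) (nat_lit 5) (nat_lit 42) (nat_lit 5) (nat_lit 41) (nat_lit 4) (nat_lit 544) (nat_lit 420) (nat_lit 236)) (XT.lf (nat_lit 0) (nat_lit 27049820603) (nat_lit 152) (nat_lit 8807654600) (nat_lit 76) (nat_lit 40971561411) (nat_lit 40) (nat_lit 5) (nat_lit 42) (nat_lit 5) (nat_lit 41) (nat_lit 4) (nat_lit 545) (nat_lit 420) (nat_lit 235))) (XT.nd (nat_lit 78) (nat_lit 0) (nat_lit 0) (XT.lf (nat_lit 0) (nat_lit 27809089876) (nat_lit 76) (nat_lit 17282408506) (nat_lit 152) (nat_lit 33469019022) (nat_lit 39) (nat_lit 5) (nat_lit 40) (nat_lit 5) (nat_lit 41) (nat_lit 4) (nat_lit 546) (nat_lit 420) (nat_lit 234)) (XT.lf (nat_lit 0) (nat_lit 63777377491) (nat_lit 152) (nat_lit 14664045147) (nat_lit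 0) (nat_lit 1899431586) (nat_lit 39) (nat_lit 5) (nat_lit 41) (nat_lit 4) (nat_lit 39) (nat_lit 4) (nat_lit 547) (nat_lit 420) (nat_lit 233))))) (XT.nd (nat_lit 52728) (nat_lit 0) (nat_lit 21584) (XT.nd (nat_lit 52572) (nat_lit 0) (nat_lit 21584) (XT.nd (nat_lit 78) (nat_lit 0) (nat_lit 0) (XT.lf (nat_lit 0) (nat_lit 1221956578) (nat_lit 152) (nat_lit 59404568360) (nat_lit 76) (nat_lit 21536152553) (nat_lit 37) (nat_lit 5) (nat_lit 39) (nat_lit 5) (nat_lit 38) (nat_lit 4) (nat_lit 548) (nat_lit 420) (nat_lit 232)) (XT.lf (nat_lit 0) (nat_lit 19353075103) (nat_lit 152) (nat_lit 22605382518) (nat_lit 76) (nat_lit 42071427163) (nat_lit 37) (nat_lit 5) (nat_lit 39) (nat_lit 5) (nat_lit 38) (nat_lit 4) (nat_lit 549) (nat_lit 420) (nat_lit 231))) (XT.nd (nat_lit 78) (nat_lit 0) (nat_lit 0) (XT.lf (nat_lit 0) (nat_lit 412430952) (nat_lit 0) (nat_lit 412430952) (nat_lit 988) (nat_lit 3335610242) (nat_lit 321) (nat_lit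 5) (nat_lit 321) (nat_lit 3) (nat_lit 334) (nat_lit 3) (nat_lit 421) (nat_lit 421) (nat_lit 358)) (XT.lf (nat_lit 0) (nat_lit 2784644268) (nat_lit 988) (nat_lit 3423216600) (nat_lit 1064) (nat_lit 2204304273) (nat_lit 321) (nat_lit 5) (nat_lit 334) (nat_lit 3) (nat_lit 335) (nat_lit 5) (nat_lit 422) (nat_lit 421) (nat_lit 357)))) (XT.nd (nat_lit 156) (nat_lit 0) (nat_lit 76) (XT.nd (nat_lit 78) (nat_lit 0) (nat_lit 76) (XT.lf (nat_lit 76) (nat_lit 755682559) (nat_lit 0) (nat_lit 3171081405) (nat_lit 1064) (nat_lit 4580175347) (nat_lit 322) (nat_lit 5) (nat_lit 321) (nat_lit 5) (nat_lit 335) (nat_lit 5) (nat_lit 423) (nat_lit 421) (nat_lit 356)) (XT.lf (nat_lit 0) (nat_lit 5096557979) (nat_lit 988) (nat_lit 3497263413) (nat_lit 1064) (nat_lit 10943908) (nat_lit 322) (nat_lit 5) (nat_lit 335) (nat_lit 5) (nat_lit 336) (nat_lit 5) (nat_lit 424) (nat_lit 421) (nat_lit 355))) (XT.nd (nat_lit 78) (nat_lit 0) (nat_lit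 0) (XT.lf (nat_lit 76) (nat_lit 846224987) (nat_lit 0) (nat_lit 5454864675) (nat_lit 1064) (nat_lit 2404457687) (nat_lit 323) (nat_lit 5) (nat_lit 322) (nat_lit 5) (nat_lit 336) (nat_lit 5) (nat_lit 425) (nat_lit 421) (nat_lit 354)) (XT.lf (nat_lit 76) (nat_lit 5368695571) (nat_lit 0) (nat_lit 2169430354) (nat_lit 1064) (nat_lit 1271346165) (nat_lit 323) (nat_lit 5) (nat_lit 322) (nat_lit 5) (nat_lit 336) (nat_lit 5) (nat_lit 426) (nat_lit 421) (nat_lit 353)))))) (XT.nd (nat_lit 624) (nat_lit 4028) (nat_lit 0) (XT.nd (nat_lit 312) (nat_lit 0) (nat_lit 76) (XT.nd (nat_lit 156) (nat_lit 0) (nat_lit 0) (XT.nd (nat_lit 78) (nat_lit 1064) (nat_lit 0) (XT.lf (nat_lit 76) (nat_lit 1096409710) (nat_lit 0) (nat_lit 7700414295) (nat_lit 1064) (nat_lit 120164037) (nat_lit 324) (nat_lit 5) (nat_lit 323) (nat_lit 5) (nat_lit 337) (nat_lit 5) (nat_lit 427) (nat_lit 421) (nat_lit 352)) (XT.lf (nat_lit 0) (nat_lit 1064163836)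 (nat_lit 1064) (nat_lit 3242662407) (nat_lit 1140) (nat_lit 4720023268) (nat_lit 309) (nat_lit 5) (nat_lit 323) (nat_lit 5) (nat_lit 324) (nat_lit 5) (nat_lit 428) (nat_lit 421) (nat_lit 351))) (XT.nd (nat_lit 78) (nat_lit 0) (nat_lit 76) (XT.lf (nat_lit 76) (nat_lit 1476768726) (nat_lit 0) (nat_lit 782950190) (nat_lit 1140) (nat_lit 6880917983) (nat_lit 310) (nat_lit 5) (nat_lit 309) (nat_lit 5) (nat_lit 324) (nat_lit 5) (nat_lit 429) (nat_lit 421) (nat_lit 350)) (XT.lf (nat_lit 0) (nat_lit 3516433449) (nat_lit 1064) (nat_lit 2904691177) (nat_lit 1140) (nat_lit 2835963372) (nat_lit 310) (nat_lit 5) (nat_lit 324) (nat_lit 5) (nat_lit 325) (nat_lit 5) (nat_lit 430) (nat_lit 421) (nat_lit 349)))) (XT.nd (nat_lit 156) (nat_lit 0) (nat_lit 76) (XT.nd (nat_lit 78) (nat_lit 0) (nat_lit 76) (XT.lf (nat_lit 76) (nat_lit 2004941582) (nat_lit 0) (nat_lit 2798816425) (nat_lit 1140) (nat_lit 4573495983) (nat_lit 311) (nat_lit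 5) (nat_lit 310) (nat_lit 5) (nat_lit 325) (nat_lit 5) (nat_lit 431) (nat_lit 421) (nat_lit 348)) (XT.lf (nat_lit 0) (nat_lit 6135032016) (nat_lit 1064) (nat_lit 2412552072) (nat_lit 1140) (nat_lit 953289348) (nat_lit 311) (nat_lit 5) (nat_lit 325) (nat_lit 5) (nat_lit 326) (nat_lit 5) (nat_lit 432) (nat_lit 421) (nat_lit 347))) (XT.nd (nat_lit 78) (nat_lit 0) (nat_lit 0) (XT.lf (nat_lit 76) (nat_lit 2697072243) (nat_lit 0) (nat_lit 4830524607) (nat_lit 1140) (nat_lit 2099972159) (nat_lit 312) (nat_lit 5) (nat_lit 311) (nat_lit 5) (nat_lit 326) (nat_lit 5) (nat_lit 433) (nat_lit 421) (nat_lit 346)) (XT.lf (nat_lit 76) (nat_lit 7985826668) (nat_lit 0) (nat_lit 968902985) (nat_lit 1140) (nat_lit 803559952) (nat_lit 312) (nat_lit 5) (nat_lit 311) (nat_lit 5) (nat_lit 326) (nat_lit 5) (nat_lit 434) (nat_lit 421) (nat_lit 345))))) (XT.nd (nat_lit 312) (nat_lit 3116) (nat_lit 0) (XT.nd (nat_lit 156) (nat_lit 0) (nat_lit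 76) (XT.nd (nat_lit 78) (nat_lit 0) (nat_lit 0) (XT.lf (nat_lit 0) (nat_lit 554216781) (nat_lit 1140) (nat_lit 6340525123) (nat_lit 1216) (nat_lit 2997058550) (nat_lit 297) (nat_lit 5) (nat_lit 312) (nat_lit 5) (nat_lit 313) (nat_lit 5) (nat_lit 435) (nat_lit 421) (nat_lit 344)) (XT.lf (nat_lit 0) (nat_lit 1934026934) (nat_lit 1140) (nat_lit 999747818) (nat_lit 1216) (nat_lit 7095386886) (nat_lit 297) (nat_lit 5) (nat_lit 312) (nat_lit 5) (nat_lit 313) (nat_lit 5) (nat_lit 436) (nat_lit 421) (nat_lit 343))) (XT.nd (nat_lit 78) (nat_lit 0) (nat_lit 0) (XT.lf (nat_lit 0) (nat_lit 3381298424) (nat_lit 1140) (nat_lit 5614946436) (nat_lit 76) (nat_lit 1173623792) (nat_lit 298) (nat_lit 5) (nat_lit 313) (nat_lit 5) (nat_lit 299) (nat_lit 5) (nat_lit 437) (nat_lit 421) (nat_lit 342)) (XT.lf (nat_lit 0) (nat_lit 4882574389) (nat_lit 1140) (nat_lit 71196639) (nat_lit 76) (nat_lit 5360715062) (nat_lit 298) (nat_lit 5) (nat_lit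 313) (nat_lit 5) (nat_lit 299) (nat_lit 5) (nat_lit 438) (nat_lit 421) (nat_lit 341)))) (XT.nd (nat_lit 156) (nat_lit 836) (nat_lit 0) (XT.nd (nat_lit 78) (nat_lit 1216) (nat_lit 0) (XT.lf (nat_lit 0) (nat_lit 5727046588) (nat_lit 1140) (nat_lit 729072178) (nat_lit 1216) (nat_lit 4006512985) (nat_lit 283) (nat_lit 5) (nat_lit 298) (nat_lit 5) (nat_lit 299) (nat_lit 5) (nat_lit 439) (nat_lit 421) (nat_lit 340)) (XT.lf (nat_lit 0) (nat_lit 1046893338) (nat_lit 1216) (nat_lit 7048387623) (nat_lit 1292) (nat_lit 2519394887) (nat_lit 267) (nat_lit 5) (nat_lit 283) (nat_lit 5) (nat_lit 284) (nat_lit 5) (nat_lit 440) (nat_lit 421) (nat_lit 339))) (XT.nd (nat_lit 78) (nat_lit 836) (nat_lit 0) (XT.lf (nat_lit 0) (nat_lit 7068591994) (nat_lit 1216) (nat_lit 2743357349) (nat_lit 1292) (nat_lit 958488210) (nat_lit 267) (nat_lit 5) (nat_lit 283) (nat_lit 5) (nat_lit 284) (nat_lit 5) (nat_lit 441) (nat_lit 421) (nat_lit 338))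 (XT.lf (nat_lit 0) (nat_lit 649662852) (nat_lit 836) (nat_lit 8591348441) (nat_lit 76) (nat_lit 1689286867) (nat_lit 256) (nat_lit 5) (nat_lit 267) (nat_lit 5) (nat_lit 257) (nat_lit 5) (nat_lit 442) (nat_lit 421) (nat_lit 337))))))))
noncomputable def xc146 : XT := (XT.nd (nat_lit 2340) (nat_lit 4712) (nat_lit 0) (XT.nd (nat_lit 1170) (nat_lit 3648) (nat_lit 0) (XT.nd (nat_lit 546) (nat_lit 2052) (nat_lit 0) (XT.nd (nat_lit 234) (nat_lit 1748) (nat_lit 0) (XT.nd (nat_lit 78) (nat_lit 608) (nat_lit 0) (XT.lf (nat_lit 0) (nat_lit 2326138368) (nat_lit 836) (nat_lit 2518356233) (nat_lit 76) (nat_lit 6249000643) (nat_lit 256) (nat_lit 5) (nat_lit 267) (nat_lit 5) (nat_lit 257) (nat_lit 5) (nat_lit 443) (nat_lit 421) (nat_lit 336)) (XT.nd (nat_lit 78) (nat_lit 0) (nat_lit 0) (XT.lf (nat_lit 0) (nat_lit 3787080559) (nat_lit 608) (nat_lit 277407185) (nat_lit 684) (nat_lit 7196758640) (nat_lit 248) (nat_lit 5) (nat_lit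 256) (nat_lit 5) (nat_lit 257) (nat_lit 5) (nat_lit 444) (nat_lit 421) (nat_lit 335)) (XT.lf (nat_lit 0) (nat_lit 5898904542) (nat_lit 684) (nat_lit 1166923604) (nat_lit 76) (nat_lit 4366889774) (nat_lit 248) (nat_lit 5) (nat_lit 257) (nat_lit 5) (nat_lit 249) (nat_lit 5) (nat_lit 445) (nat_lit 421) (nat_lit 334)))) (XT.nd (nat_lit 156) (nat_lit 608) (nat_lit 0) (XT.nd (nat_lit 78) (nat_lit 532) (nat_lit 0) (XT.lf (nat_lit 0) (nat_lit 5408882777) (nat_lit 608) (nat_lit 2410602047) (nat_lit 684) (nat_lit 3788920062) (nat_lit 240) (nat_lit 5) (nat_lit 248) (nat_lit 5) (nat_lit 249) (nat_lit 5) (nat_lit 446) (nat_lit 421) (nat_lit 333)) (XT.lf (nat_lit 0) (nat_lit 377279436) (nat_lit 532) (nat_lit 9435703732) (nat_lit 608) (nat_lit 1975925334) (nat_lit 233) (nat_lit 5) (nat_lit 240) (nat_lit 5) (nat_lit 241) (nat_lit 5) (nat_lit 447) (nat_lit 421) (nat_lit 332))) (XT.nd (nat_lit 78) (nat_lit 608) (nat_lit 0) (XT.lf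 (nat_lit 0) (nat_lit 7230439331) (nat_lit 532) (nat_lit 4699384480) (nat_lit 608) (nat_lit 43102209) (nat_lit 233) (nat_lit 5) (nat_lit 240) (nat_lit 5) (nat_lit 241) (nat_lit 5) (nat_lit 448) (nat_lit 421) (nat_lit 331)) (XT.lf (nat_lit 0) (nat_lit 1909972205) (nat_lit 608) (nat_lit 10038009869) (nat_lit 76) (nat_lit 213916745) (nat_lit 225) (nat_lit 5) (nat_lit 233) (nat_lit 5) (nat_lit 226) (nat_lit 5) (nat_lit 449) (nat_lit 421) (nat_lit 330))))) (XT.nd (nat_lit 312) (nat_lit 988) (nat_lit 0) (XT.nd (nat_lit 156) (nat_lit 532) (nat_lit 0) (XT.nd (nat_lit 78) (nat_lit 532) (nat_lit 0) (XT.lf (nat_lit 0) (nat_lit 3993816260) (nat_lit 608) (nat_lit 3132923042) (nat_lit 76) (nat_lit 5227601882) (nat_lit 225) (nat_lit 5) (nat_lit 233) (nat_lit 5) (nat_lit 226) (nat_lit 5) (nat_lit 450) (nat_lit 421) (nat_lit 329)) (XT.lf (nat_lit 0) (nat_lit 4034884873) (nat_lit 532) (nat_lit 2122864106) (nat_lit 608) (nat_lit 6394285007)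 (nat_lit 218) (nat_lit 5) (nat_lit 225) (nat_lit 5) (nat_lit 226) (nat_lit 5) (nat_lit 451) (nat_lit 421) (nat_lit 328))) (XT.nd (nat_lit 78) (nat_lit 532) (nat_lit 0) (XT.lf (nat_lit 0) (nat_lit 8426850812) (nat_lit 608) (nat_lit 1325757685) (nat_lit 76) (nat_lit 3001845781) (nat_lit 218) (nat_lit 5) (nat_lit 226) (nat_lit 5) (nat_lit 219) (nat_lit 5) (nat_lit 452) (nat_lit 421) (nat_lit 327)) (XT.lf (nat_lit 0) (nat_lit 6157653080) (nat_lit 532) (nat_lit 4666353533) (nat_lit 608) (nat_lit 2137145254) (nat_lit 211) (nat_lit 5) (nat_lit 218) (nat_lit 5) (nat_lit 219) (nat_lit 5) (nat_lit 453) (nat_lit 421) (nat_lit 326)))) (XT.nd (nat_lit 156) (nat_lit 456) (nat_lit 0) (XT.nd (nat_lit 78) (nat_lit 0) (nat_lit 0) (XT.lf (nat_lit 0) (nat_lit 122665156) (nat_lit 532) (nat_lit 12471094803) (nat_lit 76) (nat_lit 580081145) (nat_lit 204) (nat_lit 5) (nat_lit 211) (nat_lit 5) (nat_lit 205) (nat_lit 5) (nat_lit 454) (nat_lit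 421) (nat_lit 325)) (XT.lf (nat_lit 0) (nat_lit 2503176372) (nat_lit 532) (nat_lit 4908627265) (nat_lit 76) (nat_lit 5977600522) (nat_lit 204) (nat_lit 5) (nat_lit 211) (nat_lit 5) (nat_lit 205) (nat_lit 5) (nat_lit 455) (nat_lit 421) (nat_lit 324))) (XT.nd (nat_lit 78) (nat_lit 0) (nat_lit 0) (XT.lf (nat_lit 0) (nat_lit 2914895859) (nat_lit 456) (nat_lit 2049078537) (nat_lit 532) (nat_lit 8647197222) (nat_lit 198) (nat_lit 5) (nat_lit 204) (nat_lit 5) (nat_lit 205) (nat_lit 5) (nat_lit 456) (nat_lit 421) (nat_lit 323)) (XT.lf (nat_lit 0) (nat_lit 7563212032) (nat_lit 532) (nat_lit 2821256909) (nat_lit 76) (nat_lit 3453188240) (nat_lit 198) (nat_lit 5) (nat_lit 205) (nat_lit 5) (nat_lit 199) (nat_lit 5) (nat_lit 457) (nat_lit 421) (nat_lit 322)))))) (XT.nd (nat_lit 546) (nat_lit 1900) (nat_lit 0) (XT.nd (nat_lit 234) (nat_lit 760) (nat_lit 0) (XT.nd (nat_lit 78) (nat_lit 532) (nat_lit 0) (XT.lf (nat_lit 0) (nat_lit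 5351819528) (nat_lit 456) (nat_lit 4942047032) (nat_lit 532) (nat_lit 3775471004) (nat_lit 192) (nat_lit 5) (nat_lit 198) (nat_lit 5) (nat_lit 199) (nat_lit 5) (nat_lit 458) (nat_lit 421) (nat_lit 321)) (XT.nd (nat_lit 78) (nat_lit 532) (nat_lit 0) (XT.lf (nat_lit 0) (nat_lit 13123578565) (nat_lit 532) (nat_lit 508475901) (nat_lit 76) (nat_lit 675403103) (nat_lit 192) (nat_lit 5) (nat_lit 199) (nat_lit 5) (nat_lit 193) (nat_lit 5) (nat_lit 459) (nat_lit 421) (nat_lit 320)) (XT.lf (nat_lit 0) (nat_lit 1566204855) (nat_lit 532) (nat_lit 6532129704) (nat_lit 76) (nat_lit 6450669473) (nat_lit 185) (nat_lit 5) (nat_lit 192) (nat_lit 5) (nat_lit 186) (nat_lit 5) (nat_lit 460) (nat_lit 421) (nat_lit 319)))) (XT.nd (nat_lit 156) (nat_lit 380) (nat_lit 0) (XT.nd (nat_lit 78) (nat_lit 0) (nat_lit 0) (XT.lf (nat_lit 0) (nat_lit 2016240797) (nat_lit 380) (nat_lit 2365961330) (nat_lit 456) (nat_lit 10415030003) (nat_lit 180)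 (nat_lit 5) (nat_lit 185) (nat_lit 5) (nat_lit 186) (nat_lit 5) (nat_lit 461) (nat_lit 421) (nat_lit 318)) (XT.lf (nat_lit 0) (nat_lit 7366195182) (nat_lit 456) (nat_lit 4152978166) (nat_lit 76) (nat_lit 3531231223) (nat_lit 180) (nat_lit 5) (nat_lit 186) (nat_lit 5) (nat_lit 181) (nat_lit 5) (nat_lit 462) (nat_lit 421) (nat_lit 317))) (XT.nd (nat_lit 78) (nat_lit 0) (nat_lit 0) (XT.lf (nat_lit 0) (nat_lit 4782067908) (nat_lit 380) (nat_lit 5710420021) (nat_lit 456) (nat_lit 4817103744) (nat_lit 175) (nat_lit 5) (nat_lit 180) (nat_lit 5) (nat_lit 181) (nat_lit 5) (nat_lit 463) (nat_lit 421) (nat_lit 316)) (XT.lf (nat_lit 0) (nat_lit 13741156229) (nat_lit 456) (nat_lit 1529962686) (nat_lit 76) (nat_lit 304580673) (nat_lit 175) (nat_lit 5) (nat_lit 181) (nat_lit 5) (nat_lit 176) (nat_lit 5) (nat_lit 464) (nat_lit 421) (nat_lit 315))))) (XT.nd (nat_lit 312) (nat_lit 760) (nat_lit 0) (XT.nd (nat_lit 156) (nat_lit 304)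 (nat_lit 0) (XT.nd (nat_lit 78) (nat_lit 380) (nat_lit 0) (XT.lf (nat_lit 0) (nat_lit 1330214394) (nat_lit 456) (nat_lit 8047223108) (nat_lit 76) (nat_lit 6468492957) (nat_lit 169) (nat_lit 5) (nat_lit 175) (nat_lit 5) (nat_lit 170) (nat_lit 5) (nat_lit 465) (nat_lit 421) (nat_lit 314)) (XT.lf (nat_lit 0) (nat_lit 1300457411) (nat_lit 380) (nat_lit 3264883051) (nat_lit 456) (nat_lit 11558016503) (nat_lit 164) (nat_lit 5) (nat_lit 169) (nat_lit 5) (nat_lit 170) (nat_lit 5) (nat_lit 466) (nat_lit 421) (nat_lit 313))) (XT.nd (nat_lit 78) (nat_lit 304) (nat_lit 0) (XT.lf (nat_lit 0) (nat_lit 7993119512) (nat_lit 456) (nat_lit 5364683602) (nat_lit 76) (nat_lit 3048437666) (nat_lit 164) (nat_lit 5) (nat_lit 170) (nat_lit 5) (nat_lit 165) (nat_lit 5) (nat_lit 467) (nat_lit 421) (nat_lit 312)) (XT.lf (nat_lit 0) (nat_lit 4410035289) (nat_lit 304) (nat_lit 7173265798) (nat_lit 380) (nat_lit 5112525364) (nat_lit 160) (nat_lit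 5) (nat_lit 164) (nat_lit 5) (nat_lit 165) (nat_lit 5) (nat_lit 468) (nat_lit 421) (nat_lit 311)))) (XT.nd (nat_lit 156) (nat_lit 304) (nat_lit 0) (XT.nd (nat_lit 78) (nat_lit 456) (nat_lit 0) (XT.lf (nat_lit 0) (nat_lit 14567198488) (nat_lit 304) (nat_lit 753255610) (nat_lit 380) (nat_lit 1672469964) (nat_lit 160) (nat_lit 5) (nat_lit 164) (nat_lit 5) (nat_lit 165) (nat_lit 5) (nat_lit 469) (nat_lit 421) (nat_lit 310)) (XT.lf (nat_lit 0) (nat_lit 1952264263) (nat_lit 456) (nat_lit 9508983321) (nat_lit 76) (nat_lit 5833610245) (nat_lit 154) (nat_lit 5) (nat_lit 160) (nat_lit 5) (nat_lit 155) (nat_lit 5) (nat_lit 470) (nat_lit 421) (nat_lit 309))) (XT.nd (nat_lit 78) (nat_lit 0) (nat_lit 0) (XT.lf (nat_lit 0) (nat_lit 717541992) (nat_lit 304) (nat_lit 4959233062) (nat_lit 380) (nat_lit 11927840442) (nat_lit 150) (nat_lit 5) (nat_lit 154) (nat_lit 5) (nat_lit 155) (nat_lit 5) (nat_lit 471) (nat_lit 421) (nat_lit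 308)) (XT.lf (nat_lit 0) (nat_lit 9612420253) (nat_lit 380) (nat_lit 6513452970) (nat_lit 76) (nat_lit 1794812784) (nat_lit 150) (nat_lit 5) (nat_lit 155) (nat_lit 5) (nat_lit 151) (nat_lit 5) (nat_lit 472) (nat_lit 421) (nat_lit 307))))))) (XT.nd (nat_lit 1170) (nat_lit 2052) (nat_lit 0) (XT.nd (nat_lit 546) (nat_lit 1368) (nat_lit 0) (XT.nd (nat_lit 234) (nat_lit 608) (nat_lit 0) (XT.nd (nat_lit 78) (nat_lit 380) (nat_lit 0) (XT.lf (nat_lit 0) (nat_lit 4183720408) (nat_lit 304) (nat_lit 9557869171) (nat_lit 380) (nat_lit 4502387437) (nat_lit 146) (nat_lit 5) (nat_lit 150) (nat_lit 5) (nat_lit 151) (nat_lit 5) (nat_lit 473) (nat_lit 421) (nat_lit 306)) (XT.nd (nat_lit 78) (nat_lit 380) (nat_lit 0) (XT.lf (nat_lit 0) (nat_lit 15315332460) (nat_lit 304) (nat_lit 2731423167) (nat_lit 380) (nat_lit 528649443) (nat_lit 146) (nat_lit 5) (nat_lit 150) (nat_lit 5) (nat_lit 151) (nat_lit 5) (nat_lit 474) (nat_lit 421)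 (nat_lit 305)) (XT.lf (nat_lit 0) (nat_lit 3600301030) (nat_lit 380) (nat_lit 10990613137) (nat_lit 76) (nat_lit 4321669204) (nat_lit 141) (nat_lit 5) (nat_lit 146) (nat_lit 5) (nat_lit 142) (nat_lit 5) (nat_lit 475) (nat_lit 421) (nat_lit 304)))) (XT.nd (nat_lit 156) (nat_lit 304) (nat_lit 0) (XT.nd (nat_lit 78) (nat_lit 0) (nat_lit 0) (XT.lf (nat_lit 0) (nat_lit 198864344) (nat_lit 304) (nat_lit 7692587054) (nat_lit 380) (nat_lit 11366801696) (nat_lit 137) (nat_lit 5) (nat_lit 141) (nat_lit 5) (nat_lit 142) (nat_lit 5) (nat_lit 476) (nat_lit 421) (nat_lit 303)) (XT.lf (nat_lit 0) (nat_lit 11929691742) (nat_lit 304) (nat_lit 479580273) (nat_lit 380) (nat_lit 7202084567) (nat_lit 137) (nat_lit 5) (nat_lit 141) (nat_lit 5) (nat_lit 142) (nat_lit 5) (nat_lit 477) (nat_lit 421) (nat_lit 302))) (XT.nd (nat_lit 78) (nat_lit 76) (nat_lit 0) (XT.lf (nat_lit 0) (nat_lit 4029841914) (nat_lit 228) (nat_lit 13125599225) (nat_lit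 304) (nat_lit 2816829316) (nat_lit 134) (nat_lit 5) (nat_lit 137) (nat_lit 5) (nat_lit 138) (nat_lit 5) (nat_lit 478) (nat_lit 421) (nat_lit 301)) (XT.lf (nat_lit 0) (nat_lit 1737228061) (nat_lit 304) (nat_lit 4132825247) (nat_lit 76) (nat_lit 14471357277) (nat_lit 133) (nat_lit 5) (nat_lit 137) (nat_lit 5) (nat_lit 134) (nat_lit 5) (nat_lit 479) (nat_lit 421) (nat_lit 300))))) (XT.nd (nat_lit 312) (nat_lit 456) (nat_lit 0) (XT.nd (nat_lit 156) (nat_lit 608) (nat_lit 0) (XT.nd (nat_lit 78) (nat_lit 0) (nat_lit 0) (XT.lf (nat_lit 0) (nat_lit 6453667782) (nat_lit 380) (nat_lit 12592006105) (nat_lit 76) (nat_lit 1672644618) (nat_lit 129) (nat_lit 5) (nat_lit 134) (nat_lit 5) (nat_lit 130) (nat_lit 5) (nat_lit 480) (nat_lit 421) (nat_lit 299)) (XT.lf (nat_lit 0) (nat_lit 11399682251) (nat_lit 380) (nat_lit 344865203) (nat_lit 76) (nat_lit 9359345269) (nat_lit 129) (nat_lit 5) (nat_lit 134) (nat_lit 5) (nat_lit 130)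 (nat_lit 5) (nat_lit 481) (nat_lit 421) (nat_lit 298))) (XT.nd (nat_lit 78) (nat_lit 380) (nat_lit 0) (XT.lf (nat_lit 0) (nat_lit 12495072984) (nat_lit 228) (nat_lit 4107284923) (nat_lit 304) (nat_lit 4895429300) (nat_lit 126) (nat_lit 5) (nat_lit 129) (nat_lit 5) (nat_lit 130) (nat_lit 5) (nat_lit 482) (nat_lit 421) (nat_lit 297)) (XT.lf (nat_lit 0) (nat_lit 122012356) (nat_lit 380) (nat_lit 18058568276) (nat_lit 76) (nat_lit 3720937018) (nat_lit 121) (nat_lit 5) (nat_lit 126) (nat_lit 5) (nat_lit 122) (nat_lit 5) (nat_lit 483) (nat_lit 421) (nat_lit 296)))) (XT.nd (nat_lit 156) (nat_lit 228) (nat_lit 0) (XT.nd (nat_lit 78) (nat_lit 228) (nat_lit 0) (XT.lf (nat_lit 0) (nat_lit 5312385211) (nat_lit 380) (nat_lit 5164738570) (nat_lit 76) (nat_lit 11835159438) (nat_lit 121) (nat_lit 5) (nat_lit 126) (nat_lit 5) (nat_lit 122) (nat_lit 5) (nat_lit 484) (nat_lit 421) (nat_lit 295)) (XT.lf (nat_lit 0) (nat_lit 8259011145)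 (nat_lit 228) (nat_lit 2467514000) (nat_lit 304) (nat_lit 12006806232) (nat_lit 118) (nat_lit 5) (nat_lit 121) (nat_lit 5) (nat_lit 122) (nat_lit 5) (nat_lit 485) (nat_lit 421) (nat_lit 294))) (XT.nd (nat_lit 78) (nat_lit 228) (nat_lit 0) (XT.lf (nat_lit 0) (nat_lit 16400102238) (nat_lit 304) (nat_lit 1048354132) (nat_lit 76) (nat_lit 5715645485) (nat_lit 118) (nat_lit 5) (nat_lit 122) (nat_lit 5) (nat_lit 119) (nat_lit 5) (nat_lit 486) (nat_lit 421) (nat_lit 293)) (XT.lf (nat_lit 0) (nat_lit 12991853701) (nat_lit 228) (nat_lit 9390435862) (nat_lit 304) (nat_lit 1221355019) (nat_lit 115) (nat_lit 5) (nat_lit 118) (nat_lit 5) (nat_lit 119) (nat_lit 5) (nat_lit 487) (nat_lit 421) (nat_lit 292)))))) (XT.nd (nat_lit 546) (nat_lit 1064) (nat_lit 0) (XT.nd (nat_lit 234) (nat_lit 456) (nat_lit 0) (XT.nd (nat_lit 78) (nat_lit 228) (nat_lit 0) (XT.lf (nat_lit 0) (nat_lit 3424617544) (nat_lit 228) (nat_lit 1008122219) (nat_lit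 304) (nat_lit 19621358682) (nat_lit 111) (nat_lit 5) (nat_lit 114) (nat_lit 5) (nat_lit 115) (nat_lit 5) (nat_lit 488) (nat_lit 421) (nat_lit 291)) (XT.nd (nat_lit 78) (nat_lit 228) (nat_lit 0) (XT.lf (nat_lit 0) (nat_lit 10402643310) (nat_lit 304) (nat_lit 6519411229) (nat_lit 76) (nat_lit 7590527708) (nat_lit 111) (nat_lit 5) (nat_lit 115) (nat_lit 5) (nat_lit 112) (nat_lit 5) (nat_lit 489) (nat_lit 421) (nat_lit 290)) (XT.lf (nat_lit 0) (nat_lit 8145694583) (nat_lit 228) (nat_lit 8483758571) (nat_lit 304) (nat_lit 8353034221) (nat_lit 108) (nat_lit 5) (nat_lit 111) (nat_lit 5) (nat_lit 112) (nat_lit 5) (nat_lit 490) (nat_lit 421) (nat_lit 289)))) (XT.nd (nat_lit 156) (nat_lit 228) (nat_lit 0) (XT.nd (nat_lit 78) (nat_lit 228) (nat_lit 0) (XT.lf (nat_lit 0) (nat_lit 23101151426) (nat_lit 304) (nat_lit 2100081467) (nat_lit 76) (nat_lit 263515297) (nat_lit 108) (nat_lit 5) (nat_lit 112) (nat_lit 5) (nat_lit 109)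 (nat_lit 5) (nat_lit 491) (nat_lit 421) (nat_lit 288)) (XT.lf (nat_lit 0) (nat_lit 3934392430) (nat_lit 228) (nat_lit 12757805889) (nat_lit 76) (nat_lit 9262088233) (nat_lit 105) (nat_lit 5) (nat_lit 108) (nat_lit 5) (nat_lit 106) (nat_lit 5) (nat_lit 492) (nat_lit 421) (nat_lit 287))) (XT.nd (nat_lit 78) (nat_lit 0) (nat_lit 0) (XT.lf (nat_lit 0) (nat_lit 2546345057) (nat_lit 228) (nat_lit 7863303885) (nat_lit 304) (nat_lit 16047086023) (nat_lit 102) (nat_lit 5) (nat_lit 105) (nat_lit 5) (nat_lit 106) (nat_lit 5) (nat_lit 493) (nat_lit 421) (nat_lit 286)) (XT.lf (nat_lit 0) (nat_lit 17211103066) (nat_lit 304) (nat_lit 8429266851) (nat_lit 76) (nat_lit 1329929656) (nat_lit 102) (nat_lit 5) (nat_lit 106) (nat_lit 5) (nat_lit 103) (nat_lit 5) (nat_lit 494) (nat_lit 421) (nat_lit 285))))) (XT.nd (nat_lit 312) (nat_lit 456) (nat_lit 0) (XT.nd (nat_lit 156) (nat_lit 380) (nat_lit 0) (XT.nd (nat_lit 78) (nat_lit 76)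 (nat_lit 0) (XT.lf (nat_lit 0) (nat_lit 7569726194) (nat_lit 152) (nat_lit 16787792640) (nat_lit 228) (nat_lit 3137525655) (nat_lit 100) (nat_lit 5) (nat_lit 102) (nat_lit 5) (nat_lit 103) (nat_lit 5) (nat_lit 495) (nat_lit 421) (nat_lit 284)) (XT.lf (nat_lit 0) (nat_lit 3687221823) (nat_lit 228) (nat_lit 3864195647) (nat_lit 76) (nat_lit 20480764370) (nat_lit 99) (nat_lit 5) (nat_lit 102) (nat_lit 5) (nat_lit 100) (nat_lit 5) (nat_lit 496) (nat_lit 421) (nat_lit 283))) (XT.nd (nat_lit 78) (nat_lit 152) (nat_lit 0) (XT.lf (nat_lit 0) (nat_lit 10788432734) (nat_lit 304) (nat_lit 15718282312) (nat_lit 76) (nat_lit 2073743696) (nat_lit 96) (nat_lit 5) (nat_lit 100) (nat_lit 5) (nat_lit 97) (nat_lit 5) (nat_lit 497) (nat_lit 421) (nat_lit 282)) (XT.lf (nat_lit 0) (nat_lit 952946972) (nat_lit 152) (nat_lit 17263736350) (nat_lit 228) (nat_lit 10925081339) (nat_lit 94) (nat_lit 5) (nat_lit 96) (nat_lit 5) (nat_lit 97)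 (nat_lit 5) (nat_lit 498) (nat_lit 421) (nat_lit 281)))) (XT.nd (nat_lit 156) (nat_lit 152) (nat_lit 0) (XT.nd (nat_lit 78) (nat_lit 304) (nat_lit 0) (XT.lf (nat_lit 0) (nat_lit 18430645545) (nat_lit 152) (nat_lit 7586648247) (nat_lit 228) (nat_lit 3698131380) (nat_lit 94) (nat_lit 5) (nat_lit 96) (nat_lit 5) (nat_lit 97) (nat_lit 5) (nat_lit 499) (nat_lit 421) (nat_lit 280)) (XT.lf (nat_lit 0) (nat_lit 3746828919) (nat_lit 304) (nat_lit 24131789383) (nat_lit 76) (nat_lit 2424369005) (nat_lit 90) (nat_lit 5) (nat_lit 94) (nat_lit 5) (nat_lit 91) (nat_lit 5) (nat_lit 500) (nat_lit 421) (nat_lit 279))) (XT.nd (nat_lit 78) (nat_lit 152) (nat_lit 0) (XT.lf (nat_lit 0) (nat_lit 11522026444) (nat_lit 304) (nat_lit 6651082391) (nat_lit 76) (nat_lit 12728533219) (nat_lit 90) (nat_lit 5) (nat_lit 94) (nat_lit 5) (nat_lit 91) (nat_lit 5) (nat_lit 501) (nat_lit 421) (nat_lit 278)) (XT.lf (nat_lit 0) (nat_lit 11564519309)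 (nat_lit 152) (nat_lit 8068406849) (nat_lit 228) (nat_lit 11882257597) (nat_lit 88) (nat_lit 5) (nat_lit 90) (nat_lit 5) (nat_lit 91) (nat_lit 5) (nat_lit 502) (nat_lit 421) (nat_lit 277))))))))
noncomputable def xc147 : XT := (XT.nd (nat_lit 2340) (nat_lit 1140) (nat_lit 0) (XT.nd (nat_lit 1170) (nat_lit 1216) (nat_lit 0) (XT.nd (nat_lit 546) (nat_lit 760) (nat_lit 0) (XT.nd (nat_lit 234) (nat_lit 380) (nat_lit 0) (XT.nd (nat_lit 78) (nat_lit 380) (nat_lit 0) (XT.lf (nat_lit 0) (nat_lit 28068797363) (nat_lit 228) (nat_lit 1720580272) (nat_lit 76) (nat_lit 2355305415) (nat_lit 88) (nat_lit 5) (nat_lit 91) (nat_lit 5) (nat_lit 89) (nat_lit 5) (nat_lit 503) (nat_lit 421) (nat_lit 276)) (XT.nd (nat_lit 78) (nat_lit 152) (nat_lit 0) (XT.lf (nat_lit 0) (nat_lit 4127423375) (nat_lit 228) (nat_lit 15527103612) (nat_lit 76) (nat_lit 13130194314) (nat_lit 85) (nat_lit 5) (nat_lit 88) (nat_lit 5) (nat_lit 86) (nat_lit 5)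 (nat_lit 504) (nat_lit 421) (nat_lit 275)) (XT.lf (nat_lit 0) (nat_lit 3408151405) (nat_lit 152) (nat_lit 9128669315) (nat_lit 228) (nat_lit 20904672634) (nat_lit 83) (nat_lit 5) (nat_lit 85) (nat_lit 5) (nat_lit 86) (nat_lit 5) (nat_lit 505) (nat_lit 421) (nat_lit 274)))) (XT.nd (nat_lit 156) (nat_lit 228) (nat_lit 0) (XT.nd (nat_lit 78) (nat_lit 152) (nat_lit 0) (XT.lf (nat_lit 0) (nat_lit 21364956494) (nat_lit 228) (nat_lit 10916390483) (nat_lit 76) (nat_lit 1831628498) (nat_lit 83) (nat_lit 5) (nat_lit 86) (nat_lit 5) (nat_lit 84) (nat_lit 5) (nat_lit 506) (nat_lit 421) (nat_lit 273)) (XT.lf (nat_lit 0) (nat_lit 8841793035) (nat_lit 152) (nat_lit 21783406988) (nat_lit 228) (nat_lit 4174384712) (nat_lit 81) (nat_lit 5) (nat_lit 83) (nat_lit 5) (nat_lit 84) (nat_lit 5) (nat_lit 507) (nat_lit 421) (nat_lit 272))) (XT.nd (nat_lit 78) (nat_lit 152) (nat_lit 0) (XT.lf (nat_lit 0) (nat_lit 4668827005) (nat_lit 228)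 (nat_lit 6147289053) (nat_lit 76) (nat_lit 24686236962) (nat_lit 80) (nat_lit 5) (nat_lit 83) (nat_lit 5) (nat_lit 81) (nat_lit 5) (nat_lit 508) (nat_lit 421) (nat_lit 271)) (XT.lf (nat_lit 0) (nat_lit 13831158274) (nat_lit 228) (nat_lit 21742546977) (nat_lit 76) (nat_lit 647127996) (nat_lit 78) (nat_lit 5) (nat_lit 81) (nat_lit 5) (nat_lit 79) (nat_lit 5) (nat_lit 509) (nat_lit 421) (nat_lit 270))))) (XT.nd (nat_lit 312) (nat_lit 380) (nat_lit 0) (XT.nd (nat_lit 156) (nat_lit 228) (nat_lit 0) (XT.nd (nat_lit 78) (nat_lit 152) (nat_lit 0) (XT.lf (nat_lit 0) (nat_lit 23430319172) (nat_lit 228) (nat_lit 1232133325) (nat_lit 76) (nat_lit 12293557114) (nat_lit 78) (nat_lit 5) (nat_lit 81) (nat_lit 5) (nat_lit 79) (nat_lit 5) (nat_lit 510) (nat_lit 421) (nat_lit 269)) (XT.lf (nat_lit 0) (nat_lit 20275587035) (nat_lit 152) (nat_lit 13229176252) (nat_lit 228) (nat_lit 4202859231) (nat_lit 76) (nat_lit 5) (nat_lit 78)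 (nat_lit 5) (nat_lit 79) (nat_lit 5) (nat_lit 511) (nat_lit 421) (nat_lit 268))) (XT.nd (nat_lit 78) (nat_lit 0) (nat_lit 0) (XT.lf (nat_lit 0) (nat_lit 3984435862) (nat_lit 152) (nat_lit 1353143916) (nat_lit 228) (nat_lit 33141348677) (nat_lit 73) (nat_lit 5) (nat_lit 75) (nat_lit 5) (nat_lit 76) (nat_lit 5) (nat_lit 512) (nat_lit 421) (nat_lit 267)) (XT.lf (nat_lit 0) (nat_lit 15354563942) (nat_lit 228) (nat_lit 13028989899) (nat_lit 76) (nat_lit 10880327659) (nat_lit 73) (nat_lit 5) (nat_lit 76) (nat_lit 5) (nat_lit 74) (nat_lit 5) (nat_lit 513) (nat_lit 421) (nat_lit 266)))) (XT.nd (nat_lit 156) (nat_lit 228) (nat_lit 0) (XT.nd (nat_lit 78) (nat_lit 0) (nat_lit 0) (XT.lf (nat_lit 0) (nat_lit 9233961828) (nat_lit 152) (nat_lit 16532931305) (nat_lit 228) (nat_lit 14302645386) (nat_lit 71) (nat_lit 5) (nat_lit 73) (nat_lit 5) (nat_lit 74) (nat_lit 5) (nat_lit 514) (nat_lit 421) (nat_lit 265)) (XT.lf (nat_lit 0)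 (nat_lit 32418707644) (nat_lit 152) (nat_lit 4197214036) (nat_lit 228) (nat_lit 4279714120) (nat_lit 71) (nat_lit 5) (nat_lit 73) (nat_lit 5) (nat_lit 74) (nat_lit 5) (nat_lit 515) (nat_lit 421) (nat_lit 264))) (XT.nd (nat_lit 78) (nat_lit 0) (nat_lit 0) (XT.lf (nat_lit 0) (nat_lit 6144559192) (nat_lit 228) (nat_lit 27054784106) (nat_lit 76) (nat_lit 8538872405) (nat_lit 68) (nat_lit 5) (nat_lit 71) (nat_lit 5) (nat_lit 69) (nat_lit 5) (nat_lit 516) (nat_lit 421) (nat_lit 263)) (XT.lf (nat_lit 0) (nat_lit 16916478098) (nat_lit 228) (nat_lit 3988873815) (nat_lit 76) (nat_lit 21695822225) (nat_lit 68) (nat_lit 5) (nat_lit 71) (nat_lit 5) (nat_lit 69) (nat_lit 5) (nat_lit 517) (nat_lit 421) (nat_lit 262)))))) (XT.nd (nat_lit 546) (nat_lit 608) (nat_lit 0) (XT.nd (nat_lit 234) (nat_lit 304) (nat_lit 0) (XT.nd (nat_lit 78) (nat_lit 152) (nat_lit 0) (XT.lf (nat_lit 0) (nat_lit 20149620827) (nat_lit 152) (nat_lit 8048761073)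 (nat_lit 228) (nat_lit 15286034993) (nat_lit 66) (nat_lit 5) (nat_lit 68) (nat_lit 5) (nat_lit 69) (nat_lit 5) (nat_lit 518) (nat_lit 421) (nat_lit 261)) (XT.nd (nat_lit 78) (nat_lit 76) (nat_lit 0) (XT.lf (nat_lit 0) (nat_lit 650857637) (nat_lit 76) (nat_lit 39257905977) (nat_lit 152) (nat_lit 4482693068) (nat_lit 65) (nat_lit 5) (nat_lit 66) (nat_lit 5) (nat_lit 67) (nat_lit 4) (nat_lit 519) (nat_lit 421) (nat_lit 260)) (XT.lf (nat_lit 0) (nat_lit 6825919769) (nat_lit 152) (nat_lit 19642737430) (nat_lit 76) (nat_lit 18845809608) (nat_lit 64) (nat_lit 5) (nat_lit 66) (nat_lit 5) (nat_lit 65) (nat_lit 5) (nat_lit 520) (nat_lit 421) (nat_lit 259)))) (XT.nd (nat_lit 156) (nat_lit 152) (nat_lit 0) (XT.nd (nat_lit 78) (nat_lit 0) (nat_lit 0) (XT.lf (nat_lit 0) (nat_lit 5223347818) (nat_lit 152) (nat_lit 13203928531) (nat_lit 228) (nat_lit 27835252246) (nat_lit 62) (nat_lit 5) (nat_lit 64) (nat_lit 5) (nat_lit 65) (nat_lit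 5) (nat_lit 521) (nat_lit 421) (nat_lit 258)) (XT.lf (nat_lit 0) (nat_lit 30574796081) (nat_lit 228) (nat_lit 16013661221) (nat_lit 76) (nat_lit 644631596) (nat_lit 62) (nat_lit 5) (nat_lit 65) (nat_lit 5) (nat_lit 63) (nat_lit 4) (nat_lit 522) (nat_lit 421) (nat_lit 257))) (XT.nd (nat_lit 78) (nat_lit 76) (nat_lit 0) (XT.lf (nat_lit 0) (nat_lit 9811427408) (nat_lit 76) (nat_lit 33493947480) (nat_lit 152) (nat_lit 4920832440) (nat_lit 61) (nat_lit 5) (nat_lit 62) (nat_lit 5) (nat_lit 63) (nat_lit 4) (nat_lit 523) (nat_lit 421) (nat_lit 256)) (XT.lf (nat_lit 0) (nat_lit 7185769513) (nat_lit 152) (nat_lit 12587178221) (nat_lit 76) (nat_lit 29469397392) (nat_lit 60) (nat_lit 5) (nat_lit 62) (nat_lit 5) (nat_lit 61) (nat_lit 5) (nat_lit 524) (nat_lit 421) (nat_lit 255))))) (XT.nd (nat_lit 312) (nat_lit 304) (nat_lit 0) (XT.nd (nat_lit 156) (nat_lit 152) (nat_lit 0) (XT.nd (nat_lit 78) (nat_lit 0) (nat_lit 0) (XT.lf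 (nat_lit 0) (nat_lit 14232677057) (nat_lit 152) (nat_lit 5454586561) (nat_lit 228) (nat_lit 30596324164) (nat_lit 58) (nat_lit 5) (nat_lit 60) (nat_lit 5) (nat_lit 61) (nat_lit 5) (nat_lit 525) (nat_lit 421) (nat_lit 254)) (XT.lf (nat_lit 0) (nat_lit 32775304291) (nat_lit 228) (nat_lit 9339297345) (nat_lit 76) (nat_lit 9235121317) (nat_lit 58) (nat_lit 5) (nat_lit 61) (nat_lit 5) (nat_lit 59) (nat_lit 4) (nat_lit 526) (nat_lit 421) (nat_lit 253))) (XT.nd (nat_lit 78) (nat_lit 76) (nat_lit 0) (XT.lf (nat_lit 0) (nat_lit 18468785121) (nat_lit 76) (nat_lit 28012724908) (nat_lit 152) (nat_lit 5959566714) (nat_lit 57) (nat_lit 5) (nat_lit 58) (nat_lit 5) (nat_lit 59) (nat_lit 4) (nat_lit 527) (nat_lit 421) (nat_lit 252)) (XT.lf (nat_lit 0) (nat_lit 6985713304) (nat_lit 152) (nat_lit 6339607037) (nat_lit 76) (nat_lit 40235145615) (nat_lit 56) (nat_lit 5) (nat_lit 58) (nat_lit 5) (nat_lit 57) (nat_lit 5) (nat_lit 528)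 (nat_lit 421) (nat_lit 251)))) (XT.nd (nat_lit 156) (nat_lit 152) (nat_lit 0) (XT.nd (nat_lit 78) (nat_lit 0) (nat_lit 0) (XT.lf (nat_lit 0) (nat_lit 20429940308) (nat_lit 228) (nat_lit 32234374642) (nat_lit 76) (nat_lit 2040440885) (nat_lit 54) (nat_lit 5) (nat_lit 57) (nat_lit 5) (nat_lit 55) (nat_lit 4) (nat_lit 529) (nat_lit 421) (nat_lit 250)) (XT.lf (nat_lit 0) (nat_lit 34468264842) (nat_lit 228) (nat_lit 3750360878) (nat_lit 76) (nat_lit 17659025817) (nat_lit 54) (nat_lit 5) (nat_lit 57) (nat_lit 5) (nat_lit 55) (nat_lit 4) (nat_lit 530) (nat_lit 421) (nat_lit 249))) (XT.nd (nat_lit 78) (nat_lit 76) (nat_lit 0) (XT.lf (nat_lit 0) (nat_lit 26086571516) (nat_lit 76) (nat_lit 23086282453) (nat_lit 152) (nat_lit 7905526936) (nat_lit 53) (nat_lit 5) (nat_lit 54) (nat_lit 5) (nat_lit 55) (nat_lit 4) (nat_lit 531) (nat_lit 421) (nat_lit 248)) (XT.lf (nat_lit 0) (nat_lit 5918908344) (nat_lit 152) (nat_lit 1487242013)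 (nat_lit 76) (nat_lit 50906272500) (nat_lit 52) (nat_lit 5) (nat_lit 54) (nat_lit 5) (nat_lit 53) (nat_lit 5) (nat_lit 532) (nat_lit 421) (nat_lit 247))))))) (XT.nd (nat_lit 1170) (nat_lit 152) (nat_lit 0) (XT.nd (nat_lit 546) (nat_lit 456) (nat_lit 0) (XT.nd (nat_lit 234) (nat_lit 304) (nat_lit 0) (XT.nd (nat_lit 78) (nat_lit 76) (nat_lit 0) (XT.lf (nat_lit 0) (nat_lit 20363780172) (nat_lit 228) (nat_lit 30273109770) (nat_lit 76) (nat_lit 8933310266) (nat_lit 50) (nat_lit 5) (nat_lit 53) (nat_lit 5) (nat_lit 51) (nat_lit 4) (nat_lit 533) (nat_lit 421) (nat_lit 246)) (XT.nd (nat_lit 78) (nat_lit 0) (nat_lit 0) (XT.lf (nat_lit 0) (nat_lit 88063741) (nat_lit 76) (nat_lit 35237817223) (nat_lit 152) (nat_lit 25537313648) (nat_lit 49) (nat_lit 5) (nat_lit 50) (nat_lit 5) (nat_lit 51) (nat_lit 4) (nat_lit 534) (nat_lit 421) (nat_lit 245)) (XT.lf (nat_lit 0) (nat_lit 31970385755) (nat_lit 76) (nat_lit 19066759626) (nat_lit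 152) (nat_lit 11148824655) (nat_lit 49) (nat_lit 5) (nat_lit 50) (nat_lit 5) (nat_lit 51) (nat_lit 4) (nat_lit 535) (nat_lit 421) (nat_lit 244)))) (XT.nd (nat_lit 156) (nat_lit 76) (nat_lit 0) (XT.nd (nat_lit 78) (nat_lit 0) (nat_lit 0) (XT.lf (nat_lit 0) (nat_lit 1239583883) (nat_lit 152) (nat_lit 2366716803) (nat_lit 228) (nat_lit 59940870835) (nat_lit 46) (nat_lit 5) (nat_lit 48) (nat_lit 5) (nat_lit 49) (nat_lit 5) (nat_lit 536) (nat_lit 421) (nat_lit 243)) (XT.lf (nat_lit 0) (nat_lit 19025454840) (nat_lit 228) (nat_lit 30948336292) (nat_lit 76) (nat_lit 14958742915) (nat_lit 46) (nat_lit 5) (nat_lit 49) (nat_lit 5) (nat_lit 47) (nat_lit 4) (nat_lit 537) (nat_lit 421) (nat_lit 242))) (XT.nd (nat_lit 78) (nat_lit 0) (nat_lit 0) (XT.lf (nat_lit 0) (nat_lit 1344717779) (nat_lit 76) (nat_lit 33593698358) (nat_lit 152) (nat_lit 31420104519) (nat_lit 45) (nat_lit 5) (nat_lit 46) (nat_lit 5) (nat_lit 47) (nat_lit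 4) (nat_lit 538) (nat_lit 421) (nat_lit 241)) (XT.lf (nat_lit 0) (nat_lit 35231287668) (nat_lit 76) (nat_lit 16404925758) (nat_lit 152) (nat_lit 16181850204) (nat_lit 45) (nat_lit 5) (nat_lit 46) (nat_lit 5) (nat_lit 47) (nat_lit 4) (nat_lit 539) (nat_lit 421) (nat_lit 240))))) (XT.nd (nat_lit 312) (nat_lit 228) (nat_lit 0) (XT.nd (nat_lit 156) (nat_lit 76) (nat_lit 0) (XT.nd (nat_lit 78) (nat_lit 76) (nat_lit 0) (XT.lf (nat_lit 0) (nat_lit 806804734) (nat_lit 76) (nat_lit 68043421322) (nat_lit 76) (nat_lit 470708568) (nat_lit 44) (nat_lit 4) (nat_lit 45) (nat_lit 5) (nat_lit 45) (nat_lit 4) (nat_lit 540) (nat_lit 421) (nat_lit 239)) (XT.lf (nat_lit 0) (nat_lit 15894959304) (nat_lit 152) (nat_lit 35315058900) (nat_lit 76) (nat_lit 19639649219) (nat_lit 43) (nat_lit 5) (nat_lit 45) (nat_lit 5) (nat_lit 44) (nat_lit 4) (nat_lit 541) (nat_lit 421) (nat_lit 238))) (XT.nd (nat_lit 78) (nat_lit 76) (nat_lit 0) (XT.lf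 (nat_lit 0) (nat_lit 32737320482) (nat_lit 152) (nat_lit 1133913801) (nat_lit 76) (nat_lit 38553032748) (nat_lit 43) (nat_lit 5) (nat_lit 45) (nat_lit 5) (nat_lit 44) (nat_lit 4) (nat_lit 542) (nat_lit 421) (nat_lit 237)) (XT.lf (nat_lit 0) (nat_lit 34741631528) (nat_lit 76) (nat_lit 15672603097) (nat_lit 152) (nat_lit 23621991692) (nat_lit 42) (nat_lit 5) (nat_lit 43) (nat_lit 5) (nat_lit 44) (nat_lit 4) (nat_lit 543) (nat_lit 421) (nat_lit 236)))) (XT.nd (nat_lit 156) (nat_lit 76) (nat_lit 0) (XT.nd (nat_lit 78) (nat_lit 152) (nat_lit 0) (XT.lf (nat_lit 0) (nat_lit 68657883913) (nat_lit 152) (nat_lit 4018135270) (nat_lit 0) (nat_lit 3019432517) (nat_lit 42) (nat_lit 5) (nat_lit 44) (nat_lit 4) (nat_lit 42) (nat_lit 4) (nat_lit 544) (nat_lit 421) (nat_lit 235)) (XT.lf (nat_lit 0) (nat_lit 10318866253) (nat_lit 152) (nat_lit 44699014315) (nat_lit 76) (nat_lit 22369562445) (nat_lit 40) (nat_lit 5) (nat_lit 42) (nat_lit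 5) (nat_lit 41) (nat_lit 4) (nat_lit 545) (nat_lit 421) (nat_lit 234))) (XT.nd (nat_lit 78) (nat_lit 76) (nat_lit 0) (XT.lf (nat_lit 0) (nat_lit 28090996780) (nat_lit 152) (nat_lit 8629221789) (nat_lit 76) (nat_lit 42406791721) (nat_lit 40) (nat_lit 5) (nat_lit 42) (nat_lit 5) (nat_lit 41) (nat_lit 4) (nat_lit 546) (nat_lit 421) (nat_lit 233)) (XT.lf (nat_lit 0) (nat_lit 29081685193) (nat_lit 76) (nat_lit 17589763370) (nat_lit 152) (nat_lit 34239061433) (nat_lit 39) (nat_lit 5) (nat_lit 40) (nat_lit 5) (nat_lit 41) (nat_lit 4) (nat_lit 547) (nat_lit 421) (nat_lit 232)))))) (XT.nd (nat_lit 53118) (nat_lit 0) (nat_lit 19684) (XT.nd (nat_lit 52806) (nat_lit 0) (nat_lit 20596) (XT.nd (nat_lit 52650) (nat_lit 0) (nat_lit 21584) (XT.nd (nat_lit 78) (nat_lit 152) (nat_lit 0) (XT.lf (nat_lit 0) (nat_lit 65913256699) (nat_lit 152) (nat_lit 14673756637) (nat_lit 0) (nat_lit 2157383204) (nat_lit 39) (nat_lit 5) (nat_lit 41)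 (nat_lit 4) (nat_lit 39) (nat_lit 4) (nat_lit 548) (nat_lit 421) (nat_lit 231)) (XT.lf (nat_lit 0) (nat_lit 1480971952) (nat_lit 152) (nat_lit 60756281757) (nat_lit 76) (nat_lit 22383627208) (nat_lit 37) (nat_lit 5) (nat_lit 39) (nat_lit 5) (nat_lit 38) (nat_lit 4) (nat_lit 549) (nat_lit 421) (nat_lit 230))) (XT.nd (nat_lit 78) (nat_lit 0) (nat_lit 0) (XT.lf (nat_lit 0) (nat_lit 963853798) (nat_lit 0) (nat_lit 963853798) (nat_lit 988) (nat_lit 2324950411) (nat_lit 321) (nat_lit 5) (nat_lit 321) (nat_lit 3) (nat_lit 334) (nat_lit 3) (nat_lit 422) (nat_lit 422) (nat_lit 356)) (XT.lf (nat_lit 0) (nat_lit 4951519827) (nat_lit 988) (nat_lit 2405796792) (nat_lit 1064) (nat_lit 1244159396) (nat_lit 321) (nat_lit 5) (nat_lit 334) (nat_lit 3) (nat_lit 335) (nat_lit 5) (nat_lit 423) (nat_lit 422) (nat_lit 355)))) (XT.nd (nat_lit 156) (nat_lit 988) (nat_lit 0) (XT.nd (nat_lit 78) (nat_lit 0) (nat_lit 0) (XT.lf (nat_lit 76)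 (nat_lit 1887487810) (nat_lit 0) (nat_lit 4190397289) (nat_lit 1064) (nat_lit 2622724986) (nat_lit 322) (nat_lit 5) (nat_lit 321) (nat_lit 5) (nat_lit 335) (nat_lit 5) (nat_lit 424) (nat_lit 422) (nat_lit 354)) (XT.lf (nat_lit 76) (nat_lit 6337670649) (nat_lit 0) (nat_lit 885768912) (nat_lit 1064) (nat_lit 1579726959) (nat_lit 322) (nat_lit 5) (nat_lit 321) (nat_lit 5) (nat_lit 335) (nat_lit 5) (nat_lit 425) (nat_lit 422) (nat_lit 353))) (XT.nd (nat_lit 78) (nat_lit 1064) (nat_lit 0) (XT.lf (nat_lit 76) (nat_lit 2005584282) (nat_lit 0) (nat_lit 6403662091) (nat_lit 1064) (nat_lit 499386693) (nat_lit 323) (nat_lit 5) (nat_lit 322) (nat_lit 5) (nat_lit 336) (nat_lit 5) (nat_lit 426) (nat_lit 422) (nat_lit 352)) (XT.lf (nat_lit 0) (nat_lit 598223859) (nat_lit 1064) (nat_lit 2392531503) (nat_lit 1140) (nat_lit 6026435910) (nat_lit 308) (nat_lit 5) (nat_lit 322) (nat_lit 5) (nat_lit 323) (nat_lit 5) (nat_lit 427) (nat_lit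 422) (nat_lit 351))))) (XT.nd (nat_lit 312) (nat_lit 988) (nat_lit 0) (XT.nd (nat_lit 156) (nat_lit 0) (nat_lit 0) (XT.nd (nat_lit 78) (nat_lit 0) (nat_lit 0) (XT.lf (nat_lit 0) (nat_lit 1709994594) (nat_lit 1064) (nat_lit 6863852014) (nat_lit 1140) (nat_lit 555282353) (nat_lit 309) (nat_lit 5) (nat_lit 323) (nat_lit 5) (nat_lit 324) (nat_lit 5) (nat_lit 428) (nat_lit 422) (nat_lit 350)) (XT.lf (nat_lit 0) (nat_lit 2874096882) (nat_lit 1064) (nat_lit 2184453032) (nat_lit 1140) (nat_lit 4185314390) (nat_lit 309) (nat_lit 5) (nat_lit 323) (nat_lit 5) (nat_lit 324) (nat_lit 5) (nat_lit 429) (nat_lit 422) (nat_lit 349))) (XT.nd (nat_lit 78) (nat_lit 0) (nat_lit 76) (XT.lf (nat_lit 76) (nat_lit 2665232709) (nat_lit 0) (nat_lit 1399497635) (nat_lit 1140) (nat_lit 5297571737) (nat_lit 310) (nat_lit 5) (nat_lit 309) (nat_lit 5) (nat_lit 324) (nat_lit 5) (nat_lit 430) (nat_lit 422) (nat_lit 348)) (XT.lf (nat_lit 0) (nat_lit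 5303012875) (nat_lit 1064) (nat_lit 1824438037) (nat_lit 1140) (nat_lit 2356492542) (nat_lit 310) (nat_lit 5) (nat_lit 324) (nat_lit 5) (nat_lit 325) (nat_lit 5) (nat_lit 431) (nat_lit 422) (nat_lit 347)))) (XT.nd (nat_lit 156) (nat_lit 1064) (nat_lit 0) (XT.nd (nat_lit 78) (nat_lit 0) (nat_lit 76) (XT.lf (nat_lit 76) (nat_lit 3221038666) (nat_lit 0) (nat_lit 3370066509) (nat_lit 1140) (nat_lit 3017757178) (nat_lit 311) (nat_lit 5) (nat_lit 310) (nat_lit 5) (nat_lit 325) (nat_lit 5) (nat_lit 432) (nat_lit 422) (nat_lit 346)) (XT.lf (nat_lit 0) (nat_lit 7909908550) (nat_lit 1064) (nat_lit 1309839138) (nat_lit 1140) (nat_lit 518026966) (nat_lit 311) (nat_lit 5) (nat_lit 325) (nat_lit 5) (nat_lit 326) (nat_lit 5) (nat_lit 433) (nat_lit 422) (nat_lit 345))) (XT.nd (nat_lit 78) (nat_lit 1140) (nat_lit 0) (XT.lf (nat_lit 76) (nat_lit 3941553421) (nat_lit 0) (nat_lit 5367547120) (nat_lit 1140) (nat_lit 560236704) (nat_lit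 312) (nat_lit 5) (nat_lit 311) (nat_lit 5) (nat_lit 326) (nat_lit 5) (nat_lit 434) (nat_lit 422) (nat_lit 344)) (XT.lf (nat_lit 0) (nat_lit 714172838) (nat_lit 1140) (nat_lit 657271680) (nat_lit 1216) (nat_lit 8633695535) (nat_lit 296) (nat_lit 5) (nat_lit 311) (nat_lit 5) (nat_lit 312) (nat_lit 5) (nat_lit 435) (nat_lit 422) (nat_lit 343))))))))
noncomputable def xc148 : XT := (XT.nd (nat_lit 2340) (nat_lit 5548) (nat_lit 0) (XT.nd (nat_lit 1170) (nat_lit 3800) (nat_lit 0) (XT.nd (nat_lit 546) (nat_lit 3116) (nat_lit 0) (XT.nd (nat_lit 234) (nat_lit 2356) (nat_lit 0) (XT.nd (nat_lit 78) (nat_lit 0) (nat_lit 0) (XT.lf (nat_lit 0) (nat_lit 2059840116) (nat_lit 1140) (nat_lit 5333284184) (nat_lit 1216) (nat_lit 2750404675) (nat_lit 297) (nat_lit 5) (nat_lit 312) (nat_lit 5) (nat_lit 313) (nat_lit 5) (nat_lit 436) (nat_lit 422) (nat_lit 342)) (XT.nd (nat_lit 78) (nat_lit 0) (nat_lit 76) (XT.lf (nat_lit 76) (nat_lit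 135482817) (nat_lit 0) (nat_lit 3303495260) (nat_lit 1216) (nat_lit 6847305269) (nat_lit 298) (nat_lit 5) (nat_lit 297) (nat_lit 5) (nat_lit 313) (nat_lit 5) (nat_lit 437) (nat_lit 422) (nat_lit 341)) (XT.lf (nat_lit 0) (nat_lit 4894793533) (nat_lit 1140) (nat_lit 4586908505) (nat_lit 76) (nat_lit 950565814) (nat_lit 298) (nat_lit 5) (nat_lit 313) (nat_lit 5) (nat_lit 299) (nat_lit 5) (nat_lit 438) (nat_lit 422) (nat_lit 340)))) (XT.nd (nat_lit 156) (nat_lit 1292) (nat_lit 0) (XT.nd (nat_lit 78) (nat_lit 0) (nat_lit 0) (XT.lf (nat_lit 0) (nat_lit 1109964065) (nat_lit 1140) (nat_lit 5300685515) (nat_lit 1216) (nat_lit 4171497740) (nat_lit 283) (nat_lit 5) (nat_lit 298) (nat_lit 5) (nat_lit 299) (nat_lit 5) (nat_lit 439) (nat_lit 422) (nat_lit 339)) (XT.lf (nat_lit 0) (nat_lit 7049106594) (nat_lit 1140) (nat_lit 942750985) (nat_lit 1216) (nat_lit 2744075532) (nat_lit 283) (nat_lit 5) (nat_lit 298) (nat_lit 5) (nat_lit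 299) (nat_lit 5) (nat_lit 440) (nat_lit 422) (nat_lit 338))) (XT.nd (nat_lit 78) (nat_lit 76) (nat_lit 0) (XT.lf (nat_lit 0) (nat_lit 2259277259) (nat_lit 1216) (nat_lit 7391390606) (nat_lit 1292) (nat_lit 1242765671) (nat_lit 267) (nat_lit 5) (nat_lit 283) (nat_lit 5) (nat_lit 284) (nat_lit 5) (nat_lit 441) (nat_lit 422) (nat_lit 337)) (XT.lf (nat_lit 0) (nat_lit 319230112) (nat_lit 1292) (nat_lit 2630924121) (nat_lit 76) (nat_lit 8104775772) (nat_lit 266) (nat_lit 5) (nat_lit 283) (nat_lit 5) (nat_lit 267) (nat_lit 5) (nat_lit 442) (nat_lit 422) (nat_lit 336))))) (XT.nd (nat_lit 312) (nat_lit 1748) (nat_lit 0) (XT.nd (nat_lit 156) (nat_lit 608) (nat_lit 0) (XT.nd (nat_lit 78) (nat_lit 0) (nat_lit 0) (XT.lf (nat_lit 0) (nat_lit 1929069547) (nat_lit 836) (nat_lit 7649029869) (nat_lit 76) (nat_lit 1642029481) (nat_lit 256) (nat_lit 5) (nat_lit 267) (nat_lit 5) (nat_lit 257) (nat_lit 5) (nat_lit 443) (nat_lit 422)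 (nat_lit 335)) (XT.lf (nat_lit 0) (nat_lit 3619142722) (nat_lit 836) (nat_lit 1428801071) (nat_lit 76) (nat_lit 6341387174) (nat_lit 256) (nat_lit 5) (nat_lit 267) (nat_lit 5) (nat_lit 257) (nat_lit 5) (nat_lit 444) (nat_lit 422) (nat_lit 334))) (XT.nd (nat_lit 78) (nat_lit 0) (nat_lit 0) (XT.lf (nat_lit 0) (nat_lit 5054376220) (nat_lit 608) (nat_lit 330728496) (nat_lit 684) (nat_lit 6177753999) (nat_lit 248) (nat_lit 5) (nat_lit 256) (nat_lit 5) (nat_lit 257) (nat_lit 5) (nat_lit 445) (nat_lit 422) (nat_lit 333)) (XT.lf (nat_lit 0) (nat_lit 7239220979) (nat_lit 684) (nat_lit 46260572) (nat_lit 76) (nat_lit 4455060544) (nat_lit 248) (nat_lit 5) (nat_lit 257) (nat_lit 5) (nat_lit 249) (nat_lit 5) (nat_lit 446) (nat_lit 422) (nat_lit 332)))) (XT.nd (nat_lit 156) (nat_lit 608) (nat_lit 0) (XT.nd (nat_lit 78) (nat_lit 532) (nat_lit 0) (XT.lf (nat_lit 0) (nat_lit 6715489896) (nat_lit 608) (nat_lit 2479044915) (nat_lit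 684) (nat_lit 2727658855) (nat_lit 240) (nat_lit 5) (nat_lit 248) (nat_lit 5) (nat_lit 249) (nat_lit 5) (nat_lit 447) (nat_lit 422) (nat_lit 331)) (XT.lf (nat_lit 0) (nat_lit 1555808033) (nat_lit 532) (nat_lit 9670068737) (nat_lit 608) (nat_lit 882901725) (nat_lit 233) (nat_lit 5) (nat_lit 240) (nat_lit 5) (nat_lit 241) (nat_lit 5) (nat_lit 448) (nat_lit 422) (nat_lit 330))) (XT.nd (nat_lit 78) (nat_lit 532) (nat_lit 0) (XT.lf (nat_lit 0) (nat_lit 1053379597) (nat_lit 608) (nat_lit 3729061866) (nat_lit 76) (nat_lit 7516549645) (nat_lit 232) (nat_lit 5) (nat_lit 240) (nat_lit 5) (nat_lit 233) (nat_lit 5) (nat_lit 449) (nat_lit 422) (nat_lit 329)) (XT.lf (nat_lit 0) (nat_lit 3043881018) (nat_lit 608) (nat_lit 9163356990) (nat_lit 76) (nat_lit 286997895) (nat_lit 225) (nat_lit 5) (nat_lit 233) (nat_lit 5) (nat_lit 226) (nat_lit 5) (nat_lit 450) (nat_lit 422) (nat_lit 328)))))) (XT.nd (nat_lit 546) (nat_lit 1748) (nat_lit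 0) (XT.nd (nat_lit 234) (nat_lit 1520) (nat_lit 0) (XT.nd (nat_lit 78) (nat_lit 532) (nat_lit 0) (XT.lf (nat_lit 0) (nat_lit 5158882832) (nat_lit 608) (nat_lit 2085363962) (nat_lit 76) (nat_lit 5449151926) (nat_lit 225) (nat_lit 5) (nat_lit 233) (nat_lit 5) (nat_lit 226) (nat_lit 5) (nat_lit 451) (nat_lit 422) (nat_lit 327)) (XT.nd (nat_lit 78) (nat_lit 0) (nat_lit 0) (XT.lf (nat_lit 0) (nat_lit 5286286556) (nat_lit 532) (nat_lit 2081868407) (nat_lit 608) (nat_lit 5529460968) (nat_lit 218) (nat_lit 5) (nat_lit 225) (nat_lit 5) (nat_lit 226) (nat_lit 5) (nat_lit 452) (nat_lit 422) (nat_lit 326)) (XT.lf (nat_lit 0) (nat_lit 9676432820) (nat_lit 608) (nat_lit 238998427) (nat_lit 76) (nat_lit 3191550579) (nat_lit 218) (nat_lit 5) (nat_lit 226) (nat_lit 5) (nat_lit 219) (nat_lit 5) (nat_lit 453) (nat_lit 422) (nat_lit 325)))) (XT.nd (nat_lit 156) (nat_lit 456) (nat_lit 0) (XT.nd (nat_lit 78) (nat_lit 532) (nat_lit 0)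 (XT.lf (nat_lit 0) (nat_lit 7457870230) (nat_lit 532) (nat_lit 4669323489) (nat_lit 608) (nat_lit 1193241816) (nat_lit 211) (nat_lit 5) (nat_lit 218) (nat_lit 5) (nat_lit 219) (nat_lit 5) (nat_lit 454) (nat_lit 422) (nat_lit 324)) (XT.lf (nat_lit 0) (nat_lit 1098191594) (nat_lit 532) (nat_lit 11693192052) (nat_lit 76) (nat_lit 748331717) (nat_lit 204) (nat_lit 5) (nat_lit 211) (nat_lit 5) (nat_lit 205) (nat_lit 5) (nat_lit 455) (nat_lit 422) (nat_lit 323))) (XT.nd (nat_lit 78) (nat_lit 456) (nat_lit 0) (XT.lf (nat_lit 0) (nat_lit 3521811938) (nat_lit 532) (nat_lit 3937404923) (nat_lit 76) (nat_lit 6303383040) (nat_lit 204) (nat_lit 5) (nat_lit 211) (nat_lit 5) (nat_lit 205) (nat_lit 5) (nat_lit 456) (nat_lit 422) (nat_lit 322)) (XT.lf (nat_lit 0) (nat_lit 4109858393) (nat_lit 456) (nat_lit 1929739873) (nat_lit 532) (nat_lit 7951932436) (nat_lit 198) (nat_lit 5) (nat_lit 204) (nat_lit 5) (nat_lit 205) (nat_lit 5)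 (nat_lit 457) (nat_lit 422) (nat_lit 321))))) (XT.nd (nat_lit 312) (nat_lit 760) (nat_lit 0) (XT.nd (nat_lit 156) (nat_lit 532) (nat_lit 0) (XT.nd (nat_lit 78) (nat_lit 456) (nat_lit 0) (XT.lf (nat_lit 0) (nat_lit 8691509076) (nat_lit 532) (nat_lit 1805162910) (nat_lit 76) (nat_lit 3728903058) (nat_lit 198) (nat_lit 5) (nat_lit 205) (nat_lit 5) (nat_lit 199) (nat_lit 5) (nat_lit 458) (nat_lit 422) (nat_lit 320)) (XT.lf (nat_lit 0) (nat_lit 6602314332) (nat_lit 456) (nat_lit 4885991691) (nat_lit 532) (nat_lit 2976378079) (nat_lit 192) (nat_lit 5) (nat_lit 198) (nat_lit 5) (nat_lit 199) (nat_lit 5) (nat_lit 459) (nat_lit 422) (nat_lit 319))) (XT.nd (nat_lit 78) (nat_lit 76) (nat_lit 0) (XT.lf (nat_lit 0) (nat_lit 569627825) (nat_lit 456) (nat_lit 13814869129) (nat_lit 532) (nat_lit 326007929) (nat_lit 186) (nat_lit 5) (nat_lit 192) (nat_lit 5) (nat_lit 193) (nat_lit 5) (nat_lit 460) (nat_lit 422) (nat_lit 318)) (XT.lf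 (nat_lit 0) (nat_lit 2468666423) (nat_lit 532) (nat_lit 5639284771) (nat_lit 76) (nat_lit 6851707802) (nat_lit 185) (nat_lit 5) (nat_lit 192) (nat_lit 5) (nat_lit 186) (nat_lit 5) (nat_lit 461) (nat_lit 422) (nat_lit 317)))) (XT.nd (nat_lit 156) (nat_lit 380) (nat_lit 0) (XT.nd (nat_lit 78) (nat_lit 0) (nat_lit 0) (XT.lf (nat_lit 0) (nat_lit 3154862248) (nat_lit 380) (nat_lit 2199728292) (nat_lit 456) (nat_lit 9861184387) (nat_lit 180) (nat_lit 5) (nat_lit 185) (nat_lit 5) (nat_lit 186) (nat_lit 5) (nat_lit 462) (nat_lit 422) (nat_lit 316)) (XT.lf (nat_lit 0) (nat_lit 8405824314) (nat_lit 456) (nat_lit 3208413948) (nat_lit 76) (nat_lit 3862976917) (nat_lit 180) (nat_lit 5) (nat_lit 186) (nat_lit 5) (nat_lit 181) (nat_lit 5) (nat_lit 463) (nat_lit 422) (nat_lit 315))) (XT.nd (nat_lit 78) (nat_lit 0) (nat_lit 0) (XT.lf (nat_lit 0) (nat_lit 5984201611) (nat_lit 380) (nat_lit 5628036854) (nat_lit 456) (nat_lit 4132353594)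 (nat_lit 175) (nat_lit 5) (nat_lit 180) (nat_lit 5) (nat_lit 181) (nat_lit 5) (nat_lit 464) (nat_lit 422) (nat_lit 314)) (XT.lf (nat_lit 0) (nat_lit 14937288562) (nat_lit 456) (nat_lit 526812682) (nat_lit 76) (nat_lit 555218335) (nat_lit 175) (nat_lit 5) (nat_lit 181) (nat_lit 5) (nat_lit 176) (nat_lit 5) (nat_lit 465) (nat_lit 422) (nat_lit 313))))))) (XT.nd (nat_lit 1170) (nat_lit 2356) (nat_lit 0) (XT.nd (nat_lit 546) (nat_lit 1292) (nat_lit 0) (XT.nd (nat_lit 234) (nat_lit 1064) (nat_lit 0) (XT.nd (nat_lit 78) (nat_lit 380) (nat_lit 0) (XT.lf (nat_lit 0) (nat_lit 2148933526) (nat_lit 456) (nat_lit 7234249440) (nat_lit 76) (nat_lit 6914634656) (nat_lit 169) (nat_lit 5) (nat_lit 175) (nat_lit 5) (nat_lit 170) (nat_lit 5) (nat_lit 466) (nat_lit 422) (nat_lit 312)) (XT.nd (nat_lit 78) (nat_lit 0) (nat_lit 0) (XT.lf (nat_lit 0) (nat_lit 2383524334) (nat_lit 380) (nat_lit 3084941256) (nat_lit 456) (nat_lit 11115484447)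 (nat_lit 164) (nat_lit 5) (nat_lit 169) (nat_lit 5) (nat_lit 170) (nat_lit 5) (nat_lit 467) (nat_lit 422) (nat_lit 311)) (XT.lf (nat_lit 0) (nat_lit 8979355958) (nat_lit 456) (nat_lit 4492139056) (nat_lit 76) (nat_lit 3404420588) (nat_lit 164) (nat_lit 5) (nat_lit 170) (nat_lit 5) (nat_lit 165) (nat_lit 5) (nat_lit 468) (nat_lit 422) (nat_lit 310)))) (XT.nd (nat_lit 156) (nat_lit 760) (nat_lit 0) (XT.nd (nat_lit 78) (nat_lit 0) (nat_lit 0) (XT.lf (nat_lit 0) (nat_lit 5565689195) (nat_lit 304) (nat_lit 7099649824) (nat_lit 380) (nat_lit 4509210412) (nat_lit 160) (nat_lit 5) (nat_lit 164) (nat_lit 5) (nat_lit 165) (nat_lit 5) (nat_lit 469) (nat_lit 422) (nat_lit 309)) (XT.lf (nat_lit 0) (nat_lit 15997760896) (nat_lit 304) (nat_lit 495451387) (nat_lit 380) (nat_lit 987992885) (nat_lit 160) (nat_lit 5) (nat_lit 164) (nat_lit 5) (nat_lit 165) (nat_lit 5) (nat_lit 470) (nat_lit 422) (nat_lit 308))) (XT.nd (nat_lit 78)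 (nat_lit 304) (nat_lit 0) (XT.lf (nat_lit 0) (nat_lit 2722541814) (nat_lit 456) (nat_lit 8777549971) (nat_lit 76) (nat_lit 6292154656) (nat_lit 154) (nat_lit 5) (nat_lit 160) (nat_lit 5) (nat_lit 155) (nat_lit 5) (nat_lit 471) (nat_lit 422) (nat_lit 307)) (XT.lf (nat_lit 0) (nat_lit 1745803426) (nat_lit 304) (nat_lit 4801932451) (nat_lit 380) (nat_lit 11563895607) (nat_lit 150) (nat_lit 5) (nat_lit 154) (nat_lit 5) (nat_lit 155) (nat_lit 5) (nat_lit 472) (nat_lit 422) (nat_lit 306))))) (XT.nd (nat_lit 312) (nat_lit 608) (nat_lit 0) (XT.nd (nat_lit 156) (nat_lit 380) (nat_lit 0) (XT.nd (nat_lit 78) (nat_lit 304) (nat_lit 0) (XT.lf (nat_lit 0) (nat_lit 10583899440) (nat_lit 380) (nat_lit 5713793019) (nat_lit 76) (nat_lit 2140021174) (nat_lit 150) (nat_lit 5) (nat_lit 155) (nat_lit 5) (nat_lit 151) (nat_lit 5) (nat_lit 473) (nat_lit 422) (nat_lit 305)) (XT.lf (nat_lit 0) (nat_lit 5294540036) (nat_lit 304) (nat_lit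 9531978885) (nat_lit 380) (nat_lit 3944500104) (nat_lit 146) (nat_lit 5) (nat_lit 150) (nat_lit 5) (nat_lit 151) (nat_lit 5) (nat_lit 474) (nat_lit 422) (nat_lit 304))) (XT.nd (nat_lit 78) (nat_lit 304) (nat_lit 0) (XT.lf (nat_lit 0) (nat_lit 125763812) (nat_lit 380) (nat_lit 2382811343) (nat_lit 76) (nat_lit 16604368377) (nat_lit 145) (nat_lit 5) (nat_lit 150) (nat_lit 5) (nat_lit 146) (nat_lit 5) (nat_lit 475) (nat_lit 422) (nat_lit 303)) (XT.lf (nat_lit 0) (nat_lit 4360961844) (nat_lit 380) (nat_lit 10343417979) (nat_lit 76) (nat_lit 4755912862) (nat_lit 141) (nat_lit 5) (nat_lit 146) (nat_lit 5) (nat_lit 142) (nat_lit 5) (nat_lit 476) (nat_lit 422) (nat_lit 302)))) (XT.nd (nat_lit 156) (nat_lit 304) (nat_lit 0) (XT.nd (nat_lit 78) (nat_lit 0) (nat_lit 0) (XT.lf (nat_lit 0) (nat_lit 1172166242) (nat_lit 304) (nat_lit 7598969831) (nat_lit 380) (nat_lit 11045490327) (nat_lit 137) (nat_lit 5) (nat_lit 141) (nat_lit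 5) (nat_lit 142) (nat_lit 5) (nat_lit 477) (nat_lit 422) (nat_lit 301)) (XT.lf (nat_lit 0) (nat_lit 13226743628) (nat_lit 304) (nat_lit 179021240) (nat_lit 380) (nat_lit 6775122425) (nat_lit 137) (nat_lit 5) (nat_lit 141) (nat_lit 5) (nat_lit 142) (nat_lit 5) (nat_lit 478) (nat_lit 422) (nat_lit 300))) (XT.nd (nat_lit 78) (nat_lit 76) (nat_lit 0) (XT.lf (nat_lit 0) (nat_lit 5096318641) (nat_lit 228) (nat_lit 13191848201) (nat_lit 304) (nat_lit 2264648740) (nat_lit 134) (nat_lit 5) (nat_lit 137) (nat_lit 5) (nat_lit 138) (nat_lit 5) (nat_lit 479) (nat_lit 422) (nat_lit 299)) (XT.lf (nat_lit 0) (nat_lit 2395423960) (nat_lit 304) (nat_lit 3326631124) (nat_lit 76) (nat_lit 15211338990) (nat_lit 133) (nat_lit 5) (nat_lit 137) (nat_lit 5) (nat_lit 134) (nat_lit 5) (nat_lit 480) (nat_lit 422) (nat_lit 298)))))) (XT.nd (nat_lit 546) (nat_lit 1216) (nat_lit 0) (XT.nd (nat_lit 234) (nat_lit 608) (nat_lit 0) (XT.nd (nat_lit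 78) (nat_lit 228) (nat_lit 0) (XT.lf (nat_lit 0) (nat_lit 7247670238) (nat_lit 380) (nat_lit 12033826544) (nat_lit 76) (nat_lit 2040285276) (nat_lit 129) (nat_lit 5) (nat_lit 134) (nat_lit 5) (nat_lit 130) (nat_lit 5) (nat_lit 481) (nat_lit 422) (nat_lit 297)) (XT.nd (nat_lit 78) (nat_lit 0) (nat_lit 0) (XT.lf (nat_lit 0) (nat_lit 564483305) (nat_lit 228) (nat_lit 11765520836) (nat_lit 304) (nat_lit 9389283354) (nat_lit 126) (nat_lit 5) (nat_lit 129) (nat_lit 5) (nat_lit 130) (nat_lit 5) (nat_lit 482) (nat_lit 422) (nat_lit 296)) (XT.lf (nat_lit 0) (nat_lit 13769695915) (nat_lit 228) (nat_lit 3905309317) (nat_lit 304) (nat_lit 4450408326) (nat_lit 126) (nat_lit 5) (nat_lit 129) (nat_lit 5) (nat_lit 130) (nat_lit 5) (nat_lit 483) (nat_lit 422) (nat_lit 295)))) (XT.nd (nat_lit 156) (nat_lit 228) (nat_lit 0) (XT.nd (nat_lit 78) (nat_lit 0) (nat_lit 0) (XT.lf (nat_lit 0) (nat_lit 700954293) (nat_lit 380) (nat_lit 17683818413)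 (nat_lit 76) (nat_lit 4156466074) (nat_lit 121) (nat_lit 5) (nat_lit 126) (nat_lit 5) (nat_lit 122) (nat_lit 5) (nat_lit 484) (nat_lit 422) (nat_lit 294)) (XT.lf (nat_lit 0) (nat_lit 6030282559) (nat_lit 380) (nat_lit 4429868193) (nat_lit 76) (nat_lit 12504681159) (nat_lit 121) (nat_lit 5) (nat_lit 126) (nat_lit 5) (nat_lit 122) (nat_lit 5) (nat_lit 485) (nat_lit 422) (nat_lit 293))) (XT.nd (nat_lit 78) (nat_lit 0) (nat_lit 0) (XT.lf (nat_lit 0) (nat_lit 9387870362) (nat_lit 228) (nat_lit 2211178154) (nat_lit 304) (nat_lit 11799698809) (nat_lit 118) (nat_lit 5) (nat_lit 121) (nat_lit 5) (nat_lit 122) (nat_lit 5) (nat_lit 486) (nat_lit 422) (nat_lit 292)) (XT.lf (nat_lit 0) (nat_lit 17429875451) (nat_lit 304) (nat_lit 211360832) (nat_lit 76) (nat_lit 6201595168) (nat_lit 118) (nat_lit 5) (nat_lit 122) (nat_lit 5) (nat_lit 119) (nat_lit 5) (nat_lit 487) (nat_lit 422) (nat_lit 291))))) (XT.nd (nat_lit 312) (nat_lit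 456) (nat_lit 0) (XT.nd (nat_lit 156) (nat_lit 228) (nat_lit 0) (XT.nd (nat_lit 78) (nat_lit 304) (nat_lit 0) (XT.lf (nat_lit 0) (nat_lit 14241539080) (nat_lit 228) (nat_lit 9342592279) (nat_lit 304) (nat_lit 711652770) (nat_lit 115) (nat_lit 5) (nat_lit 118) (nat_lit 5) (nat_lit 119) (nat_lit 5) (nat_lit 488) (nat_lit 422) (nat_lit 290)) (XT.lf (nat_lit 0) (nat_lit 4389468084) (nat_lit 228) (nat_lit 704620419) (nat_lit 304) (nat_lit 19665726664) (nat_lit 111) (nat_lit 5) (nat_lit 114) (nat_lit 5) (nat_lit 115) (nat_lit 5) (nat_lit 489) (nat_lit 422) (nat_lit 289))) (XT.nd (nat_lit 78) (nat_lit 228) (nat_lit 0) (XT.lf (nat_lit 0) (nat_lit 11230814564) (nat_lit 304) (nat_lit 5865663393) (nat_lit 76) (nat_lit 8135945374) (nat_lit 111) (nat_lit 5) (nat_lit 115) (nat_lit 5) (nat_lit 112) (nat_lit 5) (nat_lit 490) (nat_lit 422) (nat_lit 288)) (XT.lf (nat_lit 0) (nat_lit 9231068827) (nat_lit 228) (nat_lit 8406412311)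 (nat_lit 304) (nat_lit 8079154464) (nat_lit 108) (nat_lit 5) (nat_lit 111) (nat_lit 5) (nat_lit 112) (nat_lit 5) (nat_lit 491) (nat_lit 422) (nat_lit 287)))) (XT.nd (nat_lit 156) (nat_lit 228) (nat_lit 0) (XT.nd (nat_lit 78) (nat_lit 228) (nat_lit 0) (XT.lf (nat_lit 0) (nat_lit 24291598029) (nat_lit 304) (nat_lit 1334792873) (nat_lit 76) (nat_lit 587326826) (nat_lit 108) (nat_lit 5) (nat_lit 112) (nat_lit 5) (nat_lit 109) (nat_lit 5) (nat_lit 492) (nat_lit 422) (nat_lit 286)) (XT.lf (nat_lit 0) (nat_lit 4548140119) (nat_lit 228) (nat_lit 12310456164) (nat_lit 76) (nat_lit 9859399744) (nat_lit 105) (nat_lit 5) (nat_lit 108) (nat_lit 5) (nat_lit 106) (nat_lit 5) (nat_lit 493) (nat_lit 422) (nat_lit 285))) (XT.nd (nat_lit 78) (nat_lit 0) (nat_lit 0) (XT.lf (nat_lit 0) (nat_lit 3444681233) (nat_lit 228) (nat_lit 7766435812) (nat_lit 304) (nat_lit 16024598354) (nat_lit 102) (nat_lit 5) (nat_lit 105) (nat_lit 5) (nat_lit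 106) (nat_lit 5) (nat_lit 494) (nat_lit 422) (nat_lit 284)) (XT.lf (nat_lit 0) (nat_lit 18205472465) (nat_lit 304) (nat_lit 7872951965) (nat_lit 76) (nat_lit 1686598131) (nat_lit 102) (nat_lit 5) (nat_lit 106) (nat_lit 5) (nat_lit 103) (nat_lit 5) (nat_lit 495) (nat_lit 422) (nat_lit 283))))))))
noncomputable def xc149 : XT := (XT.nd (nat_lit 2340) (nat_lit 1596) (nat_lit 0) (XT.nd (nat_lit 1170) (nat_lit 1368) (nat_lit 0) (XT.nd (nat_lit 546) (nat_lit 912) (nat_lit 0) (XT.nd (nat_lit 234) (nat_lit 456) (nat_lit 0) (XT.nd (nat_lit 78) (nat_lit 304) (nat_lit 0) (XT.lf (nat_lit 0) (nat_lit 8598077608) (nat_lit 152) (nat_lit 16961981908) (nat_lit 228) (nat_lit 2745638252) (nat_lit 100) (nat_lit 5) (nat_lit 102) (nat_lit 5) (nat_lit 103) (nat_lit 5) (nat_lit 496) (nat_lit 422) (nat_lit 282)) (XT.nd (nat_lit 78) (nat_lit 228) (nat_lit 0) (XT.lf (nat_lit 0) (nat_lit 4260488288) (nat_lit 228) (nat_lit 3192950811) (nat_lit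 76) (nat_lit 21405787604) (nat_lit 99) (nat_lit 5) (nat_lit 102) (nat_lit 5) (nat_lit 100) (nat_lit 5) (nat_lit 497) (nat_lit 422) (nat_lit 281)) (XT.lf (nat_lit 0) (nat_lit 11571855690) (nat_lit 304) (nat_lit 15399740337) (nat_lit 76) (nat_lit 2452443476) (nat_lit 96) (nat_lit 5) (nat_lit 100) (nat_lit 5) (nat_lit 97) (nat_lit 5) (nat_lit 498) (nat_lit 422) (nat_lit 280)))) (XT.nd (nat_lit 156) (nat_lit 304) (nat_lit 0) (XT.nd (nat_lit 78) (nat_lit 0) (nat_lit 0) (XT.lf (nat_lit 0) (nat_lit 1763879841) (nat_lit 152) (nat_lit 17453202970) (nat_lit 228) (nat_lit 10785279081) (nat_lit 94) (nat_lit 5) (nat_lit 96) (nat_lit 5) (nat_lit 97) (nat_lit 5) (nat_lit 499) (nat_lit 422) (nat_lit 279)) (XT.lf (nat_lit 0) (nat_lit 19743122639) (nat_lit 152) (nat_lit 7495368597) (nat_lit 228) (nat_lit 3355138721) (nat_lit 94) (nat_lit 5) (nat_lit 96) (nat_lit 5) (nat_lit 97) (nat_lit 5) (nat_lit 500) (nat_lit 422) (nat_lit 278)))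 (XT.nd (nat_lit 78) (nat_lit 0) (nat_lit 0) (XT.lf (nat_lit 0) (nat_lit 4301753751) (nat_lit 304) (nat_lit 24084696733) (nat_lit 76) (nat_lit 2812315391) (nat_lit 90) (nat_lit 5) (nat_lit 94) (nat_lit 5) (nat_lit 91) (nat_lit 5) (nat_lit 501) (nat_lit 422) (nat_lit 277)) (XT.lf (nat_lit 0) (nat_lit 12297318271) (nat_lit 304) (nat_lit 6102026192) (nat_lit 76) (nat_lit 13416423503) (nat_lit 90) (nat_lit 5) (nat_lit 94) (nat_lit 5) (nat_lit 91) (nat_lit 5) (nat_lit 502) (nat_lit 422) (nat_lit 276))))) (XT.nd (nat_lit 312) (nat_lit 380) (nat_lit 0) (XT.nd (nat_lit 156) (nat_lit 380) (nat_lit 0) (XT.nd (nat_lit 78) (nat_lit 0) (nat_lit 0) (XT.lf (nat_lit 0) (nat_lit 12652704455) (nat_lit 152) (nat_lit 7993452341) (nat_lit 228) (nat_lit 11801721770) (nat_lit 88) (nat_lit 5) (nat_lit 90) (nat_lit 5) (nat_lit 91) (nat_lit 5) (nat_lit 503) (nat_lit 422) (nat_lit 275)) (XT.lf (nat_lit 0) (nat_lit 29325706055) (nat_lit 228)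 (nat_lit 1043107382) (nat_lit 76) (nat_lit 2727732316) (nat_lit 88) (nat_lit 5) (nat_lit 91) (nat_lit 5) (nat_lit 89) (nat_lit 5) (nat_lit 504) (nat_lit 422) (nat_lit 274))) (XT.nd (nat_lit 78) (nat_lit 152) (nat_lit 0) (XT.lf (nat_lit 0) (nat_lit 4665035079) (nat_lit 228) (nat_lit 15262708573) (nat_lit 76) (nat_lit 13828075038) (nat_lit 85) (nat_lit 5) (nat_lit 88) (nat_lit 5) (nat_lit 86) (nat_lit 5) (nat_lit 505) (nat_lit 422) (nat_lit 273)) (XT.lf (nat_lit 0) (nat_lit 4233445191) (nat_lit 152) (nat_lit 9088167438) (nat_lit 228) (nat_lit 21110835216) (nat_lit 83) (nat_lit 5) (nat_lit 85) (nat_lit 5) (nat_lit 86) (nat_lit 5) (nat_lit 506) (nat_lit 422) (nat_lit 272)))) (XT.nd (nat_lit 156) (nat_lit 228) (nat_lit 0) (XT.nd (nat_lit 78) (nat_lit 152) (nat_lit 0) (XT.lf (nat_lit 0) (nat_lit 22405622787) (nat_lit 228) (nat_lit 10532894126) (nat_lit 76) (nat_lit 2185827472) (nat_lit 83) (nat_lit 5) (nat_lit 86) (nat_lit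 5) (nat_lit 84) (nat_lit 5) (nat_lit 507) (nat_lit 422) (nat_lit 271)) (XT.lf (nat_lit 0) (nat_lit 9811064426) (nat_lit 152) (nat_lit 22127734384) (nat_lit 228) (nat_lit 3892900197) (nat_lit 81) (nat_lit 5) (nat_lit 83) (nat_lit 5) (nat_lit 84) (nat_lit 5) (nat_lit 508) (nat_lit 422) (nat_lit 270))) (XT.nd (nat_lit 78) (nat_lit 152) (nat_lit 0) (XT.lf (nat_lit 0) (nat_lit 5196056438) (nat_lit 228) (nat_lit 5640463776) (nat_lit 76) (nat_lit 25719262078) (nat_lit 80) (nat_lit 5) (nat_lit 83) (nat_lit 5) (nat_lit 81) (nat_lit 5) (nat_lit 509) (nat_lit 422) (nat_lit 269)) (XT.lf (nat_lit 0) (nat_lit 14631463526) (nat_lit 228) (nat_lit 21701759708) (nat_lit 76) (nat_lit 962648285) (nat_lit 78) (nat_lit 5) (nat_lit 81) (nat_lit 5) (nat_lit 79) (nat_lit 5) (nat_lit 510) (nat_lit 422) (nat_lit 268)))))) (XT.nd (nat_lit 546) (nat_lit 608) (nat_lit 0) (XT.nd (nat_lit 234) (nat_lit 380) (nat_lit 0) (XT.nd (nat_lit 78) (nat_lit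 380) (nat_lit 0) (XT.lf (nat_lit 0) (nat_lit 24507374867) (nat_lit 228) (nat_lit 596219967) (nat_lit 76) (nat_lit 12949845817) (nat_lit 78) (nat_lit 5) (nat_lit 81) (nat_lit 5) (nat_lit 79) (nat_lit 5) (nat_lit 511) (nat_lit 422) (nat_lit 267)) (XT.nd (nat_lit 78) (nat_lit 228) (nat_lit 0) (XT.lf (nat_lit 0) (nat_lit 21550135167) (nat_lit 152) (nat_lit 13329424374) (nat_lit 228) (nat_lit 3948177911) (nat_lit 76) (nat_lit 5) (nat_lit 78) (nat_lit 5) (nat_lit 79) (nat_lit 5) (nat_lit 512) (nat_lit 422) (nat_lit 266)) (XT.lf (nat_lit 0) (nat_lit 4771097799) (nat_lit 152) (nat_lit 1095485292) (nat_lit 228) (nat_lit 33755624186) (nat_lit 73) (nat_lit 5) (nat_lit 75) (nat_lit 5) (nat_lit 76) (nat_lit 5) (nat_lit 513) (nat_lit 422) (nat_lit 265)))) (XT.nd (nat_lit 156) (nat_lit 228) (nat_lit 0) (XT.nd (nat_lit 78) (nat_lit 152) (nat_lit 0) (XT.lf (nat_lit 0) (nat_lit 16176116305) (nat_lit 228) (nat_lit 12764179106) (nat_lit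 76) (nat_lit 11490652977) (nat_lit 73) (nat_lit 5) (nat_lit 76) (nat_lit 5) (nat_lit 74) (nat_lit 5) (nat_lit 514) (nat_lit 422) (nat_lit 264)) (XT.lf (nat_lit 0) (nat_lit 10160232932) (nat_lit 152) (nat_lit 16736311350) (nat_lit 228) (nat_lit 14364359613) (nat_lit 71) (nat_lit 5) (nat_lit 73) (nat_lit 5) (nat_lit 74) (nat_lit 5) (nat_lit 515) (nat_lit 422) (nat_lit 263))) (XT.nd (nat_lit 78) (nat_lit 228) (nat_lit 0) (XT.lf (nat_lit 0) (nat_lit 34021610863) (nat_lit 152) (nat_lit 4039045123) (nat_lit 228) (nat_lit 4051440364) (nat_lit 71) (nat_lit 5) (nat_lit 73) (nat_lit 5) (nat_lit 74) (nat_lit 5) (nat_lit 516) (nat_lit 422) (nat_lit 262)) (XT.lf (nat_lit 0) (nat_lit 6677226282) (nat_lit 228) (nat_lit 27227710927) (nat_lit 76) (nat_lit 9074955427) (nat_lit 68) (nat_lit 5) (nat_lit 71) (nat_lit 5) (nat_lit 69) (nat_lit 5) (nat_lit 517) (nat_lit 422) (nat_lit 261))))) (XT.nd (nat_lit 312) (nat_lit 304) (nat_lit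 0) (XT.nd (nat_lit 156) (nat_lit 152) (nat_lit 0) (XT.nd (nat_lit 78) (nat_lit 152) (nat_lit 0) (XT.lf (nat_lit 0) (nat_lit 17762157212) (nat_lit 228) (nat_lit 3488426727) (nat_lit 76) (nat_lit 22618460823) (nat_lit 68) (nat_lit 5) (nat_lit 71) (nat_lit 5) (nat_lit 69) (nat_lit 5) (nat_lit 518) (nat_lit 422) (nat_lit 260)) (XT.lf (nat_lit 0) (nat_lit 21368143212) (nat_lit 152) (nat_lit 8010427342) (nat_lit 228) (nat_lit 15400333227) (nat_lit 66) (nat_lit 5) (nat_lit 68) (nat_lit 5) (nat_lit 69) (nat_lit 5) (nat_lit 519) (nat_lit 422) (nat_lit 259))) (XT.nd (nat_lit 78) (nat_lit 76) (nat_lit 0) (XT.lf (nat_lit 0) (nat_lit 1285681112) (nat_lit 76) (nat_lit 40153373400) (nat_lit 152) (nat_lit 4274137066) (nat_lit 65) (nat_lit 5) (nat_lit 66) (nat_lit 5) (nat_lit 67) (nat_lit 4) (nat_lit 520) (nat_lit 422) (nat_lit 258)) (XT.lf (nat_lit 0) (nat_lit 7357243876) (nat_lit 152) (nat_lit 19628127252) (nat_lit 76) (nat_lit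 19678716355) (nat_lit 64) (nat_lit 5) (nat_lit 66) (nat_lit 5) (nat_lit 65) (nat_lit 5) (nat_lit 521) (nat_lit 422) (nat_lit 257)))) (XT.nd (nat_lit 156) (nat_lit 152) (nat_lit 0) (XT.nd (nat_lit 78) (nat_lit 0) (nat_lit 0) (XT.lf (nat_lit 0) (nat_lit 5978020041) (nat_lit 152) (nat_lit 13324858120) (nat_lit 228) (nat_lit 28337826347) (nat_lit 62) (nat_lit 5) (nat_lit 64) (nat_lit 5) (nat_lit 65) (nat_lit 5) (nat_lit 522) (nat_lit 422) (nat_lit 256)) (XT.lf (nat_lit 0) (nat_lit 31807990254) (nat_lit 228) (nat_lit 15906666733) (nat_lit 76) (nat_lit 925930109) (nat_lit 62) (nat_lit 5) (nat_lit 65) (nat_lit 5) (nat_lit 63) (nat_lit 4) (nat_lit 523) (nat_lit 422) (nat_lit 255))) (XT.nd (nat_lit 78) (nat_lit 76) (nat_lit 0) (XT.lf (nat_lit 0) (nat_lit 10687415689) (nat_lit 76) (nat_lit 34229459432) (nat_lit 152) (nat_lit 4746732761) (nat_lit 61) (nat_lit 5) (nat_lit 62) (nat_lit 5) (nat_lit 63) (nat_lit 4) (nat_lit 524)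 (nat_lit 422) (nat_lit 254)) (XT.lf (nat_lit 0) (nat_lit 7707601477) (nat_lit 152) (nat_lit 12393979480) (nat_lit 76) (nat_lit 30608832150) (nat_lit 60) (nat_lit 5) (nat_lit 62) (nat_lit 5) (nat_lit 61) (nat_lit 5) (nat_lit 525) (nat_lit 422) (nat_lit 253))))))) (XT.nd (nat_lit 1170) (nat_lit 456) (nat_lit 0) (XT.nd (nat_lit 546) (nat_lit 608) (nat_lit 0) (XT.nd (nat_lit 234) (nat_lit 304) (nat_lit 0) (XT.nd (nat_lit 78) (nat_lit 76) (nat_lit 0) (XT.lf (nat_lit 0) (nat_lit 15224875239) (nat_lit 152) (nat_lit 5355778224) (nat_lit 228) (nat_lit 31202344613) (nat_lit 58) (nat_lit 5) (nat_lit 60) (nat_lit 5) (nat_lit 61) (nat_lit 5) (nat_lit 526) (nat_lit 422) (nat_lit 252)) (XT.nd (nat_lit 78) (nat_lit 76) (nat_lit 0) (XT.lf (nat_lit 0) (nat_lit 34054966068) (nat_lit 228) (nat_lit 9064337996) (nat_lit 76) (nat_lit 9762004731) (nat_lit 58) (nat_lit 5) (nat_lit 61) (nat_lit 5) (nat_lit 59) (nat_lit 4) (nat_lit 527)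 (nat_lit 422) (nat_lit 251)) (XT.lf (nat_lit 0) (nat_lit 19572544412) (nat_lit 76) (nat_lit 28596464491) (nat_lit 152) (nat_lit 5836495168) (nat_lit 57) (nat_lit 5) (nat_lit 58) (nat_lit 5) (nat_lit 59) (nat_lit 4) (nat_lit 528) (nat_lit 422) (nat_lit 250)))) (XT.nd (nat_lit 156) (nat_lit 76) (nat_lit 0) (XT.nd (nat_lit 78) (nat_lit 152) (nat_lit 0) (XT.lf (nat_lit 0) (nat_lit 7482632470) (nat_lit 152) (nat_lit 5990378682) (nat_lit 76) (nat_lit 41685635751) (nat_lit 56) (nat_lit 5) (nat_lit 58) (nat_lit 5) (nat_lit 57) (nat_lit 5) (nat_lit 529) (nat_lit 422) (nat_lit 249)) (XT.lf (nat_lit 0) (nat_lit 21329354599) (nat_lit 228) (nat_lit 32661145399) (nat_lit 76) (nat_lit 2346790798) (nat_lit 54) (nat_lit 5) (nat_lit 57) (nat_lit 5) (nat_lit 55) (nat_lit 4) (nat_lit 530) (nat_lit 422) (nat_lit 248))) (XT.nd (nat_lit 78) (nat_lit 76) (nat_lit 0) (XT.lf (nat_lit 0) (nat_lit 35780483740) (nat_lit 228) (nat_lit 3338346964)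 (nat_lit 76) (nat_lit 18426793374) (nat_lit 54) (nat_lit 5) (nat_lit 57) (nat_lit 5) (nat_lit 55) (nat_lit 4) (nat_lit 531) (nat_lit 422) (nat_lit 247)) (XT.lf (nat_lit 0) (nat_lit 27388551002) (nat_lit 76) (nat_lit 23534550092) (nat_lit 152) (nat_lit 7859367861) (nat_lit 53) (nat_lit 5) (nat_lit 54) (nat_lit 5) (nat_lit 55) (nat_lit 4) (nat_lit 532) (nat_lit 422) (nat_lit 246))))) (XT.nd (nat_lit 312) (nat_lit 304) (nat_lit 0) (XT.nd (nat_lit 156) (nat_lit 76) (nat_lit 0) (XT.nd (nat_lit 78) (nat_lit 152) (nat_lit 0) (XT.lf (nat_lit 0) (nat_lit 6366180636) (nat_lit 152) (nat_lit 1022226046) (nat_lit 76) (nat_lit 52665286840) (nat_lit 52) (nat_lit 5) (nat_lit 54) (nat_lit 5) (nat_lit 53) (nat_lit 5) (nat_lit 533) (nat_lit 422) (nat_lit 245)) (XT.lf (nat_lit 0) (nat_lit 21243681201) (nat_lit 228) (nat_lit 30670941866) (nat_lit 76) (nat_lit 9434602968) (nat_lit 50) (nat_lit 5) (nat_lit 53) (nat_lit 5) (nat_lit 51)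 (nat_lit 4) (nat_lit 534) (nat_lit 422) (nat_lit 244))) (XT.nd (nat_lit 78) (nat_lit 0) (nat_lit 0) (XT.lf (nat_lit 0) (nat_lit 596063309) (nat_lit 76) (nat_lit 36055604923) (nat_lit 152) (nat_lit 26029431648) (nat_lit 49) (nat_lit 5) (nat_lit 50) (nat_lit 5) (nat_lit 51) (nat_lit 4) (nat_lit 535) (nat_lit 422) (nat_lit 243)) (XT.lf (nat_lit 0) (nat_lit 33420135829) (nat_lit 76) (nat_lit 19406386865) (nat_lit 152) (nat_lit 11217268609) (nat_lit 49) (nat_lit 5) (nat_lit 50) (nat_lit 5) (nat_lit 51) (nat_lit 4) (nat_lit 536) (nat_lit 422) (nat_lit 242)))) (XT.nd (nat_lit 156) (nat_lit 76) (nat_lit 0) (XT.nd (nat_lit 78) (nat_lit 0) (nat_lit 0) (XT.lf (nat_lit 0) (nat_lit 1767749412) (nat_lit 152) (nat_lit 2204692653) (nat_lit 228) (nat_lit 61473396655) (nat_lit 46) (nat_lit 5) (nat_lit 48) (nat_lit 5) (nat_lit 49) (nat_lit 5) (nat_lit 537) (nat_lit 422) (nat_lit 241)) (XT.lf (nat_lit 0) (nat_lit 19848832412) (nat_lit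 228) (nat_lit 31394761163) (nat_lit 76) (nat_lit 15629328973) (nat_lit 46) (nat_lit 5) (nat_lit 49) (nat_lit 5) (nat_lit 47) (nat_lit 4) (nat_lit 538) (nat_lit 422) (nat_lit 240))) (XT.nd (nat_lit 78) (nat_lit 0) (nat_lit 0) (XT.lf (nat_lit 0) (nat_lit 1862358792) (nat_lit 76) (nat_lit 34374054164) (nat_lit 152) (nat_lit 32105359153) (nat_lit 45) (nat_lit 5) (nat_lit 46) (nat_lit 5) (nat_lit 47) (nat_lit 4) (nat_lit 539) (nat_lit 422) (nat_lit 239)) (XT.lf (nat_lit 0) (nat_lit 36751623851) (nat_lit 76) (nat_lit 16676243292) (nat_lit 152) (nat_lit 16417452797) (nat_lit 45) (nat_lit 5) (nat_lit 46) (nat_lit 5) (nat_lit 47) (nat_lit 4) (nat_lit 540) (nat_lit 422) (nat_lit 238)))))) (XT.nd (nat_lit 624) (nat_lit 0) (nat_lit 0) (XT.nd (nat_lit 312) (nat_lit 228) (nat_lit 0) (XT.nd (nat_lit 156) (nat_lit 76) (nat_lit 0) (XT.nd (nat_lit 78) (nat_lit 76) (nat_lit 0) (XT.lf (nat_lit 0) (nat_lit 1294975543) (nat_lit 76)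 (nat_lit 69862780401) (nat_lit 76) (nat_lit 235537696) (nat_lit 44) (nat_lit 4) (nat_lit 45) (nat_lit 5) (nat_lit 45) (nat_lit 4) (nat_lit 541) (nat_lit 422) (nat_lit 237)) (XT.lf (nat_lit 0) (nat_lit 16609116376) (nat_lit 152) (nat_lit 35919326840) (nat_lit 76) (nat_lit 20439587130) (nat_lit 43) (nat_lit 5) (nat_lit 45) (nat_lit 5) (nat_lit 44) (nat_lit 4) (nat_lit 542) (nat_lit 422) (nat_lit 236))) (XT.nd (nat_lit 78) (nat_lit 76) (nat_lit 0) (XT.lf (nat_lit 0) (nat_lit 33949836497) (nat_lit 152) (nat_lit 726005170) (nat_lit 76) (nat_lit 39914233860) (nat_lit 43) (nat_lit 5) (nat_lit 45) (nat_lit 5) (nat_lit 44) (nat_lit 4) (nat_lit 543) (nat_lit 422) (nat_lit 235)) (XT.lf (nat_lit 0) (nat_lit 36221473911) (nat_lit 76) (nat_lit 15933079995) (nat_lit 152) (nat_lit 24095915033) (nat_lit 42) (nat_lit 5) (nat_lit 43) (nat_lit 5) (nat_lit 44) (nat_lit 4) (nat_lit 544) (nat_lit 422) (nat_lit 234)))) (XT.nd (nat_lit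 156) (nat_lit 76) (nat_lit 0) (XT.nd (nat_lit 78) (nat_lit 152) (nat_lit 0) (XT.lf (nat_lit 0) (nat_lit 70940832098) (nat_lit 152) (nat_lit 3709143572) (nat_lit 0) (nat_lit 3309636046) (nat_lit 42) (nat_lit 5) (nat_lit 44) (nat_lit 4) (nat_lit 42) (nat_lit 4) (nat_lit 545) (nat_lit 422) (nat_lit 233)) (XT.lf (nat_lit 0) (nat_lit 10851424045) (nat_lit 152) (nat_lit 45610215377) (nat_lit 76) (nat_lit 23240730355) (nat_lit 40) (nat_lit 5) (nat_lit 42) (nat_lit 5) (nat_lit 41) (nat_lit 4) (nat_lit 546) (nat_lit 422) (nat_lit 232))) (XT.nd (nat_lit 78) (nat_lit 76) (nat_lit 0) (XT.lf (nat_lit 0) (nat_lit 29150223581) (nat_lit 152) (nat_lit 8470846629) (nat_lit 76) (nat_lit 43873248906) (nat_lit 40) (nat_lit 5) (nat_lit 42) (nat_lit 5) (nat_lit 41) (nat_lit 4) (nat_lit 547) (nat_lit 422) (nat_lit 231)) (XT.lf (nat_lit 0) (nat_lit 30367296858) (nat_lit 76) (nat_lit 17918457881) (nat_lit 152) (nat_lit 35045639291) (nat_lit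 39) (nat_lit 5) (nat_lit 40) (nat_lit 5) (nat_lit 41) (nat_lit 4) (nat_lit 548) (nat_lit 422) (nat_lit 230))))) (XT.nd (nat_lit 52884) (nat_lit 0) (nat_lit 20368) (XT.nd (nat_lit 52728) (nat_lit 0) (nat_lit 21432) (XT.nd (nat_lit 52650) (nat_lit 0) (nat_lit 21432) (XT.lf (nat_lit 0) (nat_lit 68100436550) (nat_lit 152) (nat_lit 14708455277) (nat_lit 0) (nat_lit 2411536947) (nat_lit 39) (nat_lit 5) (nat_lit 41) (nat_lit 4) (nat_lit 39) (nat_lit 4) (nat_lit 549) (nat_lit 422) (nat_lit 229)) (XT.lf (nat_lit 0) (nat_lit 1500875660) (nat_lit 0) (nat_lit 1500875660) (nat_lit 988) (nat_lit 1347731123) (nat_lit 321) (nat_lit 5) (nat_lit 321) (nat_lit 3) (nat_lit 334) (nat_lit 3) (nat_lit 423) (nat_lit 423) (nat_lit 354))) (XT.nd (nat_lit 78) (nat_lit 0) (nat_lit 0) (XT.lf (nat_lit 0) (nat_lit 7063809630) (nat_lit 988) (nat_lit 1422153647) (nat_lit 1064) (nat_lit 314122499) (nat_lit 321) (nat_lit 5) (nat_lit 334) (nat_lit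 3) (nat_lit 335) (nat_lit 5) (nat_lit 424) (nat_lit 423) (nat_lit 353)) (XT.lf (nat_lit 76) (nat_lit 2989578346) (nat_lit 0) (nat_lit 5187240739) (nat_lit 1064) (nat_lit 726804396) (nat_lit 322) (nat_lit 5) (nat_lit 321) (nat_lit 5) (nat_lit 335) (nat_lit 5) (nat_lit 425) (nat_lit 423) (nat_lit 352)))) (XT.nd (nat_lit 156) (nat_lit 0) (nat_lit 76) (XT.nd (nat_lit 78) (nat_lit 0) (nat_lit 76) (XT.lf (nat_lit 0) (nat_lit 284312505) (nat_lit 1064) (nat_lit 1470917244) (nat_lit 1140) (nat_lit 7255632702) (nat_lit 307) (nat_lit 5) (nat_lit 321) (nat_lit 5) (nat_lit 322) (nat_lit 5) (nat_lit 426) (nat_lit 423) (nat_lit 351)) (XT.lf (nat_lit 0) (nat_lit 1323006371) (nat_lit 1064) (nat_lit 5999486381) (nat_lit 1140) (nat_lit 1798263552) (nat_lit 308) (nat_lit 5) (nat_lit 322) (nat_lit 5) (nat_lit 323) (nat_lit 5) (nat_lit 427) (nat_lit 423) (nat_lit 350))) (XT.nd (nat_lit 78) (nat_lit 0) (nat_lit 0) (XT.lf (nat_lit 0)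 (nat_lit 2390284640) (nat_lit 1064) (nat_lit 1390803134) (nat_lit 1140) (nat_lit 5452945365) (nat_lit 308) (nat_lit 5) (nat_lit 322) (nat_lit 5) (nat_lit 323) (nat_lit 5) (nat_lit 428) (nat_lit 423) (nat_lit 349)) (XT.lf (nat_lit 76) (nat_lit 3401990499) (nat_lit 0) (nat_lit 86355521) (nat_lit 1140) (nat_lit 5862407934) (nat_lit 309) (nat_lit 5) (nat_lit 308) (nat_lit 5) (nat_lit 323) (nat_lit 5) (nat_lit 429) (nat_lit 423) (nat_lit 348))))))))
noncomputable def xc150 : XT := (XT.nd (nat_lit 2340) (nat_lit 6612) (nat_lit 0) (XT.nd (nat_lit 1170) (nat_lit 4408) (nat_lit 0) (XT.nd (nat_lit 546) (nat_lit 3040) (nat_lit 0) (XT.nd (nat_lit 234) (nat_lit 988) (nat_lit 0) (XT.nd (nat_lit 78) (nat_lit 0) (nat_lit 0) (XT.lf (nat_lit 0) (nat_lit 4636262979) (nat_lit 1064) (nat_lit 1160827186) (nat_lit 1140) (nat_lit 3673387182) (nat_lit 309) (nat_lit 5) (nat_lit 323) (nat_lit 5) (nat_lit 324) (nat_lit 5) (nat_lit 430) (nat_lit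 423) (nat_lit 347)) (XT.nd (nat_lit 78) (nat_lit 0) (nat_lit 76) (XT.lf (nat_lit 76) (nat_lit 3823671094) (nat_lit 0) (nat_lit 2000497495) (nat_lit 1140) (nat_lit 3769465440) (nat_lit 310) (nat_lit 5) (nat_lit 309) (nat_lit 5) (nat_lit 324) (nat_lit 5) (nat_lit 431) (nat_lit 423) (nat_lit 346)) (XT.lf (nat_lit 0) (nat_lit 7046688447) (nat_lit 1064) (nat_lit 778790488) (nat_lit 1140) (nat_lit 1895045050) (nat_lit 310) (nat_lit 5) (nat_lit 324) (nat_lit 5) (nat_lit 325) (nat_lit 5) (nat_lit 432) (nat_lit 423) (nat_lit 345)))) (XT.nd (nat_lit 156) (nat_lit 1064) (nat_lit 0) (XT.nd (nat_lit 78) (nat_lit 0) (nat_lit 76) (XT.lf (nat_lit 76) (nat_lit 4407262471) (nat_lit 0) (nat_lit 3930481909) (nat_lit 1140) (nat_lit 1512528101) (nat_lit 311) (nat_lit 5) (nat_lit 310) (nat_lit 5) (nat_lit 325) (nat_lit 5) (nat_lit 433) (nat_lit 423) (nat_lit 344)) (XT.lf (nat_lit 0) (nat_lit 9646711484) (nat_lit 1064) (nat_lit 241499760)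 (nat_lit 1140) (nat_lit 96334235) (nat_lit 311) (nat_lit 5) (nat_lit 325) (nat_lit 5) (nat_lit 326) (nat_lit 5) (nat_lit 434) (nat_lit 423) (nat_lit 343))) (XT.nd (nat_lit 78) (nat_lit 0) (nat_lit 0) (XT.lf (nat_lit 0) (nat_lit 915467688) (nat_lit 1140) (nat_lit 4973459658) (nat_lit 1216) (nat_lit 4231863296) (nat_lit 296) (nat_lit 5) (nat_lit 311) (nat_lit 5) (nat_lit 312) (nat_lit 5) (nat_lit 435) (nat_lit 423) (nat_lit 342)) (XT.lf (nat_lit 76) (nat_lit 425102323) (nat_lit 0) (nat_lit 1752690093) (nat_lit 1216) (nat_lit 8083890776) (nat_lit 297) (nat_lit 5) (nat_lit 296) (nat_lit 5) (nat_lit 312) (nat_lit 5) (nat_lit 436) (nat_lit 423) (nat_lit 341))))) (XT.nd (nat_lit 312) (nat_lit 2052) (nat_lit 0) (XT.nd (nat_lit 156) (nat_lit 1064) (nat_lit 0) (XT.nd (nat_lit 78) (nat_lit 0) (nat_lit 0) (XT.lf (nat_lit 0) (nat_lit 3525157641) (nat_lit 1140) (nat_lit 4364564930) (nat_lit 1216) (nat_lit 2515671427) (nat_lit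 297) (nat_lit 5) (nat_lit 312) (nat_lit 5) (nat_lit 313) (nat_lit 5) (nat_lit 437) (nat_lit 423) (nat_lit 340)) (XT.lf (nat_lit 76) (nat_lit 1257199220) (nat_lit 0) (nat_lit 3658334784) (nat_lit 1216) (nat_lit 5637810831) (nat_lit 298) (nat_lit 5) (nat_lit 297) (nat_lit 5) (nat_lit 313) (nat_lit 5) (nat_lit 438) (nat_lit 423) (nat_lit 339))) (XT.nd (nat_lit 78) (nat_lit 1140) (nat_lit 0) (XT.lf (nat_lit 0) (nat_lit 6372635696) (nat_lit 1140) (nat_lit 3596712646) (nat_lit 76) (nat_lit 735641660) (nat_lit 298) (nat_lit 5) (nat_lit 313) (nat_lit 5) (nat_lit 299) (nat_lit 5) (nat_lit 439) (nat_lit 423) (nat_lit 338)) (XT.lf (nat_lit 0) (nat_lit 2260009208) (nat_lit 1140) (nat_lit 5645926121) (nat_lit 1216) (nat_lit 2954280689) (nat_lit 283) (nat_lit 5) (nat_lit 298) (nat_lit 5) (nat_lit 299) (nat_lit 5) (nat_lit 440) (nat_lit 423) (nat_lit 337)))) (XT.nd (nat_lit 156) (nat_lit 836) (nat_lit 0) (XT.nd (nat_lit 78) (nat_lit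 1216) (nat_lit 0) (XT.lf (nat_lit 0) (nat_lit 8344799424) (nat_lit 1140) (nat_lit 1151829670) (nat_lit 1216) (nat_lit 1523133737) (nat_lit 283) (nat_lit 5) (nat_lit 298) (nat_lit 5) (nat_lit 299) (nat_lit 5) (nat_lit 441) (nat_lit 423) (nat_lit 336)) (XT.lf (nat_lit 0) (nat_lit 3440239779) (nat_lit 1216) (nat_lit 7737132093) (nat_lit 1292) (nat_lit 5460025) (nat_lit 267) (nat_lit 5) (nat_lit 283) (nat_lit 5) (nat_lit 284) (nat_lit 5) (nat_lit 442) (nat_lit 423) (nat_lit 335))) (XT.nd (nat_lit 78) (nat_lit 760) (nat_lit 0) (XT.lf (nat_lit 0) (nat_lit 1542124298) (nat_lit 1292) (nat_lit 1604670561) (nat_lit 76) (nat_lit 8203110998) (nat_lit 266) (nat_lit 5) (nat_lit 283) (nat_lit 5) (nat_lit 267) (nat_lit 5) (nat_lit 443) (nat_lit 423) (nat_lit 334)) (XT.lf (nat_lit 0) (nat_lit 3174534063) (nat_lit 836) (nat_lit 6747330037) (nat_lit 76) (nat_lit 1598976299) (nat_lit 256) (nat_lit 5) (nat_lit 267) (nat_lit 5) (nat_lit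 257) (nat_lit 5) (nat_lit 444) (nat_lit 423) (nat_lit 333)))))) (XT.nd (nat_lit 546) (nat_lit 2052) (nat_lit 0) (XT.nd (nat_lit 234) (nat_lit 1140) (nat_lit 0) (XT.nd (nat_lit 78) (nat_lit 1216) (nat_lit 0) (XT.lf (nat_lit 0) (nat_lit 4880719363) (nat_lit 836) (nat_lit 373441095) (nat_lit 76) (nat_lit 6442003483) (nat_lit 256) (nat_lit 5) (nat_lit 267) (nat_lit 5) (nat_lit 257) (nat_lit 5) (nat_lit 445) (nat_lit 423) (nat_lit 332)) (XT.nd (nat_lit 78) (nat_lit 608) (nat_lit 0) (XT.lf (nat_lit 0) (nat_lit 6293464612) (nat_lit 608) (nat_lit 383066315) (nat_lit 684) (nat_lit 5199067956) (nat_lit 248) (nat_lit 5) (nat_lit 256) (nat_lit 5) (nat_lit 257) (nat_lit 5) (nat_lit 446) (nat_lit 423) (nat_lit 331)) (XT.lf (nat_lit 0) (nat_lit 1062413640) (nat_lit 608) (nat_lit 7500764830) (nat_lit 684) (nat_lit 3496134323) (nat_lit 240) (nat_lit 5) (nat_lit 248) (nat_lit 5) (nat_lit 249) (nat_lit 5) (nat_lit 447) (nat_lit 423)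 (nat_lit 330)))) (XT.nd (nat_lit 156) (nat_lit 532) (nat_lit 0) (XT.nd (nat_lit 78) (nat_lit 608) (nat_lit 0) (XT.lf (nat_lit 0) (nat_lit 7995605394) (nat_lit 608) (nat_lit 2549763522) (nat_lit 684) (nat_lit 1702005532) (nat_lit 240) (nat_lit 5) (nat_lit 248) (nat_lit 5) (nat_lit 249) (nat_lit 5) (nat_lit 448) (nat_lit 423) (nat_lit 329)) (XT.lf (nat_lit 0) (nat_lit 173316441) (nat_lit 608) (nat_lit 9739194025) (nat_lit 76) (nat_lit 2527623248) (nat_lit 232) (nat_lit 5) (nat_lit 240) (nat_lit 5) (nat_lit 233) (nat_lit 5) (nat_lit 449) (nat_lit 423) (nat_lit 328))) (XT.nd (nat_lit 78) (nat_lit 532) (nat_lit 0) (XT.lf (nat_lit 0) (nat_lit 2118922508) (nat_lit 608) (nat_lit 2751978430) (nat_lit 76) (nat_lit 7765826521) (nat_lit 232) (nat_lit 5) (nat_lit 240) (nat_lit 5) (nat_lit 233) (nat_lit 5) (nat_lit 450) (nat_lit 423) (nat_lit 327)) (XT.lf (nat_lit 0) (nat_lit 4150005297) (nat_lit 608) (nat_lit 8329959864) (nat_lit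 76) (nat_lit 358444713) (nat_lit 225) (nat_lit 5) (nat_lit 233) (nat_lit 5) (nat_lit 226) (nat_lit 5) (nat_lit 451) (nat_lit 423) (nat_lit 326))))) (XT.nd (nat_lit 312) (nat_lit 988) (nat_lit 0) (XT.nd (nat_lit 156) (nat_lit 532) (nat_lit 0) (XT.nd (nat_lit 78) (nat_lit 532) (nat_lit 0) (XT.lf (nat_lit 0) (nat_lit 6298899656) (nat_lit 608) (nat_lit 1071907564) (nat_lit 76) (nat_lit 5673633165) (nat_lit 225) (nat_lit 5) (nat_lit 233) (nat_lit 5) (nat_lit 226) (nat_lit 5) (nat_lit 452) (nat_lit 423) (nat_lit 325)) (XT.lf (nat_lit 0) (nat_lit 6510343280) (nat_lit 532) (nat_lit 2045651990) (nat_lit 608) (nat_lit 4699348388) (nat_lit 218) (nat_lit 5) (nat_lit 225) (nat_lit 5) (nat_lit 226) (nat_lit 5) (nat_lit 453) (nat_lit 423) (nat_lit 324))) (XT.nd (nat_lit 78) (nat_lit 0) (nat_lit 0) (XT.lf (nat_lit 0) (nat_lit 831930015) (nat_lit 532) (nat_lit 10082350245) (nat_lit 608) (nat_lit 2557293241) (nat_lit 211) (nat_lit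 5) (nat_lit 218) (nat_lit 5) (nat_lit 219) (nat_lit 5) (nat_lit 454) (nat_lit 423) (nat_lit 323)) (XT.lf (nat_lit 0) (nat_lit 8733060345) (nat_lit 532) (nat_lit 4680248089) (nat_lit 608) (nat_lit 278885621) (nat_lit 211) (nat_lit 5) (nat_lit 218) (nat_lit 5) (nat_lit 219) (nat_lit 5) (nat_lit 455) (nat_lit 423) (nat_lit 322)))) (XT.nd (nat_lit 156) (nat_lit 456) (nat_lit 0) (XT.nd (nat_lit 78) (nat_lit 0) (nat_lit 0) (XT.lf (nat_lit 0) (nat_lit 2047195862) (nat_lit 532) (nat_lit 10958083776) (nat_lit 76) (nat_lit 912970506) (nat_lit 204) (nat_lit 5) (nat_lit 211) (nat_lit 5) (nat_lit 205) (nat_lit 5) (nat_lit 456) (nat_lit 423) (nat_lit 321)) (XT.lf (nat_lit 0) (nat_lit 4516843500) (nat_lit 532) (nat_lit 3001251306) (nat_lit 76) (nat_lit 6630531946) (nat_lit 204) (nat_lit 5) (nat_lit 211) (nat_lit 5) (nat_lit 205) (nat_lit 5) (nat_lit 457) (nat_lit 423) (nat_lit 320))) (XT.nd (nat_lit 78) (nat_lit 0) (nat_lit 0)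 (XT.lf (nat_lit 0) (nat_lit 5277093873) (nat_lit 456) (nat_lit 1817200341) (nat_lit 532) (nat_lit 7290612285) (nat_lit 198) (nat_lit 5) (nat_lit 204) (nat_lit 5) (nat_lit 205) (nat_lit 5) (nat_lit 458) (nat_lit 423) (nat_lit 319)) (XT.lf (nat_lit 0) (nat_lit 9801910945) (nat_lit 532) (nat_lit 821772595) (nat_lit 76) (nat_lit 4003008976) (nat_lit 198) (nat_lit 5) (nat_lit 205) (nat_lit 5) (nat_lit 199) (nat_lit 5) (nat_lit 459) (nat_lit 423) (nat_lit 318))))))) (XT.nd (nat_lit 1170) (nat_lit 2964) (nat_lit 0) (XT.nd (nat_lit 546) (nat_lit 1520) (nat_lit 0) (XT.nd (nat_lit 234) (nat_lit 1140) (nat_lit 0) (XT.nd (nat_lit 78) (nat_lit 532) (nat_lit 0) (XT.lf (nat_lit 0) (nat_lit 7827756953) (nat_lit 456) (nat_lit 4839983307) (nat_lit 532) (nat_lit 2205685394) (nat_lit 192) (nat_lit 5) (nat_lit 198) (nat_lit 5) (nat_lit 199) (nat_lit 5) (nat_lit 460) (nat_lit 423) (nat_lit 317)) (XT.nd (nat_lit 78) (nat_lit 0) (nat_lit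 0) (XT.lf (nat_lit 0) (nat_lit 501322932) (nat_lit 532) (nat_lit 13504779624) (nat_lit 76) (nat_lit 1120751051) (nat_lit 185) (nat_lit 5) (nat_lit 192) (nat_lit 5) (nat_lit 186) (nat_lit 5) (nat_lit 461) (nat_lit 423) (nat_lit 316)) (XT.lf (nat_lit 0) (nat_lit 3349094050) (nat_lit 532) (nat_lit 4782156571) (nat_lit 76) (nat_lit 7252864885) (nat_lit 185) (nat_lit 5) (nat_lit 192) (nat_lit 5) (nat_lit 186) (nat_lit 5) (nat_lit 462) (nat_lit 423) (nat_lit 315)))) (XT.nd (nat_lit 156) (nat_lit 760) (nat_lit 0) (XT.nd (nat_lit 78) (nat_lit 0) (nat_lit 0) (XT.lf (nat_lit 0) (nat_lit 4265753028) (nat_lit 380) (nat_lit 2042125195) (nat_lit 456) (nat_lit 9340452365) (nat_lit 180) (nat_lit 5) (nat_lit 185) (nat_lit 5) (nat_lit 186) (nat_lit 5) (nat_lit 463) (nat_lit 423) (nat_lit 314)) (XT.lf (nat_lit 0) (nat_lit 9429648846) (nat_lit 456) (nat_lit 2296886592) (nat_lit 76) (nat_lit 4191712635) (nat_lit 180) (nat_lit 5) (nat_lit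 186) (nat_lit 5) (nat_lit 181) (nat_lit 5) (nat_lit 464) (nat_lit 423) (nat_lit 313))) (XT.nd (nat_lit 78) (nat_lit 380) (nat_lit 0) (XT.lf (nat_lit 0) (nat_lit 7161627240) (nat_lit 380) (nat_lit 5557745366) (nat_lit 456) (nat_lit 3474664043) (nat_lit 175) (nat_lit 5) (nat_lit 180) (nat_lit 5) (nat_lit 181) (nat_lit 5) (nat_lit 465) (nat_lit 423) (nat_lit 312)) (XT.lf (nat_lit 0) (nat_lit 455092620) (nat_lit 380) (nat_lit 15673587942) (nat_lit 456) (nat_lit 348794034) (nat_lit 170) (nat_lit 5) (nat_lit 175) (nat_lit 5) (nat_lit 176) (nat_lit 5) (nat_lit 466) (nat_lit 423) (nat_lit 311))))) (XT.nd (nat_lit 312) (nat_lit 760) (nat_lit 0) (XT.nd (nat_lit 156) (nat_lit 304) (nat_lit 0) (XT.nd (nat_lit 78) (nat_lit 380) (nat_lit 0) (XT.lf (nat_lit 0) (nat_lit 2947507198) (nat_lit 456) (nat_lit 6457412881) (nat_lit 76) (nat_lit 7359689785) (nat_lit 169) (nat_lit 5) (nat_lit 175) (nat_lit 5) (nat_lit 170) (nat_lit 5)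 (nat_lit 467) (nat_lit 423) (nat_lit 310)) (XT.lf (nat_lit 0) (nat_lit 3439150340) (nat_lit 380) (nat_lit 2915553131) (nat_lit 456) (nat_lit 10704983903) (nat_lit 164) (nat_lit 5) (nat_lit 169) (nat_lit 5) (nat_lit 170) (nat_lit 5) (nat_lit 468) (nat_lit 423) (nat_lit 309))) (XT.nd (nat_lit 78) (nat_lit 304) (nat_lit 0) (XT.lf (nat_lit 0) (nat_lit 9952330623) (nat_lit 456) (nat_lit 3652744443) (nat_lit 76) (nat_lit 3755897905) (nat_lit 164) (nat_lit 5) (nat_lit 170) (nat_lit 5) (nat_lit 165) (nat_lit 5) (nat_lit 469) (nat_lit 423) (nat_lit 308)) (XT.lf (nat_lit 0) (nat_lit 6697268079) (nat_lit 304) (nat_lit 7040404473) (nat_lit 380) (nat_lit 3931233154) (nat_lit 160) (nat_lit 5) (nat_lit 164) (nat_lit 5) (nat_lit 165) (nat_lit 5) (nat_lit 470) (nat_lit 423) (nat_lit 307)))) (XT.nd (nat_lit 156) (nat_lit 304) (nat_lit 0) (XT.nd (nat_lit 78) (nat_lit 456) (nat_lit 0) (XT.lf (nat_lit 0) (nat_lit 17414206546) (nat_lit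 304) (nat_lit 246009253) (nat_lit 380) (nat_lit 325153476) (nat_lit 160) (nat_lit 5) (nat_lit 164) (nat_lit 5) (nat_lit 165) (nat_lit 5) (nat_lit 471) (nat_lit 423) (nat_lit 306)) (XT.lf (nat_lit 0) (nat_lit 3475072648) (nat_lit 456) (nat_lit 8082536523) (nat_lit 76) (nat_lit 6748179268) (nat_lit 154) (nat_lit 5) (nat_lit 160) (nat_lit 5) (nat_lit 155) (nat_lit 5) (nat_lit 472) (nat_lit 423) (nat_lit 305))) (XT.nd (nat_lit 78) (nat_lit 0) (nat_lit 0) (XT.lf (nat_lit 0) (nat_lit 2747121986) (nat_lit 304) (nat_lit 4657482928) (nat_lit 380) (nat_lit 11230465553) (nat_lit 150) (nat_lit 5) (nat_lit 154) (nat_lit 5) (nat_lit 155) (nat_lit 5) (nat_lit 473) (nat_lit 423) (nat_lit 304)) (XT.lf (nat_lit 0) (nat_lit 11545309890) (nat_lit 380) (nat_lit 4947263987) (nat_lit 76) (nat_lit 2478860330) (nat_lit 150) (nat_lit 5) (nat_lit 155) (nat_lit 5) (nat_lit 151) (nat_lit 5) (nat_lit 474) (nat_lit 423) (nat_lit 303)))))) (XT.nd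 (nat_lit 624) (nat_lit 1368) (nat_lit 0) (XT.nd (nat_lit 312) (nat_lit 608) (nat_lit 0) (XT.nd (nat_lit 156) (nat_lit 608) (nat_lit 0) (XT.nd (nat_lit 78) (nat_lit 76) (nat_lit 0) (XT.lf (nat_lit 0) (nat_lit 6382123542) (nat_lit 304) (nat_lit 9523257922) (nat_lit 380) (nat_lit 3409654829) (nat_lit 146) (nat_lit 5) (nat_lit 150) (nat_lit 5) (nat_lit 151) (nat_lit 5) (nat_lit 475) (nat_lit 423) (nat_lit 302)) (XT.lf (nat_lit 0) (nat_lit 751317675) (nat_lit 380) (nat_lit 1540138559) (nat_lit 76) (nat_lit 17376136124) (nat_lit 145) (nat_lit 5) (nat_lit 150) (nat_lit 5) (nat_lit 146) (nat_lit 5) (nat_lit 476) (nat_lit 423) (nat_lit 301))) (XT.nd (nat_lit 78) (nat_lit 304) (nat_lit 0) (XT.lf (nat_lit 0) (nat_lit 5106977601) (nat_lit 380) (nat_lit 9732885801) (nat_lit 76) (nat_lit 5185698911) (nat_lit 141) (nat_lit 5) (nat_lit 146) (nat_lit 5) (nat_lit 142) (nat_lit 5) (nat_lit 477) (nat_lit 423) (nat_lit 300)) (XT.lf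 (nat_lit 0) (nat_lit 2119138156) (nat_lit 304) (nat_lit 7521165682) (nat_lit 380) (nat_lit 10752559232) (nat_lit 137) (nat_lit 5) (nat_lit 141) (nat_lit 5) (nat_lit 142) (nat_lit 5) (nat_lit 478) (nat_lit 423) (nat_lit 299)))) (XT.nd (nat_lit 156) (nat_lit 380) (nat_lit 0) (XT.nd (nat_lit 78) (nat_lit 228) (nat_lit 0) (XT.lf (nat_lit 0) (nat_lit 14397401213) (nat_lit 380) (nat_lit 6260869498) (nat_lit 76) (nat_lit 110280550) (nat_lit 137) (nat_lit 5) (nat_lit 142) (nat_lit 5) (nat_lit 138) (nat_lit 5) (nat_lit 479) (nat_lit 423) (nat_lit 298)) (XT.lf (nat_lit 0) (nat_lit 6140509426) (nat_lit 228) (nat_lit 13278885577) (nat_lit 304) (nat_lit 1732451097) (nat_lit 134) (nat_lit 5) (nat_lit 137) (nat_lit 5) (nat_lit 138) (nat_lit 5) (nat_lit 480) (nat_lit 423) (nat_lit 297))) (XT.nd (nat_lit 78) (nat_lit 304) (nat_lit 0) (XT.lf (nat_lit 0) (nat_lit 3038574319) (nat_lit 304) (nat_lit 2549647252) (nat_lit 76) (nat_lit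 15955963630) (nat_lit 133) (nat_lit 5) (nat_lit 137) (nat_lit 5) (nat_lit 134) (nat_lit 5) (nat_lit 481) (nat_lit 423) (nat_lit 296)) (XT.lf (nat_lit 0) (nat_lit 8031027786) (nat_lit 380) (nat_lit 11512628367) (nat_lit 76) (nat_lit 2400731576) (nat_lit 129) (nat_lit 5) (nat_lit 134) (nat_lit 5) (nat_lit 130) (nat_lit 5) (nat_lit 482) (nat_lit 423) (nat_lit 295))))) (XT.nd (nat_lit 312) (nat_lit 760) (nat_lit 0) (XT.nd (nat_lit 156) (nat_lit 380) (nat_lit 0) (XT.nd (nat_lit 78) (nat_lit 0) (nat_lit 0) (XT.lf (nat_lit 0) (nat_lit 1454981631) (nat_lit 228) (nat_lit 11802763982) (nat_lit 304) (nat_lit 9096317337) (nat_lit 126) (nat_lit 5) (nat_lit 129) (nat_lit 5) (nat_lit 130) (nat_lit 5) (nat_lit 483) (nat_lit 423) (nat_lit 294)) (XT.lf (nat_lit 0) (nat_lit 15030907013) (nat_lit 228) (nat_lit 3715941917) (nat_lit 304) (nat_lit 4026013277) (nat_lit 126) (nat_lit 5) (nat_lit 129) (nat_lit 5) (nat_lit 130) (nat_lit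 5) (nat_lit 484) (nat_lit 423) (nat_lit 293))) (XT.nd (nat_lit 78) (nat_lit 0) (nat_lit 0) (XT.lf (nat_lit 0) (nat_lit 1264240972) (nat_lit 380) (nat_lit 17350437301) (nat_lit 76) (nat_lit 4586467763) (nat_lit 121) (nat_lit 5) (nat_lit 126) (nat_lit 5) (nat_lit 122) (nat_lit 5) (nat_lit 485) (nat_lit 423) (nat_lit 292)) (XT.lf (nat_lit 0) (nat_lit 6737655163) (nat_lit 380) (nat_lit 3724030584) (nat_lit 76) (nat_lit 13176236843) (nat_lit 121) (nat_lit 5) (nat_lit 126) (nat_lit 5) (nat_lit 122) (nat_lit 5) (nat_lit 486) (nat_lit 423) (nat_lit 291)))) (XT.nd (nat_lit 156) (nat_lit 304) (nat_lit 0) (XT.nd (nat_lit 78) (nat_lit 228) (nat_lit 0) (XT.lf (nat_lit 0) (nat_lit 10500017249) (nat_lit 228) (nat_lit 1966116321) (nat_lit 304) (nat_lit 11618944170) (nat_lit 118) (nat_lit 5) (nat_lit 121) (nat_lit 5) (nat_lit 122) (nat_lit 5) (nat_lit 487) (nat_lit 423) (nat_lit 290)) (XT.lf (nat_lit 0) (nat_lit 612848922) (nat_lit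 228) (nat_lit 17852713811) (nat_lit 304) (nat_lit 6077113040) (nat_lit 115) (nat_lit 5) (nat_lit 118) (nat_lit 5) (nat_lit 119) (nat_lit 5) (nat_lit 488) (nat_lit 423) (nat_lit 289))) (XT.nd (nat_lit 78) (nat_lit 304) (nat_lit 0) (XT.lf (nat_lit 0) (nat_lit 15479351534) (nat_lit 228) (nat_lit 9312231289) (nat_lit 304) (nat_lit 218021771) (nat_lit 115) (nat_lit 5) (nat_lit 118) (nat_lit 5) (nat_lit 119) (nat_lit 5) (nat_lit 489) (nat_lit 423) (nat_lit 288)) (XT.lf (nat_lit 0) (nat_lit 5333775384) (nat_lit 228) (nat_lit 411171921) (nat_lit 304) (nat_lit 19742669171) (nat_lit 111) (nat_lit 5) (nat_lit 114) (nat_lit 5) (nat_lit 115) (nat_lit 5) (nat_lit 490) (nat_lit 423) (nat_lit 287))))))))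
noncomputable def xc151 : XT := (XT.nd (nat_lit 2340) (nat_lit 2052) (nat_lit 0) (XT.nd (nat_lit 1170) (nat_lit 1672) (nat_lit 0) (XT.nd (nat_lit 546) (nat_lit 912) (nat_lit 0) (XT.nd (nat_lit 234) (nat_lit 608) (nat_lit 0) (XT.nd (nat_lit 78) (nat_lit 228) (nat_lit 0) (XT.lf (nat_lit 0) (nat_lit 12054205167) (nat_lit 304) (nat_lit 5241058148) (nat_lit 76) (nat_lit 8679488185) (nat_lit 111) (nat_lit 5) (nat_lit 115) (nat_lit 5) (nat_lit 112) (nat_lit 5) (nat_lit 491) (nat_lit 423) (nat_lit 286)) (XT.nd (nat_lit 78) (nat_lit 0) (nat_lit 0) (XT.lf (nat_lit 0) (nat_lit 10300727263) (nat_lit 228) (nat_lit 8345795728) (nat_lit 304) (nat_lit 7827165082) (nat_lit 108) (nat_lit 5) (nat_lit 111) (nat_lit 5) (nat_lit 112) (nat_lit 5) (nat_lit 492) (nat_lit 423) (nat_lit 285)) (XT.lf (nat_lit 0) (nat_lit 25489204542) (nat_lit 304) (nat_lit 594092915) (nat_lit 76) (nat_lit 902718400) (nat_lit 108) (nat_lit 5) (nat_lit 112)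 (nat_lit 5) (nat_lit 109) (nat_lit 5) (nat_lit 493) (nat_lit 423) (nat_lit 284)))) (XT.nd (nat_lit 156) (nat_lit 152) (nat_lit 0) (XT.nd (nat_lit 78) (nat_lit 228) (nat_lit 0) (XT.lf (nat_lit 0) (nat_lit 5151844116) (nat_lit 228) (nat_lit 11897336160) (nat_lit 76) (nat_lit 10456292928) (nat_lit 105) (nat_lit 5) (nat_lit 108) (nat_lit 5) (nat_lit 106) (nat_lit 5) (nat_lit 494) (nat_lit 423) (nat_lit 283)) (XT.lf (nat_lit 0) (nat_lit 4322784441) (nat_lit 228) (nat_lit 7685763894) (nat_lit 304) (nat_lit 16030361990) (nat_lit 102) (nat_lit 5) (nat_lit 105) (nat_lit 5) (nat_lit 106) (nat_lit 5) (nat_lit 495) (nat_lit 423) (nat_lit 282))) (XT.nd (nat_lit 78) (nat_lit 152) (nat_lit 0) (XT.lf (nat_lit 0) (nat_lit 19202231705) (nat_lit 304) (nat_lit 7346398615) (nat_lit 76) (nat_lit 2035782733) (nat_lit 102) (nat_lit 5) (nat_lit 106) (nat_lit 5) (nat_lit 103) (nat_lit 5) (nat_lit 496) (nat_lit 423) (nat_lit 281)) (XT.lf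 (nat_lit 0) (nat_lit 9611283983) (nat_lit 152) (nat_lit 17160308317) (nat_lit 228) (nat_lit 2369893372) (nat_lit 100) (nat_lit 5) (nat_lit 102) (nat_lit 5) (nat_lit 103) (nat_lit 5) (nat_lit 497) (nat_lit 423) (nat_lit 280))))) (XT.nd (nat_lit 312) (nat_lit 456) (nat_lit 0) (XT.nd (nat_lit 156) (nat_lit 152) (nat_lit 0) (XT.nd (nat_lit 78) (nat_lit 228) (nat_lit 0) (XT.lf (nat_lit 0) (nat_lit 4824394755) (nat_lit 228) (nat_lit 2546755448) (nat_lit 76) (nat_lit 22340731806) (nat_lit 99) (nat_lit 5) (nat_lit 102) (nat_lit 5) (nat_lit 100) (nat_lit 5) (nat_lit 498) (nat_lit 423) (nat_lit 279)) (XT.lf (nat_lit 0) (nat_lit 12352388657) (nat_lit 304) (nat_lit 15116996527) (nat_lit 76) (nat_lit 2824336575) (nat_lit 96) (nat_lit 5) (nat_lit 100) (nat_lit 5) (nat_lit 97) (nat_lit 5) (nat_lit 499) (nat_lit 423) (nat_lit 278))) (XT.nd (nat_lit 78) (nat_lit 0) (nat_lit 0) (XT.lf (nat_lit 0) (nat_lit 2554230923) (nat_lit 152)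 (nat_lit 17667207702) (nat_lit 228) (nat_lit 10668122308) (nat_lit 94) (nat_lit 5) (nat_lit 96) (nat_lit 5) (nat_lit 97) (nat_lit 5) (nat_lit 500) (nat_lit 423) (nat_lit 277)) (XT.lf (nat_lit 0) (nat_lit 21051372325) (nat_lit 152) (nat_lit 7419655522) (nat_lit 228) (nat_lit 3027914101) (nat_lit 94) (nat_lit 5) (nat_lit 96) (nat_lit 5) (nat_lit 97) (nat_lit 5) (nat_lit 501) (nat_lit 423) (nat_lit 276)))) (XT.nd (nat_lit 156) (nat_lit 152) (nat_lit 0) (XT.nd (nat_lit 78) (nat_lit 0) (nat_lit 0) (XT.lf (nat_lit 0) (nat_lit 4847923872) (nat_lit 304) (nat_lit 24080452518) (nat_lit 76) (nat_lit 3193805520) (nat_lit 90) (nat_lit 5) (nat_lit 94) (nat_lit 5) (nat_lit 91) (nat_lit 5) (nat_lit 502) (nat_lit 423) (nat_lit 275)) (XT.lf (nat_lit 0) (nat_lit 13071206274) (nat_lit 304) (nat_lit 5579470359) (nat_lit 76) (nat_lit 14107382874) (nat_lit 90) (nat_lit 5) (nat_lit 94) (nat_lit 5) (nat_lit 91) (nat_lit 5) (nat_lit 503)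 (nat_lit 423) (nat_lit 274))) (XT.nd (nat_lit 78) (nat_lit 0) (nat_lit 0) (XT.lf (nat_lit 0) (nat_lit 13730984397) (nat_lit 152) (nat_lit 7934446679) (nat_lit 228) (nat_lit 11743855659) (nat_lit 88) (nat_lit 5) (nat_lit 90) (nat_lit 5) (nat_lit 91) (nat_lit 5) (nat_lit 504) (nat_lit 423) (nat_lit 273)) (XT.lf (nat_lit 0) (nat_lit 30596508222) (nat_lit 228) (nat_lit 387163072) (nat_lit 76) (nat_lit 3094009322) (nat_lit 88) (nat_lit 5) (nat_lit 91) (nat_lit 5) (nat_lit 89) (nat_lit 5) (nat_lit 505) (nat_lit 423) (nat_lit 272)))))) (XT.nd (nat_lit 546) (nat_lit 760) (nat_lit 0) (XT.nd (nat_lit 234) (nat_lit 532) (nat_lit 0) (XT.nd (nat_lit 78) (nat_lit 152) (nat_lit 0) (XT.lf (nat_lit 0) (nat_lit 5195021952) (nat_lit 228) (nat_lit 15032298617) (nat_lit 76) (nat_lit 14529442780) (nat_lit 85) (nat_lit 5) (nat_lit 88) (nat_lit 5) (nat_lit 86) (nat_lit 5) (nat_lit 506) (nat_lit 423) (nat_lit 271)) (XT.nd (nat_lit 78)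 (nat_lit 0) (nat_lit 0) (XT.lf (nat_lit 0) (nat_lit 5041991806) (nat_lit 152) (nat_lit 9064496166) (nat_lit 228) (nat_lit 21347348512) (nat_lit 83) (nat_lit 5) (nat_lit 85) (nat_lit 5) (nat_lit 86) (nat_lit 5) (nat_lit 507) (nat_lit 423) (nat_lit 270)) (XT.lf (nat_lit 0) (nat_lit 23454563644) (nat_lit 228) (nat_lit 10178706502) (nat_lit 76) (nat_lit 2533474235) (nat_lit 83) (nat_lit 5) (nat_lit 86) (nat_lit 5) (nat_lit 84) (nat_lit 5) (nat_lit 508) (nat_lit 423) (nat_lit 269)))) (XT.nd (nat_lit 156) (nat_lit 304) (nat_lit 0) (XT.nd (nat_lit 78) (nat_lit 76) (nat_lit 0) (XT.lf (nat_lit 0) (nat_lit 10769000469) (nat_lit 152) (nat_lit 22500139500) (nat_lit 228) (nat_lit 3626318312) (nat_lit 81) (nat_lit 5) (nat_lit 83) (nat_lit 5) (nat_lit 84) (nat_lit 5) (nat_lit 509) (nat_lit 423) (nat_lit 268)) (XT.lf (nat_lit 0) (nat_lit 5716877920) (nat_lit 228) (nat_lit 5158113971) (nat_lit 76) (nat_lit 26766490810) (nat_lit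 80) (nat_lit 5) (nat_lit 83) (nat_lit 5) (nat_lit 81) (nat_lit 5) (nat_lit 510) (nat_lit 423) (nat_lit 267))) (XT.nd (nat_lit 78) (nat_lit 152) (nat_lit 0) (XT.lf (nat_lit 0) (nat_lit 15433656092) (nat_lit 228) (nat_lit 21699533511) (nat_lit 76) (nat_lit 1270636461) (nat_lit 78) (nat_lit 5) (nat_lit 81) (nat_lit 5) (nat_lit 79) (nat_lit 5) (nat_lit 511) (nat_lit 423) (nat_lit 266)) (XT.lf (nat_lit 0) (nat_lit 20545801) (nat_lit 152) (nat_lit 25574916412) (nat_lit 228) (nat_lit 13588972236) (nat_lit 76) (nat_lit 5) (nat_lit 78) (nat_lit 5) (nat_lit 79) (nat_lit 5) (nat_lit 512) (nat_lit 423) (nat_lit 265))))) (XT.nd (nat_lit 312) (nat_lit 380) (nat_lit 0) (XT.nd (nat_lit 156) (nat_lit 152) (nat_lit 0) (XT.nd (nat_lit 78) (nat_lit 228) (nat_lit 0) (XT.lf (nat_lit 0) (nat_lit 22824672516) (nat_lit 152) (nat_lit 13449707553) (nat_lit 228) (nat_lit 3707713739) (nat_lit 76) (nat_lit 5) (nat_lit 78) (nat_lit 5) (nat_lit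 79) (nat_lit 5) (nat_lit 513) (nat_lit 423) (nat_lit 264)) (XT.lf (nat_lit 0) (nat_lit 5543063668) (nat_lit 152) (nat_lit 847217848) (nat_lit 228) (nat_lit 34410139502) (nat_lit 73) (nat_lit 5) (nat_lit 75) (nat_lit 5) (nat_lit 76) (nat_lit 5) (nat_lit 514) (nat_lit 423) (nat_lit 263))) (XT.nd (nat_lit 78) (nat_lit 152) (nat_lit 0) (XT.lf (nat_lit 0) (nat_lit 17001597217) (nat_lit 228) (nat_lit 12529062733) (nat_lit 76) (nat_lit 12102990144) (nat_lit 73) (nat_lit 5) (nat_lit 76) (nat_lit 5) (nat_lit 74) (nat_lit 5) (nat_lit 515) (nat_lit 423) (nat_lit 262)) (XT.lf (nat_lit 0) (nat_lit 11077022434) (nat_lit 152) (nat_lit 16962589686) (nat_lit 228) (nat_lit 14449013528) (nat_lit 71) (nat_lit 5) (nat_lit 73) (nat_lit 5) (nat_lit 74) (nat_lit 5) (nat_lit 516) (nat_lit 423) (nat_lit 261)))) (XT.nd (nat_lit 156) (nat_lit 152) (nat_lit 0) (XT.nd (nat_lit 78) (nat_lit 228) (nat_lit 0) (XT.lf (nat_lit 0) (nat_lit 35636416969)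 (nat_lit 152) (nat_lit 3892438802) (nat_lit 228) (nat_lit 3836792436) (nat_lit 71) (nat_lit 5) (nat_lit 73) (nat_lit 5) (nat_lit 74) (nat_lit 5) (nat_lit 517) (nat_lit 423) (nat_lit 260)) (XT.lf (nat_lit 0) (nat_lit 7205877800) (nat_lit 228) (nat_lit 27442490505) (nat_lit 76) (nat_lit 9611052567) (nat_lit 68) (nat_lit 5) (nat_lit 71) (nat_lit 5) (nat_lit 69) (nat_lit 5) (nat_lit 518) (nat_lit 423) (nat_lit 259))) (XT.nd (nat_lit 78) (nat_lit 152) (nat_lit 0) (XT.lf (nat_lit 0) (nat_lit 18613793510) (nat_lit 228) (nat_lit 3008563266) (nat_lit 76) (nat_lit 23553178218) (nat_lit 68) (nat_lit 5) (nat_lit 71) (nat_lit 5) (nat_lit 69) (nat_lit 5) (nat_lit 519) (nat_lit 423) (nat_lit 258)) (XT.lf (nat_lit 0) (nat_lit 22587973219) (nat_lit 152) (nat_lit 7987005067) (nat_lit 228) (nat_lit 15537823651) (nat_lit 66) (nat_lit 5) (nat_lit 68) (nat_lit 5) (nat_lit 69) (nat_lit 5) (nat_lit 520) (nat_lit 423) (nat_lit 257)))))))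 (XT.nd (nat_lit 1170) (nat_lit 836) (nat_lit 0) (XT.nd (nat_lit 546) (nat_lit 608) (nat_lit 0) (XT.nd (nat_lit 234) (nat_lit 304) (nat_lit 0) (XT.nd (nat_lit 78) (nat_lit 228) (nat_lit 0) (XT.lf (nat_lit 0) (nat_lit 1904228684) (nat_lit 76) (nat_lit 41091908285) (nat_lit 152) (nat_lit 4079016101) (nat_lit 65) (nat_lit 5) (nat_lit 66) (nat_lit 5) (nat_lit 67) (nat_lit 4) (nat_lit 521) (nat_lit 423) (nat_lit 256)) (XT.nd (nat_lit 78) (nat_lit 152) (nat_lit 0) (XT.lf (nat_lit 0) (nat_lit 7885762601) (nat_lit 152) (nat_lit 19647744658) (nat_lit 76) (nat_lit 20521252847) (nat_lit 64) (nat_lit 5) (nat_lit 66) (nat_lit 5) (nat_lit 65) (nat_lit 5) (nat_lit 522) (nat_lit 423) (nat_lit 255)) (XT.lf (nat_lit 0) (nat_lit 6721006403) (nat_lit 152) (nat_lit 13465212530) (nat_lit 228) (nat_lit 28874563583) (nat_lit 62) (nat_lit 5) (nat_lit 64) (nat_lit 5) (nat_lit 65) (nat_lit 5) (nat_lit 523) (nat_lit 423) (nat_lit 254)))) (XT.nd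 (nat_lit 156) (nat_lit 228) (nat_lit 0) (XT.nd (nat_lit 78) (nat_lit 76) (nat_lit 0) (XT.lf (nat_lit 0) (nat_lit 33060043413) (nat_lit 228) (nat_lit 15830181821) (nat_lit 76) (nat_lit 1200630027) (nat_lit 62) (nat_lit 5) (nat_lit 65) (nat_lit 5) (nat_lit 63) (nat_lit 4) (nat_lit 524) (nat_lit 423) (nat_lit 253)) (XT.lf (nat_lit 0) (nat_lit 11556294790) (nat_lit 76) (nat_lit 35002496036) (nat_lit 152) (nat_lit 4585878403) (nat_lit 61) (nat_lit 5) (nat_lit 62) (nat_lit 5) (nat_lit 63) (nat_lit 4) (nat_lit 525) (nat_lit 423) (nat_lit 252))) (XT.nd (nat_lit 78) (nat_lit 152) (nat_lit 0) (XT.lf (nat_lit 0) (nat_lit 8227507887) (nat_lit 152) (nat_lit 12227751841) (nat_lit 76) (nat_lit 31767791653) (nat_lit 60) (nat_lit 5) (nat_lit 62) (nat_lit 5) (nat_lit 61) (nat_lit 5) (nat_lit 526) (nat_lit 423) (nat_lit 251)) (XT.lf (nat_lit 0) (nat_lit 16214393549) (nat_lit 152) (nat_lit 5269071108) (nat_lit 228) (nat_lit 31844448248)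 (nat_lit 58) (nat_lit 5) (nat_lit 60) (nat_lit 5) (nat_lit 61) (nat_lit 5) (nat_lit 527) (nat_lit 423) (nat_lit 250))))) (XT.nd (nat_lit 312) (nat_lit 304) (nat_lit 0) (XT.nd (nat_lit 156) (nat_lit 228) (nat_lit 0) (XT.nd (nat_lit 78) (nat_lit 76) (nat_lit 0) (XT.lf (nat_lit 0) (nat_lit 35356002974) (nat_lit 228) (nat_lit 8812997073) (nat_lit 76) (nat_lit 10290353396) (nat_lit 58) (nat_lit 5) (nat_lit 61) (nat_lit 5) (nat_lit 59) (nat_lit 4) (nat_lit 528) (nat_lit 423) (nat_lit 249)) (XT.lf (nat_lit 0) (nat_lit 20677861699) (nat_lit 76) (nat_lit 29212448571) (nat_lit 152) (nat_lit 5727059392) (nat_lit 57) (nat_lit 5) (nat_lit 58) (nat_lit 5) (nat_lit 59) (nat_lit 4) (nat_lit 529) (nat_lit 423) (nat_lit 248))) (XT.nd (nat_lit 78) (nat_lit 152) (nat_lit 0) (XT.lf (nat_lit 0) (nat_lit 7977964274) (nat_lit 152) (nat_lit 5661638195) (nat_lit 76) (nat_lit 43165666381) (nat_lit 56) (nat_lit 5) (nat_lit 58) (nat_lit 5)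 (nat_lit 57) (nat_lit 5) (nat_lit 530) (nat_lit 423) (nat_lit 247)) (XT.lf (nat_lit 0) (nat_lit 22239304123) (nat_lit 228) (nat_lit 33131732440) (nat_lit 76) (nat_lit 2648259360) (nat_lit 54) (nat_lit 5) (nat_lit 57) (nat_lit 5) (nat_lit 55) (nat_lit 4) (nat_lit 531) (nat_lit 423) (nat_lit 246)))) (XT.nd (nat_lit 156) (nat_lit 228) (nat_lit 0) (XT.nd (nat_lit 78) (nat_lit 76) (nat_lit 0) (XT.lf (nat_lit 0) (nat_lit 37116101055) (nat_lit 228) (nat_lit 2944082498) (nat_lit 76) (nat_lit 19203931969) (nat_lit 54) (nat_lit 5) (nat_lit 57) (nat_lit 5) (nat_lit 55) (nat_lit 4) (nat_lit 532) (nat_lit 423) (nat_lit 245)) (XT.lf (nat_lit 0) (nat_lit 28699775202) (nat_lit 76) (nat_lit 24010290777) (nat_lit 152) (nat_lit 7828088022) (nat_lit 53) (nat_lit 5) (nat_lit 54) (nat_lit 5) (nat_lit 55) (nat_lit 4) (nat_lit 533) (nat_lit 423) (nat_lit 244))) (XT.nd (nat_lit 78) (nat_lit 152) (nat_lit 0) (XT.lf (nat_lit 0) (nat_lit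 6811388925) (nat_lit 152) (nat_lit 572514632) (nat_lit 76) (nat_lit 54463763841) (nat_lit 52) (nat_lit 5) (nat_lit 54) (nat_lit 5) (nat_lit 53) (nat_lit 5) (nat_lit 534) (nat_lit 423) (nat_lit 243)) (XT.lf (nat_lit 0) (nat_lit 22134538271) (nat_lit 228) (nat_lit 31110005745) (nat_lit 76) (nat_lit 9937542455) (nat_lit 50) (nat_lit 5) (nat_lit 53) (nat_lit 5) (nat_lit 51) (nat_lit 4) (nat_lit 535) (nat_lit 423) (nat_lit 242)))))) (XT.nd (nat_lit 624) (nat_lit 304) (nat_lit 0) (XT.nd (nat_lit 312) (nat_lit 228) (nat_lit 0) (XT.nd (nat_lit 156) (nat_lit 228) (nat_lit 0) (XT.nd (nat_lit 78) (nat_lit 0) (nat_lit 0) (XT.lf (nat_lit 0) (nat_lit 1090293268) (nat_lit 76) (nat_lit 36911665740) (nat_lit 152) (nat_lit 26552041990) (nat_lit 49) (nat_lit 5) (nat_lit 50) (nat_lit 5) (nat_lit 51) (nat_lit 4) (nat_lit 536) (nat_lit 423) (nat_lit 241)) (XT.lf (nat_lit 0) (nat_lit 34885213749) (nat_lit 76) (nat_lit 19769542227) (nat_lit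 152) (nat_lit 11303036563) (nat_lit 49) (nat_lit 5) (nat_lit 50) (nat_lit 5) (nat_lit 51) (nat_lit 4) (nat_lit 537) (nat_lit 423) (nat_lit 240))) (XT.nd (nat_lit 78) (nat_lit 0) (nat_lit 0) (XT.lf (nat_lit 0) (nat_lit 2283575761) (nat_lit 152) (nat_lit 2051184405) (nat_lit 228) (nat_lit 63067150534) (nat_lit 46) (nat_lit 5) (nat_lit 48) (nat_lit 5) (nat_lit 49) (nat_lit 5) (nat_lit 538) (nat_lit 423) (nat_lit 239)) (XT.lf (nat_lit 0) (nat_lit 20682410238) (nat_lit 228) (nat_lit 31882249001) (nat_lit 76) (nat_lit 16307299020) (nat_lit 46) (nat_lit 5) (nat_lit 49) (nat_lit 5) (nat_lit 47) (nat_lit 4) (nat_lit 539) (nat_lit 423) (nat_lit 238)))) (XT.nd (nat_lit 156) (nat_lit 152) (nat_lit 0) (XT.nd (nat_lit 78) (nat_lit 0) (nat_lit 0) (XT.lf (nat_lit 0) (nat_lit 2368130093) (nat_lit 76) (nat_lit 35190877499) (nat_lit 152) (nat_lit 32825944284) (nat_lit 45) (nat_lit 5) (nat_lit 46) (nat_lit 5) (nat_lit 47) (nat_lit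 4) (nat_lit 540) (nat_lit 423) (nat_lit 237)) (XT.lf (nat_lit 0) (nat_lit 38290969204) (nat_lit 76) (nat_lit 16968376912) (nat_lit 152) (nat_lit 16674466047) (nat_lit 45) (nat_lit 5) (nat_lit 46) (nat_lit 5) (nat_lit 47) (nat_lit 4) (nat_lit 541) (nat_lit 423) (nat_lit 236))) (XT.nd (nat_lit 78) (nat_lit 76) (nat_lit 0) (XT.lf (nat_lit 0) (nat_lit 1771157891) (nat_lit 76) (nat_lit 71749460721) (nat_lit 76) (nat_lit 7622086) (nat_lit 44) (nat_lit 4) (nat_lit 45) (nat_lit 5) (nat_lit 45) (nat_lit 4) (nat_lit 542) (nat_lit 423) (nat_lit 235)) (XT.lf (nat_lit 0) (nat_lit 17331075694) (nat_lit 152) (nat_lit 36567852233) (nat_lit 76) (nat_lit 21251425355) (nat_lit 43) (nat_lit 5) (nat_lit 45) (nat_lit 5) (nat_lit 44) (nat_lit 4) (nat_lit 543) (nat_lit 423) (nat_lit 234))))) (XT.nd (nat_lit 312) (nat_lit 76) (nat_lit 0) (XT.nd (nat_lit 156) (nat_lit 152) (nat_lit 0) (XT.nd (nat_lit 78) (nat_lit 76) (nat_lit 0) (XT.lf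 (nat_lit 0) (nat_lit 35185502297) (nat_lit 152) (nat_lit 331227643) (nat_lit 76) (nat_lit 41304525547) (nat_lit 43) (nat_lit 5) (nat_lit 45) (nat_lit 5) (nat_lit 44) (nat_lit 4) (nat_lit 544) (nat_lit 423) (nat_lit 233)) (XT.lf (nat_lit 0) (nat_lit 37720591911) (nat_lit 76) (nat_lit 16213408906) (nat_lit 152) (nat_lit 24597530905) (nat_lit 42) (nat_lit 5) (nat_lit 43) (nat_lit 5) (nat_lit 44) (nat_lit 4) (nat_lit 545) (nat_lit 423) (nat_lit 232))) (XT.nd (nat_lit 78) (nat_lit 152) (nat_lit 0) (XT.lf (nat_lit 0) (nat_lit 73279455466) (nat_lit 152) (nat_lit 3415539233) (nat_lit 0) (nat_lit 3597086644) (nat_lit 42) (nat_lit 5) (nat_lit 44) (nat_lit 4) (nat_lit 42) (nat_lit 4) (nat_lit 546) (nat_lit 423) (nat_lit 231)) (XT.lf (nat_lit 0) (nat_lit 11387157930) (nat_lit 152) (nat_lit 46573422990) (nat_lit 76) (nat_lit 24126547833) (nat_lit 40) (nat_lit 5) (nat_lit 42) (nat_lit 5) (nat_lit 41) (nat_lit 4) (nat_lit 547)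 (nat_lit 423) (nat_lit 230)))) (XT.nd (nat_lit 52806) (nat_lit 0) (nat_lit 20292) (XT.nd (nat_lit 78) (nat_lit 76) (nat_lit 0) (XT.lf (nat_lit 0) (nat_lit 30228799378) (nat_lit 152) (nat_lit 8331672175) (nat_lit 76) (nat_lit 45372548865) (nat_lit 40) (nat_lit 5) (nat_lit 42) (nat_lit 5) (nat_lit 41) (nat_lit 4) (nat_lit 548) (nat_lit 423) (nat_lit 229)) (XT.lf (nat_lit 0) (nat_lit 31667759736) (nat_lit 76) (nat_lit 18268436550) (nat_lit 152) (nat_lit 35889077481) (nat_lit 39) (nat_lit 5) (nat_lit 40) (nat_lit 5) (nat_lit 41) (nat_lit 4) (nat_lit 549) (nat_lit 423) (nat_lit 228))) (XT.nd (nat_lit 78) (nat_lit 1140) (nat_lit 0) (XT.lf (nat_lit 0) (nat_lit 2024840800) (nat_lit 0) (nat_lit 2024840800) (nat_lit 988) (nat_lit 401295492) (nat_lit 321) (nat_lit 5) (nat_lit 321) (nat_lit 3) (nat_lit 334) (nat_lit 3) (nat_lit 424) (nat_lit 424) (nat_lit 352)) (XT.lf (nat_lit 0) (nat_lit 122184377) (nat_lit 1140) (nat_lit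 476574811) (nat_lit 1140) (nat_lit 8409097464) (nat_lit 306) (nat_lit 3) (nat_lit 321) (nat_lit 3) (nat_lit 321) (nat_lit 5) (nat_lit 425) (nat_lit 424) (nat_lit 351))))))))
noncomputable def xc152 : XT := (XT.nd (nat_lit 2340) (nat_lit 6460) (nat_lit 0) (XT.nd (nat_lit 1170) (nat_lit 6384) (nat_lit 0) (XT.nd (nat_lit 546) (nat_lit 912) (nat_lit 0) (XT.nd (nat_lit 234) (nat_lit 0) (nat_lit 76) (XT.nd (nat_lit 78) (nat_lit 0) (nat_lit 0) (XT.lf (nat_lit 0) (nat_lit 1090931874) (nat_lit 1064) (nat_lit 5062034832) (nat_lit 1140) (nat_lit 2962769430) (nat_lit 307) (nat_lit 5) (nat_lit 321) (nat_lit 5) (nat_lit 322) (nat_lit 5) (nat_lit 426) (nat_lit 424) (nat_lit 350)) (XT.nd (nat_lit 78) (nat_lit 0) (nat_lit 76) (XT.lf (nat_lit 0) (nat_lit 2064620866) (nat_lit 1064) (nat_lit 522583038) (nat_lit 1140) (nat_lit 6640380603) (nat_lit 307) (nat_lit 5) (nat_lit 321) (nat_lit 5) (nat_lit 322) (nat_lit 5) (nat_lit 427) (nat_lit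 424) (nat_lit 349)) (XT.lf (nat_lit 0) (nat_lit 3085137401) (nat_lit 1064) (nat_lit 5137233775) (nat_lit 1140) (nat_lit 1119897263) (nat_lit 308) (nat_lit 5) (nat_lit 322) (nat_lit 5) (nat_lit 323) (nat_lit 5) (nat_lit 428) (nat_lit 424) (nat_lit 348)))) (XT.nd (nat_lit 156) (nat_lit 0) (nat_lit 76) (XT.nd (nat_lit 78) (nat_lit 0) (nat_lit 0) (XT.lf (nat_lit 0) (nat_lit 4134265839) (nat_lit 1064) (nat_lit 420646454) (nat_lit 1140) (nat_lit 4905549071) (nat_lit 308) (nat_lit 5) (nat_lit 322) (nat_lit 5) (nat_lit 323) (nat_lit 5) (nat_lit 429) (nat_lit 424) (nat_lit 347)) (XT.lf (nat_lit 76) (nat_lit 4506010589) (nat_lit 0) (nat_lit 720182957) (nat_lit 1140) (nat_lit 4355674889) (nat_lit 309) (nat_lit 5) (nat_lit 308) (nat_lit 5) (nat_lit 323) (nat_lit 5) (nat_lit 430) (nat_lit 424) (nat_lit 346))) (XT.nd (nat_lit 78) (nat_lit 0) (nat_lit 0) (XT.lf (nat_lit 0) (nat_lit 6355088064) (nat_lit 1064) (nat_lit 169014771)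 (nat_lit 1140) (nat_lit 3182696499) (nat_lit 309) (nat_lit 5) (nat_lit 323) (nat_lit 5) (nat_lit 324) (nat_lit 5) (nat_lit 431) (nat_lit 424) (nat_lit 345)) (XT.lf (nat_lit 76) (nat_lit 4954953387) (nat_lit 0) (nat_lit 2587437606) (nat_lit 1140) (nat_lit 2292358577) (nat_lit 310) (nat_lit 5) (nat_lit 309) (nat_lit 5) (nat_lit 324) (nat_lit 5) (nat_lit 432) (nat_lit 424) (nat_lit 344))))) (XT.nd (nat_lit 312) (nat_lit 0) (nat_lit 76) (XT.nd (nat_lit 156) (nat_lit 1140) (nat_lit 0) (XT.nd (nat_lit 78) (nat_lit 0) (nat_lit 0) (XT.lf (nat_lit 76) (nat_lit 239738292) (nat_lit 0) (nat_lit 8514278833) (nat_lit 1140) (nat_lit 1212867496) (nat_lit 311) (nat_lit 5) (nat_lit 310) (nat_lit 5) (nat_lit 325) (nat_lit 5) (nat_lit 433) (nat_lit 424) (nat_lit 343)) (XT.lf (nat_lit 76) (nat_lit 5566525915) (nat_lit 0) (nat_lit 4481343303) (nat_lit 1140) (nat_lit 53745407) (nat_lit 311) (nat_lit 5) (nat_lit 310) (nat_lit 5) (nat_lit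 325) (nat_lit 5) (nat_lit 434) (nat_lit 424) (nat_lit 342))) (XT.nd (nat_lit 78) (nat_lit 0) (nat_lit 76) (XT.lf (nat_lit 76) (nat_lit 797110557) (nat_lit 0) (nat_lit 300241893) (nat_lit 1216) (nat_lit 9143328570) (nat_lit 296) (nat_lit 5) (nat_lit 295) (nat_lit 5) (nat_lit 311) (nat_lit 5) (nat_lit 435) (nat_lit 424) (nat_lit 341)) (XT.lf (nat_lit 0) (nat_lit 2339153126) (nat_lit 1140) (nat_lit 4060724733) (nat_lit 1216) (nat_lit 3982314685) (nat_lit 296) (nat_lit 5) (nat_lit 311) (nat_lit 5) (nat_lit 312) (nat_lit 5) (nat_lit 436) (nat_lit 424) (nat_lit 340)))) (XT.nd (nat_lit 156) (nat_lit 0) (nat_lit 76) (XT.nd (nat_lit 78) (nat_lit 0) (nat_lit 76) (XT.lf (nat_lit 76) (nat_lit 1489382943) (nat_lit 0) (nat_lit 2119405935) (nat_lit 1216) (nat_lit 6919449515) (nat_lit 297) (nat_lit 5) (nat_lit 296) (nat_lit 5) (nat_lit 312) (nat_lit 5) (nat_lit 437) (nat_lit 424) (nat_lit 339)) (XT.lf (nat_lit 0) (nat_lit 4953866770)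 (nat_lit 1140) (nat_lit 3431577116) (nat_lit 1216) (nat_lit 2292107364) (nat_lit 297) (nat_lit 5) (nat_lit 312) (nat_lit 5) (nat_lit 313) (nat_lit 5) (nat_lit 438) (nat_lit 424) (nat_lit 338))) (XT.nd (nat_lit 78) (nat_lit 0) (nat_lit 76) (XT.lf (nat_lit 76) (nat_lit 2348409323) (nat_lit 0) (nat_lit 4009139278) (nat_lit 1216) (nat_lit 4473253389) (nat_lit 298) (nat_lit 5) (nat_lit 297) (nat_lit 5) (nat_lit 313) (nat_lit 5) (nat_lit 439) (nat_lit 424) (nat_lit 337)) (XT.lf (nat_lit 0) (nat_lit 7818408372) (nat_lit 1140) (nat_lit 2641551423) (nat_lit 76) (nat_lit 528244298) (nat_lit 298) (nat_lit 5) (nat_lit 313) (nat_lit 5) (nat_lit 299) (nat_lit 5) (nat_lit 440) (nat_lit 424) (nat_lit 336)))))) (XT.nd (nat_lit 546) (nat_lit 2812) (nat_lit 0) (XT.nd (nat_lit 234) (nat_lit 1368) (nat_lit 0) (XT.nd (nat_lit 78) (nat_lit 1292) (nat_lit 0) (XT.lf (nat_lit 0) (nat_lit 3380449904) (nat_lit 1140) (nat_lit 5990834154) (nat_lit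 1216) (nat_lit 1777604196) (nat_lit 283) (nat_lit 5) (nat_lit 298) (nat_lit 5) (nat_lit 299) (nat_lit 5) (nat_lit 441) (nat_lit 424) (nat_lit 335)) (XT.nd (nat_lit 78) (nat_lit 1292) (nat_lit 0) (XT.lf (nat_lit 0) (nat_lit 9617124396) (nat_lit 1140) (nat_lit 1356802277) (nat_lit 1216) (nat_lit 340376376) (nat_lit 283) (nat_lit 5) (nat_lit 298) (nat_lit 5) (nat_lit 299) (nat_lit 5) (nat_lit 442) (nat_lit 424) (nat_lit 334)) (XT.lf (nat_lit 0) (nat_lit 1172463859) (nat_lit 1292) (nat_lit 6901824285) (nat_lit 76) (nat_lit 3408426402) (nat_lit 266) (nat_lit 5) (nat_lit 283) (nat_lit 5) (nat_lit 267) (nat_lit 5) (nat_lit 443) (nat_lit 424) (nat_lit 333)))) (XT.nd (nat_lit 156) (nat_lit 608) (nat_lit 0) (XT.nd (nat_lit 78) (nat_lit 760) (nat_lit 0) (XT.lf (nat_lit 0) (nat_lit 2732055935) (nat_lit 1292) (nat_lit 611071321) (nat_lit 76) (nat_lit 8312708856) (nat_lit 266) (nat_lit 5) (nat_lit 283) (nat_lit 5) (nat_lit 267)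 (nat_lit 5) (nat_lit 444) (nat_lit 424) (nat_lit 332)) (XT.lf (nat_lit 0) (nat_lit 4389189851) (nat_lit 836) (nat_lit 5883513038) (nat_lit 76) (nat_lit 1559930728) (nat_lit 256) (nat_lit 5) (nat_lit 267) (nat_lit 5) (nat_lit 257) (nat_lit 5) (nat_lit 445) (nat_lit 424) (nat_lit 331))) (XT.nd (nat_lit 78) (nat_lit 0) (nat_lit 0) (XT.lf (nat_lit 0) (nat_lit 663484092) (nat_lit 608) (nat_lit 5456849973) (nat_lit 684) (nat_lit 5893676863) (nat_lit 248) (nat_lit 5) (nat_lit 256) (nat_lit 5) (nat_lit 257) (nat_lit 5) (nat_lit 446) (nat_lit 424) (nat_lit 330)) (XT.lf (nat_lit 0) (nat_lit 7507301169) (nat_lit 608) (nat_lit 434539418) (nat_lit 684) (nat_lit 4257840764) (nat_lit 248) (nat_lit 5) (nat_lit 256) (nat_lit 5) (nat_lit 257) (nat_lit 5) (nat_lit 447) (nat_lit 424) (nat_lit 329))))) (XT.nd (nat_lit 312) (nat_lit 1596) (nat_lit 0) (XT.nd (nat_lit 156) (nat_lit 608) (nat_lit 0) (XT.nd (nat_lit 78) (nat_lit 0) (nat_lit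 0) (XT.lf (nat_lit 0) (nat_lit 2141519837) (nat_lit 608) (nat_lit 7722241425) (nat_lit 684) (nat_lit 2525792054) (nat_lit 240) (nat_lit 5) (nat_lit 248) (nat_lit 5) (nat_lit 249) (nat_lit 5) (nat_lit 448) (nat_lit 424) (nat_lit 328)) (XT.lf (nat_lit 0) (nat_lit 9252205389) (nat_lit 608) (nat_lit 2622813370) (nat_lit 684) (nat_lit 709156670) (nat_lit 240) (nat_lit 5) (nat_lit 248) (nat_lit 5) (nat_lit 249) (nat_lit 5) (nat_lit 449) (nat_lit 424) (nat_lit 327))) (XT.nd (nat_lit 78) (nat_lit 0) (nat_lit 0) (XT.lf (nat_lit 0) (nat_lit 1182342656) (nat_lit 608) (nat_lit 8974131698) (nat_lit 76) (nat_lit 2626539700) (nat_lit 232) (nat_lit 5) (nat_lit 240) (nat_lit 5) (nat_lit 233) (nat_lit 5) (nat_lit 450) (nat_lit 424) (nat_lit 326)) (XT.lf (nat_lit 0) (nat_lit 3157079233) (nat_lit 608) (nat_lit 1808092979) (nat_lit 76) (nat_lit 8021216612) (nat_lit 232) (nat_lit 5) (nat_lit 240) (nat_lit 5) (nat_lit 233) (nat_lit 5)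 (nat_lit 451) (nat_lit 424) (nat_lit 325)))) (XT.nd (nat_lit 156) (nat_lit 1064) (nat_lit 0) (XT.nd (nat_lit 78) (nat_lit 0) (nat_lit 0) (XT.lf (nat_lit 0) (nat_lit 5231059183) (nat_lit 608) (nat_lit 7535181653) (nat_lit 76) (nat_lit 428427842) (nat_lit 225) (nat_lit 5) (nat_lit 233) (nat_lit 5) (nat_lit 226) (nat_lit 5) (nat_lit 452) (nat_lit 424) (nat_lit 324)) (XT.lf (nat_lit 0) (nat_lit 7416559585) (nat_lit 608) (nat_lit 89815270) (nat_lit 76) (nat_lit 5901346808) (nat_lit 225) (nat_lit 5) (nat_lit 233) (nat_lit 5) (nat_lit 226) (nat_lit 5) (nat_lit 453) (nat_lit 424) (nat_lit 323))) (XT.nd (nat_lit 78) (nat_lit 532) (nat_lit 0) (XT.lf (nat_lit 0) (nat_lit 7709959477) (nat_lit 532) (nat_lit 2014013284) (nat_lit 608) (nat_lit 3901506699) (nat_lit 218) (nat_lit 5) (nat_lit 225) (nat_lit 5) (nat_lit 226) (nat_lit 5) (nat_lit 454) (nat_lit 424) (nat_lit 322)) (XT.lf (nat_lit 0) (nat_lit 1877717050) (nat_lit 532)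 (nat_lit 10259427447) (nat_lit 608) (nat_lit 1711532960) (nat_lit 211) (nat_lit 5) (nat_lit 218) (nat_lit 5) (nat_lit 219) (nat_lit 5) (nat_lit 455) (nat_lit 424) (nat_lit 321))))))) (XT.nd (nat_lit 1170) (nat_lit 2888) (nat_lit 0) (XT.nd (nat_lit 546) (nat_lit 1596) (nat_lit 0) (XT.nd (nat_lit 234) (nat_lit 1444) (nat_lit 0) (XT.nd (nat_lit 78) (nat_lit 456) (nat_lit 0) (XT.lf (nat_lit 0) (nat_lit 596487298) (nat_lit 608) (nat_lit 4096403808) (nat_lit 76) (nat_lit 9383637752) (nat_lit 210) (nat_lit 5) (nat_lit 218) (nat_lit 5) (nat_lit 211) (nat_lit 5) (nat_lit 456) (nat_lit 424) (nat_lit 320)) (XT.nd (nat_lit 78) (nat_lit 0) (nat_lit 0) (XT.lf (nat_lit 0) (nat_lit 2972084750) (nat_lit 532) (nat_lit 10263257585) (nat_lit 76) (nat_lit 1074386238) (nat_lit 204) (nat_lit 5) (nat_lit 211) (nat_lit 5) (nat_lit 205) (nat_lit 5) (nat_lit 457) (nat_lit 424) (nat_lit 319)) (XT.lf (nat_lit 0) (nat_lit 5490672119) (nat_lit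 532) (nat_lit 2097532821) (nat_lit 76) (nat_lit 6959570833) (nat_lit 204) (nat_lit 5) (nat_lit 211) (nat_lit 5) (nat_lit 205) (nat_lit 5) (nat_lit 458) (nat_lit 424) (nat_lit 318)))) (XT.nd (nat_lit 156) (nat_lit 532) (nat_lit 0) (XT.nd (nat_lit 78) (nat_lit 456) (nat_lit 0) (XT.lf (nat_lit 0) (nat_lit 6419420007) (nat_lit 456) (nat_lit 1711068101) (nat_lit 532) (nat_lit 6661109214) (nat_lit 198) (nat_lit 5) (nat_lit 204) (nat_lit 5) (nat_lit 205) (nat_lit 5) (nat_lit 459) (nat_lit 424) (nat_lit 317)) (XT.lf (nat_lit 0) (nat_lit 134178393) (nat_lit 456) (nat_lit 10763962516) (nat_lit 532) (nat_lit 4143136311) (nat_lit 192) (nat_lit 5) (nat_lit 198) (nat_lit 5) (nat_lit 199) (nat_lit 5) (nat_lit 460) (nat_lit 424) (nat_lit 316))) (XT.nd (nat_lit 78) (nat_lit 532) (nat_lit 0) (XT.lf (nat_lit 0) (nat_lit 9030987429) (nat_lit 456) (nat_lit 4803650019) (nat_lit 532) (nat_lit 1461238530) (nat_lit 192) (nat_lit 5) (nat_lit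 198) (nat_lit 5) (nat_lit 199) (nat_lit 5) (nat_lit 461) (nat_lit 424) (nat_lit 315)) (XT.lf (nat_lit 0) (nat_lit 1299243818) (nat_lit 532) (nat_lit 12913508699) (nat_lit 76) (nat_lit 1344282174) (nat_lit 185) (nat_lit 5) (nat_lit 192) (nat_lit 5) (nat_lit 186) (nat_lit 5) (nat_lit 462) (nat_lit 424) (nat_lit 314))))) (XT.nd (nat_lit 312) (nat_lit 836) (nat_lit 0) (XT.nd (nat_lit 156) (nat_lit 380) (nat_lit 0) (XT.nd (nat_lit 78) (nat_lit 380) (nat_lit 0) (XT.lf (nat_lit 0) (nat_lit 4209645705) (nat_lit 532) (nat_lit 3958228731) (nat_lit 76) (nat_lit 7654828105) (nat_lit 185) (nat_lit 5) (nat_lit 192) (nat_lit 5) (nat_lit 186) (nat_lit 5) (nat_lit 463) (nat_lit 424) (nat_lit 313)) (XT.lf (nat_lit 0) (nat_lit 5351633915) (nat_lit 380) (nat_lit 1892629269) (nat_lit 456) (nat_lit 8850972701) (nat_lit 180) (nat_lit 5) (nat_lit 185) (nat_lit 5) (nat_lit 186) (nat_lit 5) (nat_lit 464) (nat_lit 424) (nat_lit 312))) (XT.nd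 (nat_lit 78) (nat_lit 380) (nat_lit 0) (XT.lf (nat_lit 0) (nat_lit 10439892260) (nat_lit 456) (nat_lit 1415864097) (nat_lit 76) (nat_lit 4518092171) (nat_lit 180) (nat_lit 5) (nat_lit 186) (nat_lit 5) (nat_lit 181) (nat_lit 5) (nat_lit 465) (nat_lit 424) (nat_lit 311)) (XT.lf (nat_lit 0) (nat_lit 8317092119) (nat_lit 380) (nat_lit 5499072323) (nat_lit 456) (nat_lit 2842114297) (nat_lit 175) (nat_lit 5) (nat_lit 180) (nat_lit 5) (nat_lit 181) (nat_lit 5) (nat_lit 466) (nat_lit 424) (nat_lit 310)))) (XT.nd (nat_lit 156) (nat_lit 380) (nat_lit 0) (XT.nd (nat_lit 78) (nat_lit 0) (nat_lit 0) (XT.lf (nat_lit 0) (nat_lit 360476506) (nat_lit 456) (nat_lit 15534683485) (nat_lit 76) (nat_lit 1055245081) (nat_lit 169) (nat_lit 5) (nat_lit 175) (nat_lit 5) (nat_lit 170) (nat_lit 5) (nat_lit 467) (nat_lit 424) (nat_lit 309)) (XT.lf (nat_lit 0) (nat_lit 3727897412) (nat_lit 456) (nat_lit 5714323088) (nat_lit 76) (nat_lit 7804456432)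 (nat_lit 169) (nat_lit 5) (nat_lit 175) (nat_lit 5) (nat_lit 170) (nat_lit 5) (nat_lit 468) (nat_lit 424) (nat_lit 308))) (XT.nd (nat_lit 78) (nat_lit 0) (nat_lit 0) (XT.lf (nat_lit 0) (nat_lit 4469952597) (nat_lit 380) (nat_lit 2756119581) (nat_lit 456) (nat_lit 10324874982) (nat_lit 164) (nat_lit 5) (nat_lit 169) (nat_lit 5) (nat_lit 170) (nat_lit 5) (nat_lit 469) (nat_lit 424) (nat_lit 307)) (XT.lf (nat_lit 0) (nat_lit 10914105356) (nat_lit 456) (nat_lit 2844088692) (nat_lit 76) (nat_lit 4103606136) (nat_lit 164) (nat_lit 5) (nat_lit 170) (nat_lit 5) (nat_lit 165) (nat_lit 5) (nat_lit 470) (nat_lit 424) (nat_lit 306)))))) (XT.nd (nat_lit 546) (nat_lit 1444) (nat_lit 0) (XT.nd (nat_lit 234) (nat_lit 684) (nat_lit 0) (XT.nd (nat_lit 78) (nat_lit 456) (nat_lit 0) (XT.lf (nat_lit 0) (nat_lit 7807421872) (nat_lit 304) (nat_lit 6995009156) (nat_lit 380) (nat_lit 3376860250) (nat_lit 160) (nat_lit 5) (nat_lit 164)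 (nat_lit 5) (nat_lit 165) (nat_lit 5) (nat_lit 471) (nat_lit 424) (nat_lit 305)) (XT.nd (nat_lit 78) (nat_lit 0) (nat_lit 0) (XT.lf (nat_lit 0) (nat_lit 314681843) (nat_lit 456) (nat_lit 18188969957) (nat_lit 76) (nat_lit 1986642) (nat_lit 154) (nat_lit 5) (nat_lit 160) (nat_lit 5) (nat_lit 155) (nat_lit 5) (nat_lit 472) (nat_lit 424) (nat_lit 304)) (XT.lf (nat_lit 0) (nat_lit 4211669610) (nat_lit 456) (nat_lit 7421685306) (nat_lit 76) (nat_lit 7202542802) (nat_lit 154) (nat_lit 5) (nat_lit 160) (nat_lit 5) (nat_lit 155) (nat_lit 5) (nat_lit 473) (nat_lit 424) (nat_lit 303)))) (XT.nd (nat_lit 156) (nat_lit 380) (nat_lit 0) (XT.nd (nat_lit 78) (nat_lit 0) (nat_lit 0) (XT.lf (nat_lit 0) (nat_lit 3724006809) (nat_lit 304) (nat_lit 4525261430) (nat_lit 380) (nat_lit 10926087295) (nat_lit 150) (nat_lit 5) (nat_lit 154) (nat_lit 5) (nat_lit 155) (nat_lit 5) (nat_lit 474) (nat_lit 424) (nat_lit 302)) (XT.lf (nat_lit 0)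 (nat_lit 12498600535) (nat_lit 380) (nat_lit 4211580839) (nat_lit 76) (nat_lit 2812099285) (nat_lit 150) (nat_lit 5) (nat_lit 155) (nat_lit 5) (nat_lit 151) (nat_lit 5) (nat_lit 475) (nat_lit 424) (nat_lit 301))) (XT.nd (nat_lit 78) (nat_lit 76) (nat_lit 0) (XT.lf (nat_lit 0) (nat_lit 7449020658) (nat_lit 304) (nat_lit 9531191187) (nat_lit 380) (nat_lit 2896259417) (nat_lit 146) (nat_lit 5) (nat_lit 150) (nat_lit 5) (nat_lit 151) (nat_lit 5) (nat_lit 476) (nat_lit 424) (nat_lit 300)) (XT.lf (nat_lit 0) (nat_lit 1359945384) (nat_lit 380) (nat_lit 724661950) (nat_lit 76) (nat_lit 18155349037) (nat_lit 145) (nat_lit 5) (nat_lit 150) (nat_lit 5) (nat_lit 146) (nat_lit 5) (nat_lit 477) (nat_lit 424) (nat_lit 299))))) (XT.nd (nat_lit 312) (nat_lit 608) (nat_lit 0) (XT.nd (nat_lit 156) (nat_lit 228) (nat_lit 0) (XT.nd (nat_lit 78) (nat_lit 304) (nat_lit 0) (XT.lf (nat_lit 0) (nat_lit 5840059585) (nat_lit 380) (nat_lit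 9156897337) (nat_lit 76) (nat_lit 5611897330) (nat_lit 141) (nat_lit 5) (nat_lit 146) (nat_lit 5) (nat_lit 142) (nat_lit 5) (nat_lit 478) (nat_lit 424) (nat_lit 298)) (XT.lf (nat_lit 0) (nat_lit 3042177779) (nat_lit 304) (nat_lit 7458580043) (nat_lit 380) (nat_lit 10486677338) (nat_lit 137) (nat_lit 5) (nat_lit 141) (nat_lit 5) (nat_lit 142) (nat_lit 5) (nat_lit 479) (nat_lit 424) (nat_lit 297))) (XT.nd (nat_lit 78) (nat_lit 228) (nat_lit 0) (XT.lf (nat_lit 0) (nat_lit 15386619776) (nat_lit 380) (nat_lit 5600240508) (nat_lit 76) (nat_lit 387954390) (nat_lit 137) (nat_lit 5) (nat_lit 142) (nat_lit 5) (nat_lit 138) (nat_lit 5) (nat_lit 480) (nat_lit 424) (nat_lit 296)) (XT.lf (nat_lit 0) (nat_lit 7164861597) (nat_lit 228) (nat_lit 13386255754) (nat_lit 304) (nat_lit 1218737849) (nat_lit 134) (nat_lit 5) (nat_lit 137) (nat_lit 5) (nat_lit 138) (nat_lit 5) (nat_lit 481) (nat_lit 424) (nat_lit 295)))) (XT.nd (nat_lit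 156) (nat_lit 228) (nat_lit 0) (XT.nd (nat_lit 78) (nat_lit 304) (nat_lit 0) (XT.lf (nat_lit 0) (nat_lit 3668224941) (nat_lit 304) (nat_lit 1799684783) (nat_lit 76) (nat_lit 16706378301) (nat_lit 133) (nat_lit 5) (nat_lit 137) (nat_lit 5) (nat_lit 134) (nat_lit 5) (nat_lit 482) (nat_lit 424) (nat_lit 294)) (XT.lf (nat_lit 0) (nat_lit 8805399510) (nat_lit 380) (nat_lit 11026436878) (nat_lit 76) (nat_lit 2754813794) (nat_lit 129) (nat_lit 5) (nat_lit 134) (nat_lit 5) (nat_lit 130) (nat_lit 5) (nat_lit 483) (nat_lit 424) (nat_lit 293))) (XT.nd (nat_lit 78) (nat_lit 0) (nat_lit 0) (XT.lf (nat_lit 0) (nat_lit 2322048769) (nat_lit 228) (nat_lit 11859248184) (nat_lit 304) (nat_lit 8827549285) (nat_lit 126) (nat_lit 5) (nat_lit 129) (nat_lit 5) (nat_lit 130) (nat_lit 5) (nat_lit 484) (nat_lit 424) (nat_lit 292)) (XT.lf (nat_lit 0) (nat_lit 16281268873) (nat_lit 228) (nat_lit 3538489381) (nat_lit 304) (nat_lit 3620912537)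 (nat_lit 126) (nat_lit 5) (nat_lit 129) (nat_lit 5) (nat_lit 130) (nat_lit 5) (nat_lit 485) (nat_lit 424) (nat_lit 291))))))))
noncomputable def xc153 : XT := (XT.nd (nat_lit 2340) (nat_lit 2356) (nat_lit 0) (XT.nd (nat_lit 1170) (nat_lit 1748) (nat_lit 0) (XT.nd (nat_lit 546) (nat_lit 1140) (nat_lit 0) (XT.nd (nat_lit 234) (nat_lit 532) (nat_lit 0) (XT.nd (nat_lit 78) (nat_lit 228) (nat_lit 0) (XT.lf (nat_lit 0) (nat_lit 1813298422) (nat_lit 380) (nat_lit 17056645901) (nat_lit 76) (nat_lit 5011843592) (nat_lit 121) (nat_lit 5) (nat_lit 126) (nat_lit 5) (nat_lit 122) (nat_lit 5) (nat_lit 486) (nat_lit 424) (nat_lit 290)) (XT.nd (nat_lit 78) (nat_lit 228) (nat_lit 0) (XT.lf (nat_lit 0) (nat_lit 7436027750) (nat_lit 380) (nat_lit 3045164589) (nat_lit 76) (nat_lit 13850923749) (nat_lit 121) (nat_lit 5) (nat_lit 126) (nat_lit 5) (nat_lit 122) (nat_lit 5) (nat_lit 487) (nat_lit 424) (nat_lit 289)) (XT.lf (nat_lit 0)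 (nat_lit 11597853827) (nat_lit 228) (nat_lit 1731578104) (nat_lit 304) (nat_lit 11463463477) (nat_lit 118) (nat_lit 5) (nat_lit 121) (nat_lit 5) (nat_lit 122) (nat_lit 5) (nat_lit 488) (nat_lit 424) (nat_lit 288)))) (XT.nd (nat_lit 156) (nat_lit 228) (nat_lit 0) (XT.nd (nat_lit 78) (nat_lit 76) (nat_lit 0) (XT.lf (nat_lit 0) (nat_lit 1418191945) (nat_lit 228) (nat_lit 18086704197) (nat_lit 304) (nat_lit 5759445284) (nat_lit 115) (nat_lit 5) (nat_lit 118) (nat_lit 5) (nat_lit 119) (nat_lit 5) (nat_lit 489) (nat_lit 424) (nat_lit 287)) (XT.lf (nat_lit 0) (nat_lit 255765921) (nat_lit 304) (nat_lit 9040442749) (nat_lit 76) (nat_lit 16449419885) (nat_lit 114) (nat_lit 5) (nat_lit 118) (nat_lit 5) (nat_lit 115) (nat_lit 5) (nat_lit 490) (nat_lit 424) (nat_lit 286))) (XT.nd (nat_lit 78) (nat_lit 0) (nat_lit 0) (XT.lf (nat_lit 0) (nat_lit 6259764004) (nat_lit 228) (nat_lit 126978555) (nat_lit 304) (nat_lit 19851369932)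 (nat_lit 111) (nat_lit 5) (nat_lit 114) (nat_lit 5) (nat_lit 115) (nat_lit 5) (nat_lit 491) (nat_lit 424) (nat_lit 285)) (XT.lf (nat_lit 0) (nat_lit 12874372339) (nat_lit 304) (nat_lit 4643671034) (nat_lit 76) (nat_lit 9222146796) (nat_lit 111) (nat_lit 5) (nat_lit 115) (nat_lit 5) (nat_lit 112) (nat_lit 5) (nat_lit 492) (nat_lit 424) (nat_lit 284))))) (XT.nd (nat_lit 312) (nat_lit 456) (nat_lit 0) (XT.nd (nat_lit 156) (nat_lit 304) (nat_lit 0) (XT.nd (nat_lit 78) (nat_lit 152) (nat_lit 0) (XT.lf (nat_lit 0) (nat_lit 11356969715) (nat_lit 228) (nat_lit 8301317162) (nat_lit 304) (nat_lit 7595994536) (nat_lit 108) (nat_lit 5) (nat_lit 111) (nat_lit 5) (nat_lit 112) (nat_lit 5) (nat_lit 493) (nat_lit 424) (nat_lit 283)) (XT.lf (nat_lit 0) (nat_lit 126478201) (nat_lit 152) (nat_lit 26570562436) (nat_lit 228) (nat_lit 1085215988) (nat_lit 106) (nat_lit 5) (nat_lit 108) (nat_lit 5) (nat_lit 109) (nat_lit 5) (nat_lit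 494) (nat_lit 424) (nat_lit 282))) (XT.nd (nat_lit 78) (nat_lit 228) (nat_lit 0) (XT.lf (nat_lit 0) (nat_lit 5746836610) (nat_lit 228) (nat_lit 11516737450) (nat_lit 76) (nat_lit 11053807893) (nat_lit 105) (nat_lit 5) (nat_lit 108) (nat_lit 5) (nat_lit 106) (nat_lit 5) (nat_lit 495) (nat_lit 424) (nat_lit 281)) (XT.lf (nat_lit 0) (nat_lit 5182756193) (nat_lit 228) (nat_lit 7620677473) (nat_lit 304) (nat_lit 16063564004) (nat_lit 102) (nat_lit 5) (nat_lit 105) (nat_lit 5) (nat_lit 106) (nat_lit 5) (nat_lit 496) (nat_lit 424) (nat_lit 280)))) (XT.nd (nat_lit 156) (nat_lit 304) (nat_lit 0) (XT.nd (nat_lit 78) (nat_lit 152) (nat_lit 0) (XT.lf (nat_lit 0) (nat_lit 20203027723) (nat_lit 304) (nat_lit 6847833170) (nat_lit 76) (nat_lit 2378302778) (nat_lit 102) (nat_lit 5) (nat_lit 106) (nat_lit 5) (nat_lit 103) (nat_lit 5) (nat_lit 497) (nat_lit 424) (nat_lit 279)) (XT.lf (nat_lit 0) (nat_lit 10611531304) (nat_lit 152)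 (nat_lit 17382410385) (nat_lit 228) (nat_lit 2009173765) (nat_lit 100) (nat_lit 5) (nat_lit 102) (nat_lit 5) (nat_lit 103) (nat_lit 5) (nat_lit 498) (nat_lit 424) (nat_lit 278))) (XT.nd (nat_lit 78) (nat_lit 228) (nat_lit 0) (XT.lf (nat_lit 0) (nat_lit 5380184961) (nat_lit 228) (nat_lit 1923767135) (nat_lit 76) (nat_lit 23286918107) (nat_lit 99) (nat_lit 5) (nat_lit 102) (nat_lit 5) (nat_lit 100) (nat_lit 5) (nat_lit 499) (nat_lit 424) (nat_lit 277)) (XT.lf (nat_lit 0) (nat_lit 13131459983) (nat_lit 304) (nat_lit 14868521297) (nat_lit 76) (nat_lit 3190261689) (nat_lit 96) (nat_lit 5) (nat_lit 100) (nat_lit 5) (nat_lit 97) (nat_lit 5) (nat_lit 500) (nat_lit 424) (nat_lit 276)))))) (XT.nd (nat_lit 546) (nat_lit 912) (nat_lit 0) (XT.nd (nat_lit 234) (nat_lit 380) (nat_lit 0) (XT.nd (nat_lit 78) (nat_lit 304) (nat_lit 0) (XT.lf (nat_lit 0) (nat_lit 3325960770) (nat_lit 152) (nat_lit 17905404386) (nat_lit 228) (nat_lit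 10572749684) (nat_lit 94) (nat_lit 5) (nat_lit 96) (nat_lit 5) (nat_lit 97) (nat_lit 5) (nat_lit 501) (nat_lit 424) (nat_lit 275)) (XT.nd (nat_lit 78) (nat_lit 304) (nat_lit 0) (XT.lf (nat_lit 0) (nat_lit 22357770698) (nat_lit 152) (nat_lit 7358925239) (nat_lit 228) (nat_lit 2715434734) (nat_lit 94) (nat_lit 5) (nat_lit 96) (nat_lit 5) (nat_lit 97) (nat_lit 5) (nat_lit 502) (nat_lit 424) (nat_lit 274)) (XT.lf (nat_lit 0) (nat_lit 5386534845) (nat_lit 304) (nat_lit 24117801415) (nat_lit 76) (nat_lit 3569684410) (nat_lit 90) (nat_lit 5) (nat_lit 94) (nat_lit 5) (nat_lit 91) (nat_lit 5) (nat_lit 503) (nat_lit 424) (nat_lit 273)))) (XT.nd (nat_lit 156) (nat_lit 228) (nat_lit 0) (XT.nd (nat_lit 78) (nat_lit 152) (nat_lit 0) (XT.lf (nat_lit 0) (nat_lit 13845064070) (nat_lit 304) (nat_lit 5081743131) (nat_lit 76) (nat_lit 14802511861) (nat_lit 90) (nat_lit 5) (nat_lit 94) (nat_lit 5) (nat_lit 91) (nat_lit 5) (nat_lit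 504) (nat_lit 424) (nat_lit 272)) (XT.lf (nat_lit 0) (nat_lit 14801504568) (nat_lit 152) (nat_lit 7890823721) (nat_lit 228) (nat_lit 11707899330) (nat_lit 88) (nat_lit 5) (nat_lit 90) (nat_lit 5) (nat_lit 91) (nat_lit 5) (nat_lit 505) (nat_lit 424) (nat_lit 271))) (XT.nd (nat_lit 78) (nat_lit 76) (nat_lit 0) (XT.lf (nat_lit 0) (nat_lit 253965095) (nat_lit 152) (nat_lit 31631463848) (nat_lit 228) (nat_lit 3203422501) (nat_lit 86) (nat_lit 5) (nat_lit 88) (nat_lit 5) (nat_lit 89) (nat_lit 5) (nat_lit 506) (nat_lit 424) (nat_lit 270)) (XT.lf (nat_lit 0) (nat_lit 5718518779) (nat_lit 228) (nat_lit 14834487094) (nat_lit 76) (nat_lit 15235403819) (nat_lit 85) (nat_lit 5) (nat_lit 88) (nat_lit 5) (nat_lit 86) (nat_lit 5) (nat_lit 507) (nat_lit 424) (nat_lit 269))))) (XT.nd (nat_lit 312) (nat_lit 532) (nat_lit 0) (XT.nd (nat_lit 156) (nat_lit 228) (nat_lit 0) (XT.nd (nat_lit 78) (nat_lit 0) (nat_lit 0) (XT.lf (nat_lit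 0) (nat_lit 5835671449) (nat_lit 152) (nat_lit 9057124524) (nat_lit 228) (nat_lit 21613735826) (nat_lit 83) (nat_lit 5) (nat_lit 85) (nat_lit 5) (nat_lit 86) (nat_lit 5) (nat_lit 508) (nat_lit 424) (nat_lit 268)) (XT.lf (nat_lit 0) (nat_lit 24513344462) (nat_lit 228) (nat_lit 9852364004) (nat_lit 76) (nat_lit 2875358317) (nat_lit 83) (nat_lit 5) (nat_lit 86) (nat_lit 5) (nat_lit 84) (nat_lit 5) (nat_lit 509) (nat_lit 424) (nat_lit 267))) (XT.nd (nat_lit 78) (nat_lit 76) (nat_lit 0) (XT.lf (nat_lit 0) (nat_lit 11717581003) (nat_lit 152) (nat_lit 22900445867) (nat_lit 228) (nat_lit 3373745913) (nat_lit 81) (nat_lit 5) (nat_lit 83) (nat_lit 5) (nat_lit 84) (nat_lit 5) (nat_lit 510) (nat_lit 424) (nat_lit 266)) (XT.lf (nat_lit 0) (nat_lit 6232375010) (nat_lit 228) (nat_lit 4698696095) (nat_lit 76) (nat_lit 27829312917) (nat_lit 80) (nat_lit 5) (nat_lit 83) (nat_lit 5) (nat_lit 81) (nat_lit 5) (nat_lit 511) (nat_lit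 424) (nat_lit 265)))) (XT.nd (nat_lit 156) (nat_lit 228) (nat_lit 0) (XT.nd (nat_lit 78) (nat_lit 152) (nat_lit 0) (XT.lf (nat_lit 0) (nat_lit 16239062475) (nat_lit 228) (nat_lit 21734741414) (nat_lit 76) (nat_lit 1571842300) (nat_lit 78) (nat_lit 5) (nat_lit 81) (nat_lit 5) (nat_lit 79) (nat_lit 5) (nat_lit 512) (nat_lit 424) (nat_lit 264)) (XT.lf (nat_lit 0) (nat_lit 630903237) (nat_lit 152) (nat_lit 26070708028) (nat_lit 228) (nat_lit 13648185570) (nat_lit 76) (nat_lit 5) (nat_lit 78) (nat_lit 5) (nat_lit 79) (nat_lit 5) (nat_lit 513) (nat_lit 424) (nat_lit 263))) (XT.nd (nat_lit 78) (nat_lit 228) (nat_lit 0) (XT.lf (nat_lit 0) (nat_lit 24101394305) (nat_lit 152) (nat_lit 13589649384) (nat_lit 228) (nat_lit 3480638517) (nat_lit 76) (nat_lit 5) (nat_lit 78) (nat_lit 5) (nat_lit 79) (nat_lit 5) (nat_lit 514) (nat_lit 424) (nat_lit 262)) (XT.lf (nat_lit 0) (nat_lit 6302090930) (nat_lit 152) (nat_lit 607640507)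 (nat_lit 228) (nat_lit 35104849749) (nat_lit 73) (nat_lit 5) (nat_lit 75) (nat_lit 5) (nat_lit 76) (nat_lit 5) (nat_lit 515) (nat_lit 424) (nat_lit 261))))))) (XT.nd (nat_lit 1170) (nat_lit 1140) (nat_lit 0) (XT.nd (nat_lit 546) (nat_lit 608) (nat_lit 0) (XT.nd (nat_lit 234) (nat_lit 456) (nat_lit 0) (XT.nd (nat_lit 78) (nat_lit 152) (nat_lit 0) (XT.lf (nat_lit 0) (nat_lit 17832313832) (nat_lit 228) (nat_lit 12322370992) (nat_lit 76) (nat_lit 12718335083) (nat_lit 73) (nat_lit 5) (nat_lit 76) (nat_lit 5) (nat_lit 74) (nat_lit 5) (nat_lit 516) (nat_lit 424) (nat_lit 260)) (XT.nd (nat_lit 78) (nat_lit 0) (nat_lit 0) (XT.lf (nat_lit 0) (nat_lit 11986185321) (nat_lit 152) (nat_lit 17211489052) (nat_lit 228) (nat_lit 14556084770) (nat_lit 71) (nat_lit 5) (nat_lit 73) (nat_lit 5) (nat_lit 74) (nat_lit 5) (nat_lit 517) (nat_lit 424) (nat_lit 259)) (XT.lf (nat_lit 0) (nat_lit 37265560172) (nat_lit 152) (nat_lit 3756805826)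 (nat_lit 228) (nat_lit 3635003817) (nat_lit 71) (nat_lit 5) (nat_lit 73) (nat_lit 5) (nat_lit 74) (nat_lit 5) (nat_lit 518) (nat_lit 424) (nat_lit 258)))) (XT.nd (nat_lit 156) (nat_lit 228) (nat_lit 0) (XT.nd (nat_lit 78) (nat_lit 0) (nat_lit 0) (XT.lf (nat_lit 0) (nat_lit 7731541106) (nat_lit 228) (nat_lit 27698273703) (nat_lit 76) (nat_lit 10148086639) (nat_lit 68) (nat_lit 5) (nat_lit 71) (nat_lit 5) (nat_lit 69) (nat_lit 5) (nat_lit 519) (nat_lit 424) (nat_lit 257)) (XT.lf (nat_lit 0) (nat_lit 19472680104) (nat_lit 228) (nat_lit 2547857527) (nat_lit 76) (nat_lit 24501232297) (nat_lit 68) (nat_lit 5) (nat_lit 71) (nat_lit 5) (nat_lit 69) (nat_lit 5) (nat_lit 520) (nat_lit 424) (nat_lit 256))) (XT.nd (nat_lit 78) (nat_lit 76) (nat_lit 0) (XT.lf (nat_lit 0) (nat_lit 23811173459) (nat_lit 152) (nat_lit 7978019596) (nat_lit 228) (nat_lit 15698067538) (nat_lit 66) (nat_lit 5) (nat_lit 68) (nat_lit 5) (nat_lit 69)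 (nat_lit 5) (nat_lit 521) (nat_lit 424) (nat_lit 255)) (XT.lf (nat_lit 0) (nat_lit 2508039623) (nat_lit 76) (nat_lit 42073872511) (nat_lit 152) (nat_lit 3896602836) (nat_lit 65) (nat_lit 5) (nat_lit 66) (nat_lit 5) (nat_lit 67) (nat_lit 4) (nat_lit 522) (nat_lit 424) (nat_lit 254))))) (XT.nd (nat_lit 312) (nat_lit 304) (nat_lit 0) (XT.nd (nat_lit 156) (nat_lit 76) (nat_lit 0) (XT.nd (nat_lit 78) (nat_lit 152) (nat_lit 0) (XT.lf (nat_lit 0) (nat_lit 8412467827) (nat_lit 152) (nat_lit 19700626510) (nat_lit 76) (nat_lit 21374589557) (nat_lit 64) (nat_lit 5) (nat_lit 66) (nat_lit 5) (nat_lit 65) (nat_lit 5) (nat_lit 523) (nat_lit 424) (nat_lit 253)) (XT.lf (nat_lit 0) (nat_lit 7453926783) (nat_lit 152) (nat_lit 13624667695) (nat_lit 228) (nat_lit 29445393237) (nat_lit 62) (nat_lit 5) (nat_lit 64) (nat_lit 5) (nat_lit 65) (nat_lit 5) (nat_lit 524) (nat_lit 424) (nat_lit 252))) (XT.nd (nat_lit 78) (nat_lit 76) (nat_lit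 0) (XT.lf (nat_lit 0) (nat_lit 34332562456) (nat_lit 228) (nat_lit 15783186141) (nat_lit 76) (nat_lit 1469396608) (nat_lit 62) (nat_lit 5) (nat_lit 65) (nat_lit 5) (nat_lit 63) (nat_lit 4) (nat_lit 525) (nat_lit 424) (nat_lit 251)) (XT.lf (nat_lit 0) (nat_lit 12419768090) (nat_lit 76) (nat_lit 35813295605) (nat_lit 152) (nat_lit 4437606569) (nat_lit 61) (nat_lit 5) (nat_lit 62) (nat_lit 5) (nat_lit 63) (nat_lit 4) (nat_lit 526) (nat_lit 424) (nat_lit 250)))) (XT.nd (nat_lit 156) (nat_lit 76) (nat_lit 0) (XT.nd (nat_lit 78) (nat_lit 152) (nat_lit 0) (XT.lf (nat_lit 0) (nat_lit 8746440171) (nat_lit 152) (nat_lit 12087423473) (nat_lit 76) (nat_lit 32947703090) (nat_lit 60) (nat_lit 5) (nat_lit 62) (nat_lit 5) (nat_lit 61) (nat_lit 5) (nat_lit 527) (nat_lit 424) (nat_lit 249)) (XT.lf (nat_lit 0) (nat_lit 17203014112) (nat_lit 152) (nat_lit 5193963429) (nat_lit 228) (nat_lit 32522689883) (nat_lit 58) (nat_lit 5) (nat_lit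 60) (nat_lit 5) (nat_lit 61) (nat_lit 5) (nat_lit 528) (nat_lit 424) (nat_lit 248))) (XT.nd (nat_lit 78) (nat_lit 76) (nat_lit 0) (XT.lf (nat_lit 0) (nat_lit 36680032977) (nat_lit 228) (nat_lit 8584153823) (nat_lit 76) (nat_lit 10821034517) (nat_lit 58) (nat_lit 5) (nat_lit 61) (nat_lit 5) (nat_lit 59) (nat_lit 4) (nat_lit 529) (nat_lit 424) (nat_lit 247)) (XT.lf (nat_lit 0) (nat_lit 21786595093) (nat_lit 76) (nat_lit 29860798789) (nat_lit 152) (nat_lit 5630673764) (nat_lit 57) (nat_lit 5) (nat_lit 58) (nat_lit 5) (nat_lit 59) (nat_lit 4) (nat_lit 530) (nat_lit 424) (nat_lit 246)))))) (XT.nd (nat_lit 624) (nat_lit 532) (nat_lit 0) (XT.nd (nat_lit 312) (nat_lit 304) (nat_lit 0) (XT.nd (nat_lit 156) (nat_lit 76) (nat_lit 0) (XT.nd (nat_lit 78) (nat_lit 152) (nat_lit 0) (XT.lf (nat_lit 0) (nat_lit 8472607971) (nat_lit 152) (nat_lit 5352222709) (nat_lit 76) (nat_lit 44676925899) (nat_lit 56) (nat_lit 5) (nat_lit 58)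 (nat_lit 5) (nat_lit 57) (nat_lit 5) (nat_lit 531) (nat_lit 424) (nat_lit 245)) (XT.lf (nat_lit 0) (nat_lit 23161049075) (nat_lit 228) (nat_lit 33645669972) (nat_lit 76) (nat_lit 2945507911) (nat_lit 54) (nat_lit 5) (nat_lit 57) (nat_lit 5) (nat_lit 55) (nat_lit 4) (nat_lit 532) (nat_lit 424) (nat_lit 244))) (XT.nd (nat_lit 78) (nat_lit 76) (nat_lit 0) (XT.lf (nat_lit 0) (nat_lit 38476735375) (nat_lit 228) (nat_lit 2566371535) (nat_lit 76) (nat_lit 19991506987) (nat_lit 54) (nat_lit 5) (nat_lit 57) (nat_lit 5) (nat_lit 55) (nat_lit 4) (nat_lit 533) (nat_lit 424) (nat_lit 243)) (XT.lf (nat_lit 0) (nat_lit 30022232942) (nat_lit 76) (nat_lit 24513523604) (nat_lit 152) (nat_lit 7811200174) (nat_lit 53) (nat_lit 5) (nat_lit 54) (nat_lit 5) (nat_lit 55) (nat_lit 4) (nat_lit 534) (nat_lit 424) (nat_lit 242)))) (XT.nd (nat_lit 156) (nat_lit 76) (nat_lit 0) (XT.nd (nat_lit 78) (nat_lit 152) (nat_lit 0) (XT.lf (nat_lit 0)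 (nat_lit 7255360029) (nat_lit 152) (nat_lit 136887549) (nat_lit 76) (nat_lit 56303651302) (nat_lit 52) (nat_lit 5) (nat_lit 54) (nat_lit 5) (nat_lit 53) (nat_lit 5) (nat_lit 535) (nat_lit 424) (nat_lit 241)) (XT.lf (nat_lit 0) (nat_lit 23037566438) (nat_lit 228) (nat_lit 31589856603) (nat_lit 76) (nat_lit 10442946888) (nat_lit 50) (nat_lit 5) (nat_lit 53) (nat_lit 5) (nat_lit 51) (nat_lit 4) (nat_lit 536) (nat_lit 424) (nat_lit 240))) (XT.nd (nat_lit 78) (nat_lit 0) (nat_lit 0) (XT.lf (nat_lit 0) (nat_lit 1572005799) (nat_lit 76) (nat_lit 37806359166) (nat_lit 152) (nat_lit 27105156547) (nat_lit 49) (nat_lit 5) (nat_lit 50) (nat_lit 5) (nat_lit 51) (nat_lit 4) (nat_lit 537) (nat_lit 424) (nat_lit 239)) (XT.lf (nat_lit 0) (nat_lit 36367696115) (nat_lit 76) (nat_lit 20156165828) (nat_lit 152) (nat_lit 11405771638) (nat_lit 49) (nat_lit 5) (nat_lit 50) (nat_lit 5) (nat_lit 51) (nat_lit 4) (nat_lit 538) (nat_lit 424)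 (nat_lit 238))))) (XT.nd (nat_lit 312) (nat_lit 228) (nat_lit 0) (XT.nd (nat_lit 156) (nat_lit 76) (nat_lit 0) (XT.nd (nat_lit 78) (nat_lit 0) (nat_lit 0) (XT.lf (nat_lit 0) (nat_lit 2788310639) (nat_lit 152) (nat_lit 1905679663) (nat_lit 228) (nat_lit 64723093770) (nat_lit 46) (nat_lit 5) (nat_lit 48) (nat_lit 5) (nat_lit 49) (nat_lit 5) (nat_lit 539) (nat_lit 424) (nat_lit 237)) (XT.lf (nat_lit 0) (nat_lit 21527326747) (nat_lit 228) (nat_lit 32410443309) (nat_lit 76) (nat_lit 16993605538) (nat_lit 46) (nat_lit 5) (nat_lit 49) (nat_lit 5) (nat_lit 47) (nat_lit 4) (nat_lit 540) (nat_lit 424) (nat_lit 236))) (XT.nd (nat_lit 78) (nat_lit 0) (nat_lit 0) (XT.lf (nat_lit 0) (nat_lit 2863248401) (nat_lit 76) (nat_lit 36044512874) (nat_lit 152) (nat_lit 33582071802) (nat_lit 45) (nat_lit 5) (nat_lit 46) (nat_lit 5) (nat_lit 47) (nat_lit 4) (nat_lit 541) (nat_lit 424) (nat_lit 235)) (XT.lf (nat_lit 0) (nat_lit 39851421004)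 (nat_lit 76) (nat_lit 17281223413) (nat_lit 152) (nat_lit 16952708950) (nat_lit 45) (nat_lit 5) (nat_lit 46) (nat_lit 5) (nat_lit 47) (nat_lit 4) (nat_lit 542) (nat_lit 424) (nat_lit 234)))) (XT.nd (nat_lit 156) (nat_lit 76) (nat_lit 0) (XT.nd (nat_lit 78) (nat_lit 0) (nat_lit 0) (XT.lf (nat_lit 0) (nat_lit 209473152) (nat_lit 152) (nat_lit 73493162143) (nat_lit 76) (nat_lit 2024932582) (nat_lit 43) (nat_lit 5) (nat_lit 45) (nat_lit 5) (nat_lit 44) (nat_lit 4) (nat_lit 543) (nat_lit 424) (nat_lit 233)) (XT.lf (nat_lit 0) (nat_lit 18061853309) (nat_lit 152) (nat_lit 37260462866) (nat_lit 76) (nat_lit 22076215369) (nat_lit 43) (nat_lit 5) (nat_lit 45) (nat_lit 5) (nat_lit 44) (nat_lit 4) (nat_lit 544) (nat_lit 424) (nat_lit 232))) (XT.nd (nat_lit 78) (nat_lit 0) (nat_lit 0) (XT.lf (nat_lit 0) (nat_lit 52505669) (nat_lit 76) (nat_lit 36393770631) (nat_lit 152) (nat_lit 42673453811) (nat_lit 42) (nat_lit 5) (nat_lit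 43) (nat_lit 5) (nat_lit 44) (nat_lit 4) (nat_lit 545) (nat_lit 424) (nat_lit 231)) (XT.lf (nat_lit 0) (nat_lit 39241005770) (nat_lit 76) (nat_lit 16513494378) (nat_lit 152) (nat_lit 25126896572) (nat_lit 42) (nat_lit 5) (nat_lit 43) (nat_lit 5) (nat_lit 44) (nat_lit 4) (nat_lit 546) (nat_lit 424) (nat_lit 230))))))))
noncomputable def xc154 : XT := (XT.nd (nat_lit 55068) (nat_lit 0) (nat_lit 7144) (XT.nd (nat_lit 53898) (nat_lit 0) (nat_lit 14592) (XT.nd (nat_lit 53274) (nat_lit 0) (nat_lit 19380) (XT.nd (nat_lit 52962) (nat_lit 0) (nat_lit 20216) (XT.nd (nat_lit 78) (nat_lit 152) (nat_lit 0) (XT.lf (nat_lit 0) (nat_lit 75676159806) (nat_lit 152) (nat_lit 3136368454) (nat_lit 0) (nat_lit 3882359519) (nat_lit 42) (nat_lit 5) (nat_lit 44) (nat_lit 4) (nat_lit 42) (nat_lit 4) (nat_lit 547) (nat_lit 424) (nat_lit 229)) (XT.nd (nat_lit 78) (nat_lit 0) (nat_lit 0) (XT.lf (nat_lit 0) (nat_lit 11926897998) (nat_lit 152)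 (nat_lit 47588781163) (nat_lit 76) (nat_lit 25028113677) (nat_lit 40) (nat_lit 5) (nat_lit 42) (nat_lit 5) (nat_lit 41) (nat_lit 4) (nat_lit 548) (nat_lit 424) (nat_lit 228)) (XT.lf (nat_lit 0) (nat_lit 31328018049) (nat_lit 152) (nat_lit 8210899508) (nat_lit 76) (nat_lit 46906316991) (nat_lit 40) (nat_lit 5) (nat_lit 42) (nat_lit 5) (nat_lit 41) (nat_lit 4) (nat_lit 549) (nat_lit 424) (nat_lit 227)))) (XT.nd (nat_lit 156) (nat_lit 0) (nat_lit 76) (XT.nd (nat_lit 78) (nat_lit 0) (nat_lit 0) (XT.lf (nat_lit 0) (nat_lit 506796723) (nat_lit 1140) (nat_lit 2025117467) (nat_lit 1140) (nat_lit 2025117467) (nat_lit 306) (nat_lit 3) (nat_lit 321) (nat_lit 3) (nat_lit 321) (nat_lit 5) (nat_lit 425) (nat_lit 425) (nat_lit 350)) (XT.lf (nat_lit 76) (nat_lit 429805663) (nat_lit 0) (nat_lit 1471176652) (nat_lit 1140) (nat_lit 7323405617) (nat_lit 307) (nat_lit 5) (nat_lit 306) (nat_lit 3) (nat_lit 321) (nat_lit 5) (nat_lit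 426) (nat_lit 425) (nat_lit 349))) (XT.nd (nat_lit 78) (nat_lit 0) (nat_lit 0) (XT.lf (nat_lit 0) (nat_lit 2843833603) (nat_lit 1064) (nat_lit 4250340805) (nat_lit 1140) (nat_lit 2242991270) (nat_lit 307) (nat_lit 5) (nat_lit 321) (nat_lit 5) (nat_lit 322) (nat_lit 5) (nat_lit 427) (nat_lit 425) (nat_lit 348)) (XT.lf (nat_lit 76) (nat_lit 405135483) (nat_lit 0) (nat_lit 3395390041) (nat_lit 1140) (nat_lit 5653242945) (nat_lit 308) (nat_lit 5) (nat_lit 307) (nat_lit 5) (nat_lit 322) (nat_lit 5) (nat_lit 428) (nat_lit 425) (nat_lit 347))))) (XT.nd (nat_lit 312) (nat_lit 988) (nat_lit 0) (XT.nd (nat_lit 156) (nat_lit 0) (nat_lit 0) (XT.nd (nat_lit 78) (nat_lit 0) (nat_lit 0) (XT.lf (nat_lit 0) (nat_lit 4801257213) (nat_lit 1064) (nat_lit 4308942269) (nat_lit 1140) (nat_lit 463217816) (nat_lit 308) (nat_lit 5) (nat_lit 322) (nat_lit 5) (nat_lit 323) (nat_lit 5) (nat_lit 429) (nat_lit 425) (nat_lit 346)) (XT.lf (nat_lit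 76) (nat_lit 530888375) (nat_lit 0) (nat_lit 5308786031) (nat_lit 1140) (nat_lit 3856759163) (nat_lit 309) (nat_lit 5) (nat_lit 308) (nat_lit 5) (nat_lit 323) (nat_lit 5) (nat_lit 430) (nat_lit 425) (nat_lit 345))) (XT.nd (nat_lit 78) (nat_lit 0) (nat_lit 76) (XT.lf (nat_lit 76) (nat_lit 5585634657) (nat_lit 0) (nat_lit 1336789644) (nat_lit 1140) (nat_lit 2900328278) (nat_lit 309) (nat_lit 5) (nat_lit 308) (nat_lit 5) (nat_lit 323) (nat_lit 5) (nat_lit 431) (nat_lit 425) (nat_lit 344)) (XT.lf (nat_lit 76) (nat_lit 809413409) (nat_lit 0) (nat_lit 7233161691) (nat_lit 1140) (nat_lit 1910145939) (nat_lit 310) (nat_lit 5) (nat_lit 309) (nat_lit 5) (nat_lit 324) (nat_lit 5) (nat_lit 432) (nat_lit 425) (nat_lit 343)))) (XT.nd (nat_lit 156) (nat_lit 0) (nat_lit 0) (XT.nd (nat_lit 78) (nat_lit 1064) (nat_lit 0) (XT.lf (nat_lit 76) (nat_lit 6061818747) (nat_lit 0) (nat_lit 3161738259) (nat_lit 1140) (nat_lit 862221966)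 (nat_lit 310) (nat_lit 5) (nat_lit 309) (nat_lit 5) (nat_lit 324) (nat_lit 5) (nat_lit 433) (nat_lit 425) (nat_lit 342)) (XT.lf (nat_lit 0) (nat_lit 206975356) (nat_lit 1140) (nat_lit 8980978627) (nat_lit 1216) (nat_lit 1034996659) (nat_lit 295) (nat_lit 5) (nat_lit 310) (nat_lit 5) (nat_lit 311) (nat_lit 5) (nat_lit 434) (nat_lit 425) (nat_lit 341))) (XT.nd (nat_lit 78) (nat_lit 0) (nat_lit 0) (XT.lf (nat_lit 0) (nat_lit 1335869491) (nat_lit 1140) (nat_lit 3674518459) (nat_lit 1216) (nat_lit 5352251491) (nat_lit 295) (nat_lit 5) (nat_lit 310) (nat_lit 5) (nat_lit 311) (nat_lit 5) (nat_lit 435) (nat_lit 425) (nat_lit 340)) (XT.lf (nat_lit 76) (nat_lit 1807349058) (nat_lit 0) (nat_lit 682062440) (nat_lit 1216) (nat_lit 8017390386) (nat_lit 296) (nat_lit 5) (nat_lit 295) (nat_lit 5) (nat_lit 311) (nat_lit 5) (nat_lit 436) (nat_lit 425) (nat_lit 339)))))) (XT.nd (nat_lit 546) (nat_lit 3800) (nat_lit 0) (XT.nd (nat_lit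 234) (nat_lit 1064) (nat_lit 0) (XT.nd (nat_lit 78) (nat_lit 0) (nat_lit 0) (XT.lf (nat_lit 0) (nat_lit 3725400306) (nat_lit 1140) (nat_lit 3181567387) (nat_lit 1216) (nat_lit 3746892514) (nat_lit 296) (nat_lit 5) (nat_lit 311) (nat_lit 5) (nat_lit 312) (nat_lit 5) (nat_lit 437) (nat_lit 425) (nat_lit 338)) (XT.nd (nat_lit 78) (nat_lit 0) (nat_lit 76) (XT.lf (nat_lit 76) (nat_lit 2525230000) (nat_lit 0) (nat_lit 2479090610) (nat_lit 1216) (nat_lit 5800840160) (nat_lit 297) (nat_lit 5) (nat_lit 296) (nat_lit 5) (nat_lit 312) (nat_lit 5) (nat_lit 438) (nat_lit 425) (nat_lit 337)) (XT.lf (nat_lit 0) (nat_lit 6349494178) (nat_lit 1140) (nat_lit 2531673302) (nat_lit 1216) (nat_lit 2079002167) (nat_lit 297) (nat_lit 5) (nat_lit 312) (nat_lit 5) (nat_lit 313) (nat_lit 5) (nat_lit 439) (nat_lit 425) (nat_lit 336)))) (XT.nd (nat_lit 156) (nat_lit 1140) (nat_lit 0) (XT.nd (nat_lit 78) (nat_lit 0) (nat_lit 76) (XT.lf (nat_lit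 76) (nat_lit 3411880857) (nat_lit 0) (nat_lit 4356630395) (nat_lit 1216) (nat_lit 3350318586) (nat_lit 298) (nat_lit 5) (nat_lit 297) (nat_lit 5) (nat_lit 313) (nat_lit 5) (nat_lit 440) (nat_lit 425) (nat_lit 335)) (XT.lf (nat_lit 0) (nat_lit 9235535424) (nat_lit 1140) (nat_lit 1718759506) (nat_lit 76) (nat_lit 327797338) (nat_lit 298) (nat_lit 5) (nat_lit 313) (nat_lit 5) (nat_lit 299) (nat_lit 5) (nat_lit 441) (nat_lit 425) (nat_lit 334))) (XT.nd (nat_lit 78) (nat_lit 76) (nat_lit 0) (XT.lf (nat_lit 0) (nat_lit 4474077955) (nat_lit 1140) (nat_lit 6336013272) (nat_lit 1216) (nat_lit 638261087) (nat_lit 283) (nat_lit 5) (nat_lit 298) (nat_lit 5) (nat_lit 299) (nat_lit 5) (nat_lit 442) (nat_lit 425) (nat_lit 333)) (XT.lf (nat_lit 0) (nat_lit 791591350) (nat_lit 1216) (nat_lit 758556518) (nat_lit 76) (nat_lit 10069368358) (nat_lit 282) (nat_lit 5) (nat_lit 298) (nat_lit 5) (nat_lit 283) (nat_lit 5) (nat_lit 443)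 (nat_lit 425) (nat_lit 332))))) (XT.nd (nat_lit 312) (nat_lit 1216) (nat_lit 0) (XT.nd (nat_lit 156) (nat_lit 608) (nat_lit 0) (XT.nd (nat_lit 78) (nat_lit 760) (nat_lit 0) (XT.lf (nat_lit 0) (nat_lit 2317994967) (nat_lit 1292) (nat_lit 6097481580) (nat_lit 76) (nat_lit 3378159318) (nat_lit 266) (nat_lit 5) (nat_lit 283) (nat_lit 5) (nat_lit 267) (nat_lit 5) (nat_lit 444) (nat_lit 425) (nat_lit 331)) (XT.lf (nat_lit 0) (nat_lit 359551947) (nat_lit 760) (nat_lit 3535938589) (nat_lit 836) (nat_lit 8077334333) (nat_lit 256) (nat_lit 5) (nat_lit 266) (nat_lit 5) (nat_lit 267) (nat_lit 5) (nat_lit 445) (nat_lit 425) (nat_lit 330))) (XT.nd (nat_lit 78) (nat_lit 608) (nat_lit 0) (XT.lf (nat_lit 0) (nat_lit 5576026038) (nat_lit 836) (nat_lit 5054987888) (nat_lit 76) (nat_lit 1524708798) (nat_lit 256) (nat_lit 5) (nat_lit 267) (nat_lit 5) (nat_lit 257) (nat_lit 5) (nat_lit 446) (nat_lit 425) (nat_lit 329)) (XT.lf (nat_lit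 0) (nat_lit 1678565915) (nat_lit 608) (nat_lit 5659372087) (nat_lit 684) (nat_lit 5005245198) (nat_lit 248) (nat_lit 5) (nat_lit 256) (nat_lit 5) (nat_lit 257) (nat_lit 5) (nat_lit 447) (nat_lit 425) (nat_lit 328)))) (XT.nd (nat_lit 156) (nat_lit 608) (nat_lit 0) (XT.nd (nat_lit 78) (nat_lit 608) (nat_lit 0) (XT.lf (nat_lit 0) (nat_lit 8698711757) (nat_lit 608) (nat_lit 485261634) (nat_lit 684) (nat_lit 3351360482) (nat_lit 248) (nat_lit 5) (nat_lit 256) (nat_lit 5) (nat_lit 257) (nat_lit 5) (nat_lit 448) (nat_lit 425) (nat_lit 327)) (XT.lf (nat_lit 0) (nat_lit 3192883717) (nat_lit 608) (nat_lit 7950565892) (nat_lit 684) (nat_lit 1588061904) (nat_lit 240) (nat_lit 5) (nat_lit 248) (nat_lit 5) (nat_lit 249) (nat_lit 5) (nat_lit 449) (nat_lit 425) (nat_lit 326))) (XT.nd (nat_lit 78) (nat_lit 532) (nat_lit 0) (XT.lf (nat_lit 0) (nat_lit 248605277) (nat_lit 684) (nat_lit 2447136655) (nat_lit 76) (nat_lit 10237023115)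 (nat_lit 239) (nat_lit 5) (nat_lit 248) (nat_lit 5) (nat_lit 240) (nat_lit 5) (nat_lit 450) (nat_lit 425) (nat_lit 325)) (XT.lf (nat_lit 0) (nat_lit 2164015896) (nat_lit 608) (nat_lit 8246807296) (nat_lit 76) (nat_lit 2727098314) (nat_lit 232) (nat_lit 5) (nat_lit 240) (nat_lit 5) (nat_lit 233) (nat_lit 5) (nat_lit 451) (nat_lit 425) (nat_lit 324))))))) (XT.nd (nat_lit 1170) (nat_lit 3496) (nat_lit 0) (XT.nd (nat_lit 546) (nat_lit 1824) (nat_lit 0) (XT.nd (nat_lit 234) (nat_lit 1064) (nat_lit 0) (XT.nd (nat_lit 78) (nat_lit 1064) (nat_lit 0) (XT.lf (nat_lit 0) (nat_lit 4170435262) (nat_lit 608) (nat_lit 894813096) (nat_lit 76) (nat_lit 8282981676) (nat_lit 232) (nat_lit 5) (nat_lit 240) (nat_lit 5) (nat_lit 233) (nat_lit 5) (nat_lit 452) (nat_lit 425) (nat_lit 323)) (XT.nd (nat_lit 78) (nat_lit 532) (nat_lit 0) (XT.lf (nat_lit 0) (nat_lit 6289634589) (nat_lit 608) (nat_lit 6776528830) (nat_lit 76) (nat_lit 497110433)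 (nat_lit 225) (nat_lit 5) (nat_lit 233) (nat_lit 5) (nat_lit 226) (nat_lit 5) (nat_lit 453) (nat_lit 425) (nat_lit 322)) (XT.lf (nat_lit 0) (nat_lit 880703416) (nat_lit 532) (nat_lit 7642200981) (nat_lit 608) (nat_lit 5260353302) (nat_lit 218) (nat_lit 5) (nat_lit 225) (nat_lit 5) (nat_lit 226) (nat_lit 5) (nat_lit 454) (nat_lit 425) (nat_lit 321)))) (XT.nd (nat_lit 156) (nat_lit 532) (nat_lit 0) (XT.nd (nat_lit 78) (nat_lit 532) (nat_lit 0) (XT.lf (nat_lit 0) (nat_lit 8887912892) (nat_lit 532) (nat_lit 1986764472) (nat_lit 608) (nat_lit 3133621991) (nat_lit 218) (nat_lit 5) (nat_lit 225) (nat_lit 5) (nat_lit 226) (nat_lit 5) (nat_lit 455) (nat_lit 425) (nat_lit 320)) (XT.lf (nat_lit 0) (nat_lit 2896277928) (nat_lit 532) (nat_lit 10449015053) (nat_lit 608) (nat_lit 893353944) (nat_lit 211) (nat_lit 5) (nat_lit 218) (nat_lit 5) (nat_lit 219) (nat_lit 5) (nat_lit 456) (nat_lit 425) (nat_lit 319))) (XT.nd (nat_lit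 78) (nat_lit 456) (nat_lit 0) (XT.lf (nat_lit 0) (nat_lit 1442107587) (nat_lit 608) (nat_lit 3268459208) (nat_lit 76) (nat_lit 9763266076) (nat_lit 210) (nat_lit 5) (nat_lit 218) (nat_lit 5) (nat_lit 211) (nat_lit 5) (nat_lit 457) (nat_lit 425) (nat_lit 318)) (XT.lf (nat_lit 0) (nat_lit 3875153423) (nat_lit 532) (nat_lit 9606343639) (nat_lit 76) (nat_lit 1232950765) (nat_lit 204) (nat_lit 5) (nat_lit 211) (nat_lit 5) (nat_lit 205) (nat_lit 5) (nat_lit 458) (nat_lit 425) (nat_lit 317))))) (XT.nd (nat_lit 312) (nat_lit 912) (nat_lit 0) (XT.nd (nat_lit 156) (nat_lit 456) (nat_lit 0) (XT.nd (nat_lit 78) (nat_lit 456) (nat_lit 0) (XT.lf (nat_lit 0) (nat_lit 6445592408) (nat_lit 532) (nat_lit 1223748443) (nat_lit 76) (nat_lit 7291011299) (nat_lit 204) (nat_lit 5) (nat_lit 211) (nat_lit 5) (nat_lit 205) (nat_lit 5) (nat_lit 459) (nat_lit 425) (nat_lit 316)) (XT.lf (nat_lit 0) (nat_lit 7539529534) (nat_lit 456) (nat_lit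 1610973761) (nat_lit 532) (nat_lit 6061412432) (nat_lit 198) (nat_lit 5) (nat_lit 204) (nat_lit 5) (nat_lit 205) (nat_lit 5) (nat_lit 460) (nat_lit 425) (nat_lit 315))) (XT.nd (nat_lit 78) (nat_lit 0) (nat_lit 0) (XT.lf (nat_lit 0) (nat_lit 1078395752) (nat_lit 456) (nat_lit 10910635967) (nat_lit 532) (nat_lit 3480423190) (nat_lit 192) (nat_lit 5) (nat_lit 198) (nat_lit 5) (nat_lit 199) (nat_lit 5) (nat_lit 461) (nat_lit 425) (nat_lit 314)) (XT.lf (nat_lit 0) (nat_lit 10214724825) (nat_lit 456) (nat_lit 4776647457) (nat_lit 532) (nat_lit 740991016) (nat_lit 192) (nat_lit 5) (nat_lit 198) (nat_lit 5) (nat_lit 199) (nat_lit 5) (nat_lit 462) (nat_lit 425) (nat_lit 313)))) (XT.nd (nat_lit 156) (nat_lit 380) (nat_lit 0) (XT.nd (nat_lit 78) (nat_lit 0) (nat_lit 0) (XT.lf (nat_lit 0) (nat_lit 2076161747) (nat_lit 532) (nat_lit 12361697905) (nat_lit 76) (nat_lit 1563617701) (nat_lit 185) (nat_lit 5) (nat_lit 192) (nat_lit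 5) (nat_lit 186) (nat_lit 5) (nat_lit 463) (nat_lit 425) (nat_lit 312)) (XT.lf (nat_lit 0) (nat_lit 5052382275) (nat_lit 532) (nat_lit 3165115345) (nat_lit 76) (nat_lit 8058266212) (nat_lit 185) (nat_lit 5) (nat_lit 192) (nat_lit 5) (nat_lit 186) (nat_lit 5) (nat_lit 464) (nat_lit 425) (nat_lit 311))) (XT.nd (nat_lit 78) (nat_lit 0) (nat_lit 0) (XT.lf (nat_lit 0) (nat_lit 6415103375) (nat_lit 380) (nat_lit 1750746933) (nat_lit 456) (nat_lit 8390992188) (nat_lit 180) (nat_lit 5) (nat_lit 185) (nat_lit 5) (nat_lit 186) (nat_lit 5) (nat_lit 465) (nat_lit 425) (nat_lit 310)) (XT.lf (nat_lit 0) (nat_lit 11438689883) (nat_lit 456) (nat_lit 562940743) (nat_lit 76) (nat_lit 4842746215) (nat_lit 180) (nat_lit 5) (nat_lit 186) (nat_lit 5) (nat_lit 181) (nat_lit 5) (nat_lit 466) (nat_lit 425) (nat_lit 309)))))) (XT.nd (nat_lit 624) (nat_lit 1520) (nat_lit 0) (XT.nd (nat_lit 312) (nat_lit 760) (nat_lit 0) (XT.nd (nat_lit 156)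 (nat_lit 380) (nat_lit 0) (XT.nd (nat_lit 78) (nat_lit 456) (nat_lit 0) (XT.lf (nat_lit 0) (nat_lit 9453225735) (nat_lit 380) (nat_lit 5451578281) (nat_lit 456) (nat_lit 2232882799) (nat_lit 175) (nat_lit 5) (nat_lit 180) (nat_lit 5) (nat_lit 181) (nat_lit 5) (nat_lit 467) (nat_lit 425) (nat_lit 308)) (XT.lf (nat_lit 0) (nat_lit 1043101478) (nat_lit 456) (nat_lit 15091197602) (nat_lit 76) (nat_lit 1304354816) (nat_lit 169) (nat_lit 5) (nat_lit 175) (nat_lit 5) (nat_lit 170) (nat_lit 5) (nat_lit 468) (nat_lit 425) (nat_lit 307))) (XT.nd (nat_lit 78) (nat_lit 380) (nat_lit 0) (XT.lf (nat_lit 0) (nat_lit 4491977710) (nat_lit 456) (nat_lit 5002717453) (nat_lit 76) (nat_lit 8249708943) (nat_lit 169) (nat_lit 5) (nat_lit 175) (nat_lit 5) (nat_lit 170) (nat_lit 5) (nat_lit 469) (nat_lit 425) (nat_lit 306)) (XT.lf (nat_lit 0) (nat_lit 5478429294) (nat_lit 380) (nat_lit 2606076102) (nat_lit 456) (nat_lit 9973617895) (nat_lit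 164) (nat_lit 5) (nat_lit 169) (nat_lit 5) (nat_lit 170) (nat_lit 5) (nat_lit 470) (nat_lit 425) (nat_lit 305)))) (XT.nd (nat_lit 156) (nat_lit 456) (nat_lit 0) (XT.nd (nat_lit 78) (nat_lit 304) (nat_lit 0) (XT.lf (nat_lit 0) (nat_lit 11866662660) (nat_lit 456) (nat_lit 2063883890) (nat_lit 76) (nat_lit 4448253856) (nat_lit 164) (nat_lit 5) (nat_lit 170) (nat_lit 5) (nat_lit 165) (nat_lit 5) (nat_lit 471) (nat_lit 425) (nat_lit 304)) (XT.lf (nat_lit 0) (nat_lit 8898686427) (nat_lit 304) (nat_lit 6962982296) (nat_lit 380) (nat_lit 2844449498) (nat_lit 160) (nat_lit 5) (nat_lit 164) (nat_lit 5) (nat_lit 165) (nat_lit 5) (nat_lit 472) (nat_lit 425) (nat_lit 303))) (XT.nd (nat_lit 78) (nat_lit 0) (nat_lit 0) (XT.lf (nat_lit 0) (nat_lit 938049272) (nat_lit 456) (nat_lit 17857622247) (nat_lit 76) (nat_lit 246626975) (nat_lit 154) (nat_lit 5) (nat_lit 160) (nat_lit 5) (nat_lit 155) (nat_lit 5) (nat_lit 473) (nat_lit 425)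 (nat_lit 302)) (XT.lf (nat_lit 0) (nat_lit 4934065304) (nat_lit 456) (nat_lit 6792863235) (nat_lit 76) (nat_lit 7656076109) (nat_lit 154) (nat_lit 5) (nat_lit 160) (nat_lit 5) (nat_lit 155) (nat_lit 5) (nat_lit 474) (nat_lit 425) (nat_lit 301))))) (XT.nd (nat_lit 312) (nat_lit 532) (nat_lit 0) (XT.nd (nat_lit 156) (nat_lit 684) (nat_lit 0) (XT.nd (nat_lit 78) (nat_lit 0) (nat_lit 0) (XT.lf (nat_lit 0) (nat_lit 4678851872) (nat_lit 304) (nat_lit 4404684099) (nat_lit 380) (nat_lit 10649390486) (nat_lit 150) (nat_lit 5) (nat_lit 154) (nat_lit 5) (nat_lit 155) (nat_lit 5) (nat_lit 475) (nat_lit 425) (nat_lit 300)) (XT.lf (nat_lit 0) (nat_lit 13445649557) (nat_lit 380) (nat_lit 3504578214) (nat_lit 76) (nat_lit 3140475032) (nat_lit 150) (nat_lit 5) (nat_lit 155) (nat_lit 5) (nat_lit 151) (nat_lit 5) (nat_lit 476) (nat_lit 425) (nat_lit 299))) (XT.nd (nat_lit 78) (nat_lit 380) (nat_lit 0) (XT.lf (nat_lit 0) (nat_lit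 8497671229) (nat_lit 304) (nat_lit 9555307267) (nat_lit 380) (nat_lit 2402804983) (nat_lit 146) (nat_lit 5) (nat_lit 150) (nat_lit 5) (nat_lit 151) (nat_lit 5) (nat_lit 477) (nat_lit 425) (nat_lit 298)) (XT.lf (nat_lit 0) (nat_lit 67124802) (nat_lit 304) (nat_lit 1886708508) (nat_lit 380) (nat_lit 18876652609) (nat_lit 141) (nat_lit 5) (nat_lit 145) (nat_lit 5) (nat_lit 146) (nat_lit 5) (nat_lit 478) (nat_lit 425) (nat_lit 297)))) (XT.nd (nat_lit 156) (nat_lit 228) (nat_lit 0) (XT.nd (nat_lit 78) (nat_lit 304) (nat_lit 0) (XT.lf (nat_lit 0) (nat_lit 6561846967) (nat_lit 380) (nat_lit 8613454538) (nat_lit 76) (nat_lit 6035346580) (nat_lit 141) (nat_lit 5) (nat_lit 146) (nat_lit 5) (nat_lit 142) (nat_lit 5) (nat_lit 479) (nat_lit 425) (nat_lit 296)) (XT.lf (nat_lit 0) (nat_lit 3943571757) (nat_lit 304) (nat_lit 7410661878) (nat_lit 380) (nat_lit 10246598921) (nat_lit 137) (nat_lit 5) (nat_lit 141) (nat_lit 5) (nat_lit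 142) (nat_lit 5) (nat_lit 480) (nat_lit 425) (nat_lit 295))) (XT.nd (nat_lit 78) (nat_lit 228) (nat_lit 0) (XT.lf (nat_lit 0) (nat_lit 16373523795) (nat_lit 380) (nat_lit 4968497440) (nat_lit 76) (nat_lit 658208749) (nat_lit 137) (nat_lit 5) (nat_lit 142) (nat_lit 5) (nat_lit 138) (nat_lit 5) (nat_lit 481) (nat_lit 425) (nat_lit 294)) (XT.lf (nat_lit 0) (nat_lit 8171717039) (nat_lit 228) (nat_lit 13513551420) (nat_lit 304) (nat_lit 722085939) (nat_lit 134) (nat_lit 5) (nat_lit 137) (nat_lit 5) (nat_lit 138) (nat_lit 5) (nat_lit 482) (nat_lit 425) (nat_lit 293))))))))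
noncomputable def xc155 : XT := (XT.nd (nat_lit 2340) (nat_lit 2660) (nat_lit 0) (XT.nd (nat_lit 1170) (nat_lit 1672) (nat_lit 0) (XT.nd (nat_lit 546) (nat_lit 1216) (nat_lit 0) (XT.nd (nat_lit 234) (nat_lit 608) (nat_lit 0) (XT.nd (nat_lit 78) (nat_lit 532) (nat_lit 0) (XT.lf (nat_lit 0) (nat_lit 4285853358) (nat_lit 304) (nat_lit 1074665159) (nat_lit 76) (nat_lit 17463706668) (nat_lit 133) (nat_lit 5) (nat_lit 137) (nat_lit 5) (nat_lit 134) (nat_lit 5) (nat_lit 483) (nat_lit 425) (nat_lit 292)) (XT.nd (nat_lit 78) (nat_lit 228) (nat_lit 0) (XT.lf (nat_lit 0) (nat_lit 9572380697) (nat_lit 380) (nat_lit 10573395184) (nat_lit 76) (nat_lit 3103327065) (nat_lit 129) (nat_lit 5) (nat_lit 134) (nat_lit 5) (nat_lit 130) (nat_lit 5) (nat_lit 484) (nat_lit 425) (nat_lit 291)) (XT.lf (nat_lit 0) (nat_lit 3167860378) (nat_lit 228) (nat_lit 11934510296) (nat_lit 304) (nat_lit 8581811552) (nat_lit 126) (nat_lit 5) (nat_lit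 129) (nat_lit 5) (nat_lit 130) (nat_lit 5) (nat_lit 485) (nat_lit 425) (nat_lit 290)))) (XT.nd (nat_lit 156) (nat_lit 228) (nat_lit 0) (XT.nd (nat_lit 78) (nat_lit 380) (nat_lit 0) (XT.lf (nat_lit 0) (nat_lit 17523250770) (nat_lit 228) (nat_lit 3372299079) (nat_lit 304) (nat_lit 3233846504) (nat_lit 126) (nat_lit 5) (nat_lit 129) (nat_lit 5) (nat_lit 130) (nat_lit 5) (nat_lit 486) (nat_lit 425) (nat_lit 289)) (XT.lf (nat_lit 0) (nat_lit 2349486629) (nat_lit 380) (nat_lit 16800785169) (nat_lit 76) (nat_lit 5433460842) (nat_lit 121) (nat_lit 5) (nat_lit 126) (nat_lit 5) (nat_lit 122) (nat_lit 5) (nat_lit 487) (nat_lit 425) (nat_lit 288))) (XT.nd (nat_lit 78) (nat_lit 228) (nat_lit 0) (XT.lf (nat_lit 0) (nat_lit 8126865141) (nat_lit 380) (nat_lit 2391315537) (nat_lit 76) (nat_lit 14529812572) (nat_lit 121) (nat_lit 5) (nat_lit 126) (nat_lit 5) (nat_lit 122) (nat_lit 5) (nat_lit 488) (nat_lit 425) (nat_lit 287)) (XT.lf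 (nat_lit 0) (nat_lit 12683687509) (nat_lit 228) (nat_lit 1506853088) (nat_lit 304) (nat_lit 11332252839) (nat_lit 118) (nat_lit 5) (nat_lit 121) (nat_lit 5) (nat_lit 122) (nat_lit 5) (nat_lit 489) (nat_lit 425) (nat_lit 286))))) (XT.nd (nat_lit 312) (nat_lit 684) (nat_lit 0) (XT.nd (nat_lit 156) (nat_lit 228) (nat_lit 0) (XT.nd (nat_lit 78) (nat_lit 76) (nat_lit 0) (XT.lf (nat_lit 0) (nat_lit 2202520675) (nat_lit 228) (nat_lit 18345026854) (nat_lit 304) (nat_lit 5460948458) (nat_lit 115) (nat_lit 5) (nat_lit 118) (nat_lit 5) (nat_lit 119) (nat_lit 5) (nat_lit 490) (nat_lit 425) (nat_lit 285)) (XT.lf (nat_lit 0) (nat_lit 712063958) (nat_lit 304) (nat_lit 8582502225) (nat_lit 76) (nat_lit 17209924832) (nat_lit 114) (nat_lit 5) (nat_lit 118) (nat_lit 5) (nat_lit 115) (nat_lit 5) (nat_lit 491) (nat_lit 425) (nat_lit 284))) (XT.nd (nat_lit 78) (nat_lit 0) (nat_lit 0) (XT.lf (nat_lit 0) (nat_lit 7022273077) (nat_lit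 304) (nat_lit 19843802061) (nat_lit 76) (nat_lit 145816624) (nat_lit 111) (nat_lit 5) (nat_lit 115) (nat_lit 5) (nat_lit 112) (nat_lit 5) (nat_lit 492) (nat_lit 425) (nat_lit 283)) (XT.lf (nat_lit 0) (nat_lit 13692822396) (nat_lit 304) (nat_lit 4071680517) (nat_lit 76) (nat_lit 9764881485) (nat_lit 111) (nat_lit 5) (nat_lit 115) (nat_lit 5) (nat_lit 112) (nat_lit 5) (nat_lit 493) (nat_lit 425) (nat_lit 282)))) (XT.nd (nat_lit 156) (nat_lit 304) (nat_lit 0) (XT.nd (nat_lit 78) (nat_lit 152) (nat_lit 0) (XT.lf (nat_lit 0) (nat_lit 12402005919) (nat_lit 228) (nat_lit 8272429974) (nat_lit 304) (nat_lit 7384638347) (nat_lit 108) (nat_lit 5) (nat_lit 111) (nat_lit 5) (nat_lit 112) (nat_lit 5) (nat_lit 494) (nat_lit 425) (nat_lit 281)) (XT.lf (nat_lit 0) (nat_lit 837758857) (nat_lit 152) (nat_lit 27083568559) (nat_lit 228) (nat_lit 681653309) (nat_lit 106) (nat_lit 5) (nat_lit 108) (nat_lit 5) (nat_lit 109) (nat_lit 5)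 (nat_lit 495) (nat_lit 425) (nat_lit 280))) (XT.nd (nat_lit 78) (nat_lit 228) (nat_lit 0) (XT.lf (nat_lit 0) (nat_lit 6334395983) (nat_lit 228) (nat_lit 11167057374) (nat_lit 76) (nat_lit 11652955524) (nat_lit 105) (nat_lit 5) (nat_lit 108) (nat_lit 5) (nat_lit 106) (nat_lit 5) (nat_lit 496) (nat_lit 425) (nat_lit 279)) (XT.lf (nat_lit 0) (nat_lit 6026605566) (nat_lit 228) (nat_lit 7570610515) (nat_lit 304) (nat_lit 16123462398) (nat_lit 102) (nat_lit 5) (nat_lit 105) (nat_lit 5) (nat_lit 106) (nat_lit 5) (nat_lit 497) (nat_lit 425) (nat_lit 278)))))) (XT.nd (nat_lit 546) (nat_lit 760) (nat_lit 0) (XT.nd (nat_lit 234) (nat_lit 684) (nat_lit 0) (XT.nd (nat_lit 78) (nat_lit 228) (nat_lit 0) (XT.lf (nat_lit 0) (nat_lit 21209466436) (nat_lit 304) (nat_lit 6375581858) (nat_lit 76) (nat_lit 2714942240) (nat_lit 102) (nat_lit 5) (nat_lit 106) (nat_lit 5) (nat_lit 103) (nat_lit 5) (nat_lit 498) (nat_lit 425) (nat_lit 277))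 (XT.nd (nat_lit 78) (nat_lit 76) (nat_lit 0) (XT.lf (nat_lit 0) (nat_lit 11600919567) (nat_lit 152) (nat_lit 17627978105) (nat_lit 228) (nat_lit 1662420598) (nat_lit 100) (nat_lit 5) (nat_lit 102) (nat_lit 5) (nat_lit 103) (nat_lit 5) (nat_lit 499) (nat_lit 425) (nat_lit 276)) (XT.lf (nat_lit 0) (nat_lit 5929052443) (nat_lit 228) (nat_lit 1322237075) (nat_lit 76) (nat_lit 24245648513) (nat_lit 99) (nat_lit 5) (nat_lit 102) (nat_lit 5) (nat_lit 100) (nat_lit 5) (nat_lit 500) (nat_lit 425) (nat_lit 275)))) (XT.nd (nat_lit 156) (nat_lit 304) (nat_lit 0) (XT.nd (nat_lit 78) (nat_lit 152) (nat_lit 0) (XT.lf (nat_lit 0) (nat_lit 13910453897) (nat_lit 304) (nat_lit 14652888627) (nat_lit 76) (nat_lit 3551022813) (nat_lit 96) (nat_lit 5) (nat_lit 100) (nat_lit 5) (nat_lit 97) (nat_lit 5) (nat_lit 501) (nat_lit 425) (nat_lit 274)) (XT.lf (nat_lit 0) (nat_lit 4080940761) (nat_lit 152) (nat_lit 18167498607) (nat_lit 228) (nat_lit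 10498362476) (nat_lit 94) (nat_lit 5) (nat_lit 96) (nat_lit 5) (nat_lit 97) (nat_lit 5) (nat_lit 502) (nat_lit 425) (nat_lit 273))) (XT.nd (nat_lit 78) (nat_lit 304) (nat_lit 0) (XT.lf (nat_lit 0) (nat_lit 23664621458) (nat_lit 152) (nat_lit 7312636772) (nat_lit 228) (nat_lit 2416733020) (nat_lit 94) (nat_lit 5) (nat_lit 96) (nat_lit 5) (nat_lit 97) (nat_lit 5) (nat_lit 503) (nat_lit 425) (nat_lit 272)) (XT.lf (nat_lit 0) (nat_lit 5918734394) (nat_lit 304) (nat_lit 24195596294) (nat_lit 76) (nat_lit 3940762807) (nat_lit 90) (nat_lit 5) (nat_lit 94) (nat_lit 5) (nat_lit 91) (nat_lit 5) (nat_lit 504) (nat_lit 425) (nat_lit 271))))) (XT.nd (nat_lit 312) (nat_lit 380) (nat_lit 0) (XT.nd (nat_lit 156) (nat_lit 228) (nat_lit 0) (XT.nd (nat_lit 78) (nat_lit 152) (nat_lit 0) (XT.lf (nat_lit 0) (nat_lit 14620225219) (nat_lit 304) (nat_lit 4607264199) (nat_lit 76) (nat_lit 15502886114) (nat_lit 90) (nat_lit 5) (nat_lit 94)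 (nat_lit 5) (nat_lit 91) (nat_lit 5) (nat_lit 505) (nat_lit 425) (nat_lit 270)) (XT.lf (nat_lit 0) (nat_lit 15866334547) (nat_lit 152) (nat_lit 7862060300) (nat_lit 228) (nat_lit 11693152712) (nat_lit 88) (nat_lit 5) (nat_lit 90) (nat_lit 5) (nat_lit 91) (nat_lit 5) (nat_lit 506) (nat_lit 425) (nat_lit 269))) (XT.nd (nat_lit 78) (nat_lit 76) (nat_lit 0) (XT.lf (nat_lit 0) (nat_lit 884337864) (nat_lit 152) (nat_lit 32311066203) (nat_lit 228) (nat_lit 2935483382) (nat_lit 86) (nat_lit 5) (nat_lit 88) (nat_lit 5) (nat_lit 89) (nat_lit 5) (nat_lit 507) (nat_lit 425) (nat_lit 268)) (XT.lf (nat_lit 0) (nat_lit 6236616118) (nat_lit 228) (nat_lit 14667983880) (nat_lit 76) (nat_lit 15947040122) (nat_lit 85) (nat_lit 5) (nat_lit 88) (nat_lit 5) (nat_lit 86) (nat_lit 5) (nat_lit 508) (nat_lit 425) (nat_lit 267)))) (XT.nd (nat_lit 156) (nat_lit 228) (nat_lit 0) (XT.nd (nat_lit 78) (nat_lit 0) (nat_lit 0) (XT.lf (nat_lit 0)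 (nat_lit 6616283951) (nat_lit 152) (nat_lit 9065565070) (nat_lit 228) (nat_lit 21909585791) (nat_lit 83) (nat_lit 5) (nat_lit 85) (nat_lit 5) (nat_lit 86) (nat_lit 5) (nat_lit 509) (nat_lit 425) (nat_lit 266)) (XT.lf (nat_lit 0) (nat_lit 25583501992) (nat_lit 228) (nat_lit 9552493607) (nat_lit 76) (nat_lit 3212236330) (nat_lit 83) (nat_lit 5) (nat_lit 86) (nat_lit 5) (nat_lit 84) (nat_lit 5) (nat_lit 510) (nat_lit 425) (nat_lit 265))) (XT.nd (nat_lit 78) (nat_lit 76) (nat_lit 0) (XT.lf (nat_lit 0) (nat_lit 12658712090) (nat_lit 152) (nat_lit 23328530204) (nat_lit 228) (nat_lit 3134339996) (nat_lit 81) (nat_lit 5) (nat_lit 83) (nat_lit 5) (nat_lit 84) (nat_lit 5) (nat_lit 511) (nat_lit 425) (nat_lit 264)) (XT.lf (nat_lit 0) (nat_lit 6743590537) (nat_lit 228) (nat_lit 4260751054) (nat_lit 76) (nat_lit 28909104532) (nat_lit 80) (nat_lit 5) (nat_lit 83) (nat_lit 5) (nat_lit 81) (nat_lit 5) (nat_lit 512) (nat_lit 425)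 (nat_lit 263))))))) (XT.nd (nat_lit 1170) (nat_lit 1216) (nat_lit 0) (XT.nd (nat_lit 546) (nat_lit 760) (nat_lit 0) (XT.nd (nat_lit 234) (nat_lit 380) (nat_lit 0) (XT.nd (nat_lit 78) (nat_lit 152) (nat_lit 0) (XT.lf (nat_lit 0) (nat_lit 17048976079) (nat_lit 228) (nat_lit 21806353736) (nat_lit 76) (nat_lit 1866982058) (nat_lit 78) (nat_lit 5) (nat_lit 81) (nat_lit 5) (nat_lit 79) (nat_lit 5) (nat_lit 513) (nat_lit 425) (nat_lit 262)) (XT.nd (nat_lit 78) (nat_lit 0) (nat_lit 0) (XT.lf (nat_lit 0) (nat_lit 1224569765) (nat_lit 152) (nat_lit 26596956070) (nat_lit 228) (nat_lit 13729178093) (nat_lit 76) (nat_lit 5) (nat_lit 78) (nat_lit 5) (nat_lit 79) (nat_lit 5) (nat_lit 514) (nat_lit 425) (nat_lit 261)) (XT.lf (nat_lit 0) (nat_lit 25382435581) (nat_lit 152) (nat_lit 13748918285) (nat_lit 228) (nat_lit 3266171223) (nat_lit 76) (nat_lit 5) (nat_lit 78) (nat_lit 5) (nat_lit 79) (nat_lit 5) (nat_lit 515) (nat_lit 425)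 (nat_lit 260)))) (XT.nd (nat_lit 156) (nat_lit 152) (nat_lit 0) (XT.nd (nat_lit 78) (nat_lit 0) (nat_lit 0) (XT.lf (nat_lit 0) (nat_lit 7049863576) (nat_lit 152) (nat_lit 376087579) (nat_lit 228) (nat_lit 35839780576) (nat_lit 73) (nat_lit 5) (nat_lit 75) (nat_lit 5) (nat_lit 76) (nat_lit 5) (nat_lit 516) (nat_lit 425) (nat_lit 259)) (XT.lf (nat_lit 0) (nat_lit 18669544250) (nat_lit 228) (nat_lit 12142920035) (nat_lit 76) (nat_lit 13337659887) (nat_lit 73) (nat_lit 5) (nat_lit 76) (nat_lit 5) (nat_lit 74) (nat_lit 5) (nat_lit 517) (nat_lit 425) (nat_lit 258))) (XT.nd (nat_lit 78) (nat_lit 0) (nat_lit 0) (XT.lf (nat_lit 0) (nat_lit 12889509419) (nat_lit 152) (nat_lit 17482779219) (nat_lit 228) (nat_lit 14685104797) (nat_lit 71) (nat_lit 5) (nat_lit 73) (nat_lit 5) (nat_lit 74) (nat_lit 5) (nat_lit 518) (nat_lit 425) (nat_lit 257)) (XT.lf (nat_lit 0) (nat_lit 38911428470) (nat_lit 152) (nat_lit 3631593005) (nat_lit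 228) (nat_lit 3445352459) (nat_lit 71) (nat_lit 5) (nat_lit 73) (nat_lit 5) (nat_lit 74) (nat_lit 5) (nat_lit 519) (nat_lit 425) (nat_lit 256))))) (XT.nd (nat_lit 312) (nat_lit 304) (nat_lit 0) (XT.nd (nat_lit 156) (nat_lit 228) (nat_lit 0) (XT.nd (nat_lit 78) (nat_lit 0) (nat_lit 0) (XT.lf (nat_lit 0) (nat_lit 8255208493) (nat_lit 228) (nat_lit 27994306732) (nat_lit 76) (nat_lit 10686955192) (nat_lit 68) (nat_lit 5) (nat_lit 71) (nat_lit 5) (nat_lit 69) (nat_lit 5) (nat_lit 520) (nat_lit 425) (nat_lit 255)) (XT.lf (nat_lit 0) (nat_lit 20340084928) (nat_lit 228) (nat_lit 2104958124) (nat_lit 76) (nat_lit 25463867280) (nat_lit 68) (nat_lit 5) (nat_lit 71) (nat_lit 5) (nat_lit 69) (nat_lit 5) (nat_lit 521) (nat_lit 425) (nat_lit 254))) (XT.nd (nat_lit 78) (nat_lit 76) (nat_lit 0) (XT.lf (nat_lit 0) (nat_lit 25039752270) (nat_lit 152) (nat_lit 7983034967) (nat_lit 228) (nat_lit 15880678127) (nat_lit 66) (nat_lit 5)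 (nat_lit 68) (nat_lit 5) (nat_lit 69) (nat_lit 5) (nat_lit 522) (nat_lit 425) (nat_lit 253)) (XT.lf (nat_lit 0) (nat_lit 3098582987) (nat_lit 76) (nat_lit 43099692210) (nat_lit 152) (nat_lit 3726213008) (nat_lit 65) (nat_lit 5) (nat_lit 66) (nat_lit 5) (nat_lit 67) (nat_lit 4) (nat_lit 523) (nat_lit 425) (nat_lit 252)))) (XT.nd (nat_lit 156) (nat_lit 76) (nat_lit 0) (XT.nd (nat_lit 78) (nat_lit 152) (nat_lit 0) (XT.lf (nat_lit 0) (nat_lit 8938319427) (nat_lit 152) (nat_lit 19785895011) (nat_lit 76) (nat_lit 22239881466) (nat_lit 64) (nat_lit 5) (nat_lit 66) (nat_lit 5) (nat_lit 65) (nat_lit 5) (nat_lit 524) (nat_lit 425) (nat_lit 251)) (XT.lf (nat_lit 0) (nat_lit 8178336545) (nat_lit 152) (nat_lit 13802941885) (nat_lit 228) (nat_lit 30050305366) (nat_lit 62) (nat_lit 5) (nat_lit 64) (nat_lit 5) (nat_lit 65) (nat_lit 5) (nat_lit 525) (nat_lit 425) (nat_lit 250))) (XT.nd (nat_lit 78) (nat_lit 76) (nat_lit 0) (XT.lf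 (nat_lit 0) (nat_lit 35627142724) (nat_lit 228) (nat_lit 15764739851) (nat_lit 76) (nat_lit 1732865518) (nat_lit 62) (nat_lit 5) (nat_lit 65) (nat_lit 5) (nat_lit 63) (nat_lit 4) (nat_lit 526) (nat_lit 425) (nat_lit 249)) (XT.lf (nat_lit 0) (nat_lit 13279480048) (nat_lit 76) (nat_lit 36662154543) (nat_lit 152) (nat_lit 4301295435) (nat_lit 61) (nat_lit 5) (nat_lit 62) (nat_lit 5) (nat_lit 63) (nat_lit 4) (nat_lit 527) (nat_lit 425) (nat_lit 248)))))) (XT.nd (nat_lit 624) (nat_lit 608) (nat_lit 0) (XT.nd (nat_lit 312) (nat_lit 304) (nat_lit 0) (XT.nd (nat_lit 156) (nat_lit 76) (nat_lit 0) (XT.nd (nat_lit 78) (nat_lit 152) (nat_lit 0) (XT.lf (nat_lit 0) (nat_lit 9265320366) (nat_lit 152) (nat_lit 11971998366) (nat_lit 76) (nat_lit 34149988163) (nat_lit 60) (nat_lit 5) (nat_lit 62) (nat_lit 5) (nat_lit 61) (nat_lit 5) (nat_lit 528) (nat_lit 425) (nat_lit 247)) (XT.lf (nat_lit 0) (nat_lit 18192465604) (nat_lit 152)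 (nat_lit 5129987994) (nat_lit 228) (nat_lit 33237184971) (nat_lit 58) (nat_lit 5) (nat_lit 60) (nat_lit 5) (nat_lit 61) (nat_lit 5) (nat_lit 529) (nat_lit 425) (nat_lit 246))) (XT.nd (nat_lit 78) (nat_lit 76) (nat_lit 0) (XT.lf (nat_lit 0) (nat_lit 38028666519) (nat_lit 228) (nat_lit 8376758876) (nat_lit 76) (nat_lit 11354894056) (nat_lit 58) (nat_lit 5) (nat_lit 61) (nat_lit 5) (nat_lit 59) (nat_lit 4) (nat_lit 530) (nat_lit 425) (nat_lit 245)) (XT.lf (nat_lit 0) (nat_lit 22900554473) (nat_lit 76) (nat_lit 30541688981) (nat_lit 152) (nat_lit 5546792196) (nat_lit 57) (nat_lit 5) (nat_lit 58) (nat_lit 5) (nat_lit 59) (nat_lit 4) (nat_lit 531) (nat_lit 425) (nat_lit 244)))) (XT.nd (nat_lit 156) (nat_lit 76) (nat_lit 0) (XT.nd (nat_lit 78) (nat_lit 152) (nat_lit 0) (XT.lf (nat_lit 0) (nat_lit 8967435440) (nat_lit 152) (nat_lit 5061036508) (nat_lit 76) (nat_lit 46221107298) (nat_lit 56) (nat_lit 5) (nat_lit 58) (nat_lit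 5) (nat_lit 57) (nat_lit 5) (nat_lit 532) (nat_lit 425) (nat_lit 243)) (XT.lf (nat_lit 0) (nat_lit 24095833255) (nat_lit 228) (nat_lit 34202580422) (nat_lit 76) (nat_lit 3239171264) (nat_lit 54) (nat_lit 5) (nat_lit 57) (nat_lit 5) (nat_lit 55) (nat_lit 4) (nat_lit 533) (nat_lit 425) (nat_lit 242))) (XT.nd (nat_lit 78) (nat_lit 76) (nat_lit 0) (XT.lf (nat_lit 0) (nat_lit 39864001230) (nat_lit 228) (nat_lit 2204081469) (nat_lit 76) (nat_lit 20790570756) (nat_lit 54) (nat_lit 5) (nat_lit 57) (nat_lit 5) (nat_lit 55) (nat_lit 4) (nat_lit 534) (nat_lit 425) (nat_lit 241)) (XT.lf (nat_lit 0) (nat_lit 31357874464) (nat_lit 76) (nat_lit 25044314460) (nat_lit 152) (nat_lit 7808256051) (nat_lit 53) (nat_lit 5) (nat_lit 54) (nat_lit 5) (nat_lit 55) (nat_lit 4) (nat_lit 535) (nat_lit 425) (nat_lit 240))))) (XT.nd (nat_lit 312) (nat_lit 304) (nat_lit 0) (XT.nd (nat_lit 156) (nat_lit 76) (nat_lit 0) (XT.nd (nat_lit 78) (nat_lit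 0) (nat_lit 0) (XT.lf (nat_lit 0) (nat_lit 291503919) (nat_lit 152) (nat_lit 7410192751) (nat_lit 228) (nat_lit 57898209799) (nat_lit 50) (nat_lit 5) (nat_lit 52) (nat_lit 5) (nat_lit 53) (nat_lit 5) (nat_lit 536) (nat_lit 425) (nat_lit 239)) (XT.lf (nat_lit 0) (nat_lit 23953966332) (nat_lit 228) (nat_lit 32110132833) (nat_lit 76) (nat_lit 10951614839) (nat_lit 50) (nat_lit 5) (nat_lit 53) (nat_lit 5) (nat_lit 51) (nat_lit 4) (nat_lit 537) (nat_lit 425) (nat_lit 238))) (XT.nd (nat_lit 78) (nat_lit 0) (nat_lit 0) (XT.lf (nat_lit 0) (nat_lit 2042395054) (nat_lit 76) (nat_lit 38740100750) (nat_lit 152) (nat_lit 27688839377) (nat_lit 49) (nat_lit 5) (nat_lit 50) (nat_lit 5) (nat_lit 51) (nat_lit 4) (nat_lit 538) (nat_lit 425) (nat_lit 237)) (XT.lf (nat_lit 0) (nat_lit 37869629019) (nat_lit 76) (nat_lit 20566239937) (nat_lit 152) (nat_lit 11525156567) (nat_lit 49) (nat_lit 5) (nat_lit 50) (nat_lit 5) (nat_lit 51) (nat_lit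 4) (nat_lit 539) (nat_lit 425) (nat_lit 236)))) (XT.nd (nat_lit 156) (nat_lit 76) (nat_lit 0) (XT.nd (nat_lit 78) (nat_lit 0) (nat_lit 0) (XT.lf (nat_lit 0) (nat_lit 3283146314) (nat_lit 152) (nat_lit 1767694736) (nat_lit 228) (nat_lit 66442266761) (nat_lit 46) (nat_lit 5) (nat_lit 48) (nat_lit 5) (nat_lit 49) (nat_lit 5) (nat_lit 540) (nat_lit 425) (nat_lit 235)) (XT.lf (nat_lit 0) (nat_lit 22384706736) (nat_lit 228) (nat_lit 32979068078) (nat_lit 76) (nat_lit 17689187620) (nat_lit 46) (nat_lit 5) (nat_lit 49) (nat_lit 5) (nat_lit 47) (nat_lit 4) (nat_lit 541) (nat_lit 425) (nat_lit 234))) (XT.nd (nat_lit 78) (nat_lit 0) (nat_lit 0) (XT.lf (nat_lit 0) (nat_lit 3348876653) (nat_lit 76) (nat_lit 36935358156) (nat_lit 152) (nat_lit 34374008638) (nat_lit 45) (nat_lit 5) (nat_lit 46) (nat_lit 5) (nat_lit 47) (nat_lit 4) (nat_lit 542) (nat_lit 425) (nat_lit 233)) (XT.lf (nat_lit 0) (nat_lit 41435051789) (nat_lit 76)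 (nat_lit 17614718267) (nat_lit 152) (nat_lit 17252042337) (nat_lit 45) (nat_lit 5) (nat_lit 46) (nat_lit 5) (nat_lit 47) (nat_lit 4) (nat_lit 543) (nat_lit 425) (nat_lit 232))))))))
noncomputable def xc156 : XT := (XT.nd (nat_lit 55146) (nat_lit 0) (nat_lit 7676) (XT.nd (nat_lit 53976) (nat_lit 0) (nat_lit 15808) (XT.nd (nat_lit 53352) (nat_lit 0) (nat_lit 19304) (XT.nd (nat_lit 234) (nat_lit 152) (nat_lit 0) (XT.nd (nat_lit 78) (nat_lit 76) (nat_lit 0) (XT.lf (nat_lit 0) (nat_lit 420461564) (nat_lit 152) (nat_lit 75305311440) (nat_lit 76) (nat_lit 2267474010) (nat_lit 43) (nat_lit 5) (nat_lit 45) (nat_lit 5) (nat_lit 44) (nat_lit 4) (nat_lit 544) (nat_lit 425) (nat_lit 231)) (XT.nd (nat_lit 78) (nat_lit 76) (nat_lit 0) (XT.lf (nat_lit 0) (nat_lit 18802450867) (nat_lit 152) (nat_lit 37997067463) (nat_lit 76) (nat_lit 22915000325) (nat_lit 43) (nat_lit 5) (nat_lit 45) (nat_lit 5) (nat_lit 44) (nat_lit 4) (nat_lit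 545) (nat_lit 425) (nat_lit 230)) (XT.lf (nat_lit 0) (nat_lit 431552781) (nat_lit 76) (nat_lit 37304693657) (nat_lit 152) (nat_lit 43751171736) (nat_lit 42) (nat_lit 5) (nat_lit 43) (nat_lit 5) (nat_lit 44) (nat_lit 4) (nat_lit 546) (nat_lit 425) (nat_lit 229)))) (XT.nd (nat_lit 156) (nat_lit 152) (nat_lit 0) (XT.nd (nat_lit 78) (nat_lit 0) (nat_lit 0) (XT.lf (nat_lit 0) (nat_lit 40784713557) (nat_lit 76) (nat_lit 16833277759) (nat_lit 152) (nat_lit 25684115422) (nat_lit 42) (nat_lit 5) (nat_lit 43) (nat_lit 5) (nat_lit 44) (nat_lit 4) (nat_lit 547) (nat_lit 425) (nat_lit 228)) (XT.lf (nat_lit 0) (nat_lit 78133380858) (nat_lit 152) (nat_lit 2870730075) (nat_lit 0) (nat_lit 4166009375) (nat_lit 42) (nat_lit 5) (nat_lit 44) (nat_lit 4) (nat_lit 42) (nat_lit 4) (nat_lit 548) (nat_lit 425) (nat_lit 227))) (XT.nd (nat_lit 52884) (nat_lit 0) (nat_lit 20216) (XT.lf (nat_lit 0) (nat_lit 12471457063) (nat_lit 152) (nat_lit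 48656519518) (nat_lit 76) (nat_lit 25946521806) (nat_lit 40) (nat_lit 5) (nat_lit 42) (nat_lit 5) (nat_lit 41) (nat_lit 4) (nat_lit 549) (nat_lit 425) (nat_lit 226)) (XT.lf (nat_lit 0) (nat_lit 1381709776) (nat_lit 1140) (nat_lit 1643011446) (nat_lit 1140) (nat_lit 1643011446) (nat_lit 306) (nat_lit 3) (nat_lit 321) (nat_lit 3) (nat_lit 321) (nat_lit 5) (nat_lit 426) (nat_lit 426) (nat_lit 348))))) (XT.nd (nat_lit 312) (nat_lit 912) (nat_lit 0) (XT.nd (nat_lit 156) (nat_lit 0) (nat_lit 76) (XT.nd (nat_lit 78) (nat_lit 0) (nat_lit 76) (XT.lf (nat_lit 76) (nat_lit 1319735403) (nat_lit 0) (nat_lit 2316045142) (nat_lit 1140) (nat_lit 5814581371) (nat_lit 307) (nat_lit 5) (nat_lit 306) (nat_lit 3) (nat_lit 321) (nat_lit 5) (nat_lit 427) (nat_lit 426) (nat_lit 347)) (XT.lf (nat_lit 0) (nat_lit 4550577372) (nat_lit 1064) (nat_lit 3469607960) (nat_lit 1140) (nat_lit 1548040229) (nat_lit 307) (nat_lit 5) (nat_lit 321) (nat_lit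 5) (nat_lit 322) (nat_lit 5) (nat_lit 428) (nat_lit 426) (nat_lit 346))) (XT.nd (nat_lit 78) (nat_lit 0) (nat_lit 0) (XT.lf (nat_lit 76) (nat_lit 1316628273) (nat_lit 0) (nat_lit 4180760692) (nat_lit 1140) (nat_lit 4192106912) (nat_lit 308) (nat_lit 5) (nat_lit 307) (nat_lit 5) (nat_lit 322) (nat_lit 5) (nat_lit 429) (nat_lit 426) (nat_lit 345)) (XT.lf (nat_lit 76) (nat_lit 6300371592) (nat_lit 0) (nat_lit 176991059) (nat_lit 1140) (nat_lit 3336906573) (nat_lit 308) (nat_lit 5) (nat_lit 307) (nat_lit 5) (nat_lit 322) (nat_lit 5) (nat_lit 430) (nat_lit 426) (nat_lit 344)))) (XT.nd (nat_lit 156) (nat_lit 1064) (nat_lit 0) (XT.nd (nat_lit 78) (nat_lit 0) (nat_lit 0) (XT.lf (nat_lit 76) (nat_lit 1463750706) (nat_lit 0) (nat_lit 6045720677) (nat_lit 1140) (nat_lit 2432639747) (nat_lit 309) (nat_lit 5) (nat_lit 308) (nat_lit 5) (nat_lit 323) (nat_lit 5) (nat_lit 431) (nat_lit 426) (nat_lit 343)) (XT.lf (nat_lit 76) (nat_lit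 6643432512) (nat_lit 0) (nat_lit 1937739027) (nat_lit 1140) (nat_lit 1492365125) (nat_lit 309) (nat_lit 5) (nat_lit 308) (nat_lit 5) (nat_lit 323) (nat_lit 5) (nat_lit 432) (nat_lit 426) (nat_lit 342))) (XT.nd (nat_lit 78) (nat_lit 1140) (nat_lit 0) (XT.lf (nat_lit 76) (nat_lit 1764003345) (nat_lit 0) (nat_lit 7932367731) (nat_lit 1140) (nat_lit 512200445) (nat_lit 310) (nat_lit 5) (nat_lit 309) (nat_lit 5) (nat_lit 324) (nat_lit 5) (nat_lit 433) (nat_lit 426) (nat_lit 341)) (XT.lf (nat_lit 0) (nat_lit 514535071) (nat_lit 1140) (nat_lit 3205025744) (nat_lit 1216) (nat_lit 6627153640) (nat_lit 294) (nat_lit 5) (nat_lit 309) (nat_lit 5) (nat_lit 310) (nat_lit 5) (nat_lit 434) (nat_lit 426) (nat_lit 340)))))) (XT.nd (nat_lit 546) (nat_lit 3572) (nat_lit 0) (XT.nd (nat_lit 234) (nat_lit 0) (nat_lit 76) (XT.nd (nat_lit 78) (nat_lit 0) (nat_lit 0) (XT.lf (nat_lit 0) (nat_lit 1562841930) (nat_lit 1140) (nat_lit 8283329559)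 (nat_lit 1216) (nat_lit 642652541) (nat_lit 295) (nat_lit 5) (nat_lit 310) (nat_lit 5) (nat_lit 311) (nat_lit 5) (nat_lit 435) (nat_lit 426) (nat_lit 339)) (XT.nd (nat_lit 78) (nat_lit 0) (nat_lit 0) (XT.lf (nat_lit 0) (nat_lit 2686292481) (nat_lit 1140) (nat_lit 2845842919) (nat_lit 1216) (nat_lit 5101756882) (nat_lit 295) (nat_lit 5) (nat_lit 310) (nat_lit 5) (nat_lit 311) (nat_lit 5) (nat_lit 436) (nat_lit 426) (nat_lit 338)) (XT.lf (nat_lit 76) (nat_lit 2791275613) (nat_lit 0) (nat_lit 1053936594) (nat_lit 1216) (nat_lit 6938053448) (nat_lit 296) (nat_lit 5) (nat_lit 295) (nat_lit 5) (nat_lit 311) (nat_lit 5) (nat_lit 437) (nat_lit 426) (nat_lit 337)))) (XT.nd (nat_lit 156) (nat_lit 0) (nat_lit 76) (XT.nd (nat_lit 78) (nat_lit 0) (nat_lit 0) (XT.lf (nat_lit 0) (nat_lit 5077686952) (nat_lit 1140) (nat_lit 2333495614) (nat_lit 1216) (nat_lit 3524779909) (nat_lit 296) (nat_lit 5) (nat_lit 311) (nat_lit 5) (nat_lit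 312) (nat_lit 5) (nat_lit 438) (nat_lit 426) (nat_lit 336)) (XT.lf (nat_lit 76) (nat_lit 3535255509) (nat_lit 0) (nat_lit 2832568331) (nat_lit 1216) (nat_lit 4724801419) (nat_lit 297) (nat_lit 5) (nat_lit 296) (nat_lit 5) (nat_lit 312) (nat_lit 5) (nat_lit 439) (nat_lit 426) (nat_lit 335))) (XT.nd (nat_lit 78) (nat_lit 0) (nat_lit 0) (XT.lf (nat_lit 0) (nat_lit 7715406852) (nat_lit 1140) (nat_lit 1662340131) (nat_lit 1216) (nat_lit 1875684214) (nat_lit 297) (nat_lit 5) (nat_lit 312) (nat_lit 5) (nat_lit 313) (nat_lit 5) (nat_lit 440) (nat_lit 426) (nat_lit 334)) (XT.lf (nat_lit 76) (nat_lit 4450253169) (nat_lit 0) (nat_lit 4701503064) (nat_lit 1216) (nat_lit 2265860282) (nat_lit 298) (nat_lit 5) (nat_lit 297) (nat_lit 5) (nat_lit 313) (nat_lit 5) (nat_lit 441) (nat_lit 426) (nat_lit 333))))) (XT.nd (nat_lit 312) (nat_lit 1368) (nat_lit 0) (XT.nd (nat_lit 156) (nat_lit 1216) (nat_lit 0) (XT.nd (nat_lit 78) (nat_lit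 1216) (nat_lit 0) (XT.lf (nat_lit 0) (nat_lit 10627291656) (nat_lit 1140) (nat_lit 825804938) (nat_lit 76) (nat_lit 133753146) (nat_lit 298) (nat_lit 5) (nat_lit 313) (nat_lit 5) (nat_lit 299) (nat_lit 5) (nat_lit 442) (nat_lit 426) (nat_lit 332)) (XT.lf (nat_lit 0) (nat_lit 457689195) (nat_lit 1216) (nat_lit 6219739064) (nat_lit 76) (nat_lit 5081246713) (nat_lit 282) (nat_lit 5) (nat_lit 298) (nat_lit 5) (nat_lit 283) (nat_lit 5) (nat_lit 443) (nat_lit 426) (nat_lit 331))) (XT.nd (nat_lit 78) (nat_lit 0) (nat_lit 0) (XT.lf (nat_lit 0) (nat_lit 151194523) (nat_lit 1216) (nat_lit 1735762697) (nat_lit 1292) (nat_lit 10048753809) (nat_lit 266) (nat_lit 5) (nat_lit 282) (nat_lit 5) (nat_lit 283) (nat_lit 5) (nat_lit 444) (nat_lit 426) (nat_lit 330)) (XT.lf (nat_lit 0) (nat_lit 3434152963) (nat_lit 1292) (nat_lit 5327066944) (nat_lit 76) (nat_lit 3354591405) (nat_lit 266) (nat_lit 5) (nat_lit 283) (nat_lit 5) (nat_lit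 267) (nat_lit 5) (nat_lit 445) (nat_lit 426) (nat_lit 329)))) (XT.nd (nat_lit 156) (nat_lit 608) (nat_lit 0) (XT.nd (nat_lit 78) (nat_lit 0) (nat_lit 0) (XT.lf (nat_lit 0) (nat_lit 1314331128) (nat_lit 760) (nat_lit 3723232482) (nat_lit 836) (nat_lit 7263461516) (nat_lit 256) (nat_lit 5) (nat_lit 266) (nat_lit 5) (nat_lit 267) (nat_lit 5) (nat_lit 446) (nat_lit 426) (nat_lit 328)) (XT.lf (nat_lit 0) (nat_lit 6737896783) (nat_lit 836) (nat_lit 4259299849) (nat_lit 76) (nat_lit 1493138485) (nat_lit 256) (nat_lit 5) (nat_lit 267) (nat_lit 5) (nat_lit 257) (nat_lit 5) (nat_lit 447) (nat_lit 426) (nat_lit 327))) (XT.nd (nat_lit 78) (nat_lit 0) (nat_lit 0) (XT.lf (nat_lit 0) (nat_lit 2666972944) (nat_lit 608) (nat_lit 5865741633) (nat_lit 684) (nat_lit 4151309830) (nat_lit 248) (nat_lit 5) (nat_lit 256) (nat_lit 5) (nat_lit 257) (nat_lit 5) (nat_lit 448) (nat_lit 426) (nat_lit 326)) (XT.lf (nat_lit 0) (nat_lit 9870401316)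 (nat_lit 608) (nat_lit 535342185) (nat_lit 684) (nat_lit 2477053991) (nat_lit 248) (nat_lit 5) (nat_lit 256) (nat_lit 5) (nat_lit 257) (nat_lit 5) (nat_lit 449) (nat_lit 426) (nat_lit 325))))))) (XT.nd (nat_lit 1170) (nat_lit 3344) (nat_lit 0) (XT.nd (nat_lit 546) (nat_lit 2508) (nat_lit 0) (XT.nd (nat_lit 234) (nat_lit 1064) (nat_lit 0) (XT.nd (nat_lit 78) (nat_lit 608) (nat_lit 0) (XT.lf (nat_lit 0) (nat_lit 4219123885) (nat_lit 608) (nat_lit 8185931983) (nat_lit 684) (nat_lit 680379120) (nat_lit 240) (nat_lit 5) (nat_lit 248) (nat_lit 5) (nat_lit 249) (nat_lit 5) (nat_lit 450) (nat_lit 426) (nat_lit 324)) (XT.nd (nat_lit 78) (nat_lit 532) (nat_lit 0) (XT.lf (nat_lit 0) (nat_lit 1165464227) (nat_lit 684) (nat_lit 1598907685) (nat_lit 76) (nat_lit 10528902916) (nat_lit 239) (nat_lit 5) (nat_lit 248) (nat_lit 5) (nat_lit 240) (nat_lit 5) (nat_lit 451) (nat_lit 426) (nat_lit 323)) (XT.lf (nat_lit 0) (nat_lit 3120823413)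 (nat_lit 608) (nat_lit 7554869115) (nat_lit 76) (nat_lit 2829424434) (nat_lit 232) (nat_lit 5) (nat_lit 240) (nat_lit 5) (nat_lit 233) (nat_lit 5) (nat_lit 452) (nat_lit 426) (nat_lit 322)))) (XT.nd (nat_lit 156) (nat_lit 532) (nat_lit 0) (XT.nd (nat_lit 78) (nat_lit 532) (nat_lit 0) (XT.lf (nat_lit 0) (nat_lit 5161458067) (nat_lit 608) (nat_lit 9674575) (nat_lit 76) (nat_lit 8551386826) (nat_lit 232) (nat_lit 5) (nat_lit 240) (nat_lit 5) (nat_lit 233) (nat_lit 5) (nat_lit 453) (nat_lit 426) (nat_lit 321)) (XT.lf (nat_lit 0) (nat_lit 7328209223) (nat_lit 608) (nat_lit 6051642705) (nat_lit 76) (nat_lit 564648645) (nat_lit 225) (nat_lit 5) (nat_lit 233) (nat_lit 5) (nat_lit 226) (nat_lit 5) (nat_lit 454) (nat_lit 426) (nat_lit 320))) (XT.nd (nat_lit 78) (nat_lit 0) (nat_lit 0) (XT.lf (nat_lit 0) (nat_lit 1826206685) (nat_lit 532) (nat_lit 7786351271) (nat_lit 608) (nat_lit 4559008649) (nat_lit 218) (nat_lit 5) (nat_lit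 225) (nat_lit 5) (nat_lit 226) (nat_lit 5) (nat_lit 455) (nat_lit 426) (nat_lit 319)) (XT.lf (nat_lit 0) (nat_lit 10046863062) (nat_lit 532) (nat_lit 1963730767) (nat_lit 608) (nat_lit 2393499339) (nat_lit 218) (nat_lit 5) (nat_lit 225) (nat_lit 5) (nat_lit 226) (nat_lit 5) (nat_lit 456) (nat_lit 426) (nat_lit 318))))) (XT.nd (nat_lit 312) (nat_lit 1444) (nat_lit 0) (XT.nd (nat_lit 156) (nat_lit 456) (nat_lit 0) (XT.nd (nat_lit 78) (nat_lit 76) (nat_lit 0) (XT.lf (nat_lit 0) (nat_lit 3890159730) (nat_lit 532) (nat_lit 10651075177) (nat_lit 608) (nat_lit 100543850) (nat_lit 211) (nat_lit 5) (nat_lit 218) (nat_lit 5) (nat_lit 219) (nat_lit 5) (nat_lit 457) (nat_lit 426) (nat_lit 317)) (XT.lf (nat_lit 0) (nat_lit 2265581645) (nat_lit 608) (nat_lit 2470258188) (nat_lit 76) (nat_lit 10148650808) (nat_lit 210) (nat_lit 5) (nat_lit 218) (nat_lit 5) (nat_lit 211) (nat_lit 5) (nat_lit 458) (nat_lit 426) (nat_lit 316)))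 (XT.nd (nat_lit 78) (nat_lit 0) (nat_lit 0) (XT.lf (nat_lit 0) (nat_lit 4758592614) (nat_lit 532) (nat_lit 8985106412) (nat_lit 76) (nat_lit 1389020201) (nat_lit 204) (nat_lit 5) (nat_lit 211) (nat_lit 5) (nat_lit 205) (nat_lit 5) (nat_lit 459) (nat_lit 426) (nat_lit 315)) (XT.lf (nat_lit 0) (nat_lit 7383799586) (nat_lit 532) (nat_lit 377521541) (nat_lit 76) (nat_lit 7625354175) (nat_lit 204) (nat_lit 5) (nat_lit 211) (nat_lit 5) (nat_lit 205) (nat_lit 5) (nat_lit 460) (nat_lit 426) (nat_lit 314)))) (XT.nd (nat_lit 156) (nat_lit 532) (nat_lit 0) (XT.nd (nat_lit 78) (nat_lit 456) (nat_lit 0) (XT.lf (nat_lit 0) (nat_lit 8639998508) (nat_lit 456) (nat_lit 1516569085) (nat_lit 532) (nat_lit 5489621043) (nat_lit 198) (nat_lit 5) (nat_lit 204) (nat_lit 5) (nat_lit 205) (nat_lit 5) (nat_lit 461) (nat_lit 426) (nat_lit 313)) (XT.lf (nat_lit 0) (nat_lit 1996968764) (nat_lit 456) (nat_lit 11071826829) (nat_lit 532) (nat_lit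 2843006109) (nat_lit 192) (nat_lit 5) (nat_lit 198) (nat_lit 5) (nat_lit 199) (nat_lit 5) (nat_lit 462) (nat_lit 426) (nat_lit 312))) (XT.nd (nat_lit 78) (nat_lit 532) (nat_lit 0) (XT.lf (nat_lit 0) (nat_lit 11381575443) (nat_lit 456) (nat_lit 4758657350) (nat_lit 532) (nat_lit 42997662) (nat_lit 192) (nat_lit 5) (nat_lit 198) (nat_lit 5) (nat_lit 199) (nat_lit 5) (nat_lit 463) (nat_lit 426) (nat_lit 311)) (XT.lf (nat_lit 0) (nat_lit 2834026404) (nat_lit 532) (nat_lit 11847247630) (nat_lit 76) (nat_lit 1779257555) (nat_lit 185) (nat_lit 5) (nat_lit 192) (nat_lit 5) (nat_lit 186) (nat_lit 5) (nat_lit 464) (nat_lit 426) (nat_lit 310)))))) (XT.nd (nat_lit 546) (nat_lit 1748) (nat_lit 0) (XT.nd (nat_lit 234) (nat_lit 836) (nat_lit 0) (XT.nd (nat_lit 78) (nat_lit 760) (nat_lit 0) (XT.lf (nat_lit 0) (nat_lit 5879273942) (nat_lit 532) (nat_lit 2400553065) (nat_lit 76) (nat_lit 8463831017) (nat_lit 185) (nat_lit 5) (nat_lit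 192) (nat_lit 5) (nat_lit 186) (nat_lit 5) (nat_lit 465) (nat_lit 426) (nat_lit 309)) (XT.nd (nat_lit 78) (nat_lit 380) (nat_lit 0) (XT.lf (nat_lit 0) (nat_lit 7458645591) (nat_lit 380) (nat_lit 1616012094) (nat_lit 456) (nat_lit 7958859483) (nat_lit 180) (nat_lit 5) (nat_lit 185) (nat_lit 5) (nat_lit 186) (nat_lit 5) (nat_lit 466) (nat_lit 426) (nat_lit 308)) (XT.lf (nat_lit 0) (nat_lit 269428244) (nat_lit 380) (nat_lit 12161256806) (nat_lit 456) (nat_lit 4899445785) (nat_lit 175) (nat_lit 5) (nat_lit 180) (nat_lit 5) (nat_lit 181) (nat_lit 5) (nat_lit 467) (nat_lit 426) (nat_lit 307)))) (XT.nd (nat_lit 156) (nat_lit 380) (nat_lit 0) (XT.nd (nat_lit 78) (nat_lit 456) (nat_lit 0) (XT.lf (nat_lit 0) (nat_lit 10572547696) (nat_lit 380) (nat_lit 5414855848) (nat_lit 456) (nat_lit 1645241207) (nat_lit 175) (nat_lit 5) (nat_lit 180) (nat_lit 5) (nat_lit 181) (nat_lit 5) (nat_lit 468) (nat_lit 426) (nat_lit 306)) (XT.lf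 (nat_lit 0) (nat_lit 1707640519) (nat_lit 456) (nat_lit 14686617677) (nat_lit 76) (nat_lit 1548455186) (nat_lit 169) (nat_lit 5) (nat_lit 175) (nat_lit 5) (nat_lit 170) (nat_lit 5) (nat_lit 469) (nat_lit 426) (nat_lit 305))) (XT.nd (nat_lit 78) (nat_lit 380) (nat_lit 0) (XT.lf (nat_lit 0) (nat_lit 5241538979) (nat_lit 456) (nat_lit 4320453488) (nat_lit 76) (nat_lit 8696199946) (nat_lit 169) (nat_lit 5) (nat_lit 175) (nat_lit 5) (nat_lit 170) (nat_lit 5) (nat_lit 470) (nat_lit 426) (nat_lit 304)) (XT.lf (nat_lit 0) (nat_lit 6466967411) (nat_lit 380) (nat_lit 2464890806) (nat_lit 456) (nat_lit 9649767392) (nat_lit 164) (nat_lit 5) (nat_lit 169) (nat_lit 5) (nat_lit 170) (nat_lit 5) (nat_lit 471) (nat_lit 426) (nat_lit 303))))) (XT.nd (nat_lit 312) (nat_lit 988) (nat_lit 0) (XT.nd (nat_lit 156) (nat_lit 456) (nat_lit 0) (XT.nd (nat_lit 78) (nat_lit 304) (nat_lit 0) (XT.lf (nat_lit 0) (nat_lit 12811911427) (nat_lit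 456) (nat_lit 1309957762) (nat_lit 76) (nat_lit 4790523733) (nat_lit 164) (nat_lit 5) (nat_lit 170) (nat_lit 5) (nat_lit 165) (nat_lit 5) (nat_lit 472) (nat_lit 426) (nat_lit 302)) (XT.lf (nat_lit 0) (nat_lit 9973491208) (nat_lit 304) (nat_lit 6943879367) (nat_lit 380) (nat_lit 2332444346) (nat_lit 160) (nat_lit 5) (nat_lit 164) (nat_lit 5) (nat_lit 165) (nat_lit 5) (nat_lit 473) (nat_lit 426) (nat_lit 301))) (XT.nd (nat_lit 78) (nat_lit 0) (nat_lit 0) (XT.lf (nat_lit 0) (nat_lit 1544875803) (nat_lit 456) (nat_lit 17566678458) (nat_lit 76) (nat_lit 484566584) (nat_lit 154) (nat_lit 5) (nat_lit 160) (nat_lit 5) (nat_lit 155) (nat_lit 5) (nat_lit 474) (nat_lit 426) (nat_lit 300)) (XT.lf (nat_lit 0) (nat_lit 5643917412) (nat_lit 456) (nat_lit 6194054514) (nat_lit 76) (nat_lit 8109584411) (nat_lit 154) (nat_lit 5) (nat_lit 160) (nat_lit 5) (nat_lit 155) (nat_lit 5) (nat_lit 475) (nat_lit 426) (nat_lit 299)))) (XT.nd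 (nat_lit 156) (nat_lit 684) (nat_lit 0) (XT.nd (nat_lit 78) (nat_lit 0) (nat_lit 0) (XT.lf (nat_lit 0) (nat_lit 5613943472) (nat_lit 304) (nat_lit 4295204136) (nat_lit 380) (nat_lit 10399092365) (nat_lit 150) (nat_lit 5) (nat_lit 154) (nat_lit 5) (nat_lit 155) (nat_lit 5) (nat_lit 476) (nat_lit 426) (nat_lit 298)) (XT.lf (nat_lit 0) (nat_lit 14388269685) (nat_lit 380) (nat_lit 2824203213) (nat_lit 76) (nat_lit 3464694720) (nat_lit 150) (nat_lit 5) (nat_lit 155) (nat_lit 5) (nat_lit 151) (nat_lit 5) (nat_lit 477) (nat_lit 426) (nat_lit 297))) (XT.nd (nat_lit 78) (nat_lit 380) (nat_lit 0) (XT.lf (nat_lit 0) (nat_lit 9530412612) (nat_lit 304) (nat_lit 9595176349) (nat_lit 380) (nat_lit 1927860933) (nat_lit 146) (nat_lit 5) (nat_lit 150) (nat_lit 5) (nat_lit 151) (nat_lit 5) (nat_lit 478) (nat_lit 426) (nat_lit 296)) (XT.lf (nat_lit 0) (nat_lit 849967532) (nat_lit 304) (nat_lit 1690718339) (nat_lit 380) (nat_lit 18898795431)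 (nat_lit 141) (nat_lit 5) (nat_lit 145) (nat_lit 5) (nat_lit 146) (nat_lit 5) (nat_lit 479) (nat_lit 426) (nat_lit 295))))))))
noncomputable def xc157 : XT := (XT.nd (nat_lit 2340) (nat_lit 2736) (nat_lit 0) (XT.nd (nat_lit 1170) (nat_lit 1976) (nat_lit 0) (XT.nd (nat_lit 546) (nat_lit 1140) (nat_lit 0) (XT.nd (nat_lit 234) (nat_lit 836) (nat_lit 0) (XT.nd (nat_lit 78) (nat_lit 304) (nat_lit 0) (XT.lf (nat_lit 0) (nat_lit 7273911721) (nat_lit 380) (nat_lit 8100673595) (nat_lit 76) (nat_lit 6456855963) (nat_lit 141) (nat_lit 5) (nat_lit 146) (nat_lit 5) (nat_lit 142) (nat_lit 5) (nat_lit 480) (nat_lit 426) (nat_lit 294)) (XT.nd (nat_lit 78) (nat_lit 0) (nat_lit 0) (XT.lf (nat_lit 0) (nat_lit 4825502855) (nat_lit 304) (nat_lit 7376901456) (nat_lit 380) (nat_lit 10031158981) (nat_lit 137) (nat_lit 5) (nat_lit 141) (nat_lit 5) (nat_lit 142) (nat_lit 5) (nat_lit 481) (nat_lit 426) (nat_lit 293)) (XT.lf (nat_lit 0) (nat_lit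 17359880255) (nat_lit 380) (nat_lit 4363711017) (nat_lit 76) (nat_lit 921725137) (nat_lit 137) (nat_lit 5) (nat_lit 142) (nat_lit 5) (nat_lit 138) (nat_lit 5) (nat_lit 482) (nat_lit 426) (nat_lit 292)))) (XT.nd (nat_lit 156) (nat_lit 532) (nat_lit 0) (XT.nd (nat_lit 78) (nat_lit 76) (nat_lit 0) (XT.lf (nat_lit 0) (nat_lit 9163319294) (nat_lit 228) (nat_lit 13660411439) (nat_lit 304) (nat_lit 241143139) (nat_lit 134) (nat_lit 5) (nat_lit 137) (nat_lit 5) (nat_lit 138) (nat_lit 5) (nat_lit 483) (nat_lit 426) (nat_lit 291)) (XT.lf (nat_lit 0) (nat_lit 4892873363) (nat_lit 304) (nat_lit 372613316) (nat_lit 76) (nat_lit 18229051573) (nat_lit 133) (nat_lit 5) (nat_lit 137) (nat_lit 5) (nat_lit 134) (nat_lit 5) (nat_lit 484) (nat_lit 426) (nat_lit 290))) (XT.nd (nat_lit 78) (nat_lit 228) (nat_lit 0) (XT.lf (nat_lit 0) (nat_lit 10333507440) (nat_lit 380) (nat_lit 10151757564) (nat_lit 76) (nat_lit 3447033774) (nat_lit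 129) (nat_lit 5) (nat_lit 134) (nat_lit 5) (nat_lit 130) (nat_lit 5) (nat_lit 485) (nat_lit 426) (nat_lit 289)) (XT.lf (nat_lit 0) (nat_lit 3994492141) (nat_lit 228) (nat_lit 12028132999) (nat_lit 304) (nat_lit 8358010162) (nat_lit 126) (nat_lit 5) (nat_lit 129) (nat_lit 5) (nat_lit 130) (nat_lit 5) (nat_lit 486) (nat_lit 426) (nat_lit 288))))) (XT.nd (nat_lit 312) (nat_lit 532) (nat_lit 0) (XT.nd (nat_lit 156) (nat_lit 228) (nat_lit 0) (XT.nd (nat_lit 78) (nat_lit 380) (nat_lit 0) (XT.lf (nat_lit 0) (nat_lit 18759235625) (nat_lit 228) (nat_lit 3216756783) (nat_lit 304) (nat_lit 2863623320) (nat_lit 126) (nat_lit 5) (nat_lit 129) (nat_lit 5) (nat_lit 130) (nat_lit 5) (nat_lit 487) (nat_lit 426) (nat_lit 287)) (XT.lf (nat_lit 0) (nat_lit 2874103809) (nat_lit 380) (nat_lit 16581309705) (nat_lit 76) (nat_lit 5852155066) (nat_lit 121) (nat_lit 5) (nat_lit 126) (nat_lit 5) (nat_lit 122) (nat_lit 5) (nat_lit 488) (nat_lit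 426) (nat_lit 286))) (XT.nd (nat_lit 78) (nat_lit 228) (nat_lit 0) (XT.lf (nat_lit 0) (nat_lit 8811576513) (nat_lit 380) (nat_lit 1760628772) (nat_lit 76) (nat_lit 15213950054) (nat_lit 121) (nat_lit 5) (nat_lit 126) (nat_lit 5) (nat_lit 122) (nat_lit 5) (nat_lit 489) (nat_lit 426) (nat_lit 285)) (XT.lf (nat_lit 0) (nat_lit 13759737835) (nat_lit 228) (nat_lit 1291268446) (nat_lit 304) (nat_lit 11224379400) (nat_lit 118) (nat_lit 5) (nat_lit 121) (nat_lit 5) (nat_lit 122) (nat_lit 5) (nat_lit 490) (nat_lit 426) (nat_lit 284)))) (XT.nd (nat_lit 156) (nat_lit 228) (nat_lit 0) (XT.nd (nat_lit 78) (nat_lit 76) (nat_lit 0) (XT.lf (nat_lit 0) (nat_lit 2967797890) (nat_lit 228) (nat_lit 18627417938) (nat_lit 304) (nat_lit 5180550138) (nat_lit 115) (nat_lit 5) (nat_lit 118) (nat_lit 5) (nat_lit 119) (nat_lit 5) (nat_lit 491) (nat_lit 426) (nat_lit 283)) (XT.lf (nat_lit 0) (nat_lit 1156298022) (nat_lit 304) (nat_lit 8152679898)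 (nat_lit 76) (nat_lit 17977916752) (nat_lit 114) (nat_lit 5) (nat_lit 118) (nat_lit 5) (nat_lit 115) (nat_lit 5) (nat_lit 492) (nat_lit 426) (nat_lit 282))) (XT.nd (nat_lit 78) (nat_lit 0) (nat_lit 0) (XT.lf (nat_lit 0) (nat_lit 7652571257) (nat_lit 304) (nat_lit 19748532969) (nat_lit 76) (nat_lit 408511788) (nat_lit 111) (nat_lit 5) (nat_lit 115) (nat_lit 5) (nat_lit 112) (nat_lit 5) (nat_lit 493) (nat_lit 426) (nat_lit 281)) (XT.lf (nat_lit 0) (nat_lit 14511014823) (nat_lit 304) (nat_lit 3523361851) (nat_lit 76) (nat_lit 10308624691) (nat_lit 111) (nat_lit 5) (nat_lit 115) (nat_lit 5) (nat_lit 112) (nat_lit 5) (nat_lit 494) (nat_lit 426) (nat_lit 280)))))) (XT.nd (nat_lit 546) (nat_lit 1064) (nat_lit 0) (XT.nd (nat_lit 234) (nat_lit 456) (nat_lit 0) (XT.nd (nat_lit 78) (nat_lit 228) (nat_lit 0) (XT.lf (nat_lit 0) (nat_lit 13437961952) (nat_lit 228) (nat_lit 8258630301) (nat_lit 304) (nat_lit 7192155418) (nat_lit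 108) (nat_lit 5) (nat_lit 111) (nat_lit 5) (nat_lit 112) (nat_lit 5) (nat_lit 495) (nat_lit 426) (nat_lit 279)) (XT.nd (nat_lit 78) (nat_lit 76) (nat_lit 0) (XT.lf (nat_lit 0) (nat_lit 1529765325) (nat_lit 152) (nat_lit 27628273984) (nat_lit 228) (nat_lit 291018774) (nat_lit 106) (nat_lit 5) (nat_lit 108) (nat_lit 5) (nat_lit 109) (nat_lit 5) (nat_lit 496) (nat_lit 426) (nat_lit 278)) (XT.lf (nat_lit 0) (nat_lit 6915750584) (nat_lit 228) (nat_lit 10846793198) (nat_lit 76) (nat_lit 12254720072) (nat_lit 105) (nat_lit 5) (nat_lit 108) (nat_lit 5) (nat_lit 106) (nat_lit 5) (nat_lit 497) (nat_lit 426) (nat_lit 277)))) (XT.nd (nat_lit 156) (nat_lit 228) (nat_lit 0) (XT.nd (nat_lit 78) (nat_lit 0) (nat_lit 0) (XT.lf (nat_lit 0) (nat_lit 6856255356) (nat_lit 228) (nat_lit 7535039337) (nat_lit 304) (nat_lit 16209382760) (nat_lit 102) (nat_lit 5) (nat_lit 105) (nat_lit 5) (nat_lit 106) (nat_lit 5) (nat_lit 498) (nat_lit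 426) (nat_lit 276)) (XT.lf (nat_lit 0) (nat_lit 22223116704) (nat_lit 304) (nat_lit 5928064973) (nat_lit 76) (nat_lit 3046452133) (nat_lit 102) (nat_lit 5) (nat_lit 106) (nat_lit 5) (nat_lit 103) (nat_lit 5) (nat_lit 499) (nat_lit 426) (nat_lit 275))) (XT.nd (nat_lit 78) (nat_lit 76) (nat_lit 0) (XT.lf (nat_lit 0) (nat_lit 12581468903) (nat_lit 152) (nat_lit 17896750909) (nat_lit 228) (nat_lit 1328629930) (nat_lit 100) (nat_lit 5) (nat_lit 102) (nat_lit 5) (nat_lit 103) (nat_lit 5) (nat_lit 500) (nat_lit 426) (nat_lit 274)) (XT.lf (nat_lit 0) (nat_lit 6472144048) (nat_lit 228) (nat_lit 740504363) (nat_lit 76) (nat_lit 25218208716) (nat_lit 99) (nat_lit 5) (nat_lit 102) (nat_lit 5) (nat_lit 100) (nat_lit 5) (nat_lit 501) (nat_lit 426) (nat_lit 273))))) (XT.nd (nat_lit 312) (nat_lit 380) (nat_lit 0) (XT.nd (nat_lit 156) (nat_lit 304) (nat_lit 0) (XT.nd (nat_lit 78) (nat_lit 152) (nat_lit 0) (XT.lf (nat_lit 0) (nat_lit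 14690714177) (nat_lit 304) (nat_lit 14468770594) (nat_lit 76) (nat_lit 3907391629) (nat_lit 96) (nat_lit 5) (nat_lit 100) (nat_lit 5) (nat_lit 97) (nat_lit 5) (nat_lit 502) (nat_lit 426) (nat_lit 272)) (XT.lf (nat_lit 0) (nat_lit 4820958925) (nat_lit 152) (nat_lit 18453245677) (nat_lit 228) (nat_lit 10444221354) (nat_lit 94) (nat_lit 5) (nat_lit 96) (nat_lit 5) (nat_lit 97) (nat_lit 5) (nat_lit 503) (nat_lit 426) (nat_lit 271))) (XT.nd (nat_lit 78) (nat_lit 304) (nat_lit 0) (XT.lf (nat_lit 0) (nat_lit 24974161986) (nat_lit 152) (nat_lit 7280289771) (nat_lit 228) (nat_lit 2130893267) (nat_lit 94) (nat_lit 5) (nat_lit 96) (nat_lit 5) (nat_lit 97) (nat_lit 5) (nat_lit 504) (nat_lit 426) (nat_lit 270)) (XT.lf (nat_lit 0) (nat_lit 6445625772) (nat_lit 304) (nat_lit 24312793089) (nat_lit 76) (nat_lit 4307819572) (nat_lit 90) (nat_lit 5) (nat_lit 94) (nat_lit 5) (nat_lit 91) (nat_lit 5) (nat_lit 505) (nat_lit 426) (nat_lit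 269)))) (XT.nd (nat_lit 156) (nat_lit 228) (nat_lit 0) (XT.nd (nat_lit 78) (nat_lit 152) (nat_lit 0) (XT.lf (nat_lit 0) (nat_lit 15397986681) (nat_lit 304) (nat_lit 4154539315) (nat_lit 76) (nat_lit 16209558989) (nat_lit 90) (nat_lit 5) (nat_lit 94) (nat_lit 5) (nat_lit 91) (nat_lit 5) (nat_lit 506) (nat_lit 426) (nat_lit 268)) (XT.lf (nat_lit 0) (nat_lit 16927473836) (nat_lit 152) (nat_lit 7847674082) (nat_lit 228) (nat_lit 11698972652) (nat_lit 88) (nat_lit 5) (nat_lit 90) (nat_lit 5) (nat_lit 91) (nat_lit 5) (nat_lit 507) (nat_lit 426) (nat_lit 267))) (XT.nd (nat_lit 78) (nat_lit 76) (nat_lit 0) (XT.lf (nat_lit 0) (nat_lit 1497873199) (nat_lit 152) (nat_lit 33026517937) (nat_lit 228) (nat_lit 2680403576) (nat_lit 86) (nat_lit 5) (nat_lit 88) (nat_lit 5) (nat_lit 89) (nat_lit 5) (nat_lit 508) (nat_lit 426) (nat_lit 266)) (XT.lf (nat_lit 0) (nat_lit 6750363461) (nat_lit 228) (nat_lit 14531590341) (nat_lit 76)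 (nat_lit 16665411914) (nat_lit 85) (nat_lit 5) (nat_lit 88) (nat_lit 5) (nat_lit 86) (nat_lit 5) (nat_lit 509) (nat_lit 426) (nat_lit 265))))))) (XT.nd (nat_lit 1170) (nat_lit 1216) (nat_lit 0) (XT.nd (nat_lit 546) (nat_lit 836) (nat_lit 0) (XT.nd (nat_lit 234) (nat_lit 380) (nat_lit 0) (XT.nd (nat_lit 78) (nat_lit 152) (nat_lit 0) (XT.lf (nat_lit 0) (nat_lit 7385554220) (nat_lit 152) (nat_lit 9089371790) (nat_lit 228) (nat_lit 22234549763) (nat_lit 83) (nat_lit 5) (nat_lit 85) (nat_lit 5) (nat_lit 86) (nat_lit 5) (nat_lit 510) (nat_lit 426) (nat_lit 264)) (XT.nd (nat_lit 78) (nat_lit 152) (nat_lit 0) (XT.lf (nat_lit 0) (nat_lit 26666547815) (nat_lit 228) (nat_lit 9277807866) (nat_lit 76) (nat_lit 3544834228) (nat_lit 83) (nat_lit 5) (nat_lit 86) (nat_lit 5) (nat_lit 84) (nat_lit 5) (nat_lit 511) (nat_lit 426) (nat_lit 263)) (XT.lf (nat_lit 0) (nat_lit 13594231447) (nat_lit 152) (nat_lit 23784320656) (nat_lit 228)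 (nat_lit 2907304786) (nat_lit 81) (nat_lit 5) (nat_lit 83) (nat_lit 5) (nat_lit 84) (nat_lit 5) (nat_lit 512) (nat_lit 426) (nat_lit 262)))) (XT.nd (nat_lit 156) (nat_lit 152) (nat_lit 0) (XT.nd (nat_lit 78) (nat_lit 152) (nat_lit 0) (XT.lf (nat_lit 0) (nat_lit 7251529581) (nat_lit 228) (nat_lit 3842899230) (nat_lit 76) (nat_lit 30007230931) (nat_lit 80) (nat_lit 5) (nat_lit 83) (nat_lit 5) (nat_lit 81) (nat_lit 5) (nat_lit 513) (nat_lit 426) (nat_lit 261)) (XT.lf (nat_lit 0) (nat_lit 17864660395) (nat_lit 228) (nat_lit 21913433480) (nat_lit 76) (nat_lit 2156740685) (nat_lit 78) (nat_lit 5) (nat_lit 81) (nat_lit 5) (nat_lit 79) (nat_lit 5) (nat_lit 514) (nat_lit 426) (nat_lit 260))) (XT.nd (nat_lit 78) (nat_lit 0) (nat_lit 0) (XT.lf (nat_lit 0) (nat_lit 1803053894) (nat_lit 152) (nat_lit 27153679722) (nat_lit 228) (nat_lit 13831454941) (nat_lit 76) (nat_lit 5) (nat_lit 78) (nat_lit 5) (nat_lit 79) (nat_lit 5) (nat_lit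 515) (nat_lit 426) (nat_lit 259)) (XT.lf (nat_lit 0) (nat_lit 26669876645) (nat_lit 152) (nat_lit 13927225610) (nat_lit 228) (nat_lit 3063575296) (nat_lit 76) (nat_lit 5) (nat_lit 78) (nat_lit 5) (nat_lit 79) (nat_lit 5) (nat_lit 516) (nat_lit 426) (nat_lit 258))))) (XT.nd (nat_lit 312) (nat_lit 456) (nat_lit 0) (XT.nd (nat_lit 156) (nat_lit 152) (nat_lit 0) (XT.nd (nat_lit 78) (nat_lit 0) (nat_lit 0) (XT.lf (nat_lit 0) (nat_lit 7787997166) (nat_lit 152) (nat_lit 151926580) (nat_lit 228) (nat_lit 36615026151) (nat_lit 73) (nat_lit 5) (nat_lit 75) (nat_lit 5) (nat_lit 76) (nat_lit 5) (nat_lit 517) (nat_lit 426) (nat_lit 257)) (XT.lf (nat_lit 0) (nat_lit 19514540563) (nat_lit 228) (nat_lit 11989607403) (nat_lit 76) (nat_lit 13961915191) (nat_lit 73) (nat_lit 5) (nat_lit 76) (nat_lit 5) (nat_lit 74) (nat_lit 5) (nat_lit 518) (nat_lit 426) (nat_lit 256))) (XT.nd (nat_lit 78) (nat_lit 0) (nat_lit 0) (XT.lf (nat_lit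 0) (nat_lit 13788720422) (nat_lit 152) (nat_lit 17776275221) (nat_lit 228) (nat_lit 14835656511) (nat_lit 71) (nat_lit 5) (nat_lit 73) (nat_lit 5) (nat_lit 74) (nat_lit 5) (nat_lit 519) (nat_lit 426) (nat_lit 255)) (XT.lf (nat_lit 0) (nat_lit 40576369111) (nat_lit 152) (nat_lit 3516281209) (nat_lit 228) (nat_lit 3267158247) (nat_lit 71) (nat_lit 5) (nat_lit 73) (nat_lit 5) (nat_lit 74) (nat_lit 5) (nat_lit 520) (nat_lit 426) (nat_lit 254)))) (XT.nd (nat_lit 156) (nat_lit 228) (nat_lit 0) (XT.nd (nat_lit 78) (nat_lit 0) (nat_lit 0) (XT.lf (nat_lit 0) (nat_lit 8777839915) (nat_lit 228) (nat_lit 28329927071) (nat_lit 76) (nat_lit 11228532794) (nat_lit 68) (nat_lit 5) (nat_lit 71) (nat_lit 5) (nat_lit 69) (nat_lit 5) (nat_lit 521) (nat_lit 426) (nat_lit 253)) (XT.lf (nat_lit 0) (nat_lit 21217253657) (nat_lit 228) (nat_lit 1678583701) (nat_lit 76) (nat_lit 26442316256) (nat_lit 68) (nat_lit 5) (nat_lit 71) (nat_lit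 5) (nat_lit 69) (nat_lit 5) (nat_lit 522) (nat_lit 426) (nat_lit 252))) (XT.nd (nat_lit 78) (nat_lit 76) (nat_lit 0) (XT.lf (nat_lit 0) (nat_lit 26275668759) (nat_lit 152) (nat_lit 8001652025) (nat_lit 228) (nat_lit 16085318437) (nat_lit 66) (nat_lit 5) (nat_lit 68) (nat_lit 5) (nat_lit 69) (nat_lit 5) (nat_lit 523) (nat_lit 426) (nat_lit 251)) (XT.lf (nat_lit 0) (nat_lit 3677262199) (nat_lit 76) (nat_lit 44169856624) (nat_lit 152) (nat_lit 3567202986) (nat_lit 65) (nat_lit 5) (nat_lit 66) (nat_lit 5) (nat_lit 67) (nat_lit 4) (nat_lit 524) (nat_lit 426) (nat_lit 250)))))) (XT.nd (nat_lit 624) (nat_lit 608) (nat_lit 0) (XT.nd (nat_lit 312) (nat_lit 304) (nat_lit 0) (XT.nd (nat_lit 156) (nat_lit 76) (nat_lit 0) (XT.nd (nat_lit 78) (nat_lit 152) (nat_lit 0) (XT.lf (nat_lit 0) (nat_lit 9464247844) (nat_lit 152) (nat_lit 19902753703) (nat_lit 76) (nat_lit 23118270503) (nat_lit 64) (nat_lit 5) (nat_lit 66) (nat_lit 5)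 (nat_lit 65) (nat_lit 5) (nat_lit 525) (nat_lit 426) (nat_lit 249)) (XT.lf (nat_lit 0) (nat_lit 8895731093) (nat_lit 152) (nat_lit 13999793983) (nat_lit 228) (nat_lit 30689349009) (nat_lit 62) (nat_lit 5) (nat_lit 64) (nat_lit 5) (nat_lit 65) (nat_lit 5) (nat_lit 526) (nat_lit 426) (nat_lit 248))) (XT.nd (nat_lit 78) (nat_lit 76) (nat_lit 0) (XT.lf (nat_lit 0) (nat_lit 36945371083) (nat_lit 228) (nat_lit 15773979649) (nat_lit 76) (nat_lit 1991644784) (nat_lit 62) (nat_lit 5) (nat_lit 65) (nat_lit 5) (nat_lit 63) (nat_lit 4) (nat_lit 527) (nat_lit 426) (nat_lit 247)) (XT.lf (nat_lit 0) (nat_lit 14137020746) (nat_lit 76) (nat_lit 37549426164) (nat_lit 152) (nat_lit 4176361887) (nat_lit 61) (nat_lit 5) (nat_lit 62) (nat_lit 5) (nat_lit 63) (nat_lit 4) (nat_lit 528) (nat_lit 426) (nat_lit 246)))) (XT.nd (nat_lit 156) (nat_lit 76) (nat_lit 0) (XT.nd (nat_lit 78) (nat_lit 152) (nat_lit 0) (XT.lf (nat_lit 0) (nat_lit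 9785043564) (nat_lit 152) (nat_lit 11880552406) (nat_lit 76) (nat_lit 35376065695) (nat_lit 60) (nat_lit 5) (nat_lit 62) (nat_lit 5) (nat_lit 61) (nat_lit 5) (nat_lit 529) (nat_lit 426) (nat_lit 245)) (XT.lf (nat_lit 0) (nat_lit 19184427778) (nat_lit 152) (nat_lit 5076710391) (nat_lit 228) (nat_lit 33988108034) (nat_lit 58) (nat_lit 5) (nat_lit 60) (nat_lit 5) (nat_lit 61) (nat_lit 5) (nat_lit 530) (nat_lit 426) (nat_lit 244))) (XT.nd (nat_lit 78) (nat_lit 76) (nat_lit 0) (XT.lf (nat_lit 0) (nat_lit 39403509502) (nat_lit 228) (nat_lit 8189830366) (nat_lit 76) (nat_lit 11892758808) (nat_lit 58) (nat_lit 5) (nat_lit 61) (nat_lit 5) (nat_lit 59) (nat_lit 4) (nat_lit 531) (nat_lit 426) (nat_lit 243)) (XT.lf (nat_lit 0) (nat_lit 24021505998) (nat_lit 76) (nat_lit 31255343956) (nat_lit 152) (nat_lit 5474906037) (nat_lit 57) (nat_lit 5) (nat_lit 58) (nat_lit 5) (nat_lit 59) (nat_lit 4) (nat_lit 532) (nat_lit 426) (nat_lit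 242))))) (XT.nd (nat_lit 312) (nat_lit 304) (nat_lit 0) (XT.nd (nat_lit 156) (nat_lit 76) (nat_lit 0) (XT.nd (nat_lit 78) (nat_lit 152) (nat_lit 0) (XT.lf (nat_lit 0) (nat_lit 9463293484) (nat_lit 152) (nat_lit 4787047186) (nat_lit 76) (nat_lit 47799910959) (nat_lit 56) (nat_lit 5) (nat_lit 58) (nat_lit 5) (nat_lit 57) (nat_lit 5) (nat_lit 533) (nat_lit 426) (nat_lit 241)) (XT.lf (nat_lit 0) (nat_lit 25044886693) (nat_lit 228) (nat_lit 34802171221) (nat_lit 76) (nat_lit 3529859566) (nat_lit 54) (nat_lit 5) (nat_lit 57) (nat_lit 5) (nat_lit 55) (nat_lit 4) (nat_lit 534) (nat_lit 426) (nat_lit 240))) (XT.nd (nat_lit 78) (nat_lit 76) (nat_lit 0) (XT.lf (nat_lit 0) (nat_lit 41279511986) (nat_lit 228) (nat_lit 1856139239) (nat_lit 76) (nat_lit 21602164737) (nat_lit 54) (nat_lit 5) (nat_lit 57) (nat_lit 5) (nat_lit 55) (nat_lit 4) (nat_lit 535) (nat_lit 426) (nat_lit 239)) (XT.lf (nat_lit 0) (nat_lit 32708615914) (nat_lit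 76) (nat_lit 25602774771) (nat_lit 152) (nat_lit 7818844454) (nat_lit 53) (nat_lit 5) (nat_lit 54) (nat_lit 5) (nat_lit 55) (nat_lit 4) (nat_lit 536) (nat_lit 426) (nat_lit 238)))) (XT.nd (nat_lit 156) (nat_lit 76) (nat_lit 0) (XT.nd (nat_lit 78) (nat_lit 0) (nat_lit 0) (XT.lf (nat_lit 0) (nat_lit 710564954) (nat_lit 152) (nat_lit 7439034475) (nat_lit 228) (nat_lit 59411790099) (nat_lit 50) (nat_lit 5) (nat_lit 52) (nat_lit 5) (nat_lit 53) (nat_lit 5) (nat_lit 537) (nat_lit 426) (nat_lit 237)) (XT.lf (nat_lit 0) (nat_lit 24884926636) (nat_lit 228) (nat_lit 32670552976) (nat_lit 76) (nat_lit 11464327243) (nat_lit 50) (nat_lit 5) (nat_lit 53) (nat_lit 5) (nat_lit 51) (nat_lit 4) (nat_lit 538) (nat_lit 426) (nat_lit 236))) (XT.nd (nat_lit 78) (nat_lit 0) (nat_lit 0) (XT.lf (nat_lit 0) (nat_lit 2502600906) (nat_lit 76) (nat_lit 39713361185) (nat_lit 152) (nat_lit 28303205316) (nat_lit 49) (nat_lit 5) (nat_lit 50) (nat_lit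 5) (nat_lit 51) (nat_lit 4) (nat_lit 539) (nat_lit 426) (nat_lit 235)) (XT.lf (nat_lit 0) (nat_lit 39393032453) (nat_lit 76) (nat_lit 20999787730) (nat_lit 152) (nat_lit 11660911999) (nat_lit 49) (nat_lit 5) (nat_lit 50) (nat_lit 5) (nat_lit 51) (nat_lit 4) (nat_lit 540) (nat_lit 426) (nat_lit 234))))))))
noncomputable def xc158 : XT := (XT.nd (nat_lit 55224) (nat_lit 0) (nat_lit 8208) (XT.nd (nat_lit 54054) (nat_lit 0) (nat_lit 16264) (XT.nd (nat_lit 546) (nat_lit 0) (nat_lit 0) (XT.nd (nat_lit 234) (nat_lit 228) (nat_lit 0) (XT.nd (nat_lit 78) (nat_lit 76) (nat_lit 0) (XT.lf (nat_lit 0) (nat_lit 3769223281) (nat_lit 152) (nat_lit 1636772976) (nat_lit 228) (nat_lit 68225788489) (nat_lit 46) (nat_lit 5) (nat_lit 48) (nat_lit 5) (nat_lit 49) (nat_lit 5) (nat_lit 541) (nat_lit 426) (nat_lit 233)) (XT.nd (nat_lit 78) (nat_lit 76) (nat_lit 0) (XT.lf (nat_lit 0) (nat_lit 23255663705) (nat_lit 228) (nat_lit 33587924962)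 (nat_lit 76) (nat_lit 18394972981) (nat_lit 46) (nat_lit 5) (nat_lit 49) (nat_lit 5) (nat_lit 47) (nat_lit 4) (nat_lit 542) (nat_lit 426) (nat_lit 232)) (XT.lf (nat_lit 0) (nat_lit 3826127569) (nat_lit 76) (nat_lit 37863863709) (nat_lit 152) (nat_lit 35202075614) (nat_lit 45) (nat_lit 5) (nat_lit 46) (nat_lit 5) (nat_lit 47) (nat_lit 4) (nat_lit 543) (nat_lit 426) (nat_lit 231)))) (XT.nd (nat_lit 156) (nat_lit 76) (nat_lit 0) (XT.nd (nat_lit 78) (nat_lit 152) (nat_lit 0) (XT.lf (nat_lit 0) (nat_lit 43043913651) (nat_lit 76) (nat_lit 17968834386) (nat_lit 152) (nat_lit 17572367410) (nat_lit 45) (nat_lit 5) (nat_lit 46) (nat_lit 5) (nat_lit 47) (nat_lit 4) (nat_lit 544) (nat_lit 426) (nat_lit 230)) (XT.lf (nat_lit 0) (nat_lit 626028769) (nat_lit 152) (nat_lit 77194364678) (nat_lit 76) (nat_lit 2506855993) (nat_lit 43) (nat_lit 5) (nat_lit 45) (nat_lit 5) (nat_lit 44) (nat_lit 4) (nat_lit 545) (nat_lit 426) (nat_lit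 229))) (XT.nd (nat_lit 78) (nat_lit 76) (nat_lit 0) (XT.lf (nat_lit 0) (nat_lit 19553857751) (nat_lit 152) (nat_lit 38777653171) (nat_lit 76) (nat_lit 23768817095) (nat_lit 43) (nat_lit 5) (nat_lit 45) (nat_lit 5) (nat_lit 44) (nat_lit 4) (nat_lit 546) (nat_lit 426) (nat_lit 228)) (XT.lf (nat_lit 0) (nat_lit 800302874) (nat_lit 76) (nat_lit 38253328206) (nat_lit 152) (nat_lit 44872844706) (nat_lit 42) (nat_lit 5) (nat_lit 43) (nat_lit 5) (nat_lit 44) (nat_lit 4) (nat_lit 547) (nat_lit 426) (nat_lit 227))))) (XT.nd (nat_lit 53196) (nat_lit 0) (nat_lit 20140) (XT.nd (nat_lit 53040) (nat_lit 0) (nat_lit 20064) (XT.nd (nat_lit 78) (nat_lit 0) (nat_lit 0) (XT.lf (nat_lit 0) (nat_lit 42353695264) (nat_lit 76) (nat_lit 17172736032) (nat_lit 152) (nat_lit 26269335795) (nat_lit 42) (nat_lit 5) (nat_lit 43) (nat_lit 5) (nat_lit 44) (nat_lit 4) (nat_lit 548) (nat_lit 426) (nat_lit 226)) (XT.lf (nat_lit 0) (nat_lit 80653587636)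 (nat_lit 152) (nat_lit 2617772485) (nat_lit 0) (nat_lit 4448571964) (nat_lit 42) (nat_lit 5) (nat_lit 44) (nat_lit 4) (nat_lit 42) (nat_lit 4) (nat_lit 549) (nat_lit 426) (nat_lit 225))) (XT.nd (nat_lit 78) (nat_lit 0) (nat_lit 0) (XT.lf (nat_lit 0) (nat_lit 2233519399) (nat_lit 1140) (nat_lit 1274864194) (nat_lit 1140) (nat_lit 1274864194) (nat_lit 306) (nat_lit 3) (nat_lit 321) (nat_lit 3) (nat_lit 321) (nat_lit 5) (nat_lit 427) (nat_lit 427) (nat_lit 346)) (XT.lf (nat_lit 76) (nat_lit 2186017605) (nat_lit 0) (nat_lit 3140294327) (nat_lit 1140) (nat_lit 4359716885) (nat_lit 307) (nat_lit 5) (nat_lit 306) (nat_lit 3) (nat_lit 321) (nat_lit 5) (nat_lit 428) (nat_lit 427) (nat_lit 345)))) (XT.nd (nat_lit 156) (nat_lit 0) (nat_lit 0) (XT.nd (nat_lit 78) (nat_lit 0) (nat_lit 0) (XT.lf (nat_lit 0) (nat_lit 6215446810) (nat_lit 1064) (nat_lit 2717589998) (nat_lit 1140) (nat_lit 875996396) (nat_lit 307) (nat_lit 5) (nat_lit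 321) (nat_lit 5) (nat_lit 322) (nat_lit 5) (nat_lit 429) (nat_lit 427) (nat_lit 344)) (XT.lf (nat_lit 76) (nat_lit 2203840124) (nat_lit 0) (nat_lit 4950456253) (nat_lit 1140) (nat_lit 2780747561) (nat_lit 308) (nat_lit 5) (nat_lit 307) (nat_lit 5) (nat_lit 322) (nat_lit 5) (nat_lit 430) (nat_lit 427) (nat_lit 343))) (XT.nd (nat_lit 78) (nat_lit 0) (nat_lit 76) (XT.lf (nat_lit 76) (nat_lit 7312405073) (nat_lit 0) (nat_lit 807808305) (nat_lit 1140) (nat_lit 1944661772) (nat_lit 308) (nat_lit 5) (nat_lit 307) (nat_lit 5) (nat_lit 322) (nat_lit 5) (nat_lit 431) (nat_lit 427) (nat_lit 342)) (XT.lf (nat_lit 76) (nat_lit 2371963048) (nat_lit 0) (nat_lit 6771602681) (nat_lit 1140) (nat_lit 1054188841) (nat_lit 309) (nat_lit 5) (nat_lit 308) (nat_lit 5) (nat_lit 323) (nat_lit 5) (nat_lit 432) (nat_lit 427) (nat_lit 341)))))) (XT.nd (nat_lit 546) (nat_lit 2888) (nat_lit 0) (XT.nd (nat_lit 234) (nat_lit 0) (nat_lit 76) (XT.nd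 (nat_lit 78) (nat_lit 1064) (nat_lit 0) (XT.lf (nat_lit 76) (nat_lit 7681861527) (nat_lit 0) (nat_lit 2524522056) (nat_lit 1140) (nat_lit 127980644) (nat_lit 309) (nat_lit 5) (nat_lit 308) (nat_lit 5) (nat_lit 323) (nat_lit 5) (nat_lit 433) (nat_lit 427) (nat_lit 340)) (XT.nd (nat_lit 78) (nat_lit 0) (nat_lit 0) (XT.lf (nat_lit 0) (nat_lit 827673785) (nat_lit 1140) (nat_lit 7788837389) (nat_lit 1216) (nat_lit 1857795851) (nat_lit 294) (nat_lit 5) (nat_lit 309) (nat_lit 5) (nat_lit 310) (nat_lit 5) (nat_lit 434) (nat_lit 427) (nat_lit 339)) (XT.lf (nat_lit 0) (nat_lit 1835743476) (nat_lit 1140) (nat_lit 2423509971) (nat_lit 1216) (nat_lit 6358373335) (nat_lit 294) (nat_lit 5) (nat_lit 309) (nat_lit 5) (nat_lit 310) (nat_lit 5) (nat_lit 435) (nat_lit 427) (nat_lit 338)))) (XT.nd (nat_lit 156) (nat_lit 0) (nat_lit 0) (XT.nd (nat_lit 78) (nat_lit 0) (nat_lit 0) (XT.lf (nat_lit 0) (nat_lit 2881908649) (nat_lit 1140)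 (nat_lit 7620265276) (nat_lit 1216) (nat_lit 262842647) (nat_lit 295) (nat_lit 5) (nat_lit 310) (nat_lit 5) (nat_lit 311) (nat_lit 5) (nat_lit 436) (nat_lit 427) (nat_lit 337)) (XT.lf (nat_lit 0) (nat_lit 4002008888) (nat_lit 1140) (nat_lit 2046204450) (nat_lit 1216) (nat_lit 4867344084) (nat_lit 295) (nat_lit 5) (nat_lit 310) (nat_lit 5) (nat_lit 311) (nat_lit 5) (nat_lit 437) (nat_lit 427) (nat_lit 336))) (XT.nd (nat_lit 78) (nat_lit 0) (nat_lit 76) (XT.lf (nat_lit 76) (nat_lit 3751351032) (nat_lit 0) (nat_lit 1416794471) (nat_lit 1216) (nat_lit 5902101688) (nat_lit 296) (nat_lit 5) (nat_lit 295) (nat_lit 5) (nat_lit 311) (nat_lit 5) (nat_lit 438) (nat_lit 427) (nat_lit 335)) (XT.lf (nat_lit 0) (nat_lit 6399331007) (nat_lit 1140) (nat_lit 1514143527) (nat_lit 1216) (nat_lit 3315206706) (nat_lit 296) (nat_lit 5) (nat_lit 311) (nat_lit 5) (nat_lit 312) (nat_lit 5) (nat_lit 439) (nat_lit 427) (nat_lit 334))))) (XT.nd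 (nat_lit 312) (nat_lit 1900) (nat_lit 0) (XT.nd (nat_lit 156) (nat_lit 1140) (nat_lit 0) (XT.nd (nat_lit 78) (nat_lit 0) (nat_lit 76) (XT.lf (nat_lit 76) (nat_lit 4521950944) (nat_lit 0) (nat_lit 3180628614) (nat_lit 1216) (nat_lit 3688240299) (nat_lit 297) (nat_lit 5) (nat_lit 296) (nat_lit 5) (nat_lit 312) (nat_lit 5) (nat_lit 440) (nat_lit 427) (nat_lit 333)) (XT.lf (nat_lit 0) (nat_lit 9054822539) (nat_lit 1140) (nat_lit 821190097) (nat_lit 1216) (nat_lit 1681518301) (nat_lit 297) (nat_lit 5) (nat_lit 312) (nat_lit 5) (nat_lit 313) (nat_lit 5) (nat_lit 441) (nat_lit 427) (nat_lit 332))) (XT.nd (nat_lit 78) (nat_lit 1216) (nat_lit 0) (XT.lf (nat_lit 76) (nat_lit 5466045510) (nat_lit 0) (nat_lit 5044427463) (nat_lit 1216) (nat_lit 1216890232) (nat_lit 298) (nat_lit 5) (nat_lit 297) (nat_lit 5) (nat_lit 313) (nat_lit 5) (nat_lit 442) (nat_lit 427) (nat_lit 331)) (XT.lf (nat_lit 76) (nat_lit 39037346) (nat_lit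 0) (nat_lit 54167868) (nat_lit 1292) (nat_lit 11809424981) (nat_lit 282) (nat_lit 5) (nat_lit 281) (nat_lit 5) (nat_lit 298) (nat_lit 5) (nat_lit 443) (nat_lit 427) (nat_lit 330)))) (XT.nd (nat_lit 156) (nat_lit 760) (nat_lit 0) (XT.nd (nat_lit 78) (nat_lit 1216) (nat_lit 0) (XT.lf (nat_lit 0) (nat_lit 1510414780) (nat_lit 1216) (nat_lit 5503848335) (nat_lit 76) (nat_lit 5065767174) (nat_lit 282) (nat_lit 5) (nat_lit 298) (nat_lit 5) (nat_lit 283) (nat_lit 5) (nat_lit 444) (nat_lit 427) (nat_lit 329)) (XT.lf (nat_lit 0) (nat_lit 1049365388) (nat_lit 1216) (nat_lit 1911523637) (nat_lit 1292) (nat_lit 9302145405) (nat_lit 266) (nat_lit 5) (nat_lit 282) (nat_lit 5) (nat_lit 283) (nat_lit 5) (nat_lit 445) (nat_lit 427) (nat_lit 328))) (XT.nd (nat_lit 78) (nat_lit 760) (nat_lit 0) (XT.lf (nat_lit 0) (nat_lit 4523715535) (nat_lit 1292) (nat_lit 4588265432) (nat_lit 76) (nat_lit 3337486954) (nat_lit 266) (nat_lit 5) (nat_lit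 283) (nat_lit 5) (nat_lit 267) (nat_lit 5) (nat_lit 446) (nat_lit 427) (nat_lit 327)) (XT.lf (nat_lit 0) (nat_lit 2243564645) (nat_lit 760) (nat_lit 3911483077) (nat_lit 836) (nat_lit 6485802305) (nat_lit 256) (nat_lit 5) (nat_lit 266) (nat_lit 5) (nat_lit 267) (nat_lit 5) (nat_lit 447) (nat_lit 427) (nat_lit 326))))))) (XT.nd (nat_lit 1170) (nat_lit 3648) (nat_lit 0) (XT.nd (nat_lit 546) (nat_lit 2052) (nat_lit 0) (XT.nd (nat_lit 234) (nat_lit 1748) (nat_lit 0) (XT.nd (nat_lit 78) (nat_lit 608) (nat_lit 0) (XT.lf (nat_lit 0) (nat_lit 7877530117) (nat_lit 836) (nat_lit 3494122226) (nat_lit 76) (nat_lit 1465059063) (nat_lit 256) (nat_lit 5) (nat_lit 267) (nat_lit 5) (nat_lit 257) (nat_lit 5) (nat_lit 448) (nat_lit 427) (nat_lit 325)) (XT.nd (nat_lit 78) (nat_lit 0) (nat_lit 0) (XT.lf (nat_lit 0) (nat_lit 3631184274) (nat_lit 608) (nat_lit 6076201941) (nat_lit 684) (nat_lit 3329395430) (nat_lit 248) (nat_lit 5) (nat_lit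 256) (nat_lit 5) (nat_lit 257) (nat_lit 5) (nat_lit 449) (nat_lit 427) (nat_lit 324)) (XT.lf (nat_lit 0) (nat_lit 11024962036) (nat_lit 608) (nat_lit 584886004) (nat_lit 684) (nat_lit 1632478529) (nat_lit 248) (nat_lit 5) (nat_lit 256) (nat_lit 5) (nat_lit 257) (nat_lit 5) (nat_lit 450) (nat_lit 427) (nat_lit 323)))) (XT.nd (nat_lit 156) (nat_lit 1064) (nat_lit 0) (XT.nd (nat_lit 78) (nat_lit 0) (nat_lit 0) (XT.lf (nat_lit 0) (nat_lit 195797842) (nat_lit 684) (nat_lit 8230764913) (nat_lit 76) (nat_lit 5024964395) (nat_lit 239) (nat_lit 5) (nat_lit 248) (nat_lit 5) (nat_lit 240) (nat_lit 5) (nat_lit 451) (nat_lit 427) (nat_lit 322)) (XT.lf (nat_lit 0) (nat_lit 2057625620) (nat_lit 684) (nat_lit 778137928) (nat_lit 76) (nat_lit 10830413427) (nat_lit 239) (nat_lit 5) (nat_lit 248) (nat_lit 5) (nat_lit 240) (nat_lit 5) (nat_lit 452) (nat_lit 427) (nat_lit 321))) (XT.nd (nat_lit 78) (nat_lit 532) (nat_lit 0) (XT.lf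 (nat_lit 0) (nat_lit 4055137191) (nat_lit 608) (nat_lit 6896094884) (nat_lit 76) (nat_lit 2933642797) (nat_lit 232) (nat_lit 5) (nat_lit 240) (nat_lit 5) (nat_lit 233) (nat_lit 5) (nat_lit 453) (nat_lit 427) (nat_lit 320)) (XT.lf (nat_lit 0) (nat_lit 866576580) (nat_lit 532) (nat_lit 5274258279) (nat_lit 608) (nat_lit 7968454371) (nat_lit 225) (nat_lit 5) (nat_lit 232) (nat_lit 5) (nat_lit 233) (nat_lit 5) (nat_lit 454) (nat_lit 427) (nat_lit 319))))) (XT.nd (nat_lit 312) (nat_lit 912) (nat_lit 0) (XT.nd (nat_lit 156) (nat_lit 608) (nat_lit 0) (XT.nd (nat_lit 78) (nat_lit 532) (nat_lit 0) (XT.lf (nat_lit 0) (nat_lit 8349154187) (nat_lit 608) (nat_lit 5358291440) (nat_lit 76) (nat_lit 631192118) (nat_lit 225) (nat_lit 5) (nat_lit 233) (nat_lit 5) (nat_lit 226) (nat_lit 5) (nat_lit 455) (nat_lit 427) (nat_lit 318)) (XT.lf (nat_lit 0) (nat_lit 2747315976) (nat_lit 532) (nat_lit 7939712063) (nat_lit 608) (nat_lit 3885942684)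 (nat_lit 218) (nat_lit 5) (nat_lit 225) (nat_lit 5) (nat_lit 226) (nat_lit 5) (nat_lit 456) (nat_lit 427) (nat_lit 317))) (XT.nd (nat_lit 78) (nat_lit 608) (nat_lit 0) (XT.lf (nat_lit 0) (nat_lit 11189359333) (nat_lit 532) (nat_lit 1944749731) (nat_lit 608) (nat_lit 1679055557) (nat_lit 218) (nat_lit 5) (nat_lit 225) (nat_lit 5) (nat_lit 226) (nat_lit 5) (nat_lit 457) (nat_lit 427) (nat_lit 316)) (XT.lf (nat_lit 0) (nat_lit 655946909) (nat_lit 608) (nat_lit 10203021827) (nat_lit 76) (nat_lit 4199222164) (nat_lit 210) (nat_lit 5) (nat_lit 218) (nat_lit 5) (nat_lit 211) (nat_lit 5) (nat_lit 458) (nat_lit 427) (nat_lit 315)))) (XT.nd (nat_lit 156) (nat_lit 456) (nat_lit 0) (XT.nd (nat_lit 78) (nat_lit 456) (nat_lit 0) (XT.lf (nat_lit 0) (nat_lit 3068972631) (nat_lit 608) (nat_lit 1699559829) (nat_lit 76) (nat_lit 10540287963) (nat_lit 210) (nat_lit 5) (nat_lit 218) (nat_lit 5) (nat_lit 211) (nat_lit 5) (nat_lit 459)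 (nat_lit 427) (nat_lit 314)) (XT.lf (nat_lit 0) (nat_lit 5624495447) (nat_lit 532) (nat_lit 8397436928) (nat_lit 76) (nat_lit 1542935989) (nat_lit 204) (nat_lit 5) (nat_lit 211) (nat_lit 5) (nat_lit 205) (nat_lit 5) (nat_lit 460) (nat_lit 427) (nat_lit 313))) (XT.nd (nat_lit 78) (nat_lit 0) (nat_lit 0) (XT.lf (nat_lit 0) (nat_lit 452232522) (nat_lit 456) (nat_lit 7859510764) (nat_lit 532) (nat_lit 7515205317) (nat_lit 198) (nat_lit 5) (nat_lit 204) (nat_lit 5) (nat_lit 205) (nat_lit 5) (nat_lit 461) (nat_lit 427) (nat_lit 312)) (XT.lf (nat_lit 0) (nat_lit 9723294125) (nat_lit 456) (nat_lit 1427525777) (nat_lit 532) (nat_lit 4943937573) (nat_lit 198) (nat_lit 5) (nat_lit 204) (nat_lit 5) (nat_lit 205) (nat_lit 5) (nat_lit 462) (nat_lit 427) (nat_lit 311)))))) (XT.nd (nat_lit 624) (nat_lit 1444) (nat_lit 0) (XT.nd (nat_lit 312) (nat_lit 1216) (nat_lit 0) (XT.nd (nat_lit 156) (nat_lit 456) (nat_lit 0) (XT.nd (nat_lit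 78) (nat_lit 76) (nat_lit 0) (XT.lf (nat_lit 0) (nat_lit 2892226247) (nat_lit 456) (nat_lit 11247389857) (nat_lit 532) (nat_lit 2229050580) (nat_lit 192) (nat_lit 5) (nat_lit 198) (nat_lit 5) (nat_lit 199) (nat_lit 5) (nat_lit 463) (nat_lit 427) (nat_lit 310)) (XT.lf (nat_lit 0) (nat_lit 622208569) (nat_lit 532) (nat_lit 4120894562) (nat_lit 76) (nat_lit 11905548934) (nat_lit 191) (nat_lit 5) (nat_lit 198) (nat_lit 5) (nat_lit 192) (nat_lit 5) (nat_lit 464) (nat_lit 427) (nat_lit 309))) (XT.nd (nat_lit 78) (nat_lit 0) (nat_lit 0) (XT.lf (nat_lit 0) (nat_lit 3574697875) (nat_lit 532) (nat_lit 11368183758) (nat_lit 76) (nat_lit 1991680738) (nat_lit 185) (nat_lit 5) (nat_lit 192) (nat_lit 5) (nat_lit 186) (nat_lit 5) (nat_lit 465) (nat_lit 427) (nat_lit 308)) (XT.lf (nat_lit 0) (nat_lit 6692206217) (nat_lit 532) (nat_lit 1662393637) (nat_lit 76) (nat_lit 8872159011) (nat_lit 185) (nat_lit 5) (nat_lit 192) (nat_lit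 5) (nat_lit 186) (nat_lit 5) (nat_lit 466) (nat_lit 427) (nat_lit 307)))) (XT.nd (nat_lit 156) (nat_lit 456) (nat_lit 0) (XT.nd (nat_lit 78) (nat_lit 380) (nat_lit 0) (XT.lf (nat_lit 0) (nat_lit 8484638077) (nat_lit 380) (nat_lit 1487984542) (nat_lit 456) (nat_lit 7553019301) (nat_lit 180) (nat_lit 5) (nat_lit 185) (nat_lit 5) (nat_lit 186) (nat_lit 5) (nat_lit 467) (nat_lit 427) (nat_lit 306)) (XT.lf (nat_lit 0) (nat_lit 1088894770) (nat_lit 380) (nat_lit 12331657829) (nat_lit 456) (nat_lit 4410867919) (nat_lit 175) (nat_lit 5) (nat_lit 180) (nat_lit 5) (nat_lit 181) (nat_lit 5) (nat_lit 468) (nat_lit 427) (nat_lit 305))) (XT.nd (nat_lit 78) (nat_lit 456) (nat_lit 0) (XT.lf (nat_lit 0) (nat_lit 11677475271) (nat_lit 380) (nat_lit 5388528046) (nat_lit 456) (nat_lit 1077548696) (nat_lit 175) (nat_lit 5) (nat_lit 180) (nat_lit 5) (nat_lit 181) (nat_lit 5) (nat_lit 469) (nat_lit 427) (nat_lit 304)) (XT.lf (nat_lit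 0) (nat_lit 2355764820) (nat_lit 456) (nat_lit 14319113792) (nat_lit 76) (nat_lit 1788112467) (nat_lit 169) (nat_lit 5) (nat_lit 175) (nat_lit 5) (nat_lit 170) (nat_lit 5) (nat_lit 470) (nat_lit 427) (nat_lit 303))))) (XT.nd (nat_lit 312) (nat_lit 760) (nat_lit 0) (XT.nd (nat_lit 156) (nat_lit 304) (nat_lit 0) (XT.nd (nat_lit 78) (nat_lit 380) (nat_lit 0) (XT.lf (nat_lit 0) (nat_lit 5978294940) (nat_lit 456) (nat_lit 3665501641) (nat_lit 76) (nat_lit 9144662279) (nat_lit 169) (nat_lit 5) (nat_lit 175) (nat_lit 5) (nat_lit 170) (nat_lit 5) (nat_lit 471) (nat_lit 427) (nat_lit 302)) (XT.lf (nat_lit 0) (nat_lit 7437850067) (nat_lit 380) (nat_lit 2332062546) (nat_lit 456) (nat_lit 9351967512) (nat_lit 164) (nat_lit 5) (nat_lit 169) (nat_lit 5) (nat_lit 170) (nat_lit 5) (nat_lit 472) (nat_lit 427) (nat_lit 301))) (XT.nd (nat_lit 78) (nat_lit 304) (nat_lit 0) (XT.lf (nat_lit 0) (nat_lit 13751692360) (nat_lit 456) (nat_lit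 580246555) (nat_lit 76) (nat_lit 5131074453) (nat_lit 164) (nat_lit 5) (nat_lit 170) (nat_lit 5) (nat_lit 165) (nat_lit 5) (nat_lit 473) (nat_lit 427) (nat_lit 300)) (XT.lf (nat_lit 0) (nat_lit 11034166571) (nat_lit 304) (nat_lit 6937291047) (nat_lit 380) (nat_lit 1839368722) (nat_lit 160) (nat_lit 5) (nat_lit 164) (nat_lit 5) (nat_lit 165) (nat_lit 5) (nat_lit 474) (nat_lit 427) (nat_lit 299)))) (XT.nd (nat_lit 156) (nat_lit 304) (nat_lit 0) (XT.nd (nat_lit 78) (nat_lit 0) (nat_lit 0) (XT.lf (nat_lit 0) (nat_lit 2136688242) (nat_lit 456) (nat_lit 17314460736) (nat_lit 76) (nat_lit 716410396) (nat_lit 154) (nat_lit 5) (nat_lit 160) (nat_lit 5) (nat_lit 155) (nat_lit 5) (nat_lit 475) (nat_lit 427) (nat_lit 298)) (XT.lf (nat_lit 0) (nat_lit 6342813734) (nat_lit 456) (nat_lit 5623353746) (nat_lit 76) (nat_lit 8563849433) (nat_lit 154) (nat_lit 5) (nat_lit 160) (nat_lit 5) (nat_lit 155) (nat_lit 5) (nat_lit 476) (nat_lit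 427) (nat_lit 297))) (XT.nd (nat_lit 78) (nat_lit 0) (nat_lit 0) (XT.lf (nat_lit 0) (nat_lit 6531467293) (nat_lit 304) (nat_lit 4196309778) (nat_lit 380) (nat_lit 10173992993) (nat_lit 150) (nat_lit 5) (nat_lit 154) (nat_lit 5) (nat_lit 155) (nat_lit 5) (nat_lit 477) (nat_lit 427) (nat_lit 296)) (XT.lf (nat_lit 0) (nat_lit 15328213224) (nat_lit 380) (nat_lit 2168508584) (nat_lit 76) (nat_lit 3785437746) (nat_lit 150) (nat_lit 5) (nat_lit 155) (nat_lit 5) (nat_lit 151) (nat_lit 5) (nat_lit 478) (nat_lit 427) (nat_lit 295))))))))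
noncomputable def xc159 : XT := (XT.nd (nat_lit 2340) (nat_lit 2888) (nat_lit 0) (XT.nd (nat_lit 1170) (nat_lit 1976) (nat_lit 0) (XT.nd (nat_lit 546) (nat_lit 1140) (nat_lit 0) (XT.nd (nat_lit 234) (nat_lit 912) (nat_lit 0) (XT.nd (nat_lit 78) (nat_lit 380) (nat_lit 0) (XT.lf (nat_lit 0) (nat_lit 10549486689) (nat_lit 304) (nat_lit 9650408266) (nat_lit 380) (nat_lit 1470070219) (nat_lit 146) (nat_lit 5) (nat_lit 150) (nat_lit 5) (nat_lit 151) (nat_lit 5) (nat_lit 479) (nat_lit 427) (nat_lit 294)) (XT.nd (nat_lit 78) (nat_lit 0) (nat_lit 0) (XT.lf (nat_lit 0) (nat_lit 1611472766) (nat_lit 304) (nat_lit 1503348246) (nat_lit 380) (nat_lit 18952839362) (nat_lit 141) (nat_lit 5) (nat_lit 145) (nat_lit 5) (nat_lit 146) (nat_lit 5) (nat_lit 480) (nat_lit 427) (nat_lit 293)) (XT.lf (nat_lit 0) (nat_lit 7977763293) (nat_lit 380) (nat_lit 7616778373) (nat_lit 76) (nat_lit 6877207872) (nat_lit 141) (nat_lit 5) (nat_lit 146)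 (nat_lit 5) (nat_lit 142) (nat_lit 5) (nat_lit 481) (nat_lit 427) (nat_lit 292)))) (XT.nd (nat_lit 156) (nat_lit 608) (nat_lit 0) (XT.nd (nat_lit 78) (nat_lit 0) (nat_lit 0) (XT.lf (nat_lit 0) (nat_lit 5690056748) (nat_lit 304) (nat_lit 7356828277) (nat_lit 380) (nat_lit 9839268877) (nat_lit 137) (nat_lit 5) (nat_lit 141) (nat_lit 5) (nat_lit 142) (nat_lit 5) (nat_lit 482) (nat_lit 427) (nat_lit 291)) (XT.lf (nat_lit 0) (nat_lit 18347403730) (nat_lit 380) (nat_lit 3784054580) (nat_lit 76) (nat_lit 1179153614) (nat_lit 137) (nat_lit 5) (nat_lit 142) (nat_lit 5) (nat_lit 138) (nat_lit 5) (nat_lit 483) (nat_lit 427) (nat_lit 290))) (XT.nd (nat_lit 78) (nat_lit 304) (nat_lit 0) (XT.lf (nat_lit 0) (nat_lit 220978435) (nat_lit 304) (nat_lit 13603309003) (nat_lit 76) (nat_lit 9918610407) (nat_lit 133) (nat_lit 5) (nat_lit 137) (nat_lit 5) (nat_lit 134) (nat_lit 5) (nat_lit 484) (nat_lit 427) (nat_lit 289)) (XT.lf (nat_lit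 0) (nat_lit 314485472) (nat_lit 304) (nat_lit 5179176858) (nat_lit 380) (nat_lit 18692035098) (nat_lit 129) (nat_lit 5) (nat_lit 133) (nat_lit 5) (nat_lit 134) (nat_lit 5) (nat_lit 485) (nat_lit 427) (nat_lit 288))))) (XT.nd (nat_lit 312) (nat_lit 532) (nat_lit 0) (XT.nd (nat_lit 156) (nat_lit 380) (nat_lit 0) (XT.nd (nat_lit 78) (nat_lit 228) (nat_lit 0) (XT.lf (nat_lit 0) (nat_lit 11090261012) (nat_lit 380) (nat_lit 9759883223) (nat_lit 76) (nat_lit 3786665823) (nat_lit 129) (nat_lit 5) (nat_lit 134) (nat_lit 5) (nat_lit 130) (nat_lit 5) (nat_lit 486) (nat_lit 427) (nat_lit 287)) (XT.lf (nat_lit 0) (nat_lit 4803926257) (nat_lit 228) (nat_lit 12139742748) (nat_lit 304) (nat_lit 8155120778) (nat_lit 126) (nat_lit 5) (nat_lit 129) (nat_lit 5) (nat_lit 130) (nat_lit 5) (nat_lit 487) (nat_lit 427) (nat_lit 286))) (XT.nd (nat_lit 78) (nat_lit 380) (nat_lit 0) (XT.lf (nat_lit 0) (nat_lit 19991526627) (nat_lit 228) (nat_lit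 3071284496) (nat_lit 304) (nat_lit 2509114846) (nat_lit 126) (nat_lit 5) (nat_lit 129) (nat_lit 5) (nat_lit 130) (nat_lit 5) (nat_lit 488) (nat_lit 427) (nat_lit 285)) (XT.lf (nat_lit 0) (nat_lit 3388390436) (nat_lit 380) (nat_lit 16396781781) (nat_lit 76) (nat_lit 6268732440) (nat_lit 121) (nat_lit 5) (nat_lit 126) (nat_lit 5) (nat_lit 122) (nat_lit 5) (nat_lit 489) (nat_lit 427) (nat_lit 284)))) (XT.nd (nat_lit 156) (nat_lit 304) (nat_lit 0) (XT.nd (nat_lit 78) (nat_lit 228) (nat_lit 0) (XT.lf (nat_lit 0) (nat_lit 9491519452) (nat_lit 380) (nat_lit 1151343543) (nat_lit 76) (nat_lit 15904361490) (nat_lit 121) (nat_lit 5) (nat_lit 126) (nat_lit 5) (nat_lit 122) (nat_lit 5) (nat_lit 490) (nat_lit 427) (nat_lit 283)) (XT.lf (nat_lit 0) (nat_lit 14828142846) (nat_lit 228) (nat_lit 1084186692) (nat_lit 304) (nat_lit 11138977665) (nat_lit 118) (nat_lit 5) (nat_lit 121) (nat_lit 5) (nat_lit 122) (nat_lit 5) (nat_lit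 491) (nat_lit 427) (nat_lit 282))) (XT.nd (nat_lit 78) (nat_lit 76) (nat_lit 0) (XT.lf (nat_lit 0) (nat_lit 3715896390) (nat_lit 228) (nat_lit 18933662738) (nat_lit 304) (nat_lit 4917240302) (nat_lit 115) (nat_lit 5) (nat_lit 118) (nat_lit 5) (nat_lit 119) (nat_lit 5) (nat_lit 492) (nat_lit 427) (nat_lit 281)) (XT.lf (nat_lit 0) (nat_lit 1589584516) (nat_lit 304) (nat_lit 7749416582) (nat_lit 76) (nat_lit 18754500154) (nat_lit 114) (nat_lit 5) (nat_lit 118) (nat_lit 5) (nat_lit 115) (nat_lit 5) (nat_lit 493) (nat_lit 427) (nat_lit 280)))))) (XT.nd (nat_lit 546) (nat_lit 1064) (nat_lit 0) (XT.nd (nat_lit 234) (nat_lit 456) (nat_lit 0) (XT.nd (nat_lit 78) (nat_lit 228) (nat_lit 0) (XT.lf (nat_lit 0) (nat_lit 8277689904) (nat_lit 304) (nat_lit 19690048102) (nat_lit 76) (nat_lit 664259144) (nat_lit 111) (nat_lit 5) (nat_lit 115) (nat_lit 5) (nat_lit 112) (nat_lit 5) (nat_lit 494) (nat_lit 427) (nat_lit 279)) (XT.nd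 (nat_lit 78) (nat_lit 228) (nat_lit 0) (XT.lf (nat_lit 0) (nat_lit 15330366151) (nat_lit 304) (nat_lit 2997081293) (nat_lit 76) (nat_lit 10854283434) (nat_lit 111) (nat_lit 5) (nat_lit 115) (nat_lit 5) (nat_lit 112) (nat_lit 5) (nat_lit 495) (nat_lit 427) (nat_lit 278)) (XT.lf (nat_lit 0) (nat_lit 14466886328) (nat_lit 228) (nat_lit 8259454935) (nat_lit 304) (nat_lit 7017664561) (nat_lit 108) (nat_lit 5) (nat_lit 111) (nat_lit 5) (nat_lit 112) (nat_lit 5) (nat_lit 496) (nat_lit 427) (nat_lit 277)))) (XT.nd (nat_lit 156) (nat_lit 228) (nat_lit 0) (XT.nd (nat_lit 78) (nat_lit 0) (nat_lit 0) (XT.lf (nat_lit 0) (nat_lit 86024824) (nat_lit 228) (nat_lit 28117799976) (nat_lit 76) (nat_lit 2117357202) (nat_lit 105) (nat_lit 5) (nat_lit 108) (nat_lit 5) (nat_lit 106) (nat_lit 5) (nat_lit 497) (nat_lit 427) (nat_lit 276)) (XT.lf (nat_lit 0) (nat_lit 7492082298) (nat_lit 228) (nat_lit 10554536615) (nat_lit 76) (nat_lit 12860061630)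 (nat_lit 105) (nat_lit 5) (nat_lit 108) (nat_lit 5) (nat_lit 106) (nat_lit 5) (nat_lit 498) (nat_lit 427) (nat_lit 275))) (XT.nd (nat_lit 78) (nat_lit 0) (nat_lit 0) (XT.lf (nat_lit 0) (nat_lit 7673547902) (nat_lit 228) (nat_lit 7513480477) (nat_lit 304) (nat_lit 16320715133) (nat_lit 102) (nat_lit 5) (nat_lit 105) (nat_lit 5) (nat_lit 106) (nat_lit 5) (nat_lit 499) (nat_lit 427) (nat_lit 274)) (XT.lf (nat_lit 0) (nat_lit 23245514112) (nat_lit 304) (nat_lit 5503791416) (nat_lit 76) (nat_lit 3373552762) (nat_lit 102) (nat_lit 5) (nat_lit 106) (nat_lit 5) (nat_lit 103) (nat_lit 5) (nat_lit 500) (nat_lit 427) (nat_lit 273))))) (XT.nd (nat_lit 312) (nat_lit 456) (nat_lit 0) (XT.nd (nat_lit 156) (nat_lit 380) (nat_lit 0) (XT.nd (nat_lit 78) (nat_lit 76) (nat_lit 0) (XT.lf (nat_lit 0) (nat_lit 13555125383) (nat_lit 152) (nat_lit 18188515781) (nat_lit 228) (nat_lit 1006849384) (nat_lit 100) (nat_lit 5) (nat_lit 102) (nat_lit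 5) (nat_lit 103) (nat_lit 5) (nat_lit 501) (nat_lit 427) (nat_lit 272)) (XT.lf (nat_lit 0) (nat_lit 7010563278) (nat_lit 228) (nat_lit 176990562) (nat_lit 76) (nat_lit 26205870772) (nat_lit 99) (nat_lit 5) (nat_lit 102) (nat_lit 5) (nat_lit 100) (nat_lit 5) (nat_lit 502) (nat_lit 427) (nat_lit 271))) (XT.nd (nat_lit 78) (nat_lit 152) (nat_lit 0) (XT.lf (nat_lit 0) (nat_lit 15473547642) (nat_lit 304) (nat_lit 14314932220) (nat_lit 76) (nat_lit 4260109778) (nat_lit 96) (nat_lit 5) (nat_lit 100) (nat_lit 5) (nat_lit 97) (nat_lit 5) (nat_lit 503) (nat_lit 427) (nat_lit 270)) (XT.lf (nat_lit 0) (nat_lit 5547725444) (nat_lit 152) (nat_lit 18762448772) (nat_lit 228) (nat_lit 10409643389) (nat_lit 94) (nat_lit 5) (nat_lit 96) (nat_lit 5) (nat_lit 97) (nat_lit 5) (nat_lit 504) (nat_lit 427) (nat_lit 269)))) (XT.nd (nat_lit 156) (nat_lit 152) (nat_lit 0) (XT.nd (nat_lit 78) (nat_lit 304) (nat_lit 0) (XT.lf (nat_lit 0) (nat_lit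 26288569129) (nat_lit 152) (nat_lit 7261422468) (nat_lit 228) (nat_lit 1857048603) (nat_lit 94) (nat_lit 5) (nat_lit 96) (nat_lit 5) (nat_lit 97) (nat_lit 5) (nat_lit 505) (nat_lit 427) (nat_lit 268)) (XT.lf (nat_lit 0) (nat_lit 6968270958) (nat_lit 304) (nat_lit 24468445998) (nat_lit 76) (nat_lit 4671603957) (nat_lit 90) (nat_lit 5) (nat_lit 94) (nat_lit 5) (nat_lit 91) (nat_lit 5) (nat_lit 506) (nat_lit 427) (nat_lit 267))) (XT.nd (nat_lit 78) (nat_lit 152) (nat_lit 0) (XT.lf (nat_lit 0) (nat_lit 16179612119) (nat_lit 304) (nat_lit 3722155220) (nat_lit 76) (nat_lit 16923564009) (nat_lit 90) (nat_lit 5) (nat_lit 94) (nat_lit 5) (nat_lit 91) (nat_lit 5) (nat_lit 507) (nat_lit 427) (nat_lit 266)) (XT.lf (nat_lit 0) (nat_lit 17986857343) (nat_lit 152) (nat_lit 7847221538) (nat_lit 228) (nat_lit 11724770145) (nat_lit 88) (nat_lit 5) (nat_lit 90) (nat_lit 5) (nat_lit 91) (nat_lit 5) (nat_lit 508) (nat_lit 427) (nat_lit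 265))))))) (XT.nd (nat_lit 1170) (nat_lit 1368) (nat_lit 0) (XT.nd (nat_lit 546) (nat_lit 760) (nat_lit 0) (XT.nd (nat_lit 234) (nat_lit 380) (nat_lit 0) (XT.nd (nat_lit 78) (nat_lit 228) (nat_lit 0) (XT.lf (nat_lit 0) (nat_lit 2096118095) (nat_lit 152) (nat_lit 33778006987) (nat_lit 228) (nat_lit 2437369264) (nat_lit 86) (nat_lit 5) (nat_lit 88) (nat_lit 5) (nat_lit 89) (nat_lit 5) (nat_lit 509) (nat_lit 427) (nat_lit 264)) (XT.nd (nat_lit 78) (nat_lit 152) (nat_lit 0) (XT.lf (nat_lit 0) (nat_lit 7260772243) (nat_lit 228) (nat_lit 14424194613) (nat_lit 76) (nat_lit 17391560140) (nat_lit 85) (nat_lit 5) (nat_lit 88) (nat_lit 5) (nat_lit 86) (nat_lit 5) (nat_lit 510) (nat_lit 427) (nat_lit 263)) (XT.lf (nat_lit 0) (nat_lit 8145137389) (nat_lit 152) (nat_lit 9128138125) (nat_lit 228) (nat_lit 22588339388) (nat_lit 83) (nat_lit 5) (nat_lit 85) (nat_lit 5) (nat_lit 86) (nat_lit 5) (nat_lit 511) (nat_lit 427) (nat_lit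 262)))) (XT.nd (nat_lit 156) (nat_lit 228) (nat_lit 0) (XT.nd (nat_lit 78) (nat_lit 152) (nat_lit 0) (XT.lf (nat_lit 0) (nat_lit 27763971683) (nat_lit 228) (nat_lit 9027100204) (nat_lit 76) (nat_lit 3873849447) (nat_lit 83) (nat_lit 5) (nat_lit 86) (nat_lit 5) (nat_lit 84) (nat_lit 5) (nat_lit 512) (nat_lit 427) (nat_lit 261)) (XT.lf (nat_lit 0) (nat_lit 14525913603) (nat_lit 152) (nat_lit 24267795178) (nat_lit 228) (nat_lit 2691888987) (nat_lit 81) (nat_lit 5) (nat_lit 83) (nat_lit 5) (nat_lit 84) (nat_lit 5) (nat_lit 513) (nat_lit 427) (nat_lit 260))) (XT.nd (nat_lit 78) (nat_lit 152) (nat_lit 0) (XT.lf (nat_lit 0) (nat_lit 7757162308) (nat_lit 228) (nat_lit 3443835791) (nat_lit 76) (nat_lit 31125049201) (nat_lit 80) (nat_lit 5) (nat_lit 83) (nat_lit 5) (nat_lit 81) (nat_lit 5) (nat_lit 514) (nat_lit 427) (nat_lit 259)) (XT.lf (nat_lit 0) (nat_lit 18687352053) (nat_lit 228) (nat_lit 22055132018) (nat_lit 76)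 (nat_lit 2441773913) (nat_lit 78) (nat_lit 5) (nat_lit 81) (nat_lit 5) (nat_lit 79) (nat_lit 5) (nat_lit 515) (nat_lit 427) (nat_lit 258))))) (XT.nd (nat_lit 312) (nat_lit 380) (nat_lit 0) (XT.nd (nat_lit 156) (nat_lit 228) (nat_lit 0) (XT.nd (nat_lit 78) (nat_lit 0) (nat_lit 0) (XT.lf (nat_lit 0) (nat_lit 2367794050) (nat_lit 152) (nat_lit 27740950090) (nat_lit 228) (nat_lit 13954572315) (nat_lit 76) (nat_lit 5) (nat_lit 78) (nat_lit 5) (nat_lit 79) (nat_lit 5) (nat_lit 516) (nat_lit 427) (nat_lit 257)) (XT.lf (nat_lit 0) (nat_lit 27965748226) (nat_lit 152) (nat_lit 14124323909) (nat_lit 228) (nat_lit 2872156075) (nat_lit 76) (nat_lit 5) (nat_lit 78) (nat_lit 5) (nat_lit 79) (nat_lit 5) (nat_lit 517) (nat_lit 427) (nat_lit 256))) (XT.nd (nat_lit 78) (nat_lit 0) (nat_lit 0) (XT.lf (nat_lit 0) (nat_lit 8453228872) (nat_lit 228) (nat_lit 37365932592) (nat_lit 76) (nat_lit 64166776) (nat_lit 73) (nat_lit 5) (nat_lit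 76) (nat_lit 5) (nat_lit 74) (nat_lit 5) (nat_lit 518) (nat_lit 427) (nat_lit 255)) (XT.lf (nat_lit 0) (nat_lit 20368531766) (nat_lit 228) (nat_lit 11861407763) (nat_lit 76) (nat_lit 14592032434) (nat_lit 73) (nat_lit 5) (nat_lit 76) (nat_lit 5) (nat_lit 74) (nat_lit 5) (nat_lit 519) (nat_lit 427) (nat_lit 254)))) (XT.nd (nat_lit 156) (nat_lit 228) (nat_lit 0) (XT.nd (nat_lit 78) (nat_lit 0) (nat_lit 0) (XT.lf (nat_lit 0) (nat_lit 14685486683) (nat_lit 152) (nat_lit 18091835724) (nat_lit 228) (nat_lit 15007372045) (nat_lit 71) (nat_lit 5) (nat_lit 73) (nat_lit 5) (nat_lit 74) (nat_lit 5) (nat_lit 520) (nat_lit 427) (nat_lit 253)) (XT.lf (nat_lit 0) (nat_lit 42262693823) (nat_lit 152) (nat_lit 3410383477) (nat_lit 228) (nat_lit 3099780605) (nat_lit 71) (nat_lit 5) (nat_lit 73) (nat_lit 5) (nat_lit 74) (nat_lit 5) (nat_lit 521) (nat_lit 427) (nat_lit 252))) (XT.nd (nat_lit 78) (nat_lit 0) (nat_lit 0) (XT.lf (nat_lit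 0) (nat_lit 9300365579) (nat_lit 228) (nat_lit 28704559672) (nat_lit 76) (nat_lit 11773673202) (nat_lit 68) (nat_lit 5) (nat_lit 71) (nat_lit 5) (nat_lit 69) (nat_lit 5) (nat_lit 522) (nat_lit 427) (nat_lit 251)) (XT.lf (nat_lit 0) (nat_lit 22105412497) (nat_lit 228) (nat_lit 1267518677) (nat_lit 76) (nat_lit 27437803631) (nat_lit 68) (nat_lit 5) (nat_lit 71) (nat_lit 5) (nat_lit 69) (nat_lit 5) (nat_lit 523) (nat_lit 427) (nat_lit 250)))))) (XT.nd (nat_lit 624) (nat_lit 608) (nat_lit 0) (XT.nd (nat_lit 312) (nat_lit 304) (nat_lit 0) (XT.nd (nat_lit 156) (nat_lit 228) (nat_lit 0) (XT.nd (nat_lit 78) (nat_lit 76) (nat_lit 0) (XT.lf (nat_lit 0) (nat_lit 27520837606) (nat_lit 152) (nat_lit 8033506666) (nat_lit 228) (nat_lit 16311699242) (nat_lit 66) (nat_lit 5) (nat_lit 68) (nat_lit 5) (nat_lit 69) (nat_lit 5) (nat_lit 524) (nat_lit 427) (nat_lit 249)) (XT.lf (nat_lit 0) (nat_lit 4245419374) (nat_lit 76) (nat_lit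 45284917115) (nat_lit 152) (nat_lit 3418967485) (nat_lit 65) (nat_lit 5) (nat_lit 66) (nat_lit 5) (nat_lit 67) (nat_lit 4) (nat_lit 525) (nat_lit 427) (nat_lit 248))) (XT.nd (nat_lit 78) (nat_lit 152) (nat_lit 0) (XT.lf (nat_lit 0) (nat_lit 9991156553) (nat_lit 152) (nat_lit 20050483728) (nat_lit 76) (nat_lit 24010887893) (nat_lit 64) (nat_lit 5) (nat_lit 66) (nat_lit 5) (nat_lit 65) (nat_lit 5) (nat_lit 526) (nat_lit 427) (nat_lit 247)) (XT.lf (nat_lit 0) (nat_lit 9607550194) (nat_lit 152) (nat_lit 14215021888) (nat_lit 228) (nat_lit 31362630555) (nat_lit 62) (nat_lit 5) (nat_lit 64) (nat_lit 5) (nat_lit 65) (nat_lit 5) (nat_lit 527) (nat_lit 427) (nat_lit 246)))) (XT.nd (nat_lit 156) (nat_lit 228) (nat_lit 0) (XT.nd (nat_lit 78) (nat_lit 76) (nat_lit 0) (XT.lf (nat_lit 0) (nat_lit 38288828904) (nat_lit 228) (nat_lit 15810115054) (nat_lit 76) (nat_lit 2246316646) (nat_lit 62) (nat_lit 5) (nat_lit 65) (nat_lit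 5) (nat_lit 63) (nat_lit 4) (nat_lit 528) (nat_lit 427) (nat_lit 245)) (XT.lf (nat_lit 0) (nat_lit 14993930214) (nat_lit 76) (nat_lit 38475519642) (nat_lit 152) (nat_lit 4062259388) (nat_lit 61) (nat_lit 5) (nat_lit 62) (nat_lit 5) (nat_lit 63) (nat_lit 4) (nat_lit 529) (nat_lit 427) (nat_lit 244))) (XT.nd (nat_lit 78) (nat_lit 152) (nat_lit 0) (XT.lf (nat_lit 0) (nat_lit 10306480239) (nat_lit 152) (nat_lit 11812229689) (nat_lit 76) (nat_lit 36627354157) (nat_lit 60) (nat_lit 5) (nat_lit 62) (nat_lit 5) (nat_lit 61) (nat_lit 5) (nat_lit 530) (nat_lit 427) (nat_lit 243)) (XT.lf (nat_lit 0) (nat_lit 20180535790) (nat_lit 152) (nat_lit 5033727281) (nat_lit 228) (nat_lit 34775691245) (nat_lit 58) (nat_lit 5) (nat_lit 60) (nat_lit 5) (nat_lit 61) (nat_lit 5) (nat_lit 531) (nat_lit 427) (nat_lit 242))))) (XT.nd (nat_lit 312) (nat_lit 304) (nat_lit 0) (XT.nd (nat_lit 156) (nat_lit 228) (nat_lit 0) (XT.nd (nat_lit 78)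 (nat_lit 76) (nat_lit 0) (XT.lf (nat_lit 0) (nat_lit 40806166194) (nat_lit 228) (nat_lit 8022450268) (nat_lit 76) (nat_lit 12435438388) (nat_lit 58) (nat_lit 5) (nat_lit 61) (nat_lit 5) (nat_lit 59) (nat_lit 4) (nat_lit 532) (nat_lit 427) (nat_lit 241)) (XT.lf (nat_lit 0) (nat_lit 25151176432) (nat_lit 76) (nat_lit 32002038401) (nat_lit 152) (nat_lit 5414542111) (nat_lit 57) (nat_lit 5) (nat_lit 58) (nat_lit 5) (nat_lit 59) (nat_lit 4) (nat_lit 533) (nat_lit 427) (nat_lit 240))) (XT.nd (nat_lit 78) (nat_lit 152) (nat_lit 0) (XT.lf (nat_lit 0) (nat_lit 9961006013) (nat_lit 152) (nat_lit 4529282017) (nat_lit 76) (nat_lit 49415047361) (nat_lit 56) (nat_lit 5) (nat_lit 58) (nat_lit 5) (nat_lit 57) (nat_lit 5) (nat_lit 534) (nat_lit 427) (nat_lit 239)) (XT.lf (nat_lit 0) (nat_lit 26009428167) (nat_lit 228) (nat_lit 35444231820) (nat_lit 76) (nat_lit 3818160070) (nat_lit 54) (nat_lit 5) (nat_lit 57) (nat_lit 5) (nat_lit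 55) (nat_lit 4) (nat_lit 535) (nat_lit 427) (nat_lit 238)))) (XT.nd (nat_lit 156) (nat_lit 228) (nat_lit 0) (XT.nd (nat_lit 78) (nat_lit 76) (nat_lit 0) (XT.lf (nat_lit 0) (nat_lit 42724882659) (nat_lit 228) (nat_lit 1521527749) (nat_lit 76) (nat_lit 22427321637) (nat_lit 54) (nat_lit 5) (nat_lit 57) (nat_lit 5) (nat_lit 55) (nat_lit 4) (nat_lit 536) (nat_lit 427) (nat_lit 237)) (XT.lf (nat_lit 0) (nat_lit 34076343631) (nat_lit 76) (nat_lit 26189060369) (nat_lit 152) (nat_lit 7842589466) (nat_lit 53) (nat_lit 5) (nat_lit 54) (nat_lit 5) (nat_lit 55) (nat_lit 4) (nat_lit 537) (nat_lit 427) (nat_lit 236))) (XT.nd (nat_lit 78) (nat_lit 0) (nat_lit 0) (XT.lf (nat_lit 0) (nat_lit 1118644008) (nat_lit 152) (nat_lit 7479847079) (nat_lit 228) (nat_lit 60983599931) (nat_lit 50) (nat_lit 5) (nat_lit 52) (nat_lit 5) (nat_lit 53) (nat_lit 5) (nat_lit 538) (nat_lit 427) (nat_lit 235)) (XT.lf (nat_lit 0) (nat_lit 25831626489)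 (nat_lit 228) (nat_lit 33270912904) (nat_lit 76) (nat_lit 11981849255) (nat_lit 50) (nat_lit 5) (nat_lit 53) (nat_lit 5) (nat_lit 51) (nat_lit 4) (nat_lit 539) (nat_lit 427) (nat_lit 234))))))))
noncomputable def xc160 : XT := (XT.nd (nat_lit 55302) (nat_lit 0) (nat_lit 8512) (XT.nd (nat_lit 54132) (nat_lit 0) (nat_lit 17024) (XT.nd (nat_lit 546) (nat_lit 76) (nat_lit 0) (XT.nd (nat_lit 234) (nat_lit 228) (nat_lit 0) (XT.nd (nat_lit 78) (nat_lit 228) (nat_lit 0) (XT.lf (nat_lit 0) (nat_lit 2953712490) (nat_lit 76) (nat_lit 40726665510) (nat_lit 152) (nat_lit 28948418694) (nat_lit 49) (nat_lit 5) (nat_lit 50) (nat_lit 5) (nat_lit 51) (nat_lit 4) (nat_lit 540) (nat_lit 427) (nat_lit 233)) (XT.nd (nat_lit 78) (nat_lit 228) (nat_lit 0) (XT.lf (nat_lit 0) (nat_lit 40939904550) (nat_lit 76) (nat_lit 21456872129) (nat_lit 152) (nat_lit 11812794912) (nat_lit 49) (nat_lit 5) (nat_lit 50) (nat_lit 5) (nat_lit 51) (nat_lit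 4) (nat_lit 541) (nat_lit 427) (nat_lit 232)) (XT.lf (nat_lit 0) (nat_lit 4247633731) (nat_lit 152) (nat_lit 1512483194) (nat_lit 228) (nat_lit 70074856164) (nat_lit 46) (nat_lit 5) (nat_lit 48) (nat_lit 5) (nat_lit 49) (nat_lit 5) (nat_lit 542) (nat_lit 427) (nat_lit 231)))) (XT.nd (nat_lit 156) (nat_lit 152) (nat_lit 0) (XT.nd (nat_lit 78) (nat_lit 76) (nat_lit 0) (XT.lf (nat_lit 0) (nat_lit 24141302102) (nat_lit 228) (nat_lit 34236890681) (nat_lit 76) (nat_lit 19111879888) (nat_lit 46) (nat_lit 5) (nat_lit 49) (nat_lit 5) (nat_lit 47) (nat_lit 4) (nat_lit 543) (nat_lit 427) (nat_lit 230)) (XT.lf (nat_lit 0) (nat_lit 4296067035) (nat_lit 76) (nat_lit 38830531631) (nat_lit 152) (nat_lit 36066646429) (nat_lit 45) (nat_lit 5) (nat_lit 46) (nat_lit 5) (nat_lit 47) (nat_lit 4) (nat_lit 544) (nat_lit 427) (nat_lit 229))) (XT.nd (nat_lit 78) (nat_lit 152) (nat_lit 0) (XT.lf (nat_lit 0) (nat_lit 44680042359) (nat_lit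 76) (nat_lit 18343580981) (nat_lit 152) (nat_lit 17913624400) (nat_lit 45) (nat_lit 5) (nat_lit 46) (nat_lit 5) (nat_lit 47) (nat_lit 4) (nat_lit 545) (nat_lit 427) (nat_lit 228)) (XT.lf (nat_lit 0) (nat_lit 826686679) (nat_lit 152) (nat_lit 79161335117) (nat_lit 76) (nat_lit 2743582798) (nat_lit 43) (nat_lit 5) (nat_lit 45) (nat_lit 5) (nat_lit 44) (nat_lit 4) (nat_lit 546) (nat_lit 427) (nat_lit 227))))) (XT.nd (nat_lit 53274) (nat_lit 0) (nat_lit 20064) (XT.nd (nat_lit 156) (nat_lit 0) (nat_lit 0) (XT.nd (nat_lit 78) (nat_lit 76) (nat_lit 0) (XT.lf (nat_lit 0) (nat_lit 20317053140) (nat_lit 152) (nat_lit 39602283251) (nat_lit 76) (nat_lit 24638698235) (nat_lit 43) (nat_lit 5) (nat_lit 45) (nat_lit 5) (nat_lit 44) (nat_lit 4) (nat_lit 547) (nat_lit 427) (nat_lit 226)) (XT.lf (nat_lit 0) (nat_lit 1159690892) (nat_lit 76) (nat_lit 39240209547) (nat_lit 152) (nat_lit 46039124135) (nat_lit 42) (nat_lit 5) (nat_lit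 43) (nat_lit 5) (nat_lit 44) (nat_lit 4) (nat_lit 548) (nat_lit 427) (nat_lit 225))) (XT.nd (nat_lit 53040) (nat_lit 0) (nat_lit 20064) (XT.lf (nat_lit 0) (nat_lit 43949916735) (nat_lit 76) (nat_lit 17531880730) (nat_lit 152) (nat_lit 26882749935) (nat_lit 42) (nat_lit 5) (nat_lit 43) (nat_lit 5) (nat_lit 44) (nat_lit 4) (nat_lit 549) (nat_lit 427) (nat_lit 224)) (XT.lf (nat_lit 0) (nat_lit 3064365427) (nat_lit 1140) (nat_lit 919635150) (nat_lit 1140) (nat_lit 919635150) (nat_lit 306) (nat_lit 3) (nat_lit 321) (nat_lit 3) (nat_lit 321) (nat_lit 5) (nat_lit 428) (nat_lit 428) (nat_lit 344)))) (XT.nd (nat_lit 156) (nat_lit 0) (nat_lit 76) (XT.nd (nat_lit 78) (nat_lit 0) (nat_lit 76) (XT.lf (nat_lit 76) (nat_lit 3030832878) (nat_lit 0) (nat_lit 3945944226) (nat_lit 1140) (nat_lit 2954735060) (nat_lit 307) (nat_lit 5) (nat_lit 306) (nat_lit 3) (nat_lit 321) (nat_lit 5) (nat_lit 429) (nat_lit 428) (nat_lit 343)) (XT.lf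 (nat_lit 0) (nat_lit 7842528667) (nat_lit 1064) (nat_lit 1992155495) (nat_lit 1140) (nat_lit 225035229) (nat_lit 307) (nat_lit 5) (nat_lit 321) (nat_lit 5) (nat_lit 322) (nat_lit 5) (nat_lit 430) (nat_lit 428) (nat_lit 342))) (XT.nd (nat_lit 78) (nat_lit 0) (nat_lit 0) (XT.lf (nat_lit 76) (nat_lit 3069006136) (nat_lit 0) (nat_lit 5706258789) (nat_lit 1140) (nat_lit 1415284553) (nat_lit 308) (nat_lit 5) (nat_lit 307) (nat_lit 5) (nat_lit 322) (nat_lit 5) (nat_lit 431) (nat_lit 428) (nat_lit 341)) (XT.lf (nat_lit 76) (nat_lit 8307554709) (nat_lit 0) (nat_lit 1421643379) (nat_lit 1140) (nat_lit 596316736) (nat_lit 308) (nat_lit 5) (nat_lit 307) (nat_lit 5) (nat_lit 322) (nat_lit 5) (nat_lit 432) (nat_lit 428) (nat_lit 340)))))) (XT.nd (nat_lit 546) (nat_lit 2052) (nat_lit 0) (XT.nd (nat_lit 234) (nat_lit 0) (nat_lit 76) (XT.nd (nat_lit 78) (nat_lit 0) (nat_lit 0) (XT.lf (nat_lit 0) (nat_lit 276788923) (nat_lit 1140)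 (nat_lit 7208420072) (nat_lit 1216) (nat_lit 2978223466) (nat_lit 293) (nat_lit 5) (nat_lit 308) (nat_lit 5) (nat_lit 309) (nat_lit 5) (nat_lit 433) (nat_lit 428) (nat_lit 339)) (XT.nd (nat_lit 78) (nat_lit 0) (nat_lit 76) (XT.lf (nat_lit 0) (nat_lit 1173097151) (nat_lit 1140) (nat_lit 1913618720) (nat_lit 1216) (nat_lit 7518331013) (nat_lit 293) (nat_lit 5) (nat_lit 308) (nat_lit 5) (nat_lit 309) (nat_lit 5) (nat_lit 434) (nat_lit 428) (nat_lit 338)) (XT.lf (nat_lit 0) (nat_lit 2120244147) (nat_lit 1140) (nat_lit 7170399069) (nat_lit 1216) (nat_lit 1459554083) (nat_lit 294) (nat_lit 5) (nat_lit 309) (nat_lit 5) (nat_lit 310) (nat_lit 5) (nat_lit 435) (nat_lit 428) (nat_lit 337)))) (XT.nd (nat_lit 156) (nat_lit 0) (nat_lit 76) (XT.nd (nat_lit 78) (nat_lit 0) (nat_lit 0) (XT.lf (nat_lit 0) (nat_lit 3121631458) (nat_lit 1140) (nat_lit 1668930376) (nat_lit 1216) (nat_lit 6108371483) (nat_lit 294) (nat_lit 5) (nat_lit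 309) (nat_lit 5) (nat_lit 310) (nat_lit 5) (nat_lit 436) (nat_lit 428) (nat_lit 336)) (XT.lf (nat_lit 76) (nat_lit 4061001916) (nat_lit 0) (nat_lit 107550879) (nat_lit 1216) (nat_lit 6883119543) (nat_lit 295) (nat_lit 5) (nat_lit 294) (nat_lit 5) (nat_lit 310) (nat_lit 5) (nat_lit 437) (nat_lit 428) (nat_lit 335))) (XT.nd (nat_lit 78) (nat_lit 0) (nat_lit 0) (XT.lf (nat_lit 0) (nat_lit 5286295409) (nat_lit 1140) (nat_lit 1273380237) (nat_lit 1216) (nat_lit 4648141007) (nat_lit 295) (nat_lit 5) (nat_lit 310) (nat_lit 5) (nat_lit 311) (nat_lit 5) (nat_lit 438) (nat_lit 428) (nat_lit 334)) (XT.lf (nat_lit 76) (nat_lit 4689923377) (nat_lit 0) (nat_lit 1771523566) (nat_lit 1216) (nat_lit 4906487423) (nat_lit 296) (nat_lit 5) (nat_lit 295) (nat_lit 5) (nat_lit 311) (nat_lit 5) (nat_lit 439) (nat_lit 428) (nat_lit 333))))) (XT.nd (nat_lit 312) (nat_lit 2280) (nat_lit 0) (XT.nd (nat_lit 156) (nat_lit 0) (nat_lit 76) (XT.nd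 (nat_lit 78) (nat_lit 0) (nat_lit 0) (XT.lf (nat_lit 0) (nat_lit 7693501010) (nat_lit 1140) (nat_lit 721263605) (nat_lit 1216) (nat_lit 3117446770) (nat_lit 296) (nat_lit 5) (nat_lit 311) (nat_lit 5) (nat_lit 312) (nat_lit 5) (nat_lit 440) (nat_lit 428) (nat_lit 332)) (XT.lf (nat_lit 76) (nat_lit 5487695031) (nat_lit 0) (nat_lit 3524028653) (nat_lit 1216) (nat_lit 2688221883) (nat_lit 297) (nat_lit 5) (nat_lit 296) (nat_lit 5) (nat_lit 312) (nat_lit 5) (nat_lit 441) (nat_lit 428) (nat_lit 331))) (XT.nd (nat_lit 78) (nat_lit 0) (nat_lit 0) (XT.lf (nat_lit 0) (nat_lit 10370819634) (nat_lit 1140) (nat_lit 5953768) (nat_lit 1216) (nat_lit 1495903488) (nat_lit 297) (nat_lit 5) (nat_lit 312) (nat_lit 5) (nat_lit 313) (nat_lit 5) (nat_lit 442) (nat_lit 428) (nat_lit 330)) (XT.lf (nat_lit 76) (nat_lit 6461664867) (nat_lit 0) (nat_lit 5386050895) (nat_lit 1216) (nat_lit 200568342) (nat_lit 298) (nat_lit 5) (nat_lit 297)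 (nat_lit 5) (nat_lit 313) (nat_lit 5) (nat_lit 443) (nat_lit 428) (nat_lit 329)))) (XT.nd (nat_lit 156) (nat_lit 1140) (nat_lit 0) (XT.nd (nat_lit 78) (nat_lit 0) (nat_lit 76) (XT.lf (nat_lit 76) (nat_lit 884268987) (nat_lit 0) (nat_lit 222063601) (nat_lit 1292) (nat_lit 11122838338) (nat_lit 282) (nat_lit 5) (nat_lit 281) (nat_lit 5) (nat_lit 298) (nat_lit 5) (nat_lit 444) (nat_lit 428) (nat_lit 328)) (XT.lf (nat_lit 0) (nat_lit 2535079575) (nat_lit 1216) (nat_lit 4818287095) (nat_lit 76) (nat_lit 5059462367) (nat_lit 282) (nat_lit 5) (nat_lit 298) (nat_lit 5) (nat_lit 283) (nat_lit 5) (nat_lit 445) (nat_lit 428) (nat_lit 327))) (XT.nd (nat_lit 78) (nat_lit 0) (nat_lit 0) (XT.lf (nat_lit 0) (nat_lit 1923183073) (nat_lit 1216) (nat_lit 2085457204) (nat_lit 1292) (nat_lit 8593302311) (nat_lit 266) (nat_lit 5) (nat_lit 282) (nat_lit 5) (nat_lit 283) (nat_lit 5) (nat_lit 446) (nat_lit 428) (nat_lit 326)) (XT.lf (nat_lit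 0) (nat_lit 5589333668) (nat_lit 1292) (nat_lit 3878883967) (nat_lit 76) (nat_lit 3326628252) (nat_lit 266) (nat_lit 5) (nat_lit 283) (nat_lit 5) (nat_lit 267) (nat_lit 5) (nat_lit 447) (nat_lit 428) (nat_lit 325))))))) (XT.nd (nat_lit 1170) (nat_lit 3344) (nat_lit 0) (XT.nd (nat_lit 546) (nat_lit 2584) (nat_lit 0) (XT.nd (nat_lit 234) (nat_lit 1216) (nat_lit 0) (XT.nd (nat_lit 78) (nat_lit 608) (nat_lit 0) (XT.lf (nat_lit 0) (nat_lit 3149596803) (nat_lit 760) (nat_lit 4100986699) (nat_lit 836) (nat_lit 5741962710) (nat_lit 256) (nat_lit 5) (nat_lit 266) (nat_lit 5) (nat_lit 267) (nat_lit 5) (nat_lit 448) (nat_lit 428) (nat_lit 324)) (XT.nd (nat_lit 78) (nat_lit 608) (nat_lit 0) (XT.lf (nat_lit 0) (nat_lit 8997536321) (nat_lit 836) (nat_lit 2757248638) (nat_lit 76) (nat_lit 1440320501) (nat_lit 256) (nat_lit 5) (nat_lit 267) (nat_lit 5) (nat_lit 257) (nat_lit 5) (nat_lit 449) (nat_lit 428) (nat_lit 323)) (XT.lf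 (nat_lit 0) (nat_lit 4573565123) (nat_lit 608) (nat_lit 6290996304) (nat_lit 684) (nat_lit 2537153913) (nat_lit 248) (nat_lit 5) (nat_lit 256) (nat_lit 5) (nat_lit 257) (nat_lit 5) (nat_lit 450) (nat_lit 428) (nat_lit 322)))) (XT.nd (nat_lit 156) (nat_lit 532) (nat_lit 0) (XT.nd (nat_lit 78) (nat_lit 684) (nat_lit 0) (XT.lf (nat_lit 0) (nat_lit 12164881112) (nat_lit 608) (nat_lit 633994044) (nat_lit 684) (nat_lit 815313681) (nat_lit 248) (nat_lit 5) (nat_lit 256) (nat_lit 5) (nat_lit 257) (nat_lit 5) (nat_lit 451) (nat_lit 428) (nat_lit 321)) (XT.lf (nat_lit 0) (nat_lit 1033902327) (nat_lit 684) (nat_lit 7634253892) (nat_lit 76) (nat_lit 5161774903) (nat_lit 239) (nat_lit 5) (nat_lit 248) (nat_lit 5) (nat_lit 240) (nat_lit 5) (nat_lit 452) (nat_lit 428) (nat_lit 320))) (XT.nd (nat_lit 78) (nat_lit 0) (nat_lit 0) (XT.lf (nat_lit 0) (nat_lit 17731877) (nat_lit 532) (nat_lit 2909783787) (nat_lit 608) (nat_lit 11124231952)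 (nat_lit 232) (nat_lit 5) (nat_lit 239) (nat_lit 5) (nat_lit 240) (nat_lit 5) (nat_lit 453) (nat_lit 428) (nat_lit 319)) (XT.lf (nat_lit 0) (nat_lit 4969221390) (nat_lit 608) (nat_lit 6268384174) (nat_lit 76) (nat_lit 3039877768) (nat_lit 232) (nat_lit 5) (nat_lit 240) (nat_lit 5) (nat_lit 233) (nat_lit 5) (nat_lit 454) (nat_lit 428) (nat_lit 318))))) (XT.nd (nat_lit 312) (nat_lit 1520) (nat_lit 0) (XT.nd (nat_lit 156) (nat_lit 532) (nat_lit 0) (XT.nd (nat_lit 78) (nat_lit 0) (nat_lit 0) (XT.lf (nat_lit 0) (nat_lit 1718985144) (nat_lit 532) (nat_lit 5383368327) (nat_lit 608) (nat_lit 7406735547) (nat_lit 225) (nat_lit 5) (nat_lit 232) (nat_lit 5) (nat_lit 233) (nat_lit 5) (nat_lit 455) (nat_lit 428) (nat_lit 317)) (XT.lf (nat_lit 0) (nat_lit 9354741158) (nat_lit 608) (nat_lit 4694362507) (nat_lit 76) (nat_lit 696884423) (nat_lit 225) (nat_lit 5) (nat_lit 233) (nat_lit 5) (nat_lit 226) (nat_lit 5) (nat_lit 456)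 (nat_lit 428) (nat_lit 316))) (XT.nd (nat_lit 78) (nat_lit 0) (nat_lit 0) (XT.lf (nat_lit 0) (nat_lit 3646328056) (nat_lit 532) (nat_lit 8102279193) (nat_lit 608) (nat_lit 3239172651) (nat_lit 218) (nat_lit 5) (nat_lit 225) (nat_lit 5) (nat_lit 226) (nat_lit 5) (nat_lit 457) (nat_lit 428) (nat_lit 315)) (XT.lf (nat_lit 0) (nat_lit 12317848463) (nat_lit 532) (nat_lit 1929670640) (nat_lit 608) (nat_lit 988312357) (nat_lit 218) (nat_lit 5) (nat_lit 225) (nat_lit 5) (nat_lit 226) (nat_lit 5) (nat_lit 458) (nat_lit 428) (nat_lit 314)))) (XT.nd (nat_lit 156) (nat_lit 912) (nat_lit 0) (XT.nd (nat_lit 78) (nat_lit 0) (nat_lit 0) (XT.lf (nat_lit 0) (nat_lit 1389628750) (nat_lit 608) (nat_lit 9688912380) (nat_lit 76) (nat_lit 4409837306) (nat_lit 210) (nat_lit 5) (nat_lit 218) (nat_lit 5) (nat_lit 211) (nat_lit 5) (nat_lit 459) (nat_lit 428) (nat_lit 313)) (XT.lf (nat_lit 0) (nat_lit 3854249028) (nat_lit 608) (nat_lit 954235845)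 (nat_lit 76) (nat_lit 10938669880) (nat_lit 210) (nat_lit 5) (nat_lit 218) (nat_lit 5) (nat_lit 211) (nat_lit 5) (nat_lit 460) (nat_lit 428) (nat_lit 312))) (XT.nd (nat_lit 78) (nat_lit 456) (nat_lit 0) (XT.lf (nat_lit 0) (nat_lit 6474863880) (nat_lit 532) (nat_lit 7841345449) (nat_lit 76) (nat_lit 1695025917) (nat_lit 204) (nat_lit 5) (nat_lit 211) (nat_lit 5) (nat_lit 205) (nat_lit 5) (nat_lit 461) (nat_lit 428) (nat_lit 311)) (XT.lf (nat_lit 0) (nat_lit 1265892373) (nat_lit 456) (nat_lit 7964674359) (nat_lit 532) (nat_lit 7050979825) (nat_lit 198) (nat_lit 5) (nat_lit 204) (nat_lit 5) (nat_lit 205) (nat_lit 5) (nat_lit 462) (nat_lit 428) (nat_lit 310)))))) (XT.nd (nat_lit 546) (nat_lit 1596) (nat_lit 0) (XT.nd (nat_lit 234) (nat_lit 1216) (nat_lit 0) (XT.nd (nat_lit 78) (nat_lit 532) (nat_lit 0) (XT.lf (nat_lit 0) (nat_lit 10791782148) (nat_lit 456) (nat_lit 1343534338) (nat_lit 532) (nat_lit 4422661864) (nat_lit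 198) (nat_lit 5) (nat_lit 204) (nat_lit 5) (nat_lit 205) (nat_lit 5) (nat_lit 463) (nat_lit 428) (nat_lit 309)) (XT.nd (nat_lit 78) (nat_lit 76) (nat_lit 0) (XT.lf (nat_lit 0) (nat_lit 3766389039) (nat_lit 456) (nat_lit 11437208784) (nat_lit 532) (nat_lit 1636815949) (nat_lit 192) (nat_lit 5) (nat_lit 198) (nat_lit 5) (nat_lit 199) (nat_lit 5) (nat_lit 464) (nat_lit 428) (nat_lit 308)) (XT.lf (nat_lit 0) (nat_lit 1268296781) (nat_lit 532) (nat_lit 3467460054) (nat_lit 76) (nat_lit 12393419856) (nat_lit 191) (nat_lit 5) (nat_lit 198) (nat_lit 5) (nat_lit 192) (nat_lit 5) (nat_lit 465) (nat_lit 428) (nat_lit 307)))) (XT.nd (nat_lit 156) (nat_lit 760) (nat_lit 0) (XT.nd (nat_lit 78) (nat_lit 0) (nat_lit 0) (XT.lf (nat_lit 0) (nat_lit 4299952458) (nat_lit 532) (nat_lit 10922650610) (nat_lit 76) (nat_lit 2201346755) (nat_lit 185) (nat_lit 5) (nat_lit 192) (nat_lit 5) (nat_lit 186) (nat_lit 5) (nat_lit 466) (nat_lit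 428) (nat_lit 306)) (XT.lf (nat_lit 0) (nat_lit 7492985653) (nat_lit 532) (nat_lit 948596844) (nat_lit 76) (nat_lit 9283872904) (nat_lit 185) (nat_lit 5) (nat_lit 192) (nat_lit 5) (nat_lit 186) (nat_lit 5) (nat_lit 467) (nat_lit 428) (nat_lit 305))) (XT.nd (nat_lit 78) (nat_lit 380) (nat_lit 0) (XT.lf (nat_lit 0) (nat_lit 9495358874) (nat_lit 380) (nat_lit 1366248439) (nat_lit 456) (nat_lit 7172006933) (nat_lit 180) (nat_lit 5) (nat_lit 185) (nat_lit 5) (nat_lit 186) (nat_lit 5) (nat_lit 468) (nat_lit 428) (nat_lit 304)) (XT.lf (nat_lit 0) (nat_lit 1886368549) (nat_lit 380) (nat_lit 12518332343) (nat_lit 456) (nat_lit 3944116532) (nat_lit 175) (nat_lit 5) (nat_lit 180) (nat_lit 5) (nat_lit 181) (nat_lit 5) (nat_lit 469) (nat_lit 428) (nat_lit 303))))) (XT.nd (nat_lit 312) (nat_lit 760) (nat_lit 0) (XT.nd (nat_lit 156) (nat_lit 380) (nat_lit 0) (XT.nd (nat_lit 78) (nat_lit 456) (nat_lit 0) (XT.lf (nat_lit 0) (nat_lit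 12770330534) (nat_lit 380) (nat_lit 5372246780) (nat_lit 456) (nat_lit 528246589) (nat_lit 175) (nat_lit 5) (nat_lit 180) (nat_lit 5) (nat_lit 181) (nat_lit 5) (nat_lit 470) (nat_lit 428) (nat_lit 302)) (XT.lf (nat_lit 0) (nat_lit 2989068630) (nat_lit 456) (nat_lit 13986973175) (nat_lit 76) (nat_lit 2023868788) (nat_lit 169) (nat_lit 5) (nat_lit 175) (nat_lit 5) (nat_lit 170) (nat_lit 5) (nat_lit 471) (nat_lit 428) (nat_lit 301))) (XT.nd (nat_lit 78) (nat_lit 380) (nat_lit 0) (XT.lf (nat_lit 0) (nat_lit 6703887347) (nat_lit 456) (nat_lit 3035938505) (nat_lit 76) (nat_lit 9595810834) (nat_lit 169) (nat_lit 5) (nat_lit 175) (nat_lit 5) (nat_lit 170) (nat_lit 5) (nat_lit 472) (nat_lit 428) (nat_lit 300)) (XT.lf (nat_lit 0) (nat_lit 8393263478) (nat_lit 380) (nat_lit 2207119169) (nat_lit 456) (nat_lit 9078946650) (nat_lit 164) (nat_lit 5) (nat_lit 169) (nat_lit 5) (nat_lit 170) (nat_lit 5) (nat_lit 473) (nat_lit 428)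 (nat_lit 299)))) (XT.nd (nat_lit 156) (nat_lit 456) (nat_lit 0) (XT.nd (nat_lit 78) (nat_lit 0) (nat_lit 0) (XT.lf (nat_lit 0) (nat_lit 129743433) (nat_lit 304) (nat_lit 14559286875) (nat_lit 380) (nat_lit 5342046301) (nat_lit 160) (nat_lit 5) (nat_lit 164) (nat_lit 5) (nat_lit 165) (nat_lit 5) (nat_lit 474) (nat_lit 428) (nat_lit 298)) (XT.lf (nat_lit 0) (nat_lit 12082950666) (nat_lit 304) (nat_lit 6942841486) (nat_lit 380) (nat_lit 1363822141) (nat_lit 160) (nat_lit 5) (nat_lit 164) (nat_lit 5) (nat_lit 165) (nat_lit 5) (nat_lit 475) (nat_lit 428) (nat_lit 297))) (XT.nd (nat_lit 78) (nat_lit 0) (nat_lit 0) (XT.lf (nat_lit 0) (nat_lit 2714943064) (nat_lit 456) (nat_lit 17099406788) (nat_lit 76) (nat_lit 942735222) (nat_lit 154) (nat_lit 5) (nat_lit 160) (nat_lit 5) (nat_lit 155) (nat_lit 5) (nat_lit 476) (nat_lit 428) (nat_lit 296)) (XT.lf (nat_lit 0) (nat_lit 7032276957) (nat_lit 456) (nat_lit 5078959436) (nat_lit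 76) (nat_lit 9019631435) (nat_lit 154) (nat_lit 5) (nat_lit 160) (nat_lit 5) (nat_lit 155) (nat_lit 5) (nat_lit 477) (nat_lit 428) (nat_lit 295))))))))
noncomputable def xc161 : XT := (XT.nd (nat_lit 2340) (nat_lit 2812) (nat_lit 0) (XT.nd (nat_lit 1170) (nat_lit 2128) (nat_lit 0) (XT.nd (nat_lit 546) (nat_lit 1444) (nat_lit 0) (XT.nd (nat_lit 234) (nat_lit 684) (nat_lit 0) (XT.nd (nat_lit 78) (nat_lit 304) (nat_lit 0) (XT.lf (nat_lit 0) (nat_lit 7433515108) (nat_lit 304) (nat_lit 4107522399) (nat_lit 380) (nat_lit 9972970779) (nat_lit 150) (nat_lit 5) (nat_lit 154) (nat_lit 5) (nat_lit 155) (nat_lit 5) (nat_lit 478) (nat_lit 428) (nat_lit 294)) (XT.nd (nat_lit 78) (nat_lit 304) (nat_lit 0) (XT.lf (nat_lit 0) (nat_lit 16267176832) (nat_lit 380) (nat_lit 1535646295) (nat_lit 76) (nat_lit 4103357730) (nat_lit 150) (nat_lit 5) (nat_lit 155) (nat_lit 5) (nat_lit 151) (nat_lit 5) (nat_lit 479) (nat_lit 428) (nat_lit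 293)) (XT.lf (nat_lit 0) (nat_lit 11557046508) (nat_lit 304) (nat_lit 9720650674) (nat_lit 380) (nat_lit 1028144856) (nat_lit 146) (nat_lit 5) (nat_lit 150) (nat_lit 5) (nat_lit 151) (nat_lit 5) (nat_lit 480) (nat_lit 428) (nat_lit 292)))) (XT.nd (nat_lit 156) (nat_lit 304) (nat_lit 0) (XT.nd (nat_lit 78) (nat_lit 0) (nat_lit 0) (XT.lf (nat_lit 0) (nat_lit 2353573389) (nat_lit 304) (nat_lit 1324024485) (nat_lit 380) (nat_lit 19037948314) (nat_lit 141) (nat_lit 5) (nat_lit 145) (nat_lit 5) (nat_lit 146) (nat_lit 5) (nat_lit 481) (nat_lit 428) (nat_lit 291)) (XT.lf (nat_lit 0) (nat_lit 8674853021) (nat_lit 380) (nat_lit 7160094214) (nat_lit 76) (nat_lit 7297159918) (nat_lit 141) (nat_lit 5) (nat_lit 146) (nat_lit 5) (nat_lit 142) (nat_lit 5) (nat_lit 482) (nat_lit 428) (nat_lit 290))) (XT.nd (nat_lit 78) (nat_lit 0) (nat_lit 0) (XT.lf (nat_lit 0) (nat_lit 6539228436) (nat_lit 304) (nat_lit 7350009115) (nat_lit 380)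 (nat_lit 9669912234) (nat_lit 137) (nat_lit 5) (nat_lit 141) (nat_lit 5) (nat_lit 142) (nat_lit 5) (nat_lit 483) (nat_lit 428) (nat_lit 289)) (XT.lf (nat_lit 0) (nat_lit 19337760866) (nat_lit 380) (nat_lit 3227797946) (nat_lit 76) (nat_lit 1431114822) (nat_lit 137) (nat_lit 5) (nat_lit 142) (nat_lit 5) (nat_lit 138) (nat_lit 5) (nat_lit 484) (nat_lit 428) (nat_lit 288))))) (XT.nd (nat_lit 312) (nat_lit 608) (nat_lit 0) (XT.nd (nat_lit 156) (nat_lit 228) (nat_lit 0) (XT.nd (nat_lit 78) (nat_lit 304) (nat_lit 0) (XT.lf (nat_lit 0) (nat_lit 665452194) (nat_lit 304) (nat_lit 13339427260) (nat_lit 76) (nat_lit 10437114761) (nat_lit 133) (nat_lit 5) (nat_lit 137) (nat_lit 5) (nat_lit 134) (nat_lit 5) (nat_lit 485) (nat_lit 428) (nat_lit 287)) (XT.lf (nat_lit 0) (nat_lit 989313000) (nat_lit 304) (nat_lit 5100647020) (nat_lit 380) (nat_lit 18808310071) (nat_lit 129) (nat_lit 5) (nat_lit 133) (nat_lit 5) (nat_lit 134) (nat_lit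 5) (nat_lit 486) (nat_lit 428) (nat_lit 286))) (XT.nd (nat_lit 78) (nat_lit 228) (nat_lit 0) (XT.lf (nat_lit 0) (nat_lit 11844072007) (nat_lit 380) (nat_lit 9396230414) (nat_lit 76) (nat_lit 4122926781) (nat_lit 129) (nat_lit 5) (nat_lit 134) (nat_lit 5) (nat_lit 130) (nat_lit 5) (nat_lit 487) (nat_lit 428) (nat_lit 285)) (XT.lf (nat_lit 0) (nat_lit 5598057573) (nat_lit 228) (nat_lit 12269007855) (nat_lit 304) (nat_lit 7972184912) (nat_lit 126) (nat_lit 5) (nat_lit 129) (nat_lit 5) (nat_lit 130) (nat_lit 5) (nat_lit 488) (nat_lit 428) (nat_lit 284)))) (XT.nd (nat_lit 156) (nat_lit 228) (nat_lit 0) (XT.nd (nat_lit 78) (nat_lit 380) (nat_lit 0) (XT.lf (nat_lit 0) (nat_lit 21222353521) (nat_lit 228) (nat_lit 2935338394) (nat_lit 304) (nat_lit 2169252865) (nat_lit 126) (nat_lit 5) (nat_lit 129) (nat_lit 5) (nat_lit 130) (nat_lit 5) (nat_lit 489) (nat_lit 428) (nat_lit 283)) (XT.lf (nat_lit 0) (nat_lit 3893533065) (nat_lit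 380) (nat_lit 16245865727) (nat_lit 76) (nat_lit 6683972020) (nat_lit 121) (nat_lit 5) (nat_lit 126) (nat_lit 5) (nat_lit 122) (nat_lit 5) (nat_lit 490) (nat_lit 428) (nat_lit 282))) (XT.nd (nat_lit 78) (nat_lit 228) (nat_lit 0) (XT.lf (nat_lit 0) (nat_lit 10168003789) (nat_lit 380) (nat_lit 561787240) (nat_lit 76) (nat_lit 16602053118) (nat_lit 121) (nat_lit 5) (nat_lit 126) (nat_lit 5) (nat_lit 122) (nat_lit 5) (nat_lit 491) (nat_lit 428) (nat_lit 281)) (XT.lf (nat_lit 0) (nat_lit 15890965146) (nat_lit 228) (nat_lit 885003547) (nat_lit 304) (nat_lit 11075246046) (nat_lit 118) (nat_lit 5) (nat_lit 121) (nat_lit 5) (nat_lit 122) (nat_lit 5) (nat_lit 492) (nat_lit 428) (nat_lit 280)))))) (XT.nd (nat_lit 546) (nat_lit 1140) (nat_lit 0) (XT.nd (nat_lit 234) (nat_lit 456) (nat_lit 0) (XT.nd (nat_lit 78) (nat_lit 304) (nat_lit 0) (XT.lf (nat_lit 0) (nat_lit 4448604843) (nat_lit 228) (nat_lit 19263593878) (nat_lit 304)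 (nat_lit 4670067776) (nat_lit 115) (nat_lit 5) (nat_lit 118) (nat_lit 5) (nat_lit 119) (nat_lit 5) (nat_lit 493) (nat_lit 428) (nat_lit 279)) (XT.nd (nat_lit 78) (nat_lit 228) (nat_lit 0) (XT.lf (nat_lit 0) (nat_lit 2012988476) (nat_lit 304) (nat_lit 7371244247) (nat_lit 76) (nat_lit 19540762174) (nat_lit 114) (nat_lit 5) (nat_lit 118) (nat_lit 5) (nat_lit 115) (nat_lit 5) (nat_lit 494) (nat_lit 428) (nat_lit 278)) (XT.lf (nat_lit 0) (nat_lit 8898856410) (nat_lit 304) (nat_lit 19667175357) (nat_lit 76) (nat_lit 913701483) (nat_lit 111) (nat_lit 5) (nat_lit 115) (nat_lit 5) (nat_lit 112) (nat_lit 5) (nat_lit 495) (nat_lit 428) (nat_lit 277)))) (XT.nd (nat_lit 156) (nat_lit 228) (nat_lit 0) (XT.nd (nat_lit 78) (nat_lit 228) (nat_lit 0) (XT.lf (nat_lit 0) (nat_lit 16152253649) (nat_lit 304) (nat_lit 2491290637) (nat_lit 76) (nat_lit 11402741612) (nat_lit 111) (nat_lit 5) (nat_lit 115) (nat_lit 5) (nat_lit 112) (nat_lit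 5) (nat_lit 496) (nat_lit 428) (nat_lit 276)) (XT.lf (nat_lit 0) (nat_lit 15490755786) (nat_lit 228) (nat_lit 8274479346) (nat_lit 304) (nat_lit 6860341243) (nat_lit 108) (nat_lit 5) (nat_lit 111) (nat_lit 5) (nat_lit 112) (nat_lit 5) (nat_lit 497) (nat_lit 428) (nat_lit 275))) (XT.nd (nat_lit 78) (nat_lit 0) (nat_lit 0) (XT.lf (nat_lit 0) (nat_lit 446721293) (nat_lit 228) (nat_lit 28361663704) (nat_lit 76) (nat_lit 2411654574) (nat_lit 105) (nat_lit 5) (nat_lit 108) (nat_lit 5) (nat_lit 106) (nat_lit 5) (nat_lit 498) (nat_lit 428) (nat_lit 274)) (XT.lf (nat_lit 0) (nat_lit 8064529936) (nat_lit 228) (nat_lit 10288968566) (nat_lit 76) (nat_lit 13469918484) (nat_lit 105) (nat_lit 5) (nat_lit 108) (nat_lit 5) (nat_lit 106) (nat_lit 5) (nat_lit 499) (nat_lit 428) (nat_lit 273))))) (XT.nd (nat_lit 312) (nat_lit 456) (nat_lit 0) (XT.nd (nat_lit 156) (nat_lit 456) (nat_lit 0) (XT.nd (nat_lit 78) (nat_lit 0) (nat_lit 0)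 (XT.lf (nat_lit 0) (nat_lit 8480250603) (nat_lit 228) (nat_lit 7505488679) (nat_lit 304) (nat_lit 16456911090) (nat_lit 102) (nat_lit 5) (nat_lit 105) (nat_lit 5) (nat_lit 106) (nat_lit 5) (nat_lit 500) (nat_lit 428) (nat_lit 272)) (XT.lf (nat_lit 0) (nat_lit 24278164582) (nat_lit 304) (nat_lit 5101353545) (nat_lit 76) (nat_lit 3696935860) (nat_lit 102) (nat_lit 5) (nat_lit 106) (nat_lit 5) (nat_lit 103) (nat_lit 5) (nat_lit 501) (nat_lit 428) (nat_lit 271))) (XT.nd (nat_lit 78) (nat_lit 304) (nat_lit 0) (XT.lf (nat_lit 0) (nat_lit 14523766527) (nat_lit 152) (nat_lit 18503105503) (nat_lit 228) (nat_lit 696175005) (nat_lit 100) (nat_lit 5) (nat_lit 102) (nat_lit 5) (nat_lit 103) (nat_lit 5) (nat_lit 502) (nat_lit 428) (nat_lit 270)) (XT.lf (nat_lit 0) (nat_lit 377165269) (nat_lit 228) (nat_lit 7171833719) (nat_lit 304) (nat_lit 26836355973) (nat_lit 96) (nat_lit 5) (nat_lit 99) (nat_lit 5) (nat_lit 100) (nat_lit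 5) (nat_lit 503) (nat_lit 428) (nat_lit 269)))) (XT.nd (nat_lit 156) (nat_lit 304) (nat_lit 0) (XT.nd (nat_lit 78) (nat_lit 152) (nat_lit 0) (XT.lf (nat_lit 0) (nat_lit 16260227480) (nat_lit 304) (nat_lit 14190226645) (nat_lit 76) (nat_lit 4609891014) (nat_lit 96) (nat_lit 5) (nat_lit 100) (nat_lit 5) (nat_lit 97) (nat_lit 5) (nat_lit 504) (nat_lit 428) (nat_lit 268)) (XT.lf (nat_lit 0) (nat_lit 6262877870) (nat_lit 152) (nat_lit 19094957190) (nat_lit 228) (nat_lit 10393999232) (nat_lit 94) (nat_lit 5) (nat_lit 96) (nat_lit 5) (nat_lit 97) (nat_lit 5) (nat_lit 505) (nat_lit 428) (nat_lit 267))) (XT.nd (nat_lit 78) (nat_lit 304) (nat_lit 0) (XT.lf (nat_lit 0) (nat_lit 27609964710) (nat_lit 152) (nat_lit 7255609759) (nat_lit 228) (nat_lit 1594378063) (nat_lit 94) (nat_lit 5) (nat_lit 96) (nat_lit 5) (nat_lit 97) (nat_lit 5) (nat_lit 506) (nat_lit 428) (nat_lit 266)) (XT.lf (nat_lit 0) (nat_lit 7487693686) (nat_lit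 304) (nat_lit 24661702995) (nat_lit 76) (nat_lit 5032837756) (nat_lit 90) (nat_lit 5) (nat_lit 94) (nat_lit 5) (nat_lit 91) (nat_lit 5) (nat_lit 507) (nat_lit 428) (nat_lit 265))))))) (XT.nd (nat_lit 1170) (nat_lit 1368) (nat_lit 0) (XT.nd (nat_lit 546) (nat_lit 760) (nat_lit 0) (XT.nd (nat_lit 234) (nat_lit 380) (nat_lit 0) (XT.nd (nat_lit 78) (nat_lit 304) (nat_lit 0) (XT.lf (nat_lit 0) (nat_lit 16966335046) (nat_lit 304) (nat_lit 3308774844) (nat_lit 76) (nat_lit 17645917221) (nat_lit 90) (nat_lit 5) (nat_lit 94) (nat_lit 5) (nat_lit 91) (nat_lit 5) (nat_lit 508) (nat_lit 428) (nat_lit 264)) (XT.nd (nat_lit 78) (nat_lit 152) (nat_lit 0) (XT.lf (nat_lit 0) (nat_lit 19046360595) (nat_lit 152) (nat_lit 7860296053) (nat_lit 228) (nat_lit 11770007748) (nat_lit 88) (nat_lit 5) (nat_lit 90) (nat_lit 5) (nat_lit 91) (nat_lit 5) (nat_lit 509) (nat_lit 428) (nat_lit 263)) (XT.lf (nat_lit 0) (nat_lit 2680548154) (nat_lit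 152) (nat_lit 34565777881) (nat_lit 228) (nat_lit 2205611070) (nat_lit 86) (nat_lit 5) (nat_lit 88) (nat_lit 5) (nat_lit 89) (nat_lit 5) (nat_lit 510) (nat_lit 428) (nat_lit 262)))) (XT.nd (nat_lit 156) (nat_lit 152) (nat_lit 0) (XT.nd (nat_lit 78) (nat_lit 152) (nat_lit 0) (XT.lf (nat_lit 0) (nat_lit 7768818692) (nat_lit 228) (nat_lit 14344767148) (nat_lit 76) (nat_lit 18126508818) (nat_lit 85) (nat_lit 5) (nat_lit 88) (nat_lit 5) (nat_lit 86) (nat_lit 5) (nat_lit 511) (nat_lit 428) (nat_lit 261)) (XT.lf (nat_lit 0) (nat_lit 8896623703) (nat_lit 152) (nat_lit 9181495117) (nat_lit 228) (nat_lit 22970724354) (nat_lit 83) (nat_lit 5) (nat_lit 85) (nat_lit 5) (nat_lit 86) (nat_lit 5) (nat_lit 512) (nat_lit 428) (nat_lit 260))) (XT.nd (nat_lit 78) (nat_lit 152) (nat_lit 0) (XT.lf (nat_lit 0) (nat_lit 28877244715) (nat_lit 228) (nat_lit 8799240482) (nat_lit 76) (nat_lit 4199952944) (nat_lit 83) (nat_lit 5) (nat_lit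 86) (nat_lit 5) (nat_lit 84) (nat_lit 5) (nat_lit 513) (nat_lit 428) (nat_lit 259)) (XT.lf (nat_lit 0) (nat_lit 15455474792) (nat_lit 152) (nat_lit 24778980039) (nat_lit 228) (nat_lit 2487383198) (nat_lit 81) (nat_lit 5) (nat_lit 83) (nat_lit 5) (nat_lit 84) (nat_lit 5) (nat_lit 514) (nat_lit 428) (nat_lit 258))))) (XT.nd (nat_lit 312) (nat_lit 380) (nat_lit 0) (XT.nd (nat_lit 156) (nat_lit 152) (nat_lit 0) (XT.nd (nat_lit 78) (nat_lit 152) (nat_lit 0) (XT.lf (nat_lit 0) (nat_lit 8261426653) (nat_lit 228) (nat_lit 3062326267) (nat_lit 76) (nat_lit 32263910812) (nat_lit 80) (nat_lit 5) (nat_lit 83) (nat_lit 5) (nat_lit 81) (nat_lit 5) (nat_lit 515) (nat_lit 428) (nat_lit 257)) (XT.lf (nat_lit 0) (nat_lit 19518263732) (nat_lit 228) (nat_lit 22230685059) (nat_lit 76) (nat_lit 2722710236) (nat_lit 78) (nat_lit 5) (nat_lit 81) (nat_lit 5) (nat_lit 79) (nat_lit 5) (nat_lit 516) (nat_lit 428) (nat_lit 256))) (XT.nd (nat_lit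 78) (nat_lit 0) (nat_lit 0) (XT.lf (nat_lit 0) (nat_lit 2920163097) (nat_lit 152) (nat_lit 28358888818) (nat_lit 228) (nat_lit 14098135231) (nat_lit 76) (nat_lit 5) (nat_lit 78) (nat_lit 5) (nat_lit 79) (nat_lit 5) (nat_lit 517) (nat_lit 428) (nat_lit 255)) (XT.lf (nat_lit 0) (nat_lit 29272036425) (nat_lit 152) (nat_lit 14340005301) (nat_lit 228) (nat_lit 2691258375) (nat_lit 76) (nat_lit 5) (nat_lit 78) (nat_lit 5) (nat_lit 79) (nat_lit 5) (nat_lit 518) (nat_lit 428) (nat_lit 254)))) (XT.nd (nat_lit 156) (nat_lit 152) (nat_lit 0) (XT.nd (nat_lit 78) (nat_lit 0) (nat_lit 0) (XT.lf (nat_lit 0) (nat_lit 8967558735) (nat_lit 228) (nat_lit 38013233034) (nat_lit 76) (nat_lit 271198369) (nat_lit 73) (nat_lit 5) (nat_lit 76) (nat_lit 5) (nat_lit 74) (nat_lit 5) (nat_lit 519) (nat_lit 428) (nat_lit 253)) (XT.lf (nat_lit 0) (nat_lit 21232726551) (nat_lit 228) (nat_lit 11757368892) (nat_lit 76) (nat_lit 15228926018) (nat_lit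 73) (nat_lit 5) (nat_lit 76) (nat_lit 5) (nat_lit 74) (nat_lit 5) (nat_lit 520) (nat_lit 428) (nat_lit 252))) (XT.nd (nat_lit 78) (nat_lit 0) (nat_lit 0) (XT.lf (nat_lit 0) (nat_lit 15581423748) (nat_lit 152) (nat_lit 18429361506) (nat_lit 228) (nat_lit 15199930692) (nat_lit 71) (nat_lit 5) (nat_lit 73) (nat_lit 5) (nat_lit 74) (nat_lit 5) (nat_lit 521) (nat_lit 428) (nat_lit 251)) (XT.lf (nat_lit 0) (nat_lit 43972683827) (nat_lit 152) (nat_lit 3313443243) (nat_lit 228) (nat_lit 2942616243) (nat_lit 71) (nat_lit 5) (nat_lit 73) (nat_lit 5) (nat_lit 74) (nat_lit 5) (nat_lit 522) (nat_lit 428) (nat_lit 250)))))) (XT.nd (nat_lit 624) (nat_lit 608) (nat_lit 0) (XT.nd (nat_lit 312) (nat_lit 304) (nat_lit 0) (XT.nd (nat_lit 156) (nat_lit 228) (nat_lit 0) (XT.nd (nat_lit 78) (nat_lit 0) (nat_lit 0) (XT.lf (nat_lit 0) (nat_lit 9823688420) (nat_lit 228) (nat_lit 29117713419) (nat_lit 76) (nat_lit 12323211444) (nat_lit 68)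 (nat_lit 5) (nat_lit 71) (nat_lit 5) (nat_lit 69) (nat_lit 5) (nat_lit 523) (nat_lit 428) (nat_lit 249)) (XT.lf (nat_lit 0) (nat_lit 23005770866) (nat_lit 228) (nat_lit 870609243) (nat_lit 76) (nat_lit 28451547494) (nat_lit 68) (nat_lit 5) (nat_lit 71) (nat_lit 5) (nat_lit 69) (nat_lit 5) (nat_lit 524) (nat_lit 428) (nat_lit 248))) (XT.nd (nat_lit 78) (nat_lit 76) (nat_lit 0) (XT.lf (nat_lit 0) (nat_lit 28777133660) (nat_lit 152) (nat_lit 8078268186) (nat_lit 228) (nat_lit 16559577180) (nat_lit 66) (nat_lit 5) (nat_lit 68) (nat_lit 5) (nat_lit 69) (nat_lit 5) (nat_lit 525) (nat_lit 428) (nat_lit 247)) (XT.lf (nat_lit 0) (nat_lit 4804339414) (nat_lit 76) (nat_lit 46445486301) (nat_lit 152) (nat_lit 3280937405) (nat_lit 65) (nat_lit 5) (nat_lit 66) (nat_lit 5) (nat_lit 67) (nat_lit 4) (nat_lit 526) (nat_lit 428) (nat_lit 246)))) (XT.nd (nat_lit 156) (nat_lit 76) (nat_lit 0) (XT.nd (nat_lit 78) (nat_lit 152) (nat_lit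 0) (XT.lf (nat_lit 0) (nat_lit 10519924405) (nat_lit 152) (nat_lit 20228440330) (nat_lit 76) (nat_lit 24918856413) (nat_lit 64) (nat_lit 5) (nat_lit 66) (nat_lit 5) (nat_lit 65) (nat_lit 5) (nat_lit 527) (nat_lit 428) (nat_lit 245)) (XT.lf (nat_lit 0) (nat_lit 10315182081) (nat_lit 152) (nat_lit 14448461031) (nat_lit 228) (nat_lit 32070312258) (nat_lit 62) (nat_lit 5) (nat_lit 64) (nat_lit 5) (nat_lit 65) (nat_lit 5) (nat_lit 528) (nat_lit 428) (nat_lit 244))) (XT.nd (nat_lit 78) (nat_lit 76) (nat_lit 0) (XT.lf (nat_lit 0) (nat_lit 39659094948) (nat_lit 228) (nat_lit 15872424931) (nat_lit 76) (nat_lit 2497439313) (nat_lit 62) (nat_lit 5) (nat_lit 65) (nat_lit 5) (nat_lit 63) (nat_lit 4) (nat_lit 529) (nat_lit 428) (nat_lit 243)) (XT.lf (nat_lit 0) (nat_lit 15851702543) (nat_lit 76) (nat_lit 39440899090) (nat_lit 152) (nat_lit 3958475972) (nat_lit 61) (nat_lit 5) (nat_lit 62) (nat_lit 5) (nat_lit 63) (nat_lit 4)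 (nat_lit 530) (nat_lit 428) (nat_lit 242))))) (XT.nd (nat_lit 312) (nat_lit 304) (nat_lit 0) (XT.nd (nat_lit 156) (nat_lit 76) (nat_lit 0) (XT.nd (nat_lit 78) (nat_lit 152) (nat_lit 0) (XT.lf (nat_lit 0) (nat_lit 10830478461) (nat_lit 152) (nat_lit 11766239064) (nat_lit 76) (nat_lit 37905274123) (nat_lit 60) (nat_lit 5) (nat_lit 62) (nat_lit 5) (nat_lit 61) (nat_lit 5) (nat_lit 531) (nat_lit 428) (nat_lit 241)) (XT.lf (nat_lit 0) (nat_lit 21182384306) (nat_lit 152) (nat_lit 5000664802) (nat_lit 228) (nat_lit 35600223147) (nat_lit 58) (nat_lit 5) (nat_lit 60) (nat_lit 5) (nat_lit 61) (nat_lit 5) (nat_lit 532) (nat_lit 428) (nat_lit 240))) (XT.nd (nat_lit 78) (nat_lit 76) (nat_lit 0) (XT.lf (nat_lit 0) (nat_lit 42238242034) (nat_lit 228) (nat_lit 7873760963) (nat_lit 76) (nat_lit 12983727117) (nat_lit 58) (nat_lit 5) (nat_lit 61) (nat_lit 5) (nat_lit 59) (nat_lit 4) (nat_lit 533) (nat_lit 428) (nat_lit 239)) (XT.lf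 (nat_lit 0) (nat_lit 26291257256) (nat_lit 76) (nat_lit 32782095903) (nat_lit 152) (nat_lit 5365260862) (nat_lit 57) (nat_lit 5) (nat_lit 58) (nat_lit 5) (nat_lit 59) (nat_lit 4) (nat_lit 534) (nat_lit 428) (nat_lit 238)))) (XT.nd (nat_lit 156) (nat_lit 76) (nat_lit 0) (XT.nd (nat_lit 78) (nat_lit 152) (nat_lit 0) (XT.lf (nat_lit 0) (nat_lit 10461376136) (nat_lit 152) (nat_lit 4286824551) (nat_lit 76) (nat_lit 51068239731) (nat_lit 56) (nat_lit 5) (nat_lit 58) (nat_lit 5) (nat_lit 57) (nat_lit 5) (nat_lit 535) (nat_lit 428) (nat_lit 237)) (XT.lf (nat_lit 0) (nat_lit 26990667627) (nat_lit 228) (nat_lit 36128630942) (nat_lit 76) (nat_lit 4104638811) (nat_lit 54) (nat_lit 5) (nat_lit 57) (nat_lit 5) (nat_lit 55) (nat_lit 4) (nat_lit 536) (nat_lit 428) (nat_lit 236))) (XT.nd (nat_lit 78) (nat_lit 76) (nat_lit 0) (XT.lf (nat_lit 0) (nat_lit 44201732649) (nat_lit 228) (nat_lit 1199282482) (nat_lit 76) (nat_lit 23267067441)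 (nat_lit 54) (nat_lit 5) (nat_lit 57) (nat_lit 5) (nat_lit 55) (nat_lit 4) (nat_lit 537) (nat_lit 428) (nat_lit 235)) (XT.lf (nat_lit 0) (nat_lit 35462918264) (nat_lit 76) (nat_lit 26803370463) (nat_lit 152) (nat_lit 7879148778) (nat_lit 53) (nat_lit 5) (nat_lit 54) (nat_lit 5) (nat_lit 55) (nat_lit 4) (nat_lit 538) (nat_lit 428) (nat_lit 234))))))))
noncomputable def xc162 : XT := (XT.nd (nat_lit 55458) (nat_lit 0) (nat_lit 8436) (XT.nd (nat_lit 54288) (nat_lit 0) (nat_lit 16948) (XT.nd (nat_lit 546) (nat_lit 152) (nat_lit 0) (XT.nd (nat_lit 234) (nat_lit 304) (nat_lit 0) (XT.nd (nat_lit 78) (nat_lit 76) (nat_lit 0) (XT.lf (nat_lit 0) (nat_lit 1516763706) (nat_lit 152) (nat_lit 7532352181) (nat_lit 228) (nat_lit 62614650136) (nat_lit 50) (nat_lit 5) (nat_lit 52) (nat_lit 5) (nat_lit 53) (nat_lit 5) (nat_lit 539) (nat_lit 428) (nat_lit 233)) (XT.nd (nat_lit 78) (nat_lit 76) (nat_lit 0) (XT.lf (nat_lit 0) (nat_lit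 26795237790) (nat_lit 228) (nat_lit 33911083215) (nat_lit 76) (nat_lit 12504932026) (nat_lit 50) (nat_lit 5) (nat_lit 53) (nat_lit 5) (nat_lit 51) (nat_lit 4) (nat_lit 540) (nat_lit 428) (nat_lit 232)) (XT.lf (nat_lit 0) (nat_lit 3396771558) (nat_lit 76) (nat_lit 41780592434) (nat_lit 152) (nat_lit 29624692180) (nat_lit 49) (nat_lit 5) (nat_lit 50) (nat_lit 5) (nat_lit 51) (nat_lit 4) (nat_lit 541) (nat_lit 428) (nat_lit 231)))) (XT.nd (nat_lit 156) (nat_lit 76) (nat_lit 0) (XT.nd (nat_lit 78) (nat_lit 228) (nat_lit 0) (XT.lf (nat_lit 0) (nat_lit 42512225660) (nat_lit 76) (nat_lit 21937594757) (nat_lit 152) (nat_lit 11980597132) (nat_lit 49) (nat_lit 5) (nat_lit 50) (nat_lit 5) (nat_lit 51) (nat_lit 4) (nat_lit 542) (nat_lit 428) (nat_lit 230)) (XT.lf (nat_lit 0) (nat_lit 4719424843) (nat_lit 152) (nat_lit 1394418185) (nat_lit 228) (nat_lit 71990745000) (nat_lit 46) (nat_lit 5) (nat_lit 48) (nat_lit 5) (nat_lit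 49) (nat_lit 5) (nat_lit 543) (nat_lit 428) (nat_lit 229))) (XT.nd (nat_lit 78) (nat_lit 76) (nat_lit 0) (XT.lf (nat_lit 0) (nat_lit 25042719491) (nat_lit 228) (nat_lit 34925914612) (nat_lit 76) (nat_lit 19840819015) (nat_lit 46) (nat_lit 5) (nat_lit 49) (nat_lit 5) (nat_lit 47) (nat_lit 4) (nat_lit 544) (nat_lit 428) (nat_lit 228)) (XT.lf (nat_lit 0) (nat_lit 4759717298) (nat_lit 76) (nat_lit 39835915117) (nat_lit 152) (nat_lit 36968146761) (nat_lit 45) (nat_lit 5) (nat_lit 46) (nat_lit 5) (nat_lit 47) (nat_lit 4) (nat_lit 545) (nat_lit 428) (nat_lit 227))))) (XT.nd (nat_lit 53430) (nat_lit 0) (nat_lit 18924) (XT.nd (nat_lit 156) (nat_lit 0) (nat_lit 0) (XT.nd (nat_lit 78) (nat_lit 152) (nat_lit 0) (XT.lf (nat_lit 0) (nat_lit 46345461350) (nat_lit 76) (nat_lit 18739002524) (nat_lit 152) (nat_lit 18275791325) (nat_lit 45) (nat_lit 5) (nat_lit 46) (nat_lit 5) (nat_lit 47) (nat_lit 4) (nat_lit 546) (nat_lit 428)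 (nat_lit 226)) (XT.lf (nat_lit 0) (nat_lit 1022923839) (nat_lit 152) (nat_lit 81207340690) (nat_lit 76) (nat_lit 2978139435) (nat_lit 43) (nat_lit 5) (nat_lit 45) (nat_lit 5) (nat_lit 44) (nat_lit 4) (nat_lit 547) (nat_lit 428) (nat_lit 225))) (XT.nd (nat_lit 53196) (nat_lit 0) (nat_lit 19988) (XT.lf (nat_lit 0) (nat_lit 21093007997) (nat_lit 152) (nat_lit 40471094970) (nat_lit 76) (nat_lit 25525673893) (nat_lit 43) (nat_lit 5) (nat_lit 45) (nat_lit 5) (nat_lit 44) (nat_lit 4) (nat_lit 548) (nat_lit 428) (nat_lit 224)) (XT.lf (nat_lit 0) (nat_lit 3876289270) (nat_lit 1140) (nat_lit 576336307) (nat_lit 1140) (nat_lit 576336307) (nat_lit 306) (nat_lit 3) (nat_lit 321) (nat_lit 3) (nat_lit 321) (nat_lit 5) (nat_lit 429) (nat_lit 429) (nat_lit 342)))) (XT.nd (nat_lit 156) (nat_lit 1064) (nat_lit 0) (XT.nd (nat_lit 78) (nat_lit 0) (nat_lit 0) (XT.lf (nat_lit 76) (nat_lit 3856261346) (nat_lit 0) (nat_lit 4734923994)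 (nat_lit 1140) (nat_lit 1595763453) (nat_lit 307) (nat_lit 5) (nat_lit 306) (nat_lit 3) (nat_lit 321) (nat_lit 5) (nat_lit 430) (nat_lit 429) (nat_lit 341)) (XT.lf (nat_lit 76) (nat_lit 9025041577) (nat_lit 0) (nat_lit 414670072) (nat_lit 1140) (nat_lit 880596879) (nat_lit 307) (nat_lit 5) (nat_lit 306) (nat_lit 3) (nat_lit 321) (nat_lit 5) (nat_lit 431) (nat_lit 429) (nat_lit 340))) (XT.nd (nat_lit 78) (nat_lit 1140) (nat_lit 0) (XT.lf (nat_lit 76) (nat_lit 3914258344) (nat_lit 0) (nat_lit 6449874537) (nat_lit 1140) (nat_lit 92029605) (nat_lit 308) (nat_lit 5) (nat_lit 307) (nat_lit 5) (nat_lit 322) (nat_lit 5) (nat_lit 432) (nat_lit 429) (nat_lit 339)) (XT.lf (nat_lit 0) (nat_lit 697840782) (nat_lit 1140) (nat_lit 1315160398) (nat_lit 1216) (nat_lit 8583138427) (nat_lit 292) (nat_lit 5) (nat_lit 307) (nat_lit 5) (nat_lit 308) (nat_lit 5) (nat_lit 433) (nat_lit 429) (nat_lit 338)))))) (XT.nd (nat_lit 546) (nat_lit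 2052) (nat_lit 0) (XT.nd (nat_lit 234) (nat_lit 0) (nat_lit 76) (XT.nd (nat_lit 78) (nat_lit 0) (nat_lit 0) (XT.lf (nat_lit 0) (nat_lit 1549505145) (nat_lit 1140) (nat_lit 6631282455) (nat_lit 1216) (nat_lit 2558308725) (nat_lit 293) (nat_lit 5) (nat_lit 308) (nat_lit 5) (nat_lit 309) (nat_lit 5) (nat_lit 434) (nat_lit 429) (nat_lit 337)) (XT.nd (nat_lit 78) (nat_lit 0) (nat_lit 76) (XT.lf (nat_lit 0) (nat_lit 2435875070) (nat_lit 1140) (nat_lit 1200745516) (nat_lit 1216) (nat_lit 7249452356) (nat_lit 293) (nat_lit 5) (nat_lit 308) (nat_lit 5) (nat_lit 309) (nat_lit 5) (nat_lit 435) (nat_lit 429) (nat_lit 336)) (XT.lf (nat_lit 0) (nat_lit 3378818149) (nat_lit 1140) (nat_lit 6582321823) (nat_lit 1216) (nat_lit 1075425120) (nat_lit 294) (nat_lit 5) (nat_lit 309) (nat_lit 5) (nat_lit 310) (nat_lit 5) (nat_lit 436) (nat_lit 429) (nat_lit 335)))) (XT.nd (nat_lit 156) (nat_lit 0) (nat_lit 76) (XT.nd (nat_lit 78) (nat_lit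 0) (nat_lit 0) (XT.lf (nat_lit 0) (nat_lit 4375442224) (nat_lit 1140) (nat_lit 939202929) (nat_lit 1216) (nat_lit 5876170603) (nat_lit 294) (nat_lit 5) (nat_lit 309) (nat_lit 5) (nat_lit 310) (nat_lit 5) (nat_lit 437) (nat_lit 429) (nat_lit 334)) (XT.lf (nat_lit 76) (nat_lit 4954982278) (nat_lit 0) (nat_lit 472420183) (nat_lit 1216) (nat_lit 5921533726) (nat_lit 295) (nat_lit 5) (nat_lit 294) (nat_lit 5) (nat_lit 310) (nat_lit 5) (nat_lit 438) (nat_lit 429) (nat_lit 333))) (XT.nd (nat_lit 78) (nat_lit 0) (nat_lit 0) (XT.lf (nat_lit 0) (nat_lit 6542279175) (nat_lit 1140) (nat_lit 525258384) (nat_lit 1216) (nat_lit 4443327155) (nat_lit 295) (nat_lit 5) (nat_lit 310) (nat_lit 5) (nat_lit 311) (nat_lit 5) (nat_lit 439) (nat_lit 429) (nat_lit 332)) (XT.lf (nat_lit 76) (nat_lit 5609235287) (nat_lit 0) (nat_lit 2118971527) (nat_lit 1216) (nat_lit 3948321206) (nat_lit 296) (nat_lit 5) (nat_lit 295) (nat_lit 5) (nat_lit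 311) (nat_lit 5) (nat_lit 440) (nat_lit 429) (nat_lit 331))))) (XT.nd (nat_lit 312) (nat_lit 1140) (nat_lit 0) (XT.nd (nat_lit 156) (nat_lit 1140) (nat_lit 0) (XT.nd (nat_lit 78) (nat_lit 0) (nat_lit 0) (XT.lf (nat_lit 76) (nat_lit 48221598) (nat_lit 0) (nat_lit 8915467830) (nat_lit 1216) (nat_lit 2883057395) (nat_lit 297) (nat_lit 5) (nat_lit 296) (nat_lit 5) (nat_lit 312) (nat_lit 5) (nat_lit 441) (nat_lit 429) (nat_lit 330)) (XT.lf (nat_lit 76) (nat_lit 6434761134) (nat_lit 0) (nat_lit 3863495558) (nat_lit 1216) (nat_lit 1721959665) (nat_lit 297) (nat_lit 5) (nat_lit 296) (nat_lit 5) (nat_lit 312) (nat_lit 5) (nat_lit 442) (nat_lit 429) (nat_lit 329))) (XT.nd (nat_lit 78) (nat_lit 1216) (nat_lit 0) (XT.lf (nat_lit 76) (nat_lit 801161097) (nat_lit 0) (nat_lit 10872886694) (nat_lit 1216) (nat_lit 524811213) (nat_lit 298) (nat_lit 5) (nat_lit 297) (nat_lit 5) (nat_lit 313) (nat_lit 5) (nat_lit 443) (nat_lit 429)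 (nat_lit 328)) (XT.lf (nat_lit 0) (nat_lit 770472619) (nat_lit 1216) (nat_lit 4948746690) (nat_lit 1292) (nat_lit 6661160500) (nat_lit 281) (nat_lit 5) (nat_lit 297) (nat_lit 5) (nat_lit 298) (nat_lit 5) (nat_lit 444) (nat_lit 429) (nat_lit 327)))) (XT.nd (nat_lit 156) (nat_lit 1140) (nat_lit 0) (XT.nd (nat_lit 78) (nat_lit 0) (nat_lit 76) (XT.lf (nat_lit 76) (nat_lit 1706405051) (nat_lit 0) (nat_lit 385451587) (nat_lit 1292) (nat_lit 10475404257) (nat_lit 282) (nat_lit 5) (nat_lit 281) (nat_lit 5) (nat_lit 298) (nat_lit 5) (nat_lit 445) (nat_lit 429) (nat_lit 326)) (XT.lf (nat_lit 0) (nat_lit 3534265482) (nat_lit 1216) (nat_lit 4160991339) (nat_lit 76) (nat_lit 5062054211) (nat_lit 282) (nat_lit 5) (nat_lit 298) (nat_lit 5) (nat_lit 283) (nat_lit 5) (nat_lit 446) (nat_lit 429) (nat_lit 325))) (XT.nd (nat_lit 78) (nat_lit 0) (nat_lit 0) (XT.lf (nat_lit 0) (nat_lit 2774861714) (nat_lit 1216) (nat_lit 2257916159)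 (nat_lit 1292) (nat_lit 7919903855) (nat_lit 266) (nat_lit 5) (nat_lit 282) (nat_lit 5) (nat_lit 283) (nat_lit 5) (nat_lit 447) (nat_lit 429) (nat_lit 324)) (XT.lf (nat_lit 0) (nat_lit 6633539899) (nat_lit 1292) (nat_lit 3196844012) (nat_lit 76) (nat_lit 3321814686) (nat_lit 266) (nat_lit 5) (nat_lit 283) (nat_lit 5) (nat_lit 267) (nat_lit 5) (nat_lit 448) (nat_lit 429) (nat_lit 323))))))) (XT.nd (nat_lit 1170) (nat_lit 3344) (nat_lit 0) (XT.nd (nat_lit 546) (nat_lit 2584) (nat_lit 0) (XT.nd (nat_lit 234) (nat_lit 1216) (nat_lit 0) (XT.nd (nat_lit 78) (nat_lit 608) (nat_lit 0) (XT.lf (nat_lit 0) (nat_lit 4034663666) (nat_lit 760) (nat_lit 4292033199) (nat_lit 836) (nat_lit 5029676711) (nat_lit 256) (nat_lit 5) (nat_lit 266) (nat_lit 5) (nat_lit 267) (nat_lit 5) (nat_lit 449) (nat_lit 429) (nat_lit 322)) (XT.nd (nat_lit 78) (nat_lit 608) (nat_lit 0) (XT.lf (nat_lit 0) (nat_lit 10100415846) (nat_lit 836) (nat_lit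 2046585708) (nat_lit 76) (nat_lit 1418782887) (nat_lit 256) (nat_lit 5) (nat_lit 267) (nat_lit 5) (nat_lit 257) (nat_lit 5) (nat_lit 450) (nat_lit 429) (nat_lit 321)) (XT.lf (nat_lit 0) (nat_lit 5496374227) (nat_lit 608) (nat_lit 6510368387) (nat_lit 684) (nat_lit 1772356682) (nat_lit 248) (nat_lit 5) (nat_lit 256) (nat_lit 5) (nat_lit 257) (nat_lit 5) (nat_lit 451) (nat_lit 429) (nat_lit 320)))) (XT.nd (nat_lit 156) (nat_lit 532) (nat_lit 0) (XT.nd (nat_lit 78) (nat_lit 684) (nat_lit 0) (XT.lf (nat_lit 0) (nat_lit 13292548080) (nat_lit 608) (nat_lit 682763569) (nat_lit 684) (nat_lit 23353821) (nat_lit 248) (nat_lit 5) (nat_lit 256) (nat_lit 5) (nat_lit 257) (nat_lit 5) (nat_lit 452) (nat_lit 429) (nat_lit 319)) (XT.lf (nat_lit 0) (nat_lit 1849376509) (nat_lit 684) (nat_lit 7068264101) (nat_lit 76) (nat_lit 5303489849) (nat_lit 239) (nat_lit 5) (nat_lit 248) (nat_lit 5) (nat_lit 240) (nat_lit 5) (nat_lit 453) (nat_lit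 429) (nat_lit 318))) (XT.nd (nat_lit 78) (nat_lit 0) (nat_lit 0) (XT.lf (nat_lit 0) (nat_lit 805486953) (nat_lit 532) (nat_lit 2979030297) (nat_lit 608) (nat_lit 10665547428) (nat_lit 232) (nat_lit 5) (nat_lit 239) (nat_lit 5) (nat_lit 240) (nat_lit 5) (nat_lit 454) (nat_lit 429) (nat_lit 317)) (XT.lf (nat_lit 0) (nat_lit 5865239387) (nat_lit 608) (nat_lit 5669751227) (nat_lit 76) (nat_lit 3148253558) (nat_lit 232) (nat_lit 5) (nat_lit 240) (nat_lit 5) (nat_lit 233) (nat_lit 5) (nat_lit 455) (nat_lit 429) (nat_lit 316))))) (XT.nd (nat_lit 312) (nat_lit 1520) (nat_lit 0) (XT.nd (nat_lit 156) (nat_lit 532) (nat_lit 0) (XT.nd (nat_lit 78) (nat_lit 0) (nat_lit 0) (XT.lf (nat_lit 0) (nat_lit 2549526578) (nat_lit 532) (nat_lit 5498571233) (nat_lit 608) (nat_lit 6874132773) (nat_lit 225) (nat_lit 5) (nat_lit 232) (nat_lit 5) (nat_lit 233) (nat_lit 5) (nat_lit 456) (nat_lit 429) (nat_lit 315)) (XT.lf (nat_lit 0) (nat_lit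 10347149200) (nat_lit 608) (nat_lit 4057855578) (nat_lit 76) (nat_lit 761863480) (nat_lit 225) (nat_lit 5) (nat_lit 233) (nat_lit 5) (nat_lit 226) (nat_lit 5) (nat_lit 457) (nat_lit 429) (nat_lit 314))) (XT.nd (nat_lit 78) (nat_lit 0) (nat_lit 0) (XT.lf (nat_lit 0) (nat_lit 4525434742) (nat_lit 532) (nat_lit 8274064478) (nat_lit 608) (nat_lit 2616818834) (nat_lit 218) (nat_lit 5) (nat_lit 225) (nat_lit 5) (nat_lit 226) (nat_lit 5) (nat_lit 458) (nat_lit 429) (nat_lit 313)) (XT.lf (nat_lit 0) (nat_lit 13434681824) (nat_lit 532) (nat_lit 1918353874) (nat_lit 608) (nat_lit 319389886) (nat_lit 218) (nat_lit 5) (nat_lit 225) (nat_lit 5) (nat_lit 226) (nat_lit 5) (nat_lit 459) (nat_lit 429) (nat_lit 312)))) (XT.nd (nat_lit 156) (nat_lit 912) (nat_lit 0) (XT.nd (nat_lit 78) (nat_lit 0) (nat_lit 0) (XT.lf (nat_lit 0) (nat_lit 2104334328) (nat_lit 608) (nat_lit 9206462491) (nat_lit 76) (nat_lit 4621912307) (nat_lit 210)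 (nat_lit 5) (nat_lit 218) (nat_lit 5) (nat_lit 211) (nat_lit 5) (nat_lit 460) (nat_lit 429) (nat_lit 311)) (XT.lf (nat_lit 0) (nat_lit 4623290786) (nat_lit 608) (nat_lit 232263638) (nat_lit 76) (nat_lit 11344286173) (nat_lit 210) (nat_lit 5) (nat_lit 218) (nat_lit 5) (nat_lit 211) (nat_lit 5) (nat_lit 461) (nat_lit 429) (nat_lit 310))) (XT.nd (nat_lit 78) (nat_lit 456) (nat_lit 0) (XT.lf (nat_lit 0) (nat_lit 7311614811) (nat_lit 532) (nat_lit 7314954568) (nat_lit 76) (nat_lit 1845605085) (nat_lit 204) (nat_lit 5) (nat_lit 211) (nat_lit 5) (nat_lit 205) (nat_lit 5) (nat_lit 462) (nat_lit 429) (nat_lit 309)) (XT.lf (nat_lit 0) (nat_lit 2058033416) (nat_lit 456) (nat_lit 8080491083) (nat_lit 532) (nat_lit 6612418116) (nat_lit 198) (nat_lit 5) (nat_lit 204) (nat_lit 5) (nat_lit 205) (nat_lit 5) (nat_lit 463) (nat_lit 429) (nat_lit 308)))))) (XT.nd (nat_lit 546) (nat_lit 1596) (nat_lit 0) (XT.nd (nat_lit 234) (nat_lit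 1216) (nat_lit 0) (XT.nd (nat_lit 78) (nat_lit 532) (nat_lit 0) (XT.lf (nat_lit 0) (nat_lit 11847733935) (nat_lit 456) (nat_lit 1264302984) (nat_lit 532) (nat_lit 3924185308) (nat_lit 198) (nat_lit 5) (nat_lit 204) (nat_lit 5) (nat_lit 205) (nat_lit 5) (nat_lit 464) (nat_lit 429) (nat_lit 307)) (XT.nd (nat_lit 78) (nat_lit 76) (nat_lit 0) (XT.lf (nat_lit 0) (nat_lit 4621576962) (nat_lit 456) (nat_lit 11641195282) (nat_lit 532) (nat_lit 1064649669) (nat_lit 192) (nat_lit 5) (nat_lit 198) (nat_lit 5) (nat_lit 199) (nat_lit 5) (nat_lit 465) (nat_lit 429) (nat_lit 306)) (XT.lf (nat_lit 0) (nat_lit 1897751052) (nat_lit 532) (nat_lit 2839029011) (nat_lit 76) (nat_lit 12888423935) (nat_lit 191) (nat_lit 5) (nat_lit 198) (nat_lit 5) (nat_lit 192) (nat_lit 5) (nat_lit 466) (nat_lit 429) (nat_lit 305)))) (XT.nd (nat_lit 156) (nat_lit 760) (nat_lit 0) (XT.nd (nat_lit 78) (nat_lit 0) (nat_lit 0) (XT.lf (nat_lit 0) (nat_lit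 5011488168) (nat_lit 532) (nat_lit 10508904301) (nat_lit 76) (nat_lit 2408696985) (nat_lit 185) (nat_lit 5) (nat_lit 192) (nat_lit 5) (nat_lit 186) (nat_lit 5) (nat_lit 467) (nat_lit 429) (nat_lit 304)) (XT.lf (nat_lit 0) (nat_lit 8283345258) (nat_lit 532) (nat_lit 257223849) (nat_lit 76) (nat_lit 9699583098) (nat_lit 185) (nat_lit 5) (nat_lit 192) (nat_lit 5) (nat_lit 186) (nat_lit 5) (nat_lit 468) (nat_lit 429) (nat_lit 303))) (XT.nd (nat_lit 78) (nat_lit 380) (nat_lit 0) (XT.lf (nat_lit 0) (nat_lit 10492993375) (nat_lit 380) (nat_lit 1250410896) (nat_lit 456) (nat_lit 6814443088) (nat_lit 180) (nat_lit 5) (nat_lit 185) (nat_lit 5) (nat_lit 186) (nat_lit 5) (nat_lit 469) (nat_lit 429) (nat_lit 302)) (XT.lf (nat_lit 0) (nat_lit 2663863494) (nat_lit 380) (nat_lit 12721127840) (nat_lit 456) (nat_lit 3497752098) (nat_lit 175) (nat_lit 5) (nat_lit 180) (nat_lit 5) (nat_lit 181) (nat_lit 5) (nat_lit 470) (nat_lit 429)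 (nat_lit 301))))) (XT.nd (nat_lit 312) (nat_lit 760) (nat_lit 0) (XT.nd (nat_lit 156) (nat_lit 380) (nat_lit 0) (XT.nd (nat_lit 78) (nat_lit 380) (nat_lit 0) (XT.lf (nat_lit 0) (nat_lit 4065803) (nat_lit 456) (nat_lit 5361584534) (nat_lit 76) (nat_lit 13849240279) (nat_lit 174) (nat_lit 5) (nat_lit 180) (nat_lit 5) (nat_lit 175) (nat_lit 5) (nat_lit 471) (nat_lit 429) (nat_lit 300)) (XT.lf (nat_lit 0) (nat_lit 3609074241) (nat_lit 456) (nat_lit 13688593841) (nat_lit 76) (nat_lit 2256243771) (nat_lit 169) (nat_lit 5) (nat_lit 175) (nat_lit 5) (nat_lit 170) (nat_lit 5) (nat_lit 472) (nat_lit 429) (nat_lit 299))) (XT.nd (nat_lit 78) (nat_lit 380) (nat_lit 0) (XT.lf (nat_lit 0) (nat_lit 7419890912) (nat_lit 456) (nat_lit 2429940418) (nat_lit 76) (nat_lit 10050344304) (nat_lit 169) (nat_lit 5) (nat_lit 175) (nat_lit 5) (nat_lit 170) (nat_lit 5) (nat_lit 473) (nat_lit 429) (nat_lit 298)) (XT.lf (nat_lit 0) (nat_lit 9335303544)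 (nat_lit 380) (nat_lit 2089615850) (nat_lit 456) (nat_lit 8829512913) (nat_lit 164) (nat_lit 5) (nat_lit 169) (nat_lit 5) (nat_lit 170) (nat_lit 5) (nat_lit 474) (nat_lit 429) (nat_lit 297)))) (XT.nd (nat_lit 156) (nat_lit 456) (nat_lit 0) (XT.nd (nat_lit 78) (nat_lit 0) (nat_lit 0) (XT.lf (nat_lit 0) (nat_lit 830489229) (nat_lit 304) (nat_lit 14799397236) (nat_lit 380) (nat_lit 4987038134) (nat_lit 160) (nat_lit 5) (nat_lit 164) (nat_lit 5) (nat_lit 165) (nat_lit 5) (nat_lit 475) (nat_lit 429) (nat_lit 296)) (XT.lf (nat_lit 0) (nat_lit 13121995975) (nat_lit 304) (nat_lit 6960186687) (nat_lit 380) (nat_lit 904475102) (nat_lit 160) (nat_lit 5) (nat_lit 164) (nat_lit 5) (nat_lit 165) (nat_lit 5) (nat_lit 476) (nat_lit 429) (nat_lit 295))) (XT.nd (nat_lit 78) (nat_lit 0) (nat_lit 0) (XT.lf (nat_lit 0) (nat_lit 3281030978) (nat_lit 456) (nat_lit 16920063824) (nat_lit 76) (nat_lit 1164091568) (nat_lit 154) (nat_lit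 5) (nat_lit 160) (nat_lit 5) (nat_lit 155) (nat_lit 5) (nat_lit 477) (nat_lit 429) (nat_lit 294)) (XT.lf (nat_lit 0) (nat_lit 7713769170) (nat_lit 456) (nat_lit 4559167862) (nat_lit 76) (nat_lit 9477671145) (nat_lit 154) (nat_lit 5) (nat_lit 160) (nat_lit 5) (nat_lit 155) (nat_lit 5) (nat_lit 478) (nat_lit 429) (nat_lit 293))))))))
noncomputable def xc163 : XT := (XT.nd (nat_lit 2340) (nat_lit 2812) (nat_lit 0) (XT.nd (nat_lit 1170) (nat_lit 2128) (nat_lit 0) (XT.nd (nat_lit 546) (nat_lit 1444) (nat_lit 0) (XT.nd (nat_lit 234) (nat_lit 684) (nat_lit 0) (XT.nd (nat_lit 78) (nat_lit 304) (nat_lit 0) (XT.lf (nat_lit 0) (nat_lit 8322091110) (nat_lit 304) (nat_lit 4028394718) (nat_lit 380) (nat_lit 9794978260) (nat_lit 150) (nat_lit 5) (nat_lit 154) (nat_lit 5) (nat_lit 155) (nat_lit 5) (nat_lit 479) (nat_lit 429) (nat_lit 292)) (XT.nd (nat_lit 78) (nat_lit 304) (nat_lit 0) (XT.lf (nat_lit 0) (nat_lit 17206806060) (nat_lit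 380) (nat_lit 923861459) (nat_lit 76) (nat_lit 4419084395) (nat_lit 150) (nat_lit 5) (nat_lit 155) (nat_lit 5) (nat_lit 151) (nat_lit 5) (nat_lit 480) (nat_lit 429) (nat_lit 291)) (XT.lf (nat_lit 0) (nat_lit 12555162576) (nat_lit 304) (nat_lit 9805587341) (nat_lit 380) (nat_lit 600861697) (nat_lit 146) (nat_lit 5) (nat_lit 150) (nat_lit 5) (nat_lit 151) (nat_lit 5) (nat_lit 481) (nat_lit 429) (nat_lit 290)))) (XT.nd (nat_lit 156) (nat_lit 304) (nat_lit 0) (XT.nd (nat_lit 78) (nat_lit 0) (nat_lit 0) (XT.lf (nat_lit 0) (nat_lit 3078112574) (nat_lit 304) (nat_lit 1152203879) (nat_lit 380) (nat_lit 19153364047) (nat_lit 141) (nat_lit 5) (nat_lit 145) (nat_lit 5) (nat_lit 146) (nat_lit 5) (nat_lit 482) (nat_lit 429) (nat_lit 289)) (XT.lf (nat_lit 0) (nat_lit 9366578327) (nat_lit 380) (nat_lit 6729042097) (nat_lit 76) (nat_lit 7717446956) (nat_lit 141) (nat_lit 5) (nat_lit 146) (nat_lit 5) (nat_lit 142) (nat_lit 5) (nat_lit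 483) (nat_lit 429) (nat_lit 288))) (XT.nd (nat_lit 78) (nat_lit 0) (nat_lit 0) (XT.lf (nat_lit 0) (nat_lit 7374928322) (nat_lit 304) (nat_lit 7356046187) (nat_lit 380) (nat_lit 9522141084) (nat_lit 137) (nat_lit 5) (nat_lit 141) (nat_lit 5) (nat_lit 142) (nat_lit 5) (nat_lit 484) (nat_lit 429) (nat_lit 287)) (XT.lf (nat_lit 0) (nat_lit 20332574646) (nat_lit 380) (nat_lit 2693301625) (nat_lit 76) (nat_lit 1678201909) (nat_lit 137) (nat_lit 5) (nat_lit 142) (nat_lit 5) (nat_lit 138) (nat_lit 5) (nat_lit 485) (nat_lit 429) (nat_lit 286))))) (XT.nd (nat_lit 312) (nat_lit 608) (nat_lit 0) (XT.nd (nat_lit 156) (nat_lit 228) (nat_lit 0) (XT.nd (nat_lit 78) (nat_lit 304) (nat_lit 0) (XT.lf (nat_lit 0) (nat_lit 1098126106) (nat_lit 304) (nat_lit 13106203523) (nat_lit 76) (nat_lit 10958491039) (nat_lit 133) (nat_lit 5) (nat_lit 137) (nat_lit 5) (nat_lit 134) (nat_lit 5) (nat_lit 486) (nat_lit 429) (nat_lit 285)) (XT.lf (nat_lit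 0) (nat_lit 1646189076) (nat_lit 304) (nat_lit 5033188399) (nat_lit 380) (nat_lit 18953588613) (nat_lit 129) (nat_lit 5) (nat_lit 133) (nat_lit 5) (nat_lit 134) (nat_lit 5) (nat_lit 487) (nat_lit 429) (nat_lit 284))) (XT.nd (nat_lit 78) (nat_lit 228) (nat_lit 0) (XT.lf (nat_lit 0) (nat_lit 12596324288) (nat_lit 380) (nat_lit 9059350897) (nat_lit 76) (nat_lit 4456493915) (nat_lit 129) (nat_lit 5) (nat_lit 134) (nat_lit 5) (nat_lit 130) (nat_lit 5) (nat_lit 488) (nat_lit 429) (nat_lit 283)) (XT.lf (nat_lit 0) (nat_lit 6378699392) (nat_lit 228) (nat_lit 12415636696) (nat_lit 304) (nat_lit 7808306356) (nat_lit 126) (nat_lit 5) (nat_lit 129) (nat_lit 5) (nat_lit 130) (nat_lit 5) (nat_lit 489) (nat_lit 429) (nat_lit 282)))) (XT.nd (nat_lit 156) (nat_lit 228) (nat_lit 0) (XT.nd (nat_lit 78) (nat_lit 380) (nat_lit 0) (XT.lf (nat_lit 0) (nat_lit 22453878585) (nat_lit 228) (nat_lit 2808406901) (nat_lit 304) (nat_lit 1843025496)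 (nat_lit 126) (nat_lit 5) (nat_lit 129) (nat_lit 5) (nat_lit 130) (nat_lit 5) (nat_lit 490) (nat_lit 429) (nat_lit 281)) (XT.lf (nat_lit 0) (nat_lit 4390667943) (nat_lit 380) (nat_lit 16127322661) (nat_lit 76) (nat_lit 7098627864) (nat_lit 121) (nat_lit 5) (nat_lit 126) (nat_lit 5) (nat_lit 122) (nat_lit 5) (nat_lit 491) (nat_lit 429) (nat_lit 280))) (XT.nd (nat_lit 78) (nat_lit 0) (nat_lit 0) (XT.lf (nat_lit 0) (nat_lit 9821709) (nat_lit 228) (nat_lit 10832567951) (nat_lit 304) (nat_lit 17298287106) (nat_lit 118) (nat_lit 5) (nat_lit 121) (nat_lit 5) (nat_lit 122) (nat_lit 5) (nat_lit 492) (nat_lit 429) (nat_lit 279)) (XT.lf (nat_lit 0) (nat_lit 16950197649) (nat_lit 228) (nat_lit 693145938) (nat_lit 304) (nat_lit 11032443620) (nat_lit 118) (nat_lit 5) (nat_lit 121) (nat_lit 5) (nat_lit 122) (nat_lit 5) (nat_lit 493) (nat_lit 429) (nat_lit 278)))))) (XT.nd (nat_lit 546) (nat_lit 1140) (nat_lit 0) (XT.nd (nat_lit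 234) (nat_lit 456) (nat_lit 0) (XT.nd (nat_lit 78) (nat_lit 304) (nat_lit 0) (XT.lf (nat_lit 0) (nat_lit 5167633316) (nat_lit 228) (nat_lit 19617089646) (nat_lit 304) (nat_lit 4438136880) (nat_lit 115) (nat_lit 5) (nat_lit 118) (nat_lit 5) (nat_lit 119) (nat_lit 5) (nat_lit 494) (nat_lit 429) (nat_lit 277)) (XT.nd (nat_lit 78) (nat_lit 228) (nat_lit 0) (XT.lf (nat_lit 0) (nat_lit 2427526894) (nat_lit 304) (nat_lit 7016780826) (nat_lit 76) (nat_lit 20337774948) (nat_lit 114) (nat_lit 5) (nat_lit 118) (nat_lit 5) (nat_lit 115) (nat_lit 5) (nat_lit 495) (nat_lit 429) (nat_lit 276)) (XT.lf (nat_lit 0) (nat_lit 9517255610) (nat_lit 304) (nat_lit 19678838098) (nat_lit 76) (nat_lit 1157452018) (nat_lit 111) (nat_lit 5) (nat_lit 115) (nat_lit 5) (nat_lit 112) (nat_lit 5) (nat_lit 496) (nat_lit 429) (nat_lit 275)))) (XT.nd (nat_lit 156) (nat_lit 228) (nat_lit 0) (XT.nd (nat_lit 78) (nat_lit 228) (nat_lit 0) (XT.lf (nat_lit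 0) (nat_lit 16978018839) (nat_lit 304) (nat_lit 2004522055) (nat_lit 76) (nat_lit 11954862200) (nat_lit 111) (nat_lit 5) (nat_lit 115) (nat_lit 5) (nat_lit 112) (nat_lit 5) (nat_lit 497) (nat_lit 429) (nat_lit 274)) (XT.lf (nat_lit 0) (nat_lit 16511480786) (nat_lit 228) (nat_lit 8303315821) (nat_lit 304) (nat_lit 6719414506) (nat_lit 108) (nat_lit 5) (nat_lit 111) (nat_lit 5) (nat_lit 112) (nat_lit 5) (nat_lit 498) (nat_lit 429) (nat_lit 273))) (XT.nd (nat_lit 78) (nat_lit 0) (nat_lit 0) (XT.lf (nat_lit 0) (nat_lit 797681349) (nat_lit 228) (nat_lit 28647266870) (nat_lit 76) (nat_lit 2701533343) (nat_lit 105) (nat_lit 5) (nat_lit 108) (nat_lit 5) (nat_lit 106) (nat_lit 5) (nat_lit 499) (nat_lit 429) (nat_lit 272)) (XT.lf (nat_lit 0) (nat_lit 8634192453) (nat_lit 228) (nat_lit 10048854376) (nat_lit 76) (nat_lit 14085209371) (nat_lit 105) (nat_lit 5) (nat_lit 108) (nat_lit 5) (nat_lit 106) (nat_lit 5) (nat_lit 500)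 (nat_lit 429) (nat_lit 271))))) (XT.nd (nat_lit 312) (nat_lit 456) (nat_lit 0) (XT.nd (nat_lit 156) (nat_lit 456) (nat_lit 0) (XT.nd (nat_lit 78) (nat_lit 0) (nat_lit 0) (XT.lf (nat_lit 0) (nat_lit 9278061140) (nat_lit 228) (nat_lit 7510655025) (nat_lit 304) (nat_lit 16617480995) (nat_lit 102) (nat_lit 5) (nat_lit 105) (nat_lit 5) (nat_lit 106) (nat_lit 5) (nat_lit 501) (nat_lit 429) (nat_lit 270)) (XT.lf (nat_lit 0) (nat_lit 25322547834) (nat_lit 304) (nat_lit 4719422323) (nat_lit 76) (nat_lit 4017266611) (nat_lit 102) (nat_lit 5) (nat_lit 106) (nat_lit 5) (nat_lit 103) (nat_lit 5) (nat_lit 502) (nat_lit 429) (nat_lit 269))) (XT.nd (nat_lit 78) (nat_lit 304) (nat_lit 0) (XT.lf (nat_lit 0) (nat_lit 15489206529) (nat_lit 152) (nat_lit 18840397035) (nat_lit 228) (nat_lit 395748294) (nat_lit 100) (nat_lit 5) (nat_lit 102) (nat_lit 5) (nat_lit 103) (nat_lit 5) (nat_lit 503) (nat_lit 429) (nat_lit 268)) (XT.lf (nat_lit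 0) (nat_lit 919250027) (nat_lit 228) (nat_lit 7167187042) (nat_lit 304) (nat_lit 27321122326) (nat_lit 96) (nat_lit 5) (nat_lit 99) (nat_lit 5) (nat_lit 100) (nat_lit 5) (nat_lit 504) (nat_lit 429) (nat_lit 267)))) (XT.nd (nat_lit 156) (nat_lit 304) (nat_lit 0) (XT.nd (nat_lit 78) (nat_lit 152) (nat_lit 0) (XT.lf (nat_lit 0) (nat_lit 17051996421) (nat_lit 304) (nat_lit 14093590584) (nat_lit 76) (nat_lit 4957423246) (nat_lit 96) (nat_lit 5) (nat_lit 100) (nat_lit 5) (nat_lit 97) (nat_lit 5) (nat_lit 505) (nat_lit 429) (nat_lit 266)) (XT.lf (nat_lit 0) (nat_lit 6967986059) (nat_lit 152) (nat_lit 19450664757) (nat_lit 228) (nat_lit 10396710473) (nat_lit 94) (nat_lit 5) (nat_lit 96) (nat_lit 5) (nat_lit 97) (nat_lit 5) (nat_lit 506) (nat_lit 429) (nat_lit 265))) (XT.nd (nat_lit 78) (nat_lit 304) (nat_lit 0) (XT.lf (nat_lit 0) (nat_lit 28940420790) (nat_lit 152) (nat_lit 7262461402) (nat_lit 228) (nat_lit 1342103836)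 (nat_lit 94) (nat_lit 5) (nat_lit 96) (nat_lit 5) (nat_lit 97) (nat_lit 5) (nat_lit 507) (nat_lit 429) (nat_lit 264)) (XT.lf (nat_lit 0) (nat_lit 8004882325) (nat_lit 304) (nat_lit 24891801626) (nat_lit 76) (nat_lit 5392217346) (nat_lit 90) (nat_lit 5) (nat_lit 94) (nat_lit 5) (nat_lit 91) (nat_lit 5) (nat_lit 508) (nat_lit 429) (nat_lit 263))))))) (XT.nd (nat_lit 1170) (nat_lit 1368) (nat_lit 0) (XT.nd (nat_lit 546) (nat_lit 760) (nat_lit 0) (XT.nd (nat_lit 234) (nat_lit 380) (nat_lit 0) (XT.nd (nat_lit 78) (nat_lit 304) (nat_lit 0) (XT.lf (nat_lit 0) (nat_lit 17759361823) (nat_lit 304) (nat_lit 2913132790) (nat_lit 76) (nat_lit 18377619454) (nat_lit 90) (nat_lit 5) (nat_lit 94) (nat_lit 5) (nat_lit 91) (nat_lit 5) (nat_lit 509) (nat_lit 429) (nat_lit 262)) (XT.nd (nat_lit 78) (nat_lit 152) (nat_lit 0) (XT.lf (nat_lit 0) (nat_lit 20107804700) (nat_lit 152) (nat_lit 7886526151) (nat_lit 228) (nat_lit 11834197149)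 (nat_lit 88) (nat_lit 5) (nat_lit 90) (nat_lit 5) (nat_lit 91) (nat_lit 5) (nat_lit 510) (nat_lit 429) (nat_lit 261)) (XT.lf (nat_lit 0) (nat_lit 3252572212) (nat_lit 152) (nat_lit 35390130503) (nat_lit 228) (nat_lit 1984401448) (nat_lit 86) (nat_lit 5) (nat_lit 88) (nat_lit 5) (nat_lit 89) (nat_lit 5) (nat_lit 511) (nat_lit 429) (nat_lit 260)))) (XT.nd (nat_lit 156) (nat_lit 152) (nat_lit 0) (XT.nd (nat_lit 78) (nat_lit 152) (nat_lit 0) (XT.lf (nat_lit 0) (nat_lit 8275446530) (nat_lit 228) (nat_lit 14292356554) (nat_lit 76) (nat_lit 18871267298) (nat_lit 85) (nat_lit 5) (nat_lit 88) (nat_lit 5) (nat_lit 86) (nat_lit 5) (nat_lit 512) (nat_lit 429) (nat_lit 259)) (XT.lf (nat_lit 0) (nat_lit 9641543144) (nat_lit 152) (nat_lit 9249109683) (nat_lit 228) (nat_lit 23381530299) (nat_lit 83) (nat_lit 5) (nat_lit 85) (nat_lit 5) (nat_lit 86) (nat_lit 5) (nat_lit 513) (nat_lit 429) (nat_lit 258))) (XT.nd (nat_lit 78) (nat_lit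 152) (nat_lit 0) (XT.lf (nat_lit 0) (nat_lit 30007822478) (nat_lit 228) (nat_lit 8593170823) (nat_lit 76) (nat_lit 4523791114) (nat_lit 83) (nat_lit 5) (nat_lit 86) (nat_lit 5) (nat_lit 84) (nat_lit 5) (nat_lit 514) (nat_lit 429) (nat_lit 257)) (XT.lf (nat_lit 0) (nat_lit 16384577607) (nat_lit 152) (nat_lit 25317948466) (nat_lit 228) (nat_lit 2293117467) (nat_lit 81) (nat_lit 5) (nat_lit 83) (nat_lit 5) (nat_lit 84) (nat_lit 5) (nat_lit 515) (nat_lit 429) (nat_lit 256))))) (XT.nd (nat_lit 312) (nat_lit 380) (nat_lit 0) (XT.nd (nat_lit 156) (nat_lit 152) (nat_lit 0) (XT.nd (nat_lit 78) (nat_lit 152) (nat_lit 0) (XT.lf (nat_lit 0) (nat_lit 8765230879) (nat_lit 228) (nat_lit 2697202372) (nat_lit 76) (nat_lit 33425164110) (nat_lit 80) (nat_lit 5) (nat_lit 83) (nat_lit 5) (nat_lit 81) (nat_lit 5) (nat_lit 516) (nat_lit 429) (nat_lit 255)) (XT.lf (nat_lit 0) (nat_lit 20358586946) (nat_lit 228) (nat_lit 22439408872) (nat_lit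 76) (nat_lit 3000152789) (nat_lit 78) (nat_lit 5) (nat_lit 81) (nat_lit 5) (nat_lit 79) (nat_lit 5) (nat_lit 517) (nat_lit 429) (nat_lit 254))) (XT.nd (nat_lit 78) (nat_lit 0) (nat_lit 0) (XT.lf (nat_lit 0) (nat_lit 3461472604) (nat_lit 152) (nat_lit 29007666816) (nat_lit 228) (nat_lit 14261795423) (nat_lit 76) (nat_lit 5) (nat_lit 78) (nat_lit 5) (nat_lit 79) (nat_lit 5) (nat_lit 518) (nat_lit 429) (nat_lit 253)) (XT.lf (nat_lit 0) (nat_lit 30590687434) (nat_lit 152) (nat_lit 14574099959) (nat_lit 228) (nat_lit 2520264219) (nat_lit 76) (nat_lit 5) (nat_lit 78) (nat_lit 5) (nat_lit 79) (nat_lit 5) (nat_lit 519) (nat_lit 429) (nat_lit 252)))) (XT.nd (nat_lit 156) (nat_lit 152) (nat_lit 0) (XT.nd (nat_lit 78) (nat_lit 0) (nat_lit 0) (XT.lf (nat_lit 0) (nat_lit 9482351353) (nat_lit 228) (nat_lit 38707143517) (nat_lit 76) (nat_lit 472666952) (nat_lit 73) (nat_lit 5) (nat_lit 76) (nat_lit 5) (nat_lit 74) (nat_lit 5)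 (nat_lit 520) (nat_lit 429) (nat_lit 251)) (XT.lf (nat_lit 0) (nat_lit 22108315975) (nat_lit 228) (nat_lit 11676607913) (nat_lit 76) (nat_lit 15873495383) (nat_lit 73) (nat_lit 5) (nat_lit 76) (nat_lit 5) (nat_lit 74) (nat_lit 5) (nat_lit 521) (nat_lit 429) (nat_lit 250))) (XT.nd (nat_lit 78) (nat_lit 0) (nat_lit 0) (XT.lf (nat_lit 0) (nat_lit 16478098683) (nat_lit 152) (nat_lit 18788794062) (nat_lit 228) (nat_lit 15413056982) (nat_lit 71) (nat_lit 5) (nat_lit 73) (nat_lit 5) (nat_lit 74) (nat_lit 5) (nat_lit 522) (nat_lit 429) (nat_lit 249)) (XT.lf (nat_lit 0) (nat_lit 45708594655) (nat_lit 152) (nat_lit 3225032667) (nat_lit 228) (nat_lit 2795097029) (nat_lit 71) (nat_lit 5) (nat_lit 73) (nat_lit 5) (nat_lit 74) (nat_lit 5) (nat_lit 523) (nat_lit 429) (nat_lit 248)))))) (XT.nd (nat_lit 624) (nat_lit 608) (nat_lit 0) (XT.nd (nat_lit 312) (nat_lit 304) (nat_lit 0) (XT.nd (nat_lit 156) (nat_lit 228) (nat_lit 0) (XT.nd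 (nat_lit 78) (nat_lit 0) (nat_lit 0) (XT.lf (nat_lit 0) (nat_lit 10348686446) (nat_lit 228) (nat_lit 29568977837) (nat_lit 76) (nat_lit 12877965801) (nat_lit 68) (nat_lit 5) (nat_lit 71) (nat_lit 5) (nat_lit 69) (nat_lit 5) (nat_lit 524) (nat_lit 429) (nat_lit 247)) (XT.lf (nat_lit 0) (nat_lit 23919523965) (nat_lit 228) (nat_lit 486759574) (nat_lit 76) (nat_lit 29484761893) (nat_lit 68) (nat_lit 5) (nat_lit 71) (nat_lit 5) (nat_lit 69) (nat_lit 5) (nat_lit 525) (nat_lit 429) (nat_lit 246))) (XT.nd (nat_lit 78) (nat_lit 76) (nat_lit 0) (XT.lf (nat_lit 0) (nat_lit 30046396322) (nat_lit 152) (nat_lit 8135637741) (nat_lit 228) (nat_lit 16828752996) (nat_lit 66) (nat_lit 5) (nat_lit 68) (nat_lit 5) (nat_lit 69) (nat_lit 5) (nat_lit 526) (nat_lit 429) (nat_lit 245)) (XT.lf (nat_lit 0) (nat_lit 5355253892) (nat_lit 76) (nat_lit 47652237328) (nat_lit 152) (nat_lit 3152577795) (nat_lit 65) (nat_lit 5) (nat_lit 66) (nat_lit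 5) (nat_lit 67) (nat_lit 4) (nat_lit 527) (nat_lit 429) (nat_lit 244)))) (XT.nd (nat_lit 156) (nat_lit 76) (nat_lit 0) (XT.nd (nat_lit 78) (nat_lit 152) (nat_lit 0) (XT.lf (nat_lit 0) (nat_lit 11051407852) (nat_lit 152) (nat_lit 20436049587) (nat_lit 76) (nat_lit 25843292578) (nat_lit 64) (nat_lit 5) (nat_lit 66) (nat_lit 5) (nat_lit 65) (nat_lit 5) (nat_lit 528) (nat_lit 429) (nat_lit 243)) (XT.lf (nat_lit 0) (nat_lit 11019967340) (nat_lit 152) (nat_lit 14699982999) (nat_lit 228) (nat_lit 32812610886) (nat_lit 62) (nat_lit 5) (nat_lit 64) (nat_lit 5) (nat_lit 65) (nat_lit 5) (nat_lit 529) (nat_lit 429) (nat_lit 242))) (XT.nd (nat_lit 78) (nat_lit 76) (nat_lit 0) (XT.lf (nat_lit 0) (nat_lit 41057748159) (nat_lit 228) (nat_lit 15960254221) (nat_lit 76) (nat_lit 2745548626) (nat_lit 62) (nat_lit 5) (nat_lit 65) (nat_lit 5) (nat_lit 63) (nat_lit 4) (nat_lit 530) (nat_lit 429) (nat_lit 241)) (XT.lf (nat_lit 0) (nat_lit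 16711789789) (nat_lit 76) (nat_lit 40446082759) (nat_lit 152) (nat_lit 3864532355) (nat_lit 61) (nat_lit 5) (nat_lit 62) (nat_lit 5) (nat_lit 63) (nat_lit 4) (nat_lit 531) (nat_lit 429) (nat_lit 240))))) (XT.nd (nat_lit 312) (nat_lit 304) (nat_lit 0) (XT.nd (nat_lit 156) (nat_lit 76) (nat_lit 0) (XT.nd (nat_lit 78) (nat_lit 152) (nat_lit 0) (XT.lf (nat_lit 0) (nat_lit 11357866013) (nat_lit 152) (nat_lit 11741850879) (nat_lit 76) (nat_lit 39211250654) (nat_lit 60) (nat_lit 5) (nat_lit 62) (nat_lit 5) (nat_lit 61) (nat_lit 5) (nat_lit 532) (nat_lit 429) (nat_lit 239)) (XT.lf (nat_lit 0) (nat_lit 22191531433) (nat_lit 152) (nat_lit 4977177066) (nat_lit 228) (nat_lit 36462047510) (nat_lit 58) (nat_lit 5) (nat_lit 60) (nat_lit 5) (nat_lit 61) (nat_lit 5) (nat_lit 533) (nat_lit 429) (nat_lit 238))) (XT.nd (nat_lit 78) (nat_lit 76) (nat_lit 0) (XT.lf (nat_lit 0) (nat_lit 43701346364) (nat_lit 228) (nat_lit 7742961996)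 (nat_lit 76) (nat_lit 13538405843) (nat_lit 58) (nat_lit 5) (nat_lit 61) (nat_lit 5) (nat_lit 59) (nat_lit 4) (nat_lit 534) (nat_lit 429) (nat_lit 237)) (XT.lf (nat_lit 0) (nat_lit 27443408614) (nat_lit 76) (nat_lit 33595888075) (nat_lit 152) (nat_lit 5326654628) (nat_lit 57) (nat_lit 5) (nat_lit 58) (nat_lit 5) (nat_lit 59) (nat_lit 4) (nat_lit 535) (nat_lit 429) (nat_lit 236)))) (XT.nd (nat_lit 156) (nat_lit 76) (nat_lit 0) (XT.nd (nat_lit 78) (nat_lit 152) (nat_lit 0) (XT.lf (nat_lit 0) (nat_lit 10965188145) (nat_lit 152) (nat_lit 4058811392) (nat_lit 76) (nat_lit 52761226643) (nat_lit 56) (nat_lit 5) (nat_lit 58) (nat_lit 5) (nat_lit 57) (nat_lit 5) (nat_lit 536) (nat_lit 429) (nat_lit 235)) (XT.lf (nat_lit 0) (nat_lit 27989808539) (nat_lit 228) (nat_lit 36855314045) (nat_lit 76) (nat_lit 4389842204) (nat_lit 54) (nat_lit 5) (nat_lit 57) (nat_lit 5) (nat_lit 55) (nat_lit 4) (nat_lit 537) (nat_lit 429) (nat_lit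 234))) (XT.nd (nat_lit 78) (nat_lit 76) (nat_lit 0) (XT.lf (nat_lit 0) (nat_lit 45711688399) (nat_lit 228) (nat_lit 888488311) (nat_lit 76) (nat_lit 24122423375) (nat_lit 54) (nat_lit 5) (nat_lit 57) (nat_lit 5) (nat_lit 55) (nat_lit 4) (nat_lit 538) (nat_lit 429) (nat_lit 233)) (XT.lf (nat_lit 0) (nat_lit 36870178725) (nat_lit 76) (nat_lit 27445946723) (nat_lit 152) (nat_lit 7928212117) (nat_lit 53) (nat_lit 5) (nat_lit 54) (nat_lit 5) (nat_lit 55) (nat_lit 4) (nat_lit 539) (nat_lit 429) (nat_lit 232))))))))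
noncomputable def xc164 : XT := (XT.nd (nat_lit 55536) (nat_lit 0) (nat_lit 8132) (XT.nd (nat_lit 54366) (nat_lit 0) (nat_lit 16188) (XT.nd (nat_lit 546) (nat_lit 152) (nat_lit 0) (XT.nd (nat_lit 234) (nat_lit 304) (nat_lit 0) (XT.nd (nat_lit 78) (nat_lit 76) (nat_lit 0) (XT.lf (nat_lit 0) (nat_lit 1905899738) (nat_lit 152) (nat_lit 7596299643) (nat_lit 228) (nat_lit 64306024137) (nat_lit 50) (nat_lit 5) (nat_lit 52) (nat_lit 5) (nat_lit 53) (nat_lit 5) (nat_lit 540) (nat_lit 429) (nat_lit 231)) (XT.nd (nat_lit 78) (nat_lit 76) (nat_lit 0) (XT.lf (nat_lit 0) (nat_lit 27776927432) (nat_lit 228) (nat_lit 34591006836) (nat_lit 76) (nat_lit 13034314403) (nat_lit 50) (nat_lit 5) (nat_lit 53) (nat_lit 5) (nat_lit 51) (nat_lit 4) (nat_lit 541) (nat_lit 429) (nat_lit 230)) (XT.lf (nat_lit 0) (nat_lit 3832775649) (nat_lit 76) (nat_lit 42875773764) (nat_lit 152) (nat_lit 30332285735) (nat_lit 49) (nat_lit 5) (nat_lit 50)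 (nat_lit 5) (nat_lit 51) (nat_lit 4) (nat_lit 542) (nat_lit 429) (nat_lit 229)))) (XT.nd (nat_lit 156) (nat_lit 76) (nat_lit 0) (XT.nd (nat_lit 78) (nat_lit 228) (nat_lit 0) (XT.lf (nat_lit 0) (nat_lit 44111962279) (nat_lit 76) (nat_lit 22442094986) (nat_lit 152) (nat_lit 12164143968) (nat_lit 49) (nat_lit 5) (nat_lit 50) (nat_lit 5) (nat_lit 51) (nat_lit 4) (nat_lit 543) (nat_lit 429) (nat_lit 228)) (XT.lf (nat_lit 0) (nat_lit 5185601895) (nat_lit 152) (nat_lit 1282193322) (nat_lit 228) (nat_lit 73974808148) (nat_lit 46) (nat_lit 5) (nat_lit 48) (nat_lit 5) (nat_lit 49) (nat_lit 5) (nat_lit 544) (nat_lit 429) (nat_lit 227))) (XT.nd (nat_lit 78) (nat_lit 76) (nat_lit 0) (XT.lf (nat_lit 0) (nat_lit 25961008640) (nat_lit 228) (nat_lit 35655016597) (nat_lit 76) (nat_lit 20582695229) (nat_lit 46) (nat_lit 5) (nat_lit 49) (nat_lit 5) (nat_lit 47) (nat_lit 4) (nat_lit 545) (nat_lit 429) (nat_lit 226)) (XT.lf (nat_lit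 0) (nat_lit 5218060001) (nat_lit 76) (nat_lit 40880617924) (nat_lit 152) (nat_lit 37907053488) (nat_lit 45) (nat_lit 5) (nat_lit 46) (nat_lit 5) (nat_lit 47) (nat_lit 4) (nat_lit 546) (nat_lit 429) (nat_lit 225))))) (XT.nd (nat_lit 53508) (nat_lit 0) (nat_lit 18848) (XT.nd (nat_lit 53352) (nat_lit 0) (nat_lit 19988) (XT.nd (nat_lit 78) (nat_lit 152) (nat_lit 0) (XT.lf (nat_lit 0) (nat_lit 48042185564) (nat_lit 76) (nat_lit 19155177798) (nat_lit 152) (nat_lit 18658882855) (nat_lit 45) (nat_lit 5) (nat_lit 46) (nat_lit 5) (nat_lit 47) (nat_lit 4) (nat_lit 547) (nat_lit 429) (nat_lit 224)) (XT.lf (nat_lit 0) (nat_lit 1215206954) (nat_lit 152) (nat_lit 83333602874) (nat_lit 76) (nat_lit 3210993046) (nat_lit 43) (nat_lit 5) (nat_lit 45) (nat_lit 5) (nat_lit 44) (nat_lit 4) (nat_lit 548) (nat_lit 429) (nat_lit 223))) (XT.nd (nat_lit 78) (nat_lit 0) (nat_lit 0) (XT.lf (nat_lit 0) (nat_lit 4671240291) (nat_lit 1140) (nat_lit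 244028982) (nat_lit 1140) (nat_lit 244028982) (nat_lit 306) (nat_lit 3) (nat_lit 321) (nat_lit 3) (nat_lit 321) (nat_lit 5) (nat_lit 430) (nat_lit 430) (nat_lit 340)) (XT.lf (nat_lit 76) (nat_lit 4664289164) (nat_lit 0) (nat_lit 5509077889) (nat_lit 1140) (nat_lit 279121643) (nat_lit 307) (nat_lit 5) (nat_lit 306) (nat_lit 3) (nat_lit 321) (nat_lit 5) (nat_lit 431) (nat_lit 430) (nat_lit 339)))) (XT.nd (nat_lit 156) (nat_lit 0) (nat_lit 76) (XT.nd (nat_lit 78) (nat_lit 0) (nat_lit 76) (XT.lf (nat_lit 0) (nat_lit 409604841) (nat_lit 1140) (nat_lit 627064443) (nat_lit 1216) (nat_lit 9554226513) (nat_lit 291) (nat_lit 5) (nat_lit 306) (nat_lit 3) (nat_lit 307) (nat_lit 5) (nat_lit 432) (nat_lit 430) (nat_lit 338)) (XT.lf (nat_lit 0) (nat_lit 1169254982) (nat_lit 1140) (nat_lit 6001876885) (nat_lit 1216) (nat_lit 3560570223) (nat_lit 292) (nat_lit 5) (nat_lit 307) (nat_lit 5) (nat_lit 308) (nat_lit 5) (nat_lit 433)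 (nat_lit 430) (nat_lit 337))) (XT.nd (nat_lit 78) (nat_lit 0) (nat_lit 76) (XT.lf (nat_lit 0) (nat_lit 1944208794) (nat_lit 1140) (nat_lit 640660649) (nat_lit 1216) (nat_lit 8292093570) (nat_lit 292) (nat_lit 5) (nat_lit 307) (nat_lit 5) (nat_lit 308) (nat_lit 5) (nat_lit 434) (nat_lit 430) (nat_lit 336)) (XT.lf (nat_lit 0) (nat_lit 2787820401) (nat_lit 1140) (nat_lit 6082374554) (nat_lit 1216) (nat_lit 2155030231) (nat_lit 293) (nat_lit 5) (nat_lit 308) (nat_lit 5) (nat_lit 309) (nat_lit 5) (nat_lit 435) (nat_lit 430) (nat_lit 335)))))) (XT.nd (nat_lit 546) (nat_lit 2812) (nat_lit 0) (XT.nd (nat_lit 234) (nat_lit 0) (nat_lit 76) (XT.nd (nat_lit 78) (nat_lit 0) (nat_lit 76) (XT.lf (nat_lit 0) (nat_lit 3666067925) (nat_lit 1140) (nat_lit 510703440) (nat_lit 1216) (nat_lit 7000889562) (nat_lit 293) (nat_lit 5) (nat_lit 308) (nat_lit 5) (nat_lit 309) (nat_lit 5) (nat_lit 436) (nat_lit 430) (nat_lit 334)) (XT.nd (nat_lit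 78) (nat_lit 0) (nat_lit 0) (XT.lf (nat_lit 0) (nat_lit 4606553395) (nat_lit 1140) (nat_lit 6022708606) (nat_lit 1216) (nat_lit 704336393) (nat_lit 294) (nat_lit 5) (nat_lit 309) (nat_lit 5) (nat_lit 310) (nat_lit 5) (nat_lit 437) (nat_lit 430) (nat_lit 333)) (XT.lf (nat_lit 0) (nat_lit 5600269279) (nat_lit 1140) (nat_lit 232347103) (nat_lit 1216) (nat_lit 5660852342) (nat_lit 294) (nat_lit 5) (nat_lit 309) (nat_lit 5) (nat_lit 310) (nat_lit 5) (nat_lit 438) (nat_lit 430) (nat_lit 332)))) (XT.nd (nat_lit 156) (nat_lit 0) (nat_lit 76) (XT.nd (nat_lit 78) (nat_lit 0) (nat_lit 76) (XT.lf (nat_lit 76) (nat_lit 5831457465) (nat_lit 0) (nat_lit 827475791) (nat_lit 1216) (nat_lit 4998152870) (nat_lit 295) (nat_lit 5) (nat_lit 294) (nat_lit 5) (nat_lit 310) (nat_lit 5) (nat_lit 439) (nat_lit 430) (nat_lit 331)) (XT.lf (nat_lit 76) (nat_lit 204152706) (nat_lit 0) (nat_lit 7570757232) (nat_lit 1216) (nat_lit 4049940444)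 (nat_lit 296) (nat_lit 5) (nat_lit 295) (nat_lit 5) (nat_lit 311) (nat_lit 5) (nat_lit 440) (nat_lit 430) (nat_lit 330))) (XT.nd (nat_lit 78) (nat_lit 0) (nat_lit 76) (XT.lf (nat_lit 76) (nat_lit 6511430913) (nat_lit 0) (nat_lit 2459948773) (nat_lit 1216) (nat_lit 3024862236) (nat_lit 296) (nat_lit 5) (nat_lit 295) (nat_lit 5) (nat_lit 311) (nat_lit 5) (nat_lit 441) (nat_lit 430) (nat_lit 329)) (XT.lf (nat_lit 76) (nat_lit 809314122) (nat_lit 0) (nat_lit 9409869773) (nat_lit 1216) (nat_lit 1953132734) (nat_lit 297) (nat_lit 5) (nat_lit 296) (nat_lit 5) (nat_lit 312) (nat_lit 5) (nat_lit 442) (nat_lit 430) (nat_lit 328))))) (XT.nd (nat_lit 312) (nat_lit 1900) (nat_lit 0) (XT.nd (nat_lit 156) (nat_lit 0) (nat_lit 0) (XT.nd (nat_lit 78) (nat_lit 1140) (nat_lit 0) (XT.lf (nat_lit 76) (nat_lit 7365324236) (nat_lit 0) (nat_lit 4199728491) (nat_lit 1216) (nat_lit 786806432) (nat_lit 297) (nat_lit 5) (nat_lit 296) (nat_lit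 5) (nat_lit 312) (nat_lit 5) (nat_lit 443) (nat_lit 430) (nat_lit 327)) (XT.lf (nat_lit 0) (nat_lit 414678837) (nat_lit 1216) (nat_lit 10954349878) (nat_lit 1292) (nat_lit 1167396221) (nat_lit 281) (nat_lit 5) (nat_lit 297) (nat_lit 5) (nat_lit 298) (nat_lit 5) (nat_lit 444) (nat_lit 430) (nat_lit 326))) (XT.nd (nat_lit 78) (nat_lit 0) (nat_lit 0) (XT.lf (nat_lit 0) (nat_lit 1710757867) (nat_lit 1216) (nat_lit 4339847133) (nat_lit 1292) (nat_lit 6673462200) (nat_lit 281) (nat_lit 5) (nat_lit 297) (nat_lit 5) (nat_lit 298) (nat_lit 5) (nat_lit 445) (nat_lit 430) (nat_lit 325)) (XT.lf (nat_lit 76) (nat_lit 2507534042) (nat_lit 0) (nat_lit 544744496) (nat_lit 1292) (nat_lit 9864867411) (nat_lit 282) (nat_lit 5) (nat_lit 281) (nat_lit 5) (nat_lit 298) (nat_lit 5) (nat_lit 446) (nat_lit 430) (nat_lit 324)))) (XT.nd (nat_lit 156) (nat_lit 760) (nat_lit 0) (XT.nd (nat_lit 78) (nat_lit 1216) (nat_lit 0) (XT.lf (nat_lit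 0) (nat_lit 4510435325) (nat_lit 1216) (nat_lit 3530005858) (nat_lit 76) (nat_lit 5073288042) (nat_lit 282) (nat_lit 5) (nat_lit 298) (nat_lit 5) (nat_lit 283) (nat_lit 5) (nat_lit 447) (nat_lit 430) (nat_lit 323)) (XT.lf (nat_lit 0) (nat_lit 3606512834) (nat_lit 1216) (nat_lit 2429240446) (nat_lit 1292) (nat_lit 7279757992) (nat_lit 266) (nat_lit 5) (nat_lit 282) (nat_lit 5) (nat_lit 283) (nat_lit 5) (nat_lit 448) (nat_lit 430) (nat_lit 322))) (XT.nd (nat_lit 78) (nat_lit 760) (nat_lit 0) (XT.lf (nat_lit 0) (nat_lit 7658756126) (nat_lit 1292) (nat_lit 2540174657) (nat_lit 76) (nat_lit 3322861893) (nat_lit 266) (nat_lit 5) (nat_lit 283) (nat_lit 5) (nat_lit 267) (nat_lit 5) (nat_lit 449) (nat_lit 430) (nat_lit 321)) (XT.lf (nat_lit 0) (nat_lit 4900900069) (nat_lit 760) (nat_lit 4484906647) (nat_lit 836) (nat_lit 4346798626) (nat_lit 256) (nat_lit 5) (nat_lit 266) (nat_lit 5) (nat_lit 267) (nat_lit 5) (nat_lit 450)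 (nat_lit 430) (nat_lit 320))))))) (XT.nd (nat_lit 1170) (nat_lit 3648) (nat_lit 0) (XT.nd (nat_lit 546) (nat_lit 2052) (nat_lit 0) (XT.nd (nat_lit 234) (nat_lit 1064) (nat_lit 0) (XT.nd (nat_lit 78) (nat_lit 1292) (nat_lit 0) (XT.lf (nat_lit 0) (nat_lit 11188566823) (nat_lit 836) (nat_lit 1360146169) (nat_lit 76) (nat_lit 1400315901) (nat_lit 256) (nat_lit 5) (nat_lit 267) (nat_lit 5) (nat_lit 257) (nat_lit 5) (nat_lit 451) (nat_lit 430) (nat_lit 319)) (XT.nd (nat_lit 78) (nat_lit 684) (nat_lit 0) (XT.lf (nat_lit 0) (nat_lit 6401770827) (nat_lit 608) (nat_lit 6734562646) (nat_lit 684) (nat_lit 1032887314) (nat_lit 248) (nat_lit 5) (nat_lit 256) (nat_lit 5) (nat_lit 257) (nat_lit 5) (nat_lit 452) (nat_lit 430) (nat_lit 318)) (XT.lf (nat_lit 0) (nat_lit 7184608) (nat_lit 608) (nat_lit 723836111) (nat_lit 684) (nat_lit 13664813396) (nat_lit 239) (nat_lit 5) (nat_lit 247) (nat_lit 5) (nat_lit 248) (nat_lit 5) (nat_lit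 453) (nat_lit 430) (nat_lit 317)))) (XT.nd (nat_lit 156) (nat_lit 532) (nat_lit 0) (XT.nd (nat_lit 78) (nat_lit 532) (nat_lit 0) (XT.lf (nat_lit 0) (nat_lit 2644283869) (nat_lit 684) (nat_lit 6530931867) (nat_lit 76) (nat_lit 5450210435) (nat_lit 239) (nat_lit 5) (nat_lit 248) (nat_lit 5) (nat_lit 240) (nat_lit 5) (nat_lit 454) (nat_lit 430) (nat_lit 316)) (XT.lf (nat_lit 0) (nat_lit 1571684854) (nat_lit 532) (nat_lit 3051390175) (nat_lit 608) (nat_lit 10238590030) (nat_lit 232) (nat_lit 5) (nat_lit 239) (nat_lit 5) (nat_lit 240) (nat_lit 5) (nat_lit 455) (nat_lit 430) (nat_lit 315))) (XT.nd (nat_lit 78) (nat_lit 532) (nat_lit 0) (XT.lf (nat_lit 0) (nat_lit 6745260434) (nat_lit 608) (nat_lit 5098318198) (nat_lit 76) (nat_lit 3258894451) (nat_lit 232) (nat_lit 5) (nat_lit 240) (nat_lit 5) (nat_lit 233) (nat_lit 5) (nat_lit 456) (nat_lit 430) (nat_lit 314)) (XT.lf (nat_lit 0) (nat_lit 3360268082) (nat_lit 532) (nat_lit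 5619887929) (nat_lit 608) (nat_lit 6368880802) (nat_lit 225) (nat_lit 5) (nat_lit 232) (nat_lit 5) (nat_lit 233) (nat_lit 5) (nat_lit 457) (nat_lit 430) (nat_lit 313))))) (XT.nd (nat_lit 312) (nat_lit 912) (nat_lit 0) (XT.nd (nat_lit 156) (nat_lit 608) (nat_lit 0) (XT.nd (nat_lit 78) (nat_lit 532) (nat_lit 0) (XT.lf (nat_lit 0) (nat_lit 11328471215) (nat_lit 608) (nat_lit 3446875812) (nat_lit 76) (nat_lit 826261966) (nat_lit 225) (nat_lit 5) (nat_lit 233) (nat_lit 5) (nat_lit 226) (nat_lit 5) (nat_lit 458) (nat_lit 430) (nat_lit 312)) (XT.lf (nat_lit 0) (nat_lit 5386729734) (nat_lit 532) (nat_lit 8455095262) (nat_lit 608) (nat_lit 2017098310) (nat_lit 218) (nat_lit 5) (nat_lit 225) (nat_lit 5) (nat_lit 226) (nat_lit 5) (nat_lit 459) (nat_lit 430) (nat_lit 311))) (XT.nd (nat_lit 78) (nat_lit 532) (nat_lit 0) (XT.lf (nat_lit 0) (nat_lit 323069657) (nat_lit 608) (nat_lit 1584338336) (nat_lit 76) (nat_lit 14215790202)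 (nat_lit 217) (nat_lit 5) (nat_lit 225) (nat_lit 5) (nat_lit 218) (nat_lit 5) (nat_lit 460) (nat_lit 430) (nat_lit 310)) (XT.lf (nat_lit 0) (nat_lit 2801847162) (nat_lit 608) (nat_lit 8753919198) (nat_lit 76) (nat_lit 4835769866) (nat_lit 210) (nat_lit 5) (nat_lit 218) (nat_lit 5) (nat_lit 211) (nat_lit 5) (nat_lit 461) (nat_lit 430) (nat_lit 309)))) (XT.nd (nat_lit 156) (nat_lit 456) (nat_lit 0) (XT.nd (nat_lit 78) (nat_lit 0) (nat_lit 0) (XT.lf (nat_lit 0) (nat_lit 477599960) (nat_lit 456) (nat_lit 4904886167) (nat_lit 532) (nat_lit 11284615674) (nat_lit 204) (nat_lit 5) (nat_lit 210) (nat_lit 5) (nat_lit 211) (nat_lit 5) (nat_lit 462) (nat_lit 430) (nat_lit 308)) (XT.lf (nat_lit 0) (nat_lit 8136585854) (nat_lit 532) (nat_lit 6816492710) (nat_lit 76) (nat_lit 1994976809) (nat_lit 204) (nat_lit 5) (nat_lit 211) (nat_lit 5) (nat_lit 205) (nat_lit 5) (nat_lit 463) (nat_lit 430) (nat_lit 307))) (XT.nd (nat_lit 78)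 (nat_lit 0) (nat_lit 0) (XT.lf (nat_lit 0) (nat_lit 2830646575) (nat_lit 456) (nat_lit 8206850102) (nat_lit 532) (nat_lit 6198017445) (nat_lit 198) (nat_lit 5) (nat_lit 204) (nat_lit 5) (nat_lit 205) (nat_lit 5) (nat_lit 464) (nat_lit 430) (nat_lit 306)) (XT.lf (nat_lit 0) (nat_lit 12893333095) (nat_lit 456) (nat_lit 1189556623) (nat_lit 532) (nat_lit 3446985416) (nat_lit 198) (nat_lit 5) (nat_lit 204) (nat_lit 5) (nat_lit 205) (nat_lit 5) (nat_lit 465) (nat_lit 430) (nat_lit 305)))))) (XT.nd (nat_lit 546) (nat_lit 1824) (nat_lit 0) (XT.nd (nat_lit 234) (nat_lit 836) (nat_lit 0) (XT.nd (nat_lit 78) (nat_lit 532) (nat_lit 0) (XT.lf (nat_lit 0) (nat_lit 5459815422) (nat_lit 456) (nat_lit 11859287992) (nat_lit 532) (nat_lit 510981883) (nat_lit 192) (nat_lit 5) (nat_lit 198) (nat_lit 5) (nat_lit 199) (nat_lit 5) (nat_lit 466) (nat_lit 430) (nat_lit 304)) (XT.nd (nat_lit 78) (nat_lit 456) (nat_lit 0) (XT.lf (nat_lit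 0) (nat_lit 2512139864) (nat_lit 532) (nat_lit 2233790941) (nat_lit 76) (nat_lit 13391205867) (nat_lit 191) (nat_lit 5) (nat_lit 198) (nat_lit 5) (nat_lit 192) (nat_lit 5) (nat_lit 467) (nat_lit 430) (nat_lit 303)) (XT.lf (nat_lit 0) (nat_lit 5710929934) (nat_lit 532) (nat_lit 10125306478) (nat_lit 76) (nat_lit 2614155960) (nat_lit 185) (nat_lit 5) (nat_lit 192) (nat_lit 5) (nat_lit 186) (nat_lit 5) (nat_lit 468) (nat_lit 430) (nat_lit 302)))) (XT.nd (nat_lit 156) (nat_lit 456) (nat_lit 0) (XT.nd (nat_lit 78) (nat_lit 0) (nat_lit 0) (XT.lf (nat_lit 0) (nat_lit 421799932) (nat_lit 380) (nat_lit 8647204282) (nat_lit 456) (nat_lit 9702143767) (nat_lit 180) (nat_lit 5) (nat_lit 185) (nat_lit 5) (nat_lit 186) (nat_lit 5) (nat_lit 469) (nat_lit 430) (nat_lit 301)) (XT.lf (nat_lit 0) (nat_lit 11479640783) (nat_lit 380) (nat_lit 1140100623) (nat_lit 456) (nat_lit 6479029032) (nat_lit 180) (nat_lit 5) (nat_lit 185) (nat_lit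 5) (nat_lit 186) (nat_lit 5) (nat_lit 470) (nat_lit 430) (nat_lit 300))) (XT.nd (nat_lit 78) (nat_lit 76) (nat_lit 0) (XT.lf (nat_lit 0) (nat_lit 3423300456) (nat_lit 380) (nat_lit 12939924016) (nat_lit 456) (nat_lit 3070412129) (nat_lit 175) (nat_lit 5) (nat_lit 180) (nat_lit 5) (nat_lit 181) (nat_lit 5) (nat_lit 471) (nat_lit 430) (nat_lit 299)) (XT.lf (nat_lit 0) (nat_lit 510873193) (nat_lit 456) (nat_lit 4852535310) (nat_lit 76) (nat_lit 14412644724) (nat_lit 174) (nat_lit 5) (nat_lit 180) (nat_lit 5) (nat_lit 175) (nat_lit 5) (nat_lit 472) (nat_lit 430) (nat_lit 298))))) (XT.nd (nat_lit 312) (nat_lit 760) (nat_lit 0) (XT.nd (nat_lit 156) (nat_lit 684) (nat_lit 0) (XT.nd (nat_lit 78) (nat_lit 0) (nat_lit 0) (XT.lf (nat_lit 0) (nat_lit 4217236705) (nat_lit 456) (nat_lit 13422478605) (nat_lit 76) (nat_lit 2485736078) (nat_lit 169) (nat_lit 5) (nat_lit 175) (nat_lit 5) (nat_lit 170) (nat_lit 5) (nat_lit 473) (nat_lit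 430) (nat_lit 297)) (XT.lf (nat_lit 0) (nat_lit 8127817966) (nat_lit 456) (nat_lit 1845777416) (nat_lit 76) (nat_lit 10508946860) (nat_lit 169) (nat_lit 5) (nat_lit 175) (nat_lit 5) (nat_lit 170) (nat_lit 5) (nat_lit 474) (nat_lit 430) (nat_lit 296))) (XT.nd (nat_lit 78) (nat_lit 304) (nat_lit 0) (XT.lf (nat_lit 0) (nat_lit 10265982088) (nat_lit 380) (nat_lit 1979133532) (nat_lit 456) (nat_lit 8602549740) (nat_lit 164) (nat_lit 5) (nat_lit 169) (nat_lit 5) (nat_lit 170) (nat_lit 5) (nat_lit 475) (nat_lit 430) (nat_lit 295)) (XT.lf (nat_lit 0) (nat_lit 1512255157) (nat_lit 304) (nat_lit 15058000470) (nat_lit 380) (nat_lit 4650958304) (nat_lit 160) (nat_lit 5) (nat_lit 164) (nat_lit 5) (nat_lit 165) (nat_lit 5) (nat_lit 476) (nat_lit 430) (nat_lit 294)))) (XT.nd (nat_lit 156) (nat_lit 304) (nat_lit 0) (XT.nd (nat_lit 78) (nat_lit 456) (nat_lit 0) (XT.lf (nat_lit 0) (nat_lit 14153375516) (nat_lit 304) (nat_lit 6989012984)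 (nat_lit 380) (nat_lit 460064719) (nat_lit 160) (nat_lit 5) (nat_lit 164) (nat_lit 5) (nat_lit 165) (nat_lit 5) (nat_lit 477) (nat_lit 430) (nat_lit 293)) (XT.lf (nat_lit 0) (nat_lit 3836281232) (nat_lit 456) (nat_lit 16775082868) (nat_lit 76) (nat_lit 1381005351) (nat_lit 154) (nat_lit 5) (nat_lit 160) (nat_lit 5) (nat_lit 155) (nat_lit 5) (nat_lit 478) (nat_lit 430) (nat_lit 292))) (XT.nd (nat_lit 78) (nat_lit 304) (nat_lit 0) (XT.lf (nat_lit 0) (nat_lit 8388696153) (nat_lit 456) (nat_lit 4062367295) (nat_lit 76) (nat_lit 9938691606) (nat_lit 154) (nat_lit 5) (nat_lit 160) (nat_lit 5) (nat_lit 155) (nat_lit 5) (nat_lit 479) (nat_lit 430) (nat_lit 291)) (XT.lf (nat_lit 0) (nat_lit 9199117921) (nat_lit 304) (nat_lit 3958509116) (nat_lit 380) (nat_lit 9639038144) (nat_lit 150) (nat_lit 5) (nat_lit 154) (nat_lit 5) (nat_lit 155) (nat_lit 5) (nat_lit 480) (nat_lit 430) (nat_lit 290))))))))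
noncomputable def xc165 : XT := (XT.nd (nat_lit 2340) (nat_lit 3040) (nat_lit 0) (XT.nd (nat_lit 1170) (nat_lit 1900) (nat_lit 0) (XT.nd (nat_lit 546) (nat_lit 1368) (nat_lit 0) (XT.nd (nat_lit 234) (nat_lit 608) (nat_lit 0) (XT.nd (nat_lit 78) (nat_lit 684) (nat_lit 0) (XT.lf (nat_lit 0) (nat_lit 18148699677) (nat_lit 380) (nat_lit 331486602) (nat_lit 76) (nat_lit 4733225342) (nat_lit 150) (nat_lit 5) (nat_lit 155) (nat_lit 5) (nat_lit 151) (nat_lit 5) (nat_lit 481) (nat_lit 430) (nat_lit 289)) (XT.nd (nat_lit 78) (nat_lit 380) (nat_lit 0) (XT.lf (nat_lit 0) (nat_lit 13545828834) (nat_lit 304) (nat_lit 9904936548) (nat_lit 380) (nat_lit 187058436) (nat_lit 146) (nat_lit 5) (nat_lit 150) (nat_lit 5) (nat_lit 151) (nat_lit 5) (nat_lit 482) (nat_lit 430) (nat_lit 288)) (XT.lf (nat_lit 0) (nat_lit 3786849563) (nat_lit 304) (nat_lit 987371993) (nat_lit 380) (nat_lit 19298402601) (nat_lit 141) (nat_lit 5) (nat_lit 145)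 (nat_lit 5) (nat_lit 146) (nat_lit 5) (nat_lit 483) (nat_lit 430) (nat_lit 287)))) (XT.nd (nat_lit 156) (nat_lit 304) (nat_lit 0) (XT.nd (nat_lit 78) (nat_lit 304) (nat_lit 0) (XT.lf (nat_lit 0) (nat_lit 10054286691) (nat_lit 380) (nat_lit 6322133132) (nat_lit 76) (nat_lit 8138783014) (nat_lit 141) (nat_lit 5) (nat_lit 146) (nat_lit 5) (nat_lit 142) (nat_lit 5) (nat_lit 484) (nat_lit 430) (nat_lit 286)) (XT.lf (nat_lit 0) (nat_lit 8198987966) (nat_lit 304) (nat_lit 7374575437) (nat_lit 380) (nat_lit 9395072244) (nat_lit 137) (nat_lit 5) (nat_lit 141) (nat_lit 5) (nat_lit 142) (nat_lit 5) (nat_lit 485) (nat_lit 430) (nat_lit 285))) (XT.nd (nat_lit 78) (nat_lit 304) (nat_lit 0) (XT.lf (nat_lit 0) (nat_lit 21333428457) (nat_lit 380) (nat_lit 2179011355) (nat_lit 76) (nat_lit 1920982355) (nat_lit 137) (nat_lit 5) (nat_lit 142) (nat_lit 5) (nat_lit 138) (nat_lit 5) (nat_lit 486) (nat_lit 430) (nat_lit 284)) (XT.lf (nat_lit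 0) (nat_lit 1520088973) (nat_lit 304) (nat_lit 12902343202) (nat_lit 76) (nat_lit 11483553466) (nat_lit 133) (nat_lit 5) (nat_lit 137) (nat_lit 5) (nat_lit 134) (nat_lit 5) (nat_lit 487) (nat_lit 430) (nat_lit 283))))) (XT.nd (nat_lit 312) (nat_lit 836) (nat_lit 0) (XT.nd (nat_lit 156) (nat_lit 228) (nat_lit 0) (XT.nd (nat_lit 78) (nat_lit 0) (nat_lit 0) (XT.lf (nat_lit 0) (nat_lit 2286767779) (nat_lit 304) (nat_lit 4976362360) (nat_lit 380) (nat_lit 19127276146) (nat_lit 129) (nat_lit 5) (nat_lit 133) (nat_lit 5) (nat_lit 134) (nat_lit 5) (nat_lit 488) (nat_lit 430) (nat_lit 282)) (XT.lf (nat_lit 0) (nat_lit 13348358725) (nat_lit 380) (nat_lit 8747884718) (nat_lit 76) (nat_lit 4788020131) (nat_lit 129) (nat_lit 5) (nat_lit 134) (nat_lit 5) (nat_lit 130) (nat_lit 5) (nat_lit 489) (nat_lit 430) (nat_lit 281))) (XT.nd (nat_lit 78) (nat_lit 0) (nat_lit 0) (XT.lf (nat_lit 0) (nat_lit 7147588974) (nat_lit 228) (nat_lit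 12579376044) (nat_lit 304) (nat_lit 7662647824) (nat_lit 126) (nat_lit 5) (nat_lit 129) (nat_lit 5) (nat_lit 130) (nat_lit 5) (nat_lit 490) (nat_lit 430) (nat_lit 280)) (XT.lf (nat_lit 0) (nat_lit 23688202322) (nat_lit 228) (nat_lit 2690008862) (nat_lit 304) (nat_lit 1529473812) (nat_lit 126) (nat_lit 5) (nat_lit 129) (nat_lit 5) (nat_lit 130) (nat_lit 5) (nat_lit 491) (nat_lit 430) (nat_lit 279)))) (XT.nd (nat_lit 156) (nat_lit 228) (nat_lit 0) (XT.nd (nat_lit 78) (nat_lit 228) (nat_lit 0) (XT.lf (nat_lit 0) (nat_lit 4880884434) (nat_lit 380) (nat_lit 16040005535) (nat_lit 76) (nat_lit 7513431061) (nat_lit 121) (nat_lit 5) (nat_lit 126) (nat_lit 5) (nat_lit 122) (nat_lit 5) (nat_lit 492) (nat_lit 430) (nat_lit 278)) (XT.lf (nat_lit 0) (nat_lit 575653786) (nat_lit 228) (nat_lit 10945498664) (nat_lit 304) (nat_lit 17453099984) (nat_lit 118) (nat_lit 5) (nat_lit 121) (nat_lit 5) (nat_lit 122) (nat_lit 5) (nat_lit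 493) (nat_lit 430) (nat_lit 277))) (XT.nd (nat_lit 78) (nat_lit 228) (nat_lit 0) (XT.lf (nat_lit 0) (nat_lit 18007769040) (nat_lit 228) (nat_lit 508070097) (nat_lit 304) (nat_lit 11009887089) (nat_lit 118) (nat_lit 5) (nat_lit 121) (nat_lit 5) (nat_lit 122) (nat_lit 5) (nat_lit 494) (nat_lit 430) (nat_lit 276)) (XT.lf (nat_lit 0) (nat_lit 5874618511) (nat_lit 228) (nat_lit 19994072457) (nat_lit 304) (nat_lit 4220604269) (nat_lit 115) (nat_lit 5) (nat_lit 118) (nat_lit 5) (nat_lit 119) (nat_lit 5) (nat_lit 495) (nat_lit 430) (nat_lit 275)))))) (XT.nd (nat_lit 546) (nat_lit 912) (nat_lit 0) (XT.nd (nat_lit 234) (nat_lit 684) (nat_lit 0) (XT.nd (nat_lit 78) (nat_lit 228) (nat_lit 0) (XT.lf (nat_lit 0) (nat_lit 2834171878) (nat_lit 304) (nat_lit 6684725341) (nat_lit 76) (nat_lit 21146597903) (nat_lit 114) (nat_lit 5) (nat_lit 118) (nat_lit 5) (nat_lit 115) (nat_lit 5) (nat_lit 496) (nat_lit 430) (nat_lit 274)) (XT.nd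 (nat_lit 78) (nat_lit 0) (nat_lit 0) (XT.lf (nat_lit 0) (nat_lit 10134033066) (nat_lit 304) (nat_lit 19724050523) (nat_lit 76) (nat_lit 1396096297) (nat_lit 111) (nat_lit 5) (nat_lit 115) (nat_lit 5) (nat_lit 112) (nat_lit 5) (nat_lit 497) (nat_lit 430) (nat_lit 273)) (XT.lf (nat_lit 0) (nat_lit 17808970848) (nat_lit 304) (nat_lit 1535383233) (nat_lit 76) (nat_lit 12511489346) (nat_lit 111) (nat_lit 5) (nat_lit 115) (nat_lit 5) (nat_lit 112) (nat_lit 5) (nat_lit 498) (nat_lit 430) (nat_lit 272)))) (XT.nd (nat_lit 156) (nat_lit 228) (nat_lit 0) (XT.nd (nat_lit 78) (nat_lit 228) (nat_lit 0) (XT.lf (nat_lit 0) (nat_lit 17530910729) (nat_lit 228) (nat_lit 8345611728) (nat_lit 304) (nat_lit 6594164088) (nat_lit 108) (nat_lit 5) (nat_lit 111) (nat_lit 5) (nat_lit 112) (nat_lit 5) (nat_lit 499) (nat_lit 430) (nat_lit 271)) (XT.lf (nat_lit 0) (nat_lit 1139792972) (nat_lit 228) (nat_lit 28973885607) (nat_lit 76) (nat_lit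 2987621412) (nat_lit 105) (nat_lit 5) (nat_lit 108) (nat_lit 5) (nat_lit 106) (nat_lit 5) (nat_lit 500) (nat_lit 430) (nat_lit 270))) (XT.nd (nat_lit 78) (nat_lit 228) (nat_lit 0) (XT.lf (nat_lit 0) (nat_lit 9202131996) (nat_lit 228) (nat_lit 9833039163) (nat_lit 76) (nat_lit 14706835622) (nat_lit 105) (nat_lit 5) (nat_lit 108) (nat_lit 5) (nat_lit 106) (nat_lit 5) (nat_lit 501) (nat_lit 430) (nat_lit 269)) (XT.lf (nat_lit 0) (nat_lit 10068612438) (nat_lit 228) (nat_lit 7528605165) (nat_lit 304) (nat_lit 16801991448) (nat_lit 102) (nat_lit 5) (nat_lit 105) (nat_lit 5) (nat_lit 106) (nat_lit 5) (nat_lit 502) (nat_lit 430) (nat_lit 268))))) (XT.nd (nat_lit 312) (nat_lit 456) (nat_lit 0) (XT.nd (nat_lit 156) (nat_lit 304) (nat_lit 0) (XT.nd (nat_lit 78) (nat_lit 152) (nat_lit 0) (XT.lf (nat_lit 0) (nat_lit 26380120691) (nat_lit 304) (nat_lit 4356742735) (nat_lit 76) (nat_lit 4335185566) (nat_lit 102) (nat_lit 5) (nat_lit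 106) (nat_lit 5) (nat_lit 103) (nat_lit 5) (nat_lit 503) (nat_lit 430) (nat_lit 267)) (XT.lf (nat_lit 0) (nat_lit 16453201235) (nat_lit 152) (nat_lit 19200310019) (nat_lit 228) (nat_lit 104753402) (nat_lit 100) (nat_lit 5) (nat_lit 102) (nat_lit 5) (nat_lit 103) (nat_lit 5) (nat_lit 504) (nat_lit 430) (nat_lit 266))) (XT.nd (nat_lit 78) (nat_lit 0) (nat_lit 0) (XT.lf (nat_lit 0) (nat_lit 1447128970) (nat_lit 228) (nat_lit 7175018480) (nat_lit 304) (nat_lit 27838819597) (nat_lit 96) (nat_lit 5) (nat_lit 99) (nat_lit 5) (nat_lit 100) (nat_lit 5) (nat_lit 505) (nat_lit 430) (nat_lit 265)) (XT.lf (nat_lit 0) (nat_lit 17850069761) (nat_lit 304) (nat_lit 14024040057) (nat_lit 76) (nat_lit 5303370471) (nat_lit 96) (nat_lit 5) (nat_lit 100) (nat_lit 5) (nat_lit 97) (nat_lit 5) (nat_lit 506) (nat_lit 430) (nat_lit 264)))) (XT.nd (nat_lit 156) (nat_lit 304) (nat_lit 0) (XT.nd (nat_lit 78) (nat_lit 0) (nat_lit 0) (XT.lf (nat_lit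 0) (nat_lit 7664556843) (nat_lit 152) (nat_lit 19829508341) (nat_lit 228) (nat_lit 10417247157) (nat_lit 94) (nat_lit 5) (nat_lit 96) (nat_lit 5) (nat_lit 97) (nat_lit 5) (nat_lit 507) (nat_lit 430) (nat_lit 263)) (XT.lf (nat_lit 0) (nat_lit 30281964678) (nat_lit 152) (nat_lit 7281620333) (nat_lit 228) (nat_lit 1099488669) (nat_lit 94) (nat_lit 5) (nat_lit 96) (nat_lit 5) (nat_lit 97) (nat_lit 5) (nat_lit 508) (nat_lit 430) (nat_lit 262))) (XT.nd (nat_lit 78) (nat_lit 0) (nat_lit 0) (XT.lf (nat_lit 0) (nat_lit 8520792607) (nat_lit 304) (nat_lit 25158065093) (nat_lit 76) (nat_lit 5750415630) (nat_lit 90) (nat_lit 5) (nat_lit 94) (nat_lit 5) (nat_lit 91) (nat_lit 5) (nat_lit 509) (nat_lit 430) (nat_lit 261)) (XT.lf (nat_lit 0) (nat_lit 18559874534) (nat_lit 304) (nat_lit 2534031063) (nat_lit 76) (nat_lit 19119658487) (nat_lit 90) (nat_lit 5) (nat_lit 94) (nat_lit 5) (nat_lit 91) (nat_lit 5) (nat_lit 510) (nat_lit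 430) (nat_lit 260))))))) (XT.nd (nat_lit 1170) (nat_lit 1368) (nat_lit 0) (XT.nd (nat_lit 546) (nat_lit 912) (nat_lit 0) (XT.nd (nat_lit 234) (nat_lit 380) (nat_lit 0) (XT.nd (nat_lit 78) (nat_lit 228) (nat_lit 0) (XT.lf (nat_lit 0) (nat_lit 21172961065) (nat_lit 152) (nat_lit 7925573833) (nat_lit 228) (nat_lit 11916896896) (nat_lit 88) (nat_lit 5) (nat_lit 90) (nat_lit 5) (nat_lit 91) (nat_lit 5) (nat_lit 511) (nat_lit 430) (nat_lit 259)) (XT.nd (nat_lit 78) (nat_lit 76) (nat_lit 0) (XT.lf (nat_lit 0) (nat_lit 3813536703) (nat_lit 152) (nat_lit 36251419002) (nat_lit 228) (nat_lit 1773052207) (nat_lit 86) (nat_lit 5) (nat_lit 88) (nat_lit 5) (nat_lit 89) (nat_lit 5) (nat_lit 512) (nat_lit 430) (nat_lit 258)) (XT.lf (nat_lit 0) (nat_lit 8781569552) (nat_lit 228) (nat_lit 14266085675) (nat_lit 76) (nat_lit 19626832421) (nat_lit 85) (nat_lit 5) (nat_lit 88) (nat_lit 5) (nat_lit 86) (nat_lit 5) (nat_lit 513) (nat_lit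 430) (nat_lit 257)))) (XT.nd (nat_lit 156) (nat_lit 228) (nat_lit 0) (XT.nd (nat_lit 78) (nat_lit 0) (nat_lit 0) (XT.lf (nat_lit 0) (nat_lit 10381369822) (nat_lit 152) (nat_lit 9330682995) (nat_lit 228) (nat_lit 23820636888) (nat_lit 83) (nat_lit 5) (nat_lit 85) (nat_lit 5) (nat_lit 86) (nat_lit 5) (nat_lit 514) (nat_lit 430) (nat_lit 256)) (XT.lf (nat_lit 0) (nat_lit 31157147945) (nat_lit 228) (nat_lit 8407901687) (nat_lit 76) (nat_lit 4845987629) (nat_lit 83) (nat_lit 5) (nat_lit 86) (nat_lit 5) (nat_lit 84) (nat_lit 5) (nat_lit 515) (nat_lit 430) (nat_lit 255))) (XT.nd (nat_lit 78) (nat_lit 76) (nat_lit 0) (XT.lf (nat_lit 0) (nat_lit 17314835428) (nat_lit 152) (nat_lit 25884819397) (nat_lit 228) (nat_lit 2108458991) (nat_lit 81) (nat_lit 5) (nat_lit 83) (nat_lit 5) (nat_lit 84) (nat_lit 5) (nat_lit 516) (nat_lit 430) (nat_lit 254)) (XT.lf (nat_lit 0) (nat_lit 9269455998) (nat_lit 228) (nat_lit 2347358068) (nat_lit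 76) (nat_lit 34610156732) (nat_lit 80) (nat_lit 5) (nat_lit 83) (nat_lit 5) (nat_lit 81) (nat_lit 5) (nat_lit 517) (nat_lit 430) (nat_lit 253))))) (XT.nd (nat_lit 312) (nat_lit 380) (nat_lit 0) (XT.nd (nat_lit 156) (nat_lit 228) (nat_lit 0) (XT.nd (nat_lit 78) (nat_lit 152) (nat_lit 0) (XT.lf (nat_lit 0) (nat_lit 21209494711) (nat_lit 228) (nat_lit 22680696767) (nat_lit 76) (nat_lit 3274681123) (nat_lit 78) (nat_lit 5) (nat_lit 81) (nat_lit 5) (nat_lit 79) (nat_lit 5) (nat_lit 518) (nat_lit 430) (nat_lit 252)) (XT.lf (nat_lit 0) (nat_lit 3992976895) (nat_lit 152) (nat_lit 29687503131) (nat_lit 228) (nat_lit 14445249375) (nat_lit 76) (nat_lit 5) (nat_lit 78) (nat_lit 5) (nat_lit 79) (nat_lit 5) (nat_lit 519) (nat_lit 430) (nat_lit 251))) (XT.nd (nat_lit 78) (nat_lit 228) (nat_lit 0) (XT.lf (nat_lit 0) (nat_lit 31923612050) (nat_lit 152) (nat_lit 14826474715) (nat_lit 228) (nat_lit 2358590678) (nat_lit 76) (nat_lit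 5) (nat_lit 78) (nat_lit 5) (nat_lit 79) (nat_lit 5) (nat_lit 520) (nat_lit 430) (nat_lit 250)) (XT.lf (nat_lit 0) (nat_lit 9998479784) (nat_lit 228) (nat_lit 39447501467) (nat_lit 76) (nat_lit 669081509) (nat_lit 73) (nat_lit 5) (nat_lit 76) (nat_lit 5) (nat_lit 74) (nat_lit 5) (nat_lit 521) (nat_lit 430) (nat_lit 249)))) (XT.nd (nat_lit 156) (nat_lit 228) (nat_lit 0) (XT.nd (nat_lit 78) (nat_lit 152) (nat_lit 0) (XT.lf (nat_lit 0) (nat_lit 22996476027) (nat_lit 228) (nat_lit 11618307747) (nat_lit 76) (nat_lit 16526626990) (nat_lit 73) (nat_lit 5) (nat_lit 76) (nat_lit 5) (nat_lit 74) (nat_lit 5) (nat_lit 522) (nat_lit 430) (nat_lit 248)) (XT.lf (nat_lit 0) (nat_lit 17377034180) (nat_lit 152) (nat_lit 19170114318) (nat_lit 228) (nat_lit 15646518885) (nat_lit 71) (nat_lit 5) (nat_lit 73) (nat_lit 5) (nat_lit 74) (nat_lit 5) (nat_lit 523) (nat_lit 430) (nat_lit 247))) (XT.nd (nat_lit 78) (nat_lit 228) (nat_lit 0)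 (XT.lf (nat_lit 0) (nat_lit 47472660783) (nat_lit 152) (nat_lit 3144751059) (nat_lit 228) (nat_lit 2656687992) (nat_lit 71) (nat_lit 5) (nat_lit 73) (nat_lit 5) (nat_lit 74) (nat_lit 5) (nat_lit 524) (nat_lit 430) (nat_lit 246)) (XT.lf (nat_lit 0) (nat_lit 10876214975) (nat_lit 228) (nat_lit 30058020040) (nat_lit 76) (nat_lit 13438739701) (nat_lit 68) (nat_lit 5) (nat_lit 71) (nat_lit 5) (nat_lit 69) (nat_lit 5) (nat_lit 525) (nat_lit 430) (nat_lit 245)))))) (XT.nd (nat_lit 624) (nat_lit 760) (nat_lit 0) (XT.nd (nat_lit 312) (nat_lit 304) (nat_lit 0) (XT.nd (nat_lit 156) (nat_lit 152) (nat_lit 0) (XT.nd (nat_lit 78) (nat_lit 152) (nat_lit 0) (XT.lf (nat_lit 0) (nat_lit 24847855253) (nat_lit 228) (nat_lit 114928253) (nat_lit 76) (nat_lit 30538659047) (nat_lit 68) (nat_lit 5) (nat_lit 71) (nat_lit 5) (nat_lit 69) (nat_lit 5) (nat_lit 526) (nat_lit 430) (nat_lit 244)) (XT.lf (nat_lit 0) (nat_lit 31330433751) (nat_lit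 152) (nat_lit 8205346905) (nat_lit 228) (nat_lit 17119069917) (nat_lit 66) (nat_lit 5) (nat_lit 68) (nat_lit 5) (nat_lit 69) (nat_lit 5) (nat_lit 527) (nat_lit 430) (nat_lit 243))) (XT.nd (nat_lit 78) (nat_lit 76) (nat_lit 0) (XT.lf (nat_lit 0) (nat_lit 5899344722) (nat_lit 76) (nat_lit 48905903268) (nat_lit 152) (nat_lit 3033385940) (nat_lit 65) (nat_lit 5) (nat_lit 66) (nat_lit 5) (nat_lit 67) (nat_lit 4) (nat_lit 528) (nat_lit 430) (nat_lit 242)) (XT.lf (nat_lit 0) (nat_lit 11586443079) (nat_lit 152) (nat_lit 20672805358) (nat_lit 76) (nat_lit 26785308739) (nat_lit 64) (nat_lit 5) (nat_lit 66) (nat_lit 5) (nat_lit 65) (nat_lit 5) (nat_lit 529) (nat_lit 430) (nat_lit 241)))) (XT.nd (nat_lit 156) (nat_lit 152) (nat_lit 0) (XT.nd (nat_lit 78) (nat_lit 0) (nat_lit 0) (XT.lf (nat_lit 0) (nat_lit 11723202609) (nat_lit 152) (nat_lit 14969494260) (nat_lit 228) (nat_lit 33589796509) (nat_lit 62) (nat_lit 5) (nat_lit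 64) (nat_lit 5) (nat_lit 65) (nat_lit 5) (nat_lit 530) (nat_lit 430) (nat_lit 240)) (XT.lf (nat_lit 0) (nat_lit 42486370380) (nat_lit 228) (nat_lit 16073010892) (nat_lit 76) (nat_lit 2991159625) (nat_lit 62) (nat_lit 5) (nat_lit 65) (nat_lit 5) (nat_lit 63) (nat_lit 4) (nat_lit 531) (nat_lit 430) (nat_lit 239))) (XT.nd (nat_lit 78) (nat_lit 76) (nat_lit 0) (XT.lf (nat_lit 0) (nat_lit 17575605703) (nat_lit 76) (nat_lit 41491642352) (nat_lit 152) (nat_lit 3779980159) (nat_lit 61) (nat_lit 5) (nat_lit 62) (nat_lit 5) (nat_lit 63) (nat_lit 4) (nat_lit 532) (nat_lit 430) (nat_lit 238)) (XT.lf (nat_lit 0) (nat_lit 11889452402) (nat_lit 152) (nat_lit 11738393938) (nat_lit 76) (nat_lit 40546715618) (nat_lit 60) (nat_lit 5) (nat_lit 62) (nat_lit 5) (nat_lit 61) (nat_lit 5) (nat_lit 533) (nat_lit 430) (nat_lit 237))))) (XT.nd (nat_lit 312) (nat_lit 456) (nat_lit 0) (XT.nd (nat_lit 156) (nat_lit 152) (nat_lit 0) (XT.nd (nat_lit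 78) (nat_lit 0) (nat_lit 0) (XT.lf (nat_lit 0) (nat_lit 23209502466) (nat_lit 152) (nat_lit 4962944749) (nat_lit 228) (nat_lit 37361562313) (nat_lit 58) (nat_lit 5) (nat_lit 60) (nat_lit 5) (nat_lit 61) (nat_lit 5) (nat_lit 534) (nat_lit 430) (nat_lit 236)) (XT.lf (nat_lit 0) (nat_lit 45197095086) (nat_lit 228) (nat_lit 7629307040) (nat_lit 76) (nat_lit 14100243674) (nat_lit 58) (nat_lit 5) (nat_lit 61) (nat_lit 5) (nat_lit 59) (nat_lit 4) (nat_lit 535) (nat_lit 430) (nat_lit 235))) (XT.nd (nat_lit 78) (nat_lit 76) (nat_lit 0) (XT.lf (nat_lit 0) (nat_lit 28609263083) (nat_lit 76) (nat_lit 34443833805) (nat_lit 152) (nat_lit 5298346000) (nat_lit 57) (nat_lit 5) (nat_lit 58) (nat_lit 5) (nat_lit 59) (nat_lit 4) (nat_lit 536) (nat_lit 430) (nat_lit 234)) (XT.lf (nat_lit 0) (nat_lit 11473209417) (nat_lit 152) (nat_lit 3844429163) (nat_lit 76) (nat_lit 54495764564) (nat_lit 56) (nat_lit 5) (nat_lit 58) (nat_lit 5) (nat_lit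 57) (nat_lit 5) (nat_lit 537) (nat_lit 430) (nat_lit 233)))) (XT.nd (nat_lit 156) (nat_lit 304) (nat_lit 0) (XT.nd (nat_lit 78) (nat_lit 0) (nat_lit 0) (XT.lf (nat_lit 0) (nat_lit 29008050145) (nat_lit 228) (nat_lit 37624300995) (nat_lit 76) (nat_lit 4674298549) (nat_lit 54) (nat_lit 5) (nat_lit 57) (nat_lit 5) (nat_lit 55) (nat_lit 4) (nat_lit 538) (nat_lit 430) (nat_lit 232)) (XT.lf (nat_lit 0) (nat_lit 47256385992) (nat_lit 228) (nat_lit 588276483) (nat_lit 76) (nat_lit 24994407803) (nat_lit 54) (nat_lit 5) (nat_lit 57) (nat_lit 5) (nat_lit 55) (nat_lit 4) (nat_lit 539) (nat_lit 430) (nat_lit 231))) (XT.nd (nat_lit 78) (nat_lit 228) (nat_lit 0) (XT.lf (nat_lit 0) (nat_lit 38299945991) (nat_lit 76) (nat_lit 28117072459) (nat_lit 152) (nat_lit 7989499780) (nat_lit 53) (nat_lit 5) (nat_lit 54) (nat_lit 5) (nat_lit 55) (nat_lit 4) (nat_lit 540) (nat_lit 430) (nat_lit 230)) (XT.lf (nat_lit 0) (nat_lit 2286983904)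 (nat_lit 152) (nat_lit 7671466318) (nat_lit 228) (nat_lit 66058877683) (nat_lit 50) (nat_lit 5) (nat_lit 52) (nat_lit 5) (nat_lit 53) (nat_lit 5) (nat_lit 541) (nat_lit 430) (nat_lit 229))))))))
noncomputable def xc166 : XT := (XT.nd (nat_lit 55614) (nat_lit 0) (nat_lit 7296) (XT.nd (nat_lit 54444) (nat_lit 0) (nat_lit 15428) (XT.nd (nat_lit 53820) (nat_lit 0) (nat_lit 18696) (XT.nd (nat_lit 234) (nat_lit 304) (nat_lit 0) (XT.nd (nat_lit 78) (nat_lit 76) (nat_lit 0) (XT.lf (nat_lit 0) (nat_lit 28777859449) (nat_lit 228) (nat_lit 35310696816) (nat_lit 76) (nat_lit 13570724565) (nat_lit 50) (nat_lit 5) (nat_lit 53) (nat_lit 5) (nat_lit 51) (nat_lit 4) (nat_lit 542) (nat_lit 430) (nat_lit 228)) (XT.nd (nat_lit 78) (nat_lit 0) (nat_lit 0) (XT.lf (nat_lit 0) (nat_lit 4262681103) (nat_lit 76) (nat_lit 44012893954) (nat_lit 152) (nat_lit 31071505687) (nat_lit 49) (nat_lit 5) (nat_lit 50) (nat_lit 5) (nat_lit 51) (nat_lit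 4) (nat_lit 543) (nat_lit 430) (nat_lit 227)) (XT.lf (nat_lit 0) (nat_lit 45741070841) (nat_lit 76) (nat_lit 22970549075) (nat_lit 152) (nat_lit 12363292929) (nat_lit 49) (nat_lit 5) (nat_lit 50) (nat_lit 5) (nat_lit 51) (nat_lit 4) (nat_lit 544) (nat_lit 430) (nat_lit 226)))) (XT.nd (nat_lit 156) (nat_lit 76) (nat_lit 0) (XT.nd (nat_lit 78) (nat_lit 0) (nat_lit 0) (XT.lf (nat_lit 0) (nat_lit 5647131217) (nat_lit 152) (nat_lit 1175445239) (nat_lit 228) (nat_lit 76028476746) (nat_lit 46) (nat_lit 5) (nat_lit 48) (nat_lit 5) (nat_lit 49) (nat_lit 5) (nat_lit 545) (nat_lit 430) (nat_lit 225)) (XT.lf (nat_lit 0) (nat_lit 26897259547) (nat_lit 228) (nat_lit 36424284916) (nat_lit 76) (nat_lit 21338409327) (nat_lit 46) (nat_lit 5) (nat_lit 49) (nat_lit 5) (nat_lit 47) (nat_lit 4) (nat_lit 546) (nat_lit 430) (nat_lit 224))) (XT.nd (nat_lit 78) (nat_lit 0) (nat_lit 0) (XT.lf (nat_lit 0) (nat_lit 5672039057) (nat_lit 76)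 (nat_lit 41965293935) (nat_lit 152) (nat_lit 38883894015) (nat_lit 45) (nat_lit 5) (nat_lit 46) (nat_lit 5) (nat_lit 47) (nat_lit 4) (nat_lit 547) (nat_lit 430) (nat_lit 223)) (XT.lf (nat_lit 0) (nat_lit 49772225166) (nat_lit 76) (nat_lit 19592219028) (nat_lit 152) (nat_lit 19062949266) (nat_lit 45) (nat_lit 5) (nat_lit 46) (nat_lit 5) (nat_lit 47) (nat_lit 4) (nat_lit 548) (nat_lit 430) (nat_lit 222))))) (XT.nd (nat_lit 312) (nat_lit 0) (nat_lit 76) (XT.nd (nat_lit 156) (nat_lit 0) (nat_lit 0) (XT.nd (nat_lit 78) (nat_lit 0) (nat_lit 0) (XT.lf (nat_lit 0) (nat_lit 77412777) (nat_lit 0) (nat_lit 77412777) (nat_lit 1140) (nat_lit 5139807176) (nat_lit 291) (nat_lit 5) (nat_lit 291) (nat_lit 3) (nat_lit 306) (nat_lit 3) (nat_lit 431) (nat_lit 431) (nat_lit 338)) (XT.lf (nat_lit 0) (nat_lit 979202641) (nat_lit 1140) (nat_lit 5281080252) (nat_lit 1216) (nat_lit 4467724002) (nat_lit 291) (nat_lit 5) (nat_lit 306) (nat_lit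 3) (nat_lit 307) (nat_lit 5) (nat_lit 432) (nat_lit 431) (nat_lit 337))) (XT.nd (nat_lit 78) (nat_lit 0) (nat_lit 76) (XT.lf (nat_lit 76) (nat_lit 12624026) (nat_lit 0) (nat_lit 1633747460) (nat_lit 1216) (nat_lit 9225219031) (nat_lit 292) (nat_lit 5) (nat_lit 291) (nat_lit 5) (nat_lit 307) (nat_lit 5) (nat_lit 433) (nat_lit 431) (nat_lit 336)) (XT.lf (nat_lit 0) (nat_lit 2394073203) (nat_lit 1140) (nat_lit 5488773423) (nat_lit 1216) (nat_lit 3134825184) (nat_lit 292) (nat_lit 5) (nat_lit 307) (nat_lit 5) (nat_lit 308) (nat_lit 5) (nat_lit 434) (nat_lit 431) (nat_lit 335)))) (XT.nd (nat_lit 156) (nat_lit 0) (nat_lit 76) (XT.nd (nat_lit 78) (nat_lit 0) (nat_lit 76) (XT.lf (nat_lit 76) (nat_lit 13350700) (nat_lit 0) (nat_lit 3144400627) (nat_lit 1216) (nat_lit 8010583385) (nat_lit 293) (nat_lit 5) (nat_lit 292) (nat_lit 5) (nat_lit 308) (nat_lit 5) (nat_lit 435) (nat_lit 431) (nat_lit 334)) (XT.lf (nat_lit 0) (nat_lit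 3994869191) (nat_lit 1140) (nat_lit 5559928857) (nat_lit 1216) (nat_lit 1767208940) (nat_lit 293) (nat_lit 5) (nat_lit 308) (nat_lit 5) (nat_lit 309) (nat_lit 5) (nat_lit 436) (nat_lit 431) (nat_lit 333))) (XT.nd (nat_lit 78) (nat_lit 0) (nat_lit 76) (XT.lf (nat_lit 76) (nat_lit 161512519) (nat_lit 0) (nat_lit 4706783377) (nat_lit 1216) (nat_lit 6611662891) (nat_lit 294) (nat_lit 5) (nat_lit 293) (nat_lit 5) (nat_lit 309) (nat_lit 5) (nat_lit 437) (nat_lit 431) (nat_lit 332)) (XT.lf (nat_lit 0) (nat_lit 5806462413) (nat_lit 1140) (nat_lit 5489766647) (nat_lit 1216) (nat_lit 345269030) (nat_lit 294) (nat_lit 5) (nat_lit 309) (nat_lit 5) (nat_lit 310) (nat_lit 5) (nat_lit 438) (nat_lit 431) (nat_lit 331)))))) (XT.nd (nat_lit 546) (nat_lit 2432) (nat_lit 0) (XT.nd (nat_lit 234) (nat_lit 1064) (nat_lit 0) (XT.nd (nat_lit 78) (nat_lit 0) (nat_lit 0) (XT.lf (nat_lit 76) (nat_lit 462546506) (nat_lit 0) (nat_lit 6340965884)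 (nat_lit 1216) (nat_lit 5003453943) (nat_lit 295) (nat_lit 5) (nat_lit 294) (nat_lit 5) (nat_lit 310) (nat_lit 5) (nat_lit 439) (nat_lit 431) (nat_lit 330)) (XT.nd (nat_lit 78) (nat_lit 0) (nat_lit 76) (XT.lf (nat_lit 76) (nat_lit 6692446734) (nat_lit 0) (nat_lit 1173614989) (nat_lit 1216) (nat_lit 4110274035) (nat_lit 295) (nat_lit 5) (nat_lit 294) (nat_lit 5) (nat_lit 310) (nat_lit 5) (nat_lit 440) (nat_lit 431) (nat_lit 329)) (XT.lf (nat_lit 76) (nat_lit 922819586) (nat_lit 0) (nat_lit 8067208201) (nat_lit 1216) (nat_lit 3159876904) (nat_lit 296) (nat_lit 5) (nat_lit 295) (nat_lit 5) (nat_lit 311) (nat_lit 5) (nat_lit 441) (nat_lit 431) (nat_lit 328)))) (XT.nd (nat_lit 156) (nat_lit 1140) (nat_lit 0) (XT.nd (nat_lit 78) (nat_lit 0) (nat_lit 76) (XT.lf (nat_lit 76) (nat_lit 7398562480) (nat_lit 0) (nat_lit 2795230976) (nat_lit 1216) (nat_lit 2133509314) (nat_lit 296) (nat_lit 5) (nat_lit 295) (nat_lit 5) (nat_lit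 311) (nat_lit 5) (nat_lit 442) (nat_lit 431) (nat_lit 327)) (XT.lf (nat_lit 76) (nat_lit 1549632641) (nat_lit 0) (nat_lit 9906076610) (nat_lit 1216) (nat_lit 1053656791) (nat_lit 297) (nat_lit 5) (nat_lit 296) (nat_lit 5) (nat_lit 312) (nat_lit 5) (nat_lit 443) (nat_lit 431) (nat_lit 326))) (XT.nd (nat_lit 78) (nat_lit 0) (nat_lit 76) (XT.lf (nat_lit 0) (nat_lit 117417511) (nat_lit 1216) (nat_lit 4414797482) (nat_lit 1292) (nat_lit 8162864353) (nat_lit 280) (nat_lit 5) (nat_lit 296) (nat_lit 5) (nat_lit 297) (nat_lit 5) (nat_lit 444) (nat_lit 431) (nat_lit 325)) (XT.lf (nat_lit 0) (nat_lit 1317576551) (nat_lit 1216) (nat_lit 10547677503) (nat_lit 1292) (nat_lit 1020347123) (nat_lit 281) (nat_lit 5) (nat_lit 297) (nat_lit 5) (nat_lit 298) (nat_lit 5) (nat_lit 445) (nat_lit 431) (nat_lit 324))))) (XT.nd (nat_lit 312) (nat_lit 1368) (nat_lit 0) (XT.nd (nat_lit 156) (nat_lit 1140) (nat_lit 0) (XT.nd (nat_lit 78) (nat_lit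 0) (nat_lit 0) (XT.lf (nat_lit 0) (nat_lit 2626602301) (nat_lit 1216) (nat_lit 3756156264) (nat_lit 1292) (nat_lit 6696898120) (nat_lit 281) (nat_lit 5) (nat_lit 297) (nat_lit 5) (nat_lit 298) (nat_lit 5) (nat_lit 446) (nat_lit 431) (nat_lit 323)) (XT.lf (nat_lit 76) (nat_lit 3289647461) (nat_lit 0) (nat_lit 700335921) (nat_lit 1292) (nat_lit 9289101705) (nat_lit 282) (nat_lit 5) (nat_lit 281) (nat_lit 5) (nat_lit 298) (nat_lit 5) (nat_lit 447) (nat_lit 431) (nat_lit 322))) (XT.nd (nat_lit 78) (nat_lit 1216) (nat_lit 0) (XT.lf (nat_lit 0) (nat_lit 5465940561) (nat_lit 1216) (nat_lit 2923477698) (nat_lit 76) (nat_lit 5092931500) (nat_lit 282) (nat_lit 5) (nat_lit 298) (nat_lit 5) (nat_lit 283) (nat_lit 5) (nat_lit 448) (nat_lit 431) (nat_lit 321)) (XT.lf (nat_lit 0) (nat_lit 4420151964) (nat_lit 1216) (nat_lit 2599758155) (nat_lit 1292) (nat_lit 6670793791) (nat_lit 266) (nat_lit 5) (nat_lit 282) (nat_lit 5) (nat_lit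 283) (nat_lit 5) (nat_lit 449) (nat_lit 431) (nat_lit 320)))) (XT.nd (nat_lit 156) (nat_lit 608) (nat_lit 0) (XT.nd (nat_lit 78) (nat_lit 760) (nat_lit 0) (XT.lf (nat_lit 0) (nat_lit 8667301004) (nat_lit 1292) (nat_lit 1907006086) (nat_lit 76) (nat_lit 3329600975) (nat_lit 266) (nat_lit 5) (nat_lit 283) (nat_lit 5) (nat_lit 267) (nat_lit 5) (nat_lit 450) (nat_lit 431) (nat_lit 319)) (XT.lf (nat_lit 0) (nat_lit 5750346237) (nat_lit 760) (nat_lit 4679885981) (nat_lit 836) (nat_lit 3691295914) (nat_lit 256) (nat_lit 5) (nat_lit 266) (nat_lit 5) (nat_lit 267) (nat_lit 5) (nat_lit 451) (nat_lit 431) (nat_lit 318))) (XT.nd (nat_lit 78) (nat_lit 608) (nat_lit 0) (XT.lf (nat_lit 0) (nat_lit 12264292167) (nat_lit 836) (nat_lit 696042354) (nat_lit 76) (nat_lit 1384798305) (nat_lit 256) (nat_lit 5) (nat_lit 267) (nat_lit 5) (nat_lit 257) (nat_lit 5) (nat_lit 452) (nat_lit 431) (nat_lit 317)) (XT.lf (nat_lit 0) (nat_lit 7291821288)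 (nat_lit 608) (nat_lit 6963824718) (nat_lit 684) (nat_lit 316734647) (nat_lit 248) (nat_lit 5) (nat_lit 256) (nat_lit 5) (nat_lit 257) (nat_lit 5) (nat_lit 453) (nat_lit 431) (nat_lit 316))))))) (XT.nd (nat_lit 1170) (nat_lit 3800) (nat_lit 0) (XT.nd (nat_lit 546) (nat_lit 2052) (nat_lit 0) (XT.nd (nat_lit 234) (nat_lit 1064) (nat_lit 0) (XT.nd (nat_lit 78) (nat_lit 532) (nat_lit 0) (XT.lf (nat_lit 0) (nat_lit 713144710) (nat_lit 608) (nat_lit 757813891) (nat_lit 684) (nat_lit 13335059428) (nat_lit 239) (nat_lit 5) (nat_lit 247) (nat_lit 5) (nat_lit 248) (nat_lit 5) (nat_lit 454) (nat_lit 431) (nat_lit 315)) (XT.nd (nat_lit 78) (nat_lit 532) (nat_lit 0) (XT.lf (nat_lit 0) (nat_lit 3420592369) (nat_lit 684) (nat_lit 6020497153) (nat_lit 76) (nat_lit 5602043538) (nat_lit 239) (nat_lit 5) (nat_lit 248) (nat_lit 5) (nat_lit 240) (nat_lit 5) (nat_lit 455) (nat_lit 431) (nat_lit 314)) (XT.lf (nat_lit 0) (nat_lit 2318272945)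 (nat_lit 532) (nat_lit 3126897352) (nat_lit 608) (nat_lit 9841700392) (nat_lit 232) (nat_lit 5) (nat_lit 239) (nat_lit 5) (nat_lit 240) (nat_lit 5) (nat_lit 456) (nat_lit 431) (nat_lit 313)))) (XT.nd (nat_lit 156) (nat_lit 532) (nat_lit 0) (XT.nd (nat_lit 78) (nat_lit 532) (nat_lit 0) (XT.lf (nat_lit 0) (nat_lit 7611265967) (nat_lit 608) (nat_lit 4552308780) (nat_lit 76) (nat_lit 3371925010) (nat_lit 232) (nat_lit 5) (nat_lit 240) (nat_lit 5) (nat_lit 233) (nat_lit 5) (nat_lit 457) (nat_lit 431) (nat_lit 312)) (XT.lf (nat_lit 0) (nat_lit 4153182550) (nat_lit 532) (nat_lit 5747349266) (nat_lit 608) (nat_lit 5889312902) (nat_lit 225) (nat_lit 5) (nat_lit 232) (nat_lit 5) (nat_lit 233) (nat_lit 5) (nat_lit 458) (nat_lit 431) (nat_lit 311))) (XT.nd (nat_lit 78) (nat_lit 532) (nat_lit 0) (XT.lf (nat_lit 0) (nat_lit 12300720053) (nat_lit 608) (nat_lit 2859627516) (nat_lit 76) (nat_lit 890207692) (nat_lit 225) (nat_lit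 5) (nat_lit 233) (nat_lit 5) (nat_lit 226) (nat_lit 5) (nat_lit 459) (nat_lit 431) (nat_lit 310)) (XT.lf (nat_lit 0) (nat_lit 6232215073) (nat_lit 532) (nat_lit 8645414017) (nat_lit 608) (nat_lit 1438319064) (nat_lit 218) (nat_lit 5) (nat_lit 225) (nat_lit 5) (nat_lit 226) (nat_lit 5) (nat_lit 460) (nat_lit 431) (nat_lit 309))))) (XT.nd (nat_lit 312) (nat_lit 988) (nat_lit 0) (XT.nd (nat_lit 156) (nat_lit 456) (nat_lit 0) (XT.nd (nat_lit 78) (nat_lit 532) (nat_lit 0) (XT.lf (nat_lit 0) (nat_lit 941322234) (nat_lit 608) (nat_lit 955673312) (nat_lit 76) (nat_lit 14691522665) (nat_lit 217) (nat_lit 5) (nat_lit 225) (nat_lit 5) (nat_lit 218) (nat_lit 5) (nat_lit 461) (nat_lit 431) (nat_lit 308)) (XT.lf (nat_lit 0) (nat_lit 3483869212) (nat_lit 608) (nat_lit 8329632102) (nat_lit 76) (nat_lit 5051726354) (nat_lit 210) (nat_lit 5) (nat_lit 218) (nat_lit 5) (nat_lit 211) (nat_lit 5) (nat_lit 462) (nat_lit 431) (nat_lit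 307))) (XT.nd (nat_lit 78) (nat_lit 0) (nat_lit 0) (XT.lf (nat_lit 0) (nat_lit 1172098272) (nat_lit 456) (nat_lit 4958950783) (nat_lit 532) (nat_lit 11018340872) (nat_lit 204) (nat_lit 5) (nat_lit 210) (nat_lit 5) (nat_lit 211) (nat_lit 5) (nat_lit 463) (nat_lit 431) (nat_lit 306)) (XT.lf (nat_lit 0) (nat_lit 8951540813) (nat_lit 532) (nat_lit 6344287996) (nat_lit 76) (nat_lit 2143433496) (nat_lit 204) (nat_lit 5) (nat_lit 211) (nat_lit 5) (nat_lit 205) (nat_lit 5) (nat_lit 464) (nat_lit 431) (nat_lit 305)))) (XT.nd (nat_lit 156) (nat_lit 532) (nat_lit 0) (XT.nd (nat_lit 78) (nat_lit 0) (nat_lit 0) (XT.lf (nat_lit 0) (nat_lit 3585631160) (nat_lit 456) (nat_lit 8343661964) (nat_lit 532) (nat_lit 5806360443) (nat_lit 198) (nat_lit 5) (nat_lit 204) (nat_lit 5) (nat_lit 205) (nat_lit 5) (nat_lit 465) (nat_lit 431) (nat_lit 304)) (XT.lf (nat_lit 0) (nat_lit 13930681814) (nat_lit 456) (nat_lit 1119035903) (nat_lit 532)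 (nat_lit 2989620682) (nat_lit 198) (nat_lit 5) (nat_lit 204) (nat_lit 5) (nat_lit 205) (nat_lit 5) (nat_lit 466) (nat_lit 431) (nat_lit 303))) (XT.nd (nat_lit 78) (nat_lit 0) (nat_lit 0) (XT.lf (nat_lit 0) (nat_lit 25178579) (nat_lit 532) (nat_lit 12066018803) (nat_lit 76) (nat_lit 6257608808) (nat_lit 191) (nat_lit 5) (nat_lit 198) (nat_lit 5) (nat_lit 192) (nat_lit 5) (nat_lit 467) (nat_lit 431) (nat_lit 302)) (XT.lf (nat_lit 0) (nat_lit 3112960069) (nat_lit 532) (nat_lit 1650028026) (nat_lit 76) (nat_lit 13902404965) (nat_lit 191) (nat_lit 5) (nat_lit 198) (nat_lit 5) (nat_lit 192) (nat_lit 5) (nat_lit 468) (nat_lit 431) (nat_lit 301)))))) (XT.nd (nat_lit 624) (nat_lit 1748) (nat_lit 0) (XT.nd (nat_lit 312) (nat_lit 836) (nat_lit 0) (XT.nd (nat_lit 156) (nat_lit 380) (nat_lit 0) (XT.nd (nat_lit 78) (nat_lit 380) (nat_lit 0) (XT.lf (nat_lit 0) (nat_lit 6399834532) (nat_lit 532) (nat_lit 9770318428) (nat_lit 76)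 (nat_lit 2818132590) (nat_lit 185) (nat_lit 5) (nat_lit 192) (nat_lit 5) (nat_lit 186) (nat_lit 5) (nat_lit 469) (nat_lit 431) (nat_lit 300)) (XT.lf (nat_lit 0) (nat_lit 1086742869) (nat_lit 380) (nat_lit 8763103323) (nat_lit 456) (nat_lit 9469084440) (nat_lit 180) (nat_lit 5) (nat_lit 185) (nat_lit 5) (nat_lit 186) (nat_lit 5) (nat_lit 470) (nat_lit 431) (nat_lit 299))) (XT.nd (nat_lit 78) (nat_lit 380) (nat_lit 0) (XT.lf (nat_lit 0) (nat_lit 12457320238) (nat_lit 380) (nat_lit 1034966663) (nat_lit 456) (nat_lit 6164542000) (nat_lit 180) (nat_lit 5) (nat_lit 185) (nat_lit 5) (nat_lit 186) (nat_lit 5) (nat_lit 471) (nat_lit 431) (nat_lit 298)) (XT.lf (nat_lit 0) (nat_lit 4166513237) (nat_lit 380) (nat_lit 13174631624) (nat_lit 456) (nat_lit 2660806581) (nat_lit 175) (nat_lit 5) (nat_lit 180) (nat_lit 5) (nat_lit 181) (nat_lit 5) (nat_lit 472) (nat_lit 431) (nat_lit 297)))) (XT.nd (nat_lit 156) (nat_lit 380) (nat_lit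 0) (XT.nd (nat_lit 78) (nat_lit 380) (nat_lit 0) (XT.lf (nat_lit 0) (nat_lit 1003798988) (nat_lit 456) (nat_lit 4366669424) (nat_lit 76) (nat_lit 14984459673) (nat_lit 174) (nat_lit 5) (nat_lit 180) (nat_lit 5) (nat_lit 175) (nat_lit 5) (nat_lit 473) (nat_lit 431) (nat_lit 296)) (XT.lf (nat_lit 0) (nat_lit 4814948299) (nat_lit 456) (nat_lit 13187229454) (nat_lit 76) (nat_lit 2712824887) (nat_lit 169) (nat_lit 5) (nat_lit 175) (nat_lit 5) (nat_lit 170) (nat_lit 5) (nat_lit 474) (nat_lit 431) (nat_lit 295))) (XT.nd (nat_lit 78) (nat_lit 380) (nat_lit 0) (XT.lf (nat_lit 0) (nat_lit 8829122886) (nat_lit 456) (nat_lit 1281807526) (nat_lit 76) (nat_lit 10972289757) (nat_lit 169) (nat_lit 5) (nat_lit 175) (nat_lit 5) (nat_lit 170) (nat_lit 5) (nat_lit 475) (nat_lit 431) (nat_lit 294)) (XT.lf (nat_lit 0) (nat_lit 11187232771) (nat_lit 380) (nat_lit 1875277456) (nat_lit 456) (nat_lit 8397011792) (nat_lit 164) (nat_lit 5)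 (nat_lit 169) (nat_lit 5) (nat_lit 170) (nat_lit 5) (nat_lit 476) (nat_lit 431) (nat_lit 293))))) (XT.nd (nat_lit 312) (nat_lit 988) (nat_lit 0) (XT.nd (nat_lit 156) (nat_lit 456) (nat_lit 0) (XT.nd (nat_lit 78) (nat_lit 0) (nat_lit 0) (XT.lf (nat_lit 0) (nat_lit 2176768115) (nat_lit 304) (nat_lit 15335003296) (nat_lit 380) (nat_lit 4332676727) (nat_lit 160) (nat_lit 5) (nat_lit 164) (nat_lit 5) (nat_lit 165) (nat_lit 5) (nat_lit 477) (nat_lit 431) (nat_lit 292)) (XT.lf (nat_lit 0) (nat_lit 15179088726) (nat_lit 304) (nat_lit 7029035618) (nat_lit 380) (nat_lit 29390616) (nat_lit 160) (nat_lit 5) (nat_lit 164) (nat_lit 5) (nat_lit 165) (nat_lit 5) (nat_lit 478) (nat_lit 431) (nat_lit 291))) (XT.nd (nat_lit 78) (nat_lit 0) (nat_lit 0) (XT.lf (nat_lit 0) (nat_lit 4381965696) (nat_lit 456) (nat_lit 16663213410) (nat_lit 76) (nat_lit 1593979518) (nat_lit 154) (nat_lit 5) (nat_lit 160) (nat_lit 5) (nat_lit 155) (nat_lit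 5) (nat_lit 479) (nat_lit 431) (nat_lit 290)) (XT.lf (nat_lit 0) (nat_lit 9058411433) (nat_lit 456) (nat_lit 3587032543) (nat_lit 76) (nat_lit 10403399933) (nat_lit 154) (nat_lit 5) (nat_lit 160) (nat_lit 5) (nat_lit 155) (nat_lit 5) (nat_lit 480) (nat_lit 431) (nat_lit 289)))) (XT.nd (nat_lit 156) (nat_lit 380) (nat_lit 0) (XT.nd (nat_lit 78) (nat_lit 304) (nat_lit 0) (XT.lf (nat_lit 0) (nat_lit 10066442271) (nat_lit 304) (nat_lit 3897476056) (nat_lit 380) (nat_lit 9504239579) (nat_lit 150) (nat_lit 5) (nat_lit 154) (nat_lit 5) (nat_lit 155) (nat_lit 5) (nat_lit 481) (nat_lit 431) (nat_lit 288)) (XT.lf (nat_lit 0) (nat_lit 247901203) (nat_lit 304) (nat_lit 18848895564) (nat_lit 380) (nat_lit 4800849524) (nat_lit 146) (nat_lit 5) (nat_lit 150) (nat_lit 5) (nat_lit 151) (nat_lit 5) (nat_lit 482) (nat_lit 431) (nat_lit 287))) (XT.nd (nat_lit 78) (nat_lit 304) (nat_lit 0) (XT.lf (nat_lit 0) (nat_lit 210187030) (nat_lit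 380) (nat_lit 9806140098) (nat_lit 76) (nat_lit 14318658806) (nat_lit 145) (nat_lit 5) (nat_lit 150) (nat_lit 5) (nat_lit 146) (nat_lit 5) (nat_lit 483) (nat_lit 431) (nat_lit 286)) (XT.lf (nat_lit 0) (nat_lit 4481465146) (nat_lit 304) (nat_lit 829041411) (nat_lit 380) (nat_lit 19472450948) (nat_lit 141) (nat_lit 5) (nat_lit 145) (nat_lit 5) (nat_lit 146) (nat_lit 5) (nat_lit 484) (nat_lit 431) (nat_lit 285))))))))
noncomputable def xc167 : XT := (XT.nd (nat_lit 2340) (nat_lit 2736) (nat_lit 0) (XT.nd (nat_lit 1170) (nat_lit 1976) (nat_lit 0) (XT.nd (nat_lit 546) (nat_lit 1140) (nat_lit 0) (XT.nd (nat_lit 234) (nat_lit 836) (nat_lit 0) (XT.nd (nat_lit 78) (nat_lit 304) (nat_lit 0) (XT.lf (nat_lit 0) (nat_lit 10739279431) (nat_lit 380) (nat_lit 5937963373) (nat_lit 76) (nat_lit 8561863132) (nat_lit 141) (nat_lit 5) (nat_lit 146) (nat_lit 5) (nat_lit 142) (nat_lit 5) (nat_lit 485) (nat_lit 431) (nat_lit 284)) (XT.nd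 (nat_lit 78) (nat_lit 0) (nat_lit 0) (XT.lf (nat_lit 0) (nat_lit 9013165537) (nat_lit 304) (nat_lit 7405264923) (nat_lit 380) (nat_lit 9287883906) (nat_lit 137) (nat_lit 5) (nat_lit 141) (nat_lit 5) (nat_lit 142) (nat_lit 5) (nat_lit 486) (nat_lit 431) (nat_lit 283)) (XT.lf (nat_lit 0) (nat_lit 22341869967) (nat_lit 380) (nat_lit 1683452937) (nat_lit 76) (nat_lit 2159999692) (nat_lit 137) (nat_lit 5) (nat_lit 142) (nat_lit 5) (nat_lit 138) (nat_lit 5) (nat_lit 487) (nat_lit 431) (nat_lit 282)))) (XT.nd (nat_lit 156) (nat_lit 228) (nat_lit 0) (XT.nd (nat_lit 78) (nat_lit 304) (nat_lit 0) (XT.lf (nat_lit 0) (nat_lit 1932379439) (nat_lit 304) (nat_lit 12726639978) (nat_lit 76) (nat_lit 12013098902) (nat_lit 133) (nat_lit 5) (nat_lit 137) (nat_lit 5) (nat_lit 134) (nat_lit 5) (nat_lit 488) (nat_lit 431) (nat_lit 281)) (XT.lf (nat_lit 0) (nat_lit 2912626945) (nat_lit 304) (nat_lit 4929761356) (nat_lit 380) (nat_lit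 19328844336) (nat_lit 129) (nat_lit 5) (nat_lit 133) (nat_lit 5) (nat_lit 134) (nat_lit 5) (nat_lit 489) (nat_lit 431) (nat_lit 280))) (XT.nd (nat_lit 78) (nat_lit 228) (nat_lit 0) (XT.lf (nat_lit 0) (nat_lit 14101476758) (nat_lit 380) (nat_lit 8460555301) (nat_lit 76) (nat_lit 5118135803) (nat_lit 129) (nat_lit 5) (nat_lit 134) (nat_lit 5) (nat_lit 130) (nat_lit 5) (nat_lit 490) (nat_lit 431) (nat_lit 279)) (XT.lf (nat_lit 0) (nat_lit 7906392739) (nat_lit 228) (nat_lit 12760009514) (nat_lit 304) (nat_lit 7534427793) (nat_lit 126) (nat_lit 5) (nat_lit 129) (nat_lit 5) (nat_lit 130) (nat_lit 5) (nat_lit 491) (nat_lit 431) (nat_lit 278))))) (XT.nd (nat_lit 312) (nat_lit 532) (nat_lit 0) (XT.nd (nat_lit 156) (nat_lit 228) (nat_lit 0) (XT.nd (nat_lit 78) (nat_lit 380) (nat_lit 0) (XT.lf (nat_lit 0) (nat_lit 24927368873) (nat_lit 228) (nat_lit 2579691836) (nat_lit 304) (nat_lit 1227688642) (nat_lit 126) (nat_lit 5)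 (nat_lit 129) (nat_lit 5) (nat_lit 130) (nat_lit 5) (nat_lit 492) (nat_lit 431) (nat_lit 277)) (XT.lf (nat_lit 0) (nat_lit 5365228257) (nat_lit 380) (nat_lit 15982854484) (nat_lit 76) (nat_lit 7929091662) (nat_lit 121) (nat_lit 5) (nat_lit 126) (nat_lit 5) (nat_lit 122) (nat_lit 5) (nat_lit 493) (nat_lit 431) (nat_lit 276))) (XT.nd (nat_lit 78) (nat_lit 0) (nat_lit 0) (XT.lf (nat_lit 0) (nat_lit 1125996664) (nat_lit 228) (nat_lit 11073989625) (nat_lit 304) (nat_lit 17633460130) (nat_lit 118) (nat_lit 5) (nat_lit 121) (nat_lit 5) (nat_lit 122) (nat_lit 5) (nat_lit 494) (nat_lit 431) (nat_lit 275)) (XT.lf (nat_lit 0) (nat_lit 19065548970) (nat_lit 228) (nat_lit 329259774) (nat_lit 304) (nat_lit 11006947921) (nat_lit 118) (nat_lit 5) (nat_lit 121) (nat_lit 5) (nat_lit 122) (nat_lit 5) (nat_lit 495) (nat_lit 431) (nat_lit 274)))) (XT.nd (nat_lit 156) (nat_lit 228) (nat_lit 0) (XT.nd (nat_lit 78) (nat_lit 76) (nat_lit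 0) (XT.lf (nat_lit 0) (nat_lit 6571128718) (nat_lit 228) (nat_lit 20394507432) (nat_lit 304) (nat_lit 4016675957) (nat_lit 115) (nat_lit 5) (nat_lit 118) (nat_lit 5) (nat_lit 119) (nat_lit 5) (nat_lit 496) (nat_lit 431) (nat_lit 273)) (XT.lf (nat_lit 0) (nat_lit 3233853624) (nat_lit 304) (nat_lit 6373853293) (nat_lit 76) (nat_lit 21968279944) (nat_lit 114) (nat_lit 5) (nat_lit 118) (nat_lit 5) (nat_lit 115) (nat_lit 5) (nat_lit 497) (nat_lit 431) (nat_lit 272))) (XT.nd (nat_lit 78) (nat_lit 0) (nat_lit 0) (XT.lf (nat_lit 0) (nat_lit 10750298178) (nat_lit 304) (nat_lit 19801913316) (nat_lit 76) (nat_lit 1630194021) (nat_lit 111) (nat_lit 5) (nat_lit 115) (nat_lit 5) (nat_lit 112) (nat_lit 5) (nat_lit 498) (nat_lit 431) (nat_lit 271)) (XT.lf (nat_lit 0) (nat_lit 18646389605) (nat_lit 304) (nat_lit 1082552766) (nat_lit 76) (nat_lit 13073450371) (nat_lit 111) (nat_lit 5) (nat_lit 115) (nat_lit 5) (nat_lit 112) (nat_lit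 5) (nat_lit 499) (nat_lit 431) (nat_lit 270)))))) (XT.nd (nat_lit 546) (nat_lit 836) (nat_lit 0) (XT.nd (nat_lit 234) (nat_lit 684) (nat_lit 0) (XT.nd (nat_lit 78) (nat_lit 228) (nat_lit 0) (XT.lf (nat_lit 0) (nat_lit 18550838917) (nat_lit 228) (nat_lit 8401047882) (nat_lit 304) (nat_lit 6483917700) (nat_lit 108) (nat_lit 5) (nat_lit 111) (nat_lit 5) (nat_lit 112) (nat_lit 5) (nat_lit 500) (nat_lit 431) (nat_lit 269)) (XT.nd (nat_lit 78) (nat_lit 0) (nat_lit 0) (XT.lf (nat_lit 0) (nat_lit 1473903042) (nat_lit 228) (nat_lit 29340887764) (nat_lit 76) (nat_lit 3270521871) (nat_lit 105) (nat_lit 5) (nat_lit 108) (nat_lit 5) (nat_lit 106) (nat_lit 5) (nat_lit 501) (nat_lit 431) (nat_lit 268)) (XT.lf (nat_lit 0) (nat_lit 9769376812) (nat_lit 228) (nat_lit 9640443530) (nat_lit 76) (nat_lit 15335683231) (nat_lit 105) (nat_lit 5) (nat_lit 108) (nat_lit 5) (nat_lit 106) (nat_lit 5) (nat_lit 502) (nat_lit 431) (nat_lit 267))))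 (XT.nd (nat_lit 156) (nat_lit 456) (nat_lit 0) (XT.nd (nat_lit 78) (nat_lit 0) (nat_lit 0) (XT.lf (nat_lit 0) (nat_lit 10853477356) (nat_lit 228) (nat_lit 7558997667) (nat_lit 304) (nat_lit 17010062902) (nat_lit 102) (nat_lit 5) (nat_lit 105) (nat_lit 5) (nat_lit 106) (nat_lit 5) (nat_lit 503) (nat_lit 431) (nat_lit 266)) (XT.lf (nat_lit 0) (nat_lit 27452320261) (nat_lit 304) (nat_lit 4012129476) (nat_lit 76) (nat_lit 4651310467) (nat_lit 102) (nat_lit 5) (nat_lit 106) (nat_lit 5) (nat_lit 103) (nat_lit 5) (nat_lit 504) (nat_lit 431) (nat_lit 265))) (XT.nd (nat_lit 78) (nat_lit 228) (nat_lit 0) (XT.lf (nat_lit 0) (nat_lit 174120179) (nat_lit 228) (nat_lit 19406926939) (nat_lit 76) (nat_lit 17241574405) (nat_lit 99) (nat_lit 5) (nat_lit 102) (nat_lit 5) (nat_lit 100) (nat_lit 5) (nat_lit 505) (nat_lit 431) (nat_lit 264)) (XT.lf (nat_lit 0) (nat_lit 1962124933) (nat_lit 228) (nat_lit 7194978080) (nat_lit 304) (nat_lit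 28389380170) (nat_lit 96) (nat_lit 5) (nat_lit 99) (nat_lit 5) (nat_lit 100) (nat_lit 5) (nat_lit 506) (nat_lit 431) (nat_lit 263))))) (XT.nd (nat_lit 312) (nat_lit 380) (nat_lit 0) (XT.nd (nat_lit 156) (nat_lit 304) (nat_lit 0) (XT.nd (nat_lit 78) (nat_lit 152) (nat_lit 0) (XT.lf (nat_lit 0) (nat_lit 18655638257) (nat_lit 304) (nat_lit 13980666393) (nat_lit 76) (nat_lit 5648374618) (nat_lit 96) (nat_lit 5) (nat_lit 100) (nat_lit 5) (nat_lit 97) (nat_lit 5) (nat_lit 507) (nat_lit 431) (nat_lit 262)) (XT.lf (nat_lit 0) (nat_lit 8354038465) (nat_lit 152) (nat_lit 20231466493) (nat_lit 228) (nat_lit 10455125464) (nat_lit 94) (nat_lit 5) (nat_lit 96) (nat_lit 5) (nat_lit 97) (nat_lit 5) (nat_lit 508) (nat_lit 431) (nat_lit 261))) (XT.nd (nat_lit 78) (nat_lit 304) (nat_lit 0) (XT.lf (nat_lit 0) (nat_lit 31636583732) (nat_lit 152) (nat_lit 7312761080) (nat_lit 228) (nat_lit 865833418) (nat_lit 94) (nat_lit 5) (nat_lit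 96) (nat_lit 5) (nat_lit 97) (nat_lit 5) (nat_lit 509) (nat_lit 431) (nat_lit 260)) (XT.lf (nat_lit 0) (nat_lit 9036350226) (nat_lit 304) (nat_lit 25459898589) (nat_lit 76) (nat_lit 6108083875) (nat_lit 90) (nat_lit 5) (nat_lit 94) (nat_lit 5) (nat_lit 91) (nat_lit 5) (nat_lit 510) (nat_lit 431) (nat_lit 259)))) (XT.nd (nat_lit 156) (nat_lit 228) (nat_lit 0) (XT.nd (nat_lit 78) (nat_lit 152) (nat_lit 0) (XT.lf (nat_lit 0) (nat_lit 19369033723) (nat_lit 304) (nat_lit 2170335046) (nat_lit 76) (nat_lit 19873011132) (nat_lit 90) (nat_lit 5) (nat_lit 94) (nat_lit 5) (nat_lit 91) (nat_lit 5) (nat_lit 511) (nat_lit 431) (nat_lit 258)) (XT.lf (nat_lit 0) (nat_lit 22243555895) (nat_lit 152) (nat_lit 7977133013) (nat_lit 228) (nat_lit 12017710271) (nat_lit 88) (nat_lit 5) (nat_lit 90) (nat_lit 5) (nat_lit 91) (nat_lit 5) (nat_lit 512) (nat_lit 431) (nat_lit 257))) (XT.nd (nat_lit 78) (nat_lit 76) (nat_lit 0) (XT.lf (nat_lit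 0) (nat_lit 4364729801) (nat_lit 152) (nat_lit 37150050821) (nat_lit 228) (nat_lit 1570912182) (nat_lit 86) (nat_lit 5) (nat_lit 88) (nat_lit 5) (nat_lit 89) (nat_lit 5) (nat_lit 513) (nat_lit 431) (nat_lit 256)) (XT.lf (nat_lit 0) (nat_lit 9288074067) (nat_lit 228) (nat_lit 14265147917) (nat_lit 76) (nat_lit 20394190607) (nat_lit 85) (nat_lit 5) (nat_lit 88) (nat_lit 5) (nat_lit 86) (nat_lit 5) (nat_lit 514) (nat_lit 431) (nat_lit 255))))))) (XT.nd (nat_lit 1170) (nat_lit 1216) (nat_lit 0) (XT.nd (nat_lit 546) (nat_lit 836) (nat_lit 0) (XT.nd (nat_lit 234) (nat_lit 380) (nat_lit 0) (XT.nd (nat_lit 78) (nat_lit 152) (nat_lit 0) (XT.lf (nat_lit 0) (nat_lit 11117526144) (nat_lit 152) (nat_lit 9425948967) (nat_lit 228) (nat_lit 24287976025) (nat_lit 83) (nat_lit 5) (nat_lit 85) (nat_lit 5) (nat_lit 86) (nat_lit 5) (nat_lit 515) (nat_lit 431) (nat_lit 254)) (XT.nd (nat_lit 78) (nat_lit 152) (nat_lit 0) (XT.lf (nat_lit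 0) (nat_lit 32326654345) (nat_lit 228) (nat_lit 8242508178) (nat_lit 76) (nat_lit 5167145164) (nat_lit 83) (nat_lit 5) (nat_lit 86) (nat_lit 5) (nat_lit 84) (nat_lit 5) (nat_lit 516) (nat_lit 431) (nat_lit 253)) (XT.lf (nat_lit 0) (nat_lit 18247816633) (nat_lit 152) (nat_lit 26479756361) (nat_lit 228) (nat_lit 1932809943) (nat_lit 81) (nat_lit 5) (nat_lit 83) (nat_lit 5) (nat_lit 84) (nat_lit 5) (nat_lit 517) (nat_lit 431) (nat_lit 252)))) (XT.nd (nat_lit 156) (nat_lit 152) (nat_lit 0) (XT.nd (nat_lit 78) (nat_lit 152) (nat_lit 0) (XT.lf (nat_lit 0) (nat_lit 9774958089) (nat_lit 228) (nat_lit 2011745842) (nat_lit 76) (nat_lit 35820237942) (nat_lit 80) (nat_lit 5) (nat_lit 83) (nat_lit 5) (nat_lit 81) (nat_lit 5) (nat_lit 518) (nat_lit 431) (nat_lit 251)) (XT.lf (nat_lit 0) (nat_lit 22072144108) (nat_lit 228) (nat_lit 22954015802) (nat_lit 76) (nat_lit 3546852888) (nat_lit 78) (nat_lit 5) (nat_lit 81) (nat_lit 5)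 (nat_lit 79) (nat_lit 5) (nat_lit 519) (nat_lit 431) (nat_lit 250))) (XT.nd (nat_lit 78) (nat_lit 0) (nat_lit 0) (XT.lf (nat_lit 0) (nat_lit 4515876874) (nat_lit 152) (nat_lit 30398663911) (nat_lit 228) (nat_lit 14648236500) (nat_lit 76) (nat_lit 5) (nat_lit 78) (nat_lit 5) (nat_lit 79) (nat_lit 5) (nat_lit 520) (nat_lit 431) (nat_lit 249)) (XT.lf (nat_lit 0) (nat_lit 33272689997) (nat_lit 152) (nat_lit 15097031759) (nat_lit 228) (nat_lit 2205687859) (nat_lit 76) (nat_lit 5) (nat_lit 78) (nat_lit 5) (nat_lit 79) (nat_lit 5) (nat_lit 521) (nat_lit 431) (nat_lit 248))))) (XT.nd (nat_lit 312) (nat_lit 456) (nat_lit 0) (XT.nd (nat_lit 156) (nat_lit 152) (nat_lit 0) (XT.nd (nat_lit 78) (nat_lit 0) (nat_lit 0) (XT.lf (nat_lit 0) (nat_lit 10516793957) (nat_lit 228) (nat_lit 40234229031) (nat_lit 76) (nat_lit 860927493) (nat_lit 73) (nat_lit 5) (nat_lit 76) (nat_lit 5) (nat_lit 74) (nat_lit 5) (nat_lit 522) (nat_lit 431)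 (nat_lit 247)) (XT.lf (nat_lit 0) (nat_lit 23898370095) (nat_lit 228) (nat_lit 11581713795) (nat_lit 76) (nat_lit 17189196227) (nat_lit 73) (nat_lit 5) (nat_lit 76) (nat_lit 5) (nat_lit 74) (nat_lit 5) (nat_lit 523) (nat_lit 431) (nat_lit 246))) (XT.nd (nat_lit 78) (nat_lit 0) (nat_lit 0) (XT.lf (nat_lit 0) (nat_lit 18279712476) (nat_lit 152) (nat_lit 19573341448) (nat_lit 228) (nat_lit 15900126152) (nat_lit 71) (nat_lit 5) (nat_lit 73) (nat_lit 5) (nat_lit 74) (nat_lit 5) (nat_lit 524) (nat_lit 431) (nat_lit 245)) (XT.lf (nat_lit 0) (nat_lit 49267100092) (nat_lit 152) (nat_lit 3072223397) (nat_lit 228) (nat_lit 2526885429) (nat_lit 71) (nat_lit 5) (nat_lit 73) (nat_lit 5) (nat_lit 74) (nat_lit 5) (nat_lit 525) (nat_lit 431) (nat_lit 244)))) (XT.nd (nat_lit 156) (nat_lit 76) (nat_lit 0) (XT.nd (nat_lit 78) (nat_lit 152) (nat_lit 0) (XT.lf (nat_lit 0) (nat_lit 11407108772) (nat_lit 228) (nat_lit 30584581895) (nat_lit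 76) (nat_lit 14006323540) (nat_lit 68) (nat_lit 5) (nat_lit 71) (nat_lit 5) (nat_lit 69) (nat_lit 5) (nat_lit 526) (nat_lit 431) (nat_lit 243)) (XT.lf (nat_lit 0) (nat_lit 250768506) (nat_lit 152) (nat_lit 25543580855) (nat_lit 228) (nat_lit 31366093520) (nat_lit 66) (nat_lit 5) (nat_lit 68) (nat_lit 5) (nat_lit 69) (nat_lit 5) (nat_lit 527) (nat_lit 431) (nat_lit 242))) (XT.nd (nat_lit 78) (nat_lit 76) (nat_lit 0) (XT.lf (nat_lit 0) (nat_lit 32631026883) (nat_lit 152) (nat_lit 8287156320) (nat_lit 228) (nat_lit 17430412146) (nat_lit 66) (nat_lit 5) (nat_lit 68) (nat_lit 5) (nat_lit 69) (nat_lit 5) (nat_lit 528) (nat_lit 431) (nat_lit 241)) (XT.lf (nat_lit 0) (nat_lit 6437747642) (nat_lit 76) (nat_lit 50207276634) (nat_lit 152) (nat_lit 2922889556) (nat_lit 65) (nat_lit 5) (nat_lit 66) (nat_lit 5) (nat_lit 67) (nat_lit 4) (nat_lit 529) (nat_lit 431) (nat_lit 240)))))) (XT.nd (nat_lit 624) (nat_lit 608) (nat_lit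 0) (XT.nd (nat_lit 312) (nat_lit 304) (nat_lit 0) (XT.nd (nat_lit 156) (nat_lit 76) (nat_lit 0) (XT.nd (nat_lit 78) (nat_lit 152) (nat_lit 0) (XT.lf (nat_lit 0) (nat_lit 12125848033) (nat_lit 152) (nat_lit 20938266438) (nat_lit 76) (nat_lit 27746015124) (nat_lit 64) (nat_lit 5) (nat_lit 66) (nat_lit 5) (nat_lit 65) (nat_lit 5) (nat_lit 530) (nat_lit 431) (nat_lit 239)) (XT.lf (nat_lit 0) (nat_lit 12426144090) (nat_lit 152) (nat_lit 15256934984) (nat_lit 228) (nat_lit 34402191409) (nat_lit 62) (nat_lit 5) (nat_lit 64) (nat_lit 5) (nat_lit 65) (nat_lit 5) (nat_lit 531) (nat_lit 431) (nat_lit 238))) (XT.nd (nat_lit 78) (nat_lit 76) (nat_lit 0) (XT.lf (nat_lit 0) (nat_lit 43946548988) (nat_lit 228) (nat_lit 16210163086) (nat_lit 76) (nat_lit 3234768050) (nat_lit 62) (nat_lit 5) (nat_lit 65) (nat_lit 5) (nat_lit 63) (nat_lit 4) (nat_lit 532) (nat_lit 431) (nat_lit 237)) (XT.lf (nat_lit 0) (nat_lit 18444529280) (nat_lit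 76) (nat_lit 42578202453) (nat_lit 152) (nat_lit 3704400238) (nat_lit 61) (nat_lit 5) (nat_lit 62) (nat_lit 5) (nat_lit 63) (nat_lit 4) (nat_lit 533) (nat_lit 431) (nat_lit 236)))) (XT.nd (nat_lit 156) (nat_lit 76) (nat_lit 0) (XT.nd (nat_lit 78) (nat_lit 152) (nat_lit 0) (XT.lf (nat_lit 0) (nat_lit 12426030788) (nat_lit 152) (nat_lit 11755252640) (nat_lit 76) (nat_lit 41913109966) (nat_lit 60) (nat_lit 5) (nat_lit 62) (nat_lit 5) (nat_lit 61) (nat_lit 5) (nat_lit 534) (nat_lit 431) (nat_lit 235)) (XT.lf (nat_lit 0) (nat_lit 24237793470) (nat_lit 152) (nat_lit 4957673766) (nat_lit 228) (nat_lit 38299218852) (nat_lit 58) (nat_lit 5) (nat_lit 60) (nat_lit 5) (nat_lit 61) (nat_lit 5) (nat_lit 535) (nat_lit 431) (nat_lit 234))) (XT.nd (nat_lit 78) (nat_lit 76) (nat_lit 0) (XT.lf (nat_lit 0) (nat_lit 46727113256) (nat_lit 228) (nat_lit 7532101025) (nat_lit 76) (nat_lit 14669999646) (nat_lit 58) (nat_lit 5) (nat_lit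 61) (nat_lit 5) (nat_lit 59) (nat_lit 4) (nat_lit 536) (nat_lit 431) (nat_lit 233)) (XT.lf (nat_lit 0) (nat_lit 29790429288) (nat_lit 76) (nat_lit 35326398596) (nat_lit 152) (nat_lit 5279986297) (nat_lit 57) (nat_lit 5) (nat_lit 58) (nat_lit 5) (nat_lit 59) (nat_lit 4) (nat_lit 537) (nat_lit 431) (nat_lit 232))))) (XT.nd (nat_lit 312) (nat_lit 304) (nat_lit 0) (XT.nd (nat_lit 156) (nat_lit 76) (nat_lit 0) (XT.nd (nat_lit 78) (nat_lit 152) (nat_lit 0) (XT.lf (nat_lit 0) (nat_lit 11986192228) (nat_lit 152) (nat_lit 3642911656) (nat_lit 76) (nat_lit 56273630358) (nat_lit 56) (nat_lit 5) (nat_lit 58) (nat_lit 5) (nat_lit 57) (nat_lit 5) (nat_lit 538) (nat_lit 431) (nat_lit 231)) (XT.lf (nat_lit 0) (nat_lit 30046589651) (nat_lit 228) (nat_lit 38435683931) (nat_lit 76) (nat_lit 4958519473) (nat_lit 54) (nat_lit 5) (nat_lit 57) (nat_lit 5) (nat_lit 55) (nat_lit 4) (nat_lit 539) (nat_lit 431) (nat_lit 230))) (XT.nd (nat_lit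 78) (nat_lit 76) (nat_lit 0) (XT.lf (nat_lit 0) (nat_lit 48837473690) (nat_lit 228) (nat_lit 297821773) (nat_lit 76) (nat_lit 25884038064) (nat_lit 54) (nat_lit 5) (nat_lit 57) (nat_lit 5) (nat_lit 55) (nat_lit 4) (nat_lit 540) (nat_lit 431) (nat_lit 229)) (XT.lf (nat_lit 0) (nat_lit 39754026757) (nat_lit 76) (nat_lit 28817071892) (nat_lit 152) (nat_lit 8062761266) (nat_lit 53) (nat_lit 5) (nat_lit 54) (nat_lit 5) (nat_lit 55) (nat_lit 4) (nat_lit 541) (nat_lit 431) (nat_lit 228)))) (XT.nd (nat_lit 156) (nat_lit 76) (nat_lit 0) (XT.nd (nat_lit 78) (nat_lit 0) (nat_lit 0) (XT.lf (nat_lit 0) (nat_lit 2660906999) (nat_lit 152) (nat_lit 7757654879) (nat_lit 228) (nat_lit 67874438737) (nat_lit 50) (nat_lit 5) (nat_lit 52) (nat_lit 5) (nat_lit 53) (nat_lit 5) (nat_lit 542) (nat_lit 431) (nat_lit 227)) (XT.lf (nat_lit 0) (nat_lit 29799197112) (nat_lit 228) (nat_lit 36070234305) (nat_lit 76) (nat_lit 14114881584) (nat_lit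 50) (nat_lit 5) (nat_lit 53) (nat_lit 5) (nat_lit 51) (nat_lit 4) (nat_lit 543) (nat_lit 431) (nat_lit 226))) (XT.nd (nat_lit 78) (nat_lit 0) (nat_lit 0) (XT.lf (nat_lit 0) (nat_lit 4687405898) (nat_lit 76) (nat_lit 45192689743) (nat_lit 152) (nat_lit 31842703908) (nat_lit 49) (nat_lit 5) (nat_lit 50) (nat_lit 5) (nat_lit 51) (nat_lit 4) (nat_lit 544) (nat_lit 431) (nat_lit 225)) (XT.lf (nat_lit 0) (nat_lit 47401501376) (nat_lit 76) (nat_lit 23523169402) (nat_lit 152) (nat_lit 12577932542) (nat_lit 49) (nat_lit 5) (nat_lit 50) (nat_lit 5) (nat_lit 51) (nat_lit 4) (nat_lit 545) (nat_lit 431) (nat_lit 224))))))))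
noncomputable def xc168 : XT := (XT.nd (nat_lit 55692) (nat_lit 0) (nat_lit 6992) (XT.nd (nat_lit 54522) (nat_lit 0) (nat_lit 14212) (XT.nd (nat_lit 53898) (nat_lit 0) (nat_lit 18772) (XT.nd (nat_lit 53586) (nat_lit 0) (nat_lit 18696) (XT.nd (nat_lit 78) (nat_lit 76) (nat_lit 0) (XT.lf (nat_lit 0) (nat_lit 6104942991) (nat_lit 152) (nat_lit 1073830584) (nat_lit 228) (nat_lit 78153260122) (nat_lit 46) (nat_lit 5) (nat_lit 48) (nat_lit 5) (nat_lit 49) (nat_lit 5) (nat_lit 546) (nat_lit 431) (nat_lit 223)) (XT.nd (nat_lit 78) (nat_lit 76) (nat_lit 0) (XT.lf (nat_lit 0) (nat_lit 27852561392) (nat_lit 228) (nat_lit 37233874450) (nat_lit 76) (nat_lit 22108859693) (nat_lit 46) (nat_lit 5) (nat_lit 49) (nat_lit 5) (nat_lit 47) (nat_lit 4) (nat_lit 547) (nat_lit 431) (nat_lit 222)) (XT.lf (nat_lit 0) (nat_lit 6122563369) (nat_lit 76) (nat_lit 43090646827) (nat_lit 152) (nat_lit 39899245714) (nat_lit 45) (nat_lit 5) (nat_lit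 46) (nat_lit 5) (nat_lit 47) (nat_lit 4) (nat_lit 548) (nat_lit 431) (nat_lit 221)))) (XT.nd (nat_lit 156) (nat_lit 0) (nat_lit 0) (XT.nd (nat_lit 78) (nat_lit 0) (nat_lit 0) (XT.lf (nat_lit 0) (nat_lit 387302712) (nat_lit 0) (nat_lit 387302712) (nat_lit 1140) (nat_lit 4660263336) (nat_lit 291) (nat_lit 5) (nat_lit 291) (nat_lit 3) (nat_lit 306) (nat_lit 3) (nat_lit 432) (nat_lit 432) (nat_lit 336)) (XT.lf (nat_lit 0) (nat_lit 2197274983) (nat_lit 1140) (nat_lit 4800431045) (nat_lit 1216) (nat_lit 4016191061) (nat_lit 291) (nat_lit 5) (nat_lit 306) (nat_lit 3) (nat_lit 307) (nat_lit 5) (nat_lit 433) (nat_lit 432) (nat_lit 335))) (XT.nd (nat_lit 78) (nat_lit 0) (nat_lit 76) (XT.lf (nat_lit 76) (nat_lit 645818856) (nat_lit 0) (nat_lit 2210100832) (nat_lit 1216) (nat_lit 8306733128) (nat_lit 292) (nat_lit 5) (nat_lit 291) (nat_lit 5) (nat_lit 307) (nat_lit 5) (nat_lit 434) (nat_lit 432) (nat_lit 334)) (XT.lf (nat_lit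 0) (nat_lit 3587339995) (nat_lit 1140) (nat_lit 5000067063) (nat_lit 1216) (nat_lit 2726879039) (nat_lit 292) (nat_lit 5) (nat_lit 307) (nat_lit 5) (nat_lit 308) (nat_lit 5) (nat_lit 435) (nat_lit 432) (nat_lit 333))))) (XT.nd (nat_lit 312) (nat_lit 0) (nat_lit 152) (XT.nd (nat_lit 156) (nat_lit 0) (nat_lit 76) (XT.nd (nat_lit 78) (nat_lit 0) (nat_lit 76) (XT.lf (nat_lit 76) (nat_lit 660715199) (nat_lit 0) (nat_lit 3686768842) (nat_lit 1216) (nat_lit 7122786116) (nat_lit 293) (nat_lit 5) (nat_lit 292) (nat_lit 5) (nat_lit 308) (nat_lit 5) (nat_lit 436) (nat_lit 432) (nat_lit 332)) (XT.lf (nat_lit 0) (nat_lit 5173640874) (nat_lit 1140) (nat_lit 5062274905) (nat_lit 1216) (nat_lit 1393726765) (nat_lit 293) (nat_lit 5) (nat_lit 308) (nat_lit 5) (nat_lit 309) (nat_lit 5) (nat_lit 437) (nat_lit 432) (nat_lit 331))) (XT.nd (nat_lit 78) (nat_lit 0) (nat_lit 0) (XT.lf (nat_lit 76) (nat_lit 824295479) (nat_lit 0) (nat_lit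 5224456907) (nat_lit 1216) (nat_lit 5744323533) (nat_lit 294) (nat_lit 5) (nat_lit 293) (nat_lit 5) (nat_lit 309) (nat_lit 5) (nat_lit 438) (nat_lit 432) (nat_lit 330)) (XT.lf (nat_lit 76) (nat_lit 6978648877) (nat_lit 0) (nat_lit 2800104) (nat_lit 1216) (nat_lit 4979028133) (nat_lit 294) (nat_lit 5) (nat_lit 293) (nat_lit 5) (nat_lit 309) (nat_lit 5) (nat_lit 439) (nat_lit 432) (nat_lit 329)))) (XT.nd (nat_lit 156) (nat_lit 0) (nat_lit 76) (XT.nd (nat_lit 78) (nat_lit 0) (nat_lit 0) (XT.lf (nat_lit 76) (nat_lit 1142486537) (nat_lit 0) (nat_lit 6843151097) (nat_lit 1216) (nat_lit 4145962007) (nat_lit 295) (nat_lit 5) (nat_lit 294) (nat_lit 5) (nat_lit 310) (nat_lit 5) (nat_lit 440) (nat_lit 432) (nat_lit 328)) (XT.lf (nat_lit 76) (nat_lit 7539883860) (nat_lit 0) (nat_lit 1511693572) (nat_lit 1216) (nat_lit 3255334144) (nat_lit 295) (nat_lit 5) (nat_lit 294) (nat_lit 5) (nat_lit 310) (nat_lit 5) (nat_lit 441) (nat_lit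 432) (nat_lit 327))) (XT.nd (nat_lit 78) (nat_lit 0) (nat_lit 0) (XT.lf (nat_lit 76) (nat_lit 1622143629) (nat_lit 0) (nat_lit 8563092156) (nat_lit 1216) (nat_lit 2301179240) (nat_lit 296) (nat_lit 5) (nat_lit 295) (nat_lit 5) (nat_lit 311) (nat_lit 5) (nat_lit 442) (nat_lit 432) (nat_lit 326)) (XT.lf (nat_lit 76) (nat_lit 8272596495) (nat_lit 0) (nat_lit 3125561410) (nat_lit 1216) (nat_lit 1271792292) (nat_lit 296) (nat_lit 5) (nat_lit 295) (nat_lit 5) (nat_lit 311) (nat_lit 5) (nat_lit 443) (nat_lit 432) (nat_lit 325)))))) (XT.nd (nat_lit 546) (nat_lit 2584) (nat_lit 0) (XT.nd (nat_lit 234) (nat_lit 1064) (nat_lit 0) (XT.nd (nat_lit 78) (nat_lit 1216) (nat_lit 0) (XT.lf (nat_lit 76) (nat_lit 2271057142) (nat_lit 0) (nat_lit 10404890301) (nat_lit 1216) (nat_lit 182193703) (nat_lit 297) (nat_lit 5) (nat_lit 296) (nat_lit 5) (nat_lit 312) (nat_lit 5) (nat_lit 444) (nat_lit 432) (nat_lit 324)) (XT.nd (nat_lit 78)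 (nat_lit 0) (nat_lit 76) (XT.lf (nat_lit 0) (nat_lit 980600802) (nat_lit 1216) (nat_lit 3874658385) (nat_lit 1292) (nat_lit 8194685835) (nat_lit 280) (nat_lit 5) (nat_lit 296) (nat_lit 5) (nat_lit 297) (nat_lit 5) (nat_lit 445) (nat_lit 432) (nat_lit 323)) (XT.lf (nat_lit 0) (nat_lit 2196445302) (nat_lit 1216) (nat_lit 10171014350) (nat_lit 1292) (nat_lit 879338171) (nat_lit 281) (nat_lit 5) (nat_lit 297) (nat_lit 5) (nat_lit 298) (nat_lit 5) (nat_lit 446) (nat_lit 432) (nat_lit 322)))) (XT.nd (nat_lit 156) (nat_lit 1140) (nat_lit 0) (XT.nd (nat_lit 78) (nat_lit 0) (nat_lit 0) (XT.lf (nat_lit 0) (nat_lit 3520294986) (nat_lit 1216) (nat_lit 3195934662) (nat_lit 1292) (nat_lit 6731184320) (nat_lit 281) (nat_lit 5) (nat_lit 297) (nat_lit 5) (nat_lit 298) (nat_lit 5) (nat_lit 447) (nat_lit 432) (nat_lit 321)) (XT.lf (nat_lit 76) (nat_lit 4054646055) (nat_lit 0) (nat_lit 852601622) (nat_lit 1292) (nat_lit 8746102846)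 (nat_lit 282) (nat_lit 5) (nat_lit 281) (nat_lit 5) (nat_lit 298) (nat_lit 5) (nat_lit 448) (nat_lit 432) (nat_lit 320))) (XT.nd (nat_lit 78) (nat_lit 1216) (nat_lit 0) (XT.lf (nat_lit 0) (nat_lit 6403028567) (nat_lit 1216) (nat_lit 2339649994) (nat_lit 76) (nat_lit 5120773470) (nat_lit 282) (nat_lit 5) (nat_lit 298) (nat_lit 5) (nat_lit 283) (nat_lit 5) (nat_lit 449) (nat_lit 432) (nat_lit 319)) (XT.lf (nat_lit 0) (nat_lit 5217704910) (nat_lit 1216) (nat_lit 2769786431) (nat_lit 1292) (nat_lit 6091054337) (nat_lit 266) (nat_lit 5) (nat_lit 282) (nat_lit 5) (nat_lit 283) (nat_lit 5) (nat_lit 450) (nat_lit 432) (nat_lit 318))))) (XT.nd (nat_lit 312) (nat_lit 1140) (nat_lit 0) (XT.nd (nat_lit 156) (nat_lit 684) (nat_lit 0) (XT.nd (nat_lit 78) (nat_lit 760) (nat_lit 0) (XT.lf (nat_lit 0) (nat_lit 9661396944) (nat_lit 1292) (nat_lit 1295563416) (nat_lit 76) (nat_lit 3341877755) (nat_lit 266) (nat_lit 5) (nat_lit 283)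 (nat_lit 5) (nat_lit 267) (nat_lit 5) (nat_lit 451) (nat_lit 432) (nat_lit 317)) (XT.lf (nat_lit 0) (nat_lit 6584954056) (nat_lit 760) (nat_lit 4877245643) (nat_lit 836) (nat_lit 3061242379) (nat_lit 256) (nat_lit 5) (nat_lit 266) (nat_lit 5) (nat_lit 267) (nat_lit 5) (nat_lit 452) (nat_lit 432) (nat_lit 316))) (XT.nd (nat_lit 78) (nat_lit 684) (nat_lit 0) (XT.lf (nat_lit 0) (nat_lit 13329806322) (nat_lit 836) (nat_lit 52480039) (nat_lit 76) (nat_lit 1372117469) (nat_lit 256) (nat_lit 5) (nat_lit 267) (nat_lit 5) (nat_lit 257) (nat_lit 5) (nat_lit 453) (nat_lit 432) (nat_lit 315)) (XT.lf (nat_lit 0) (nat_lit 370637337) (nat_lit 684) (nat_lit 6824021767) (nat_lit 76) (nat_lit 7794125311) (nat_lit 247) (nat_lit 5) (nat_lit 256) (nat_lit 5) (nat_lit 248) (nat_lit 5) (nat_lit 454) (nat_lit 432) (nat_lit 314)))) (XT.nd (nat_lit 156) (nat_lit 532) (nat_lit 0) (XT.nd (nat_lit 78) (nat_lit 0) (nat_lit 0) (XT.lf (nat_lit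 0) (nat_lit 1399770989) (nat_lit 608) (nat_lit 792107075) (nat_lit 684) (nat_lit 13037874553) (nat_lit 239) (nat_lit 5) (nat_lit 247) (nat_lit 5) (nat_lit 248) (nat_lit 5) (nat_lit 455) (nat_lit 432) (nat_lit 313)) (XT.lf (nat_lit 0) (nat_lit 4180180621) (nat_lit 684) (nat_lit 5535297504) (nat_lit 76) (nat_lit 5759101724) (nat_lit 239) (nat_lit 5) (nat_lit 248) (nat_lit 5) (nat_lit 240) (nat_lit 5) (nat_lit 456) (nat_lit 432) (nat_lit 312))) (XT.nd (nat_lit 78) (nat_lit 0) (nat_lit 0) (XT.lf (nat_lit 0) (nat_lit 3047108103) (nat_lit 532) (nat_lit 3205590191) (nat_lit 608) (nat_lit 9473319263) (nat_lit 232) (nat_lit 5) (nat_lit 239) (nat_lit 5) (nat_lit 240) (nat_lit 5) (nat_lit 457) (nat_lit 432) (nat_lit 311)) (XT.lf (nat_lit 0) (nat_lit 8465155571) (nat_lit 608) (nat_lit 4030042183) (nat_lit 76) (nat_lit 3487470285) (nat_lit 232) (nat_lit 5) (nat_lit 240) (nat_lit 5) (nat_lit 233) (nat_lit 5) (nat_lit 458) (nat_lit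 432) (nat_lit 310))))))) (XT.nd (nat_lit 1170) (nat_lit 2888) (nat_lit 0) (XT.nd (nat_lit 546) (nat_lit 2204) (nat_lit 0) (XT.nd (nat_lit 234) (nat_lit 1064) (nat_lit 0) (XT.nd (nat_lit 78) (nat_lit 532) (nat_lit 0) (XT.lf (nat_lit 0) (nat_lit 4930154712) (nat_lit 532) (nat_lit 5880995778) (nat_lit 608) (nat_lit 5433855118) (nat_lit 225) (nat_lit 5) (nat_lit 232) (nat_lit 5) (nat_lit 233) (nat_lit 5) (nat_lit 459) (nat_lit 432) (nat_lit 309)) (XT.nd (nat_lit 78) (nat_lit 532) (nat_lit 0) (XT.lf (nat_lit 0) (nat_lit 13265834312) (nat_lit 608) (nat_lit 2294408168) (nat_lit 76) (nat_lit 953823968) (nat_lit 225) (nat_lit 5) (nat_lit 233) (nat_lit 5) (nat_lit 226) (nat_lit 5) (nat_lit 460) (nat_lit 432) (nat_lit 308)) (XT.lf (nat_lit 0) (nat_lit 7063807265) (nat_lit 532) (nat_lit 8845077971) (nat_lit 608) (nat_lit 878874429) (nat_lit 218) (nat_lit 5) (nat_lit 225) (nat_lit 5) (nat_lit 226) (nat_lit 5) (nat_lit 461)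 (nat_lit 432) (nat_lit 307)))) (XT.nd (nat_lit 156) (nat_lit 456) (nat_lit 0) (XT.nd (nat_lit 78) (nat_lit 532) (nat_lit 0) (XT.lf (nat_lit 0) (nat_lit 1543188526) (nat_lit 608) (nat_lit 346964706) (nat_lit 76) (nat_lit 15178699449) (nat_lit 217) (nat_lit 5) (nat_lit 225) (nat_lit 5) (nat_lit 218) (nat_lit 5) (nat_lit 462) (nat_lit 432) (nat_lit 306)) (XT.lf (nat_lit 0) (nat_lit 4152026192) (nat_lit 608) (nat_lit 7932047530) (nat_lit 76) (nat_lit 5270092540) (nat_lit 210) (nat_lit 5) (nat_lit 218) (nat_lit 5) (nat_lit 211) (nat_lit 5) (nat_lit 463) (nat_lit 432) (nat_lit 305))) (XT.nd (nat_lit 78) (nat_lit 0) (nat_lit 0) (XT.lf (nat_lit 0) (nat_lit 1848386974) (nat_lit 456) (nat_lit 5019980624) (nat_lit 532) (nat_lit 10778796581) (nat_lit 204) (nat_lit 5) (nat_lit 210) (nat_lit 5) (nat_lit 211) (nat_lit 5) (nat_lit 464) (nat_lit 432) (nat_lit 304)) (XT.lf (nat_lit 0) (nat_lit 9758174872) (nat_lit 532) (nat_lit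 5896762459) (nat_lit 76) (nat_lit 2291257458) (nat_lit 204) (nat_lit 5) (nat_lit 211) (nat_lit 5) (nat_lit 205) (nat_lit 5) (nat_lit 465) (nat_lit 432) (nat_lit 303))))) (XT.nd (nat_lit 312) (nat_lit 1216) (nat_lit 0) (XT.nd (nat_lit 156) (nat_lit 532) (nat_lit 0) (XT.nd (nat_lit 78) (nat_lit 0) (nat_lit 0) (XT.lf (nat_lit 0) (nat_lit 4324800799) (nat_lit 456) (nat_lit 8490857825) (nat_lit 532) (nat_lit 5436110192) (nat_lit 198) (nat_lit 5) (nat_lit 204) (nat_lit 5) (nat_lit 205) (nat_lit 5) (nat_lit 466) (nat_lit 432) (nat_lit 302)) (XT.lf (nat_lit 0) (nat_lit 14961806835) (nat_lit 456) (nat_lit 1052496302) (nat_lit 532) (nat_lit 2550725745) (nat_lit 198) (nat_lit 5) (nat_lit 204) (nat_lit 5) (nat_lit 205) (nat_lit 5) (nat_lit 467) (nat_lit 432) (nat_lit 301))) (XT.nd (nat_lit 78) (nat_lit 0) (nat_lit 0) (XT.lf (nat_lit 0) (nat_lit 536085402) (nat_lit 532) (nat_lit 11796177383) (nat_lit 76) (nat_lit 6551611753)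 (nat_lit 191) (nat_lit 5) (nat_lit 198) (nat_lit 5) (nat_lit 192) (nat_lit 5) (nat_lit 468) (nat_lit 432) (nat_lit 300)) (XT.lf (nat_lit 0) (nat_lit 3701641556) (nat_lit 532) (nat_lit 1086109465) (nat_lit 76) (nat_lit 14422656417) (nat_lit 191) (nat_lit 5) (nat_lit 198) (nat_lit 5) (nat_lit 192) (nat_lit 5) (nat_lit 469) (nat_lit 432) (nat_lit 299)))) (XT.nd (nat_lit 156) (nat_lit 380) (nat_lit 0) (XT.nd (nat_lit 78) (nat_lit 380) (nat_lit 0) (XT.lf (nat_lit 0) (nat_lit 7079695248) (nat_lit 532) (nat_lit 9442495523) (nat_lit 76) (nat_lit 3021021323) (nat_lit 185) (nat_lit 5) (nat_lit 192) (nat_lit 5) (nat_lit 186) (nat_lit 5) (nat_lit 470) (nat_lit 432) (nat_lit 298)) (XT.lf (nat_lit 0) (nat_lit 1734190040) (nat_lit 380) (nat_lit 8890717803) (nat_lit 456) (nat_lit 9259120174) (nat_lit 180) (nat_lit 5) (nat_lit 185) (nat_lit 5) (nat_lit 186) (nat_lit 5) (nat_lit 471) (nat_lit 432) (nat_lit 297))) (XT.nd (nat_lit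 78) (nat_lit 380) (nat_lit 0) (XT.lf (nat_lit 0) (nat_lit 13427976626) (nat_lit 380) (nat_lit 934677197) (nat_lit 456) (nat_lit 5869830883) (nat_lit 180) (nat_lit 5) (nat_lit 185) (nat_lit 5) (nat_lit 186) (nat_lit 5) (nat_lit 472) (nat_lit 432) (nat_lit 296)) (XT.lf (nat_lit 0) (nat_lit 4895254292) (nat_lit 380) (nat_lit 13425191421) (nat_lit 456) (nat_lit 2267713528) (nat_lit 175) (nat_lit 5) (nat_lit 180) (nat_lit 5) (nat_lit 181) (nat_lit 5) (nat_lit 473) (nat_lit 432) (nat_lit 295)))))) (XT.nd (nat_lit 546) (nat_lit 1292) (nat_lit 0) (XT.nd (nat_lit 234) (nat_lit 1140) (nat_lit 0) (XT.nd (nat_lit 78) (nat_lit 380) (nat_lit 0) (XT.lf (nat_lit 0) (nat_lit 1484096387) (nat_lit 456) (nat_lit 3902474912) (nat_lit 76) (nat_lit 15565424897) (nat_lit 174) (nat_lit 5) (nat_lit 180) (nat_lit 5) (nat_lit 175) (nat_lit 5) (nat_lit 474) (nat_lit 432) (nat_lit 294)) (XT.nd (nat_lit 78) (nat_lit 0) (nat_lit 0) (XT.lf (nat_lit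 0) (nat_lit 5403542749) (nat_lit 456) (nat_lit 12981542248) (nat_lit 76) (nat_lit 2937971275) (nat_lit 169) (nat_lit 5) (nat_lit 175) (nat_lit 5) (nat_lit 170) (nat_lit 5) (nat_lit 475) (nat_lit 432) (nat_lit 293)) (XT.lf (nat_lit 0) (nat_lit 9525206282) (nat_lit 456) (nat_lit 736471373) (nat_lit 76) (nat_lit 11441032860) (nat_lit 169) (nat_lit 5) (nat_lit 175) (nat_lit 5) (nat_lit 170) (nat_lit 5) (nat_lit 476) (nat_lit 432) (nat_lit 292)))) (XT.nd (nat_lit 156) (nat_lit 456) (nat_lit 0) (XT.nd (nat_lit 78) (nat_lit 304) (nat_lit 0) (XT.lf (nat_lit 0) (nat_lit 12100916698) (nat_lit 380) (nat_lit 1777675773) (nat_lit 456) (nat_lit 8211921071) (nat_lit 164) (nat_lit 5) (nat_lit 169) (nat_lit 5) (nat_lit 170) (nat_lit 5) (nat_lit 477) (nat_lit 432) (nat_lit 291)) (XT.lf (nat_lit 0) (nat_lit 2825674988) (nat_lit 304) (nat_lit 15630346836) (nat_lit 380) (nat_lit 4031126888) (nat_lit 160) (nat_lit 5) (nat_lit 164) (nat_lit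 5) (nat_lit 165) (nat_lit 5) (nat_lit 478) (nat_lit 432) (nat_lit 290))) (XT.nd (nat_lit 78) (nat_lit 380) (nat_lit 0) (XT.lf (nat_lit 0) (nat_lit 381104244) (nat_lit 380) (nat_lit 6695044756) (nat_lit 76) (nat_lit 15816114397) (nat_lit 159) (nat_lit 5) (nat_lit 164) (nat_lit 5) (nat_lit 160) (nat_lit 5) (nat_lit 479) (nat_lit 432) (nat_lit 289)) (XT.lf (nat_lit 0) (nat_lit 4919302720) (nat_lit 456) (nat_lit 16583298384) (nat_lit 76) (nat_lit 1803495582) (nat_lit 154) (nat_lit 5) (nat_lit 160) (nat_lit 5) (nat_lit 155) (nat_lit 5) (nat_lit 480) (nat_lit 432) (nat_lit 288))))) (XT.nd (nat_lit 312) (nat_lit 608) (nat_lit 0) (XT.nd (nat_lit 156) (nat_lit 380) (nat_lit 0) (XT.nd (nat_lit 78) (nat_lit 304) (nat_lit 0) (XT.lf (nat_lit 0) (nat_lit 9724220138) (nat_lit 456) (nat_lit 3131719802) (nat_lit 76) (nat_lit 10872488997) (nat_lit 154) (nat_lit 5) (nat_lit 160) (nat_lit 5) (nat_lit 155) (nat_lit 5) (nat_lit 481)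 (nat_lit 432) (nat_lit 287)) (XT.lf (nat_lit 0) (nat_lit 10925840396) (nat_lit 304) (nat_lit 3844932590) (nat_lit 380) (nat_lit 9389734654) (nat_lit 150) (nat_lit 5) (nat_lit 154) (nat_lit 5) (nat_lit 155) (nat_lit 5) (nat_lit 482) (nat_lit 432) (nat_lit 286))) (XT.nd (nat_lit 78) (nat_lit 76) (nat_lit 0) (XT.lf (nat_lit 0) (nat_lit 817245632) (nat_lit 304) (nat_lit 19236075985) (nat_lit 380) (nat_lit 4549690200) (nat_lit 146) (nat_lit 5) (nat_lit 150) (nat_lit 5) (nat_lit 151) (nat_lit 5) (nat_lit 483) (nat_lit 432) (nat_lit 285)) (XT.lf (nat_lit 0) (nat_lit 592680341) (nat_lit 380) (nat_lit 9547244207) (nat_lit 76) (nat_lit 14913773271) (nat_lit 145) (nat_lit 5) (nat_lit 150) (nat_lit 5) (nat_lit 146) (nat_lit 5) (nat_lit 484) (nat_lit 432) (nat_lit 284)))) (XT.nd (nat_lit 156) (nat_lit 304) (nat_lit 0) (XT.nd (nat_lit 78) (nat_lit 0) (nat_lit 0) (XT.lf (nat_lit 0) (nat_lit 5163566841) (nat_lit 304) (nat_lit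 676750111) (nat_lit 380) (nat_lit 19674963876) (nat_lit 141) (nat_lit 5) (nat_lit 145) (nat_lit 5) (nat_lit 146) (nat_lit 5) (nat_lit 485) (nat_lit 432) (nat_lit 283)) (XT.lf (nat_lit 0) (nat_lit 11422815282) (nat_lit 380) (nat_lit 5575208927) (nat_lit 76) (nat_lit 8987365107) (nat_lit 141) (nat_lit 5) (nat_lit 146) (nat_lit 5) (nat_lit 142) (nat_lit 5) (nat_lit 486) (nat_lit 432) (nat_lit 282))) (XT.nd (nat_lit 78) (nat_lit 0) (nat_lit 0) (XT.lf (nat_lit 0) (nat_lit 9819150974) (nat_lit 304) (nat_lit 7447813316) (nat_lit 380) (nat_lit 9199812434) (nat_lit 137) (nat_lit 5) (nat_lit 141) (nat_lit 5) (nat_lit 142) (nat_lit 5) (nat_lit 487) (nat_lit 432) (nat_lit 281)) (XT.lf (nat_lit 0) (nat_lit 23359414837) (nat_lit 380) (nat_lit 1205227373) (nat_lit 76) (nat_lit 2395775145) (nat_lit 137) (nat_lit 5) (nat_lit 142) (nat_lit 5) (nat_lit 138) (nat_lit 5) (nat_lit 488) (nat_lit 432) (nat_lit 280))))))))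
noncomputable def xc169 : XT := (XT.nd (nat_lit 2340) (nat_lit 2660) (nat_lit 0) (XT.nd (nat_lit 1170) (nat_lit 1824) (nat_lit 0) (XT.nd (nat_lit 546) (nat_lit 988) (nat_lit 0) (XT.nd (nat_lit 234) (nat_lit 836) (nat_lit 0) (XT.nd (nat_lit 78) (nat_lit 304) (nat_lit 0) (XT.lf (nat_lit 0) (nat_lit 2335989240) (nat_lit 304) (nat_lit 12577971160) (nat_lit 76) (nat_lit 12547908714) (nat_lit 133) (nat_lit 5) (nat_lit 137) (nat_lit 5) (nat_lit 134) (nat_lit 5) (nat_lit 489) (nat_lit 432) (nat_lit 279)) (XT.nd (nat_lit 78) (nat_lit 0) (nat_lit 0) (XT.lf (nat_lit 0) (nat_lit 3525273104) (nat_lit 304) (nat_lit 4893007316) (nat_lit 380) (nat_lit 19557828250) (nat_lit 129) (nat_lit 5) (nat_lit 133) (nat_lit 5) (nat_lit 134) (nat_lit 5) (nat_lit 490) (nat_lit 432) (nat_lit 278)) (XT.lf (nat_lit 0) (nat_lit 14856943788) (nat_lit 380) (nat_lit 8196164817) (nat_lit 76) (nat_lit 5447450512) (nat_lit 129) (nat_lit 5) (nat_lit 134)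 (nat_lit 5) (nat_lit 130) (nat_lit 5) (nat_lit 491) (nat_lit 432) (nat_lit 277)))) (XT.nd (nat_lit 156) (nat_lit 608) (nat_lit 0) (XT.nd (nat_lit 78) (nat_lit 0) (nat_lit 0) (XT.lf (nat_lit 0) (nat_lit 8656711203) (nat_lit 228) (nat_lit 12957356118) (nat_lit 304) (nat_lit 7422917536) (nat_lit 126) (nat_lit 5) (nat_lit 129) (nat_lit 5) (nat_lit 130) (nat_lit 5) (nat_lit 492) (nat_lit 432) (nat_lit 276)) (XT.lf (nat_lit 0) (nat_lit 26173371183) (nat_lit 228) (nat_lit 2477030473) (nat_lit 304) (nat_lit 936807562) (nat_lit 126) (nat_lit 5) (nat_lit 129) (nat_lit 5) (nat_lit 130) (nat_lit 5) (nat_lit 493) (nat_lit 432) (nat_lit 275))) (XT.nd (nat_lit 78) (nat_lit 228) (nat_lit 0) (XT.lf (nat_lit 0) (nat_lit 5844704560) (nat_lit 380) (nat_lit 15954892463) (nat_lit 76) (nat_lit 8346300512) (nat_lit 121) (nat_lit 5) (nat_lit 126) (nat_lit 5) (nat_lit 122) (nat_lit 5) (nat_lit 494) (nat_lit 432) (nat_lit 274)) (XT.lf (nat_lit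 0) (nat_lit 1662249242) (nat_lit 228) (nat_lit 11217808900) (nat_lit 304) (nat_lit 17838934049) (nat_lit 118) (nat_lit 5) (nat_lit 121) (nat_lit 5) (nat_lit 122) (nat_lit 5) (nat_lit 495) (nat_lit 432) (nat_lit 273))))) (XT.nd (nat_lit 312) (nat_lit 456) (nat_lit 0) (XT.nd (nat_lit 156) (nat_lit 304) (nat_lit 0) (XT.nd (nat_lit 78) (nat_lit 228) (nat_lit 0) (XT.lf (nat_lit 0) (nat_lit 20125352990) (nat_lit 228) (nat_lit 156224544) (nat_lit 304) (nat_lit 11023049675) (nat_lit 118) (nat_lit 5) (nat_lit 121) (nat_lit 5) (nat_lit 122) (nat_lit 5) (nat_lit 496) (nat_lit 432) (nat_lit 272)) (XT.lf (nat_lit 0) (nat_lit 7258668511) (nat_lit 228) (nat_lit 20818401097) (nat_lit 304) (nat_lit 3825604515) (nat_lit 115) (nat_lit 5) (nat_lit 118) (nat_lit 5) (nat_lit 119) (nat_lit 5) (nat_lit 497) (nat_lit 432) (nat_lit 271))) (XT.nd (nat_lit 78) (nat_lit 228) (nat_lit 0) (XT.lf (nat_lit 0) (nat_lit 3627463247) (nat_lit 304)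 (nat_lit 6083012327) (nat_lit 76) (nat_lit 22803861573) (nat_lit 114) (nat_lit 5) (nat_lit 118) (nat_lit 5) (nat_lit 115) (nat_lit 5) (nat_lit 498) (nat_lit 432) (nat_lit 270)) (XT.lf (nat_lit 0) (nat_lit 11367127154) (nat_lit 304) (nat_lit 19911609585) (nat_lit 76) (nat_lit 1860280758) (nat_lit 111) (nat_lit 5) (nat_lit 115) (nat_lit 5) (nat_lit 112) (nat_lit 5) (nat_lit 499) (nat_lit 432) (nat_lit 269)))) (XT.nd (nat_lit 156) (nat_lit 228) (nat_lit 0) (XT.nd (nat_lit 78) (nat_lit 228) (nat_lit 0) (XT.lf (nat_lit 0) (nat_lit 19491528895) (nat_lit 304) (nat_lit 644775825) (nat_lit 76) (nat_lit 13641557686) (nat_lit 111) (nat_lit 5) (nat_lit 115) (nat_lit 5) (nat_lit 112) (nat_lit 5) (nat_lit 500) (nat_lit 432) (nat_lit 268)) (XT.lf (nat_lit 0) (nat_lit 19573007280) (nat_lit 228) (nat_lit 8469337027) (nat_lit 304) (nat_lit 6388048474) (nat_lit 108) (nat_lit 5) (nat_lit 111) (nat_lit 5) (nat_lit 112) (nat_lit 5)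 (nat_lit 501) (nat_lit 432) (nat_lit 267))) (XT.nd (nat_lit 78) (nat_lit 0) (nat_lit 0) (XT.lf (nat_lit 0) (nat_lit 1800819993) (nat_lit 228) (nat_lit 29747729146) (nat_lit 76) (nat_lit 3550814750) (nat_lit 105) (nat_lit 5) (nat_lit 108) (nat_lit 5) (nat_lit 106) (nat_lit 5) (nat_lit 502) (nat_lit 432) (nat_lit 266)) (XT.lf (nat_lit 0) (nat_lit 10336923999) (nat_lit 228) (nat_lit 9470059506) (nat_lit 76) (nat_lit 15972624818) (nat_lit 105) (nat_lit 5) (nat_lit 108) (nat_lit 5) (nat_lit 106) (nat_lit 5) (nat_lit 503) (nat_lit 432) (nat_lit 265)))))) (XT.nd (nat_lit 546) (nat_lit 988) (nat_lit 0) (XT.nd (nat_lit 234) (nat_lit 380) (nat_lit 0) (XT.nd (nat_lit 78) (nat_lit 228) (nat_lit 0) (XT.lf (nat_lit 0) (nat_lit 11634173150) (nat_lit 228) (nat_lit 7601522472) (nat_lit 304) (nat_lit 17241367438) (nat_lit 102) (nat_lit 5) (nat_lit 105) (nat_lit 5) (nat_lit 106) (nat_lit 5) (nat_lit 504) (nat_lit 432) (nat_lit 264))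 (XT.nd (nat_lit 78) (nat_lit 228) (nat_lit 0) (XT.lf (nat_lit 0) (nat_lit 28540566981) (nat_lit 304) (nat_lit 3684462876) (nat_lit 76) (nat_lit 4966237974) (nat_lit 102) (nat_lit 5) (nat_lit 106) (nat_lit 5) (nat_lit 103) (nat_lit 5) (nat_lit 505) (nat_lit 432) (nat_lit 263)) (XT.lf (nat_lit 0) (nat_lit 443186506) (nat_lit 228) (nat_lit 19540222293) (nat_lit 76) (nat_lit 17935952650) (nat_lit 99) (nat_lit 5) (nat_lit 102) (nat_lit 5) (nat_lit 100) (nat_lit 5) (nat_lit 506) (nat_lit 432) (nat_lit 262)))) (XT.nd (nat_lit 156) (nat_lit 152) (nat_lit 0) (XT.nd (nat_lit 78) (nat_lit 0) (nat_lit 0) (XT.lf (nat_lit 0) (nat_lit 2465500032) (nat_lit 228) (nat_lit 7226746969) (nat_lit 304) (nat_lit 28972794995) (nat_lit 96) (nat_lit 5) (nat_lit 99) (nat_lit 5) (nat_lit 100) (nat_lit 5) (nat_lit 507) (nat_lit 432) (nat_lit 261)) (XT.lf (nat_lit 0) (nat_lit 19469870891) (nat_lit 304) (nat_lit 13962632462) (nat_lit 76) (nat_lit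 5993057295) (nat_lit 96) (nat_lit 5) (nat_lit 100) (nat_lit 5) (nat_lit 97) (nat_lit 5) (nat_lit 508) (nat_lit 432) (nat_lit 260))) (XT.nd (nat_lit 78) (nat_lit 0) (nat_lit 0) (XT.lf (nat_lit 0) (nat_lit 9037824778) (nat_lit 152) (nat_lit 20656558194) (nat_lit 228) (nat_lit 10509905528) (nat_lit 94) (nat_lit 5) (nat_lit 96) (nat_lit 5) (nat_lit 97) (nat_lit 5) (nat_lit 509) (nat_lit 432) (nat_lit 259)) (XT.lf (nat_lit 0) (nat_lit 33006229941) (nat_lit 152) (nat_lit 7355588288) (nat_lit 228) (nat_lit 640474732) (nat_lit 94) (nat_lit 5) (nat_lit 96) (nat_lit 5) (nat_lit 97) (nat_lit 5) (nat_lit 510) (nat_lit 432) (nat_lit 258))))) (XT.nd (nat_lit 312) (nat_lit 380) (nat_lit 0) (XT.nd (nat_lit 156) (nat_lit 304) (nat_lit 0) (XT.nd (nat_lit 78) (nat_lit 0) (nat_lit 0) (XT.lf (nat_lit 0) (nat_lit 9552453308) (nat_lit 304) (nat_lit 25796785887) (nat_lit 76) (nat_lit 6465853469) (nat_lit 90) (nat_lit 5) (nat_lit 94) (nat_lit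 5) (nat_lit 91) (nat_lit 5) (nat_lit 511) (nat_lit 432) (nat_lit 257)) (XT.lf (nat_lit 0) (nat_lit 20187981021) (nat_lit 304) (nat_lit 1820969700) (nat_lit 76) (nat_lit 20638645230) (nat_lit 90) (nat_lit 5) (nat_lit 94) (nat_lit 5) (nat_lit 91) (nat_lit 5) (nat_lit 512) (nat_lit 432) (nat_lit 256))) (XT.nd (nat_lit 78) (nat_lit 152) (nat_lit 0) (XT.lf (nat_lit 0) (nat_lit 23321274484) (nat_lit 152) (nat_lit 8040928072) (nat_lit 228) (nat_lit 12136283306) (nat_lit 88) (nat_lit 5) (nat_lit 90) (nat_lit 5) (nat_lit 91) (nat_lit 5) (nat_lit 513) (nat_lit 432) (nat_lit 255)) (XT.lf (nat_lit 0) (nat_lit 4907385332) (nat_lit 152) (nat_lit 38086485844) (nat_lit 228) (nat_lit 1377365035) (nat_lit 86) (nat_lit 5) (nat_lit 88) (nat_lit 5) (nat_lit 89) (nat_lit 5) (nat_lit 514) (nat_lit 432) (nat_lit 254)))) (XT.nd (nat_lit 156) (nat_lit 152) (nat_lit 0) (XT.nd (nat_lit 78) (nat_lit 152) (nat_lit 0) (XT.lf (nat_lit 0) (nat_lit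 9795821227) (nat_lit 228) (nat_lit 14288803807) (nat_lit 76) (nat_lit 21174319853) (nat_lit 85) (nat_lit 5) (nat_lit 88) (nat_lit 5) (nat_lit 86) (nat_lit 5) (nat_lit 515) (nat_lit 432) (nat_lit 253)) (XT.lf (nat_lit 0) (nat_lit 11851386764) (nat_lit 152) (nat_lit 9534672842) (nat_lit 228) (nat_lit 24783530217) (nat_lit 83) (nat_lit 5) (nat_lit 85) (nat_lit 5) (nat_lit 86) (nat_lit 5) (nat_lit 516) (nat_lit 432) (nat_lit 252))) (XT.nd (nat_lit 78) (nat_lit 152) (nat_lit 0) (XT.lf (nat_lit 0) (nat_lit 33517767918) (nat_lit 228) (nat_lit 8096126566) (nat_lit 76) (nat_lit 5487847054) (nat_lit 83) (nat_lit 5) (nat_lit 86) (nat_lit 5) (nat_lit 84) (nat_lit 5) (nat_lit 517) (nat_lit 432) (nat_lit 251)) (XT.lf (nat_lit 0) (nat_lit 19185048608) (nat_lit 152) (nat_lit 27102966453) (nat_lit 228) (nat_lit 1765605422) (nat_lit 81) (nat_lit 5) (nat_lit 83) (nat_lit 5) (nat_lit 84) (nat_lit 5) (nat_lit 518) (nat_lit 432) (nat_lit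 250))))))) (XT.nd (nat_lit 1170) (nat_lit 1216) (nat_lit 0) (XT.nd (nat_lit 546) (nat_lit 684) (nat_lit 0) (XT.nd (nat_lit 234) (nat_lit 380) (nat_lit 0) (XT.nd (nat_lit 78) (nat_lit 304) (nat_lit 0) (XT.lf (nat_lit 0) (nat_lit 10282570496) (nat_lit 228) (nat_lit 1689373203) (nat_lit 76) (nat_lit 37056760915) (nat_lit 80) (nat_lit 5) (nat_lit 83) (nat_lit 5) (nat_lit 81) (nat_lit 5) (nat_lit 519) (nat_lit 432) (nat_lit 249)) (XT.nd (nat_lit 78) (nat_lit 152) (nat_lit 0) (XT.lf (nat_lit 0) (nat_lit 22947678736) (nat_lit 228) (nat_lit 23258903721) (nat_lit 76) (nat_lit 3817205436) (nat_lit 78) (nat_lit 5) (nat_lit 81) (nat_lit 5) (nat_lit 79) (nat_lit 5) (nat_lit 520) (nat_lit 432) (nat_lit 248)) (XT.lf (nat_lit 0) (nat_lit 5031323652) (nat_lit 152) (nat_lit 31141461501) (nat_lit 228) (nat_lit 14870537439) (nat_lit 76) (nat_lit 5) (nat_lit 78) (nat_lit 5) (nat_lit 79) (nat_lit 5) (nat_lit 521) (nat_lit 432) (nat_lit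 247)))) (XT.nd (nat_lit 156) (nat_lit 152) (nat_lit 0) (XT.nd (nat_lit 78) (nat_lit 228) (nat_lit 0) (XT.lf (nat_lit 0) (nat_lit 34639774068) (nat_lit 152) (nat_lit 15385707442) (nat_lit 228) (nat_lit 2061036984) (nat_lit 76) (nat_lit 5) (nat_lit 78) (nat_lit 5) (nat_lit 79) (nat_lit 5) (nat_lit 522) (nat_lit 432) (nat_lit 246)) (XT.lf (nat_lit 0) (nat_lit 11038122812) (nat_lit 228) (nat_lit 41067330481) (nat_lit 76) (nat_lit 1048668354) (nat_lit 73) (nat_lit 5) (nat_lit 76) (nat_lit 5) (nat_lit 74) (nat_lit 5) (nat_lit 523) (nat_lit 432) (nat_lit 245))) (XT.nd (nat_lit 78) (nat_lit 152) (nat_lit 0) (XT.lf (nat_lit 0) (nat_lit 24815151329) (nat_lit 228) (nat_lit 11566130820) (nat_lit 76) (nat_lit 17862069236) (nat_lit 73) (nat_lit 5) (nat_lit 76) (nat_lit 5) (nat_lit 74) (nat_lit 5) (nat_lit 524) (nat_lit 432) (nat_lit 244)) (XT.lf (nat_lit 0) (nat_lit 19187579079) (nat_lit 152) (nat_lit 19998531795) (nat_lit 228)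 (nat_lit 16173728769) (nat_lit 71) (nat_lit 5) (nat_lit 73) (nat_lit 5) (nat_lit 74) (nat_lit 5) (nat_lit 525) (nat_lit 432) (nat_lit 243))))) (XT.nd (nat_lit 312) (nat_lit 304) (nat_lit 0) (XT.nd (nat_lit 156) (nat_lit 152) (nat_lit 0) (XT.nd (nat_lit 78) (nat_lit 228) (nat_lit 0) (XT.lf (nat_lit 0) (nat_lit 51094118171) (nat_lit 152) (nat_lit 3007098937) (nat_lit 228) (nat_lit 2405215130) (nat_lit 71) (nat_lit 5) (nat_lit 73) (nat_lit 5) (nat_lit 74) (nat_lit 5) (nat_lit 526) (nat_lit 432) (nat_lit 242)) (XT.lf (nat_lit 0) (nat_lit 11942184084) (nat_lit 228) (nat_lit 31148477400) (nat_lit 76) (nat_lit 14581496419) (nat_lit 68) (nat_lit 5) (nat_lit 71) (nat_lit 5) (nat_lit 69) (nat_lit 5) (nat_lit 527) (nat_lit 432) (nat_lit 241))) (XT.nd (nat_lit 78) (nat_lit 0) (nat_lit 0) (XT.lf (nat_lit 0) (nat_lit 608466434) (nat_lit 152) (nat_lit 26150324211) (nat_lit 228) (nat_lit 32110736647) (nat_lit 66) (nat_lit 5) (nat_lit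 68) (nat_lit 5) (nat_lit 69) (nat_lit 5) (nat_lit 528) (nat_lit 432) (nat_lit 240)) (XT.lf (nat_lit 0) (nat_lit 33949933295) (nat_lit 152) (nat_lit 8380854436) (nat_lit 228) (nat_lit 17762703463) (nat_lit 66) (nat_lit 5) (nat_lit 68) (nat_lit 5) (nat_lit 69) (nat_lit 5) (nat_lit 529) (nat_lit 432) (nat_lit 239)))) (XT.nd (nat_lit 156) (nat_lit 152) (nat_lit 0) (XT.nd (nat_lit 78) (nat_lit 76) (nat_lit 0) (XT.lf (nat_lit 0) (nat_lit 6971555515) (nat_lit 76) (nat_lit 51557209013) (nat_lit 152) (nat_lit 2820645088) (nat_lit 65) (nat_lit 5) (nat_lit 66) (nat_lit 5) (nat_lit 67) (nat_lit 4) (nat_lit 530) (nat_lit 432) (nat_lit 238)) (XT.lf (nat_lit 0) (nat_lit 12670424362) (nat_lit 152) (nat_lit 21232053907) (nat_lit 76) (nat_lit 28726521814) (nat_lit 64) (nat_lit 5) (nat_lit 66) (nat_lit 5) (nat_lit 65) (nat_lit 5) (nat_lit 531) (nat_lit 432) (nat_lit 237))) (XT.nd (nat_lit 78) (nat_lit 0) (nat_lit 0) (XT.lf (nat_lit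 0) (nat_lit 13130010894) (nat_lit 152) (nat_lit 15562277962) (nat_lit 228) (nat_lit 35250169118) (nat_lit 62) (nat_lit 5) (nat_lit 64) (nat_lit 5) (nat_lit 65) (nat_lit 5) (nat_lit 532) (nat_lit 432) (nat_lit 236)) (XT.lf (nat_lit 0) (nat_lit 45439879473) (nat_lit 228) (nat_lit 16371236446) (nat_lit 76) (nat_lit 3476851751) (nat_lit 62) (nat_lit 5) (nat_lit 65) (nat_lit 5) (nat_lit 63) (nat_lit 4) (nat_lit 533) (nat_lit 432) (nat_lit 235)))))) (XT.nd (nat_lit 624) (nat_lit 608) (nat_lit 0) (XT.nd (nat_lit 312) (nat_lit 304) (nat_lit 0) (XT.nd (nat_lit 156) (nat_lit 152) (nat_lit 0) (XT.nd (nat_lit 78) (nat_lit 76) (nat_lit 0) (XT.lf (nat_lit 0) (nat_lit 19319908147) (nat_lit 76) (nat_lit 43706440063) (nat_lit 152) (nat_lit 3637401106) (nat_lit 61) (nat_lit 5) (nat_lit 62) (nat_lit 5) (nat_lit 63) (nat_lit 4) (nat_lit 534) (nat_lit 432) (nat_lit 234)) (XT.lf (nat_lit 0) (nat_lit 12968379827) (nat_lit 152) (nat_lit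 11791864299) (nat_lit 76) (nat_lit 43311885939) (nat_lit 60) (nat_lit 5) (nat_lit 62) (nat_lit 5) (nat_lit 61) (nat_lit 5) (nat_lit 535) (nat_lit 432) (nat_lit 233))) (XT.nd (nat_lit 78) (nat_lit 0) (nat_lit 0) (XT.lf (nat_lit 0) (nat_lit 25277874705) (nat_lit 152) (nat_lit 4961094029) (nat_lit 228) (nat_lit 39275520961) (nat_lit 58) (nat_lit 5) (nat_lit 60) (nat_lit 5) (nat_lit 61) (nat_lit 5) (nat_lit 536) (nat_lit 432) (nat_lit 232)) (XT.lf (nat_lit 0) (nat_lit 48293037614) (nat_lit 228) (nat_lit 7450697455) (nat_lit 76) (nat_lit 15248424325) (nat_lit 58) (nat_lit 5) (nat_lit 61) (nat_lit 5) (nat_lit 59) (nat_lit 4) (nat_lit 537) (nat_lit 432) (nat_lit 231)))) (XT.nd (nat_lit 156) (nat_lit 152) (nat_lit 0) (XT.nd (nat_lit 78) (nat_lit 76) (nat_lit 0) (XT.lf (nat_lit 0) (nat_lit 30988495369) (nat_lit 76) (nat_lit 36244094010) (nat_lit 152) (nat_lit 5271254127) (nat_lit 57) (nat_lit 5) (nat_lit 58) (nat_lit 5)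 (nat_lit 59) (nat_lit 4) (nat_lit 538) (nat_lit 432) (nat_lit 230)) (XT.lf (nat_lit 0) (nat_lit 12504875487) (nat_lit 152) (nat_lit 3453537132) (nat_lit 76) (nat_lit 58096623750) (nat_lit 56) (nat_lit 5) (nat_lit 58) (nat_lit 5) (nat_lit 57) (nat_lit 5) (nat_lit 539) (nat_lit 432) (nat_lit 229))) (XT.nd (nat_lit 78) (nat_lit 0) (nat_lit 0) (XT.lf (nat_lit 0) (nat_lit 31106624348) (nat_lit 228) (nat_lit 39289625318) (nat_lit 76) (nat_lit 5243001297) (nat_lit 54) (nat_lit 5) (nat_lit 57) (nat_lit 5) (nat_lit 55) (nat_lit 4) (nat_lit 540) (nat_lit 432) (nat_lit 228)) (XT.lf (nat_lit 0) (nat_lit 50456614413) (nat_lit 228) (nat_lit 16339795) (nat_lit 76) (nat_lit 26792332254) (nat_lit 54) (nat_lit 5) (nat_lit 57) (nat_lit 5) (nat_lit 55) (nat_lit 4) (nat_lit 541) (nat_lit 432) (nat_lit 227))))) (XT.nd (nat_lit 312) (nat_lit 228) (nat_lit 0) (XT.nd (nat_lit 156) (nat_lit 76) (nat_lit 0) (XT.nd (nat_lit 78) (nat_lit 228)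 (nat_lit 0) (XT.lf (nat_lit 0) (nat_lit 41234216969) (nat_lit 76) (nat_lit 29546309527) (nat_lit 152) (nat_lit 8147773986) (nat_lit 53) (nat_lit 5) (nat_lit 54) (nat_lit 5) (nat_lit 55) (nat_lit 4) (nat_lit 542) (nat_lit 432) (nat_lit 226)) (XT.lf (nat_lit 0) (nat_lit 3028521538) (nat_lit 152) (nat_lit 7854692727) (nat_lit 228) (nat_lit 69754007485) (nat_lit 50) (nat_lit 5) (nat_lit 52) (nat_lit 5) (nat_lit 53) (nat_lit 5) (nat_lit 543) (nat_lit 432) (nat_lit 225))) (XT.nd (nat_lit 78) (nat_lit 76) (nat_lit 0) (XT.lf (nat_lit 0) (nat_lit 30842104951) (nat_lit 228) (nat_lit 36869766713) (nat_lit 76) (nat_lit 14667496927) (nat_lit 50) (nat_lit 5) (nat_lit 53) (nat_lit 5) (nat_lit 51) (nat_lit 4) (nat_lit 544) (nat_lit 432) (nat_lit 224)) (XT.lf (nat_lit 0) (nat_lit 5107832357) (nat_lit 76) (nat_lit 46415949906) (nat_lit 152) (nat_lit 32646277088) (nat_lit 49) (nat_lit 5) (nat_lit 50) (nat_lit 5) (nat_lit 51) (nat_lit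 4) (nat_lit 545) (nat_lit 432) (nat_lit 223)))) (XT.nd (nat_lit 156) (nat_lit 0) (nat_lit 0) (XT.nd (nat_lit 78) (nat_lit 228) (nat_lit 0) (XT.lf (nat_lit 0) (nat_lit 49095201060) (nat_lit 76) (nat_lit 24100203776) (nat_lit 152) (nat_lit 12807981259) (nat_lit 49) (nat_lit 5) (nat_lit 50) (nat_lit 5) (nat_lit 51) (nat_lit 4) (nat_lit 546) (nat_lit 432) (nat_lit 222)) (XT.lf (nat_lit 0) (nat_lit 6559933902) (nat_lit 152) (nat_lit 977024847) (nat_lit 228) (nat_lit 80350746109) (nat_lit 46) (nat_lit 5) (nat_lit 48) (nat_lit 5) (nat_lit 49) (nat_lit 5) (nat_lit 547) (nat_lit 432) (nat_lit 221))) (XT.nd (nat_lit 53508) (nat_lit 0) (nat_lit 18620) (XT.lf (nat_lit 0) (nat_lit 28828004440) (nat_lit 228) (nat_lit 38084005008) (nat_lit 76) (nat_lit 22894943927) (nat_lit 46) (nat_lit 5) (nat_lit 49) (nat_lit 5) (nat_lit 47) (nat_lit 4) (nat_lit 548) (nat_lit 432) (nat_lit 220)) (XT.lf (nat_lit 0) (nat_lit 688833709) (nat_lit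 0) (nat_lit 688833709) (nat_lit 1140) (nat_lit 4202712337) (nat_lit 291) (nat_lit 5) (nat_lit 291) (nat_lit 3) (nat_lit 306) (nat_lit 3) (nat_lit 433) (nat_lit 433) (nat_lit 334))))))))
noncomputable def xc170 : XT := (XT.nd (nat_lit 2340) (nat_lit 6384) (nat_lit 0) (XT.nd (nat_lit 1170) (nat_lit 5320) (nat_lit 0) (XT.nd (nat_lit 546) (nat_lit 836) (nat_lit 0) (XT.nd (nat_lit 234) (nat_lit 0) (nat_lit 76) (XT.nd (nat_lit 78) (nat_lit 0) (nat_lit 0) (XT.lf (nat_lit 0) (nat_lit 3383653467) (nat_lit 1140) (nat_lit 4342048261) (nat_lit 1216) (nat_lit 3584725938) (nat_lit 291) (nat_lit 5) (nat_lit 306) (nat_lit 3) (nat_lit 307) (nat_lit 5) (nat_lit 434) (nat_lit 433) (nat_lit 333)) (XT.nd (nat_lit 78) (nat_lit 0) (nat_lit 76) (XT.lf (nat_lit 76) (nat_lit 1261683297) (nat_lit 0) (nat_lit 2773473278) (nat_lit 1216) (nat_lit 7429304456) (nat_lit 292) (nat_lit 5) (nat_lit 291) (nat_lit 5) (nat_lit 307) (nat_lit 5) (nat_lit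 435) (nat_lit 433) (nat_lit 332)) (XT.lf (nat_lit 0) (nat_lit 4752029283) (nat_lit 1140) (nat_lit 4534205599) (nat_lit 1216) (nat_lit 2335510842) (nat_lit 292) (nat_lit 5) (nat_lit 307) (nat_lit 5) (nat_lit 308) (nat_lit 5) (nat_lit 436) (nat_lit 433) (nat_lit 331)))) (XT.nd (nat_lit 156) (nat_lit 0) (nat_lit 76) (XT.nd (nat_lit 78) (nat_lit 0) (nat_lit 76) (XT.lf (nat_lit 76) (nat_lit 1290362254) (nat_lit 0) (nat_lit 4219688993) (nat_lit 1216) (nat_lit 6273113332) (nat_lit 293) (nat_lit 5) (nat_lit 292) (nat_lit 5) (nat_lit 308) (nat_lit 5) (nat_lit 437) (nat_lit 433) (nat_lit 330)) (XT.lf (nat_lit 0) (nat_lit 6326989047) (nat_lit 1140) (nat_lit 4587833587) (nat_lit 1216) (nat_lit 1033522880) (nat_lit 293) (nat_lit 5) (nat_lit 308) (nat_lit 5) (nat_lit 309) (nat_lit 5) (nat_lit 438) (nat_lit 433) (nat_lit 329))) (XT.nd (nat_lit 78) (nat_lit 0) (nat_lit 0) (XT.lf (nat_lit 76) (nat_lit 1469193618) (nat_lit 0) (nat_lit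 5736049724) (nat_lit 1216) (nat_lit 4912138918) (nat_lit 294) (nat_lit 5) (nat_lit 293) (nat_lit 5) (nat_lit 309) (nat_lit 5) (nat_lit 439) (nat_lit 433) (nat_lit 328)) (XT.lf (nat_lit 76) (nat_lit 7790114436) (nat_lit 0) (nat_lit 347407514) (nat_lit 1216) (nat_lit 4153142354) (nat_lit 294) (nat_lit 5) (nat_lit 293) (nat_lit 5) (nat_lit 309) (nat_lit 5) (nat_lit 440) (nat_lit 433) (nat_lit 327))))) (XT.nd (nat_lit 312) (nat_lit 1064) (nat_lit 0) (XT.nd (nat_lit 156) (nat_lit 0) (nat_lit 76) (XT.nd (nat_lit 78) (nat_lit 0) (nat_lit 0) (XT.lf (nat_lit 76) (nat_lit 1804589992) (nat_lit 0) (nat_lit 7342494303) (nat_lit 1216) (nat_lit 3320585419) (nat_lit 295) (nat_lit 5) (nat_lit 294) (nat_lit 5) (nat_lit 310) (nat_lit 5) (nat_lit 441) (nat_lit 433) (nat_lit 326)) (XT.lf (nat_lit 76) (nat_lit 8375622957) (nat_lit 0) (nat_lit 1842528528) (nat_lit 1216) (nat_lit 2430901501) (nat_lit 295) (nat_lit 5) (nat_lit 294) (nat_lit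 5) (nat_lit 310) (nat_lit 5) (nat_lit 442) (nat_lit 433) (nat_lit 325))) (XT.nd (nat_lit 78) (nat_lit 0) (nat_lit 0) (XT.lf (nat_lit 76) (nat_lit 2303892542) (nat_lit 0) (nat_lit 9059279585) (nat_lit 1216) (nat_lit 1471455101) (nat_lit 296) (nat_lit 5) (nat_lit 295) (nat_lit 5) (nat_lit 311) (nat_lit 5) (nat_lit 443) (nat_lit 433) (nat_lit 324)) (XT.lf (nat_lit 76) (nat_lit 9135419636) (nat_lit 0) (nat_lit 3451653168) (nat_lit 1216) (nat_lit 437364006) (nat_lit 296) (nat_lit 5) (nat_lit 295) (nat_lit 5) (nat_lit 311) (nat_lit 5) (nat_lit 444) (nat_lit 433) (nat_lit 323)))) (XT.nd (nat_lit 156) (nat_lit 0) (nat_lit 76) (XT.nd (nat_lit 78) (nat_lit 0) (nat_lit 0) (XT.lf (nat_lit 0) (nat_lit 650624501) (nat_lit 1216) (nat_lit 10249899402) (nat_lit 1292) (nat_lit 2318185785) (nat_lit 280) (nat_lit 5) (nat_lit 296) (nat_lit 5) (nat_lit 297) (nat_lit 5) (nat_lit 445) (nat_lit 433) (nat_lit 322)) (XT.lf (nat_lit 0) (nat_lit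 1820331547) (nat_lit 1216) (nat_lit 3356924133) (nat_lit 1292) (nat_lit 8239692732) (nat_lit 280) (nat_lit 5) (nat_lit 296) (nat_lit 5) (nat_lit 297) (nat_lit 5) (nat_lit 446) (nat_lit 433) (nat_lit 321))) (XT.nd (nat_lit 78) (nat_lit 0) (nat_lit 0) (XT.lf (nat_lit 0) (nat_lit 3053498483) (nat_lit 1216) (nat_lit 9822837703) (nat_lit 1292) (nat_lit 743950604) (nat_lit 281) (nat_lit 5) (nat_lit 297) (nat_lit 5) (nat_lit 298) (nat_lit 5) (nat_lit 447) (nat_lit 433) (nat_lit 320)) (XT.lf (nat_lit 0) (nat_lit 4394020167) (nat_lit 1216) (nat_lit 2657533986) (nat_lit 1292) (nat_lit 6776063818) (nat_lit 281) (nat_lit 5) (nat_lit 297) (nat_lit 5) (nat_lit 298) (nat_lit 5) (nat_lit 448) (nat_lit 433) (nat_lit 319)))))) (XT.nd (nat_lit 546) (nat_lit 2812) (nat_lit 0) (XT.nd (nat_lit 234) (nat_lit 1444) (nat_lit 0) (XT.nd (nat_lit 78) (nat_lit 1140) (nat_lit 0) (XT.lf (nat_lit 76) (nat_lit 4804345733) (nat_lit 0) (nat_lit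 1001900685) (nat_lit 1292) (nat_lit 8233981350) (nat_lit 282) (nat_lit 5) (nat_lit 281) (nat_lit 5) (nat_lit 298) (nat_lit 5) (nat_lit 449) (nat_lit 433) (nat_lit 318)) (XT.nd (nat_lit 78) (nat_lit 1216) (nat_lit 0) (XT.lf (nat_lit 0) (nat_lit 7323849549) (nat_lit 1216) (nat_lit 1776856144) (nat_lit 76) (nat_lit 5156623111) (nat_lit 282) (nat_lit 5) (nat_lit 298) (nat_lit 5) (nat_lit 283) (nat_lit 5) (nat_lit 450) (nat_lit 433) (nat_lit 317)) (XT.lf (nat_lit 0) (nat_lit 6001013687) (nat_lit 1216) (nat_lit 2939632340) (nat_lit 1292) (nat_lit 5538690041) (nat_lit 266) (nat_lit 5) (nat_lit 282) (nat_lit 5) (nat_lit 283) (nat_lit 5) (nat_lit 451) (nat_lit 433) (nat_lit 316)))) (XT.nd (nat_lit 156) (nat_lit 684) (nat_lit 0) (XT.nd (nat_lit 78) (nat_lit 760) (nat_lit 0) (XT.lf (nat_lit 0) (nat_lit 10643176745) (nat_lit 1292) (nat_lit 704160875) (nat_lit 76) (nat_lit 3359552082) (nat_lit 266) (nat_lit 5) (nat_lit 283)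 (nat_lit 5) (nat_lit 267) (nat_lit 5) (nat_lit 452) (nat_lit 433) (nat_lit 315)) (XT.lf (nat_lit 0) (nat_lit 7406593008) (nat_lit 760) (nat_lit 5077256182) (nat_lit 836) (nat_lit 2454811753) (nat_lit 256) (nat_lit 5) (nat_lit 266) (nat_lit 5) (nat_lit 267) (nat_lit 5) (nat_lit 453) (nat_lit 433) (nat_lit 314))) (XT.nd (nat_lit 78) (nat_lit 76) (nat_lit 0) (XT.lf (nat_lit 0) (nat_lit 583636209) (nat_lit 608) (nat_lit 13809215704) (nat_lit 684) (nat_lit 784142992) (nat_lit 248) (nat_lit 5) (nat_lit 256) (nat_lit 5) (nat_lit 257) (nat_lit 5) (nat_lit 454) (nat_lit 433) (nat_lit 313)) (XT.lf (nat_lit 0) (nat_lit 1032626447) (nat_lit 684) (nat_lit 6395489151) (nat_lit 76) (nat_lit 7990668162) (nat_lit 247) (nat_lit 5) (nat_lit 256) (nat_lit 5) (nat_lit 248) (nat_lit 5) (nat_lit 455) (nat_lit 433) (nat_lit 312))))) (XT.nd (nat_lit 312) (nat_lit 1672) (nat_lit 0) (XT.nd (nat_lit 156) (nat_lit 532) (nat_lit 0) (XT.nd (nat_lit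 78) (nat_lit 0) (nat_lit 0) (XT.lf (nat_lit 0) (nat_lit 2068809023) (nat_lit 608) (nat_lit 826765534) (nat_lit 684) (nat_lit 12771798369) (nat_lit 239) (nat_lit 5) (nat_lit 247) (nat_lit 5) (nat_lit 248) (nat_lit 5) (nat_lit 456) (nat_lit 433) (nat_lit 311)) (XT.lf (nat_lit 0) (nat_lit 4924843728) (nat_lit 684) (nat_lit 5073762346) (nat_lit 76) (nat_lit 5921503279) (nat_lit 239) (nat_lit 5) (nat_lit 248) (nat_lit 5) (nat_lit 240) (nat_lit 5) (nat_lit 457) (nat_lit 433) (nat_lit 310))) (XT.nd (nat_lit 78) (nat_lit 0) (nat_lit 0) (XT.lf (nat_lit 0) (nat_lit 3759962546) (nat_lit 532) (nat_lit 3287511426) (nat_lit 608) (nat_lit 9131981900) (nat_lit 232) (nat_lit 5) (nat_lit 239) (nat_lit 5) (nat_lit 240) (nat_lit 5) (nat_lit 458) (nat_lit 433) (nat_lit 309)) (XT.lf (nat_lit 0) (nat_lit 9308752641) (nat_lit 608) (nat_lit 3529927461) (nat_lit 76) (nat_lit 3605656016) (nat_lit 232) (nat_lit 5) (nat_lit 240) (nat_lit 5)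 (nat_lit 233) (nat_lit 5) (nat_lit 459) (nat_lit 433) (nat_lit 308)))) (XT.nd (nat_lit 156) (nat_lit 1140) (nat_lit 0) (XT.nd (nat_lit 78) (nat_lit 0) (nat_lit 0) (XT.lf (nat_lit 0) (nat_lit 5692986948) (nat_lit 532) (nat_lit 6020877469) (nat_lit 608) (nat_lit 5001020861) (nat_lit 225) (nat_lit 5) (nat_lit 232) (nat_lit 5) (nat_lit 233) (nat_lit 5) (nat_lit 460) (nat_lit 433) (nat_lit 307)) (XT.lf (nat_lit 0) (nat_lit 14225683843) (nat_lit 608) (nat_lit 1749602773) (nat_lit 76) (nat_lit 1017229945) (nat_lit 225) (nat_lit 5) (nat_lit 233) (nat_lit 5) (nat_lit 226) (nat_lit 5) (nat_lit 461) (nat_lit 433) (nat_lit 306))) (XT.nd (nat_lit 78) (nat_lit 608) (nat_lit 0) (XT.lf (nat_lit 0) (nat_lit 7883343068) (nat_lit 532) (nat_lit 9054158780) (nat_lit 608) (nat_lit 337237827) (nat_lit 218) (nat_lit 5) (nat_lit 225) (nat_lit 5) (nat_lit 226) (nat_lit 5) (nat_lit 462) (nat_lit 433) (nat_lit 305)) (XT.lf (nat_lit 0) (nat_lit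 248261483) (nat_lit 532) (nat_lit 1884307250) (nat_lit 608) (nat_lit 15431951159) (nat_lit 210) (nat_lit 5) (nat_lit 217) (nat_lit 5) (nat_lit 218) (nat_lit 5) (nat_lit 463) (nat_lit 433) (nat_lit 304))))))) (XT.nd (nat_lit 1170) (nat_lit 2888) (nat_lit 0) (XT.nd (nat_lit 546) (nat_lit 2052) (nat_lit 0) (XT.nd (nat_lit 234) (nat_lit 988) (nat_lit 0) (XT.nd (nat_lit 78) (nat_lit 456) (nat_lit 0) (XT.lf (nat_lit 0) (nat_lit 4807872588) (nat_lit 608) (nat_lit 7559703052) (nat_lit 76) (nat_lit 5491174292) (nat_lit 210) (nat_lit 5) (nat_lit 218) (nat_lit 5) (nat_lit 211) (nat_lit 5) (nat_lit 464) (nat_lit 433) (nat_lit 303)) (XT.nd (nat_lit 78) (nat_lit 0) (nat_lit 0) (XT.lf (nat_lit 0) (nat_lit 2508161097) (nat_lit 456) (nat_lit 5087877919) (nat_lit 532) (nat_lit 10564791719) (nat_lit 204) (nat_lit 5) (nat_lit 210) (nat_lit 5) (nat_lit 211) (nat_lit 5) (nat_lit 465) (nat_lit 433) (nat_lit 302)) (XT.lf (nat_lit 0) (nat_lit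 10558119510) (nat_lit 532) (nat_lit 5472426595) (nat_lit 76) (nat_lit 2438721693) (nat_lit 204) (nat_lit 5) (nat_lit 211) (nat_lit 5) (nat_lit 205) (nat_lit 5) (nat_lit 466) (nat_lit 433) (nat_lit 301)))) (XT.nd (nat_lit 156) (nat_lit 532) (nat_lit 0) (XT.nd (nat_lit 78) (nat_lit 0) (nat_lit 0) (XT.lf (nat_lit 0) (nat_lit 5049889063) (nat_lit 456) (nat_lit 8648388726) (nat_lit 532) (nat_lit 5086005577) (nat_lit 198) (nat_lit 5) (nat_lit 204) (nat_lit 5) (nat_lit 205) (nat_lit 5) (nat_lit 467) (nat_lit 433) (nat_lit 300)) (XT.lf (nat_lit 0) (nat_lit 15988665157) (nat_lit 456) (nat_lit 989707276) (nat_lit 532) (nat_lit 2129006818) (nat_lit 198) (nat_lit 5) (nat_lit 204) (nat_lit 5) (nat_lit 205) (nat_lit 5) (nat_lit 468) (nat_lit 433) (nat_lit 299))) (XT.nd (nat_lit 78) (nat_lit 0) (nat_lit 0) (XT.lf (nat_lit 0) (nat_lit 1033034648) (nat_lit 532) (nat_lit 11554509888) (nat_lit 76) (nat_lit 6848334186) (nat_lit 191)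 (nat_lit 5) (nat_lit 198) (nat_lit 5) (nat_lit 192) (nat_lit 5) (nat_lit 469) (nat_lit 433) (nat_lit 298)) (XT.lf (nat_lit 0) (nat_lit 4279551661) (nat_lit 532) (nat_lit 540486131) (nat_lit 76) (nat_lit 14952592498) (nat_lit 191) (nat_lit 5) (nat_lit 198) (nat_lit 5) (nat_lit 192) (nat_lit 5) (nat_lit 470) (nat_lit 433) (nat_lit 297))))) (XT.nd (nat_lit 312) (nat_lit 836) (nat_lit 0) (XT.nd (nat_lit 156) (nat_lit 380) (nat_lit 0) (XT.nd (nat_lit 78) (nat_lit 380) (nat_lit 0) (XT.lf (nat_lit 0) (nat_lit 7751946300) (nat_lit 532) (nat_lit 9140481994) (nat_lit 76) (nat_lit 3223203246) (nat_lit 185) (nat_lit 5) (nat_lit 192) (nat_lit 5) (nat_lit 186) (nat_lit 5) (nat_lit 471) (nat_lit 433) (nat_lit 296)) (XT.lf (nat_lit 0) (nat_lit 2365766014) (nat_lit 380) (nat_lit 9029926264) (nat_lit 456) (nat_lit 9071216714) (nat_lit 180) (nat_lit 5) (nat_lit 185) (nat_lit 5) (nat_lit 186) (nat_lit 5) (nat_lit 472) (nat_lit 433)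 (nat_lit 295))) (XT.nd (nat_lit 78) (nat_lit 380) (nat_lit 0) (XT.lf (nat_lit 0) (nat_lit 14393486093) (nat_lit 380) (nat_lit 838918413) (nat_lit 456) (nat_lit 5593812153) (nat_lit 180) (nat_lit 5) (nat_lit 185) (nat_lit 5) (nat_lit 186) (nat_lit 5) (nat_lit 473) (nat_lit 433) (nat_lit 294)) (XT.lf (nat_lit 0) (nat_lit 5611200108) (nat_lit 380) (nat_lit 13691573188) (nat_lit 456) (nat_lit 1889975068) (nat_lit 175) (nat_lit 5) (nat_lit 180) (nat_lit 5) (nat_lit 181) (nat_lit 5) (nat_lit 474) (nat_lit 433) (nat_lit 293)))) (XT.nd (nat_lit 156) (nat_lit 380) (nat_lit 0) (XT.nd (nat_lit 78) (nat_lit 380) (nat_lit 0) (XT.lf (nat_lit 0) (nat_lit 1952960337) (nat_lit 456) (nat_lit 3458521169) (nat_lit 76) (nat_lit 16156274376) (nat_lit 174) (nat_lit 5) (nat_lit 180) (nat_lit 5) (nat_lit 175) (nat_lit 5) (nat_lit 475) (nat_lit 433) (nat_lit 292)) (XT.lf (nat_lit 0) (nat_lit 5984299235) (nat_lit 456) (nat_lit 12804201740)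 (nat_lit 76) (nat_lit 3161619549) (nat_lit 169) (nat_lit 5) (nat_lit 175) (nat_lit 5) (nat_lit 170) (nat_lit 5) (nat_lit 476) (nat_lit 433) (nat_lit 291))) (XT.nd (nat_lit 78) (nat_lit 380) (nat_lit 0) (XT.lf (nat_lit 0) (nat_lit 10217418979) (nat_lit 456) (nat_lit 208287092) (nat_lit 76) (nat_lit 11915826113) (nat_lit 169) (nat_lit 5) (nat_lit 175) (nat_lit 5) (nat_lit 170) (nat_lit 5) (nat_lit 477) (nat_lit 433) (nat_lit 290)) (XT.lf (nat_lit 0) (nat_lit 13008827735) (nat_lit 380) (nat_lit 1685978233) (nat_lit 456) (nat_lit 8046363278) (nat_lit 164) (nat_lit 5) (nat_lit 169) (nat_lit 5) (nat_lit 170) (nat_lit 5) (nat_lit 478) (nat_lit 433) (nat_lit 289)))))) (XT.nd (nat_lit 624) (nat_lit 1140) (nat_lit 0) (XT.nd (nat_lit 312) (nat_lit 988) (nat_lit 0) (XT.nd (nat_lit 156) (nat_lit 380) (nat_lit 0) (XT.nd (nat_lit 78) (nat_lit 76) (nat_lit 0) (XT.lf (nat_lit 0) (nat_lit 3460547820) (nat_lit 304) (nat_lit 15944005513)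 (nat_lit 380) (nat_lit 3745302150) (nat_lit 160) (nat_lit 5) (nat_lit 164) (nat_lit 5) (nat_lit 165) (nat_lit 5) (nat_lit 479) (nat_lit 433) (nat_lit 288)) (XT.lf (nat_lit 0) (nat_lit 779742440) (nat_lit 380) (nat_lit 6354051184) (nat_lit 76) (nat_lit 16433562925) (nat_lit 159) (nat_lit 5) (nat_lit 164) (nat_lit 5) (nat_lit 160) (nat_lit 5) (nat_lit 480) (nat_lit 433) (nat_lit 287))) (XT.nd (nat_lit 78) (nat_lit 0) (nat_lit 0) (XT.lf (nat_lit 0) (nat_lit 5449460795) (nat_lit 456) (nat_lit 16534269455) (nat_lit 76) (nat_lit 2010015077) (nat_lit 154) (nat_lit 5) (nat_lit 160) (nat_lit 5) (nat_lit 155) (nat_lit 5) (nat_lit 481) (nat_lit 433) (nat_lit 286)) (XT.lf (nat_lit 0) (nat_lit 10387382658) (nat_lit 456) (nat_lit 2695061804) (nat_lit 76) (nat_lit 11346639033) (nat_lit 154) (nat_lit 5) (nat_lit 160) (nat_lit 5) (nat_lit 155) (nat_lit 5) (nat_lit 482) (nat_lit 433) (nat_lit 285)))) (XT.nd (nat_lit 156) (nat_lit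 380) (nat_lit 0) (XT.nd (nat_lit 78) (nat_lit 304) (nat_lit 0) (XT.lf (nat_lit 0) (nat_lit 11779023146) (nat_lit 304) (nat_lit 3800540962) (nat_lit 380) (nat_lit 9294735099) (nat_lit 150) (nat_lit 5) (nat_lit 154) (nat_lit 5) (nat_lit 155) (nat_lit 5) (nat_lit 483) (nat_lit 433) (nat_lit 284)) (XT.lf (nat_lit 0) (nat_lit 1371414611) (nat_lit 304) (nat_lit 19645106191) (nat_lit 380) (nat_lit 4313681320) (nat_lit 146) (nat_lit 5) (nat_lit 150) (nat_lit 5) (nat_lit 151) (nat_lit 5) (nat_lit 484) (nat_lit 433) (nat_lit 283))) (XT.nd (nat_lit 78) (nat_lit 304) (nat_lit 0) (XT.lf (nat_lit 0) (nat_lit 965053738) (nat_lit 380) (nat_lit 9312330499) (nat_lit 76) (nat_lit 15517237653) (nat_lit 145) (nat_lit 5) (nat_lit 150) (nat_lit 5) (nat_lit 146) (nat_lit 5) (nat_lit 485) (nat_lit 433) (nat_lit 282)) (XT.lf (nat_lit 0) (nat_lit 5834693792) (nat_lit 304) (nat_lit 530059926) (nat_lit 380) (nat_lit 19905461072) (nat_lit 141)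 (nat_lit 5) (nat_lit 145) (nat_lit 5) (nat_lit 146) (nat_lit 5) (nat_lit 486) (nat_lit 433) (nat_lit 281))))) (XT.nd (nat_lit 312) (nat_lit 532) (nat_lit 0) (XT.nd (nat_lit 156) (nat_lit 304) (nat_lit 0) (XT.nd (nat_lit 78) (nat_lit 304) (nat_lit 0) (XT.lf (nat_lit 0) (nat_lit 12106113812) (nat_lit 380) (nat_lit 5232621338) (nat_lit 76) (nat_lit 9415951166) (nat_lit 141) (nat_lit 5) (nat_lit 146) (nat_lit 5) (nat_lit 142) (nat_lit 5) (nat_lit 487) (nat_lit 433) (nat_lit 280)) (XT.lf (nat_lit 0) (nat_lit 10618570891) (nat_lit 304) (nat_lit 7501948484) (nat_lit 380) (nat_lit 9130149356) (nat_lit 137) (nat_lit 5) (nat_lit 141) (nat_lit 5) (nat_lit 142) (nat_lit 5) (nat_lit 488) (nat_lit 433) (nat_lit 279))) (XT.nd (nat_lit 78) (nat_lit 304) (nat_lit 0) (XT.lf (nat_lit 0) (nat_lit 24387550257) (nat_lit 380) (nat_lit 743006258) (nat_lit 76) (nat_lit 2628809170) (nat_lit 137) (nat_lit 5) (nat_lit 142) (nat_lit 5) (nat_lit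 138) (nat_lit 5) (nat_lit 489) (nat_lit 433) (nat_lit 278)) (XT.lf (nat_lit 0) (nat_lit 2731866276) (nat_lit 304) (nat_lit 12455293312) (nat_lit 76) (nat_lit 13088750581) (nat_lit 133) (nat_lit 5) (nat_lit 137) (nat_lit 5) (nat_lit 134) (nat_lit 5) (nat_lit 490) (nat_lit 433) (nat_lit 277)))) (XT.nd (nat_lit 156) (nat_lit 228) (nat_lit 0) (XT.nd (nat_lit 78) (nat_lit 0) (nat_lit 0) (XT.lf (nat_lit 0) (nat_lit 4126146153) (nat_lit 304) (nat_lit 4865750141) (nat_lit 380) (nat_lit 19813823710) (nat_lit 129) (nat_lit 5) (nat_lit 133) (nat_lit 5) (nat_lit 134) (nat_lit 5) (nat_lit 491) (nat_lit 433) (nat_lit 276)) (XT.lf (nat_lit 0) (nat_lit 15615992404) (nat_lit 380) (nat_lit 7953589828) (nat_lit 76) (nat_lit 5776554710) (nat_lit 129) (nat_lit 5) (nat_lit 134) (nat_lit 5) (nat_lit 130) (nat_lit 5) (nat_lit 492) (nat_lit 433) (nat_lit 275))) (XT.nd (nat_lit 78) (nat_lit 0) (nat_lit 0) (XT.lf (nat_lit 0) (nat_lit 9400083650)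 (nat_lit 228) (nat_lit 13171268919) (nat_lit 304) (nat_lit 7327438325) (nat_lit 126) (nat_lit 5) (nat_lit 129) (nat_lit 5) (nat_lit 130) (nat_lit 5) (nat_lit 493) (nat_lit 433) (nat_lit 274)) (XT.lf (nat_lit 0) (nat_lit 27428155921) (nat_lit 228) (nat_lit 2381624997) (nat_lit 304) (nat_lit 656012045) (nat_lit 126) (nat_lit 5) (nat_lit 129) (nat_lit 5) (nat_lit 130) (nat_lit 5) (nat_lit 494) (nat_lit 433) (nat_lit 273))))))))
noncomputable def xc171 : XT := (XT.nd (nat_lit 2340) (nat_lit 2052) (nat_lit 0) (XT.nd (nat_lit 1170) (nat_lit 1748) (nat_lit 0) (XT.nd (nat_lit 546) (nat_lit 1140) (nat_lit 0) (XT.nd (nat_lit 234) (nat_lit 532) (nat_lit 0) (XT.nd (nat_lit 78) (nat_lit 228) (nat_lit 0) (XT.lf (nat_lit 0) (nat_lit 6320280832) (nat_lit 380) (nat_lit 15955221154) (nat_lit 76) (nat_lit 8765731002) (nat_lit 121) (nat_lit 5) (nat_lit 126) (nat_lit 5) (nat_lit 122) (nat_lit 5) (nat_lit 495) (nat_lit 433) (nat_lit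 272)) (XT.nd (nat_lit 78) (nat_lit 0) (nat_lit 0) (XT.lf (nat_lit 0) (nat_lit 2185745410) (nat_lit 228) (nat_lit 11376757707) (nat_lit 304) (nat_lit 18069144125) (nat_lit 118) (nat_lit 5) (nat_lit 121) (nat_lit 5) (nat_lit 122) (nat_lit 5) (nat_lit 496) (nat_lit 433) (nat_lit 271)) (XT.lf (nat_lit 0) (nat_lit 21177556036) (nat_lit 304) (nat_lit 11046274265) (nat_lit 76) (nat_lit 11277345) (nat_lit 118) (nat_lit 5) (nat_lit 122) (nat_lit 5) (nat_lit 119) (nat_lit 5) (nat_lit 497) (nat_lit 433) (nat_lit 270)))) (XT.nd (nat_lit 156) (nat_lit 228) (nat_lit 0) (XT.nd (nat_lit 78) (nat_lit 76) (nat_lit 0) (XT.lf (nat_lit 0) (nat_lit 7938683190) (nat_lit 228) (nat_lit 21265800187) (nat_lit 304) (nat_lit 3646686420) (nat_lit 115) (nat_lit 5) (nat_lit 118) (nat_lit 5) (nat_lit 119) (nat_lit 5) (nat_lit 498) (nat_lit 433) (nat_lit 269)) (XT.lf (nat_lit 0) (nat_lit 4015855449) (nat_lit 304) (nat_lit 5811118152) (nat_lit 76)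 (nat_lit 23654376921) (nat_lit 114) (nat_lit 5) (nat_lit 118) (nat_lit 5) (nat_lit 115) (nat_lit 5) (nat_lit 499) (nat_lit 433) (nat_lit 268))) (XT.nd (nat_lit 78) (nat_lit 0) (nat_lit 0) (XT.lf (nat_lit 0) (nat_lit 11985565825) (nat_lit 304) (nat_lit 20052401053) (nat_lit 76) (nat_lit 2086869572) (nat_lit 111) (nat_lit 5) (nat_lit 115) (nat_lit 5) (nat_lit 112) (nat_lit 5) (nat_lit 500) (nat_lit 433) (nat_lit 267)) (XT.lf (nat_lit 0) (nat_lit 20345619283) (nat_lit 304) (nat_lit 220860052) (nat_lit 76) (nat_lit 14216610621) (nat_lit 111) (nat_lit 5) (nat_lit 115) (nat_lit 5) (nat_lit 112) (nat_lit 5) (nat_lit 501) (nat_lit 433) (nat_lit 266))))) (XT.nd (nat_lit 312) (nat_lit 456) (nat_lit 0) (XT.nd (nat_lit 156) (nat_lit 228) (nat_lit 0) (XT.nd (nat_lit 78) (nat_lit 228) (nat_lit 0) (XT.lf (nat_lit 0) (nat_lit 20599110869) (nat_lit 228) (nat_lit 8550222406) (nat_lit 304) (nat_lit 6305972560) (nat_lit 108) (nat_lit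 5) (nat_lit 111) (nat_lit 5) (nat_lit 112) (nat_lit 5) (nat_lit 502) (nat_lit 433) (nat_lit 265)) (XT.lf (nat_lit 0) (nat_lit 2121316325) (nat_lit 228) (nat_lit 30193950021) (nat_lit 76) (nat_lit 3829058698) (nat_lit 105) (nat_lit 5) (nat_lit 108) (nat_lit 5) (nat_lit 106) (nat_lit 5) (nat_lit 503) (nat_lit 433) (nat_lit 264))) (XT.nd (nat_lit 78) (nat_lit 228) (nat_lit 0) (XT.lf (nat_lit 0) (nat_lit 10905742138) (nat_lit 228) (nat_lit 9320946728) (nat_lit 76) (nat_lit 16618521529) (nat_lit 105) (nat_lit 5) (nat_lit 108) (nat_lit 5) (nat_lit 106) (nat_lit 5) (nat_lit 504) (nat_lit 433) (nat_lit 263)) (XT.lf (nat_lit 0) (nat_lit 12412165706) (nat_lit 228) (nat_lit 7655899445) (nat_lit 304) (nat_lit 17495626699) (nat_lit 102) (nat_lit 5) (nat_lit 105) (nat_lit 5) (nat_lit 106) (nat_lit 5) (nat_lit 505) (nat_lit 433) (nat_lit 262)))) (XT.nd (nat_lit 156) (nat_lit 228) (nat_lit 0) (XT.nd (nat_lit 78) (nat_lit 228)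 (nat_lit 0) (XT.lf (nat_lit 0) (nat_lit 29646267554) (nat_lit 304) (nat_lit 3372685061) (nat_lit 76) (nat_lit 5280545306) (nat_lit 102) (nat_lit 5) (nat_lit 106) (nat_lit 5) (nat_lit 103) (nat_lit 5) (nat_lit 506) (nat_lit 433) (nat_lit 261)) (XT.lf (nat_lit 0) (nat_lit 705179172) (nat_lit 228) (nat_lit 19703285918) (nat_lit 76) (nat_lit 18640994197) (nat_lit 99) (nat_lit 5) (nat_lit 102) (nat_lit 5) (nat_lit 100) (nat_lit 5) (nat_lit 507) (nat_lit 433) (nat_lit 260))) (XT.nd (nat_lit 78) (nat_lit 0) (nat_lit 0) (XT.lf (nat_lit 0) (nat_lit 2958459615) (nat_lit 228) (nat_lit 7270035895) (nat_lit 304) (nat_lit 29589111864) (nat_lit 96) (nat_lit 5) (nat_lit 99) (nat_lit 5) (nat_lit 100) (nat_lit 5) (nat_lit 508) (nat_lit 433) (nat_lit 259)) (XT.lf (nat_lit 0) (nat_lit 20293917520) (nat_lit 304) (nat_lit 13969169158) (nat_lit 76) (nat_lit 6338021451) (nat_lit 96) (nat_lit 5) (nat_lit 100) (nat_lit 5) (nat_lit 97) (nat_lit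 5) (nat_lit 509) (nat_lit 433) (nat_lit 258)))))) (XT.nd (nat_lit 546) (nat_lit 912) (nat_lit 0) (XT.nd (nat_lit 234) (nat_lit 380) (nat_lit 0) (XT.nd (nat_lit 78) (nat_lit 304) (nat_lit 0) (XT.lf (nat_lit 0) (nat_lit 9717259227) (nat_lit 152) (nat_lit 21104841712) (nat_lit 228) (nat_lit 10581189403) (nat_lit 94) (nat_lit 5) (nat_lit 96) (nat_lit 5) (nat_lit 97) (nat_lit 5) (nat_lit 510) (nat_lit 433) (nat_lit 257)) (XT.nd (nat_lit 78) (nat_lit 304) (nat_lit 0) (XT.lf (nat_lit 0) (nat_lit 34392824322) (nat_lit 152) (nat_lit 7409835327) (nat_lit 228) (nat_lit 422782866) (nat_lit 94) (nat_lit 5) (nat_lit 96) (nat_lit 5) (nat_lit 97) (nat_lit 5) (nat_lit 511) (nat_lit 433) (nat_lit 256)) (XT.lf (nat_lit 0) (nat_lit 10069974758) (nat_lit 304) (nat_lit 26168286166) (nat_lit 76) (nat_lit 6824337582) (nat_lit 90) (nat_lit 5) (nat_lit 94) (nat_lit 5) (nat_lit 91) (nat_lit 5) (nat_lit 512) (nat_lit 433) (nat_lit 255))))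 (XT.nd (nat_lit 156) (nat_lit 228) (nat_lit 0) (XT.nd (nat_lit 78) (nat_lit 152) (nat_lit 0) (XT.lf (nat_lit 0) (nat_lit 21017841666) (nat_lit 304) (nat_lit 1484915978) (nat_lit 76) (nat_lit 21417521587) (nat_lit 90) (nat_lit 5) (nat_lit 94) (nat_lit 5) (nat_lit 91) (nat_lit 5) (nat_lit 513) (nat_lit 433) (nat_lit 254)) (XT.lf (nat_lit 0) (nat_lit 24407765309) (nat_lit 152) (nat_lit 8116712488) (nat_lit 228) (nat_lit 12272302927) (nat_lit 88) (nat_lit 5) (nat_lit 90) (nat_lit 5) (nat_lit 91) (nat_lit 5) (nat_lit 514) (nat_lit 433) (nat_lit 253))) (XT.nd (nat_lit 78) (nat_lit 76) (nat_lit 0) (XT.lf (nat_lit 0) (nat_lit 5442686481) (nat_lit 152) (nat_lit 39061235664) (nat_lit 228) (nat_lit 1191827175) (nat_lit 86) (nat_lit 5) (nat_lit 88) (nat_lit 5) (nat_lit 89) (nat_lit 5) (nat_lit 515) (nat_lit 433) (nat_lit 252)) (XT.lf (nat_lit 0) (nat_lit 10305649241) (nat_lit 228) (nat_lit 14336377765) (nat_lit 76) (nat_lit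 21968191667) (nat_lit 85) (nat_lit 5) (nat_lit 88) (nat_lit 5) (nat_lit 86) (nat_lit 5) (nat_lit 516) (nat_lit 433) (nat_lit 251))))) (XT.nd (nat_lit 312) (nat_lit 532) (nat_lit 0) (XT.nd (nat_lit 156) (nat_lit 228) (nat_lit 0) (XT.nd (nat_lit 78) (nat_lit 0) (nat_lit 0) (XT.lf (nat_lit 0) (nat_lit 12584282345) (nat_lit 152) (nat_lit 9656649880) (nat_lit 228) (nat_lit 25307331073) (nat_lit 83) (nat_lit 5) (nat_lit 85) (nat_lit 5) (nat_lit 86) (nat_lit 5) (nat_lit 517) (nat_lit 433) (nat_lit 250)) (XT.lf (nat_lit 0) (nat_lit 34731910573) (nat_lit 228) (nat_lit 7967951020) (nat_lit 76) (nat_lit 5808658859) (nat_lit 83) (nat_lit 5) (nat_lit 86) (nat_lit 5) (nat_lit 84) (nat_lit 5) (nat_lit 518) (nat_lit 433) (nat_lit 249))) (XT.nd (nat_lit 78) (nat_lit 76) (nat_lit 0) (XT.lf (nat_lit 0) (nat_lit 20128021573) (nat_lit 152) (nat_lit 27754699430) (nat_lit 228) (nat_lit 1606311525) (nat_lit 81) (nat_lit 5) (nat_lit 83)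 (nat_lit 5) (nat_lit 84) (nat_lit 5) (nat_lit 519) (nat_lit 433) (nat_lit 248)) (XT.lf (nat_lit 0) (nat_lit 10793105924) (nat_lit 228) (nat_lit 1379299366) (nat_lit 76) (nat_lit 38321084946) (nat_lit 80) (nat_lit 5) (nat_lit 83) (nat_lit 5) (nat_lit 81) (nat_lit 5) (nat_lit 520) (nat_lit 433) (nat_lit 247)))) (XT.nd (nat_lit 156) (nat_lit 228) (nat_lit 0) (XT.nd (nat_lit 78) (nat_lit 152) (nat_lit 0) (XT.lf (nat_lit 0) (nat_lit 23837231073) (nat_lit 228) (nat_lit 23594966096) (nat_lit 76) (nat_lit 4086257334) (nat_lit 78) (nat_lit 5) (nat_lit 81) (nat_lit 5) (nat_lit 79) (nat_lit 5) (nat_lit 521) (nat_lit 433) (nat_lit 246)) (XT.lf (nat_lit 0) (nat_lit 5540421973) (nat_lit 152) (nat_lit 31916253628) (nat_lit 228) (nat_lit 15111972485) (nat_lit 76) (nat_lit 5) (nat_lit 78) (nat_lit 5) (nat_lit 79) (nat_lit 5) (nat_lit 522) (nat_lit 433) (nat_lit 245))) (XT.nd (nat_lit 78) (nat_lit 228) (nat_lit 0) (XT.lf (nat_lit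 0) (nat_lit 36026694097) (nat_lit 152) (nat_lit 15692471172) (nat_lit 228) (nat_lit 1924148601) (nat_lit 76) (nat_lit 5) (nat_lit 78) (nat_lit 5) (nat_lit 79) (nat_lit 5) (nat_lit 523) (nat_lit 433) (nat_lit 244)) (XT.lf (nat_lit 0) (nat_lit 11563276332) (nat_lit 228) (nat_lit 41946889823) (nat_lit 76) (nat_lit 1232746970) (nat_lit 73) (nat_lit 5) (nat_lit 76) (nat_lit 5) (nat_lit 74) (nat_lit 5) (nat_lit 524) (nat_lit 433) (nat_lit 243))))))) (XT.nd (nat_lit 1170) (nat_lit 836) (nat_lit 0) (XT.nd (nat_lit 546) (nat_lit 608) (nat_lit 0) (XT.nd (nat_lit 234) (nat_lit 456) (nat_lit 0) (XT.nd (nat_lit 78) (nat_lit 152) (nat_lit 0) (XT.lf (nat_lit 0) (nat_lit 25747964933) (nat_lit 228) (nat_lit 11570920014) (nat_lit 76) (nat_lit 18546104677) (nat_lit 73) (nat_lit 5) (nat_lit 76) (nat_lit 5) (nat_lit 74) (nat_lit 5) (nat_lit 525) (nat_lit 433) (nat_lit 242)) (XT.nd (nat_lit 78) (nat_lit 0) (nat_lit 0) (XT.lf (nat_lit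 0) (nat_lit 20102046331) (nat_lit 152) (nat_lit 20445777883) (nat_lit 228) (nat_lit 16467215523) (nat_lit 71) (nat_lit 5) (nat_lit 73) (nat_lit 5) (nat_lit 74) (nat_lit 5) (nat_lit 526) (nat_lit 433) (nat_lit 241)) (XT.lf (nat_lit 0) (nat_lit 52955912474) (nat_lit 152) (nat_lit 2949049900) (nat_lit 228) (nat_lit 2291230701) (nat_lit 71) (nat_lit 5) (nat_lit 73) (nat_lit 5) (nat_lit 74) (nat_lit 5) (nat_lit 527) (nat_lit 433) (nat_lit 240)))) (XT.nd (nat_lit 156) (nat_lit 76) (nat_lit 0) (XT.nd (nat_lit 78) (nat_lit 152) (nat_lit 0) (XT.lf (nat_lit 0) (nat_lit 12482240586) (nat_lit 228) (nat_lit 31749590266) (nat_lit 76) (nat_lit 15165027816) (nat_lit 68) (nat_lit 5) (nat_lit 71) (nat_lit 5) (nat_lit 69) (nat_lit 5) (nat_lit 528) (nat_lit 433) (nat_lit 239)) (XT.lf (nat_lit 0) (nat_lit 956793831) (nat_lit 152) (nat_lit 26784429497) (nat_lit 228) (nat_lit 32888989768) (nat_lit 66) (nat_lit 5) (nat_lit 68) (nat_lit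 5) (nat_lit 69) (nat_lit 5) (nat_lit 529) (nat_lit 433) (nat_lit 238))) (XT.nd (nat_lit 78) (nat_lit 76) (nat_lit 0) (XT.lf (nat_lit 0) (nat_lit 35288890909) (nat_lit 152) (nat_lit 8486256341) (nat_lit 228) (nat_lit 18115905947) (nat_lit 66) (nat_lit 5) (nat_lit 68) (nat_lit 5) (nat_lit 69) (nat_lit 5) (nat_lit 530) (nat_lit 433) (nat_lit 237)) (XT.lf (nat_lit 0) (nat_lit 7501821460) (nat_lit 76) (nat_lit 52956610814) (nat_lit 152) (nat_lit 2726236110) (nat_lit 65) (nat_lit 5) (nat_lit 66) (nat_lit 5) (nat_lit 67) (nat_lit 4) (nat_lit 531) (nat_lit 433) (nat_lit 236))))) (XT.nd (nat_lit 312) (nat_lit 304) (nat_lit 0) (XT.nd (nat_lit 156) (nat_lit 76) (nat_lit 0) (XT.nd (nat_lit 78) (nat_lit 152) (nat_lit 0) (XT.lf (nat_lit 0) (nat_lit 13220959270) (nat_lit 152) (nat_lit 21553848661) (nat_lit 76) (nat_lit 29727940652) (nat_lit 64) (nat_lit 5) (nat_lit 66) (nat_lit 5) (nat_lit 65) (nat_lit 5) (nat_lit 532) (nat_lit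 433) (nat_lit 235)) (XT.lf (nat_lit 0) (nat_lit 13835988212) (nat_lit 152) (nat_lit 15885527609) (nat_lit 228) (nat_lit 36134153564) (nat_lit 62) (nat_lit 5) (nat_lit 64) (nat_lit 5) (nat_lit 65) (nat_lit 5) (nat_lit 533) (nat_lit 433) (nat_lit 234))) (XT.nd (nat_lit 78) (nat_lit 76) (nat_lit 0) (XT.lf (nat_lit 0) (nat_lit 46967967945) (nat_lit 228) (nat_lit 16555811628) (nat_lit 76) (nat_lit 3717872036) (nat_lit 62) (nat_lit 5) (nat_lit 65) (nat_lit 5) (nat_lit 63) (nat_lit 4) (nat_lit 534) (nat_lit 433) (nat_lit 233)) (XT.lf (nat_lit 0) (nat_lit 20203061794) (nat_lit 76) (nat_lit 44877084236) (nat_lit 152) (nat_lit 3578617456) (nat_lit 61) (nat_lit 5) (nat_lit 62) (nat_lit 5) (nat_lit 63) (nat_lit 4) (nat_lit 535) (nat_lit 433) (nat_lit 232)))) (XT.nd (nat_lit 156) (nat_lit 76) (nat_lit 0) (XT.nd (nat_lit 78) (nat_lit 152) (nat_lit 0) (XT.lf (nat_lit 0) (nat_lit 13517265434) (nat_lit 152) (nat_lit 11847716636)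 (nat_lit 76) (nat_lit 44744509247) (nat_lit 60) (nat_lit 5) (nat_lit 62) (nat_lit 5) (nat_lit 61) (nat_lit 5) (nat_lit 536) (nat_lit 433) (nat_lit 231)) (XT.lf (nat_lit 0) (nat_lit 26331193914) (nat_lit 152) (nat_lit 4972958285) (nat_lit 228) (nat_lit 40291024354) (nat_lit 58) (nat_lit 5) (nat_lit 60) (nat_lit 5) (nat_lit 61) (nat_lit 5) (nat_lit 537) (nat_lit 433) (nat_lit 230))) (XT.nd (nat_lit 78) (nat_lit 76) (nat_lit 0) (XT.lf (nat_lit 0) (nat_lit 49896519062) (nat_lit 228) (nat_lit 7384495879) (nat_lit 76) (nat_lit 15836261340) (nat_lit 58) (nat_lit 5) (nat_lit 61) (nat_lit 5) (nat_lit 59) (nat_lit 4) (nat_lit 538) (nat_lit 433) (nat_lit 229)) (XT.lf (nat_lit 0) (nat_lit 32205032313) (nat_lit 76) (nat_lit 37197477209) (nat_lit 152) (nat_lit 5271854039) (nat_lit 57) (nat_lit 5) (nat_lit 58) (nat_lit 5) (nat_lit 59) (nat_lit 4) (nat_lit 539) (nat_lit 433) (nat_lit 228)))))) (XT.nd (nat_lit 624) (nat_lit 228)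 (nat_lit 0) (XT.nd (nat_lit 312) (nat_lit 304) (nat_lit 0) (XT.nd (nat_lit 156) (nat_lit 76) (nat_lit 0) (XT.nd (nat_lit 78) (nat_lit 152) (nat_lit 0) (XT.lf (nat_lit 0) (nat_lit 13029986396) (nat_lit 152) (nat_lit 3275625786) (nat_lit 76) (nat_lit 59966569764) (nat_lit 56) (nat_lit 5) (nat_lit 58) (nat_lit 5) (nat_lit 57) (nat_lit 5) (nat_lit 540) (nat_lit 433) (nat_lit 227)) (XT.lf (nat_lit 0) (nat_lit 32189353673) (nat_lit 228) (nat_lit 40186356184) (nat_lit 76) (nat_lit 5528226334) (nat_lit 54) (nat_lit 5) (nat_lit 57) (nat_lit 5) (nat_lit 55) (nat_lit 4) (nat_lit 541) (nat_lit 433) (nat_lit 226))) (XT.nd (nat_lit 78) (nat_lit 0) (nat_lit 0) (XT.lf (nat_lit 0) (nat_lit 262028662) (nat_lit 76) (nat_lit 51855978297) (nat_lit 152) (nat_lit 27460801076) (nat_lit 53) (nat_lit 5) (nat_lit 54) (nat_lit 5) (nat_lit 55) (nat_lit 4) (nat_lit 542) (nat_lit 433) (nat_lit 225)) (XT.lf (nat_lit 0) (nat_lit 42742305227) (nat_lit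 76) (nat_lit 30305189602) (nat_lit 152) (nat_lit 8244342074) (nat_lit 53) (nat_lit 5) (nat_lit 54) (nat_lit 5) (nat_lit 55) (nat_lit 4) (nat_lit 543) (nat_lit 433) (nat_lit 224)))) (XT.nd (nat_lit 156) (nat_lit 76) (nat_lit 0) (XT.nd (nat_lit 78) (nat_lit 0) (nat_lit 0) (XT.lf (nat_lit 0) (nat_lit 3390644343) (nat_lit 152) (nat_lit 7962430975) (nat_lit 228) (nat_lit 71698956474) (nat_lit 50) (nat_lit 5) (nat_lit 52) (nat_lit 5) (nat_lit 53) (nat_lit 5) (nat_lit 544) (nat_lit 433) (nat_lit 223)) (XT.lf (nat_lit 0) (nat_lit 31907750723) (nat_lit 228) (nat_lit 37709506033) (nat_lit 76) (nat_lit 15229275907) (nat_lit 50) (nat_lit 5) (nat_lit 53) (nat_lit 5) (nat_lit 51) (nat_lit 4) (nat_lit 545) (nat_lit 433) (nat_lit 222))) (XT.nd (nat_lit 78) (nat_lit 0) (nat_lit 0) (XT.lf (nat_lit 0) (nat_lit 5524809699) (nat_lit 76) (nat_lit 47683515094) (nat_lit 152) (nat_lit 33482666120) (nat_lit 49) (nat_lit 5) (nat_lit 50)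 (nat_lit 5) (nat_lit 51) (nat_lit 4) (nat_lit 546) (nat_lit 433) (nat_lit 221)) (XT.lf (nat_lit 0) (nat_lit 50824117646) (nat_lit 76) (nat_lit 24701934832) (nat_lit 152) (nat_lit 13053386444) (nat_lit 49) (nat_lit 5) (nat_lit 50) (nat_lit 5) (nat_lit 51) (nat_lit 4) (nat_lit 547) (nat_lit 433) (nat_lit 220))))) (XT.nd (nat_lit 53820) (nat_lit 0) (nat_lit 18696) (XT.nd (nat_lit 53664) (nat_lit 0) (nat_lit 18620) (XT.nd (nat_lit 53586) (nat_lit 0) (nat_lit 18620) (XT.lf (nat_lit 0) (nat_lit 7012969662) (nat_lit 152) (nat_lit 884721251) (nat_lit 228) (nat_lit 82622601496) (nat_lit 46) (nat_lit 5) (nat_lit 48) (nat_lit 5) (nat_lit 49) (nat_lit 5) (nat_lit 548) (nat_lit 433) (nat_lit 219)) (XT.lf (nat_lit 0) (nat_lit 982768506) (nat_lit 0) (nat_lit 982768506) (nat_lit 1140) (nat_lit 3765725653) (nat_lit 291) (nat_lit 5) (nat_lit 291) (nat_lit 3) (nat_lit 306) (nat_lit 3) (nat_lit 434) (nat_lit 434) (nat_lit 332))) (XT.nd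 (nat_lit 78) (nat_lit 0) (nat_lit 0) (XT.lf (nat_lit 0) (nat_lit 4541304305) (nat_lit 1140) (nat_lit 3904493971) (nat_lit 1216) (nat_lit 3172001099) (nat_lit 291) (nat_lit 5) (nat_lit 306) (nat_lit 3) (nat_lit 307) (nat_lit 5) (nat_lit 435) (nat_lit 434) (nat_lit 331)) (XT.lf (nat_lit 76) (nat_lit 1861782712) (nat_lit 0) (nat_lit 3325213079) (nat_lit 1216) (nat_lit 6590226133) (nat_lit 292) (nat_lit 5) (nat_lit 291) (nat_lit 5) (nat_lit 307) (nat_lit 5) (nat_lit 436) (nat_lit 434) (nat_lit 330)))) (XT.nd (nat_lit 156) (nat_lit 0) (nat_lit 76) (XT.nd (nat_lit 78) (nat_lit 0) (nat_lit 0) (XT.lf (nat_lit 0) (nat_lit 5890979160) (nat_lit 1140) (nat_lit 4089721373) (nat_lit 1216) (nat_lit 1959563754) (nat_lit 292) (nat_lit 5) (nat_lit 307) (nat_lit 5) (nat_lit 308) (nat_lit 5) (nat_lit 437) (nat_lit 434) (nat_lit 329)) (XT.lf (nat_lit 76) (nat_lit 1903892237) (nat_lit 0) (nat_lit 4744354020) (nat_lit 1216) (nat_lit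 5458991369) (nat_lit 293) (nat_lit 5) (nat_lit 292) (nat_lit 5) (nat_lit 308) (nat_lit 5) (nat_lit 438) (nat_lit 434) (nat_lit 328))) (XT.nd (nat_lit 78) (nat_lit 0) (nat_lit 0) (XT.lf (nat_lit 0) (nat_lit 7457640406) (nat_lit 1140) (nat_lit 4135111761) (nat_lit 1216) (nat_lit 685590224) (nat_lit 293) (nat_lit 5) (nat_lit 308) (nat_lit 5) (nat_lit 309) (nat_lit 5) (nat_lit 439) (nat_lit 434) (nat_lit 327)) (XT.lf (nat_lit 76) (nat_lit 2097838449) (nat_lit 0) (nat_lit 6242619960) (nat_lit 1216) (nat_lit 4112651995) (nat_lit 294) (nat_lit 5) (nat_lit 293) (nat_lit 5) (nat_lit 309) (nat_lit 5) (nat_lit 440) (nat_lit 434) (nat_lit 326))))))))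
noncomputable def xc172 : XT := (XT.nd (nat_lit 2340) (nat_lit 5852) (nat_lit 0) (XT.nd (nat_lit 1170) (nat_lit 4332) (nat_lit 0) (XT.nd (nat_lit 546) (nat_lit 2356) (nat_lit 0) (XT.nd (nat_lit 234) (nat_lit 1064) (nat_lit 0) (XT.nd (nat_lit 78) (nat_lit 0) (nat_lit 76) (XT.lf (nat_lit 76) (nat_lit 8591360608) (nat_lit 0) (nat_lit 682576094) (nat_lit 1216) (nat_lit 3358463722) (nat_lit 294) (nat_lit 5) (nat_lit 293) (nat_lit 5) (nat_lit 309) (nat_lit 5) (nat_lit 441) (nat_lit 434) (nat_lit 325)) (XT.nd (nat_lit 78) (nat_lit 0) (nat_lit 0) (XT.lf (nat_lit 76) (nat_lit 2450516605) (nat_lit 0) (nat_lit 7839938208) (nat_lit 1216) (nat_lit 2524967382) (nat_lit 295) (nat_lit 5) (nat_lit 294) (nat_lit 5) (nat_lit 310) (nat_lit 5) (nat_lit 442) (nat_lit 434) (nat_lit 324)) (XT.lf (nat_lit 76) (nat_lit 9201443989) (nat_lit 0) (nat_lit 2166900574) (nat_lit 1216) (nat_lit 1634667769) (nat_lit 295) (nat_lit 5) (nat_lit 294)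 (nat_lit 5) (nat_lit 310) (nat_lit 5) (nat_lit 443) (nat_lit 434) (nat_lit 323)))) (XT.nd (nat_lit 156) (nat_lit 0) (nat_lit 76) (XT.nd (nat_lit 78) (nat_lit 1216) (nat_lit 0) (XT.lf (nat_lit 76) (nat_lit 2969752275) (nat_lit 0) (nat_lit 9556616144) (nat_lit 1216) (nat_lit 668431711) (nat_lit 296) (nat_lit 5) (nat_lit 295) (nat_lit 5) (nat_lit 311) (nat_lit 5) (nat_lit 444) (nat_lit 434) (nat_lit 322)) (XT.lf (nat_lit 0) (nat_lit 364748144) (nat_lit 1216) (nat_lit 3405759893) (nat_lit 1292) (nat_lit 9620412934) (nat_lit 279) (nat_lit 5) (nat_lit 295) (nat_lit 5) (nat_lit 296) (nat_lit 5) (nat_lit 445) (nat_lit 434) (nat_lit 321))) (XT.nd (nat_lit 78) (nat_lit 0) (nat_lit 0) (XT.lf (nat_lit 0) (nat_lit 1456854616) (nat_lit 1216) (nat_lit 9941887643) (nat_lit 1292) (nat_lit 2192747205) (nat_lit 280) (nat_lit 5) (nat_lit 296) (nat_lit 5) (nat_lit 297) (nat_lit 5) (nat_lit 446) (nat_lit 434) (nat_lit 320)) (XT.lf (nat_lit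 0) (nat_lit 2638738950) (nat_lit 1216) (nat_lit 2860050554) (nat_lit 1292) (nat_lit 8297578512) (nat_lit 280) (nat_lit 5) (nat_lit 296) (nat_lit 5) (nat_lit 297) (nat_lit 5) (nat_lit 447) (nat_lit 434) (nat_lit 319))))) (XT.nd (nat_lit 312) (nat_lit 2508) (nat_lit 0) (XT.nd (nat_lit 156) (nat_lit 0) (nat_lit 0) (XT.nd (nat_lit 78) (nat_lit 0) (nat_lit 0) (XT.lf (nat_lit 0) (nat_lit 3890847448) (nat_lit 1216) (nat_lit 9501718255) (nat_lit 1292) (nat_lit 613787538) (nat_lit 281) (nat_lit 5) (nat_lit 297) (nat_lit 5) (nat_lit 298) (nat_lit 5) (nat_lit 448) (nat_lit 434) (nat_lit 318)) (XT.lf (nat_lit 0) (nat_lit 5249864084) (nat_lit 1216) (nat_lit 2139391483) (nat_lit 1292) (nat_lit 6831305361) (nat_lit 281) (nat_lit 5) (nat_lit 297) (nat_lit 5) (nat_lit 298) (nat_lit 5) (nat_lit 449) (nat_lit 434) (nat_lit 317))) (XT.nd (nat_lit 78) (nat_lit 0) (nat_lit 76) (XT.lf (nat_lit 76) (nat_lit 5540483172) (nat_lit 0) (nat_lit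 1148576626) (nat_lit 1292) (nat_lit 7750955941) (nat_lit 282) (nat_lit 5) (nat_lit 281) (nat_lit 5) (nat_lit 298) (nat_lit 5) (nat_lit 450) (nat_lit 434) (nat_lit 316)) (XT.lf (nat_lit 0) (nat_lit 8230463071) (nat_lit 1216) (nat_lit 1233514314) (nat_lit 76) (nat_lit 5200308924) (nat_lit 282) (nat_lit 5) (nat_lit 298) (nat_lit 5) (nat_lit 283) (nat_lit 5) (nat_lit 451) (nat_lit 434) (nat_lit 315)))) (XT.nd (nat_lit 156) (nat_lit 1368) (nat_lit 0) (XT.nd (nat_lit 78) (nat_lit 0) (nat_lit 0) (XT.lf (nat_lit 0) (nat_lit 6771842128) (nat_lit 1216) (nat_lit 3109593688) (nat_lit 1292) (nat_lit 5011952330) (nat_lit 266) (nat_lit 5) (nat_lit 282) (nat_lit 5) (nat_lit 283) (nat_lit 5) (nat_lit 452) (nat_lit 434) (nat_lit 314)) (XT.lf (nat_lit 0) (nat_lit 11614689874) (nat_lit 1292) (nat_lit 131196303) (nat_lit 76) (nat_lit 3382497184) (nat_lit 266) (nat_lit 5) (nat_lit 283) (nat_lit 5) (nat_lit 267) (nat_lit 5) (nat_lit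 453) (nat_lit 434) (nat_lit 313))) (XT.nd (nat_lit 78) (nat_lit 608) (nat_lit 0) (XT.lf (nat_lit 0) (nat_lit 8217055791) (nat_lit 760) (nat_lit 5280184829) (nat_lit 836) (nat_lit 1870271643) (nat_lit 256) (nat_lit 5) (nat_lit 266) (nat_lit 5) (nat_lit 267) (nat_lit 5) (nat_lit 454) (nat_lit 434) (nat_lit 312)) (XT.lf (nat_lit 0) (nat_lit 1203243928) (nat_lit 608) (nat_lit 14246976866) (nat_lit 684) (nat_lit 163178371) (nat_lit 248) (nat_lit 5) (nat_lit 256) (nat_lit 5) (nat_lit 257) (nat_lit 5) (nat_lit 455) (nat_lit 434) (nat_lit 311)))))) (XT.nd (nat_lit 546) (nat_lit 2584) (nat_lit 0) (XT.nd (nat_lit 234) (nat_lit 1064) (nat_lit 0) (XT.nd (nat_lit 78) (nat_lit 608) (nat_lit 0) (XT.lf (nat_lit 0) (nat_lit 1677112630) (nat_lit 684) (nat_lit 5990451885) (nat_lit 76) (nat_lit 8195247375) (nat_lit 247) (nat_lit 5) (nat_lit 256) (nat_lit 5) (nat_lit 248) (nat_lit 5) (nat_lit 456) (nat_lit 434) (nat_lit 310)) (XT.nd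 (nat_lit 78) (nat_lit 0) (nat_lit 0) (XT.lf (nat_lit 0) (nat_lit 2721923254) (nat_lit 608) (nat_lit 861838315) (nat_lit 684) (nat_lit 12535466581) (nat_lit 239) (nat_lit 5) (nat_lit 247) (nat_lit 5) (nat_lit 248) (nat_lit 5) (nat_lit 457) (nat_lit 434) (nat_lit 309)) (XT.lf (nat_lit 0) (nat_lit 5656298803) (nat_lit 684) (nat_lit 4634407601) (nat_lit 76) (nat_lit 6089372247) (nat_lit 239) (nat_lit 5) (nat_lit 248) (nat_lit 5) (nat_lit 240) (nat_lit 5) (nat_lit 458) (nat_lit 434) (nat_lit 308)))) (XT.nd (nat_lit 156) (nat_lit 532) (nat_lit 0) (XT.nd (nat_lit 78) (nat_lit 0) (nat_lit 0) (XT.lf (nat_lit 0) (nat_lit 4458529356) (nat_lit 532) (nat_lit 3372708104) (nat_lit 608) (nat_lit 8816312795) (nat_lit 232) (nat_lit 5) (nat_lit 239) (nat_lit 5) (nat_lit 240) (nat_lit 5) (nat_lit 459) (nat_lit 434) (nat_lit 307)) (XT.lf (nat_lit 0) (nat_lit 10143809737) (nat_lit 608) (nat_lit 3050458157) (nat_lit 76) (nat_lit 3726608826)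 (nat_lit 232) (nat_lit 5) (nat_lit 240) (nat_lit 5) (nat_lit 233) (nat_lit 5) (nat_lit 460) (nat_lit 434) (nat_lit 306))) (XT.nd (nat_lit 78) (nat_lit 0) (nat_lit 0) (XT.lf (nat_lit 0) (nat_lit 6443404792) (nat_lit 532) (nat_lit 6167053626) (nat_lit 608) (nat_lit 4589405798) (nat_lit 225) (nat_lit 5) (nat_lit 232) (nat_lit 5) (nat_lit 233) (nat_lit 5) (nat_lit 461) (nat_lit 434) (nat_lit 305)) (XT.lf (nat_lit 0) (nat_lit 15182074965) (nat_lit 608) (nat_lit 1223678527) (nat_lit 76) (nat_lit 1080540940) (nat_lit 225) (nat_lit 5) (nat_lit 233) (nat_lit 5) (nat_lit 226) (nat_lit 5) (nat_lit 462) (nat_lit 434) (nat_lit 304))))) (XT.nd (nat_lit 312) (nat_lit 988) (nat_lit 0) (XT.nd (nat_lit 156) (nat_lit 456) (nat_lit 0) (XT.nd (nat_lit 78) (nat_lit 532) (nat_lit 0) (XT.lf (nat_lit 0) (nat_lit 184372805) (nat_lit 608) (nat_lit 9086507620) (nat_lit 76) (nat_lit 8506350371) (nat_lit 217) (nat_lit 5) (nat_lit 225) (nat_lit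 5) (nat_lit 218) (nat_lit 5) (nat_lit 463) (nat_lit 434) (nat_lit 303)) (XT.lf (nat_lit 0) (nat_lit 833282677) (nat_lit 532) (nat_lit 1878474933) (nat_lit 608) (nat_lit 15364141766) (nat_lit 210) (nat_lit 5) (nat_lit 217) (nat_lit 5) (nat_lit 218) (nat_lit 5) (nat_lit 464) (nat_lit 434) (nat_lit 302))) (XT.nd (nat_lit 78) (nat_lit 456) (nat_lit 0) (XT.lf (nat_lit 0) (nat_lit 5452896409) (nat_lit 608) (nat_lit 7211222294) (nat_lit 76) (nat_lit 5715273245) (nat_lit 210) (nat_lit 5) (nat_lit 218) (nat_lit 5) (nat_lit 211) (nat_lit 5) (nat_lit 465) (nat_lit 434) (nat_lit 301)) (XT.lf (nat_lit 0) (nat_lit 3153037859) (nat_lit 456) (nat_lit 5162559573) (nat_lit 532) (nat_lit 10375213876) (nat_lit 204) (nat_lit 5) (nat_lit 210) (nat_lit 5) (nat_lit 211) (nat_lit 5) (nat_lit 466) (nat_lit 434) (nat_lit 300)))) (XT.nd (nat_lit 156) (nat_lit 532) (nat_lit 0) (XT.nd (nat_lit 78) (nat_lit 456) (nat_lit 0) (XT.lf (nat_lit 0)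 (nat_lit 11352947167) (nat_lit 532) (nat_lit 5069874219) (nat_lit 76) (nat_lit 2586090632) (nat_lit 204) (nat_lit 5) (nat_lit 211) (nat_lit 5) (nat_lit 205) (nat_lit 5) (nat_lit 467) (nat_lit 434) (nat_lit 299)) (XT.lf (nat_lit 0) (nat_lit 5762554780) (nat_lit 456) (nat_lit 8816224936) (nat_lit 532) (nat_lit 4754856910) (nat_lit 198) (nat_lit 5) (nat_lit 204) (nat_lit 5) (nat_lit 205) (nat_lit 5) (nat_lit 468) (nat_lit 434) (nat_lit 298))) (XT.nd (nat_lit 78) (nat_lit 532) (nat_lit 0) (XT.lf (nat_lit 0) (nat_lit 17013149427) (nat_lit 456) (nat_lit 930451453) (nat_lit 532) (nat_lit 1723237377) (nat_lit 198) (nat_lit 5) (nat_lit 204) (nat_lit 5) (nat_lit 205) (nat_lit 5) (nat_lit 469) (nat_lit 434) (nat_lit 297)) (XT.lf (nat_lit 0) (nat_lit 1517288657) (nat_lit 532) (nat_lit 11339779536) (nat_lit 76) (nat_lit 7148207890) (nat_lit 191) (nat_lit 5) (nat_lit 198) (nat_lit 5) (nat_lit 192) (nat_lit 5) (nat_lit 470) (nat_lit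 434) (nat_lit 296))))))) (XT.nd (nat_lit 1170) (nat_lit 2432) (nat_lit 0) (XT.nd (nat_lit 546) (nat_lit 1748) (nat_lit 0) (XT.nd (nat_lit 234) (nat_lit 836) (nat_lit 0) (XT.nd (nat_lit 78) (nat_lit 836) (nat_lit 0) (XT.lf (nat_lit 0) (nat_lit 4847999346) (nat_lit 532) (nat_lit 11685522) (nat_lit 76) (nat_lit 15492843747) (nat_lit 191) (nat_lit 5) (nat_lit 198) (nat_lit 5) (nat_lit 192) (nat_lit 5) (nat_lit 471) (nat_lit 434) (nat_lit 295)) (XT.nd (nat_lit 78) (nat_lit 380) (nat_lit 0) (XT.lf (nat_lit 0) (nat_lit 8417967026) (nat_lit 532) (nat_lit 8863006007) (nat_lit 76) (nat_lit 3425047125) (nat_lit 185) (nat_lit 5) (nat_lit 192) (nat_lit 5) (nat_lit 186) (nat_lit 5) (nat_lit 472) (nat_lit 434) (nat_lit 294)) (XT.lf (nat_lit 0) (nat_lit 2983020711) (nat_lit 380) (nat_lit 9180630751) (nat_lit 456) (nat_lit 8904407919) (nat_lit 180) (nat_lit 5) (nat_lit 185) (nat_lit 5) (nat_lit 186) (nat_lit 5) (nat_lit 473) (nat_lit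 434) (nat_lit 293)))) (XT.nd (nat_lit 156) (nat_lit 456) (nat_lit 0) (XT.nd (nat_lit 78) (nat_lit 380) (nat_lit 0) (XT.lf (nat_lit 0) (nat_lit 15355661275) (nat_lit 380) (nat_lit 747393440) (nat_lit 456) (nat_lit 5335466036) (nat_lit 180) (nat_lit 5) (nat_lit 185) (nat_lit 5) (nat_lit 186) (nat_lit 5) (nat_lit 474) (nat_lit 434) (nat_lit 292)) (XT.lf (nat_lit 0) (nat_lit 6315956308) (nat_lit 380) (nat_lit 13973774831) (nat_lit 456) (nat_lit 1526493468) (nat_lit 175) (nat_lit 5) (nat_lit 180) (nat_lit 5) (nat_lit 181) (nat_lit 5) (nat_lit 475) (nat_lit 434) (nat_lit 291))) (XT.nd (nat_lit 78) (nat_lit 380) (nat_lit 0) (XT.lf (nat_lit 0) (nat_lit 2411531293) (nat_lit 456) (nat_lit 3033454116) (nat_lit 76) (nat_lit 16757737733) (nat_lit 174) (nat_lit 5) (nat_lit 180) (nat_lit 5) (nat_lit 175) (nat_lit 5) (nat_lit 476) (nat_lit 434) (nat_lit 290)) (XT.lf (nat_lit 0) (nat_lit 6558446181) (nat_lit 456) (nat_lit 12654076896)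 (nat_lit 76) (nat_lit 3384198492) (nat_lit 169) (nat_lit 5) (nat_lit 175) (nat_lit 5) (nat_lit 170) (nat_lit 5) (nat_lit 477) (nat_lit 434) (nat_lit 289))))) (XT.nd (nat_lit 312) (nat_lit 988) (nat_lit 0) (XT.nd (nat_lit 156) (nat_lit 380) (nat_lit 0) (XT.nd (nat_lit 78) (nat_lit 0) (nat_lit 0) (XT.lf (nat_lit 0) (nat_lit 310207755) (nat_lit 380) (nat_lit 10599839941) (nat_lit 456) (nat_lit 12090085103) (nat_lit 164) (nat_lit 5) (nat_lit 169) (nat_lit 5) (nat_lit 170) (nat_lit 5) (nat_lit 478) (nat_lit 434) (nat_lit 288)) (XT.lf (nat_lit 0) (nat_lit 13912697559) (nat_lit 380) (nat_lit 1599854957) (nat_lit 456) (nat_lit 7899484382) (nat_lit 164) (nat_lit 5) (nat_lit 169) (nat_lit 5) (nat_lit 170) (nat_lit 5) (nat_lit 479) (nat_lit 434) (nat_lit 287))) (XT.nd (nat_lit 78) (nat_lit 76) (nat_lit 0) (XT.lf (nat_lit 0) (nat_lit 4082888698) (nat_lit 304) (nat_lit 16275986034) (nat_lit 380) (nat_lit 3474252274) (nat_lit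 160) (nat_lit 5) (nat_lit 164) (nat_lit 5) (nat_lit 165) (nat_lit 5) (nat_lit 480) (nat_lit 434) (nat_lit 286)) (XT.lf (nat_lit 0) (nat_lit 1168112627) (nat_lit 380) (nat_lit 6033931920) (nat_lit 76) (nat_lit 17061328128) (nat_lit 159) (nat_lit 5) (nat_lit 164) (nat_lit 5) (nat_lit 160) (nat_lit 5) (nat_lit 481) (nat_lit 434) (nat_lit 285)))) (XT.nd (nat_lit 156) (nat_lit 608) (nat_lit 0) (XT.nd (nat_lit 78) (nat_lit 0) (nat_lit 0) (XT.lf (nat_lit 0) (nat_lit 5973562012) (nat_lit 456) (nat_lit 16515142594) (nat_lit 76) (nat_lit 2213980933) (nat_lit 154) (nat_lit 5) (nat_lit 160) (nat_lit 5) (nat_lit 155) (nat_lit 5) (nat_lit 482) (nat_lit 434) (nat_lit 284)) (XT.lf (nat_lit 0) (nat_lit 11049118112) (nat_lit 456) (nat_lit 2275763226) (nat_lit 76) (nat_lit 11826519179) (nat_lit 154) (nat_lit 5) (nat_lit 160) (nat_lit 5) (nat_lit 155) (nat_lit 5) (nat_lit 483) (nat_lit 434) (nat_lit 283))) (XT.nd (nat_lit 78) (nat_lit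 304) (nat_lit 0) (XT.lf (nat_lit 0) (nat_lit 12627640836) (nat_lit 304) (nat_lit 3763987292) (nat_lit 380) (nat_lit 9218509195) (nat_lit 150) (nat_lit 5) (nat_lit 154) (nat_lit 5) (nat_lit 155) (nat_lit 5) (nat_lit 484) (nat_lit 434) (nat_lit 282)) (XT.lf (nat_lit 0) (nat_lit 1911804491) (nat_lit 304) (nat_lit 20076054179) (nat_lit 380) (nat_lit 4091975175) (nat_lit 146) (nat_lit 5) (nat_lit 150) (nat_lit 5) (nat_lit 151) (nat_lit 5) (nat_lit 485) (nat_lit 434) (nat_lit 281)))))) (XT.nd (nat_lit 546) (nat_lit 1140) (nat_lit 0) (XT.nd (nat_lit 234) (nat_lit 912) (nat_lit 0) (XT.nd (nat_lit 78) (nat_lit 304) (nat_lit 0) (XT.lf (nat_lit 0) (nat_lit 1328243250) (nat_lit 380) (nat_lit 9100295914) (nat_lit 76) (nat_lit 16129847990) (nat_lit 145) (nat_lit 5) (nat_lit 150) (nat_lit 5) (nat_lit 146) (nat_lit 5) (nat_lit 486) (nat_lit 434) (nat_lit 280)) (XT.nd (nat_lit 78) (nat_lit 0) (nat_lit 0) (XT.lf (nat_lit 0) (nat_lit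 6496321415) (nat_lit 304) (nat_lit 388555099) (nat_lit 380) (nat_lit 20163524404) (nat_lit 141) (nat_lit 5) (nat_lit 145) (nat_lit 5) (nat_lit 146) (nat_lit 5) (nat_lit 487) (nat_lit 434) (nat_lit 279)) (XT.lf (nat_lit 0) (nat_lit 12790358657) (nat_lit 380) (nat_lit 4909023244) (nat_lit 76) (nat_lit 9848269559) (nat_lit 141) (nat_lit 5) (nat_lit 146) (nat_lit 5) (nat_lit 142) (nat_lit 5) (nat_lit 488) (nat_lit 434) (nat_lit 278)))) (XT.nd (nat_lit 156) (nat_lit 608) (nat_lit 0) (XT.nd (nat_lit 78) (nat_lit 0) (nat_lit 0) (XT.lf (nat_lit 0) (nat_lit 11412993215) (nat_lit 304) (nat_lit 7567426176) (nat_lit 380) (nat_lit 9078238538) (nat_lit 137) (nat_lit 5) (nat_lit 141) (nat_lit 5) (nat_lit 142) (nat_lit 5) (nat_lit 489) (nat_lit 434) (nat_lit 277)) (XT.lf (nat_lit 0) (nat_lit 25427738339) (nat_lit 380) (nat_lit 295527442) (nat_lit 76) (nat_lit 2859582928) (nat_lit 137) (nat_lit 5) (nat_lit 142) (nat_lit 5) (nat_lit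 138) (nat_lit 5) (nat_lit 490) (nat_lit 434) (nat_lit 276))) (XT.nd (nat_lit 78) (nat_lit 304) (nat_lit 0) (XT.lf (nat_lit 0) (nat_lit 3120917521) (nat_lit 304) (nat_lit 12357638149) (nat_lit 76) (nat_lit 13636380207) (nat_lit 133) (nat_lit 5) (nat_lit 137) (nat_lit 5) (nat_lit 134) (nat_lit 5) (nat_lit 491) (nat_lit 434) (nat_lit 275)) (XT.lf (nat_lit 0) (nat_lit 4716623775) (nat_lit 304) (nat_lit 4847666284) (nat_lit 380) (nat_lit 20096484828) (nat_lit 129) (nat_lit 5) (nat_lit 133) (nat_lit 5) (nat_lit 134) (nat_lit 5) (nat_lit 492) (nat_lit 434) (nat_lit 274))))) (XT.nd (nat_lit 312) (nat_lit 532) (nat_lit 0) (XT.nd (nat_lit 156) (nat_lit 380) (nat_lit 0) (XT.nd (nat_lit 78) (nat_lit 228) (nat_lit 0) (XT.lf (nat_lit 0) (nat_lit 16379825464) (nat_lit 380) (nat_lit 7731777188) (nat_lit 76) (nat_lit 6106021284) (nat_lit 129) (nat_lit 5) (nat_lit 134) (nat_lit 5) (nat_lit 130) (nat_lit 5) (nat_lit 493) (nat_lit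 434) (nat_lit 273)) (XT.lf (nat_lit 0) (nat_lit 10137992569) (nat_lit 228) (nat_lit 13401633793) (nat_lit 304) (nat_lit 7247358810) (nat_lit 126) (nat_lit 5) (nat_lit 129) (nat_lit 5) (nat_lit 130) (nat_lit 5) (nat_lit 494) (nat_lit 434) (nat_lit 272))) (XT.nd (nat_lit 78) (nat_lit 380) (nat_lit 0) (XT.lf (nat_lit 0) (nat_lit 28693628182) (nat_lit 228) (nat_lit 2293099772) (nat_lit 304) (nat_lit 384524771) (nat_lit 126) (nat_lit 5) (nat_lit 129) (nat_lit 5) (nat_lit 130) (nat_lit 5) (nat_lit 495) (nat_lit 434) (nat_lit 271)) (XT.lf (nat_lit 0) (nat_lit 6792889667) (nat_lit 380) (nat_lit 15983017119) (nat_lit 76) (nat_lit 9188040735) (nat_lit 121) (nat_lit 5) (nat_lit 126) (nat_lit 5) (nat_lit 122) (nat_lit 5) (nat_lit 496) (nat_lit 434) (nat_lit 270)))) (XT.nd (nat_lit 156) (nat_lit 304) (nat_lit 0) (XT.nd (nat_lit 78) (nat_lit 0) (nat_lit 0) (XT.lf (nat_lit 0) (nat_lit 2697758239) (nat_lit 228) (nat_lit 11550669111)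 (nat_lit 304) (nat_lit 18323766337) (nat_lit 118) (nat_lit 5) (nat_lit 121) (nat_lit 5) (nat_lit 122) (nat_lit 5) (nat_lit 497) (nat_lit 434) (nat_lit 269)) (XT.lf (nat_lit 0) (nat_lit 22085366413) (nat_lit 304) (nat_lit 10937629123) (nat_lit 76) (nat_lit 170960248) (nat_lit 118) (nat_lit 5) (nat_lit 122) (nat_lit 5) (nat_lit 119) (nat_lit 5) (nat_lit 498) (nat_lit 434) (nat_lit 268))) (XT.nd (nat_lit 78) (nat_lit 76) (nat_lit 0) (XT.lf (nat_lit 0) (nat_lit 8612563004) (nat_lit 228) (nat_lit 21736790553) (nat_lit 304) (nat_lit 3479259573) (nat_lit 115) (nat_lit 5) (nat_lit 118) (nat_lit 5) (nat_lit 119) (nat_lit 5) (nat_lit 499) (nat_lit 434) (nat_lit 267)) (XT.lf (nat_lit 0) (nat_lit 4399851053) (nat_lit 304) (nat_lit 5557150683) (nat_lit 76) (nat_lit 24520855717) (nat_lit 114) (nat_lit 5) (nat_lit 118) (nat_lit 5) (nat_lit 115) (nat_lit 5) (nat_lit 500) (nat_lit 434) (nat_lit 266))))))))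
noncomputable def xc173 : XT := (XT.nd (nat_lit 2340) (nat_lit 1292) (nat_lit 0) (XT.nd (nat_lit 1170) (nat_lit 1672) (nat_lit 0) (XT.nd (nat_lit 546) (nat_lit 1064) (nat_lit 0) (XT.nd (nat_lit 234) (nat_lit 456) (nat_lit 0) (XT.nd (nat_lit 78) (nat_lit 228) (nat_lit 0) (XT.lf (nat_lit 0) (nat_lit 12606632335) (nat_lit 304) (nat_lit 20223624495) (nat_lit 76) (nat_lit 2310452558) (nat_lit 111) (nat_lit 5) (nat_lit 115) (nat_lit 5) (nat_lit 112) (nat_lit 5) (nat_lit 501) (nat_lit 434) (nat_lit 265)) (XT.nd (nat_lit 78) (nat_lit 0) (nat_lit 0) (XT.lf (nat_lit 0) (nat_lit 194116218) (nat_lit 228) (nat_lit 21017620651) (nat_lit 304) (nat_lit 14607146936) (nat_lit 108) (nat_lit 5) (nat_lit 111) (nat_lit 5) (nat_lit 112) (nat_lit 5) (nat_lit 502) (nat_lit 434) (nat_lit 264)) (XT.lf (nat_lit 0) (nat_lit 21630802143) (nat_lit 228) (nat_lit 8643476432) (nat_lit 304) (nat_lit 6237146864) (nat_lit 108) (nat_lit 5) (nat_lit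 111) (nat_lit 5) (nat_lit 112) (nat_lit 5) (nat_lit 503) (nat_lit 434) (nat_lit 263)))) (XT.nd (nat_lit 156) (nat_lit 228) (nat_lit 0) (XT.nd (nat_lit 78) (nat_lit 0) (nat_lit 0) (XT.lf (nat_lit 0) (nat_lit 2436130978) (nat_lit 228) (nat_lit 30679171858) (nat_lit 76) (nat_lit 4105792562) (nat_lit 105) (nat_lit 5) (nat_lit 108) (nat_lit 5) (nat_lit 106) (nat_lit 5) (nat_lit 504) (nat_lit 434) (nat_lit 262)) (XT.lf (nat_lit 0) (nat_lit 11476773785) (nat_lit 228) (nat_lit 9192228855) (nat_lit 76) (nat_lit 17274224848) (nat_lit 105) (nat_lit 5) (nat_lit 108) (nat_lit 5) (nat_lit 106) (nat_lit 5) (nat_lit 505) (nat_lit 434) (nat_lit 261))) (XT.nd (nat_lit 78) (nat_lit 0) (nat_lit 0) (XT.lf (nat_lit 0) (nat_lit 13188873558) (nat_lit 228) (nat_lit 7721877022) (nat_lit 304) (nat_lit 17772609967) (nat_lit 102) (nat_lit 5) (nat_lit 105) (nat_lit 5) (nat_lit 106) (nat_lit 5) (nat_lit 506) (nat_lit 434) (nat_lit 260)) (XT.lf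 (nat_lit 0) (nat_lit 30770817767) (nat_lit 304) (nat_lit 3075796330) (nat_lit 76) (nat_lit 5594791803) (nat_lit 102) (nat_lit 5) (nat_lit 106) (nat_lit 5) (nat_lit 103) (nat_lit 5) (nat_lit 507) (nat_lit 434) (nat_lit 259))))) (XT.nd (nat_lit 312) (nat_lit 456) (nat_lit 0) (XT.nd (nat_lit 156) (nat_lit 152) (nat_lit 0) (XT.nd (nat_lit 78) (nat_lit 228) (nat_lit 0) (XT.lf (nat_lit 0) (nat_lit 960755388) (nat_lit 228) (nat_lit 19895531595) (nat_lit 76) (nat_lit 19357602633) (nat_lit 99) (nat_lit 5) (nat_lit 102) (nat_lit 5) (nat_lit 100) (nat_lit 5) (nat_lit 508) (nat_lit 434) (nat_lit 258)) (XT.lf (nat_lit 0) (nat_lit 3442155982) (nat_lit 228) (nat_lit 7324583872) (nat_lit 304) (nat_lit 30238433839) (nat_lit 96) (nat_lit 5) (nat_lit 99) (nat_lit 5) (nat_lit 100) (nat_lit 5) (nat_lit 509) (nat_lit 434) (nat_lit 257))) (XT.nd (nat_lit 78) (nat_lit 152) (nat_lit 0) (XT.lf (nat_lit 0) (nat_lit 21128911406) (nat_lit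 304) (nat_lit 13999572089) (nat_lit 76) (nat_lit 6683852958) (nat_lit 96) (nat_lit 5) (nat_lit 100) (nat_lit 5) (nat_lit 97) (nat_lit 5) (nat_lit 510) (nat_lit 434) (nat_lit 256)) (XT.lf (nat_lit 0) (nat_lit 10393638637) (nat_lit 152) (nat_lit 21576413555) (nat_lit 228) (nat_lit 10668619155) (nat_lit 94) (nat_lit 5) (nat_lit 96) (nat_lit 5) (nat_lit 97) (nat_lit 5) (nat_lit 511) (nat_lit 434) (nat_lit 255)))) (XT.nd (nat_lit 156) (nat_lit 152) (nat_lit 0) (XT.nd (nat_lit 78) (nat_lit 304) (nat_lit 0) (XT.lf (nat_lit 0) (nat_lit 35798261122) (nat_lit 152) (nat_lit 7475263000) (nat_lit 228) (nat_lit 212159625) (nat_lit 94) (nat_lit 5) (nat_lit 96) (nat_lit 5) (nat_lit 97) (nat_lit 5) (nat_lit 512) (nat_lit 434) (nat_lit 254)) (XT.lf (nat_lit 0) (nat_lit 10589764500) (nat_lit 304) (nat_lit 26574031048) (nat_lit 76) (nat_lit 7184132758) (nat_lit 90) (nat_lit 5) (nat_lit 94) (nat_lit 5) (nat_lit 91) (nat_lit 5) (nat_lit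 513) (nat_lit 434) (nat_lit 253))) (XT.nd (nat_lit 78) (nat_lit 152) (nat_lit 0) (XT.lf (nat_lit 0) (nat_lit 21859726915) (nat_lit 304) (nat_lit 1161207435) (nat_lit 76) (nat_lit 22210595824) (nat_lit 90) (nat_lit 5) (nat_lit 94) (nat_lit 5) (nat_lit 91) (nat_lit 5) (nat_lit 514) (nat_lit 434) (nat_lit 252)) (XT.lf (nat_lit 0) (nat_lit 25504643937) (nat_lit 152) (nat_lit 8204267565) (nat_lit 228) (nat_lit 12425495223) (nat_lit 88) (nat_lit 5) (nat_lit 90) (nat_lit 5) (nat_lit 91) (nat_lit 5) (nat_lit 515) (nat_lit 434) (nat_lit 251)))))) (XT.nd (nat_lit 546) (nat_lit 912) (nat_lit 0) (XT.nd (nat_lit 234) (nat_lit 380) (nat_lit 0) (XT.nd (nat_lit 78) (nat_lit 228) (nat_lit 0) (XT.lf (nat_lit 0) (nat_lit 5971769309) (nat_lit 152) (nat_lit 40074862954) (nat_lit 228) (nat_lit 1013745803) (nat_lit 86) (nat_lit 5) (nat_lit 88) (nat_lit 5) (nat_lit 89) (nat_lit 5) (nat_lit 516) (nat_lit 434) (nat_lit 250)) (XT.nd (nat_lit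 78) (nat_lit 152) (nat_lit 0) (XT.lf (nat_lit 0) (nat_lit 10818375488) (nat_lit 228) (nat_lit 14407255076) (nat_lit 76) (nat_lit 22776772922) (nat_lit 85) (nat_lit 5) (nat_lit 88) (nat_lit 5) (nat_lit 86) (nat_lit 5) (nat_lit 517) (nat_lit 434) (nat_lit 249)) (XT.lf (nat_lit 0) (nat_lit 13317503132) (nat_lit 152) (nat_lit 9791704124) (nat_lit 228) (nat_lit 25859457924) (nat_lit 83) (nat_lit 5) (nat_lit 85) (nat_lit 5) (nat_lit 86) (nat_lit 5) (nat_lit 518) (nat_lit 434) (nat_lit 248)))) (XT.nd (nat_lit 156) (nat_lit 228) (nat_lit 0) (XT.nd (nat_lit 78) (nat_lit 152) (nat_lit 0) (XT.lf (nat_lit 0) (nat_lit 35970502462) (nat_lit 228) (nat_lit 7857230532) (nat_lit 76) (nat_lit 6130129854) (nat_lit 83) (nat_lit 5) (nat_lit 86) (nat_lit 5) (nat_lit 84) (nat_lit 5) (nat_lit 519) (nat_lit 434) (nat_lit 247)) (XT.lf (nat_lit 0) (nat_lit 21078192229) (nat_lit 152) (nat_lit 28435246891) (nat_lit 228) (nat_lit 1454423521)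 (nat_lit 81) (nat_lit 5) (nat_lit 83) (nat_lit 5) (nat_lit 84) (nat_lit 5) (nat_lit 520) (nat_lit 434) (nat_lit 246))) (XT.nd (nat_lit 78) (nat_lit 152) (nat_lit 0) (XT.lf (nat_lit 0) (nat_lit 11307358441) (nat_lit 228) (nat_lit 1080632129) (nat_lit 76) (nat_lit 39614577616) (nat_lit 80) (nat_lit 5) (nat_lit 83) (nat_lit 5) (nat_lit 81) (nat_lit 5) (nat_lit 521) (nat_lit 434) (nat_lit 245)) (XT.lf (nat_lit 0) (nat_lit 24741924757) (nat_lit 228) (nat_lit 23961873673) (nat_lit 76) (nat_lit 4354509806) (nat_lit 78) (nat_lit 5) (nat_lit 81) (nat_lit 5) (nat_lit 79) (nat_lit 5) (nat_lit 522) (nat_lit 434) (nat_lit 244))))) (XT.nd (nat_lit 312) (nat_lit 532) (nat_lit 0) (XT.nd (nat_lit 156) (nat_lit 228) (nat_lit 0) (XT.nd (nat_lit 78) (nat_lit 0) (nat_lit 0) (XT.lf (nat_lit 0) (nat_lit 6044233475) (nat_lit 152) (nat_lit 32723442699) (nat_lit 228) (nat_lit 15372400113) (nat_lit 76) (nat_lit 5) (nat_lit 78) (nat_lit 5)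 (nat_lit 79) (nat_lit 5) (nat_lit 523) (nat_lit 434) (nat_lit 243)) (XT.lf (nat_lit 0) (nat_lit 37435260786) (nat_lit 152) (nat_lit 16017324397) (nat_lit 228) (nat_lit 1794560878) (nat_lit 76) (nat_lit 5) (nat_lit 78) (nat_lit 5) (nat_lit 79) (nat_lit 5) (nat_lit 524) (nat_lit 434) (nat_lit 242))) (XT.nd (nat_lit 78) (nat_lit 0) (nat_lit 0) (XT.lf (nat_lit 0) (nat_lit 12093047500) (nat_lit 228) (nat_lit 42873068624) (nat_lit 76) (nat_lit 1413587014) (nat_lit 73) (nat_lit 5) (nat_lit 76) (nat_lit 5) (nat_lit 74) (nat_lit 5) (nat_lit 525) (nat_lit 434) (nat_lit 241)) (XT.lf (nat_lit 0) (nat_lit 26697950365) (nat_lit 228) (nat_lit 11595496261) (nat_lit 76) (nat_lit 19242155424) (nat_lit 73) (nat_lit 5) (nat_lit 76) (nat_lit 5) (nat_lit 74) (nat_lit 5) (nat_lit 526) (nat_lit 434) (nat_lit 240)))) (XT.nd (nat_lit 156) (nat_lit 380) (nat_lit 0) (XT.nd (nat_lit 78) (nat_lit 0) (nat_lit 0) (XT.lf (nat_lit 0) (nat_lit 21024496806)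 (nat_lit 152) (nat_lit 20915207524) (nat_lit 228) (nat_lit 16780512685) (nat_lit 71) (nat_lit 5) (nat_lit 73) (nat_lit 5) (nat_lit 74) (nat_lit 5) (nat_lit 527) (nat_lit 434) (nat_lit 239)) (XT.lf (nat_lit 0) (nat_lit 54854676338) (nat_lit 152) (nat_lit 2897770237) (nat_lit 228) (nat_lit 2184511988) (nat_lit 71) (nat_lit 5) (nat_lit 73) (nat_lit 5) (nat_lit 74) (nat_lit 5) (nat_lit 528) (nat_lit 434) (nat_lit 238))) (XT.nd (nat_lit 78) (nat_lit 152) (nat_lit 0) (XT.lf (nat_lit 0) (nat_lit 13028063236) (nat_lit 228) (nat_lit 32387871680) (nat_lit 76) (nat_lit 15757679192) (nat_lit 68) (nat_lit 5) (nat_lit 71) (nat_lit 5) (nat_lit 69) (nat_lit 5) (nat_lit 529) (nat_lit 434) (nat_lit 237)) (XT.lf (nat_lit 0) (nat_lit 1296623485) (nat_lit 152) (nat_lit 27446191772) (nat_lit 228) (nat_lit 33701214200) (nat_lit 66) (nat_lit 5) (nat_lit 68) (nat_lit 5) (nat_lit 69) (nat_lit 5) (nat_lit 530) (nat_lit 434) (nat_lit 236)))))))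 (XT.nd (nat_lit 1170) (nat_lit 76) (nat_lit 0) (XT.nd (nat_lit 546) (nat_lit 760) (nat_lit 0) (XT.nd (nat_lit 234) (nat_lit 304) (nat_lit 0) (XT.nd (nat_lit 78) (nat_lit 152) (nat_lit 0) (XT.lf (nat_lit 0) (nat_lit 36649621558) (nat_lit 152) (nat_lit 8603202663) (nat_lit 228) (nat_lit 18490018794) (nat_lit 66) (nat_lit 5) (nat_lit 68) (nat_lit 5) (nat_lit 69) (nat_lit 5) (nat_lit 531) (nat_lit 434) (nat_lit 235)) (XT.nd (nat_lit 78) (nat_lit 76) (nat_lit 0) (XT.lf (nat_lit 0) (nat_lit 8029561823) (nat_lit 76) (nat_lit 54406451123) (nat_lit 152) (nat_lit 2639271822) (nat_lit 65) (nat_lit 5) (nat_lit 66) (nat_lit 5) (nat_lit 67) (nat_lit 4) (nat_lit 532) (nat_lit 434) (nat_lit 234)) (XT.lf (nat_lit 0) (nat_lit 13778227295) (nat_lit 152) (nat_lit 21903389125) (nat_lit 76) (nat_lit 30751387114) (nat_lit 64) (nat_lit 5) (nat_lit 66) (nat_lit 5) (nat_lit 65) (nat_lit 5) (nat_lit 533) (nat_lit 434) (nat_lit 233)))) (XT.nd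 (nat_lit 156) (nat_lit 152) (nat_lit 0) (XT.nd (nat_lit 78) (nat_lit 0) (nat_lit 0) (XT.lf (nat_lit 0) (nat_lit 14545230355) (nat_lit 152) (nat_lit 16226719045) (nat_lit 228) (nat_lit 37054618337) (nat_lit 62) (nat_lit 5) (nat_lit 64) (nat_lit 5) (nat_lit 65) (nat_lit 5) (nat_lit 534) (nat_lit 434) (nat_lit 232)) (XT.lf (nat_lit 0) (nat_lit 48532433590) (nat_lit 228) (nat_lit 16763521972) (nat_lit 76) (nat_lit 3958274945) (nat_lit 62) (nat_lit 5) (nat_lit 65) (nat_lit 5) (nat_lit 63) (nat_lit 4) (nat_lit 535) (nat_lit 434) (nat_lit 231))) (XT.nd (nat_lit 78) (nat_lit 76) (nat_lit 0) (XT.lf (nat_lit 0) (nat_lit 21095284672) (nat_lit 76) (nat_lit 46090915824) (nat_lit 152) (nat_lit 3527708770) (nat_lit 61) (nat_lit 5) (nat_lit 62) (nat_lit 5) (nat_lit 63) (nat_lit 4) (nat_lit 536) (nat_lit 434) (nat_lit 230)) (XT.lf (nat_lit 0) (nat_lit 14073442472) (nat_lit 152) (nat_lit 11922345429) (nat_lit 76) (nat_lit 46212461200)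 (nat_lit 60) (nat_lit 5) (nat_lit 62) (nat_lit 5) (nat_lit 61) (nat_lit 5) (nat_lit 537) (nat_lit 434) (nat_lit 229))))) (XT.nd (nat_lit 312) (nat_lit 456) (nat_lit 0) (XT.nd (nat_lit 156) (nat_lit 152) (nat_lit 0) (XT.nd (nat_lit 78) (nat_lit 0) (nat_lit 0) (XT.lf (nat_lit 0) (nat_lit 27399179470) (nat_lit 152) (nat_lit 4993041025) (nat_lit 228) (nat_lit 41346336066) (nat_lit 58) (nat_lit 5) (nat_lit 60) (nat_lit 5) (nat_lit 61) (nat_lit 5) (nat_lit 538) (nat_lit 434) (nat_lit 228)) (XT.lf (nat_lit 0) (nat_lit 51539225096) (nat_lit 228) (nat_lit 7332939512) (nat_lit 76) (nat_lit 16434248875) (nat_lit 58) (nat_lit 5) (nat_lit 61) (nat_lit 5) (nat_lit 59) (nat_lit 4) (nat_lit 539) (nat_lit 434) (nat_lit 227))) (XT.nd (nat_lit 78) (nat_lit 76) (nat_lit 0) (XT.lf (nat_lit 0) (nat_lit 33441597161) (nat_lit 76) (nat_lit 38187150586) (nat_lit 152) (nat_lit 5281515257) (nat_lit 57) (nat_lit 5) (nat_lit 58) (nat_lit 5)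 (nat_lit 59) (nat_lit 4) (nat_lit 540) (nat_lit 434) (nat_lit 226)) (XT.lf (nat_lit 0) (nat_lit 13562242048) (nat_lit 152) (nat_lit 3108537353) (nat_lit 76) (nat_lit 61885321123) (nat_lit 56) (nat_lit 5) (nat_lit 58) (nat_lit 5) (nat_lit 57) (nat_lit 5) (nat_lit 541) (nat_lit 434) (nat_lit 225)))) (XT.nd (nat_lit 156) (nat_lit 228) (nat_lit 0) (XT.nd (nat_lit 78) (nat_lit 76) (nat_lit 0) (XT.lf (nat_lit 0) (nat_lit 33295981209) (nat_lit 228) (nat_lit 41126174511) (nat_lit 76) (nat_lit 5814664130) (nat_lit 54) (nat_lit 5) (nat_lit 57) (nat_lit 5) (nat_lit 55) (nat_lit 4) (nat_lit 542) (nat_lit 434) (nat_lit 224)) (XT.lf (nat_lit 0) (nat_lit 533056268) (nat_lit 76) (nat_lit 53287862296) (nat_lit 152) (nat_lit 28141066728) (nat_lit 53) (nat_lit 5) (nat_lit 54) (nat_lit 5) (nat_lit 55) (nat_lit 4) (nat_lit 543) (nat_lit 434) (nat_lit 223))) (XT.nd (nat_lit 78) (nat_lit 228) (nat_lit 0) (XT.lf (nat_lit 0) (nat_lit 44280076080)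 (nat_lit 76) (nat_lit 31094155630) (nat_lit 152) (nat_lit 8352295268) (nat_lit 53) (nat_lit 5) (nat_lit 54) (nat_lit 5) (nat_lit 55) (nat_lit 4) (nat_lit 544) (nat_lit 434) (nat_lit 222)) (XT.lf (nat_lit 0) (nat_lit 3748058987) (nat_lit 152) (nat_lit 8080743499) (nat_lit 228) (nat_lit 73710730866) (nat_lit 50) (nat_lit 5) (nat_lit 52) (nat_lit 5) (nat_lit 53) (nat_lit 5) (nat_lit 545) (nat_lit 434) (nat_lit 221)))))) (XT.nd (nat_lit 54210) (nat_lit 0) (nat_lit 17480) (XT.nd (nat_lit 53898) (nat_lit 0) (nat_lit 18392) (XT.nd (nat_lit 156) (nat_lit 0) (nat_lit 0) (XT.nd (nat_lit 78) (nat_lit 76) (nat_lit 0) (XT.lf (nat_lit 0) (nat_lit 32997307331) (nat_lit 228) (nat_lit 38589727323) (nat_lit 76) (nat_lit 15800919075) (nat_lit 50) (nat_lit 5) (nat_lit 53) (nat_lit 5) (nat_lit 51) (nat_lit 4) (nat_lit 546) (nat_lit 434) (nat_lit 220)) (XT.lf (nat_lit 0) (nat_lit 5939156470) (nat_lit 76) (nat_lit 48996277773) (nat_lit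 152) (nat_lit 34352355567) (nat_lit 49) (nat_lit 5) (nat_lit 50) (nat_lit 5) (nat_lit 51) (nat_lit 4) (nat_lit 547) (nat_lit 434) (nat_lit 219))) (XT.nd (nat_lit 53664) (nat_lit 0) (nat_lit 18392) (XT.lf (nat_lit 0) (nat_lit 52590202807) (nat_lit 76) (nat_lit 25328679505) (nat_lit 152) (nat_lit 13314123438) (nat_lit 49) (nat_lit 5) (nat_lit 50) (nat_lit 5) (nat_lit 51) (nat_lit 4) (nat_lit 548) (nat_lit 434) (nat_lit 218)) (XT.lf (nat_lit 0) (nat_lit 1269834543) (nat_lit 0) (nat_lit 1269834543) (nat_lit 1140) (nat_lit 3347951778) (nat_lit 291) (nat_lit 5) (nat_lit 291) (nat_lit 3) (nat_lit 306) (nat_lit 3) (nat_lit 435) (nat_lit 435) (nat_lit 330)))) (XT.nd (nat_lit 156) (nat_lit 0) (nat_lit 76) (XT.nd (nat_lit 78) (nat_lit 0) (nat_lit 0) (XT.lf (nat_lit 0) (nat_lit 5673057840) (nat_lit 1140) (nat_lit 3486407999) (nat_lit 1216) (nat_lit 2776759946) (nat_lit 291) (nat_lit 5) (nat_lit 306) (nat_lit 3) (nat_lit 307)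 (nat_lit 5) (nat_lit 436) (nat_lit 435) (nat_lit 329)) (XT.lf (nat_lit 76) (nat_lit 2447609722) (nat_lit 0) (nat_lit 3866609213) (nat_lit 1216) (nat_lit 5786936162) (nat_lit 292) (nat_lit 5) (nat_lit 291) (nat_lit 5) (nat_lit 307) (nat_lit 5) (nat_lit 437) (nat_lit 435) (nat_lit 328))) (XT.nd (nat_lit 78) (nat_lit 0) (nat_lit 0) (XT.lf (nat_lit 0) (nat_lit 7006900728) (nat_lit 1140) (nat_lit 3665226293) (nat_lit 1216) (nat_lit 1597941191) (nat_lit 292) (nat_lit 5) (nat_lit 307) (nat_lit 5) (nat_lit 308) (nat_lit 5) (nat_lit 438) (nat_lit 435) (nat_lit 327)) (XT.lf (nat_lit 76) (nat_lit 2502831150) (nat_lit 0) (nat_lit 5261907901) (nat_lit 1216) (nat_lit 4677982750) (nat_lit 293) (nat_lit 5) (nat_lit 292) (nat_lit 5) (nat_lit 308) (nat_lit 5) (nat_lit 439) (nat_lit 435) (nat_lit 326))))) (XT.nd (nat_lit 312) (nat_lit 1064) (nat_lit 0) (XT.nd (nat_lit 156) (nat_lit 0) (nat_lit 0) (XT.nd (nat_lit 78) (nat_lit 0) (nat_lit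 0) (XT.lf (nat_lit 0) (nat_lit 8568203144) (nat_lit 1140) (nat_lit 3702697177) (nat_lit 1216) (nat_lit 348972200) (nat_lit 293) (nat_lit 5) (nat_lit 308) (nat_lit 5) (nat_lit 309) (nat_lit 5) (nat_lit 440) (nat_lit 435) (nat_lit 325)) (XT.lf (nat_lit 76) (nat_lit 2711785971) (nat_lit 0) (nat_lit 6745186281) (nat_lit 1216) (nat_lit 3343533590) (nat_lit 294) (nat_lit 5) (nat_lit 293) (nat_lit 5) (nat_lit 309) (nat_lit 5) (nat_lit 441) (nat_lit 435) (nat_lit 324))) (XT.nd (nat_lit 78) (nat_lit 0) (nat_lit 76) (XT.lf (nat_lit 76) (nat_lit 9384064891) (nat_lit 0) (nat_lit 1009157961) (nat_lit 1216) (nat_lit 2592714755) (nat_lit 294) (nat_lit 5) (nat_lit 293) (nat_lit 5) (nat_lit 309) (nat_lit 5) (nat_lit 442) (nat_lit 435) (nat_lit 323)) (XT.lf (nat_lit 76) (nat_lit 3081849912) (nat_lit 0) (nat_lit 8336394792) (nat_lit 1216) (nat_lit 1756870989) (nat_lit 295) (nat_lit 5) (nat_lit 294) (nat_lit 5) (nat_lit 310) (nat_lit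 5) (nat_lit 443) (nat_lit 435) (nat_lit 322)))) (XT.nd (nat_lit 156) (nat_lit 0) (nat_lit 0) (XT.nd (nat_lit 78) (nat_lit 1140) (nat_lit 0) (XT.lf (nat_lit 76) (nat_lit 10019057997) (nat_lit 0) (nat_lit 2485556559) (nat_lit 1216) (nat_lit 864440410) (nat_lit 295) (nat_lit 5) (nat_lit 294) (nat_lit 5) (nat_lit 310) (nat_lit 5) (nat_lit 444) (nat_lit 435) (nat_lit 321)) (XT.lf (nat_lit 0) (nat_lit 107904024) (nat_lit 1216) (nat_lit 9946931195) (nat_lit 1292) (nat_lit 3512338670) (nat_lit 279) (nat_lit 5) (nat_lit 295) (nat_lit 5) (nat_lit 296) (nat_lit 5) (nat_lit 445) (nat_lit 435) (nat_lit 320))) (XT.nd (nat_lit 78) (nat_lit 0) (nat_lit 76) (XT.lf (nat_lit 0) (nat_lit 1135839979) (nat_lit 1216) (nat_lit 2946524961) (nat_lit 1292) (nat_lit 9687304254) (nat_lit 279) (nat_lit 5) (nat_lit 295) (nat_lit 5) (nat_lit 296) (nat_lit 5) (nat_lit 446) (nat_lit 435) (nat_lit 319)) (XT.lf (nat_lit 0) (nat_lit 2242111182) (nat_lit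 1216) (nat_lit 9659968250) (nat_lit 1292) (nat_lit 2074738356) (nat_lit 280) (nat_lit 5) (nat_lit 296) (nat_lit 5) (nat_lit 297) (nat_lit 5) (nat_lit 447) (nat_lit 435) (nat_lit 318))))))))
noncomputable def xc174 : XT := (XT.nd (nat_lit 2340) (nat_lit 5472) (nat_lit 0) (XT.nd (nat_lit 1170) (nat_lit 3876) (nat_lit 0) (XT.nd (nat_lit 546) (nat_lit 2356) (nat_lit 0) (XT.nd (nat_lit 234) (nat_lit 1824) (nat_lit 0) (XT.nd (nat_lit 78) (nat_lit 0) (nat_lit 76) (XT.lf (nat_lit 0) (nat_lit 3437853476) (nat_lit 1216) (nat_lit 2382574380) (nat_lit 1292) (nat_lit 8368067746) (nat_lit 280) (nat_lit 5) (nat_lit 296) (nat_lit 5) (nat_lit 297) (nat_lit 5) (nat_lit 448) (nat_lit 435) (nat_lit 317)) (XT.nd (nat_lit 78) (nat_lit 0) (nat_lit 0) (XT.lf (nat_lit 0) (nat_lit 4710508126) (nat_lit 1216) (nat_lit 9206314926) (nat_lit 1292) (nat_lit 488472648) (nat_lit 281) (nat_lit 5) (nat_lit 297) (nat_lit 5) (nat_lit 298) (nat_lit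 5) (nat_lit 449) (nat_lit 435) (nat_lit 316)) (XT.lf (nat_lit 0) (nat_lit 6089821418) (nat_lit 1216) (nat_lit 1640024804) (nat_lit 1292) (nat_lit 6896702272) (nat_lit 281) (nat_lit 5) (nat_lit 297) (nat_lit 5) (nat_lit 298) (nat_lit 5) (nat_lit 450) (nat_lit 435) (nat_lit 315)))) (XT.nd (nat_lit 156) (nat_lit 1900) (nat_lit 0) (XT.nd (nat_lit 78) (nat_lit 0) (nat_lit 76) (XT.lf (nat_lit 76) (nat_lit 6264721107) (nat_lit 0) (nat_lit 1292958443) (nat_lit 1292) (nat_lit 7295347331) (nat_lit 282) (nat_lit 5) (nat_lit 281) (nat_lit 5) (nat_lit 298) (nat_lit 5) (nat_lit 451) (nat_lit 435) (nat_lit 314)) (XT.lf (nat_lit 0) (nat_lit 9124844240) (nat_lit 1216) (nat_lit 708122236) (nat_lit 76) (nat_lit 5251677906) (nat_lit 282) (nat_lit 5) (nat_lit 298) (nat_lit 5) (nat_lit 283) (nat_lit 5) (nat_lit 452) (nat_lit 435) (nat_lit 313))) (XT.nd (nat_lit 78) (nat_lit 760) (nat_lit 0) (XT.lf (nat_lit 0) (nat_lit 7531881197) (nat_lit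 1216) (nat_lit 3279959808) (nat_lit 1292) (nat_lit 4509187690) (nat_lit 266) (nat_lit 5) (nat_lit 282) (nat_lit 5) (nat_lit 283) (nat_lit 5) (nat_lit 453) (nat_lit 435) (nat_lit 312)) (XT.lf (nat_lit 0) (nat_lit 433309472) (nat_lit 760) (nat_lit 12148764189) (nat_lit 836) (nat_lit 2981454820) (nat_lit 256) (nat_lit 5) (nat_lit 266) (nat_lit 5) (nat_lit 267) (nat_lit 5) (nat_lit 454) (nat_lit 435) (nat_lit 311))))) (XT.nd (nat_lit 312) (nat_lit 1064) (nat_lit 0) (XT.nd (nat_lit 156) (nat_lit 608) (nat_lit 0) (XT.nd (nat_lit 78) (nat_lit 684) (nat_lit 0) (XT.lf (nat_lit 0) (nat_lit 9018063641) (nat_lit 760) (nat_lit 5486296059) (nat_lit 836) (nat_lit 1305977809) (nat_lit 256) (nat_lit 5) (nat_lit 266) (nat_lit 5) (nat_lit 267) (nat_lit 5) (nat_lit 455) (nat_lit 435) (nat_lit 310)) (XT.lf (nat_lit 0) (nat_lit 430844243) (nat_lit 684) (nat_lit 14261327819) (nat_lit 76) (nat_lit 1371682029) (nat_lit 247) (nat_lit 5)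 (nat_lit 256) (nat_lit 5) (nat_lit 248) (nat_lit 5) (nat_lit 456) (nat_lit 435) (nat_lit 309))) (XT.nd (nat_lit 78) (nat_lit 608) (nat_lit 0) (XT.lf (nat_lit 0) (nat_lit 2305715565) (nat_lit 684) (nat_lit 5607528114) (nat_lit 76) (nat_lit 8407981192) (nat_lit 247) (nat_lit 5) (nat_lit 256) (nat_lit 5) (nat_lit 248) (nat_lit 5) (nat_lit 457) (nat_lit 435) (nat_lit 308)) (XT.lf (nat_lit 0) (nat_lit 3360702227) (nat_lit 608) (nat_lit 897373751) (nat_lit 684) (nat_lit 12327605854) (nat_lit 239) (nat_lit 5) (nat_lit 247) (nat_lit 5) (nat_lit 248) (nat_lit 5) (nat_lit 458) (nat_lit 435) (nat_lit 307)))) (XT.nd (nat_lit 156) (nat_lit 532) (nat_lit 0) (XT.nd (nat_lit 78) (nat_lit 532) (nat_lit 0) (XT.lf (nat_lit 0) (nat_lit 6376190202) (nat_lit 684) (nat_lit 4215830614) (nat_lit 76) (nat_lit 6262838474) (nat_lit 239) (nat_lit 5) (nat_lit 248) (nat_lit 5) (nat_lit 240) (nat_lit 5) (nat_lit 459) (nat_lit 435) (nat_lit 306))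 (XT.lf (nat_lit 0) (nat_lit 5144427694) (nat_lit 532) (nat_lit 3461231542) (nat_lit 608) (nat_lit 8525020708) (nat_lit 232) (nat_lit 5) (nat_lit 239) (nat_lit 5) (nat_lit 240) (nat_lit 5) (nat_lit 460) (nat_lit 435) (nat_lit 305))) (XT.nd (nat_lit 78) (nat_lit 532) (nat_lit 0) (XT.lf (nat_lit 0) (nat_lit 10972013668) (nat_lit 608) (nat_lit 2590207240) (nat_lit 76) (nat_lit 3850456417) (nat_lit 232) (nat_lit 5) (nat_lit 240) (nat_lit 5) (nat_lit 233) (nat_lit 5) (nat_lit 461) (nat_lit 435) (nat_lit 304)) (XT.lf (nat_lit 0) (nat_lit 7183062139) (nat_lit 532) (nat_lit 6319592648) (nat_lit 608) (nat_lit 4197683044) (nat_lit 225) (nat_lit 5) (nat_lit 232) (nat_lit 5) (nat_lit 233) (nat_lit 5) (nat_lit 462) (nat_lit 435) (nat_lit 303)))))) (XT.nd (nat_lit 546) (nat_lit 1824) (nat_lit 0) (XT.nd (nat_lit 234) (nat_lit 912) (nat_lit 0) (XT.nd (nat_lit 78) (nat_lit 1140) (nat_lit 0) (XT.lf (nat_lit 0) (nat_lit 16136755430)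 (nat_lit 608) (nat_lit 715179787) (nat_lit 76) (nat_lit 1143868750) (nat_lit 225) (nat_lit 5) (nat_lit 233) (nat_lit 5) (nat_lit 226) (nat_lit 5) (nat_lit 463) (nat_lit 435) (nat_lit 302)) (XT.nd (nat_lit 78) (nat_lit 532) (nat_lit 0) (XT.lf (nat_lit 0) (nat_lit 684719355) (nat_lit 608) (nat_lit 8809294292) (nat_lit 76) (nat_lit 8801592760) (nat_lit 217) (nat_lit 5) (nat_lit 225) (nat_lit 5) (nat_lit 218) (nat_lit 5) (nat_lit 464) (nat_lit 435) (nat_lit 301)) (XT.lf (nat_lit 0) (nat_lit 1402699434) (nat_lit 532) (nat_lit 1876047453) (nat_lit 608) (nat_lit 15324766342) (nat_lit 210) (nat_lit 5) (nat_lit 217) (nat_lit 5) (nat_lit 218) (nat_lit 5) (nat_lit 465) (nat_lit 435) (nat_lit 300)))) (XT.nd (nat_lit 156) (nat_lit 456) (nat_lit 0) (XT.nd (nat_lit 78) (nat_lit 456) (nat_lit 0) (XT.lf (nat_lit 0) (nat_lit 6088523685) (nat_lit 608) (nat_lit 6885310071) (nat_lit 76) (nat_lit 5942687446) (nat_lit 210) (nat_lit 5)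 (nat_lit 218) (nat_lit 5) (nat_lit 211) (nat_lit 5) (nat_lit 466) (nat_lit 435) (nat_lit 299)) (XT.lf (nat_lit 0) (nat_lit 3784561721) (nat_lit 456) (nat_lit 5243956595) (nat_lit 532) (nat_lit 10209025110) (nat_lit 204) (nat_lit 5) (nat_lit 210) (nat_lit 5) (nat_lit 211) (nat_lit 5) (nat_lit 467) (nat_lit 435) (nat_lit 298))) (XT.nd (nat_lit 78) (nat_lit 456) (nat_lit 0) (XT.lf (nat_lit 0) (nat_lit 12144175672) (nat_lit 532) (nat_lit 4687777615) (nat_lit 76) (nat_lit 2733620837) (nat_lit 204) (nat_lit 5) (nat_lit 211) (nat_lit 5) (nat_lit 205) (nat_lit 5) (nat_lit 468) (nat_lit 435) (nat_lit 297)) (XT.lf (nat_lit 0) (nat_lit 6464387069) (nat_lit 456) (nat_lit 8994355334) (nat_lit 532) (nat_lit 4441541797) (nat_lit 198) (nat_lit 5) (nat_lit 204) (nat_lit 5) (nat_lit 205) (nat_lit 5) (nat_lit 469) (nat_lit 435) (nat_lit 296))))) (XT.nd (nat_lit 312) (nat_lit 836) (nat_lit 0) (XT.nd (nat_lit 156) (nat_lit 456) (nat_lit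 0) (XT.nd (nat_lit 78) (nat_lit 532) (nat_lit 0) (XT.lf (nat_lit 0) (nat_lit 18037093081) (nat_lit 456) (nat_lit 874523880) (nat_lit 532) (nat_lit 1332254091) (nat_lit 198) (nat_lit 5) (nat_lit 204) (nat_lit 5) (nat_lit 205) (nat_lit 5) (nat_lit 470) (nat_lit 435) (nat_lit 295)) (XT.lf (nat_lit 0) (nat_lit 1990051138) (nat_lit 532) (nat_lit 11150831958) (nat_lit 76) (nat_lit 7451657500) (nat_lit 191) (nat_lit 5) (nat_lit 198) (nat_lit 5) (nat_lit 192) (nat_lit 5) (nat_lit 471) (nat_lit 435) (nat_lit 294))) (XT.nd (nat_lit 78) (nat_lit 0) (nat_lit 0) (XT.lf (nat_lit 0) (nat_lit 511677677) (nat_lit 456) (nat_lit 4901480034) (nat_lit 532) (nat_lit 15537280982) (nat_lit 185) (nat_lit 5) (nat_lit 191) (nat_lit 5) (nat_lit 192) (nat_lit 5) (nat_lit 472) (nat_lit 435) (nat_lit 293)) (XT.lf (nat_lit 0) (nat_lit 9079085864) (nat_lit 532) (nat_lit 8608875029) (nat_lit 76) (nat_lit 3626910409) (nat_lit 185) (nat_lit 5) (nat_lit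 192) (nat_lit 5) (nat_lit 186) (nat_lit 5) (nat_lit 473) (nat_lit 435) (nat_lit 292)))) (XT.nd (nat_lit 156) (nat_lit 456) (nat_lit 0) (XT.nd (nat_lit 78) (nat_lit 0) (nat_lit 0) (XT.lf (nat_lit 0) (nat_lit 3587434244) (nat_lit 380) (nat_lit 9342755959) (nat_lit 456) (nat_lit 8757792115) (nat_lit 180) (nat_lit 5) (nat_lit 185) (nat_lit 5) (nat_lit 186) (nat_lit 5) (nat_lit 474) (nat_lit 435) (nat_lit 291)) (XT.lf (nat_lit 0) (nat_lit 16316256270) (nat_lit 380) (nat_lit 659821345) (nat_lit 456) (nat_lit 5093832889) (nat_lit 180) (nat_lit 5) (nat_lit 185) (nat_lit 5) (nat_lit 186) (nat_lit 5) (nat_lit 475) (nat_lit 435) (nat_lit 290))) (XT.nd (nat_lit 78) (nat_lit 76) (nat_lit 0) (XT.lf (nat_lit 0) (nat_lit 7011062481) (nat_lit 380) (nat_lit 14271821564) (nat_lit 456) (nat_lit 1176227519) (nat_lit 175) (nat_lit 5) (nat_lit 180) (nat_lit 5) (nat_lit 181) (nat_lit 5) (nat_lit 476) (nat_lit 435) (nat_lit 289)) (XT.lf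 (nat_lit 0) (nat_lit 2860898767) (nat_lit 456) (nat_lit 2625991636) (nat_lit 76) (nat_lit 17370541622) (nat_lit 174) (nat_lit 5) (nat_lit 180) (nat_lit 5) (nat_lit 175) (nat_lit 5) (nat_lit 477) (nat_lit 435) (nat_lit 288))))))) (XT.nd (nat_lit 1170) (nat_lit 2356) (nat_lit 0) (XT.nd (nat_lit 546) (nat_lit 1596) (nat_lit 0) (XT.nd (nat_lit 234) (nat_lit 760) (nat_lit 0) (XT.nd (nat_lit 78) (nat_lit 380) (nat_lit 0) (XT.lf (nat_lit 0) (nat_lit 7127164850) (nat_lit 456) (nat_lit 12530116494) (nat_lit 76) (nat_lit 3606122559) (nat_lit 169) (nat_lit 5) (nat_lit 175) (nat_lit 5) (nat_lit 170) (nat_lit 5) (nat_lit 478) (nat_lit 435) (nat_lit 287)) (XT.nd (nat_lit 78) (nat_lit 0) (nat_lit 0) (XT.lf (nat_lit 0) (nat_lit 818159611) (nat_lit 380) (nat_lit 10785114146) (nat_lit 456) (nat_lit 12075826690) (nat_lit 164) (nat_lit 5) (nat_lit 169) (nat_lit 5) (nat_lit 170) (nat_lit 5) (nat_lit 479) (nat_lit 435) (nat_lit 286))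 (XT.lf (nat_lit 0) (nat_lit 14814200451) (nat_lit 380) (nat_lit 1518995272) (nat_lit 456) (nat_lit 7770487393) (nat_lit 164) (nat_lit 5) (nat_lit 169) (nat_lit 5) (nat_lit 170) (nat_lit 5) (nat_lit 480) (nat_lit 435) (nat_lit 285)))) (XT.nd (nat_lit 156) (nat_lit 380) (nat_lit 0) (XT.nd (nat_lit 78) (nat_lit 76) (nat_lit 0) (XT.lf (nat_lit 0) (nat_lit 4694134378) (nat_lit 304) (nat_lit 16626326465) (nat_lit 380) (nat_lit 3217080143) (nat_lit 160) (nat_lit 5) (nat_lit 164) (nat_lit 5) (nat_lit 165) (nat_lit 5) (nat_lit 481) (nat_lit 435) (nat_lit 284)) (XT.lf (nat_lit 0) (nat_lit 1547182694) (nat_lit 380) (nat_lit 5733527690) (nat_lit 76) (nat_lit 17700190608) (nat_lit 159) (nat_lit 5) (nat_lit 164) (nat_lit 5) (nat_lit 160) (nat_lit 5) (nat_lit 482) (nat_lit 435) (nat_lit 283))) (XT.nd (nat_lit 78) (nat_lit 0) (nat_lit 0) (XT.lf (nat_lit 0) (nat_lit 6492685352) (nat_lit 456) (nat_lit 16525013929) (nat_lit 76) (nat_lit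 2415818784) (nat_lit 154) (nat_lit 5) (nat_lit 160) (nat_lit 5) (nat_lit 155) (nat_lit 5) (nat_lit 483) (nat_lit 435) (nat_lit 282)) (XT.lf (nat_lit 0) (nat_lit 11710607655) (nat_lit 456) (nat_lit 1872596373) (nat_lit 76) (nat_lit 12312788951) (nat_lit 154) (nat_lit 5) (nat_lit 160) (nat_lit 5) (nat_lit 155) (nat_lit 5) (nat_lit 484) (nat_lit 435) (nat_lit 281))))) (XT.nd (nat_lit 312) (nat_lit 608) (nat_lit 0) (XT.nd (nat_lit 156) (nat_lit 380) (nat_lit 0) (XT.nd (nat_lit 78) (nat_lit 304) (nat_lit 0) (XT.lf (nat_lit 0) (nat_lit 13473287854) (nat_lit 304) (nat_lit 3734980340) (nat_lit 380) (nat_lit 9160378868) (nat_lit 150) (nat_lit 5) (nat_lit 154) (nat_lit 5) (nat_lit 155) (nat_lit 5) (nat_lit 485) (nat_lit 435) (nat_lit 280)) (XT.lf (nat_lit 0) (nat_lit 2439747222) (nat_lit 304) (nat_lit 20529023713) (nat_lit 380) (nat_lit 3883773373) (nat_lit 146) (nat_lit 5) (nat_lit 150) (nat_lit 5) (nat_lit 151) (nat_lit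 5) (nat_lit 486) (nat_lit 435) (nat_lit 279))) (XT.nd (nat_lit 78) (nat_lit 304) (nat_lit 0) (XT.lf (nat_lit 0) (nat_lit 1683141823) (nat_lit 380) (nat_lit 8910108919) (nat_lit 76) (nat_lit 16752392885) (nat_lit 145) (nat_lit 5) (nat_lit 150) (nat_lit 5) (nat_lit 146) (nat_lit 5) (nat_lit 487) (nat_lit 435) (nat_lit 278)) (XT.lf (nat_lit 0) (nat_lit 7149865793) (nat_lit 304) (nat_lit 251840912) (nat_lit 380) (nat_lit 20448795393) (nat_lit 141) (nat_lit 5) (nat_lit 145) (nat_lit 5) (nat_lit 146) (nat_lit 5) (nat_lit 488) (nat_lit 435) (nat_lit 277)))) (XT.nd (nat_lit 156) (nat_lit 304) (nat_lit 0) (XT.nd (nat_lit 78) (nat_lit 304) (nat_lit 0) (XT.lf (nat_lit 0) (nat_lit 13476700607) (nat_lit 380) (nat_lit 4603304278) (nat_lit 76) (nat_lit 10284956084) (nat_lit 141) (nat_lit 5) (nat_lit 146) (nat_lit 5) (nat_lit 142) (nat_lit 5) (nat_lit 489) (nat_lit 435) (nat_lit 276)) (XT.lf (nat_lit 0) (nat_lit 12203931600) (nat_lit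 304) (nat_lit 7644028786) (nat_lit 380) (nat_lit 9043473526) (nat_lit 137) (nat_lit 5) (nat_lit 141) (nat_lit 5) (nat_lit 142) (nat_lit 5) (nat_lit 490) (nat_lit 435) (nat_lit 275))) (XT.nd (nat_lit 78) (nat_lit 76) (nat_lit 0) (XT.lf (nat_lit 0) (nat_lit 141163687) (nat_lit 228) (nat_lit 26341612631) (nat_lit 304) (nat_lit 2948752937) (nat_lit 134) (nat_lit 5) (nat_lit 137) (nat_lit 5) (nat_lit 138) (nat_lit 5) (nat_lit 491) (nat_lit 435) (nat_lit 274)) (XT.lf (nat_lit 0) (nat_lit 3504011780) (nat_lit 304) (nat_lit 12284108680) (nat_lit 76) (nat_lit 14191542975) (nat_lit 133) (nat_lit 5) (nat_lit 137) (nat_lit 5) (nat_lit 134) (nat_lit 5) (nat_lit 492) (nat_lit 435) (nat_lit 273)))))) (XT.nd (nat_lit 624) (nat_lit 988) (nat_lit 0) (XT.nd (nat_lit 312) (nat_lit 836) (nat_lit 0) (XT.nd (nat_lit 156) (nat_lit 228) (nat_lit 0) (XT.nd (nat_lit 78) (nat_lit 0) (nat_lit 0) (XT.lf (nat_lit 0) (nat_lit 5298025625) (nat_lit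 304) (nat_lit 4838457417) (nat_lit 380) (nat_lit 20405521710) (nat_lit 129) (nat_lit 5) (nat_lit 133) (nat_lit 5) (nat_lit 134) (nat_lit 5) (nat_lit 493) (nat_lit 435) (nat_lit 272)) (XT.lf (nat_lit 0) (nat_lit 17149619028) (nat_lit 380) (nat_lit 7529740179) (nat_lit 76) (nat_lit 6436407063) (nat_lit 129) (nat_lit 5) (nat_lit 134) (nat_lit 5) (nat_lit 130) (nat_lit 5) (nat_lit 494) (nat_lit 435) (nat_lit 271))) (XT.nd (nat_lit 78) (nat_lit 0) (nat_lit 0) (XT.lf (nat_lit 0) (nat_lit 10871867864) (nat_lit 228) (nat_lit 13648368268) (nat_lit 304) (nat_lit 7182092550) (nat_lit 126) (nat_lit 5) (nat_lit 129) (nat_lit 5) (nat_lit 130) (nat_lit 5) (nat_lit 495) (nat_lit 435) (nat_lit 270)) (XT.lf (nat_lit 0) (nat_lit 29971655976) (nat_lit 228) (nat_lit 2211101950) (nat_lit 304) (nat_lit 121607092) (nat_lit 126) (nat_lit 5) (nat_lit 129) (nat_lit 5) (nat_lit 130) (nat_lit 5) (nat_lit 496) (nat_lit 435) (nat_lit 269))))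 (XT.nd (nat_lit 156) (nat_lit 228) (nat_lit 0) (XT.nd (nat_lit 78) (nat_lit 228) (nat_lit 0) (XT.lf (nat_lit 0) (nat_lit 7263431386) (nat_lit 380) (nat_lit 16037528211) (nat_lit 76) (nat_lit 9613873118) (nat_lit 121) (nat_lit 5) (nat_lit 126) (nat_lit 5) (nat_lit 122) (nat_lit 5) (nat_lit 497) (nat_lit 435) (nat_lit 268)) (XT.lf (nat_lit 0) (nat_lit 3199503943) (nat_lit 228) (nat_lit 11739406804) (nat_lit 304) (nat_lit 18602528143) (nat_lit 118) (nat_lit 5) (nat_lit 121) (nat_lit 5) (nat_lit 122) (nat_lit 5) (nat_lit 498) (nat_lit 435) (nat_lit 267))) (XT.nd (nat_lit 78) (nat_lit 228) (nat_lit 0) (XT.lf (nat_lit 0) (nat_lit 23004769422) (nat_lit 304) (nat_lit 10850984342) (nat_lit 76) (nat_lit 326286607) (nat_lit 118) (nat_lit 5) (nat_lit 122) (nat_lit 5) (nat_lit 119) (nat_lit 5) (nat_lit 499) (nat_lit 435) (nat_lit 266)) (XT.lf (nat_lit 0) (nat_lit 9281647140) (nat_lit 228) (nat_lit 22231496174) (nat_lit 304)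 (nat_lit 3322700949) (nat_lit 115) (nat_lit 5) (nat_lit 118) (nat_lit 5) (nat_lit 119) (nat_lit 5) (nat_lit 500) (nat_lit 435) (nat_lit 265))))) (XT.nd (nat_lit 312) (nat_lit 456) (nat_lit 0) (XT.nd (nat_lit 156) (nat_lit 228) (nat_lit 0) (XT.nd (nat_lit 78) (nat_lit 228) (nat_lit 0) (XT.lf (nat_lit 0) (nat_lit 4780239403) (nat_lit 304) (nat_lit 5320150420) (nat_lit 76) (nat_lit 25404325190) (nat_lit 114) (nat_lit 5) (nat_lit 118) (nat_lit 5) (nat_lit 115) (nat_lit 5) (nat_lit 501) (nat_lit 435) (nat_lit 264)) (XT.lf (nat_lit 0) (nat_lit 13231319697) (nat_lit 304) (nat_lit 20424688409) (nat_lit 76) (nat_lit 2531502300) (nat_lit 111) (nat_lit 5) (nat_lit 115) (nat_lit 5) (nat_lit 112) (nat_lit 5) (nat_lit 502) (nat_lit 435) (nat_lit 263))) (XT.nd (nat_lit 78) (nat_lit 0) (nat_lit 0) (XT.lf (nat_lit 0) (nat_lit 601607615) (nat_lit 228) (nat_lit 21489651556) (nat_lit 304) (nat_lit 14794871177) (nat_lit 108) (nat_lit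 5) (nat_lit 111) (nat_lit 5) (nat_lit 112) (nat_lit 5) (nat_lit 503) (nat_lit 435) (nat_lit 262)) (XT.lf (nat_lit 0) (nat_lit 22669695053) (nat_lit 228) (nat_lit 8748899448) (nat_lit 304) (nat_lit 6181066933) (nat_lit 108) (nat_lit 5) (nat_lit 111) (nat_lit 5) (nat_lit 112) (nat_lit 5) (nat_lit 504) (nat_lit 435) (nat_lit 261)))) (XT.nd (nat_lit 156) (nat_lit 228) (nat_lit 0) (XT.nd (nat_lit 78) (nat_lit 0) (nat_lit 0) (XT.lf (nat_lit 0) (nat_lit 2745971590) (nat_lit 228) (nat_lit 31203094320) (nat_lit 76) (nat_lit 4381536895) (nat_lit 105) (nat_lit 5) (nat_lit 108) (nat_lit 5) (nat_lit 106) (nat_lit 5) (nat_lit 505) (nat_lit 435) (nat_lit 260)) (XT.lf (nat_lit 0) (nat_lit 12050937855) (nat_lit 228) (nat_lit 9083090192) (nat_lit 76) (nat_lit 17940578347) (nat_lit 105) (nat_lit 5) (nat_lit 108) (nat_lit 5) (nat_lit 106) (nat_lit 5) (nat_lit 506) (nat_lit 435) (nat_lit 259))) (XT.nd (nat_lit 78) (nat_lit 0) (nat_lit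 0) (XT.lf (nat_lit 0) (nat_lit 13965671709) (nat_lit 228) (nat_lit 7799230941) (nat_lit 304) (nat_lit 18072132377) (nat_lit 102) (nat_lit 5) (nat_lit 105) (nat_lit 5) (nat_lit 106) (nat_lit 5) (nat_lit 507) (nat_lit 435) (nat_lit 258)) (XT.lf (nat_lit 0) (nat_lit 31915605215) (nat_lit 304) (nat_lit 2792851743) (nat_lit 76) (nat_lit 5909520408) (nat_lit 102) (nat_lit 5) (nat_lit 106) (nat_lit 5) (nat_lit 103) (nat_lit 5) (nat_lit 508) (nat_lit 435) (nat_lit 257))))))))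
noncomputable def xc175 : XT := (XT.nd (nat_lit 2340) (nat_lit 836) (nat_lit 0) (XT.nd (nat_lit 1170) (nat_lit 1368) (nat_lit 0) (XT.nd (nat_lit 546) (nat_lit 912) (nat_lit 0) (XT.nd (nat_lit 234) (nat_lit 456) (nat_lit 0) (XT.nd (nat_lit 78) (nat_lit 228) (nat_lit 0) (XT.lf (nat_lit 0) (nat_lit 1210542176) (nat_lit 228) (nat_lit 20116440429) (nat_lit 76) (nat_lit 20086675147) (nat_lit 99) (nat_lit 5) (nat_lit 102) (nat_lit 5) (nat_lit 100) (nat_lit 5) (nat_lit 509) (nat_lit 435) (nat_lit 256)) (XT.nd (nat_lit 78) (nat_lit 0) (nat_lit 0) (XT.lf (nat_lit 0) (nat_lit 3917691921) (nat_lit 228) (nat_lit 7390156906) (nat_lit 304) (nat_lit 30920917816) (nat_lit 96) (nat_lit 5) (nat_lit 99) (nat_lit 5) (nat_lit 100) (nat_lit 5) (nat_lit 510) (nat_lit 435) (nat_lit 255)) (XT.lf (nat_lit 0) (nat_lit 21975971661) (nat_lit 304) (nat_lit 14053198478) (nat_lit 76) (nat_lit 7031122118) (nat_lit 96) (nat_lit 5) (nat_lit 100)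 (nat_lit 5) (nat_lit 97) (nat_lit 5) (nat_lit 511) (nat_lit 435) (nat_lit 254)))) (XT.nd (nat_lit 156) (nat_lit 304) (nat_lit 0) (XT.nd (nat_lit 78) (nat_lit 0) (nat_lit 0) (XT.lf (nat_lit 0) (nat_lit 11068216797) (nat_lit 152) (nat_lit 22071407529) (nat_lit 228) (nat_lit 10771875082) (nat_lit 94) (nat_lit 5) (nat_lit 96) (nat_lit 5) (nat_lit 97) (nat_lit 5) (nat_lit 512) (nat_lit 435) (nat_lit 253)) (XT.lf (nat_lit 0) (nat_lit 37224411869) (nat_lit 152) (nat_lit 7551658334) (nat_lit 228) (nat_lit 8036405) (nat_lit 94) (nat_lit 5) (nat_lit 96) (nat_lit 5) (nat_lit 97) (nat_lit 5) (nat_lit 513) (nat_lit 435) (nat_lit 252))) (XT.nd (nat_lit 78) (nat_lit 0) (nat_lit 0) (XT.lf (nat_lit 0) (nat_lit 11112651610) (nat_lit 304) (nat_lit 27013721861) (nat_lit 76) (nat_lit 7545820420) (nat_lit 90) (nat_lit 5) (nat_lit 94) (nat_lit 5) (nat_lit 91) (nat_lit 5) (nat_lit 514) (nat_lit 435) (nat_lit 251)) (XT.lf (nat_lit 0) (nat_lit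 22714736368) (nat_lit 304) (nat_lit 848927039) (nat_lit 76) (nat_lit 23018820184) (nat_lit 90) (nat_lit 5) (nat_lit 94) (nat_lit 5) (nat_lit 91) (nat_lit 5) (nat_lit 515) (nat_lit 435) (nat_lit 250))))) (XT.nd (nat_lit 312) (nat_lit 380) (nat_lit 0) (XT.nd (nat_lit 156) (nat_lit 228) (nat_lit 0) (XT.nd (nat_lit 78) (nat_lit 152) (nat_lit 0) (XT.lf (nat_lit 0) (nat_lit 26613496770) (nat_lit 152) (nat_lit 8303401251) (nat_lit 228) (nat_lit 12595623835) (nat_lit 88) (nat_lit 5) (nat_lit 90) (nat_lit 5) (nat_lit 91) (nat_lit 5) (nat_lit 516) (nat_lit 435) (nat_lit 249)) (XT.lf (nat_lit 0) (nat_lit 6495726077) (nat_lit 152) (nat_lit 41127980952) (nat_lit 228) (nat_lit 842597062) (nat_lit 86) (nat_lit 5) (nat_lit 88) (nat_lit 5) (nat_lit 89) (nat_lit 5) (nat_lit 517) (nat_lit 435) (nat_lit 248))) (XT.nd (nat_lit 78) (nat_lit 152) (nat_lit 0) (XT.lf (nat_lit 0) (nat_lit 11334798531) (nat_lit 228) (nat_lit 14500879060)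 (nat_lit 76) (nat_lit 23601027665) (nat_lit 85) (nat_lit 5) (nat_lit 88) (nat_lit 5) (nat_lit 86) (nat_lit 5) (nat_lit 518) (nat_lit 435) (nat_lit 247)) (XT.lf (nat_lit 0) (nat_lit 14052302348) (nat_lit 152) (nat_lit 9939687266) (nat_lit 228) (nat_lit 26440036570) (nat_lit 83) (nat_lit 5) (nat_lit 85) (nat_lit 5) (nat_lit 86) (nat_lit 5) (nat_lit 519) (nat_lit 435) (nat_lit 246)))) (XT.nd (nat_lit 156) (nat_lit 228) (nat_lit 0) (XT.nd (nat_lit 78) (nat_lit 152) (nat_lit 0) (XT.lf (nat_lit 0) (nat_lit 37234964479) (nat_lit 228) (nat_lit 7763266028) (nat_lit 76) (nat_lit 6452794452) (nat_lit 83) (nat_lit 5) (nat_lit 86) (nat_lit 5) (nat_lit 84) (nat_lit 5) (nat_lit 520) (nat_lit 435) (nat_lit 245)) (XT.lf (nat_lit 0) (nat_lit 22036987245) (nat_lit 152) (nat_lit 29144941566) (nat_lit 228) (nat_lit 1309464136) (nat_lit 81) (nat_lit 5) (nat_lit 83) (nat_lit 5) (nat_lit 84) (nat_lit 5) (nat_lit 521) (nat_lit 435) (nat_lit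 244))) (XT.nd (nat_lit 78) (nat_lit 152) (nat_lit 0) (XT.lf (nat_lit 0) (nat_lit 11826105388) (nat_lit 228) (nat_lit 792524918) (nat_lit 76) (nat_lit 40938616907) (nat_lit 80) (nat_lit 5) (nat_lit 83) (nat_lit 5) (nat_lit 81) (nat_lit 5) (nat_lit 522) (nat_lit 435) (nat_lit 243)) (XT.lf (nat_lit 0) (nat_lit 25662876770) (nat_lit 228) (nat_lit 24359359910) (nat_lit 76) (nat_lit 4622448100) (nat_lit 78) (nat_lit 5) (nat_lit 81) (nat_lit 5) (nat_lit 79) (nat_lit 5) (nat_lit 523) (nat_lit 435) (nat_lit 242)))))) (XT.nd (nat_lit 546) (nat_lit 608) (nat_lit 0) (XT.nd (nat_lit 234) (nat_lit 380) (nat_lit 0) (XT.nd (nat_lit 78) (nat_lit 228) (nat_lit 0) (XT.lf (nat_lit 0) (nat_lit 6543779767) (nat_lit 152) (nat_lit 33563475194) (nat_lit 228) (nat_lit 15651715630) (nat_lit 76) (nat_lit 5) (nat_lit 78) (nat_lit 5) (nat_lit 79) (nat_lit 5) (nat_lit 524) (nat_lit 435) (nat_lit 241)) (XT.nd (nat_lit 78) (nat_lit 228) (nat_lit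 0) (XT.lf (nat_lit 0) (nat_lit 38867269375) (nat_lit 152) (nat_lit 16360299676) (nat_lit 228) (nat_lit 1671838009) (nat_lit 76) (nat_lit 5) (nat_lit 78) (nat_lit 5) (nat_lit 79) (nat_lit 5) (nat_lit 525) (nat_lit 435) (nat_lit 240)) (XT.lf (nat_lit 0) (nat_lit 12628214152) (nat_lit 228) (nat_lit 43846104030) (nat_lit 76) (nat_lit 1591594243) (nat_lit 73) (nat_lit 5) (nat_lit 76) (nat_lit 5) (nat_lit 74) (nat_lit 5) (nat_lit 526) (nat_lit 435) (nat_lit 239)))) (XT.nd (nat_lit 156) (nat_lit 228) (nat_lit 0) (XT.nd (nat_lit 78) (nat_lit 152) (nat_lit 0) (XT.lf (nat_lit 0) (nat_lit 27666243465) (nat_lit 228) (nat_lit 11639325563) (nat_lit 76) (nat_lit 19951070202) (nat_lit 73) (nat_lit 5) (nat_lit 76) (nat_lit 5) (nat_lit 74) (nat_lit 5) (nat_lit 527) (nat_lit 435) (nat_lit 238)) (XT.lf (nat_lit 0) (nat_lit 21956286555) (nat_lit 152) (nat_lit 21406983012) (nat_lit 228) (nat_lit 17113582790) (nat_lit 71) (nat_lit 5)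 (nat_lit 73) (nat_lit 5) (nat_lit 74) (nat_lit 5) (nat_lit 528) (nat_lit 435) (nat_lit 237))) (XT.nd (nat_lit 78) (nat_lit 228) (nat_lit 0) (XT.lf (nat_lit 0) (nat_lit 56792602885) (nat_lit 152) (nat_lit 2852974472) (nat_lit 228) (nat_lit 2084663585) (nat_lit 71) (nat_lit 5) (nat_lit 73) (nat_lit 5) (nat_lit 74) (nat_lit 5) (nat_lit 529) (nat_lit 435) (nat_lit 236)) (XT.lf (nat_lit 0) (nat_lit 13580424063) (nat_lit 228) (nat_lit 33063338263) (nat_lit 76) (nat_lit 16360205535) (nat_lit 68) (nat_lit 5) (nat_lit 71) (nat_lit 5) (nat_lit 69) (nat_lit 5) (nat_lit 530) (nat_lit 435) (nat_lit 235))))) (XT.nd (nat_lit 312) (nat_lit 304) (nat_lit 0) (XT.nd (nat_lit 156) (nat_lit 152) (nat_lit 0) (XT.nd (nat_lit 78) (nat_lit 0) (nat_lit 0) (XT.lf (nat_lit 0) (nat_lit 1628788134) (nat_lit 152) (nat_lit 28135945128) (nat_lit 228) (nat_lit 34547819236) (nat_lit 66) (nat_lit 5) (nat_lit 68) (nat_lit 5) (nat_lit 69) (nat_lit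 5) (nat_lit 531) (nat_lit 435) (nat_lit 234)) (XT.lf (nat_lit 0) (nat_lit 38033834422) (nat_lit 152) (nat_lit 8731558551) (nat_lit 228) (nat_lit 18885077231) (nat_lit 66) (nat_lit 5) (nat_lit 68) (nat_lit 5) (nat_lit 69) (nat_lit 5) (nat_lit 532) (nat_lit 435) (nat_lit 233))) (XT.nd (nat_lit 78) (nat_lit 76) (nat_lit 0) (XT.lf (nat_lit 0) (nat_lit 8555758998) (nat_lit 76) (nat_lit 55907757659) (nat_lit 152) (nat_lit 2559385625) (nat_lit 65) (nat_lit 5) (nat_lit 66) (nat_lit 5) (nat_lit 67) (nat_lit 4) (nat_lit 533) (nat_lit 435) (nat_lit 232)) (XT.lf (nat_lit 0) (nat_lit 14342992011) (nat_lit 152) (nat_lit 22280469123) (nat_lit 76) (nat_lit 31797982118) (nat_lit 64) (nat_lit 5) (nat_lit 66) (nat_lit 5) (nat_lit 65) (nat_lit 5) (nat_lit 534) (nat_lit 435) (nat_lit 231)))) (XT.nd (nat_lit 156) (nat_lit 152) (nat_lit 0) (XT.nd (nat_lit 78) (nat_lit 0) (nat_lit 0) (XT.lf (nat_lit 0) (nat_lit 15258863630) (nat_lit 152)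 (nat_lit 16585917268) (nat_lit 228) (nat_lit 38012086057) (nat_lit 62) (nat_lit 5) (nat_lit 64) (nat_lit 5) (nat_lit 65) (nat_lit 5) (nat_lit 535) (nat_lit 435) (nat_lit 230)) (XT.lf (nat_lit 0) (nat_lit 50134911082) (nat_lit 228) (nat_lit 16994051343) (nat_lit 76) (nat_lit 4198492463) (nat_lit 62) (nat_lit 5) (nat_lit 65) (nat_lit 5) (nat_lit 63) (nat_lit 4) (nat_lit 536) (nat_lit 435) (nat_lit 229))) (XT.nd (nat_lit 78) (nat_lit 76) (nat_lit 0) (XT.lf (nat_lit 0) (nat_lit 21997849144) (nat_lit 76) (nat_lit 47348767308) (nat_lit 152) (nat_lit 3484358008) (nat_lit 61) (nat_lit 5) (nat_lit 62) (nat_lit 5) (nat_lit 63) (nat_lit 4) (nat_lit 537) (nat_lit 435) (nat_lit 228)) (XT.lf (nat_lit 0) (nat_lit 14637656373) (nat_lit 152) (nat_lit 12015332309) (nat_lit 76) (nat_lit 47717240799) (nat_lit 60) (nat_lit 5) (nat_lit 62) (nat_lit 5) (nat_lit 61) (nat_lit 5) (nat_lit 538) (nat_lit 435) (nat_lit 227))))))) (XT.nd (nat_lit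 54834) (nat_lit 0) (nat_lit 15732) (XT.nd (nat_lit 546) (nat_lit 304) (nat_lit 0) (XT.nd (nat_lit 234) (nat_lit 304) (nat_lit 0) (XT.nd (nat_lit 78) (nat_lit 76) (nat_lit 0) (XT.lf (nat_lit 0) (nat_lit 28483243400) (nat_lit 152) (nat_lit 5021137461) (nat_lit 228) (nat_lit 42442114009) (nat_lit 58) (nat_lit 5) (nat_lit 60) (nat_lit 5) (nat_lit 61) (nat_lit 5) (nat_lit 539) (nat_lit 435) (nat_lit 226)) (XT.nd (nat_lit 78) (nat_lit 76) (nat_lit 0) (XT.lf (nat_lit 0) (nat_lit 53222842194) (nat_lit 228) (nat_lit 7295513008) (nat_lit 76) (nat_lit 17043121091) (nat_lit 58) (nat_lit 5) (nat_lit 61) (nat_lit 5) (nat_lit 59) (nat_lit 4) (nat_lit 540) (nat_lit 435) (nat_lit 225)) (XT.lf (nat_lit 0) (nat_lit 34699736091) (nat_lit 76) (nat_lit 39213761485) (nat_lit 152) (nat_lit 5299990498) (nat_lit 57) (nat_lit 5) (nat_lit 58) (nat_lit 5) (nat_lit 59) (nat_lit 4) (nat_lit 541) (nat_lit 435) (nat_lit 224)))) (XT.nd (nat_lit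 156) (nat_lit 76) (nat_lit 0) (XT.nd (nat_lit 78) (nat_lit 152) (nat_lit 0) (XT.lf (nat_lit 0) (nat_lit 14102350954) (nat_lit 152) (nat_lit 2951668856) (nat_lit 76) (nat_lit 63854760639) (nat_lit 56) (nat_lit 5) (nat_lit 58) (nat_lit 5) (nat_lit 57) (nat_lit 5) (nat_lit 542) (nat_lit 435) (nat_lit 223)) (XT.lf (nat_lit 0) (nat_lit 34427716642) (nat_lit 228) (nat_lit 42109443809) (nat_lit 76) (nat_lit 6102772643) (nat_lit 54) (nat_lit 5) (nat_lit 57) (nat_lit 5) (nat_lit 55) (nat_lit 4) (nat_lit 543) (nat_lit 435) (nat_lit 222))) (XT.nd (nat_lit 78) (nat_lit 0) (nat_lit 0) (XT.lf (nat_lit 0) (nat_lit 797107855) (nat_lit 76) (nat_lit 54769809174) (nat_lit 152) (nat_lit 28849981188) (nat_lit 53) (nat_lit 5) (nat_lit 54) (nat_lit 5) (nat_lit 55) (nat_lit 4) (nat_lit 544) (nat_lit 435) (nat_lit 221)) (XT.lf (nat_lit 0) (nat_lit 45849313215) (nat_lit 76) (nat_lit 31913690016) (nat_lit 152) (nat_lit 8471487872) (nat_lit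 53) (nat_lit 5) (nat_lit 54) (nat_lit 5) (nat_lit 55) (nat_lit 4) (nat_lit 545) (nat_lit 435) (nat_lit 220))))) (XT.nd (nat_lit 53976) (nat_lit 0) (nat_lit 18392) (XT.nd (nat_lit 156) (nat_lit 76) (nat_lit 0) (XT.nd (nat_lit 78) (nat_lit 0) (nat_lit 0) (XT.lf (nat_lit 0) (nat_lit 4101518114) (nat_lit 152) (nat_lit 8209526059) (nat_lit 228) (nat_lit 75790848812) (nat_lit 50) (nat_lit 5) (nat_lit 52) (nat_lit 5) (nat_lit 53) (nat_lit 5) (nat_lit 546) (nat_lit 435) (nat_lit 219)) (XT.lf (nat_lit 0) (nat_lit 34111954694) (nat_lit 228) (nat_lit 39510767346) (nat_lit 76) (nat_lit 16383123564) (nat_lit 50) (nat_lit 5) (nat_lit 53) (nat_lit 5) (nat_lit 51) (nat_lit 4) (nat_lit 547) (nat_lit 435) (nat_lit 218))) (XT.nd (nat_lit 53742) (nat_lit 0) (nat_lit 18392) (XT.lf (nat_lit 0) (nat_lit 6351662845) (nat_lit 76) (nat_lit 50355182250) (nat_lit 152) (nat_lit 35255873226) (nat_lit 49) (nat_lit 5) (nat_lit 50) (nat_lit 5)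 (nat_lit 51) (nat_lit 4) (nat_lit 548) (nat_lit 435) (nat_lit 217)) (XT.lf (nat_lit 0) (nat_lit 1550726245) (nat_lit 0) (nat_lit 1550726245) (nat_lit 1140) (nat_lit 2948111658) (nat_lit 291) (nat_lit 5) (nat_lit 291) (nat_lit 3) (nat_lit 306) (nat_lit 3) (nat_lit 436) (nat_lit 436) (nat_lit 328)))) (XT.nd (nat_lit 156) (nat_lit 0) (nat_lit 76) (XT.nd (nat_lit 78) (nat_lit 0) (nat_lit 0) (XT.lf (nat_lit 0) (nat_lit 6781617382) (nat_lit 1140) (nat_lit 3086503310) (nat_lit 1216) (nat_lit 2397812594) (nat_lit 291) (nat_lit 5) (nat_lit 306) (nat_lit 3) (nat_lit 307) (nat_lit 5) (nat_lit 437) (nat_lit 436) (nat_lit 327)) (XT.lf (nat_lit 76) (nat_lit 3020588894) (nat_lit 0) (nat_lit 4398895304) (nat_lit 1216) (nat_lit 5017008801) (nat_lit 292) (nat_lit 5) (nat_lit 291) (nat_lit 5) (nat_lit 307) (nat_lit 5) (nat_lit 438) (nat_lit 436) (nat_lit 326))) (XT.nd (nat_lit 78) (nat_lit 0) (nat_lit 0) (XT.lf (nat_lit 0) (nat_lit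 8102386470) (nat_lit 1140) (nat_lit 3259407116) (nat_lit 1216) (nat_lit 1249603174) (nat_lit 292) (nat_lit 5) (nat_lit 307) (nat_lit 5) (nat_lit 308) (nat_lit 5) (nat_lit 439) (nat_lit 436) (nat_lit 325)) (XT.lf (nat_lit 76) (nat_lit 3088635423) (nat_lit 0) (nat_lit 5773449049) (nat_lit 1216) (nat_lit 3927778016) (nat_lit 293) (nat_lit 5) (nat_lit 292) (nat_lit 5) (nat_lit 308) (nat_lit 5) (nat_lit 440) (nat_lit 436) (nat_lit 324)))))) (XT.nd (nat_lit 624) (nat_lit 1748) (nat_lit 0) (XT.nd (nat_lit 312) (nat_lit 1064) (nat_lit 0) (XT.nd (nat_lit 156) (nat_lit 0) (nat_lit 0) (XT.nd (nat_lit 78) (nat_lit 0) (nat_lit 0) (XT.lf (nat_lit 0) (nat_lit 9661174892) (nat_lit 1140) (nat_lit 3289253691) (nat_lit 1216) (nat_lit 22759556) (nat_lit 293) (nat_lit 5) (nat_lit 308) (nat_lit 5) (nat_lit 309) (nat_lit 5) (nat_lit 441) (nat_lit 436) (nat_lit 323)) (XT.lf (nat_lit 76) (nat_lit 3312521555) (nat_lit 0) (nat_lit 7244730787)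 (nat_lit 1216) (nat_lit 2602574668) (nat_lit 294) (nat_lit 5) (nat_lit 293) (nat_lit 5) (nat_lit 309) (nat_lit 5) (nat_lit 442) (nat_lit 436) (nat_lit 322))) (XT.nd (nat_lit 78) (nat_lit 0) (nat_lit 76) (XT.lf (nat_lit 76) (nat_lit 10169841212) (nat_lit 0) (nat_lit 1327965630) (nat_lit 1216) (nat_lit 1853734130) (nat_lit 294) (nat_lit 5) (nat_lit 293) (nat_lit 5) (nat_lit 309) (nat_lit 5) (nat_lit 443) (nat_lit 436) (nat_lit 321)) (XT.lf (nat_lit 76) (nat_lit 3700102194) (nat_lit 0) (nat_lit 8832747770) (nat_lit 1216) (nat_lit 1014171883) (nat_lit 295) (nat_lit 5) (nat_lit 294) (nat_lit 5) (nat_lit 310) (nat_lit 5) (nat_lit 444) (nat_lit 436) (nat_lit 320)))) (XT.nd (nat_lit 156) (nat_lit 0) (nat_lit 0) (XT.nd (nat_lit 78) (nat_lit 1140) (nat_lit 0) (XT.lf (nat_lit 76) (nat_lit 10830112053) (nat_lit 0) (nat_lit 2799211736) (nat_lit 1216) (nat_lit 118135530) (nat_lit 295) (nat_lit 5) (nat_lit 294) (nat_lit 5) (nat_lit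 310) (nat_lit 5) (nat_lit 445) (nat_lit 436) (nat_lit 319)) (XT.lf (nat_lit 0) (nat_lit 849150261) (nat_lit 1216) (nat_lit 9700283083) (nat_lit 1292) (nat_lit 3402445657) (nat_lit 279) (nat_lit 5) (nat_lit 295) (nat_lit 5) (nat_lit 296) (nat_lit 5) (nat_lit 446) (nat_lit 436) (nat_lit 318))) (XT.nd (nat_lit 78) (nat_lit 0) (nat_lit 76) (XT.lf (nat_lit 0) (nat_lit 1886428884) (nat_lit 1216) (nat_lit 2505740081) (nat_lit 1292) (nat_lit 9768930009) (nat_lit 279) (nat_lit 5) (nat_lit 295) (nat_lit 5) (nat_lit 296) (nat_lit 5) (nat_lit 447) (nat_lit 436) (nat_lit 317)) (XT.lf (nat_lit 0) (nat_lit 3008357389) (nat_lit 1216) (nat_lit 9402895752) (nat_lit 1292) (nat_lit 1963739612) (nat_lit 280) (nat_lit 5) (nat_lit 296) (nat_lit 5) (nat_lit 297) (nat_lit 5) (nat_lit 448) (nat_lit 436) (nat_lit 316))))) (XT.nd (nat_lit 312) (nat_lit 1824) (nat_lit 0) (XT.nd (nat_lit 156) (nat_lit 0) (nat_lit 76) (XT.nd (nat_lit 78) (nat_lit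 0) (nat_lit 76) (XT.lf (nat_lit 0) (nat_lit 4219613227) (nat_lit 1216) (nat_lit 1923108364) (nat_lit 1292) (nat_lit 8450914735) (nat_lit 280) (nat_lit 5) (nat_lit 296) (nat_lit 5) (nat_lit 297) (nat_lit 5) (nat_lit 449) (nat_lit 436) (nat_lit 315)) (XT.lf (nat_lit 0) (nat_lit 5514407264) (nat_lit 1216) (nat_lit 8935369982) (nat_lit 1292) (nat_lit 367648915) (nat_lit 281) (nat_lit 5) (nat_lit 297) (nat_lit 5) (nat_lit 298) (nat_lit 5) (nat_lit 450) (nat_lit 436) (nat_lit 314))) (XT.nd (nat_lit 78) (nat_lit 0) (nat_lit 0) (XT.lf (nat_lit 0) (nat_lit 6915801395) (nat_lit 1216) (nat_lit 1158027109) (nat_lit 1292) (nat_lit 6972071387) (nat_lit 281) (nat_lit 5) (nat_lit 297) (nat_lit 5) (nat_lit 298) (nat_lit 5) (nat_lit 451) (nat_lit 436) (nat_lit 313)) (XT.lf (nat_lit 76) (nat_lit 6978653351) (nat_lit 0) (nat_lit 1435361598) (nat_lit 1292) (nat_lit 6865572357) (nat_lit 282) (nat_lit 5) (nat_lit 281) (nat_lit 5) (nat_lit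 298) (nat_lit 5) (nat_lit 452) (nat_lit 436) (nat_lit 312)))) (XT.nd (nat_lit 156) (nat_lit 760) (nat_lit 0) (XT.nd (nat_lit 78) (nat_lit 1216) (nat_lit 0) (XT.lf (nat_lit 0) (nat_lit 10008889574) (nat_lit 1216) (nat_lit 199252314) (nat_lit 76) (nat_lit 5310594737) (nat_lit 282) (nat_lit 5) (nat_lit 298) (nat_lit 5) (nat_lit 283) (nat_lit 5) (nat_lit 453) (nat_lit 436) (nat_lit 311)) (XT.lf (nat_lit 0) (nat_lit 8282754031) (nat_lit 1216) (nat_lit 3451012301) (nat_lit 1292) (nat_lit 4028832056) (nat_lit 266) (nat_lit 5) (nat_lit 282) (nat_lit 5) (nat_lit 283) (nat_lit 5) (nat_lit 454) (nat_lit 436) (nat_lit 310))) (XT.nd (nat_lit 78) (nat_lit 0) (nat_lit 0) (XT.lf (nat_lit 0) (nat_lit 984654558) (nat_lit 760) (nat_lit 12559543314) (nat_lit 836) (nat_lit 2468566442) (nat_lit 256) (nat_lit 5) (nat_lit 266) (nat_lit 5) (nat_lit 267) (nat_lit 5) (nat_lit 455) (nat_lit 436) (nat_lit 309)) (XT.lf (nat_lit 0) (nat_lit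 9811271377) (nat_lit 760) (nat_lit 5695852124) (nat_lit 836) (nat_lit 760368773) (nat_lit 256) (nat_lit 5) (nat_lit 266) (nat_lit 5) (nat_lit 267) (nat_lit 5) (nat_lit 456) (nat_lit 436) (nat_lit 308))))))))
noncomputable def xc176 : XT := (XT.nd (nat_lit 2340) (nat_lit 4560) (nat_lit 0) (XT.nd (nat_lit 1170) (nat_lit 3648) (nat_lit 0) (XT.nd (nat_lit 546) (nat_lit 2052) (nat_lit 0) (XT.nd (nat_lit 234) (nat_lit 1064) (nat_lit 0) (XT.nd (nat_lit 78) (nat_lit 608) (nat_lit 0) (XT.lf (nat_lit 0) (nat_lit 1005215741) (nat_lit 684) (nat_lit 14142917821) (nat_lit 76) (nat_lit 1380673651) (nat_lit 247) (nat_lit 5) (nat_lit 256) (nat_lit 5) (nat_lit 248) (nat_lit 5) (nat_lit 457) (nat_lit 436) (nat_lit 307)) (XT.nd (nat_lit 78) (nat_lit 608) (nat_lit 0) (XT.lf (nat_lit 0) (nat_lit 2919980401) (nat_lit 684) (nat_lit 5245414314) (nat_lit 76) (nat_lit 8628998454) (nat_lit 247) (nat_lit 5) (nat_lit 256) (nat_lit 5) (nat_lit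 248) (nat_lit 5) (nat_lit 458) (nat_lit 436) (nat_lit 306)) (XT.lf (nat_lit 0) (nat_lit 3986663529) (nat_lit 608) (nat_lit 933419561) (nat_lit 684) (nat_lit 12147028974) (nat_lit 239) (nat_lit 5) (nat_lit 247) (nat_lit 5) (nat_lit 248) (nat_lit 5) (nat_lit 459) (nat_lit 436) (nat_lit 305)))) (XT.nd (nat_lit 156) (nat_lit 532) (nat_lit 0) (XT.nd (nat_lit 78) (nat_lit 532) (nat_lit 0) (XT.lf (nat_lit 0) (nat_lit 7086094473) (nat_lit 684) (nat_lit 3816705368) (nat_lit 76) (nat_lit 6442037664) (nat_lit 239) (nat_lit 5) (nat_lit 248) (nat_lit 5) (nat_lit 240) (nat_lit 5) (nat_lit 460) (nat_lit 436) (nat_lit 304)) (XT.lf (nat_lit 0) (nat_lit 5819207747) (nat_lit 532) (nat_lit 3553137293) (nat_lit 608) (nat_lit 8256893989) (nat_lit 232) (nat_lit 5) (nat_lit 239) (nat_lit 5) (nat_lit 240) (nat_lit 5) (nat_lit 461) (nat_lit 436) (nat_lit 303))) (XT.nd (nat_lit 78) (nat_lit 532) (nat_lit 0) (XT.lf (nat_lit 0) (nat_lit 11794990307)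 (nat_lit 608) (nat_lit 2147822346) (nat_lit 76) (nat_lit 3977327755) (nat_lit 232) (nat_lit 5) (nat_lit 240) (nat_lit 5) (nat_lit 233) (nat_lit 5) (nat_lit 462) (nat_lit 436) (nat_lit 302)) (XT.lf (nat_lit 0) (nat_lit 7913546183) (nat_lit 532) (nat_lit 6478571900) (nat_lit 608) (nat_lit 3824598615) (nat_lit 225) (nat_lit 5) (nat_lit 232) (nat_lit 5) (nat_lit 233) (nat_lit 5) (nat_lit 463) (nat_lit 436) (nat_lit 301))))) (XT.nd (nat_lit 312) (nat_lit 912) (nat_lit 0) (XT.nd (nat_lit 156) (nat_lit 532) (nat_lit 0) (XT.nd (nat_lit 78) (nat_lit 608) (nat_lit 0) (XT.lf (nat_lit 0) (nat_lit 17091419142) (nat_lit 608) (nat_lit 222723317) (nat_lit 76) (nat_lit 1207321944) (nat_lit 225) (nat_lit 5) (nat_lit 233) (nat_lit 5) (nat_lit 226) (nat_lit 5) (nat_lit 464) (nat_lit 436) (nat_lit 300)) (XT.lf (nat_lit 0) (nat_lit 1171671875) (nat_lit 608) (nat_lit 8555325824) (nat_lit 76) (nat_lit 9103393279) (nat_lit 217) (nat_lit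 5) (nat_lit 225) (nat_lit 5) (nat_lit 218) (nat_lit 5) (nat_lit 465) (nat_lit 436) (nat_lit 299))) (XT.nd (nat_lit 78) (nat_lit 0) (nat_lit 0) (XT.lf (nat_lit 0) (nat_lit 1957946857) (nat_lit 532) (nat_lit 1876921461) (nat_lit 608) (nat_lit 15312928904) (nat_lit 210) (nat_lit 5) (nat_lit 217) (nat_lit 5) (nat_lit 218) (nat_lit 5) (nat_lit 466) (nat_lit 436) (nat_lit 298)) (XT.lf (nat_lit 0) (nat_lit 6716122730) (nat_lit 608) (nat_lit 6580747786) (nat_lit 76) (nat_lit 6173711970) (nat_lit 210) (nat_lit 5) (nat_lit 218) (nat_lit 5) (nat_lit 211) (nat_lit 5) (nat_lit 467) (nat_lit 436) (nat_lit 297)))) (XT.nd (nat_lit 156) (nat_lit 456) (nat_lit 0) (XT.nd (nat_lit 78) (nat_lit 0) (nat_lit 0) (XT.lf (nat_lit 0) (nat_lit 4404209164) (nat_lit 456) (nat_lit 5332013566) (nat_lit 532) (nat_lit 10065257987) (nat_lit 204) (nat_lit 5) (nat_lit 210) (nat_lit 5) (nat_lit 211) (nat_lit 5) (nat_lit 468) (nat_lit 436) (nat_lit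 296)) (XT.lf (nat_lit 0) (nat_lit 12933272448) (nat_lit 532) (nat_lit 4324882966) (nat_lit 76) (nat_lit 2881561677) (nat_lit 204) (nat_lit 5) (nat_lit 211) (nat_lit 5) (nat_lit 205) (nat_lit 5) (nat_lit 469) (nat_lit 436) (nat_lit 295))) (XT.nd (nat_lit 78) (nat_lit 0) (nat_lit 0) (XT.lf (nat_lit 0) (nat_lit 7156910110) (nat_lit 456) (nat_lit 9182786851) (nat_lit 532) (nat_lit 4145001247) (nat_lit 198) (nat_lit 5) (nat_lit 204) (nat_lit 5) (nat_lit 205) (nat_lit 5) (nat_lit 470) (nat_lit 436) (nat_lit 294)) (XT.lf (nat_lit 0) (nat_lit 19062275221) (nat_lit 456) (nat_lit 821731302) (nat_lit 532) (nat_lit 954952972) (nat_lit 198) (nat_lit 5) (nat_lit 204) (nat_lit 5) (nat_lit 205) (nat_lit 5) (nat_lit 471) (nat_lit 436) (nat_lit 293)))))) (XT.nd (nat_lit 546) (nat_lit 1824) (nat_lit 0) (XT.nd (nat_lit 234) (nat_lit 836) (nat_lit 0) (XT.nd (nat_lit 78) (nat_lit 456) (nat_lit 0) (XT.lf (nat_lit 0) (nat_lit 2452470949)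 (nat_lit 532) (nat_lit 10986590808) (nat_lit 76) (nat_lit 7759101440) (nat_lit 191) (nat_lit 5) (nat_lit 198) (nat_lit 5) (nat_lit 192) (nat_lit 5) (nat_lit 472) (nat_lit 436) (nat_lit 292)) (XT.nd (nat_lit 78) (nat_lit 0) (nat_lit 0) (XT.lf (nat_lit 0) (nat_lit 1020904252) (nat_lit 456) (nat_lit 4950384250) (nat_lit 532) (nat_lit 15595721302) (nat_lit 185) (nat_lit 5) (nat_lit 191) (nat_lit 5) (nat_lit 192) (nat_lit 5) (nat_lit 473) (nat_lit 436) (nat_lit 291)) (XT.lf (nat_lit 0) (nat_lit 9736584113) (nat_lit 532) (nat_lit 8376971464) (nat_lit 76) (nat_lit 3829140164) (nat_lit 185) (nat_lit 5) (nat_lit 192) (nat_lit 5) (nat_lit 186) (nat_lit 5) (nat_lit 474) (nat_lit 436) (nat_lit 290)))) (XT.nd (nat_lit 156) (nat_lit 456) (nat_lit 0) (XT.nd (nat_lit 78) (nat_lit 0) (nat_lit 0) (XT.lf (nat_lit 0) (nat_lit 4180421501) (nat_lit 380) (nat_lit 9516248446) (nat_lit 456) (nat_lit 8630528668) (nat_lit 180) (nat_lit 5)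 (nat_lit 185) (nat_lit 5) (nat_lit 186) (nat_lit 5) (nat_lit 475) (nat_lit 436) (nat_lit 289)) (XT.lf (nat_lit 0) (nat_lit 17276971365) (nat_lit 380) (nat_lit 575936188) (nat_lit 456) (nat_lit 4868009807) (nat_lit 180) (nat_lit 5) (nat_lit 185) (nat_lit 5) (nat_lit 186) (nat_lit 5) (nat_lit 476) (nat_lit 436) (nat_lit 288))) (XT.nd (nat_lit 78) (nat_lit 76) (nat_lit 0) (XT.lf (nat_lit 0) (nat_lit 7697996752) (nat_lit 380) (nat_lit 14585765153) (nat_lit 456) (nat_lit 838189100) (nat_lit 175) (nat_lit 5) (nat_lit 180) (nat_lit 5) (nat_lit 181) (nat_lit 5) (nat_lit 477) (nat_lit 436) (nat_lit 287)) (XT.lf (nat_lit 0) (nat_lit 3302104686) (nat_lit 456) (nat_lit 2234919276) (nat_lit 76) (nat_lit 17995411058) (nat_lit 174) (nat_lit 5) (nat_lit 180) (nat_lit 5) (nat_lit 175) (nat_lit 5) (nat_lit 478) (nat_lit 436) (nat_lit 286))))) (XT.nd (nat_lit 312) (nat_lit 760) (nat_lit 0) (XT.nd (nat_lit 156) (nat_lit 304) (nat_lit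 0) (XT.nd (nat_lit 78) (nat_lit 380) (nat_lit 0) (XT.lf (nat_lit 0) (nat_lit 7691592750) (nat_lit 456) (nat_lit 12431344988) (nat_lit 76) (nat_lit 3827793004) (nat_lit 169) (nat_lit 5) (nat_lit 175) (nat_lit 5) (nat_lit 170) (nat_lit 5) (nat_lit 479) (nat_lit 436) (nat_lit 285)) (XT.lf (nat_lit 0) (nat_lit 1312725725) (nat_lit 380) (nat_lit 10983565305) (nat_lit 456) (nat_lit 12082779626) (nat_lit 164) (nat_lit 5) (nat_lit 169) (nat_lit 5) (nat_lit 170) (nat_lit 5) (nat_lit 480) (nat_lit 436) (nat_lit 284))) (XT.nd (nat_lit 78) (nat_lit 304) (nat_lit 0) (XT.lf (nat_lit 0) (nat_lit 15714957847) (nat_lit 380) (nat_lit 1443106620) (nat_lit 456) (nat_lit 7658629331) (nat_lit 164) (nat_lit 5) (nat_lit 169) (nat_lit 5) (nat_lit 170) (nat_lit 5) (nat_lit 481) (nat_lit 436) (nat_lit 283)) (XT.lf (nat_lit 0) (nat_lit 5295660662) (nat_lit 304) (nat_lit 16995095380) (nat_lit 380) (nat_lit 2972938670) (nat_lit 160) (nat_lit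 5) (nat_lit 164) (nat_lit 5) (nat_lit 165) (nat_lit 5) (nat_lit 482) (nat_lit 436) (nat_lit 282)))) (XT.nd (nat_lit 156) (nat_lit 304) (nat_lit 0) (XT.nd (nat_lit 78) (nat_lit 380) (nat_lit 0) (XT.lf (nat_lit 0) (nat_lit 1917876324) (nat_lit 380) (nat_lit 5451746935) (nat_lit 76) (nat_lit 18350927344) (nat_lit 159) (nat_lit 5) (nat_lit 164) (nat_lit 5) (nat_lit 160) (nat_lit 5) (nat_lit 483) (nat_lit 436) (nat_lit 281)) (XT.lf (nat_lit 0) (nat_lit 7007869796) (nat_lit 456) (nat_lit 16563055851) (nat_lit 76) (nat_lit 2615938198) (nat_lit 154) (nat_lit 5) (nat_lit 160) (nat_lit 5) (nat_lit 155) (nat_lit 5) (nat_lit 484) (nat_lit 436) (nat_lit 280))) (XT.nd (nat_lit 78) (nat_lit 304) (nat_lit 0) (XT.lf (nat_lit 0) (nat_lit 12372997616) (nat_lit 456) (nat_lit 1484397083) (nat_lit 76) (nat_lit 12806099659) (nat_lit 154) (nat_lit 5) (nat_lit 160) (nat_lit 5) (nat_lit 155) (nat_lit 5) (nat_lit 485) (nat_lit 436) (nat_lit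 279)) (XT.lf (nat_lit 0) (nat_lit 14317507031) (nat_lit 304) (nat_lit 3713250346) (nat_lit 380) (nat_lit 9119716954) (nat_lit 150) (nat_lit 5) (nat_lit 154) (nat_lit 5) (nat_lit 155) (nat_lit 5) (nat_lit 486) (nat_lit 436) (nat_lit 278))))))) (XT.nd (nat_lit 1170) (nat_lit 1900) (nat_lit 0) (XT.nd (nat_lit 546) (nat_lit 1368) (nat_lit 0) (XT.nd (nat_lit 234) (nat_lit 608) (nat_lit 0) (XT.nd (nat_lit 78) (nat_lit 380) (nat_lit 0) (XT.lf (nat_lit 0) (nat_lit 2956514523) (nat_lit 304) (nat_lit 21004153458) (nat_lit 380) (nat_lit 3688324036) (nat_lit 146) (nat_lit 5) (nat_lit 150) (nat_lit 5) (nat_lit 151) (nat_lit 5) (nat_lit 487) (nat_lit 436) (nat_lit 277)) (XT.nd (nat_lit 78) (nat_lit 304) (nat_lit 0) (XT.lf (nat_lit 0) (nat_lit 2030602122) (nat_lit 380) (nat_lit 8740805653) (nat_lit 76) (nat_lit 17385655081) (nat_lit 145) (nat_lit 5) (nat_lit 150) (nat_lit 5) (nat_lit 146) (nat_lit 5) (nat_lit 488) (nat_lit 436)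 (nat_lit 276)) (XT.lf (nat_lit 0) (nat_lit 7796687845) (nat_lit 304) (nat_lit 119542392) (nat_lit 380) (nat_lit 20760972852) (nat_lit 141) (nat_lit 5) (nat_lit 145) (nat_lit 5) (nat_lit 146) (nat_lit 5) (nat_lit 489) (nat_lit 436) (nat_lit 275)))) (XT.nd (nat_lit 156) (nat_lit 304) (nat_lit 0) (XT.nd (nat_lit 78) (nat_lit 304) (nat_lit 0) (XT.lf (nat_lit 0) (nat_lit 14166260548) (nat_lit 380) (nat_lit 4314417203) (nat_lit 76) (nat_lit 10726635540) (nat_lit 141) (nat_lit 5) (nat_lit 146) (nat_lit 5) (nat_lit 142) (nat_lit 5) (nat_lit 490) (nat_lit 436) (nat_lit 274)) (XT.lf (nat_lit 0) (nat_lit 12992849612) (nat_lit 304) (nat_lit 7731564209) (nat_lit 380) (nat_lit 9025295059) (nat_lit 137) (nat_lit 5) (nat_lit 141) (nat_lit 5) (nat_lit 142) (nat_lit 5) (nat_lit 491) (nat_lit 436) (nat_lit 273))) (XT.nd (nat_lit 78) (nat_lit 76) (nat_lit 0) (XT.lf (nat_lit 0) (nat_lit 571089027) (nat_lit 228) (nat_lit 26984415541)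 (nat_lit 304) (nat_lit 2750586701) (nat_lit 134) (nat_lit 5) (nat_lit 137) (nat_lit 5) (nat_lit 138) (nat_lit 5) (nat_lit 492) (nat_lit 436) (nat_lit 272)) (XT.lf (nat_lit 0) (nat_lit 3881982292) (nat_lit 304) (nat_lit 12233875589) (nat_lit 76) (nat_lit 14754975533) (nat_lit 133) (nat_lit 5) (nat_lit 137) (nat_lit 5) (nat_lit 134) (nat_lit 5) (nat_lit 493) (nat_lit 436) (nat_lit 271))))) (XT.nd (nat_lit 312) (nat_lit 760) (nat_lit 0) (XT.nd (nat_lit 156) (nat_lit 304) (nat_lit 0) (XT.nd (nat_lit 78) (nat_lit 0) (nat_lit 0) (XT.lf (nat_lit 0) (nat_lit 5871617291) (nat_lit 304) (nat_lit 4837849187) (nat_lit 380) (nat_lit 20740698332) (nat_lit 129) (nat_lit 5) (nat_lit 133) (nat_lit 5) (nat_lit 134) (nat_lit 5) (nat_lit 494) (nat_lit 436) (nat_lit 270)) (XT.lf (nat_lit 0) (nat_lit 17926525170) (nat_lit 380) (nat_lit 7346554880) (nat_lit 76) (nat_lit 6768254238) (nat_lit 129) (nat_lit 5) (nat_lit 134) (nat_lit 5) (nat_lit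 130) (nat_lit 5) (nat_lit 495) (nat_lit 436) (nat_lit 269))) (XT.nd (nat_lit 78) (nat_lit 76) (nat_lit 0) (XT.lf (nat_lit 0) (nat_lit 11603090840) (nat_lit 228) (nat_lit 13911420467) (nat_lit 304) (nat_lit 7131095693) (nat_lit 126) (nat_lit 5) (nat_lit 129) (nat_lit 5) (nat_lit 130) (nat_lit 5) (nat_lit 496) (nat_lit 436) (nat_lit 268)) (XT.lf (nat_lit 0) (nat_lit 130839407) (nat_lit 304) (nat_lit 2003139575) (nat_lit 76) (nat_lit 31131913900) (nat_lit 125) (nat_lit 5) (nat_lit 129) (nat_lit 5) (nat_lit 126) (nat_lit 5) (nat_lit 497) (nat_lit 436) (nat_lit 267)))) (XT.nd (nat_lit 156) (nat_lit 228) (nat_lit 0) (XT.nd (nat_lit 78) (nat_lit 228) (nat_lit 0) (XT.lf (nat_lit 0) (nat_lit 7732776527) (nat_lit 380) (nat_lit 16118070192) (nat_lit 76) (nat_lit 10043858885) (nat_lit 121) (nat_lit 5) (nat_lit 126) (nat_lit 5) (nat_lit 122) (nat_lit 5) (nat_lit 498) (nat_lit 436) (nat_lit 266)) (XT.lf (nat_lit 0) (nat_lit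 3692145633) (nat_lit 228) (nat_lit 11942863981) (nat_lit 304) (nat_lit 18905206509) (nat_lit 118) (nat_lit 5) (nat_lit 121) (nat_lit 5) (nat_lit 122) (nat_lit 5) (nat_lit 499) (nat_lit 436) (nat_lit 265))) (XT.nd (nat_lit 78) (nat_lit 228) (nat_lit 0) (XT.lf (nat_lit 0) (nat_lit 23937010739) (nat_lit 304) (nat_lit 10785549922) (nat_lit 76) (nat_lit 477650803) (nat_lit 118) (nat_lit 5) (nat_lit 122) (nat_lit 5) (nat_lit 119) (nat_lit 5) (nat_lit 500) (nat_lit 436) (nat_lit 264)) (XT.lf (nat_lit 0) (nat_lit 9947227525) (nat_lit 228) (nat_lit 22750078258) (nat_lit 304) (nat_lit 3176424383) (nat_lit 115) (nat_lit 5) (nat_lit 118) (nat_lit 5) (nat_lit 119) (nat_lit 5) (nat_lit 501) (nat_lit 436) (nat_lit 263)))))) (XT.nd (nat_lit 546) (nat_lit 912) (nat_lit 0) (XT.nd (nat_lit 234) (nat_lit 456) (nat_lit 0) (XT.nd (nat_lit 78) (nat_lit 456) (nat_lit 0) (XT.lf (nat_lit 0) (nat_lit 5157780639) (nat_lit 304) (nat_lit 5099215029)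 (nat_lit 76) (nat_lit 26305811908) (nat_lit 114) (nat_lit 5) (nat_lit 118) (nat_lit 5) (nat_lit 115) (nat_lit 5) (nat_lit 502) (nat_lit 436) (nat_lit 262)) (XT.nd (nat_lit 78) (nat_lit 228) (nat_lit 0) (XT.lf (nat_lit 0) (nat_lit 13860598237) (nat_lit 304) (nat_lit 20655069913) (nat_lit 76) (nat_lit 2750473258) (nat_lit 111) (nat_lit 5) (nat_lit 115) (nat_lit 5) (nat_lit 112) (nat_lit 5) (nat_lit 503) (nat_lit 436) (nat_lit 261)) (XT.lf (nat_lit 0) (nat_lit 998266373) (nat_lit 228) (nat_lit 21984941805) (nat_lit 304) (nat_lit 15002606305) (nat_lit 108) (nat_lit 5) (nat_lit 111) (nat_lit 5) (nat_lit 112) (nat_lit 5) (nat_lit 504) (nat_lit 436) (nat_lit 260)))) (XT.nd (nat_lit 156) (nat_lit 228) (nat_lit 0) (XT.nd (nat_lit 78) (nat_lit 228) (nat_lit 0) (XT.lf (nat_lit 0) (nat_lit 23717368943) (nat_lit 228) (nat_lit 8866318570) (nat_lit 304) (nat_lit 6137264953) (nat_lit 108) (nat_lit 5) (nat_lit 111) (nat_lit 5)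 (nat_lit 112) (nat_lit 5) (nat_lit 505) (nat_lit 436) (nat_lit 259)) (XT.lf (nat_lit 0) (nat_lit 3051516617) (nat_lit 228) (nat_lit 31765492462) (nat_lit 76) (nat_lit 4656795384) (nat_lit 105) (nat_lit 5) (nat_lit 108) (nat_lit 5) (nat_lit 106) (nat_lit 5) (nat_lit 506) (nat_lit 436) (nat_lit 258))) (XT.nd (nat_lit 78) (nat_lit 228) (nat_lit 0) (XT.lf (nat_lit 0) (nat_lit 12629131893) (nat_lit 228) (nat_lit 8992772522) (nat_lit 76) (nat_lit 18618419369) (nat_lit 105) (nat_lit 5) (nat_lit 108) (nat_lit 5) (nat_lit 106) (nat_lit 5) (nat_lit 507) (nat_lit 436) (nat_lit 257)) (XT.lf (nat_lit 0) (nat_lit 14743895272) (nat_lit 228) (nat_lit 7887763066) (nat_lit 304) (nat_lit 18394053263) (nat_lit 102) (nat_lit 5) (nat_lit 105) (nat_lit 5) (nat_lit 106) (nat_lit 5) (nat_lit 508) (nat_lit 436) (nat_lit 256))))) (XT.nd (nat_lit 312) (nat_lit 456) (nat_lit 0) (XT.nd (nat_lit 156) (nat_lit 228) (nat_lit 0) (XT.nd (nat_lit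 78) (nat_lit 228) (nat_lit 0) (XT.lf (nat_lit 0) (nat_lit 33082011928) (nat_lit 304) (nat_lit 2522957894) (nat_lit 76) (nat_lit 6225259079) (nat_lit 102) (nat_lit 5) (nat_lit 106) (nat_lit 5) (nat_lit 103) (nat_lit 5) (nat_lit 509) (nat_lit 436) (nat_lit 255)) (XT.lf (nat_lit 0) (nat_lit 1455138322) (nat_lit 228) (nat_lit 20365558006) (nat_lit 76) (nat_lit 20829104258) (nat_lit 99) (nat_lit 5) (nat_lit 102) (nat_lit 5) (nat_lit 100) (nat_lit 5) (nat_lit 510) (nat_lit 436) (nat_lit 254))) (XT.nd (nat_lit 78) (nat_lit 0) (nat_lit 0) (XT.lf (nat_lit 0) (nat_lit 4386124044) (nat_lit 228) (nat_lit 7466546803) (nat_lit 304) (nat_lit 31636773235) (nat_lit 96) (nat_lit 5) (nat_lit 99) (nat_lit 5) (nat_lit 100) (nat_lit 5) (nat_lit 511) (nat_lit 436) (nat_lit 253)) (XT.lf (nat_lit 0) (nat_lit 22836205578) (nat_lit 304) (nat_lit 14129464266) (nat_lit 76) (nat_lit 7380385097) (nat_lit 96) (nat_lit 5) (nat_lit 100) (nat_lit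 5) (nat_lit 97) (nat_lit 5) (nat_lit 512) (nat_lit 436) (nat_lit 252)))) (XT.nd (nat_lit 156) (nat_lit 228) (nat_lit 0) (XT.nd (nat_lit 78) (nat_lit 76) (nat_lit 0) (XT.lf (nat_lit 0) (nat_lit 11742207877) (nat_lit 152) (nat_lit 22589993875) (nat_lit 228) (nat_lit 10890674045) (nat_lit 94) (nat_lit 5) (nat_lit 96) (nat_lit 5) (nat_lit 97) (nat_lit 5) (nat_lit 513) (nat_lit 436) (nat_lit 251)) (XT.lf (nat_lit 0) (nat_lit 186417562) (nat_lit 228) (nat_lit 7450533429) (nat_lit 76) (nat_lit 38484829237) (nat_lit 93) (nat_lit 5) (nat_lit 96) (nat_lit 5) (nat_lit 94) (nat_lit 5) (nat_lit 514) (nat_lit 436) (nat_lit 250))) (XT.nd (nat_lit 78) (nat_lit 0) (nat_lit 0) (XT.lf (nat_lit 0) (nat_lit 11639446347) (nat_lit 304) (nat_lit 27487127090) (nat_lit 76) (nat_lit 7909968319) (nat_lit 90) (nat_lit 5) (nat_lit 94) (nat_lit 5) (nat_lit 91) (nat_lit 5) (nat_lit 515) (nat_lit 436) (nat_lit 249)) (XT.lf (nat_lit 0) (nat_lit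 23583960196) (nat_lit 304) (nat_lit 547204144) (nat_lit 76) (nat_lit 23843145262) (nat_lit 90) (nat_lit 5) (nat_lit 94) (nat_lit 5) (nat_lit 91) (nat_lit 5) (nat_lit 516) (nat_lit 436) (nat_lit 248))))))))
noncomputable def xc177 : XT := (XT.nd (nat_lit 2340) (nat_lit 228) (nat_lit 0) (XT.nd (nat_lit 1170) (nat_lit 1140) (nat_lit 0) (XT.nd (nat_lit 546) (nat_lit 912) (nat_lit 0) (XT.nd (nat_lit 234) (nat_lit 380) (nat_lit 0) (XT.nd (nat_lit 78) (nat_lit 228) (nat_lit 0) (XT.lf (nat_lit 0) (nat_lit 27735884627) (nat_lit 152) (nat_lit 8413947023) (nat_lit 228) (nat_lit 12782488455) (nat_lit 88) (nat_lit 5) (nat_lit 90) (nat_lit 5) (nat_lit 91) (nat_lit 5) (nat_lit 517) (nat_lit 436) (nat_lit 247)) (XT.nd (nat_lit 78) (nat_lit 76) (nat_lit 0) (XT.lf (nat_lit 0) (nat_lit 7015608406) (nat_lit 152) (nat_lit 42221253040) (nat_lit 228) (nat_lit 677884291) (nat_lit 86) (nat_lit 5) (nat_lit 88) (nat_lit 5) (nat_lit 89) (nat_lit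 5) (nat_lit 518) (nat_lit 436) (nat_lit 246)) (XT.lf (nat_lit 0) (nat_lit 11855700041) (nat_lit 228) (nat_lit 14616748426) (nat_lit 76) (nat_lit 24441918854) (nat_lit 85) (nat_lit 5) (nat_lit 88) (nat_lit 5) (nat_lit 86) (nat_lit 5) (nat_lit 519) (nat_lit 436) (nat_lit 245)))) (XT.nd (nat_lit 156) (nat_lit 228) (nat_lit 0) (XT.nd (nat_lit 78) (nat_lit 0) (nat_lit 0) (XT.lf (nat_lit 0) (nat_lit 14789899434) (nat_lit 152) (nat_lit 10100477580) (nat_lit 228) (nat_lit 27049238146) (nat_lit 83) (nat_lit 5) (nat_lit 85) (nat_lit 5) (nat_lit 86) (nat_lit 5) (nat_lit 520) (nat_lit 436) (nat_lit 244)) (XT.lf (nat_lit 0) (nat_lit 38526720683) (nat_lit 228) (nat_lit 7685407651) (nat_lit 76) (nat_lit 6777173556) (nat_lit 83) (nat_lit 5) (nat_lit 86) (nat_lit 5) (nat_lit 84) (nat_lit 5) (nat_lit 521) (nat_lit 436) (nat_lit 243))) (XT.nd (nat_lit 78) (nat_lit 76) (nat_lit 0) (XT.lf (nat_lit 0) (nat_lit 23005806589) (nat_lit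 152) (nat_lit 29884156690) (nat_lit 228) (nat_lit 1170981927) (nat_lit 81) (nat_lit 5) (nat_lit 83) (nat_lit 5) (nat_lit 84) (nat_lit 5) (nat_lit 522) (nat_lit 436) (nat_lit 242)) (XT.lf (nat_lit 0) (nat_lit 12350109206) (nat_lit 228) (nat_lit 514174005) (nat_lit 76) (nat_lit 42294593269) (nat_lit 80) (nat_lit 5) (nat_lit 83) (nat_lit 5) (nat_lit 81) (nat_lit 5) (nat_lit 523) (nat_lit 436) (nat_lit 241))))) (XT.nd (nat_lit 312) (nat_lit 380) (nat_lit 0) (XT.nd (nat_lit 156) (nat_lit 228) (nat_lit 0) (XT.nd (nat_lit 78) (nat_lit 152) (nat_lit 0) (XT.lf (nat_lit 0) (nat_lit 26601199562) (nat_lit 228) (nat_lit 24787218685) (nat_lit 76) (nat_lit 4890542788) (nat_lit 78) (nat_lit 5) (nat_lit 81) (nat_lit 5) (nat_lit 79) (nat_lit 5) (nat_lit 524) (nat_lit 436) (nat_lit 240)) (XT.lf (nat_lit 0) (nat_lit 7040045359) (nat_lit 152) (nat_lit 34436841146) (nat_lit 228) (nat_lit 15949849919) (nat_lit 76) (nat_lit 5) (nat_lit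 78) (nat_lit 5) (nat_lit 79) (nat_lit 5) (nat_lit 525) (nat_lit 436) (nat_lit 239))) (XT.nd (nat_lit 78) (nat_lit 228) (nat_lit 0) (XT.lf (nat_lit 0) (nat_lit 40324503183) (nat_lit 152) (nat_lit 16721459828) (nat_lit 228) (nat_lit 1555568702) (nat_lit 76) (nat_lit 5) (nat_lit 78) (nat_lit 5) (nat_lit 79) (nat_lit 5) (nat_lit 526) (nat_lit 436) (nat_lit 238)) (XT.lf (nat_lit 0) (nat_lit 13169540760) (nat_lit 228) (nat_lit 44866306970) (nat_lit 76) (nat_lit 1767157715) (nat_lit 73) (nat_lit 5) (nat_lit 76) (nat_lit 5) (nat_lit 74) (nat_lit 5) (nat_lit 527) (nat_lit 436) (nat_lit 237)))) (XT.nd (nat_lit 156) (nat_lit 228) (nat_lit 0) (XT.nd (nat_lit 78) (nat_lit 152) (nat_lit 0) (XT.lf (nat_lit 0) (nat_lit 28653978519) (nat_lit 228) (nat_lit 11701922631) (nat_lit 76) (nat_lit 20673695167) (nat_lit 73) (nat_lit 5) (nat_lit 76) (nat_lit 5) (nat_lit 74) (nat_lit 5) (nat_lit 528) (nat_lit 436) (nat_lit 236)) (XT.lf (nat_lit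 0) (nat_lit 22898748217) (nat_lit 152) (nat_lit 21921300394) (nat_lit 228) (nat_lit 17466423514) (nat_lit 71) (nat_lit 5) (nat_lit 73) (nat_lit 5) (nat_lit 74) (nat_lit 5) (nat_lit 529) (nat_lit 436) (nat_lit 235))) (XT.nd (nat_lit 78) (nat_lit 228) (nat_lit 0) (XT.lf (nat_lit 0) (nat_lit 58771888802) (nat_lit 152) (nat_lit 2814396611) (nat_lit 228) (nat_lit 1991313434) (nat_lit 71) (nat_lit 5) (nat_lit 73) (nat_lit 5) (nat_lit 74) (nat_lit 5) (nat_lit 530) (nat_lit 436) (nat_lit 234)) (XT.lf (nat_lit 0) (nat_lit 14140083868) (nat_lit 228) (nat_lit 33776070189) (nat_lit 76) (nat_lit 16973356849) (nat_lit 68) (nat_lit 5) (nat_lit 71) (nat_lit 5) (nat_lit 69) (nat_lit 5) (nat_lit 531) (nat_lit 436) (nat_lit 233)))))) (XT.nd (nat_lit 546) (nat_lit 608) (nat_lit 0) (XT.nd (nat_lit 234) (nat_lit 304) (nat_lit 0) (XT.nd (nat_lit 78) (nat_lit 76) (nat_lit 0) (XT.lf (nat_lit 0) (nat_lit 1954083057) (nat_lit 152) (nat_lit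 28854062131) (nat_lit 228) (nat_lit 35429261457) (nat_lit 66) (nat_lit 5) (nat_lit 68) (nat_lit 5) (nat_lit 69) (nat_lit 5) (nat_lit 532) (nat_lit 436) (nat_lit 232)) (XT.nd (nat_lit 78) (nat_lit 76) (nat_lit 0) (XT.lf (nat_lit 0) (nat_lit 39443229337) (nat_lit 152) (nat_lit 8871212734) (nat_lit 228) (nat_lit 19301151533) (nat_lit 66) (nat_lit 5) (nat_lit 68) (nat_lit 5) (nat_lit 69) (nat_lit 5) (nat_lit 533) (nat_lit 436) (nat_lit 231)) (XT.lf (nat_lit 0) (nat_lit 9081364109) (nat_lit 76) (nat_lit 57461616840) (nat_lit 152) (nat_lit 2486233786) (nat_lit 65) (nat_lit 5) (nat_lit 66) (nat_lit 5) (nat_lit 67) (nat_lit 4) (nat_lit 534) (nat_lit 436) (nat_lit 230)))) (XT.nd (nat_lit 156) (nat_lit 76) (nat_lit 0) (XT.nd (nat_lit 78) (nat_lit 152) (nat_lit 0) (XT.lf (nat_lit 0) (nat_lit 14916007661) (nat_lit 152) (nat_lit 22684935911) (nat_lit 76) (nat_lit 32868853800) (nat_lit 64) (nat_lit 5) (nat_lit 66) (nat_lit 5)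 (nat_lit 65) (nat_lit 5) (nat_lit 535) (nat_lit 436) (nat_lit 229)) (XT.lf (nat_lit 0) (nat_lit 15977989107) (nat_lit 152) (nat_lit 16963216392) (nat_lit 228) (nat_lit 39007127845) (nat_lit 62) (nat_lit 5) (nat_lit 64) (nat_lit 5) (nat_lit 65) (nat_lit 5) (nat_lit 536) (nat_lit 436) (nat_lit 228))) (XT.nd (nat_lit 78) (nat_lit 76) (nat_lit 0) (XT.lf (nat_lit 0) (nat_lit 51777052941) (nat_lit 228) (nat_lit 17247132108) (nat_lit 76) (nat_lit 4438943673) (nat_lit 62) (nat_lit 5) (nat_lit 65) (nat_lit 5) (nat_lit 63) (nat_lit 4) (nat_lit 537) (nat_lit 436) (nat_lit 227)) (XT.lf (nat_lit 0) (nat_lit 22912008327) (nat_lit 76) (nat_lit 48651522729) (nat_lit 152) (nat_lit 3448270382) (nat_lit 61) (nat_lit 5) (nat_lit 62) (nat_lit 5) (nat_lit 63) (nat_lit 4) (nat_lit 538) (nat_lit 436) (nat_lit 226))))) (XT.nd (nat_lit 312) (nat_lit 304) (nat_lit 0) (XT.nd (nat_lit 156) (nat_lit 76) (nat_lit 0) (XT.nd (nat_lit 78) (nat_lit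 152) (nat_lit 0) (XT.lf (nat_lit 0) (nat_lit 15210644701) (nat_lit 152) (nat_lit 12126302711) (nat_lit 76) (nat_lit 49260366812) (nat_lit 60) (nat_lit 5) (nat_lit 62) (nat_lit 5) (nat_lit 61) (nat_lit 5) (nat_lit 539) (nat_lit 436) (nat_lit 225)) (XT.lf (nat_lit 0) (nat_lit 29584784294) (nat_lit 152) (nat_lit 5057062568) (nat_lit 228) (nat_lit 43579066619) (nat_lit 58) (nat_lit 5) (nat_lit 60) (nat_lit 5) (nat_lit 61) (nat_lit 5) (nat_lit 540) (nat_lit 436) (nat_lit 224))) (XT.nd (nat_lit 78) (nat_lit 76) (nat_lit 0) (XT.lf (nat_lit 0) (nat_lit 54949078168) (nat_lit 228) (nat_lit 7271740366) (nat_lit 76) (nat_lit 17663609510) (nat_lit 58) (nat_lit 5) (nat_lit 61) (nat_lit 5) (nat_lit 59) (nat_lit 4) (nat_lit 541) (nat_lit 436) (nat_lit 223)) (XT.lf (nat_lit 0) (nat_lit 35980987402) (nat_lit 76) (nat_lit 40278002006) (nat_lit 152) (nat_lit 5327054860) (nat_lit 57) (nat_lit 5) (nat_lit 58) (nat_lit 5) (nat_lit 59)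 (nat_lit 4) (nat_lit 542) (nat_lit 436) (nat_lit 222)))) (XT.nd (nat_lit 156) (nat_lit 76) (nat_lit 0) (XT.nd (nat_lit 78) (nat_lit 152) (nat_lit 0) (XT.lf (nat_lit 0) (nat_lit 14651014511) (nat_lit 152) (nat_lit 2804452481) (nat_lit 76) (nat_lit 65876803573) (nat_lit 56) (nat_lit 5) (nat_lit 58) (nat_lit 5) (nat_lit 57) (nat_lit 5) (nat_lit 543) (nat_lit 436) (nat_lit 221)) (XT.lf (nat_lit 0) (nat_lit 35585777660) (nat_lit 228) (nat_lit 43136591826) (nat_lit 76) (nat_lit 6392999369) (nat_lit 54) (nat_lit 5) (nat_lit 57) (nat_lit 5) (nat_lit 55) (nat_lit 4) (nat_lit 544) (nat_lit 436) (nat_lit 220))) (XT.nd (nat_lit 78) (nat_lit 0) (nat_lit 0) (XT.lf (nat_lit 0) (nat_lit 1054841336) (nat_lit 76) (nat_lit 56302912883) (nat_lit 152) (nat_lit 29587930862) (nat_lit 53) (nat_lit 5) (nat_lit 54) (nat_lit 5) (nat_lit 55) (nat_lit 4) (nat_lit 545) (nat_lit 436) (nat_lit 219)) (XT.lf (nat_lit 0) (nat_lit 47451802559) (nat_lit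 76) (nat_lit 32764313760) (nat_lit 152) (nat_lit 8601797788) (nat_lit 53) (nat_lit 5) (nat_lit 54) (nat_lit 5) (nat_lit 55) (nat_lit 4) (nat_lit 546) (nat_lit 436) (nat_lit 218))))))) (XT.nd (nat_lit 54990) (nat_lit 0) (nat_lit 12692) (XT.nd (nat_lit 54366) (nat_lit 0) (nat_lit 17328) (XT.nd (nat_lit 54054) (nat_lit 0) (nat_lit 18316) (XT.nd (nat_lit 53898) (nat_lit 0) (nat_lit 18316) (XT.lf (nat_lit 0) (nat_lit 4451745632) (nat_lit 152) (nat_lit 8348695482) (nat_lit 228) (nat_lit 77940901941) (nat_lit 50) (nat_lit 5) (nat_lit 52) (nat_lit 5) (nat_lit 53) (nat_lit 5) (nat_lit 547) (nat_lit 436) (nat_lit 217)) (XT.nd (nat_lit 78) (nat_lit 0) (nat_lit 0) (XT.lf (nat_lit 0) (nat_lit 1826107176) (nat_lit 0) (nat_lit 1826107176) (nat_lit 1140) (nat_lit 2564994377) (nat_lit 291) (nat_lit 5) (nat_lit 291) (nat_lit 3) (nat_lit 306) (nat_lit 3) (nat_lit 437) (nat_lit 437) (nat_lit 326)) (XT.lf (nat_lit 0) (nat_lit 7869567560)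 (nat_lit 1140) (nat_lit 2703561669) (nat_lit 1216) (nat_lit 2034031870) (nat_lit 291) (nat_lit 5) (nat_lit 306) (nat_lit 3) (nat_lit 307) (nat_lit 5) (nat_lit 438) (nat_lit 437) (nat_lit 325)))) (XT.nd (nat_lit 156) (nat_lit 0) (nat_lit 76) (XT.nd (nat_lit 78) (nat_lit 0) (nat_lit 76) (XT.lf (nat_lit 76) (nat_lit 3582081177) (nat_lit 0) (nat_lit 4923253354) (nat_lit 1216) (nat_lit 4278146414) (nat_lit 292) (nat_lit 5) (nat_lit 291) (nat_lit 5) (nat_lit 307) (nat_lit 5) (nat_lit 439) (nat_lit 437) (nat_lit 324)) (XT.lf (nat_lit 0) (nat_lit 9179918163) (nat_lit 1140) (nat_lit 2871021014) (nat_lit 1216) (nat_lit 913562896) (nat_lit 292) (nat_lit 5) (nat_lit 307) (nat_lit 5) (nat_lit 308) (nat_lit 5) (nat_lit 440) (nat_lit 437) (nat_lit 323))) (XT.nd (nat_lit 78) (nat_lit 0) (nat_lit 0) (XT.lf (nat_lit 76) (nat_lit 3662696445) (nat_lit 0) (nat_lit 6280033528) (nat_lit 1216) (nat_lit 3206188020) (nat_lit 293) (nat_lit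 5) (nat_lit 292) (nat_lit 5) (nat_lit 308) (nat_lit 5) (nat_lit 441) (nat_lit 437) (nat_lit 322)) (XT.lf (nat_lit 76) (nat_lit 10442069747) (nat_lit 0) (nat_lit 299761988) (nat_lit 1216) (nat_lit 2596636255) (nat_lit 293) (nat_lit 5) (nat_lit 292) (nat_lit 5) (nat_lit 308) (nat_lit 5) (nat_lit 442) (nat_lit 437) (nat_lit 321))))) (XT.nd (nat_lit 312) (nat_lit 0) (nat_lit 76) (XT.nd (nat_lit 156) (nat_lit 1140) (nat_lit 0) (XT.nd (nat_lit 78) (nat_lit 0) (nat_lit 0) (XT.lf (nat_lit 76) (nat_lit 3901464554) (nat_lit 0) (nat_lit 7742201769) (nat_lit 1216) (nat_lit 1887679027) (nat_lit 294) (nat_lit 5) (nat_lit 293) (nat_lit 5) (nat_lit 309) (nat_lit 5) (nat_lit 443) (nat_lit 437) (nat_lit 320)) (XT.lf (nat_lit 76) (nat_lit 10950244557) (nat_lit 0) (nat_lit 1639774557) (nat_lit 1216) (nat_lit 1139469570) (nat_lit 294) (nat_lit 5) (nat_lit 293) (nat_lit 5) (nat_lit 309) (nat_lit 5) (nat_lit 444) (nat_lit 437) (nat_lit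 319))) (XT.nd (nat_lit 78) (nat_lit 1216) (nat_lit 0) (XT.lf (nat_lit 76) (nat_lit 4306719159) (nat_lit 0) (nat_lit 9329854941) (nat_lit 1216) (nat_lit 294851319) (nat_lit 295) (nat_lit 5) (nat_lit 294) (nat_lit 5) (nat_lit 310) (nat_lit 5) (nat_lit 445) (nat_lit 437) (nat_lit 318)) (XT.lf (nat_lit 0) (nat_lit 594399161) (nat_lit 1216) (nat_lit 2508150483) (nat_lit 1292) (nat_lit 11035792529) (nat_lit 278) (nat_lit 5) (nat_lit 294) (nat_lit 5) (nat_lit 295) (nat_lit 5) (nat_lit 446) (nat_lit 437) (nat_lit 317)))) (XT.nd (nat_lit 156) (nat_lit 0) (nat_lit 76) (XT.nd (nat_lit 78) (nat_lit 0) (nat_lit 0) (XT.lf (nat_lit 0) (nat_lit 1570269143) (nat_lit 1216) (nat_lit 9477523974) (nat_lit 1292) (nat_lit 3301612841) (nat_lit 279) (nat_lit 5) (nat_lit 295) (nat_lit 5) (nat_lit 296) (nat_lit 5) (nat_lit 447) (nat_lit 437) (nat_lit 316)) (XT.lf (nat_lit 0) (nat_lit 2618404638) (nat_lit 1216) (nat_lit 2082108787) (nat_lit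 1292) (nat_lit 9865001612) (nat_lit 279) (nat_lit 5) (nat_lit 295) (nat_lit 5) (nat_lit 296) (nat_lit 5) (nat_lit 448) (nat_lit 437) (nat_lit 315))) (XT.nd (nat_lit 78) (nat_lit 0) (nat_lit 0) (XT.lf (nat_lit 0) (nat_lit 3757466506) (nat_lit 1216) (nat_lit 9169503744) (nat_lit 1292) (nat_lit 1859355642) (nat_lit 280) (nat_lit 5) (nat_lit 296) (nat_lit 5) (nat_lit 297) (nat_lit 5) (nat_lit 449) (nat_lit 437) (nat_lit 314)) (XT.lf (nat_lit 0) (nat_lit 4985869969) (nat_lit 1216) (nat_lit 1480336681) (nat_lit 1292) (nat_lit 8545902217) (nat_lit 280) (nat_lit 5) (nat_lit 296) (nat_lit 5) (nat_lit 297) (nat_lit 5) (nat_lit 450) (nat_lit 437) (nat_lit 313)))))) (XT.nd (nat_lit 624) (nat_lit 2280) (nat_lit 0) (XT.nd (nat_lit 312) (nat_lit 1444) (nat_lit 0) (XT.nd (nat_lit 156) (nat_lit 1140) (nat_lit 0) (XT.nd (nat_lit 78) (nat_lit 0) (nat_lit 0) (XT.lf (nat_lit 0) (nat_lit 6304388351) (nat_lit 1216) (nat_lit 8687704442)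 (nat_lit 1292) (nat_lit 250977457) (nat_lit 281) (nat_lit 5) (nat_lit 297) (nat_lit 5) (nat_lit 298) (nat_lit 5) (nat_lit 451) (nat_lit 437) (nat_lit 312)) (XT.lf (nat_lit 0) (nat_lit 7729633562) (nat_lit 1216) (nat_lit 692062446) (nat_lit 1292) (nat_lit 7057252047) (nat_lit 281) (nat_lit 5) (nat_lit 297) (nat_lit 5) (nat_lit 298) (nat_lit 5) (nat_lit 452) (nat_lit 437) (nat_lit 311))) (XT.nd (nat_lit 78) (nat_lit 1140) (nat_lit 0) (XT.lf (nat_lit 76) (nat_lit 7683809550) (nat_lit 0) (nat_lit 1576088956) (nat_lit 1292) (nat_lit 6460138460) (nat_lit 282) (nat_lit 5) (nat_lit 281) (nat_lit 5) (nat_lit 298) (nat_lit 5) (nat_lit 453) (nat_lit 437) (nat_lit 310)) (XT.lf (nat_lit 0) (nat_lit 300313209) (nat_lit 1216) (nat_lit 10586996136) (nat_lit 1292) (nat_lit 5079514625) (nat_lit 266) (nat_lit 5) (nat_lit 282) (nat_lit 5) (nat_lit 283) (nat_lit 5) (nat_lit 454) (nat_lit 437) (nat_lit 309)))) (XT.nd (nat_lit 156) (nat_lit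 684) (nat_lit 0) (XT.nd (nat_lit 78) (nat_lit 760) (nat_lit 0) (XT.lf (nat_lit 0) (nat_lit 9026020701) (nat_lit 1216) (nat_lit 3623025750) (nat_lit 1292) (nat_lit 3569405506) (nat_lit 266) (nat_lit 5) (nat_lit 282) (nat_lit 5) (nat_lit 283) (nat_lit 5) (nat_lit 455) (nat_lit 437) (nat_lit 308)) (XT.lf (nat_lit 0) (nat_lit 1521636745) (nat_lit 760) (nat_lit 12979987073) (nat_lit 836) (nat_lit 1974867735) (nat_lit 256) (nat_lit 5) (nat_lit 266) (nat_lit 5) (nat_lit 267) (nat_lit 5) (nat_lit 456) (nat_lit 437) (nat_lit 307))) (XT.nd (nat_lit 78) (nat_lit 684) (nat_lit 0) (XT.lf (nat_lit 0) (nat_lit 10598272189) (nat_lit 760) (nat_lit 5909113571) (nat_lit 836) (nat_lit 231960710) (nat_lit 256) (nat_lit 5) (nat_lit 266) (nat_lit 5) (nat_lit 267) (nat_lit 5) (nat_lit 457) (nat_lit 437) (nat_lit 306)) (XT.lf (nat_lit 0) (nat_lit 1564589077) (nat_lit 684) (nat_lit 14052312498) (nat_lit 76) (nat_lit 1391781070) (nat_lit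 247) (nat_lit 5) (nat_lit 256) (nat_lit 5) (nat_lit 248) (nat_lit 5) (nat_lit 458) (nat_lit 437) (nat_lit 305))))) (XT.nd (nat_lit 312) (nat_lit 1140) (nat_lit 0) (XT.nd (nat_lit 156) (nat_lit 532) (nat_lit 0) (XT.nd (nat_lit 78) (nat_lit 608) (nat_lit 0) (XT.lf (nat_lit 0) (nat_lit 3521382593) (nat_lit 684) (nat_lit 4902880765) (nat_lit 76) (nat_lit 8858438515) (nat_lit 247) (nat_lit 5) (nat_lit 256) (nat_lit 5) (nat_lit 248) (nat_lit 5) (nat_lit 459) (nat_lit 437) (nat_lit 304)) (XT.lf (nat_lit 0) (nat_lit 4601258472) (nat_lit 608) (nat_lit 970022956) (nat_lit 684) (nat_lit 11992630289) (nat_lit 239) (nat_lit 5) (nat_lit 247) (nat_lit 5) (nat_lit 248) (nat_lit 5) (nat_lit 460) (nat_lit 437) (nat_lit 303))) (XT.nd (nat_lit 78) (nat_lit 532) (nat_lit 0) (XT.lf (nat_lit 0) (nat_lit 7787525045) (nat_lit 684) (nat_lit 3435777964) (nat_lit 76) (nat_lit 6627111438) (nat_lit 239) (nat_lit 5) (nat_lit 248) (nat_lit 5)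 (nat_lit 240) (nat_lit 5) (nat_lit 461) (nat_lit 437) (nat_lit 302)) (XT.lf (nat_lit 0) (nat_lit 6484355401) (nat_lit 532) (nat_lit 3648485116) (nat_lit 608) (nat_lit 8010796171) (nat_lit 232) (nat_lit 5) (nat_lit 239) (nat_lit 5) (nat_lit 240) (nat_lit 5) (nat_lit 462) (nat_lit 437) (nat_lit 301)))) (XT.nd (nat_lit 156) (nat_lit 608) (nat_lit 0) (XT.nd (nat_lit 78) (nat_lit 532) (nat_lit 0) (XT.lf (nat_lit 0) (nat_lit 12614309174) (nat_lit 608) (nat_lit 1722021261) (nat_lit 76) (nat_lit 4107353257) (nat_lit 232) (nat_lit 5) (nat_lit 240) (nat_lit 5) (nat_lit 233) (nat_lit 5) (nat_lit 463) (nat_lit 437) (nat_lit 300)) (XT.lf (nat_lit 0) (nat_lit 8636382090) (nat_lit 532) (nat_lit 6644077585) (nat_lit 608) (nat_lit 3468967152) (nat_lit 225) (nat_lit 5) (nat_lit 232) (nat_lit 5) (nat_lit 233) (nat_lit 5) (nat_lit 464) (nat_lit 437) (nat_lit 299))) (XT.nd (nat_lit 78) (nat_lit 76) (nat_lit 0) (XT.lf (nat_lit 0) (nat_lit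 260081326) (nat_lit 532) (nat_lit 17790129371) (nat_lit 608) (nat_lit 1013424877) (nat_lit 218) (nat_lit 5) (nat_lit 225) (nat_lit 5) (nat_lit 226) (nat_lit 5) (nat_lit 465) (nat_lit 437) (nat_lit 298)) (XT.lf (nat_lit 0) (nat_lit 1646459075) (nat_lit 608) (nat_lit 8323487817) (nat_lit 76) (nat_lit 9412080652) (nat_lit 217) (nat_lit 5) (nat_lit 225) (nat_lit 5) (nat_lit 218) (nat_lit 5) (nat_lit 466) (nat_lit 437) (nat_lit 297))))))))
noncomputable def xc178 : XT := (XT.nd (nat_lit 2340) (nat_lit 4028) (nat_lit 0) (XT.nd (nat_lit 1170) (nat_lit 2660) (nat_lit 0) (XT.nd (nat_lit 546) (nat_lit 2052) (nat_lit 0) (XT.nd (nat_lit 234) (nat_lit 988) (nat_lit 0) (XT.nd (nat_lit 78) (nat_lit 456) (nat_lit 0) (XT.lf (nat_lit 0) (nat_lit 2500393850) (nat_lit 532) (nat_lit 1881002302) (nat_lit 608) (nat_lit 15327806988) (nat_lit 210) (nat_lit 5) (nat_lit 217) (nat_lit 5) (nat_lit 218) (nat_lit 5) (nat_lit 467) (nat_lit 437)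 (nat_lit 296)) (XT.nd (nat_lit 78) (nat_lit 456) (nat_lit 0) (XT.lf (nat_lit 0) (nat_lit 7337008179) (nat_lit 608) (nat_lit 6296389103) (nat_lit 76) (nat_lit 6408639514) (nat_lit 210) (nat_lit 5) (nat_lit 218) (nat_lit 5) (nat_lit 211) (nat_lit 5) (nat_lit 468) (nat_lit 437) (nat_lit 295)) (XT.lf (nat_lit 0) (nat_lit 5013393211) (nat_lit 456) (nat_lit 5426688153) (nat_lit 532) (nat_lit 9943011866) (nat_lit 204) (nat_lit 5) (nat_lit 210) (nat_lit 5) (nat_lit 211) (nat_lit 5) (nat_lit 469) (nat_lit 437) (nat_lit 294)))) (XT.nd (nat_lit 156) (nat_lit 532) (nat_lit 0) (XT.nd (nat_lit 78) (nat_lit 456) (nat_lit 0) (XT.lf (nat_lit 0) (nat_lit 13721658505) (nat_lit 532) (nat_lit 3980006044) (nat_lit 76) (nat_lit 3030155962) (nat_lit 204) (nat_lit 5) (nat_lit 211) (nat_lit 5) (nat_lit 205) (nat_lit 5) (nat_lit 470) (nat_lit 437) (nat_lit 293)) (XT.lf (nat_lit 0) (nat_lit 7841587654) (nat_lit 456) (nat_lit 9381543958) (nat_lit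 532) (nat_lit 3864236001) (nat_lit 198) (nat_lit 5) (nat_lit 204) (nat_lit 5) (nat_lit 205) (nat_lit 5) (nat_lit 471) (nat_lit 437) (nat_lit 292))) (XT.nd (nat_lit 78) (nat_lit 532) (nat_lit 0) (XT.lf (nat_lit 0) (nat_lit 20090425265) (nat_lit 456) (nat_lit 771891495) (nat_lit 532) (nat_lit 590285752) (nat_lit 198) (nat_lit 5) (nat_lit 204) (nat_lit 5) (nat_lit 205) (nat_lit 5) (nat_lit 472) (nat_lit 437) (nat_lit 291)) (XT.lf (nat_lit 0) (nat_lit 2905645679) (nat_lit 532) (nat_lit 10846053639) (nat_lit 76) (nat_lit 8070952827) (nat_lit 191) (nat_lit 5) (nat_lit 198) (nat_lit 5) (nat_lit 192) (nat_lit 5) (nat_lit 473) (nat_lit 437) (nat_lit 290))))) (XT.nd (nat_lit 312) (nat_lit 1216) (nat_lit 0) (XT.nd (nat_lit 156) (nat_lit 380) (nat_lit 0) (XT.nd (nat_lit 78) (nat_lit 0) (nat_lit 0) (XT.lf (nat_lit 0) (nat_lit 1517057107) (nat_lit 456) (nat_lit 5006389241) (nat_lit 532) (nat_lit 15679317222) (nat_lit 185) (nat_lit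 5) (nat_lit 191) (nat_lit 5) (nat_lit 192) (nat_lit 5) (nat_lit 474) (nat_lit 437) (nat_lit 289)) (XT.lf (nat_lit 0) (nat_lit 10391699520) (nat_lit 532) (nat_lit 8166248545) (nat_lit 76) (nat_lit 4032073982) (nat_lit 185) (nat_lit 5) (nat_lit 192) (nat_lit 5) (nat_lit 186) (nat_lit 5) (nat_lit 475) (nat_lit 437) (nat_lit 288))) (XT.nd (nat_lit 78) (nat_lit 0) (nat_lit 0) (XT.lf (nat_lit 0) (nat_lit 4763336484) (nat_lit 380) (nat_lit 9701075902) (nat_lit 456) (nat_lit 8521834752) (nat_lit 180) (nat_lit 5) (nat_lit 185) (nat_lit 5) (nat_lit 186) (nat_lit 5) (nat_lit 476) (nat_lit 437) (nat_lit 287)) (XT.lf (nat_lit 0) (nat_lit 18239457533) (nat_lit 380) (nat_lit 495486121) (nat_lit 456) (nat_lit 4657147407) (nat_lit 180) (nat_lit 5) (nat_lit 185) (nat_lit 5) (nat_lit 186) (nat_lit 5) (nat_lit 477) (nat_lit 437) (nat_lit 286)))) (XT.nd (nat_lit 156) (nat_lit 760) (nat_lit 0) (XT.nd (nat_lit 78) (nat_lit 76) (nat_lit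 0) (XT.lf (nat_lit 0) (nat_lit 8378180125) (nat_lit 380) (nat_lit 14915683231) (nat_lit 456) (nat_lit 511439924) (nat_lit 175) (nat_lit 5) (nat_lit 180) (nat_lit 5) (nat_lit 181) (nat_lit 5) (nat_lit 478) (nat_lit 437) (nat_lit 285)) (XT.lf (nat_lit 0) (nat_lit 3736146576) (nat_lit 456) (nat_lit 1859086179) (nat_lit 76) (nat_lit 18633070720) (nat_lit 174) (nat_lit 5) (nat_lit 180) (nat_lit 5) (nat_lit 175) (nat_lit 5) (nat_lit 479) (nat_lit 437) (nat_lit 284))) (XT.nd (nat_lit 78) (nat_lit 380) (nat_lit 0) (XT.lf (nat_lit 0) (nat_lit 8252826869) (nat_lit 456) (nat_lit 12356858623) (nat_lit 76) (nat_lit 4049598957) (nat_lit 169) (nat_lit 5) (nat_lit 175) (nat_lit 5) (nat_lit 170) (nat_lit 5) (nat_lit 480) (nat_lit 437) (nat_lit 283)) (XT.lf (nat_lit 0) (nat_lit 1795147674) (nat_lit 380) (nat_lit 11195151380) (nat_lit 456) (nat_lit 12110338079) (nat_lit 164) (nat_lit 5) (nat_lit 169) (nat_lit 5) (nat_lit 170) (nat_lit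 5) (nat_lit 481) (nat_lit 437) (nat_lit 282)))))) (XT.nd (nat_lit 546) (nat_lit 1292) (nat_lit 0) (XT.nd (nat_lit 234) (nat_lit 988) (nat_lit 0) (XT.nd (nat_lit 78) (nat_lit 380) (nat_lit 0) (XT.lf (nat_lit 0) (nat_lit 16616542678) (nat_lit 380) (nat_lit 1371913523) (nat_lit 456) (nat_lit 7563218370) (nat_lit 164) (nat_lit 5) (nat_lit 169) (nat_lit 5) (nat_lit 170) (nat_lit 5) (nat_lit 482) (nat_lit 437) (nat_lit 281)) (XT.nd (nat_lit 78) (nat_lit 76) (nat_lit 0) (XT.lf (nat_lit 0) (nat_lit 5888786540) (nat_lit 304) (nat_lit 17382391094) (nat_lit 380) (nat_lit 2741027878) (nat_lit 160) (nat_lit 5) (nat_lit 164) (nat_lit 5) (nat_lit 165) (nat_lit 5) (nat_lit 483) (nat_lit 437) (nat_lit 280)) (XT.lf (nat_lit 0) (nat_lit 2281075871) (nat_lit 380) (nat_lit 5187561964) (nat_lit 76) (nat_lit 19014313131) (nat_lit 159) (nat_lit 5) (nat_lit 164) (nat_lit 5) (nat_lit 160) (nat_lit 5) (nat_lit 484) (nat_lit 437) (nat_lit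 279)))) (XT.nd (nat_lit 156) (nat_lit 608) (nat_lit 0) (XT.nd (nat_lit 78) (nat_lit 0) (nat_lit 0) (XT.lf (nat_lit 0) (nat_lit 7520117280) (nat_lit 456) (nat_lit 16628513371) (nat_lit 76) (nat_lit 2814733859) (nat_lit 154) (nat_lit 5) (nat_lit 160) (nat_lit 5) (nat_lit 155) (nat_lit 5) (nat_lit 485) (nat_lit 437) (nat_lit 278)) (XT.lf (nat_lit 0) (nat_lit 13037402486) (nat_lit 456) (nat_lit 1110060884) (nat_lit 76) (nat_lit 13307095770) (nat_lit 154) (nat_lit 5) (nat_lit 160) (nat_lit 5) (nat_lit 155) (nat_lit 5) (nat_lit 486) (nat_lit 437) (nat_lit 277))) (XT.nd (nat_lit 78) (nat_lit 304) (nat_lit 0) (XT.lf (nat_lit 0) (nat_lit 15161793804) (nat_lit 304) (nat_lit 3698547936) (nat_lit 380) (nat_lit 9095944639) (nat_lit 150) (nat_lit 5) (nat_lit 154) (nat_lit 5) (nat_lit 155) (nat_lit 5) (nat_lit 487) (nat_lit 437) (nat_lit 276)) (XT.lf (nat_lit 0) (nat_lit 3463321831) (nat_lit 304) (nat_lit 21501616203) (nat_lit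 380) (nat_lit 3504919145) (nat_lit 146) (nat_lit 5) (nat_lit 150) (nat_lit 5) (nat_lit 151) (nat_lit 5) (nat_lit 488) (nat_lit 437) (nat_lit 275))))) (XT.nd (nat_lit 312) (nat_lit 608) (nat_lit 0) (XT.nd (nat_lit 156) (nat_lit 304) (nat_lit 0) (XT.nd (nat_lit 78) (nat_lit 304) (nat_lit 0) (XT.lf (nat_lit 0) (nat_lit 2371439164) (nat_lit 380) (nat_lit 8591486290) (nat_lit 76) (nat_lit 18030412979) (nat_lit 145) (nat_lit 5) (nat_lit 150) (nat_lit 5) (nat_lit 146) (nat_lit 5) (nat_lit 489) (nat_lit 437) (nat_lit 274)) (XT.lf (nat_lit 0) (nat_lit 8429483967) (nat_lit 380) (nat_lit 21091197402) (nat_lit 76) (nat_lit 8527197) (nat_lit 141) (nat_lit 5) (nat_lit 146) (nat_lit 5) (nat_lit 142) (nat_lit 5) (nat_lit 490) (nat_lit 437) (nat_lit 273))) (XT.nd (nat_lit 78) (nat_lit 304) (nat_lit 0) (XT.lf (nat_lit 0) (nat_lit 14860132258) (nat_lit 380) (nat_lit 4041374271) (nat_lit 76) (nat_lit 11173923129) (nat_lit 141) (nat_lit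 5) (nat_lit 146) (nat_lit 5) (nat_lit 142) (nat_lit 5) (nat_lit 491) (nat_lit 437) (nat_lit 272)) (XT.lf (nat_lit 0) (nat_lit 13781164711) (nat_lit 304) (nat_lit 7829864759) (nat_lit 380) (nat_lit 9023188727) (nat_lit 137) (nat_lit 5) (nat_lit 141) (nat_lit 5) (nat_lit 142) (nat_lit 5) (nat_lit 492) (nat_lit 437) (nat_lit 271)))) (XT.nd (nat_lit 156) (nat_lit 304) (nat_lit 0) (XT.nd (nat_lit 78) (nat_lit 76) (nat_lit 0) (XT.lf (nat_lit 0) (nat_lit 989475755) (nat_lit 228) (nat_lit 27654966510) (nat_lit 304) (nat_lit 2562929145) (nat_lit 134) (nat_lit 5) (nat_lit 137) (nat_lit 5) (nat_lit 138) (nat_lit 5) (nat_lit 493) (nat_lit 437) (nat_lit 270)) (XT.lf (nat_lit 0) (nat_lit 4255629204) (nat_lit 304) (nat_lit 12206173833) (nat_lit 76) (nat_lit 15327407313) (nat_lit 133) (nat_lit 5) (nat_lit 137) (nat_lit 5) (nat_lit 134) (nat_lit 5) (nat_lit 494) (nat_lit 437) (nat_lit 269))) (XT.nd (nat_lit 78) (nat_lit 0) (nat_lit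 0) (XT.lf (nat_lit 0) (nat_lit 6438614049) (nat_lit 304) (nat_lit 4845590043) (nat_lit 380) (nat_lit 21101830555) (nat_lit 129) (nat_lit 5) (nat_lit 133) (nat_lit 5) (nat_lit 134) (nat_lit 5) (nat_lit 495) (nat_lit 437) (nat_lit 268)) (XT.lf (nat_lit 0) (nat_lit 18711674653) (nat_lit 380) (nat_lit 7181356745) (nat_lit 76) (nat_lit 7102091725) (nat_lit 129) (nat_lit 5) (nat_lit 134) (nat_lit 5) (nat_lit 130) (nat_lit 5) (nat_lit 496) (nat_lit 437) (nat_lit 267))))))) (XT.nd (nat_lit 1170) (nat_lit 1748) (nat_lit 0) (XT.nd (nat_lit 546) (nat_lit 1140) (nat_lit 0) (XT.nd (nat_lit 234) (nat_lit 532) (nat_lit 0) (XT.nd (nat_lit 78) (nat_lit 380) (nat_lit 0) (XT.lf (nat_lit 0) (nat_lit 12332998006) (nat_lit 228) (nat_lit 14190768124) (nat_lit 304) (nat_lit 7093864804) (nat_lit 126) (nat_lit 5) (nat_lit 129) (nat_lit 5) (nat_lit 130) (nat_lit 5) (nat_lit 497) (nat_lit 437) (nat_lit 266)) (XT.nd (nat_lit 78) (nat_lit 304)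 (nat_lit 0) (XT.lf (nat_lit 0) (nat_lit 373854541) (nat_lit 304) (nat_lit 1687753785) (nat_lit 76) (nat_lit 32195060658) (nat_lit 125) (nat_lit 5) (nat_lit 129) (nat_lit 5) (nat_lit 126) (nat_lit 5) (nat_lit 498) (nat_lit 437) (nat_lit 265)) (XT.lf (nat_lit 0) (nat_lit 8201768211) (nat_lit 380) (nat_lit 16224023586) (nat_lit 76) (nat_lit 10478617553) (nat_lit 121) (nat_lit 5) (nat_lit 126) (nat_lit 5) (nat_lit 122) (nat_lit 5) (nat_lit 499) (nat_lit 437) (nat_lit 264)))) (XT.nd (nat_lit 156) (nat_lit 304) (nat_lit 0) (XT.nd (nat_lit 78) (nat_lit 0) (nat_lit 0) (XT.lf (nat_lit 0) (nat_lit 4176796865) (nat_lit 228) (nat_lit 12160962299) (nat_lit 304) (nat_lit 19231626086) (nat_lit 118) (nat_lit 5) (nat_lit 121) (nat_lit 5) (nat_lit 122) (nat_lit 5) (nat_lit 500) (nat_lit 437) (nat_lit 263)) (XT.lf (nat_lit 0) (nat_lit 24883321866) (nat_lit 304) (nat_lit 10740595399) (nat_lit 76) (nat_lit 625428906) (nat_lit 118)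 (nat_lit 5) (nat_lit 122) (nat_lit 5) (nat_lit 119) (nat_lit 5) (nat_lit 501) (nat_lit 437) (nat_lit 262))) (XT.nd (nat_lit 78) (nat_lit 76) (nat_lit 0) (XT.lf (nat_lit 0) (nat_lit 10610552419) (nat_lit 228) (nat_lit 23292734436) (nat_lit 304) (nat_lit 3039878493) (nat_lit 115) (nat_lit 5) (nat_lit 118) (nat_lit 5) (nat_lit 119) (nat_lit 5) (nat_lit 502) (nat_lit 437) (nat_lit 261)) (XT.lf (nat_lit 0) (nat_lit 5533207859) (nat_lit 304) (nat_lit 4893496124) (nat_lit 76) (nat_lit 27226343567) (nat_lit 114) (nat_lit 5) (nat_lit 118) (nat_lit 5) (nat_lit 115) (nat_lit 5) (nat_lit 503) (nat_lit 437) (nat_lit 260))))) (XT.nd (nat_lit 312) (nat_lit 456) (nat_lit 0) (XT.nd (nat_lit 156) (nat_lit 228) (nat_lit 0) (XT.nd (nat_lit 78) (nat_lit 228) (nat_lit 0) (XT.lf (nat_lit 0) (nat_lit 14495417928) (nat_lit 304) (nat_lit 20914311841) (nat_lit 76) (nat_lit 2967803074) (nat_lit 111) (nat_lit 5) (nat_lit 115) (nat_lit 5) (nat_lit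 112) (nat_lit 5) (nat_lit 504) (nat_lit 437) (nat_lit 259)) (XT.lf (nat_lit 0) (nat_lit 1385091100) (nat_lit 228) (nat_lit 22503666893) (nat_lit 304) (nat_lit 15230127225) (nat_lit 108) (nat_lit 5) (nat_lit 111) (nat_lit 5) (nat_lit 112) (nat_lit 5) (nat_lit 505) (nat_lit 437) (nat_lit 258))) (XT.nd (nat_lit 78) (nat_lit 228) (nat_lit 0) (XT.lf (nat_lit 0) (nat_lit 24775372279) (nat_lit 228) (nat_lit 8995586606) (nat_lit 304) (nat_lit 6105307883) (nat_lit 108) (nat_lit 5) (nat_lit 111) (nat_lit 5) (nat_lit 112) (nat_lit 5) (nat_lit 506) (nat_lit 437) (nat_lit 257)) (XT.lf (nat_lit 0) (nat_lit 3353417361) (nat_lit 228) (nat_lit 32366214152) (nat_lit 76) (nat_lit 4932056209) (nat_lit 105) (nat_lit 5) (nat_lit 108) (nat_lit 5) (nat_lit 106) (nat_lit 5) (nat_lit 507) (nat_lit 437) (nat_lit 256)))) (XT.nd (nat_lit 156) (nat_lit 228) (nat_lit 0) (XT.nd (nat_lit 78) (nat_lit 228) (nat_lit 0) (XT.lf (nat_lit 0) (nat_lit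 13212234244) (nat_lit 228) (nat_lit 8920572121) (nat_lit 76) (nat_lit 19308580652) (nat_lit 105) (nat_lit 5) (nat_lit 108) (nat_lit 5) (nat_lit 106) (nat_lit 5) (nat_lit 508) (nat_lit 437) (nat_lit 255)) (XT.lf (nat_lit 0) (nat_lit 15524842927) (nat_lit 228) (nat_lit 7987300282) (nat_lit 304) (nat_lit 18738274630) (nat_lit 102) (nat_lit 5) (nat_lit 105) (nat_lit 5) (nat_lit 106) (nat_lit 5) (nat_lit 509) (nat_lit 437) (nat_lit 254))) (XT.nd (nat_lit 78) (nat_lit 228) (nat_lit 0) (XT.lf (nat_lit 0) (nat_lit 34271416915) (nat_lit 304) (nat_lit 2265269873) (nat_lit 76) (nat_lit 6542522139) (nat_lit 102) (nat_lit 5) (nat_lit 106) (nat_lit 5) (nat_lit 103) (nat_lit 5) (nat_lit 510) (nat_lit 437) (nat_lit 253)) (XT.lf (nat_lit 0) (nat_lit 1695116236) (nat_lit 228) (nat_lit 20642491720) (nat_lit 76) (nat_lit 21585779494) (nat_lit 99) (nat_lit 5) (nat_lit 102) (nat_lit 5) (nat_lit 100) (nat_lit 5) (nat_lit 511) (nat_lit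 437) (nat_lit 252)))))) (XT.nd (nat_lit 546) (nat_lit 912) (nat_lit 0) (XT.nd (nat_lit 234) (nat_lit 456) (nat_lit 0) (XT.nd (nat_lit 78) (nat_lit 152) (nat_lit 0) (XT.lf (nat_lit 0) (nat_lit 4848465958) (nat_lit 228) (nat_lit 7553570061) (nat_lit 304) (nat_lit 32386260903) (nat_lit 96) (nat_lit 5) (nat_lit 99) (nat_lit 5) (nat_lit 100) (nat_lit 5) (nat_lit 512) (nat_lit 437) (nat_lit 251)) (XT.nd (nat_lit 78) (nat_lit 152) (nat_lit 0) (XT.lf (nat_lit 0) (nat_lit 23710710887) (nat_lit 304) (nat_lit 14227841393) (nat_lit 76) (nat_lit 7732185297) (nat_lit 96) (nat_lit 5) (nat_lit 100) (nat_lit 5) (nat_lit 97) (nat_lit 5) (nat_lit 513) (nat_lit 437) (nat_lit 250)) (XT.lf (nat_lit 0) (nat_lit 12416789672) (nat_lit 152) (nat_lit 23132378506) (nat_lit 228) (nat_lit 11024767921) (nat_lit 94) (nat_lit 5) (nat_lit 96) (nat_lit 5) (nat_lit 97) (nat_lit 5) (nat_lit 514) (nat_lit 437) (nat_lit 249)))) (XT.nd (nat_lit 156)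 (nat_lit 152) (nat_lit 0) (XT.nd (nat_lit 78) (nat_lit 228) (nat_lit 0) (XT.lf (nat_lit 0) (nat_lit 375376604) (nat_lit 228) (nat_lit 7357457308) (nat_lit 76) (nat_lit 39767083683) (nat_lit 93) (nat_lit 5) (nat_lit 96) (nat_lit 5) (nat_lit 94) (nat_lit 5) (nat_lit 515) (nat_lit 437) (nat_lit 248)) (XT.lf (nat_lit 0) (nat_lit 12170942104) (nat_lit 304) (nat_lit 27994080024) (nat_lit 76) (nat_lit 8277131905) (nat_lit 90) (nat_lit 5) (nat_lit 94) (nat_lit 5) (nat_lit 91) (nat_lit 5) (nat_lit 516) (nat_lit 437) (nat_lit 247))) (XT.nd (nat_lit 78) (nat_lit 152) (nat_lit 0) (XT.lf (nat_lit 0) (nat_lit 24468481299) (nat_lit 304) (nat_lit 255211648) (nat_lit 76) (nat_lit 24684521694) (nat_lit 90) (nat_lit 5) (nat_lit 94) (nat_lit 5) (nat_lit 91) (nat_lit 5) (nat_lit 517) (nat_lit 437) (nat_lit 246)) (XT.lf (nat_lit 0) (nat_lit 28873346173) (nat_lit 152) (nat_lit 8535762865) (nat_lit 228) (nat_lit 12985923430) (nat_lit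 88) (nat_lit 5) (nat_lit 90) (nat_lit 5) (nat_lit 91) (nat_lit 5) (nat_lit 518) (nat_lit 437) (nat_lit 245))))) (XT.nd (nat_lit 312) (nat_lit 532) (nat_lit 0) (XT.nd (nat_lit 156) (nat_lit 152) (nat_lit 0) (XT.nd (nat_lit 78) (nat_lit 76) (nat_lit 0) (XT.lf (nat_lit 0) (nat_lit 7532430270) (nat_lit 152) (nat_lit 43355392431) (nat_lit 228) (nat_lit 519136379) (nat_lit 86) (nat_lit 5) (nat_lit 88) (nat_lit 5) (nat_lit 89) (nat_lit 5) (nat_lit 519) (nat_lit 437) (nat_lit 244)) (XT.lf (nat_lit 0) (nat_lit 12381846632) (nat_lit 228) (nat_lit 14754414790) (nat_lit 76) (nat_lit 25300410052) (nat_lit 85) (nat_lit 5) (nat_lit 88) (nat_lit 5) (nat_lit 86) (nat_lit 5) (nat_lit 520) (nat_lit 437) (nat_lit 243))) (XT.nd (nat_lit 78) (nat_lit 0) (nat_lit 0) (XT.lf (nat_lit 0) (nat_lit 15531483132) (nat_lit 152) (nat_lit 10273978944) (nat_lit 228) (nat_lit 27687278094) (nat_lit 83) (nat_lit 5) (nat_lit 85) (nat_lit 5) (nat_lit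 86) (nat_lit 5) (nat_lit 521) (nat_lit 437) (nat_lit 242)) (XT.lf (nat_lit 0) (nat_lit 39847200662) (nat_lit 228) (nat_lit 7623052209) (nat_lit 76) (nat_lit 7103775850) (nat_lit 83) (nat_lit 5) (nat_lit 86) (nat_lit 5) (nat_lit 84) (nat_lit 5) (nat_lit 522) (nat_lit 437) (nat_lit 241)))) (XT.nd (nat_lit 156) (nat_lit 304) (nat_lit 0) (XT.nd (nat_lit 78) (nat_lit 76) (nat_lit 0) (XT.lf (nat_lit 0) (nat_lit 23986026717) (nat_lit 152) (nat_lit 30653305460) (nat_lit 228) (nat_lit 1038549755) (nat_lit 81) (nat_lit 5) (nat_lit 83) (nat_lit 5) (nat_lit 84) (nat_lit 5) (nat_lit 523) (nat_lit 437) (nat_lit 240)) (XT.lf (nat_lit 0) (nat_lit 12880119180) (nat_lit 228) (nat_lit 244815871) (nat_lit 76) (nat_lit 43683911654) (nat_lit 80) (nat_lit 5) (nat_lit 83) (nat_lit 5) (nat_lit 81) (nat_lit 5) (nat_lit 524) (nat_lit 437) (nat_lit 239))) (XT.nd (nat_lit 78) (nat_lit 152) (nat_lit 0) (XT.lf (nat_lit 0) (nat_lit 27558003093)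 (nat_lit 228) (nat_lit 25245302186) (nat_lit 76) (nat_lit 5159251008) (nat_lit 78) (nat_lit 5) (nat_lit 81) (nat_lit 5) (nat_lit 79) (nat_lit 5) (nat_lit 525) (nat_lit 437) (nat_lit 238)) (XT.lf (nat_lit 0) (nat_lit 7533980435) (nat_lit 152) (nat_lit 35344073722) (nat_lit 228) (nat_lit 16266768283) (nat_lit 76) (nat_lit 5) (nat_lit 78) (nat_lit 5) (nat_lit 79) (nat_lit 5) (nat_lit 526) (nat_lit 437) (nat_lit 237))))))))
noncomputable def xc179 : XT := (XT.nd (nat_lit 56238) (nat_lit 0) (nat_lit 9652) (XT.nd (nat_lit 1170) (nat_lit 380) (nat_lit 0) (XT.nd (nat_lit 546) (nat_lit 608) (nat_lit 0) (XT.nd (nat_lit 234) (nat_lit 532) (nat_lit 0) (XT.nd (nat_lit 78) (nat_lit 228) (nat_lit 0) (XT.lf (nat_lit 0) (nat_lit 41808737031) (nat_lit 152) (nat_lit 17100897158) (nat_lit 228) (nat_lit 1445364761) (nat_lit 76) (nat_lit 5) (nat_lit 78) (nat_lit 5) (nat_lit 79) (nat_lit 5) (nat_lit 527) (nat_lit 437) (nat_lit 236))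 (XT.nd (nat_lit 78) (nat_lit 0) (nat_lit 0) (XT.lf (nat_lit 0) (nat_lit 13717780139) (nat_lit 228) (nat_lit 45934060549) (nat_lit 76) (nat_lit 1940650951) (nat_lit 73) (nat_lit 5) (nat_lit 76) (nat_lit 5) (nat_lit 74) (nat_lit 5) (nat_lit 528) (nat_lit 437) (nat_lit 235)) (XT.lf (nat_lit 0) (nat_lit 29662290260) (nat_lit 228) (nat_lit 11782848630) (nat_lit 76) (nat_lit 21410875444) (nat_lit 73) (nat_lit 5) (nat_lit 76) (nat_lit 5) (nat_lit 74) (nat_lit 5) (nat_lit 529) (nat_lit 437) (nat_lit 234)))) (XT.nd (nat_lit 156) (nat_lit 380) (nat_lit 0) (XT.nd (nat_lit 78) (nat_lit 0) (nat_lit 0) (XT.lf (nat_lit 0) (nat_lit 23853193994) (nat_lit 152) (nat_lit 22458388827) (nat_lit 228) (nat_lit 17839066648) (nat_lit 71) (nat_lit 5) (nat_lit 73) (nat_lit 5) (nat_lit 74) (nat_lit 5) (nat_lit 530) (nat_lit 437) (nat_lit 233)) (XT.lf (nat_lit 0) (nat_lit 60794738020) (nat_lit 152) (nat_lit 2781789113) (nat_lit 228) (nat_lit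 1904111506) (nat_lit 71) (nat_lit 5) (nat_lit 73) (nat_lit 5) (nat_lit 74) (nat_lit 5) (nat_lit 531) (nat_lit 437) (nat_lit 232))) (XT.nd (nat_lit 78) (nat_lit 152) (nat_lit 0) (XT.lf (nat_lit 0) (nat_lit 14707793861) (nat_lit 228) (nat_lit 34526209471) (nat_lit 76) (nat_lit 17597879590) (nat_lit 68) (nat_lit 5) (nat_lit 71) (nat_lit 5) (nat_lit 69) (nat_lit 5) (nat_lit 532) (nat_lit 437) (nat_lit 231)) (XT.lf (nat_lit 0) (nat_lit 2273268541) (nat_lit 152) (nat_lit 29600953342) (nat_lit 228) (nat_lit 36346044141) (nat_lit 66) (nat_lit 5) (nat_lit 68) (nat_lit 5) (nat_lit 69) (nat_lit 5) (nat_lit 533) (nat_lit 437) (nat_lit 230))))) (XT.nd (nat_lit 312) (nat_lit 304) (nat_lit 0) (XT.nd (nat_lit 156) (nat_lit 228) (nat_lit 0) (XT.nd (nat_lit 78) (nat_lit 76) (nat_lit 0) (XT.lf (nat_lit 0) (nat_lit 40879499996) (nat_lit 152) (nat_lit 9022076637) (nat_lit 228) (nat_lit 19738346118) (nat_lit 66) (nat_lit 5) (nat_lit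 68) (nat_lit 5) (nat_lit 69) (nat_lit 5) (nat_lit 534) (nat_lit 437) (nat_lit 229)) (XT.lf (nat_lit 0) (nat_lit 9607299557) (nat_lit 76) (nat_lit 59069173943) (nat_lit 152) (nat_lit 2419494183) (nat_lit 65) (nat_lit 5) (nat_lit 66) (nat_lit 5) (nat_lit 67) (nat_lit 4) (nat_lit 535) (nat_lit 437) (nat_lit 228))) (XT.nd (nat_lit 78) (nat_lit 152) (nat_lit 0) (XT.lf (nat_lit 0) (nat_lit 15498020731) (nat_lit 152) (nat_lit 23116688356) (nat_lit 76) (nat_lit 33965139245) (nat_lit 64) (nat_lit 5) (nat_lit 66) (nat_lit 5) (nat_lit 65) (nat_lit 5) (nat_lit 536) (nat_lit 437) (nat_lit 227)) (XT.lf (nat_lit 0) (nat_lit 16703685239) (nat_lit 152) (nat_lit 17358738962) (nat_lit 228) (nat_lit 40040362895) (nat_lit 62) (nat_lit 5) (nat_lit 64) (nat_lit 5) (nat_lit 65) (nat_lit 5) (nat_lit 537) (nat_lit 437) (nat_lit 226)))) (XT.nd (nat_lit 156) (nat_lit 228) (nat_lit 0) (XT.nd (nat_lit 78) (nat_lit 76) (nat_lit 0) (XT.lf (nat_lit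 0) (nat_lit 53460531866) (nat_lit 228) (nat_lit 17522543267) (nat_lit 76) (nat_lit 4680035855) (nat_lit 62) (nat_lit 5) (nat_lit 65) (nat_lit 5) (nat_lit 63) (nat_lit 4) (nat_lit 538) (nat_lit 437) (nat_lit 225)) (XT.lf (nat_lit 0) (nat_lit 23838998805) (nat_lit 76) (nat_lit 50000117710) (nat_lit 152) (nat_lit 3419172197) (nat_lit 61) (nat_lit 5) (nat_lit 62) (nat_lit 5) (nat_lit 63) (nat_lit 4) (nat_lit 539) (nat_lit 437) (nat_lit 224))) (XT.nd (nat_lit 78) (nat_lit 152) (nat_lit 0) (XT.lf (nat_lit 0) (nat_lit 15793138645) (nat_lit 152) (nat_lit 12254923946) (nat_lit 76) (nat_lit 50843379804) (nat_lit 60) (nat_lit 5) (nat_lit 62) (nat_lit 5) (nat_lit 61) (nat_lit 5) (nat_lit 540) (nat_lit 437) (nat_lit 223)) (XT.lf (nat_lit 0) (nat_lit 30705190102) (nat_lit 152) (nat_lit 5100650196) (nat_lit 228) (nat_lit 44757952605) (nat_lit 58) (nat_lit 5) (nat_lit 60) (nat_lit 5) (nat_lit 61) (nat_lit 5) (nat_lit 541) (nat_lit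 437) (nat_lit 222)))))) (XT.nd (nat_lit 54444) (nat_lit 0) (nat_lit 17100) (XT.nd (nat_lit 234) (nat_lit 228) (nat_lit 0) (XT.nd (nat_lit 78) (nat_lit 152) (nat_lit 0) (XT.lf (nat_lit 0) (nat_lit 56719664479) (nat_lit 228) (nat_lit 7261182960) (nat_lit 76) (nat_lit 18296444355) (nat_lit 58) (nat_lit 5) (nat_lit 61) (nat_lit 5) (nat_lit 59) (nat_lit 4) (nat_lit 542) (nat_lit 437) (nat_lit 221)) (XT.nd (nat_lit 78) (nat_lit 76) (nat_lit 0) (XT.lf (nat_lit 0) (nat_lit 37286884390) (nat_lit 76) (nat_lit 41380608892) (nat_lit 152) (nat_lit 5362504781) (nat_lit 57) (nat_lit 5) (nat_lit 58) (nat_lit 5) (nat_lit 59) (nat_lit 4) (nat_lit 543) (nat_lit 437) (nat_lit 220)) (XT.lf (nat_lit 0) (nat_lit 15208928422) (nat_lit 152) (nat_lit 2666353572) (nat_lit 76) (nat_lit 67953399993) (nat_lit 56) (nat_lit 5) (nat_lit 58) (nat_lit 5) (nat_lit 57) (nat_lit 5) (nat_lit 544) (nat_lit 437) (nat_lit 219)))) (XT.nd (nat_lit 156) (nat_lit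 0) (nat_lit 0) (XT.nd (nat_lit 78) (nat_lit 76) (nat_lit 0) (XT.lf (nat_lit 0) (nat_lit 36771391822) (nat_lit 228) (nat_lit 44208109415) (nat_lit 76) (nat_lit 6685782419) (nat_lit 54) (nat_lit 5) (nat_lit 57) (nat_lit 5) (nat_lit 55) (nat_lit 4) (nat_lit 545) (nat_lit 437) (nat_lit 218)) (XT.lf (nat_lit 0) (nat_lit 1306884583) (nat_lit 76) (nat_lit 57888323613) (nat_lit 152) (nat_lit 30355340905) (nat_lit 53) (nat_lit 5) (nat_lit 54) (nat_lit 5) (nat_lit 55) (nat_lit 4) (nat_lit 546) (nat_lit 437) (nat_lit 217))) (XT.nd (nat_lit 53976) (nat_lit 0) (nat_lit 18088) (XT.lf (nat_lit 0) (nat_lit 49089335283) (nat_lit 76) (nat_lit 33646586224) (nat_lit 152) (nat_lit 8743125622) (nat_lit 53) (nat_lit 5) (nat_lit 54) (nat_lit 5) (nat_lit 55) (nat_lit 4) (nat_lit 547) (nat_lit 437) (nat_lit 216)) (XT.lf (nat_lit 0) (nat_lit 2096612083) (nat_lit 0) (nat_lit 2096612083) (nat_lit 1140) (nat_lit 2197453087) (nat_lit 291) (nat_lit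 5) (nat_lit 291) (nat_lit 3) (nat_lit 306) (nat_lit 3) (nat_lit 438) (nat_lit 438) (nat_lit 324))))) (XT.nd (nat_lit 312) (nat_lit 988) (nat_lit 0) (XT.nd (nat_lit 156) (nat_lit 0) (nat_lit 76) (XT.nd (nat_lit 78) (nat_lit 0) (nat_lit 0) (XT.lf (nat_lit 0) (nat_lit 8939382229) (nat_lit 1140) (nat_lit 2336429533) (nat_lit 1216) (nat_lit 1684349554) (nat_lit 291) (nat_lit 5) (nat_lit 306) (nat_lit 3) (nat_lit 307) (nat_lit 5) (nat_lit 439) (nat_lit 438) (nat_lit 323)) (XT.lf (nat_lit 76) (nat_lit 4133388099) (nat_lit 0) (nat_lit 5440817286) (nat_lit 1216) (nat_lit 3568171784) (nat_lit 292) (nat_lit 5) (nat_lit 291) (nat_lit 5) (nat_lit 307) (nat_lit 5) (nat_lit 440) (nat_lit 438) (nat_lit 322))) (XT.nd (nat_lit 78) (nat_lit 0) (nat_lit 0) (XT.lf (nat_lit 0) (nat_lit 10241874384) (nat_lit 1140) (nat_lit 2498891379) (nat_lit 1216) (nat_lit 588883465) (nat_lit 292) (nat_lit 5) (nat_lit 307) (nat_lit 5) (nat_lit 308)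 (nat_lit 5) (nat_lit 441) (nat_lit 438) (nat_lit 321)) (XT.lf (nat_lit 76) (nat_lit 4226344856) (nat_lit 0) (nat_lit 6782678107) (nat_lit 1216) (nat_lit 2511136658) (nat_lit 293) (nat_lit 5) (nat_lit 292) (nat_lit 5) (nat_lit 308) (nat_lit 5) (nat_lit 442) (nat_lit 438) (nat_lit 320)))) (XT.nd (nat_lit 156) (nat_lit 1064) (nat_lit 0) (XT.nd (nat_lit 78) (nat_lit 0) (nat_lit 76) (XT.lf (nat_lit 76) (nat_lit 11195882827) (nat_lit 0) (nat_lit 613845696) (nat_lit 1216) (nat_lit 1906344078) (nat_lit 293) (nat_lit 5) (nat_lit 292) (nat_lit 5) (nat_lit 308) (nat_lit 5) (nat_lit 443) (nat_lit 438) (nat_lit 319)) (XT.lf (nat_lit 76) (nat_lit 4479972675) (nat_lit 0) (nat_lit 8238516325) (nat_lit 1216) (nat_lit 1196856403) (nat_lit 294) (nat_lit 5) (nat_lit 293) (nat_lit 5) (nat_lit 309) (nat_lit 5) (nat_lit 444) (nat_lit 438) (nat_lit 318))) (XT.nd (nat_lit 78) (nat_lit 1140) (nat_lit 0) (XT.lf (nat_lit 76) (nat_lit 11726775374)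 (nat_lit 0) (nat_lit 1945325565) (nat_lit 1216) (nat_lit 447971138) (nat_lit 294) (nat_lit 5) (nat_lit 293) (nat_lit 5) (nat_lit 309) (nat_lit 5) (nat_lit 445) (nat_lit 438) (nat_lit 317)) (XT.lf (nat_lit 0) (nat_lit 395146206) (nat_lit 1216) (nat_lit 9429414009) (nat_lit 1292) (nat_lit 4503947959) (nat_lit 278) (nat_lit 5) (nat_lit 294) (nat_lit 5) (nat_lit 295) (nat_lit 5) (nat_lit 446) (nat_lit 438) (nat_lit 316))))))) (XT.nd (nat_lit 1170) (nat_lit 4484) (nat_lit 0) (XT.nd (nat_lit 546) (nat_lit 2964) (nat_lit 0) (XT.nd (nat_lit 234) (nat_lit 0) (nat_lit 152) (XT.nd (nat_lit 78) (nat_lit 0) (nat_lit 76) (XT.lf (nat_lit 0) (nat_lit 1284965938) (nat_lit 1216) (nat_lit 2116293911) (nat_lit 1292) (nat_lit 11140895126) (nat_lit 278) (nat_lit 5) (nat_lit 294) (nat_lit 5) (nat_lit 295) (nat_lit 5) (nat_lit 447) (nat_lit 438) (nat_lit 315)) (XT.nd (nat_lit 78) (nat_lit 0) (nat_lit 0) (XT.lf (nat_lit 0) (nat_lit 2273088759)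 (nat_lit 1216) (nat_lit 9277574455) (nat_lit 1292) (nat_lit 3209402685) (nat_lit 279) (nat_lit 5) (nat_lit 295) (nat_lit 5) (nat_lit 296) (nat_lit 5) (nat_lit 448) (nat_lit 438) (nat_lit 314)) (XT.lf (nat_lit 0) (nat_lit 3333569924) (nat_lit 1216) (nat_lit 1674401916) (nat_lit 1292) (nat_lit 9975263756) (nat_lit 279) (nat_lit 5) (nat_lit 295) (nat_lit 5) (nat_lit 296) (nat_lit 5) (nat_lit 449) (nat_lit 438) (nat_lit 313)))) (XT.nd (nat_lit 156) (nat_lit 0) (nat_lit 76) (XT.nd (nat_lit 78) (nat_lit 0) (nat_lit 0) (XT.lf (nat_lit 0) (nat_lit 4491227729) (nat_lit 1216) (nat_lit 8958700572) (nat_lit 1292) (nat_lit 1761214021) (nat_lit 280) (nat_lit 5) (nat_lit 296) (nat_lit 5) (nat_lit 297) (nat_lit 5) (nat_lit 450) (nat_lit 438) (nat_lit 312)) (XT.lf (nat_lit 0) (nat_lit 5738394833) (nat_lit 1216) (nat_lit 1053010583) (nat_lit 1292) (nat_lit 8652840166) (nat_lit 280) (nat_lit 5) (nat_lit 296) (nat_lit 5) (nat_lit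 297) (nat_lit 5) (nat_lit 451) (nat_lit 438) (nat_lit 311))) (XT.nd (nat_lit 78) (nat_lit 0) (nat_lit 0) (XT.lf (nat_lit 0) (nat_lit 7082217210) (nat_lit 1216) (nat_lit 8462213754) (nat_lit 1292) (nat_lit 138136410) (nat_lit 281) (nat_lit 5) (nat_lit 297) (nat_lit 5) (nat_lit 298) (nat_lit 5) (nat_lit 452) (nat_lit 438) (nat_lit 310)) (XT.lf (nat_lit 0) (nat_lit 8533073257) (nat_lit 1216) (nat_lit 240861387) (nat_lit 1292) (nat_lit 7152105171) (nat_lit 281) (nat_lit 5) (nat_lit 297) (nat_lit 5) (nat_lit 298) (nat_lit 5) (nat_lit 453) (nat_lit 438) (nat_lit 309))))) (XT.nd (nat_lit 312) (nat_lit 1292) (nat_lit 0) (XT.nd (nat_lit 156) (nat_lit 760) (nat_lit 0) (XT.nd (nat_lit 78) (nat_lit 1140) (nat_lit 0) (XT.lf (nat_lit 76) (nat_lit 8381659682) (nat_lit 0) (nat_lit 1715431678) (nat_lit 1292) (nat_lit 6077638468) (nat_lit 282) (nat_lit 5) (nat_lit 281) (nat_lit 5) (nat_lit 298) (nat_lit 5) (nat_lit 454) (nat_lit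 438) (nat_lit 308)) (XT.lf (nat_lit 0) (nat_lit 789695469) (nat_lit 1216) (nat_lit 10971094447) (nat_lit 1292) (nat_lit 4668510246) (nat_lit 266) (nat_lit 5) (nat_lit 282) (nat_lit 5) (nat_lit 283) (nat_lit 5) (nat_lit 455) (nat_lit 438) (nat_lit 307))) (XT.nd (nat_lit 78) (nat_lit 760) (nat_lit 0) (XT.lf (nat_lit 0) (nat_lit 9763182742) (nat_lit 1216) (nat_lit 3796268392) (nat_lit 1292) (nat_lit 3129507265) (nat_lit 266) (nat_lit 5) (nat_lit 282) (nat_lit 5) (nat_lit 283) (nat_lit 5) (nat_lit 456) (nat_lit 438) (nat_lit 306)) (XT.lf (nat_lit 0) (nat_lit 2045599120) (nat_lit 760) (nat_lit 13410538028) (nat_lit 836) (nat_lit 1498949567) (nat_lit 256) (nat_lit 5) (nat_lit 266) (nat_lit 5) (nat_lit 267) (nat_lit 5) (nat_lit 457) (nat_lit 438) (nat_lit 305)))) (XT.nd (nat_lit 156) (nat_lit 608) (nat_lit 0) (XT.nd (nat_lit 78) (nat_lit 608) (nat_lit 0) (XT.lf (nat_lit 0) (nat_lit 275180725) (nat_lit 836) (nat_lit 5848380227)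 (nat_lit 76) (nat_lit 11102642660) (nat_lit 255) (nat_lit 5) (nat_lit 266) (nat_lit 5) (nat_lit 256) (nat_lit 5) (nat_lit 458) (nat_lit 438) (nat_lit 304)) (XT.lf (nat_lit 0) (nat_lit 2110364400) (nat_lit 684) (nat_lit 13988545972) (nat_lit 76) (nat_lit 1404961791) (nat_lit 247) (nat_lit 5) (nat_lit 256) (nat_lit 5) (nat_lit 248) (nat_lit 5) (nat_lit 459) (nat_lit 438) (nat_lit 303))) (XT.nd (nat_lit 78) (nat_lit 608) (nat_lit 0) (XT.lf (nat_lit 0) (nat_lit 4111332470) (nat_lit 684) (nat_lit 4578767284) (nat_lit 76) (nat_lit 9096451173) (nat_lit 247) (nat_lit 5) (nat_lit 256) (nat_lit 5) (nat_lit 248) (nat_lit 5) (nat_lit 460) (nat_lit 438) (nat_lit 302)) (XT.lf (nat_lit 0) (nat_lit 5205876524) (nat_lit 608) (nat_lit 1007230732) (nat_lit 684) (nat_lit 11863381435) (nat_lit 239) (nat_lit 5) (nat_lit 247) (nat_lit 5) (nat_lit 248) (nat_lit 5) (nat_lit 461) (nat_lit 438) (nat_lit 301)))))) (XT.nd (nat_lit 624) (nat_lit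 2280) (nat_lit 0) (XT.nd (nat_lit 312) (nat_lit 1140) (nat_lit 0) (XT.nd (nat_lit 156) (nat_lit 532) (nat_lit 0) (XT.nd (nat_lit 78) (nat_lit 532) (nat_lit 0) (XT.lf (nat_lit 0) (nat_lit 8481936673) (nat_lit 684) (nat_lit 3071862365) (nat_lit 76) (nat_lit 6818207414) (nat_lit 239) (nat_lit 5) (nat_lit 248) (nat_lit 5) (nat_lit 240) (nat_lit 5) (nat_lit 462) (nat_lit 438) (nat_lit 300)) (XT.lf (nat_lit 0) (nat_lit 7141296679) (nat_lit 532) (nat_lit 3747338957) (nat_lit 608) (nat_lit 7785661825) (nat_lit 232) (nat_lit 5) (nat_lit 239) (nat_lit 5) (nat_lit 240) (nat_lit 5) (nat_lit 463) (nat_lit 438) (nat_lit 299))) (XT.nd (nat_lit 78) (nat_lit 532) (nat_lit 0) (XT.lf (nat_lit 0) (nat_lit 13431487774) (nat_lit 608) (nat_lit 1311587682) (nat_lit 76) (nat_lit 4240664976) (nat_lit 232) (nat_lit 5) (nat_lit 240) (nat_lit 5) (nat_lit 233) (nat_lit 5) (nat_lit 464) (nat_lit 438) (nat_lit 298)) (XT.lf (nat_lit 0) (nat_lit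 9353037434) (nat_lit 532) (nat_lit 6816204633) (nat_lit 608) (nat_lit 3129667873) (nat_lit 225) (nat_lit 5) (nat_lit 232) (nat_lit 5) (nat_lit 233) (nat_lit 5) (nat_lit 465) (nat_lit 438) (nat_lit 297)))) (XT.nd (nat_lit 156) (nat_lit 532) (nat_lit 0) (XT.nd (nat_lit 78) (nat_lit 76) (nat_lit 0) (XT.lf (nat_lit 0) (nat_lit 733575115) (nat_lit 532) (nat_lit 18280705810) (nat_lit 608) (nat_lit 608500747) (nat_lit 218) (nat_lit 5) (nat_lit 225) (nat_lit 5) (nat_lit 226) (nat_lit 5) (nat_lit 466) (nat_lit 438) (nat_lit 296)) (XT.lf (nat_lit 0) (nat_lit 2110252926) (nat_lit 608) (nat_lit 8112736442) (nat_lit 76) (nat_lit 9727985889) (nat_lit 217) (nat_lit 5) (nat_lit 225) (nat_lit 5) (nat_lit 218) (nat_lit 5) (nat_lit 467) (nat_lit 438) (nat_lit 295))) (XT.nd (nat_lit 78) (nat_lit 0) (nat_lit 0) (XT.lf (nat_lit 0) (nat_lit 3031347402) (nat_lit 532) (nat_lit 1888203599) (nat_lit 608) (nat_lit 15368648094) (nat_lit 210)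 (nat_lit 5) (nat_lit 217) (nat_lit 5) (nat_lit 218) (nat_lit 5) (nat_lit 468) (nat_lit 438) (nat_lit 294)) (XT.lf (nat_lit 0) (nat_lit 7952444814) (nat_lit 608) (nat_lit 6031155866) (nat_lit 76) (nat_lit 6647760972) (nat_lit 210) (nat_lit 5) (nat_lit 218) (nat_lit 5) (nat_lit 211) (nat_lit 5) (nat_lit 469) (nat_lit 438) (nat_lit 293))))) (XT.nd (nat_lit 312) (nat_lit 1368) (nat_lit 0) (XT.nd (nat_lit 156) (nat_lit 456) (nat_lit 0) (XT.nd (nat_lit 78) (nat_lit 0) (nat_lit 0) (XT.lf (nat_lit 0) (nat_lit 5613467713) (nat_lit 456) (nat_lit 5527950651) (nat_lit 532) (nat_lit 9841449398) (nat_lit 204) (nat_lit 5) (nat_lit 210) (nat_lit 5) (nat_lit 211) (nat_lit 5) (nat_lit 470) (nat_lit 438) (nat_lit 292)) (XT.lf (nat_lit 0) (nat_lit 14510712241) (nat_lit 532) (nat_lit 3652028139) (nat_lit 76) (nat_lit 3179640560) (nat_lit 204) (nat_lit 5) (nat_lit 211) (nat_lit 5) (nat_lit 205) (nat_lit 5) (nat_lit 471) (nat_lit 438)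 (nat_lit 291))) (XT.nd (nat_lit 78) (nat_lit 0) (nat_lit 0) (XT.lf (nat_lit 0) (nat_lit 8519827310) (nat_lit 456) (nat_lit 9590668193) (nat_lit 532) (nat_lit 3598303073) (nat_lit 198) (nat_lit 5) (nat_lit 204) (nat_lit 5) (nat_lit 205) (nat_lit 5) (nat_lit 472) (nat_lit 438) (nat_lit 290)) (XT.lf (nat_lit 0) (nat_lit 21123227369) (nat_lit 456) (nat_lit 724832625) (nat_lit 532) (nat_lit 237256452) (nat_lit 198) (nat_lit 5) (nat_lit 204) (nat_lit 5) (nat_lit 205) (nat_lit 5) (nat_lit 473) (nat_lit 438) (nat_lit 289)))) (XT.nd (nat_lit 156) (nat_lit 380) (nat_lit 0) (XT.nd (nat_lit 78) (nat_lit 456) (nat_lit 0) (XT.lf (nat_lit 0) (nat_lit 3350625023) (nat_lit 532) (nat_lit 10728288022) (nat_lit 76) (nat_lit 8387620335) (nat_lit 191) (nat_lit 5) (nat_lit 198) (nat_lit 5) (nat_lit 192) (nat_lit 5) (nat_lit 474) (nat_lit 438) (nat_lit 288)) (XT.lf (nat_lit 0) (nat_lit 2001371467) (nat_lit 456) (nat_lit 5069384635) (nat_lit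 532) (nat_lit 15787480019) (nat_lit 185) (nat_lit 5) (nat_lit 191) (nat_lit 5) (nat_lit 192) (nat_lit 5) (nat_lit 475) (nat_lit 438) (nat_lit 287))) (XT.nd (nat_lit 78) (nat_lit 380) (nat_lit 0) (XT.lf (nat_lit 0) (nat_lit 11045629678) (nat_lit 532) (nat_lit 7975726468) (nat_lit 76) (nat_lit 4236040832) (nat_lit 185) (nat_lit 5) (nat_lit 192) (nat_lit 5) (nat_lit 186) (nat_lit 5) (nat_lit 476) (nat_lit 438) (nat_lit 286)) (XT.lf (nat_lit 0) (nat_lit 5337476410) (nat_lit 380) (nat_lit 9897226477) (nat_lit 456) (nat_lit 8430982324) (nat_lit 180) (nat_lit 5) (nat_lit 185) (nat_lit 5) (nat_lit 186) (nat_lit 5) (nat_lit 477) (nat_lit 438) (nat_lit 285))))))))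
noncomputable def xc180 : XT := (XT.nd (nat_lit 2340) (nat_lit 3344) (nat_lit 0) (XT.nd (nat_lit 1170) (nat_lit 2508) (nat_lit 0) (XT.nd (nat_lit 546) (nat_lit 1444) (nat_lit 0) (XT.nd (nat_lit 234) (nat_lit 1064) (nat_lit 0) (XT.nd (nat_lit 78) (nat_lit 456) (nat_lit 0) (XT.lf (nat_lit 0) (nat_lit 19205320707) (nat_lit 380) (nat_lit 418232547) (nat_lit 456) (nat_lit 4460446809) (nat_lit 180) (nat_lit 5) (nat_lit 185) (nat_lit 5) (nat_lit 186) (nat_lit 5) (nat_lit 478) (nat_lit 438) (nat_lit 284)) (XT.nd (nat_lit 78) (nat_lit 76) (nat_lit 0) (XT.lf (nat_lit 0) (nat_lit 9052980586) (nat_lit 380) (nat_lit 15261678682) (nat_lit 456) (nat_lit 195088477) (nat_lit 175) (nat_lit 5) (nat_lit 180) (nat_lit 5) (nat_lit 181) (nat_lit 5) (nat_lit 479) (nat_lit 438) (nat_lit 283)) (XT.lf (nat_lit 0) (nat_lit 4163980573) (nat_lit 456) (nat_lit 1497401250) (nat_lit 76) (nat_lit 19284246204) (nat_lit 174) (nat_lit 5) (nat_lit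 180) (nat_lit 5) (nat_lit 175) (nat_lit 5) (nat_lit 480) (nat_lit 438) (nat_lit 282)))) (XT.nd (nat_lit 156) (nat_lit 304) (nat_lit 0) (XT.nd (nat_lit 78) (nat_lit 380) (nat_lit 0) (XT.lf (nat_lit 0) (nat_lit 8811926744) (nat_lit 456) (nat_lit 12305821792) (nat_lit 76) (nat_lit 4271918449) (nat_lit 169) (nat_lit 5) (nat_lit 175) (nat_lit 5) (nat_lit 170) (nat_lit 5) (nat_lit 481) (nat_lit 438) (nat_lit 281)) (XT.lf (nat_lit 0) (nat_lit 2266609964) (nat_lit 380) (nat_lit 11419854179) (nat_lit 456) (nat_lit 12157949348) (nat_lit 164) (nat_lit 5) (nat_lit 169) (nat_lit 5) (nat_lit 170) (nat_lit 5) (nat_lit 482) (nat_lit 438) (nat_lit 280))) (XT.nd (nat_lit 78) (nat_lit 304) (nat_lit 0) (XT.lf (nat_lit 0) (nat_lit 17520483482) (nat_lit 380) (nat_lit 1305156616) (nat_lit 456) (nat_lit 7483611160) (nat_lit 164) (nat_lit 5) (nat_lit 169) (nat_lit 5) (nat_lit 170) (nat_lit 5) (nat_lit 483) (nat_lit 438) (nat_lit 279))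 (XT.lf (nat_lit 0) (nat_lit 6474778120) (nat_lit 304) (nat_lit 17788340960) (nat_lit 380) (nat_lit 2520592156) (nat_lit 160) (nat_lit 5) (nat_lit 164) (nat_lit 5) (nat_lit 165) (nat_lit 5) (nat_lit 484) (nat_lit 438) (nat_lit 278))))) (XT.nd (nat_lit 312) (nat_lit 684) (nat_lit 0) (XT.nd (nat_lit 156) (nat_lit 304) (nat_lit 0) (XT.nd (nat_lit 78) (nat_lit 380) (nat_lit 0) (XT.lf (nat_lit 0) (nat_lit 2637625083) (nat_lit 380) (nat_lit 4940005320) (nat_lit 76) (nat_lit 19691121984) (nat_lit 159) (nat_lit 5) (nat_lit 164) (nat_lit 5) (nat_lit 160) (nat_lit 5) (nat_lit 485) (nat_lit 438) (nat_lit 277)) (XT.lf (nat_lit 0) (nat_lit 8030395499) (nat_lit 456) (nat_lit 16720700701) (nat_lit 76) (nat_lit 3012586671) (nat_lit 154) (nat_lit 5) (nat_lit 160) (nat_lit 5) (nat_lit 155) (nat_lit 5) (nat_lit 486) (nat_lit 438) (nat_lit 276))) (XT.nd (nat_lit 78) (nat_lit 304) (nat_lit 0) (XT.lf (nat_lit 0) (nat_lit 13704907765)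 (nat_lit 456) (nat_lit 748539341) (nat_lit 76) (nat_lit 13816416213) (nat_lit 154) (nat_lit 5) (nat_lit 160) (nat_lit 5) (nat_lit 155) (nat_lit 5) (nat_lit 487) (nat_lit 438) (nat_lit 275)) (XT.lf (nat_lit 0) (nat_lit 16007600170) (nat_lit 304) (nat_lit 3690643106) (nat_lit 380) (nat_lit 9088529054) (nat_lit 150) (nat_lit 5) (nat_lit 154) (nat_lit 5) (nat_lit 155) (nat_lit 5) (nat_lit 488) (nat_lit 438) (nat_lit 274)))) (XT.nd (nat_lit 156) (nat_lit 304) (nat_lit 0) (XT.nd (nat_lit 78) (nat_lit 76) (nat_lit 0) (XT.lf (nat_lit 0) (nat_lit 3961332027) (nat_lit 304) (nat_lit 22021618163) (nat_lit 380) (nat_lit 3332892045) (nat_lit 146) (nat_lit 5) (nat_lit 150) (nat_lit 5) (nat_lit 151) (nat_lit 5) (nat_lit 489) (nat_lit 438) (nat_lit 273)) (XT.lf (nat_lit 0) (nat_lit 2706432823) (nat_lit 380) (nat_lit 8461311628) (nat_lit 76) (nat_lit 18687442104) (nat_lit 145) (nat_lit 5) (nat_lit 150) (nat_lit 5) (nat_lit 146)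 (nat_lit 5) (nat_lit 490) (nat_lit 438) (nat_lit 272))) (XT.nd (nat_lit 78) (nat_lit 0) (nat_lit 0) (XT.lf (nat_lit 0) (nat_lit 8943420809) (nat_lit 380) (nat_lit 21333180462) (nat_lit 76) (nat_lit 130616530) (nat_lit 141) (nat_lit 5) (nat_lit 146) (nat_lit 5) (nat_lit 142) (nat_lit 5) (nat_lit 491) (nat_lit 438) (nat_lit 271)) (XT.lf (nat_lit 0) (nat_lit 15559385084) (nat_lit 380) (nat_lit 3783243788) (nat_lit 76) (nat_lit 11627425791) (nat_lit 141) (nat_lit 5) (nat_lit 146) (nat_lit 5) (nat_lit 142) (nat_lit 5) (nat_lit 492) (nat_lit 438) (nat_lit 270)))))) (XT.nd (nat_lit 546) (nat_lit 1292) (nat_lit 0) (XT.nd (nat_lit 234) (nat_lit 608) (nat_lit 0) (XT.nd (nat_lit 78) (nat_lit 304) (nat_lit 0) (XT.lf (nat_lit 0) (nat_lit 14570252033) (nat_lit 304) (nat_lit 7938786173) (nat_lit 380) (nat_lit 9036682784) (nat_lit 137) (nat_lit 5) (nat_lit 141) (nat_lit 5) (nat_lit 142) (nat_lit 5) (nat_lit 493) (nat_lit 438)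 (nat_lit 269)) (XT.nd (nat_lit 78) (nat_lit 76) (nat_lit 0) (XT.lf (nat_lit 0) (nat_lit 1397380460) (nat_lit 228) (nat_lit 28353612116) (nat_lit 304) (nat_lit 2385151022) (nat_lit 134) (nat_lit 5) (nat_lit 137) (nat_lit 5) (nat_lit 138) (nat_lit 5) (nat_lit 494) (nat_lit 438) (nat_lit 268)) (XT.lf (nat_lit 0) (nat_lit 4625721912) (nat_lit 304) (nat_lit 12200299453) (nat_lit 76) (nat_lit 15909561998) (nat_lit 133) (nat_lit 5) (nat_lit 137) (nat_lit 5) (nat_lit 134) (nat_lit 5) (nat_lit 495) (nat_lit 438) (nat_lit 267)))) (XT.nd (nat_lit 156) (nat_lit 304) (nat_lit 0) (XT.nd (nat_lit 78) (nat_lit 0) (nat_lit 0) (XT.lf (nat_lit 0) (nat_lit 7000184422) (nat_lit 304) (nat_lit 4861450137) (nat_lit 380) (nat_lit 21488784306) (nat_lit 129) (nat_lit 5) (nat_lit 133) (nat_lit 5) (nat_lit 134) (nat_lit 5) (nat_lit 496) (nat_lit 438) (nat_lit 266)) (XT.lf (nat_lit 0) (nat_lit 19506179505) (nat_lit 380) (nat_lit 7033337383)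 (nat_lit 76) (nat_lit 7438436464) (nat_lit 129) (nat_lit 5) (nat_lit 134) (nat_lit 5) (nat_lit 130) (nat_lit 5) (nat_lit 497) (nat_lit 438) (nat_lit 265))) (XT.nd (nat_lit 78) (nat_lit 76) (nat_lit 0) (XT.lf (nat_lit 0) (nat_lit 13062884677) (nat_lit 228) (nat_lit 14486417687) (nat_lit 304) (nat_lit 7069934815) (nat_lit 126) (nat_lit 5) (nat_lit 129) (nat_lit 5) (nat_lit 130) (nat_lit 5) (nat_lit 498) (nat_lit 438) (nat_lit 264)) (XT.lf (nat_lit 0) (nat_lit 610435388) (nat_lit 304) (nat_lit 1384460508) (nat_lit 76) (nat_lit 33282685821) (nat_lit 125) (nat_lit 5) (nat_lit 129) (nat_lit 5) (nat_lit 126) (nat_lit 5) (nat_lit 499) (nat_lit 438) (nat_lit 263))))) (XT.nd (nat_lit 312) (nat_lit 532) (nat_lit 0) (XT.nd (nat_lit 156) (nat_lit 228) (nat_lit 0) (XT.nd (nat_lit 78) (nat_lit 228) (nat_lit 0) (XT.lf (nat_lit 0) (nat_lit 8671224394) (nat_lit 380) (nat_lit 16354830718) (nat_lit 76) (nat_lit 10918758813) (nat_lit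 121) (nat_lit 5) (nat_lit 126) (nat_lit 5) (nat_lit 122) (nat_lit 5) (nat_lit 500) (nat_lit 438) (nat_lit 262)) (XT.lf (nat_lit 0) (nat_lit 4654524997) (nat_lit 228) (nat_lit 12393650909) (nat_lit 304) (nat_lit 19581657517) (nat_lit 118) (nat_lit 5) (nat_lit 121) (nat_lit 5) (nat_lit 122) (nat_lit 5) (nat_lit 501) (nat_lit 438) (nat_lit 261))) (XT.nd (nat_lit 78) (nat_lit 228) (nat_lit 0) (XT.lf (nat_lit 0) (nat_lit 25844922668) (nat_lit 304) (nat_lit 10715446855) (nat_lit 76) (nat_lit 769979858) (nat_lit 118) (nat_lit 5) (nat_lit 122) (nat_lit 5) (nat_lit 119) (nat_lit 5) (nat_lit 502) (nat_lit 438) (nat_lit 260)) (XT.lf (nat_lit 0) (nat_lit 11272829845) (nat_lit 228) (nat_lit 23859698042) (nat_lit 304) (nat_lit 2912544711) (nat_lit 115) (nat_lit 5) (nat_lit 118) (nat_lit 5) (nat_lit 119) (nat_lit 5) (nat_lit 503) (nat_lit 438) (nat_lit 259)))) (XT.nd (nat_lit 156) (nat_lit 228) (nat_lit 0) (XT.nd (nat_lit 78)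 (nat_lit 228) (nat_lit 0) (XT.lf (nat_lit 0) (nat_lit 5907229170) (nat_lit 304) (nat_lit 4702196232) (nat_lit 76) (nat_lit 28166950730) (nat_lit 114) (nat_lit 5) (nat_lit 118) (nat_lit 5) (nat_lit 115) (nat_lit 5) (nat_lit 504) (nat_lit 438) (nat_lit 258)) (XT.lf (nat_lit 0) (nat_lit 15136710614) (nat_lit 304) (nat_lit 21202020045) (nat_lit 76) (nat_lit 3183913816) (nat_lit 111) (nat_lit 5) (nat_lit 115) (nat_lit 5) (nat_lit 112) (nat_lit 5) (nat_lit 505) (nat_lit 438) (nat_lit 257))) (XT.nd (nat_lit 78) (nat_lit 0) (nat_lit 0) (XT.lf (nat_lit 0) (nat_lit 1763034385) (nat_lit 228) (nat_lit 23046037559) (nat_lit 304) (nat_lit 15477249470) (nat_lit 108) (nat_lit 5) (nat_lit 111) (nat_lit 5) (nat_lit 112) (nat_lit 5) (nat_lit 506) (nat_lit 438) (nat_lit 256)) (XT.lf (nat_lit 0) (nat_lit 25845226216) (nat_lit 228) (nat_lit 9136581058) (nat_lit 304) (nat_lit 6084795691) (nat_lit 108) (nat_lit 5) (nat_lit 111) (nat_lit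 5) (nat_lit 112) (nat_lit 5) (nat_lit 507) (nat_lit 438) (nat_lit 255))))))) (XT.nd (nat_lit 1170) (nat_lit 1444) (nat_lit 0) (XT.nd (nat_lit 546) (nat_lit 988) (nat_lit 0) (XT.nd (nat_lit 234) (nat_lit 456) (nat_lit 0) (XT.nd (nat_lit 78) (nat_lit 228) (nat_lit 0) (XT.lf (nat_lit 0) (nat_lit 3652299876) (nat_lit 228) (nat_lit 33005177686) (nat_lit 76) (nat_lit 5207793334) (nat_lit 105) (nat_lit 5) (nat_lit 108) (nat_lit 5) (nat_lit 106) (nat_lit 5) (nat_lit 508) (nat_lit 438) (nat_lit 254)) (XT.nd (nat_lit 78) (nat_lit 228) (nat_lit 0) (XT.lf (nat_lit 0) (nat_lit 13801106119) (nat_lit 228) (nat_lit 8865836964) (nat_lit 76) (nat_lit 20011891896) (nat_lit 105) (nat_lit 5) (nat_lit 108) (nat_lit 5) (nat_lit 106) (nat_lit 5) (nat_lit 509) (nat_lit 438) (nat_lit 253)) (XT.lf (nat_lit 0) (nat_lit 16309780218) (nat_lit 228) (nat_lit 8097693467) (nat_lit 304) (nat_lit 19104739741) (nat_lit 102) (nat_lit 5) (nat_lit 105)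 (nat_lit 5) (nat_lit 106) (nat_lit 5) (nat_lit 510) (nat_lit 438) (nat_lit 252)))) (XT.nd (nat_lit 156) (nat_lit 228) (nat_lit 0) (XT.nd (nat_lit 78) (nat_lit 228) (nat_lit 0) (XT.lf (nat_lit 0) (nat_lit 35485198624) (nat_lit 304) (nat_lit 2018988402) (nat_lit 76) (nat_lit 6861811552) (nat_lit 102) (nat_lit 5) (nat_lit 106) (nat_lit 5) (nat_lit 103) (nat_lit 5) (nat_lit 511) (nat_lit 438) (nat_lit 251)) (XT.lf (nat_lit 0) (nat_lit 1931023699) (nat_lit 228) (nat_lit 20946908308) (nat_lit 76) (nat_lit 22357589007) (nat_lit 99) (nat_lit 5) (nat_lit 102) (nat_lit 5) (nat_lit 100) (nat_lit 5) (nat_lit 512) (nat_lit 438) (nat_lit 250))) (XT.nd (nat_lit 78) (nat_lit 0) (nat_lit 0) (XT.lf (nat_lit 0) (nat_lit 5305691255) (nat_lit 228) (nat_lit 7651066836) (nat_lit 304) (nat_lit 33169691948) (nat_lit 96) (nat_lit 5) (nat_lit 99) (nat_lit 5) (nat_lit 100) (nat_lit 5) (nat_lit 513) (nat_lit 438) (nat_lit 249)) (XT.lf (nat_lit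 0) (nat_lit 24600577922) (nat_lit 304) (nat_lit 14347855255) (nat_lit 76) (nat_lit 8087054661) (nat_lit 96) (nat_lit 5) (nat_lit 100) (nat_lit 5) (nat_lit 97) (nat_lit 5) (nat_lit 514) (nat_lit 438) (nat_lit 248))))) (XT.nd (nat_lit 312) (nat_lit 380) (nat_lit 0) (XT.nd (nat_lit 156) (nat_lit 380) (nat_lit 0) (XT.nd (nat_lit 78) (nat_lit 76) (nat_lit 0) (XT.lf (nat_lit 0) (nat_lit 13093106690) (nat_lit 152) (nat_lit 23698802321) (nat_lit 228) (nat_lit 11173942154) (nat_lit 94) (nat_lit 5) (nat_lit 96) (nat_lit 5) (nat_lit 97) (nat_lit 5) (nat_lit 515) (nat_lit 438) (nat_lit 247)) (XT.lf (nat_lit 0) (nat_lit 559478430) (nat_lit 228) (nat_lit 7279762586) (nat_lit 76) (nat_lit 41080474710) (nat_lit 93) (nat_lit 5) (nat_lit 96) (nat_lit 5) (nat_lit 94) (nat_lit 5) (nat_lit 516) (nat_lit 438) (nat_lit 246))) (XT.nd (nat_lit 78) (nat_lit 152) (nat_lit 0) (XT.lf (nat_lit 0) (nat_lit 12707917257) (nat_lit 304) (nat_lit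 28534476579) (nat_lit 76) (nat_lit 8647855643) (nat_lit 90) (nat_lit 5) (nat_lit 94) (nat_lit 5) (nat_lit 91) (nat_lit 5) (nat_lit 517) (nat_lit 438) (nat_lit 245)) (XT.lf (nat_lit 0) (nat_lit 28390711) (nat_lit 152) (nat_lit 25341259577) (nat_lit 228) (nat_lit 25515783989) (nat_lit 88) (nat_lit 5) (nat_lit 90) (nat_lit 5) (nat_lit 91) (nat_lit 5) (nat_lit 518) (nat_lit 438) (nat_lit 244)))) (XT.nd (nat_lit 156) (nat_lit 228) (nat_lit 0) (XT.nd (nat_lit 78) (nat_lit 152) (nat_lit 0) (XT.lf (nat_lit 0) (nat_lit 30027401216) (nat_lit 152) (nat_lit 8668730304) (nat_lit 228) (nat_lit 13205796468) (nat_lit 88) (nat_lit 5) (nat_lit 90) (nat_lit 5) (nat_lit 91) (nat_lit 5) (nat_lit 519) (nat_lit 438) (nat_lit 243)) (XT.lf (nat_lit 0) (nat_lit 8047170839) (nat_lit 152) (nat_lit 44531161943) (nat_lit 228) (nat_lit 365906210) (nat_lit 86) (nat_lit 5) (nat_lit 88) (nat_lit 5) (nat_lit 89) (nat_lit 5) (nat_lit 520) (nat_lit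 438) (nat_lit 242))) (XT.nd (nat_lit 78) (nat_lit 152) (nat_lit 0) (XT.lf (nat_lit 0) (nat_lit 12913991625) (nat_lit 228) (nat_lit 14913480368) (nat_lit 76) (nat_lit 26177467062) (nat_lit 85) (nat_lit 5) (nat_lit 88) (nat_lit 5) (nat_lit 86) (nat_lit 5) (nat_lit 521) (nat_lit 438) (nat_lit 241)) (XT.lf (nat_lit 0) (nat_lit 16278214425) (nat_lit 152) (nat_lit 10460119922) (nat_lit 228) (nat_lit 28354415246) (nat_lit 83) (nat_lit 5) (nat_lit 85) (nat_lit 5) (nat_lit 86) (nat_lit 5) (nat_lit 522) (nat_lit 438) (nat_lit 240)))))) (XT.nd (nat_lit 546) (nat_lit 684) (nat_lit 0) (XT.nd (nat_lit 234) (nat_lit 380) (nat_lit 0) (XT.nd (nat_lit 78) (nat_lit 380) (nat_lit 0) (XT.lf (nat_lit 0) (nat_lit 41197841828) (nat_lit 228) (nat_lit 7575640776) (nat_lit 76) (nat_lit 7433099029) (nat_lit 83) (nat_lit 5) (nat_lit 86) (nat_lit 5) (nat_lit 84) (nat_lit 5) (nat_lit 523) (nat_lit 438) (nat_lit 239)) (XT.nd (nat_lit 78) (nat_lit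 228) (nat_lit 0) (XT.lf (nat_lit 0) (nat_lit 24979003625) (nat_lit 152) (nat_lit 31452840594) (nat_lit 228) (nat_lit 911763341) (nat_lit 81) (nat_lit 5) (nat_lit 83) (nat_lit 5) (nat_lit 84) (nat_lit 5) (nat_lit 524) (nat_lit 438) (nat_lit 238)) (XT.lf (nat_lit 0) (nat_lit 16599186) (nat_lit 152) (nat_lit 13400433492) (nat_lit 228) (nat_lit 45091553887) (nat_lit 78) (nat_lit 5) (nat_lit 80) (nat_lit 5) (nat_lit 81) (nat_lit 5) (nat_lit 525) (nat_lit 438) (nat_lit 237)))) (XT.nd (nat_lit 156) (nat_lit 228) (nat_lit 0) (XT.nd (nat_lit 78) (nat_lit 152) (nat_lit 0) (XT.lf (nat_lit 0) (nat_lit 28534396825) (nat_lit 228) (nat_lit 25733518958) (nat_lit 76) (nat_lit 5429017639) (nat_lit 78) (nat_lit 5) (nat_lit 81) (nat_lit 5) (nat_lit 79) (nat_lit 5) (nat_lit 526) (nat_lit 438) (nat_lit 236)) (XT.lf (nat_lit 0) (nat_lit 8026503492) (nat_lit 152) (nat_lit 36285748881) (nat_lit 228) (nat_lit 16602469387) (nat_lit 76) (nat_lit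 5) (nat_lit 78) (nat_lit 5) (nat_lit 79) (nat_lit 5) (nat_lit 527) (nat_lit 438) (nat_lit 235))) (XT.nd (nat_lit 78) (nat_lit 228) (nat_lit 0) (XT.lf (nat_lit 0) (nat_lit 43321740544) (nat_lit 152) (nat_lit 17498732759) (nat_lit 228) (nat_lit 1340859738) (nat_lit 76) (nat_lit 5) (nat_lit 78) (nat_lit 5) (nat_lit 79) (nat_lit 5) (nat_lit 528) (nat_lit 438) (nat_lit 234)) (XT.lf (nat_lit 0) (nat_lit 14273675082) (nat_lit 228) (nat_lit 47049818598) (nat_lit 76) (nat_lit 2112433025) (nat_lit 73) (nat_lit 5) (nat_lit 76) (nat_lit 5) (nat_lit 74) (nat_lit 5) (nat_lit 529) (nat_lit 438) (nat_lit 233))))) (XT.nd (nat_lit 312) (nat_lit 304) (nat_lit 0) (XT.nd (nat_lit 156) (nat_lit 228) (nat_lit 0) (XT.nd (nat_lit 78) (nat_lit 152) (nat_lit 0) (XT.lf (nat_lit 0) (nat_lit 30692315801) (nat_lit 228) (nat_lit 11881709072) (nat_lit 76) (nat_lit 22163456606) (nat_lit 73) (nat_lit 5) (nat_lit 76) (nat_lit 5) (nat_lit 74) (nat_lit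 5) (nat_lit 530) (nat_lit 438) (nat_lit 232)) (XT.lf (nat_lit 0) (nat_lit 24820918507) (nat_lit 152) (nat_lit 23018510010) (nat_lit 228) (nat_lit 18231577160) (nat_lit 71) (nat_lit 5) (nat_lit 73) (nat_lit 5) (nat_lit 74) (nat_lit 5) (nat_lit 531) (nat_lit 438) (nat_lit 231))) (XT.nd (nat_lit 78) (nat_lit 228) (nat_lit 0) (XT.lf (nat_lit 0) (nat_lit 62863365299) (nat_lit 152) (nat_lit 2754921930) (nat_lit 228) (nat_lit 1822728553) (nat_lit 71) (nat_lit 5) (nat_lit 73) (nat_lit 5) (nat_lit 74) (nat_lit 5) (nat_lit 532) (nat_lit 438) (nat_lit 230)) (XT.lf (nat_lit 0) (nat_lit 15284297238) (nat_lit 228) (nat_lit 35313958405) (nat_lit 76) (nat_lit 18234518057) (nat_lit 68) (nat_lit 5) (nat_lit 71) (nat_lit 5) (nat_lit 69) (nat_lit 5) (nat_lit 533) (nat_lit 438) (nat_lit 229)))) (XT.nd (nat_lit 156) (nat_lit 152) (nat_lit 0) (XT.nd (nat_lit 78) (nat_lit 0) (nat_lit 0) (XT.lf (nat_lit 0) (nat_lit 2587072208) (nat_lit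 152) (nat_lit 30377066913) (nat_lit 228) (nat_lit 37298716765) (nat_lit 66) (nat_lit 5) (nat_lit 68) (nat_lit 5) (nat_lit 69) (nat_lit 5) (nat_lit 534) (nat_lit 438) (nat_lit 228)) (XT.lf (nat_lit 0) (nat_lit 42344337046) (nat_lit 152) (nat_lit 9184083568) (nat_lit 228) (nat_lit 20196798734) (nat_lit 66) (nat_lit 5) (nat_lit 68) (nat_lit 5) (nat_lit 69) (nat_lit 5) (nat_lit 535) (nat_lit 438) (nat_lit 227))) (XT.nd (nat_lit 78) (nat_lit 76) (nat_lit 0) (XT.lf (nat_lit 0) (nat_lit 10134461445) (nat_lit 76) (nat_lit 60731633362) (nat_lit 152) (nat_lit 2358865117) (nat_lit 65) (nat_lit 5) (nat_lit 66) (nat_lit 5) (nat_lit 67) (nat_lit 4) (nat_lit 536) (nat_lit 438) (nat_lit 226)) (XT.lf (nat_lit 0) (nat_lit 16089771458) (nat_lit 152) (nat_lit 23575675262) (nat_lit 76) (nat_lit 35087986184) (nat_lit 64) (nat_lit 5) (nat_lit 66) (nat_lit 5) (nat_lit 65) (nat_lit 5) (nat_lit 537) (nat_lit 438) (nat_lit 225))))))))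
noncomputable def xc181 : XT := (XT.nd (nat_lit 56316) (nat_lit 0) (nat_lit 7372) (XT.nd (nat_lit 55146) (nat_lit 0) (nat_lit 15428) (XT.nd (nat_lit 546) (nat_lit 304) (nat_lit 0) (XT.nd (nat_lit 234) (nat_lit 304) (nat_lit 0) (XT.nd (nat_lit 78) (nat_lit 76) (nat_lit 0) (XT.lf (nat_lit 0) (nat_lit 17437010387) (nat_lit 152) (nat_lit 17772635335) (nat_lit 228) (nat_lit 41112458138) (nat_lit 62) (nat_lit 5) (nat_lit 64) (nat_lit 5) (nat_lit 65) (nat_lit 5) (nat_lit 538) (nat_lit 438) (nat_lit 224)) (XT.nd (nat_lit 78) (nat_lit 76) (nat_lit 0) (XT.lf (nat_lit 0) (nat_lit 55187043021) (nat_lit 228) (nat_lit 17820108712) (nat_lit 76) (nat_lit 4922165532) (nat_lit 62) (nat_lit 5) (nat_lit 65) (nat_lit 5) (nat_lit 63) (nat_lit 4) (nat_lit 539) (nat_lit 438) (nat_lit 223)) (XT.lf (nat_lit 0) (nat_lit 24780043242) (nat_lit 76) (nat_lit 51395539565) (nat_lit 152) (nat_lit 3396809766) (nat_lit 61) (nat_lit 5) (nat_lit 62)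 (nat_lit 5) (nat_lit 63) (nat_lit 4) (nat_lit 540) (nat_lit 438) (nat_lit 222)))) (XT.nd (nat_lit 156) (nat_lit 76) (nat_lit 0) (XT.nd (nat_lit 78) (nat_lit 152) (nat_lit 0) (XT.lf (nat_lit 0) (nat_lit 16385864469) (nat_lit 152) (nat_lit 12400903415) (nat_lit 76) (nat_lit 52467844161) (nat_lit 60) (nat_lit 5) (nat_lit 62) (nat_lit 5) (nat_lit 61) (nat_lit 5) (nat_lit 541) (nat_lit 438) (nat_lit 221)) (XT.lf (nat_lit 0) (nat_lit 31845840836) (nat_lit 152) (nat_lit 5151752226) (nat_lit 228) (nat_lit 45979580794) (nat_lit 58) (nat_lit 5) (nat_lit 60) (nat_lit 5) (nat_lit 61) (nat_lit 5) (nat_lit 542) (nat_lit 438) (nat_lit 220))) (XT.nd (nat_lit 78) (nat_lit 76) (nat_lit 0) (XT.lf (nat_lit 0) (nat_lit 58536358539) (nat_lit 228) (nat_lit 7263437699) (nat_lit 76) (nat_lit 18942355839) (nat_lit 58) (nat_lit 5) (nat_lit 61) (nat_lit 5) (nat_lit 59) (nat_lit 4) (nat_lit 543) (nat_lit 438) (nat_lit 219)) (XT.lf (nat_lit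 0) (nat_lit 38618958134) (nat_lit 76) (nat_lit 42522363502) (nat_lit 152) (nat_lit 5406157071) (nat_lit 57) (nat_lit 5) (nat_lit 58) (nat_lit 5) (nat_lit 59) (nat_lit 4) (nat_lit 544) (nat_lit 438) (nat_lit 218))))) (XT.nd (nat_lit 54288) (nat_lit 0) (nat_lit 18088) (XT.nd (nat_lit 156) (nat_lit 76) (nat_lit 0) (XT.nd (nat_lit 78) (nat_lit 152) (nat_lit 0) (XT.lf (nat_lit 0) (nat_lit 15776784054) (nat_lit 152) (nat_lit 2536868750) (nat_lit 76) (nat_lit 70086537116) (nat_lit 56) (nat_lit 5) (nat_lit 58) (nat_lit 5) (nat_lit 57) (nat_lit 5) (nat_lit 545) (nat_lit 438) (nat_lit 217)) (XT.lf (nat_lit 0) (nat_lit 37985798382) (nat_lit 228) (nat_lit 45324549544) (nat_lit 76) (nat_lit 6981551546) (nat_lit 54) (nat_lit 5) (nat_lit 57) (nat_lit 5) (nat_lit 55) (nat_lit 4) (nat_lit 546) (nat_lit 438) (nat_lit 216))) (XT.nd (nat_lit 54054) (nat_lit 0) (nat_lit 18088) (XT.lf (nat_lit 0) (nat_lit 1553837381) (nat_lit 76) (nat_lit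 59527248129) (nat_lit 152) (nat_lit 31152674821) (nat_lit 53) (nat_lit 5) (nat_lit 54) (nat_lit 5) (nat_lit 55) (nat_lit 4) (nat_lit 547) (nat_lit 438) (nat_lit 215)) (XT.lf (nat_lit 0) (nat_lit 2362848831) (nat_lit 0) (nat_lit 2362848831) (nat_lit 1140) (nat_lit 1844401166) (nat_lit 291) (nat_lit 5) (nat_lit 291) (nat_lit 3) (nat_lit 306) (nat_lit 3) (nat_lit 439) (nat_lit 439) (nat_lit 322)))) (XT.nd (nat_lit 156) (nat_lit 0) (nat_lit 76) (XT.nd (nat_lit 78) (nat_lit 0) (nat_lit 0) (XT.lf (nat_lit 0) (nat_lit 9993431961) (nat_lit 1140) (nat_lit 1984014184) (nat_lit 1216) (nat_lit 1347752816) (nat_lit 291) (nat_lit 5) (nat_lit 306) (nat_lit 3) (nat_lit 307) (nat_lit 5) (nat_lit 440) (nat_lit 439) (nat_lit 321)) (XT.lf (nat_lit 76) (nat_lit 4675755739) (nat_lit 0) (nat_lit 5952676295) (nat_lit 1216) (nat_lit 2885020856) (nat_lit 292) (nat_lit 5) (nat_lit 291) (nat_lit 5) (nat_lit 307) (nat_lit 5) (nat_lit 441)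 (nat_lit 439) (nat_lit 320))) (XT.nd (nat_lit 78) (nat_lit 0) (nat_lit 0) (XT.lf (nat_lit 0) (nat_lit 11290537606) (nat_lit 1140) (nat_lit 2141903869) (nat_lit 1216) (nat_lit 274674847) (nat_lit 292) (nat_lit 5) (nat_lit 307) (nat_lit 5) (nat_lit 308) (nat_lit 5) (nat_lit 442) (nat_lit 439) (nat_lit 319)) (XT.lf (nat_lit 76) (nat_lit 4780854607) (nat_lit 0) (nat_lit 7282363158) (nat_lit 1216) (nat_lit 1840653996) (nat_lit 293) (nat_lit 5) (nat_lit 292) (nat_lit 5) (nat_lit 308) (nat_lit 5) (nat_lit 443) (nat_lit 439) (nat_lit 318)))))) (XT.nd (nat_lit 546) (nat_lit 1596) (nat_lit 0) (XT.nd (nat_lit 234) (nat_lit 0) (nat_lit 76) (XT.nd (nat_lit 78) (nat_lit 1140) (nat_lit 0) (XT.lf (nat_lit 76) (nat_lit 11947020871) (nat_lit 0) (nat_lit 919838453) (nat_lit 1216) (nat_lit 1239440456) (nat_lit 293) (nat_lit 5) (nat_lit 292) (nat_lit 5) (nat_lit 308) (nat_lit 5) (nat_lit 444) (nat_lit 439) (nat_lit 317)) (XT.nd (nat_lit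 78) (nat_lit 1216) (nat_lit 0) (XT.lf (nat_lit 76) (nat_lit 5049346107) (nat_lit 0) (nat_lit 8734562855) (nat_lit 1216) (nat_lit 528215961) (nat_lit 294) (nat_lit 5) (nat_lit 293) (nat_lit 5) (nat_lit 309) (nat_lit 5) (nat_lit 445) (nat_lit 439) (nat_lit 316)) (XT.lf (nat_lit 0) (nat_lit 218271078) (nat_lit 1216) (nat_lit 2024851930) (nat_lit 1292) (nat_lit 12280408546) (nat_lit 277) (nat_lit 5) (nat_lit 293) (nat_lit 5) (nat_lit 294) (nat_lit 5) (nat_lit 446) (nat_lit 439) (nat_lit 315)))) (XT.nd (nat_lit 156) (nat_lit 0) (nat_lit 76) (XT.nd (nat_lit 78) (nat_lit 0) (nat_lit 0) (XT.lf (nat_lit 0) (nat_lit 1060141176) (nat_lit 1216) (nat_lit 9258800229) (nat_lit 1292) (nat_lit 4419676904) (nat_lit 278) (nat_lit 5) (nat_lit 294) (nat_lit 5) (nat_lit 295) (nat_lit 5) (nat_lit 447) (nat_lit 439) (nat_lit 314)) (XT.lf (nat_lit 0) (nat_lit 1957631988) (nat_lit 1216) (nat_lit 1739495155) (nat_lit 1292) (nat_lit 11262122471)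 (nat_lit 278) (nat_lit 5) (nat_lit 294) (nat_lit 5) (nat_lit 295) (nat_lit 5) (nat_lit 448) (nat_lit 439) (nat_lit 313))) (XT.nd (nat_lit 78) (nat_lit 0) (nat_lit 0) (XT.lf (nat_lit 0) (nat_lit 2959352438) (nat_lit 1216) (nat_lit 9099425829) (nat_lit 1292) (nat_lit 3125405247) (nat_lit 279) (nat_lit 5) (nat_lit 295) (nat_lit 5) (nat_lit 296) (nat_lit 5) (nat_lit 449) (nat_lit 439) (nat_lit 312)) (XT.lf (nat_lit 0) (nat_lit 4033645970) (nat_lit 1216) (nat_lit 1281453528) (nat_lit 1292) (nat_lit 10099493010) (nat_lit 279) (nat_lit 5) (nat_lit 295) (nat_lit 5) (nat_lit 296) (nat_lit 5) (nat_lit 450) (nat_lit 439) (nat_lit 311))))) (XT.nd (nat_lit 312) (nat_lit 1824) (nat_lit 0) (XT.nd (nat_lit 156) (nat_lit 0) (nat_lit 76) (XT.nd (nat_lit 78) (nat_lit 0) (nat_lit 0) (XT.lf (nat_lit 0) (nat_lit 5211351712) (nat_lit 1216) (nat_lit 8769465280) (nat_lit 1292) (nat_lit 1668963920) (nat_lit 280) (nat_lit 5) (nat_lit 296)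 (nat_lit 5) (nat_lit 297) (nat_lit 5) (nat_lit 451) (nat_lit 439) (nat_lit 310)) (XT.lf (nat_lit 0) (nat_lit 6478883717) (nat_lit 1216) (nat_lit 639944290) (nat_lit 1292) (nat_lit 8771564671) (nat_lit 280) (nat_lit 5) (nat_lit 296) (nat_lit 5) (nat_lit 297) (nat_lit 5) (nat_lit 452) (nat_lit 439) (nat_lit 309))) (XT.nd (nat_lit 78) (nat_lit 0) (nat_lit 0) (XT.lf (nat_lit 0) (nat_lit 7849587307) (nat_lit 1216) (nat_lit 8257863727) (nat_lit 1292) (nat_lit 28819884) (nat_lit 281) (nat_lit 5) (nat_lit 297) (nat_lit 5) (nat_lit 298) (nat_lit 5) (nat_lit 453) (nat_lit 439) (nat_lit 308)) (XT.lf (nat_lit 76) (nat_lit 200699470) (nat_lit 0) (nat_lit 9129036571) (nat_lit 1292) (nat_lit 7057742162) (nat_lit 282) (nat_lit 5) (nat_lit 281) (nat_lit 5) (nat_lit 298) (nat_lit 5) (nat_lit 454) (nat_lit 439) (nat_lit 307)))) (XT.nd (nat_lit 156) (nat_lit 760) (nat_lit 0) (XT.nd (nat_lit 78) (nat_lit 1140) (nat_lit 0) (XT.lf (nat_lit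 76) (nat_lit 9073618328) (nat_lit 0) (nat_lit 1853670059) (nat_lit 1292) (nat_lit 5716745692) (nat_lit 282) (nat_lit 5) (nat_lit 281) (nat_lit 5) (nat_lit 298) (nat_lit 5) (nat_lit 455) (nat_lit 439) (nat_lit 306)) (XT.lf (nat_lit 0) (nat_lit 1266183828) (nat_lit 1216) (nat_lit 11362898999) (nat_lit 1292) (nat_lit 4277516616) (nat_lit 266) (nat_lit 5) (nat_lit 282) (nat_lit 5) (nat_lit 283) (nat_lit 5) (nat_lit 456) (nat_lit 439) (nat_lit 305))) (XT.nd (nat_lit 78) (nat_lit 760) (nat_lit 0) (XT.lf (nat_lit 0) (nat_lit 10495687443) (nat_lit 1216) (nat_lit 3971002773) (nat_lit 1292) (nat_lit 2707810991) (nat_lit 266) (nat_lit 5) (nat_lit 282) (nat_lit 5) (nat_lit 283) (nat_lit 5) (nat_lit 457) (nat_lit 439) (nat_lit 304)) (XT.lf (nat_lit 0) (nat_lit 2557823227) (nat_lit 760) (nat_lit 13851643257) (nat_lit 836) (nat_lit 1039474469) (nat_lit 256) (nat_lit 5) (nat_lit 266) (nat_lit 5) (nat_lit 267) (nat_lit 5) (nat_lit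 458) (nat_lit 439) (nat_lit 303))))))) (XT.nd (nat_lit 1170) (nat_lit 3648) (nat_lit 0) (XT.nd (nat_lit 546) (nat_lit 2584) (nat_lit 0) (XT.nd (nat_lit 234) (nat_lit 1140) (nat_lit 0) (XT.nd (nat_lit 78) (nat_lit 608) (nat_lit 0) (XT.lf (nat_lit 0) (nat_lit 763630394) (nat_lit 836) (nat_lit 5576447675) (nat_lit 76) (nat_lit 11388403074) (nat_lit 255) (nat_lit 5) (nat_lit 266) (nat_lit 5) (nat_lit 256) (nat_lit 5) (nat_lit 459) (nat_lit 439) (nat_lit 302)) (XT.nd (nat_lit 78) (nat_lit 0) (nat_lit 0) (XT.lf (nat_lit 0) (nat_lit 2643877660) (nat_lit 684) (nat_lit 13950726716) (nat_lit 76) (nat_lit 1420178123) (nat_lit 247) (nat_lit 5) (nat_lit 256) (nat_lit 5) (nat_lit 248) (nat_lit 5) (nat_lit 460) (nat_lit 439) (nat_lit 301)) (XT.lf (nat_lit 0) (nat_lit 4691179559) (nat_lit 684) (nat_lit 4271979200) (nat_lit 76) (nat_lit 9343196630) (nat_lit 247) (nat_lit 5) (nat_lit 256) (nat_lit 5) (nat_lit 248) (nat_lit 5) (nat_lit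 461) (nat_lit 439) (nat_lit 300)))) (XT.nd (nat_lit 156) (nat_lit 532) (nat_lit 0) (XT.nd (nat_lit 78) (nat_lit 0) (nat_lit 0) (XT.lf (nat_lit 0) (nat_lit 5801849499) (nat_lit 608) (nat_lit 1045089361) (nat_lit 684) (nat_lit 11758327309) (nat_lit 239) (nat_lit 5) (nat_lit 247) (nat_lit 5) (nat_lit 248) (nat_lit 5) (nat_lit 462) (nat_lit 439) (nat_lit 299)) (XT.lf (nat_lit 0) (nat_lit 9170729657) (nat_lit 684) (nat_lit 2723836373) (nat_lit 76) (nat_lit 7015479278) (nat_lit 239) (nat_lit 5) (nat_lit 248) (nat_lit 5) (nat_lit 240) (nat_lit 5) (nat_lit 463) (nat_lit 439) (nat_lit 298))) (XT.nd (nat_lit 78) (nat_lit 0) (nat_lit 0) (XT.lf (nat_lit 0) (nat_lit 7791401934) (nat_lit 532) (nat_lit 3849766938) (nat_lit 608) (nat_lit 7580492654) (nat_lit 232) (nat_lit 5) (nat_lit 239) (nat_lit 5) (nat_lit 240) (nat_lit 5) (nat_lit 464) (nat_lit 439) (nat_lit 297)) (XT.lf (nat_lit 0) (nat_lit 14247995725) (nat_lit 608) (nat_lit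 915367194) (nat_lit 76) (nat_lit 4377396774) (nat_lit 232) (nat_lit 5) (nat_lit 240) (nat_lit 5) (nat_lit 233) (nat_lit 5) (nat_lit 465) (nat_lit 439) (nat_lit 296))))) (XT.nd (nat_lit 312) (nat_lit 912) (nat_lit 0) (XT.nd (nat_lit 156) (nat_lit 608) (nat_lit 0) (XT.nd (nat_lit 78) (nat_lit 532) (nat_lit 0) (XT.lf (nat_lit 0) (nat_lit 10064926400) (nat_lit 532) (nat_lit 6995056612) (nat_lit 608) (nat_lit 2805640770) (nat_lit 225) (nat_lit 5) (nat_lit 232) (nat_lit 5) (nat_lit 233) (nat_lit 5) (nat_lit 466) (nat_lit 439) (nat_lit 295)) (XT.lf (nat_lit 0) (nat_lit 1194541130) (nat_lit 532) (nat_lit 18788475233) (nat_lit 608) (nat_lit 216418436) (nat_lit 218) (nat_lit 5) (nat_lit 225) (nat_lit 5) (nat_lit 226) (nat_lit 5) (nat_lit 467) (nat_lit 439) (nat_lit 294))) (XT.nd (nat_lit 78) (nat_lit 532) (nat_lit 0) (XT.lf (nat_lit 0) (nat_lit 2564172333) (nat_lit 608) (nat_lit 7922094583) (nat_lit 76) (nat_lit 10051442787)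 (nat_lit 217) (nat_lit 5) (nat_lit 225) (nat_lit 5) (nat_lit 218) (nat_lit 5) (nat_lit 468) (nat_lit 439) (nat_lit 293)) (XT.lf (nat_lit 0) (nat_lit 3552056639) (nat_lit 532) (nat_lit 1898446869) (nat_lit 608) (nat_lit 15434766352) (nat_lit 210) (nat_lit 5) (nat_lit 217) (nat_lit 5) (nat_lit 218) (nat_lit 5) (nat_lit 469) (nat_lit 439) (nat_lit 292)))) (XT.nd (nat_lit 156) (nat_lit 456) (nat_lit 0) (XT.nd (nat_lit 78) (nat_lit 456) (nat_lit 0) (XT.lf (nat_lit 0) (nat_lit 8563651197) (nat_lit 608) (nat_lit 5784034260) (nat_lit 76) (nat_lit 6891365988) (nat_lit 210) (nat_lit 5) (nat_lit 218) (nat_lit 5) (nat_lit 211) (nat_lit 5) (nat_lit 470) (nat_lit 439) (nat_lit 291)) (XT.lf (nat_lit 0) (nat_lit 6205731396) (nat_lit 456) (nat_lit 5635783565) (nat_lit 532) (nat_lit 9759793244) (nat_lit 204) (nat_lit 5) (nat_lit 210) (nat_lit 5) (nat_lit 211) (nat_lit 5) (nat_lit 471) (nat_lit 439) (nat_lit 290))) (XT.nd (nat_lit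 78) (nat_lit 456) (nat_lit 0) (XT.lf (nat_lit 0) (nat_lit 15301773057) (nat_lit 532) (nat_lit 3339892229) (nat_lit 76) (nat_lit 3330246968) (nat_lit 204) (nat_lit 5) (nat_lit 211) (nat_lit 5) (nat_lit 205) (nat_lit 5) (nat_lit 472) (nat_lit 439) (nat_lit 289)) (XT.lf (nat_lit 0) (nat_lit 9192984601) (nat_lit 456) (nat_lit 9810217738) (nat_lit 532) (nat_lit 3346312483) (nat_lit 198) (nat_lit 5) (nat_lit 204) (nat_lit 5) (nat_lit 205) (nat_lit 5) (nat_lit 473) (nat_lit 439) (nat_lit 288)))))) (XT.nd (nat_lit 624) (nat_lit 1824) (nat_lit 0) (XT.nd (nat_lit 312) (nat_lit 836) (nat_lit 0) (XT.nd (nat_lit 156) (nat_lit 456) (nat_lit 0) (XT.nd (nat_lit 78) (nat_lit 456) (nat_lit 0) (XT.lf (nat_lit 0) (nat_lit 103031330) (nat_lit 532) (nat_lit 576320907) (nat_lit 76) (nat_lit 22058252903) (nat_lit 197) (nat_lit 5) (nat_lit 204) (nat_lit 5) (nat_lit 198) (nat_lit 5) (nat_lit 474) (nat_lit 439) (nat_lit 287)) (XT.lf (nat_lit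 0) (nat_lit 3788413991) (nat_lit 532) (nat_lit 10632427899) (nat_lit 76) (nat_lit 8709509030) (nat_lit 191) (nat_lit 5) (nat_lit 198) (nat_lit 5) (nat_lit 192) (nat_lit 5) (nat_lit 475) (nat_lit 439) (nat_lit 286))) (XT.nd (nat_lit 78) (nat_lit 0) (nat_lit 0) (XT.lf (nat_lit 0) (nat_lit 2475026190) (nat_lit 456) (nat_lit 5139275315) (nat_lit 532) (nat_lit 15919680421) (nat_lit 185) (nat_lit 5) (nat_lit 191) (nat_lit 5) (nat_lit 192) (nat_lit 5) (nat_lit 476) (nat_lit 439) (nat_lit 285)) (XT.lf (nat_lit 0) (nat_lit 11699535256) (nat_lit 532) (nat_lit 7804488758) (nat_lit 76) (nat_lit 4441361882) (nat_lit 185) (nat_lit 5) (nat_lit 192) (nat_lit 5) (nat_lit 186) (nat_lit 5) (nat_lit 477) (nat_lit 439) (nat_lit 284)))) (XT.nd (nat_lit 156) (nat_lit 456) (nat_lit 0) (XT.nd (nat_lit 78) (nat_lit 0) (nat_lit 0) (XT.lf (nat_lit 0) (nat_lit 5904085603) (nat_lit 380) (nat_lit 10104708167) (nat_lit 456) (nat_lit 8357295269)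 (nat_lit 180) (nat_lit 5) (nat_lit 185) (nat_lit 5) (nat_lit 186) (nat_lit 5) (nat_lit 478) (nat_lit 439) (nat_lit 283)) (XT.lf (nat_lit 0) (nat_lit 20176125864) (nat_lit 380) (nat_lit 343949325) (nat_lit 456) (nat_lit 4277156791) (nat_lit 180) (nat_lit 5) (nat_lit 185) (nat_lit 5) (nat_lit 186) (nat_lit 5) (nat_lit 479) (nat_lit 439) (nat_lit 282))) (XT.nd (nat_lit 78) (nat_lit 0) (nat_lit 0) (XT.lf (nat_lit 0) (nat_lit 109532962) (nat_lit 456) (nat_lit 15513240049) (nat_lit 76) (nat_lit 9613077977) (nat_lit 174) (nat_lit 5) (nat_lit 180) (nat_lit 5) (nat_lit 175) (nat_lit 5) (nat_lit 480) (nat_lit 439) (nat_lit 281)) (XT.lf (nat_lit 0) (nat_lit 4586524271) (nat_lit 456) (nat_lit 1148829543) (nat_lit 76) (nat_lit 19949665252) (nat_lit 174) (nat_lit 5) (nat_lit 180) (nat_lit 5) (nat_lit 175) (nat_lit 5) (nat_lit 481) (nat_lit 439) (nat_lit 280))))) (XT.nd (nat_lit 312) (nat_lit 760) (nat_lit 0) (XT.nd (nat_lit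 156) (nat_lit 304) (nat_lit 0) (XT.nd (nat_lit 78) (nat_lit 380) (nat_lit 0) (XT.lf (nat_lit 0) (nat_lit 9369917376) (nat_lit 456) (nat_lit 12277463605) (nat_lit 76) (nat_lit 4495119383) (nat_lit 169) (nat_lit 5) (nat_lit 175) (nat_lit 5) (nat_lit 170) (nat_lit 5) (nat_lit 482) (nat_lit 439) (nat_lit 279)) (XT.lf (nat_lit 0) (nat_lit 2728243722) (nat_lit 380) (nat_lit 11657678626) (nat_lit 456) (nat_lit 12225111360) (nat_lit 164) (nat_lit 5) (nat_lit 169) (nat_lit 5) (nat_lit 170) (nat_lit 5) (nat_lit 483) (nat_lit 439) (nat_lit 278))) (XT.nd (nat_lit 78) (nat_lit 304) (nat_lit 0) (XT.lf (nat_lit 0) (nat_lit 18428268336) (nat_lit 380) (nat_lit 1242591724) (nat_lit 456) (nat_lit 7419210303) (nat_lit 164) (nat_lit 5) (nat_lit 169) (nat_lit 5) (nat_lit 170) (nat_lit 5) (nat_lit 484) (nat_lit 439) (nat_lit 277)) (XT.lf (nat_lit 0) (nat_lit 7054852347) (nat_lit 304) (nat_lit 18213100750) (nat_lit 380) (nat_lit 2310917662)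 (nat_lit 160) (nat_lit 5) (nat_lit 164) (nat_lit 5) (nat_lit 165) (nat_lit 5) (nat_lit 485) (nat_lit 439) (nat_lit 276)))) (XT.nd (nat_lit 156) (nat_lit 304) (nat_lit 0) (XT.nd (nat_lit 78) (nat_lit 380) (nat_lit 0) (XT.lf (nat_lit 0) (nat_lit 2988331680) (nat_lit 380) (nat_lit 4708166359) (nat_lit 76) (nat_lit 20382128485) (nat_lit 159) (nat_lit 5) (nat_lit 164) (nat_lit 5) (nat_lit 160) (nat_lit 5) (nat_lit 486) (nat_lit 439) (nat_lit 275)) (XT.lf (nat_lit 0) (nat_lit 8539640572) (nat_lit 456) (nat_lit 16838998063) (nat_lit 76) (nat_lit 3209864825) (nat_lit 154) (nat_lit 5) (nat_lit 160) (nat_lit 5) (nat_lit 155) (nat_lit 5) (nat_lit 487) (nat_lit 439) (nat_lit 274))) (XT.nd (nat_lit 78) (nat_lit 304) (nat_lit 0) (XT.lf (nat_lit 0) (nat_lit 14376572676) (nat_lit 456) (nat_lit 398836629) (nat_lit 76) (nat_lit 14334695644) (nat_lit 154) (nat_lit 5) (nat_lit 160) (nat_lit 5) (nat_lit 155) (nat_lit 5) (nat_lit 488)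 (nat_lit 439) (nat_lit 273)) (XT.lf (nat_lit 0) (nat_lit 16856338451) (nat_lit 304) (nat_lit 3689324254) (nat_lit 380) (nat_lit 9096981020) (nat_lit 150) (nat_lit 5) (nat_lit 154) (nat_lit 5) (nat_lit 155) (nat_lit 5) (nat_lit 489) (nat_lit 439) (nat_lit 272))))))))
noncomputable def xc182 : XT := (XT.nd (nat_lit 2340) (nat_lit 2584) (nat_lit 0) (XT.nd (nat_lit 1170) (nat_lit 2052) (nat_lit 0) (XT.nd (nat_lit 546) (nat_lit 1368) (nat_lit 0) (XT.nd (nat_lit 234) (nat_lit 608) (nat_lit 0) (XT.nd (nat_lit 78) (nat_lit 380) (nat_lit 0) (XT.lf (nat_lit 0) (nat_lit 4451658970) (nat_lit 304) (nat_lit 22564398365) (nat_lit 380) (nat_lit 3171615092) (nat_lit 146) (nat_lit 5) (nat_lit 150) (nat_lit 5) (nat_lit 151) (nat_lit 5) (nat_lit 490) (nat_lit 439) (nat_lit 271)) (XT.nd (nat_lit 78) (nat_lit 304) (nat_lit 0) (XT.lf (nat_lit 0) (nat_lit 3036330194) (nat_lit 380) (nat_lit 8349499879) (nat_lit 76) (nat_lit 19357516528)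 (nat_lit 145) (nat_lit 5) (nat_lit 150) (nat_lit 5) (nat_lit 146) (nat_lit 5) (nat_lit 491) (nat_lit 439) (nat_lit 270)) (XT.lf (nat_lit 0) (nat_lit 9457790286) (nat_lit 380) (nat_lit 21604853826) (nat_lit 76) (nat_lit 249374801) (nat_lit 141) (nat_lit 5) (nat_lit 146) (nat_lit 5) (nat_lit 142) (nat_lit 5) (nat_lit 492) (nat_lit 439) (nat_lit 269)))) (XT.nd (nat_lit 156) (nat_lit 304) (nat_lit 0) (XT.nd (nat_lit 78) (nat_lit 304) (nat_lit 0) (XT.lf (nat_lit 0) (nat_lit 16265066493) (nat_lit 380) (nat_lit 3539146878) (nat_lit 76) (nat_lit 12087743491) (nat_lit 141) (nat_lit 5) (nat_lit 146) (nat_lit 5) (nat_lit 142) (nat_lit 5) (nat_lit 493) (nat_lit 439) (nat_lit 268)) (XT.lf (nat_lit 0) (nat_lit 15361447992) (nat_lit 304) (nat_lit 8058206684) (nat_lit 380) (nat_lit 9065346086) (nat_lit 137) (nat_lit 5) (nat_lit 141) (nat_lit 5) (nat_lit 142) (nat_lit 5) (nat_lit 494) (nat_lit 439) (nat_lit 267))) (XT.nd (nat_lit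 78) (nat_lit 76) (nat_lit 0) (XT.lf (nat_lit 0) (nat_lit 1795810906) (nat_lit 228) (nat_lit 29080737220) (nat_lit 304) (nat_lit 2216658425) (nat_lit 134) (nat_lit 5) (nat_lit 137) (nat_lit 5) (nat_lit 138) (nat_lit 5) (nat_lit 495) (nat_lit 439) (nat_lit 266)) (XT.lf (nat_lit 0) (nat_lit 4993001281) (nat_lit 304) (nat_lit 12215606585) (nat_lit 76) (nat_lit 16502158941) (nat_lit 133) (nat_lit 5) (nat_lit 137) (nat_lit 5) (nat_lit 134) (nat_lit 5) (nat_lit 496) (nat_lit 439) (nat_lit 265))))) (XT.nd (nat_lit 312) (nat_lit 760) (nat_lit 0) (XT.nd (nat_lit 156) (nat_lit 304) (nat_lit 0) (XT.nd (nat_lit 78) (nat_lit 0) (nat_lit 0) (XT.lf (nat_lit 0) (nat_lit 7557453553) (nat_lit 304) (nat_lit 4885220301) (nat_lit 380) (nat_lit 21901473883) (nat_lit 129) (nat_lit 5) (nat_lit 133) (nat_lit 5) (nat_lit 134) (nat_lit 5) (nat_lit 497) (nat_lit 439) (nat_lit 264)) (XT.lf (nat_lit 0) (nat_lit 20311135475) (nat_lit 380) (nat_lit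 6901741535) (nat_lit 76) (nat_lit 7777794655) (nat_lit 129) (nat_lit 5) (nat_lit 134) (nat_lit 5) (nat_lit 130) (nat_lit 5) (nat_lit 498) (nat_lit 439) (nat_lit 263))) (XT.nd (nat_lit 78) (nat_lit 76) (nat_lit 0) (XT.lf (nat_lit 0) (nat_lit 13794008403) (nat_lit 228) (nat_lit 14798403486) (nat_lit 304) (nat_lit 7058877112) (nat_lit 126) (nat_lit 5) (nat_lit 129) (nat_lit 5) (nat_lit 130) (nat_lit 5) (nat_lit 499) (nat_lit 439) (nat_lit 262)) (XT.lf (nat_lit 0) (nat_lit 841176775) (nat_lit 304) (nat_lit 1092385227) (nat_lit 76) (nat_lit 34395949452) (nat_lit 125) (nat_lit 5) (nat_lit 129) (nat_lit 5) (nat_lit 126) (nat_lit 5) (nat_lit 500) (nat_lit 439) (nat_lit 261)))) (XT.nd (nat_lit 156) (nat_lit 228) (nat_lit 0) (XT.nd (nat_lit 78) (nat_lit 228) (nat_lit 0) (XT.lf (nat_lit 0) (nat_lit 9141940009) (nat_lit 380) (nat_lit 16509992959) (nat_lit 76) (nat_lit 11364883866) (nat_lit 121) (nat_lit 5) (nat_lit 126) (nat_lit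 5) (nat_lit 122) (nat_lit 5) (nat_lit 501) (nat_lit 439) (nat_lit 260)) (XT.lf (nat_lit 0) (nat_lit 5126354382) (nat_lit 228) (nat_lit 12640905568) (nat_lit 304) (nat_lit 19955215876) (nat_lit 118) (nat_lit 5) (nat_lit 121) (nat_lit 5) (nat_lit 122) (nat_lit 5) (nat_lit 502) (nat_lit 439) (nat_lit 259))) (XT.nd (nat_lit 78) (nat_lit 228) (nat_lit 0) (XT.lf (nat_lit 0) (nat_lit 26823023808) (nat_lit 304) (nat_lit 10709484108) (nat_lit 76) (nat_lit 911646588) (nat_lit 118) (nat_lit 5) (nat_lit 122) (nat_lit 5) (nat_lit 119) (nat_lit 5) (nat_lit 503) (nat_lit 439) (nat_lit 258)) (XT.lf (nat_lit 0) (nat_lit 11935230833) (nat_lit 228) (nat_lit 24451237473) (nat_lit 304) (nat_lit 2793935440) (nat_lit 115) (nat_lit 5) (nat_lit 118) (nat_lit 5) (nat_lit 119) (nat_lit 5) (nat_lit 504) (nat_lit 439) (nat_lit 257)))))) (XT.nd (nat_lit 546) (nat_lit 1064) (nat_lit 0) (XT.nd (nat_lit 234) (nat_lit 456) (nat_lit 0) (XT.nd (nat_lit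 78) (nat_lit 456) (nat_lit 0) (XT.lf (nat_lit 0) (nat_lit 6280529629) (nat_lit 304) (nat_lit 4524565941) (nat_lit 76) (nat_lit 29128668514) (nat_lit 114) (nat_lit 5) (nat_lit 118) (nat_lit 5) (nat_lit 115) (nat_lit 5) (nat_lit 505) (nat_lit 439) (nat_lit 256)) (XT.nd (nat_lit 78) (nat_lit 228) (nat_lit 0) (XT.lf (nat_lit 0) (nat_lit 15785392145) (nat_lit 304) (nat_lit 21517860879) (nat_lit 76) (nat_lit 3399213161) (nat_lit 111) (nat_lit 5) (nat_lit 115) (nat_lit 5) (nat_lit 112) (nat_lit 5) (nat_lit 506) (nat_lit 439) (nat_lit 255)) (XT.lf (nat_lit 0) (nat_lit 2133005774) (nat_lit 228) (nat_lit 23612299126) (nat_lit 304) (nat_lit 15743827703) (nat_lit 108) (nat_lit 5) (nat_lit 111) (nat_lit 5) (nat_lit 112) (nat_lit 5) (nat_lit 507) (nat_lit 439) (nat_lit 254)))) (XT.nd (nat_lit 156) (nat_lit 228) (nat_lit 0) (XT.nd (nat_lit 78) (nat_lit 228) (nat_lit 0) (XT.lf (nat_lit 0) (nat_lit 26928428011) (nat_lit 228) (nat_lit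 9289203189) (nat_lit 304) (nat_lit 6075359706) (nat_lit 108) (nat_lit 5) (nat_lit 111) (nat_lit 5) (nat_lit 112) (nat_lit 5) (nat_lit 508) (nat_lit 439) (nat_lit 253)) (XT.lf (nat_lit 0) (nat_lit 3948766783) (nat_lit 228) (nat_lit 33682369599) (nat_lit 76) (nat_lit 5484467740) (nat_lit 105) (nat_lit 5) (nat_lit 108) (nat_lit 5) (nat_lit 106) (nat_lit 5) (nat_lit 509) (nat_lit 439) (nat_lit 252))) (XT.nd (nat_lit 78) (nat_lit 228) (nat_lit 0) (XT.lf (nat_lit 0) (nat_lit 14396593586) (nat_lit 228) (nat_lit 8827964095) (nat_lit 76) (nat_lit 20729181280) (nat_lit 105) (nat_lit 5) (nat_lit 108) (nat_lit 5) (nat_lit 106) (nat_lit 5) (nat_lit 510) (nat_lit 439) (nat_lit 251)) (XT.lf (nat_lit 0) (nat_lit 17099942701) (nat_lit 228) (nat_lit 8218816539) (nat_lit 304) (nat_lit 19493431816) (nat_lit 102) (nat_lit 5) (nat_lit 105) (nat_lit 5) (nat_lit 106) (nat_lit 5) (nat_lit 511) (nat_lit 439) (nat_lit 250))))) (XT.nd (nat_lit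 312) (nat_lit 608) (nat_lit 0) (XT.nd (nat_lit 156) (nat_lit 228) (nat_lit 0) (XT.nd (nat_lit 78) (nat_lit 228) (nat_lit 0) (XT.lf (nat_lit 0) (nat_lit 36724737334) (nat_lit 304) (nat_lit 1783357123) (nat_lit 76) (nat_lit 7183618156) (nat_lit 102) (nat_lit 5) (nat_lit 106) (nat_lit 5) (nat_lit 103) (nat_lit 5) (nat_lit 512) (nat_lit 439) (nat_lit 249)) (XT.lf (nat_lit 0) (nat_lit 2163385532) (nat_lit 228) (nat_lit 21278531541) (nat_lit 76) (nat_lit 23145421144) (nat_lit 99) (nat_lit 5) (nat_lit 102) (nat_lit 5) (nat_lit 100) (nat_lit 5) (nat_lit 513) (nat_lit 439) (nat_lit 248))) (XT.nd (nat_lit 78) (nat_lit 0) (nat_lit 0) (XT.lf (nat_lit 0) (nat_lit 5758736362) (nat_lit 228) (nat_lit 7758899975) (nat_lit 304) (nat_lit 33987426894) (nat_lit 96) (nat_lit 5) (nat_lit 99) (nat_lit 5) (nat_lit 100) (nat_lit 5) (nat_lit 514) (nat_lit 439) (nat_lit 247)) (XT.lf (nat_lit 0) (nat_lit 25506891713) (nat_lit 304) (nat_lit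 14489082335) (nat_lit 76) (nat_lit 8445514925) (nat_lit 96) (nat_lit 5) (nat_lit 100) (nat_lit 5) (nat_lit 97) (nat_lit 5) (nat_lit 515) (nat_lit 439) (nat_lit 246)))) (XT.nd (nat_lit 156) (nat_lit 380) (nat_lit 0) (XT.nd (nat_lit 78) (nat_lit 76) (nat_lit 0) (XT.lf (nat_lit 0) (nat_lit 13772273089) (nat_lit 152) (nat_lit 24289540602) (nat_lit 228) (nat_lit 11338014407) (nat_lit 94) (nat_lit 5) (nat_lit 96) (nat_lit 5) (nat_lit 97) (nat_lit 5) (nat_lit 516) (nat_lit 439) (nat_lit 245)) (XT.lf (nat_lit 0) (nat_lit 739181557) (nat_lit 228) (nat_lit 7216867462) (nat_lit 76) (nat_lit 42426357250) (nat_lit 93) (nat_lit 5) (nat_lit 96) (nat_lit 5) (nat_lit 94) (nat_lit 5) (nat_lit 517) (nat_lit 439) (nat_lit 244))) (XT.nd (nat_lit 78) (nat_lit 152) (nat_lit 0) (XT.lf (nat_lit 0) (nat_lit 13251136951) (nat_lit 304) (nat_lit 29108273299) (nat_lit 76) (nat_lit 9022674271) (nat_lit 90) (nat_lit 5) (nat_lit 94) (nat_lit 5)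 (nat_lit 91) (nat_lit 5) (nat_lit 518) (nat_lit 439) (nat_lit 243)) (XT.lf (nat_lit 0) (nat_lit 308712975) (nat_lit 152) (nat_lit 25981977513) (nat_lit 228) (nat_lit 26116495699) (nat_lit 88) (nat_lit 5) (nat_lit 90) (nat_lit 5) (nat_lit 91) (nat_lit 5) (nat_lit 519) (nat_lit 439) (nat_lit 242))))))) (XT.nd (nat_lit 1170) (nat_lit 1064) (nat_lit 0) (XT.nd (nat_lit 546) (nat_lit 760) (nat_lit 0) (XT.nd (nat_lit 234) (nat_lit 532) (nat_lit 0) (XT.nd (nat_lit 78) (nat_lit 228) (nat_lit 0) (XT.lf (nat_lit 0) (nat_lit 31199553876) (nat_lit 152) (nat_lit 8812753522) (nat_lit 228) (nat_lit 13442007440) (nat_lit 88) (nat_lit 5) (nat_lit 90) (nat_lit 5) (nat_lit 91) (nat_lit 5) (nat_lit 520) (nat_lit 439) (nat_lit 241)) (XT.nd (nat_lit 78) (nat_lit 76) (nat_lit 0) (XT.lf (nat_lit 0) (nat_lit 8560777180) (nat_lit 152) (nat_lit 45749373867) (nat_lit 228) (nat_lit 217769190) (nat_lit 86) (nat_lit 5) (nat_lit 88) (nat_lit 5)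 (nat_lit 89) (nat_lit 5) (nat_lit 521) (nat_lit 439) (nat_lit 240)) (XT.lf (nat_lit 0) (nat_lit 13452876728) (nat_lit 228) (nat_lit 15093595811) (nat_lit 76) (nat_lit 27074059533) (nat_lit 85) (nat_lit 5) (nat_lit 88) (nat_lit 5) (nat_lit 86) (nat_lit 5) (nat_lit 522) (nat_lit 439) (nat_lit 239)))) (XT.nd (nat_lit 156) (nat_lit 380) (nat_lit 0) (XT.nd (nat_lit 78) (nat_lit 0) (nat_lit 0) (XT.lf (nat_lit 0) (nat_lit 17031229346) (nat_lit 152) (nat_lit 10658852929) (nat_lit 228) (nat_lit 29050951001) (nat_lit 83) (nat_lit 5) (nat_lit 85) (nat_lit 5) (nat_lit 86) (nat_lit 5) (nat_lit 523) (nat_lit 439) (nat_lit 238)) (XT.lf (nat_lit 0) (nat_lit 42580091672) (nat_lit 228) (nat_lit 7542656442) (nat_lit 76) (nat_lit 7765630980) (nat_lit 83) (nat_lit 5) (nat_lit 86) (nat_lit 5) (nat_lit 84) (nat_lit 5) (nat_lit 524) (nat_lit 439) (nat_lit 237))) (XT.nd (nat_lit 78) (nat_lit 228) (nat_lit 0) (XT.lf (nat_lit 0) (nat_lit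 25986075786) (nat_lit 152) (nat_lit 32283253948) (nat_lit 228) (nat_lit 790239903) (nat_lit 81) (nat_lit 5) (nat_lit 83) (nat_lit 5) (nat_lit 84) (nat_lit 5) (nat_lit 525) (nat_lit 439) (nat_lit 236)) (XT.lf (nat_lit 0) (nat_lit 275159204) (nat_lit 152) (nat_lit 13688584740) (nat_lit 228) (nat_lit 46295764553) (nat_lit 78) (nat_lit 5) (nat_lit 80) (nat_lit 5) (nat_lit 81) (nat_lit 5) (nat_lit 526) (nat_lit 439) (nat_lit 235))))) (XT.nd (nat_lit 312) (nat_lit 380) (nat_lit 0) (XT.nd (nat_lit 156) (nat_lit 228) (nat_lit 0) (XT.nd (nat_lit 78) (nat_lit 152) (nat_lit 0) (XT.lf (nat_lit 0) (nat_lit 29531491637) (nat_lit 228) (nat_lit 26251832102) (nat_lit 76) (nat_lit 5700276423) (nat_lit 78) (nat_lit 5) (nat_lit 81) (nat_lit 5) (nat_lit 79) (nat_lit 5) (nat_lit 527) (nat_lit 439) (nat_lit 234)) (XT.lf (nat_lit 0) (nat_lit 8518503841) (nat_lit 152) (nat_lit 37262485120) (nat_lit 228) (nat_lit 16956984279) (nat_lit 76)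 (nat_lit 5) (nat_lit 78) (nat_lit 5) (nat_lit 79) (nat_lit 5) (nat_lit 528) (nat_lit 439) (nat_lit 233))) (XT.nd (nat_lit 78) (nat_lit 228) (nat_lit 0) (XT.lf (nat_lit 0) (nat_lit 44865281347) (nat_lit 152) (nat_lit 17915115881) (nat_lit 228) (nat_lit 1241707676) (nat_lit 76) (nat_lit 5) (nat_lit 78) (nat_lit 5) (nat_lit 79) (nat_lit 5) (nat_lit 529) (nat_lit 439) (nat_lit 232)) (XT.lf (nat_lit 0) (nat_lit 14837959930) (nat_lit 228) (nat_lit 48214104402) (nat_lit 76) (nat_lit 2282849607) (nat_lit 73) (nat_lit 5) (nat_lit 76) (nat_lit 5) (nat_lit 74) (nat_lit 5) (nat_lit 530) (nat_lit 439) (nat_lit 231)))) (XT.nd (nat_lit 156) (nat_lit 228) (nat_lit 0) (XT.nd (nat_lit 78) (nat_lit 152) (nat_lit 0) (XT.lf (nat_lit 0) (nat_lit 31745196533) (nat_lit 228) (nat_lit 11998151845) (nat_lit 76) (nat_lit 22932286121) (nat_lit 73) (nat_lit 5) (nat_lit 76) (nat_lit 5) (nat_lit 74) (nat_lit 5) (nat_lit 531) (nat_lit 439) (nat_lit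 230)) (XT.lf (nat_lit 0) (nat_lit 25803201536) (nat_lit 152) (nat_lit 23601957683) (nat_lit 228) (nat_lit 18644052341) (nat_lit 71) (nat_lit 5) (nat_lit 73) (nat_lit 5) (nat_lit 74) (nat_lit 5) (nat_lit 532) (nat_lit 439) (nat_lit 229))) (XT.nd (nat_lit 78) (nat_lit 228) (nat_lit 0) (XT.lf (nat_lit 0) (nat_lit 64979999729) (nat_lit 152) (nat_lit 2733581600) (nat_lit 228) (nat_lit 1746854940) (nat_lit 71) (nat_lit 5) (nat_lit 73) (nat_lit 5) (nat_lit 74) (nat_lit 5) (nat_lit 533) (nat_lit 439) (nat_lit 228)) (XT.lf (nat_lit 0) (nat_lit 15870330690) (nat_lit 228) (nat_lit 36139578166) (nat_lit 76) (nat_lit 18884015733) (nat_lit 68) (nat_lit 5) (nat_lit 71) (nat_lit 5) (nat_lit 69) (nat_lit 5) (nat_lit 534) (nat_lit 439) (nat_lit 227)))))) (XT.nd (nat_lit 624) (nat_lit 456) (nat_lit 0) (XT.nd (nat_lit 312) (nat_lit 304) (nat_lit 0) (XT.nd (nat_lit 156) (nat_lit 152) (nat_lit 0) (XT.nd (nat_lit 78) (nat_lit 0) (nat_lit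 0) (XT.lf (nat_lit 0) (nat_lit 2896191218) (nat_lit 152) (nat_lit 31182888272) (nat_lit 228) (nat_lit 38287874610) (nat_lit 66) (nat_lit 5) (nat_lit 68) (nat_lit 5) (nat_lit 69) (nat_lit 5) (nat_lit 535) (nat_lit 439) (nat_lit 226)) (XT.lf (nat_lit 0) (nat_lit 43839431083) (nat_lit 152) (nat_lit 9357187971) (nat_lit 228) (nat_lit 20676679728) (nat_lit 66) (nat_lit 5) (nat_lit 68) (nat_lit 5) (nat_lit 69) (nat_lit 5) (nat_lit 536) (nat_lit 439) (nat_lit 225))) (XT.nd (nat_lit 78) (nat_lit 76) (nat_lit 0) (XT.lf (nat_lit 0) (nat_lit 10663721891) (nat_lit 76) (nat_lit 62450258958) (nat_lit 152) (nat_lit 2304064202) (nat_lit 65) (nat_lit 5) (nat_lit 66) (nat_lit 5) (nat_lit 67) (nat_lit 4) (nat_lit 537) (nat_lit 439) (nat_lit 224)) (XT.lf (nat_lit 0) (nat_lit 16691995288) (nat_lit 152) (nat_lit 24061893823) (nat_lit 76) (nat_lit 36238554661) (nat_lit 64) (nat_lit 5) (nat_lit 66) (nat_lit 5) (nat_lit 65) (nat_lit 5)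 (nat_lit 538) (nat_lit 439) (nat_lit 223)))) (XT.nd (nat_lit 156) (nat_lit 152) (nat_lit 0) (XT.nd (nat_lit 78) (nat_lit 0) (nat_lit 0) (XT.lf (nat_lit 0) (nat_lit 18179005222) (nat_lit 152) (nat_lit 18205083134) (nat_lit 228) (nat_lit 42224128005) (nat_lit 62) (nat_lit 5) (nat_lit 64) (nat_lit 5) (nat_lit 65) (nat_lit 5) (nat_lit 539) (nat_lit 439) (nat_lit 222)) (XT.lf (nat_lit 0) (nat_lit 56958306304) (nat_lit 228) (nat_lit 18139695616) (nat_lit 76) (nat_lit 5165719460) (nat_lit 62) (nat_lit 5) (nat_lit 65) (nat_lit 5) (nat_lit 63) (nat_lit 4) (nat_lit 540) (nat_lit 439) (nat_lit 221))) (XT.nd (nat_lit 78) (nat_lit 76) (nat_lit 0) (XT.lf (nat_lit 0) (nat_lit 25736352893) (nat_lit 76) (nat_lit 52838827491) (nat_lit 152) (nat_lit 3380948391) (nat_lit 61) (nat_lit 5) (nat_lit 62) (nat_lit 5) (nat_lit 63) (nat_lit 4) (nat_lit 541) (nat_lit 439) (nat_lit 220)) (XT.lf (nat_lit 0) (nat_lit 16989544903) (nat_lit 152)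 (nat_lit 12563986932) (nat_lit 76) (nat_lit 54135350089) (nat_lit 60) (nat_lit 5) (nat_lit 62) (nat_lit 5) (nat_lit 61) (nat_lit 5) (nat_lit 542) (nat_lit 439) (nat_lit 219))))) (XT.nd (nat_lit 312) (nat_lit 152) (nat_lit 0) (XT.nd (nat_lit 156) (nat_lit 152) (nat_lit 0) (XT.nd (nat_lit 78) (nat_lit 0) (nat_lit 0) (XT.lf (nat_lit 0) (nat_lit 33008111180) (nat_lit 152) (nat_lit 5210237797) (nat_lit 228) (nat_lit 47244810060) (nat_lit 58) (nat_lit 5) (nat_lit 60) (nat_lit 5) (nat_lit 61) (nat_lit 5) (nat_lit 543) (nat_lit 439) (nat_lit 218)) (XT.lf (nat_lit 0) (nat_lit 60400945973) (nat_lit 228) (nat_lit 7278135298) (nat_lit 76) (nat_lit 19602075429) (nat_lit 58) (nat_lit 5) (nat_lit 61) (nat_lit 5) (nat_lit 59) (nat_lit 4) (nat_lit 544) (nat_lit 439) (nat_lit 217))) (XT.nd (nat_lit 78) (nat_lit 76) (nat_lit 0) (XT.lf (nat_lit 0) (nat_lit 39978740200) (nat_lit 76) (nat_lit 43704091852) (nat_lit 152) (nat_lit 5457848002)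 (nat_lit 57) (nat_lit 5) (nat_lit 58) (nat_lit 5) (nat_lit 59) (nat_lit 4) (nat_lit 545) (nat_lit 439) (nat_lit 216)) (XT.lf (nat_lit 0) (nat_lit 16355269760) (nat_lit 152) (nat_lit 2415524130) (nat_lit 76) (nat_lit 72278241650) (nat_lit 56) (nat_lit 5) (nat_lit 58) (nat_lit 5) (nat_lit 57) (nat_lit 5) (nat_lit 546) (nat_lit 439) (nat_lit 215)))) (XT.nd (nat_lit 54210) (nat_lit 0) (nat_lit 18012) (XT.nd (nat_lit 54132) (nat_lit 0) (nat_lit 18012) (XT.lf (nat_lit 0) (nat_lit 39230250084) (nat_lit 228) (nat_lit 46486526436) (nat_lit 76) (nat_lit 7280729126) (nat_lit 54) (nat_lit 5) (nat_lit 57) (nat_lit 5) (nat_lit 55) (nat_lit 4) (nat_lit 547) (nat_lit 439) (nat_lit 214)) (XT.lf (nat_lit 0) (nat_lit 2625400225) (nat_lit 0) (nat_lit 2625400225) (nat_lit 1140) (nat_lit 1504808597) (nat_lit 291) (nat_lit 5) (nat_lit 291) (nat_lit 3) (nat_lit 306) (nat_lit 3) (nat_lit 440) (nat_lit 440) (nat_lit 320))) (XT.nd (nat_lit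 78) (nat_lit 0) (nat_lit 0) (XT.lf (nat_lit 0) (nat_lit 11033991132) (nat_lit 1140) (nat_lit 1645280075) (nat_lit 1216) (nat_lit 1023280863) (nat_lit 291) (nat_lit 5) (nat_lit 306) (nat_lit 3) (nat_lit 307) (nat_lit 5) (nat_lit 441) (nat_lit 440) (nat_lit 319)) (XT.lf (nat_lit 76) (nat_lit 5210378489) (nat_lit 0) (nat_lit 6459878029) (nat_lit 1216) (nat_lit 2226735887) (nat_lit 292) (nat_lit 5) (nat_lit 291) (nat_lit 5) (nat_lit 307) (nat_lit 5) (nat_lit 442) (nat_lit 440) (nat_lit 318))))))))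
noncomputable def xc183 : XT := (XT.nd (nat_lit 2340) (nat_lit 6536) (nat_lit 0) (XT.nd (nat_lit 1170) (nat_lit 4712) (nat_lit 0) (XT.nd (nat_lit 546) (nat_lit 836) (nat_lit 0) (XT.nd (nat_lit 234) (nat_lit 1064) (nat_lit 0) (XT.nd (nat_lit 78) (nat_lit 0) (nat_lit 76) (XT.lf (nat_lit 76) (nat_lit 12297889868) (nat_lit 0) (nat_lit 30504288) (nat_lit 1216) (nat_lit 1768791612) (nat_lit 292) (nat_lit 5) (nat_lit 291) (nat_lit 5) (nat_lit 307) (nat_lit 5) (nat_lit 443) (nat_lit 440) (nat_lit 317)) (XT.nd (nat_lit 78) (nat_lit 0) (nat_lit 0) (XT.lf (nat_lit 76) (nat_lit 5327446808) (nat_lit 0) (nat_lit 7780035397) (nat_lit 1216) (nat_lit 1192869787) (nat_lit 293) (nat_lit 5) (nat_lit 292) (nat_lit 5) (nat_lit 308) (nat_lit 5) (nat_lit 444) (nat_lit 440) (nat_lit 316)) (XT.lf (nat_lit 76) (nat_lit 12696855343) (nat_lit 0) (nat_lit 1218502873) (nat_lit 1216) (nat_lit 594095681) (nat_lit 293) (nat_lit 5) (nat_lit 292)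 (nat_lit 5) (nat_lit 308) (nat_lit 5) (nat_lit 445) (nat_lit 440) (nat_lit 315)))) (XT.nd (nat_lit 156) (nat_lit 0) (nat_lit 76) (XT.nd (nat_lit 78) (nat_lit 0) (nat_lit 0) (XT.lf (nat_lit 0) (nat_lit 117697454) (nat_lit 1216) (nat_lit 9112317448) (nat_lit 1292) (nat_lit 5491945473) (nat_lit 277) (nat_lit 5) (nat_lit 293) (nat_lit 5) (nat_lit 294) (nat_lit 5) (nat_lit 446) (nat_lit 440) (nat_lit 314)) (XT.lf (nat_lit 0) (nat_lit 856997148) (nat_lit 1216) (nat_lit 1674806351) (nat_lit 1292) (nat_lit 12408322165) (nat_lit 277) (nat_lit 5) (nat_lit 293) (nat_lit 5) (nat_lit 294) (nat_lit 5) (nat_lit 447) (nat_lit 440) (nat_lit 313))) (XT.nd (nat_lit 78) (nat_lit 0) (nat_lit 0) (XT.lf (nat_lit 0) (nat_lit 1707593054) (nat_lit 1216) (nat_lit 9109100573) (nat_lit 1292) (nat_lit 4345471571) (nat_lit 278) (nat_lit 5) (nat_lit 294) (nat_lit 5) (nat_lit 295) (nat_lit 5) (nat_lit 448) (nat_lit 440) (nat_lit 312)) (XT.lf (nat_lit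 0) (nat_lit 2614077105) (nat_lit 1216) (nat_lit 1376666745) (nat_lit 1292) (nat_lit 11399213680) (nat_lit 278) (nat_lit 5) (nat_lit 294) (nat_lit 5) (nat_lit 295) (nat_lit 5) (nat_lit 449) (nat_lit 440) (nat_lit 311))))) (XT.nd (nat_lit 312) (nat_lit 988) (nat_lit 0) (XT.nd (nat_lit 156) (nat_lit 0) (nat_lit 76) (XT.nd (nat_lit 78) (nat_lit 0) (nat_lit 0) (XT.lf (nat_lit 0) (nat_lit 3630724223) (nat_lit 1216) (nat_lit 8942136327) (nat_lit 1292) (nat_lit 3049236667) (nat_lit 279) (nat_lit 5) (nat_lit 295) (nat_lit 5) (nat_lit 296) (nat_lit 5) (nat_lit 450) (nat_lit 440) (nat_lit 310)) (XT.lf (nat_lit 0) (nat_lit 4720277885) (nat_lit 1216) (nat_lit 902157059) (nat_lit 1292) (nat_lit 10237496503) (nat_lit 279) (nat_lit 5) (nat_lit 295) (nat_lit 5) (nat_lit 296) (nat_lit 5) (nat_lit 451) (nat_lit 440) (nat_lit 309))) (XT.nd (nat_lit 78) (nat_lit 0) (nat_lit 0) (XT.lf (nat_lit 0) (nat_lit 5919475796) (nat_lit 1216)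 (nat_lit 8600843790) (nat_lit 1292) (nat_lit 1582274875) (nat_lit 280) (nat_lit 5) (nat_lit 296) (nat_lit 5) (nat_lit 297) (nat_lit 5) (nat_lit 452) (nat_lit 440) (nat_lit 308)) (XT.lf (nat_lit 0) (nat_lit 7208962397) (nat_lit 1216) (nat_lit 240011116) (nat_lit 1292) (nat_lit 8901936890) (nat_lit 280) (nat_lit 5) (nat_lit 296) (nat_lit 5) (nat_lit 297) (nat_lit 5) (nat_lit 453) (nat_lit 440) (nat_lit 307)))) (XT.nd (nat_lit 156) (nat_lit 1064) (nat_lit 0) (XT.nd (nat_lit 78) (nat_lit 0) (nat_lit 76) (XT.lf (nat_lit 76) (nat_lit 8530081533) (nat_lit 0) (nat_lit 78800719) (nat_lit 1292) (nat_lit 7995643459) (nat_lit 281) (nat_lit 5) (nat_lit 280) (nat_lit 5) (nat_lit 297) (nat_lit 5) (nat_lit 454) (nat_lit 440) (nat_lit 306)) (XT.lf (nat_lit 76) (nat_lit 634398955) (nat_lit 0) (nat_lit 9487155658) (nat_lit 1292) (nat_lit 6742074495) (nat_lit 282) (nat_lit 5) (nat_lit 281) (nat_lit 5) (nat_lit 298) (nat_lit 5) (nat_lit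 455) (nat_lit 440) (nat_lit 305))) (XT.nd (nat_lit 78) (nat_lit 1140) (nat_lit 0) (XT.lf (nat_lit 76) (nat_lit 9761048724) (nat_lit 0) (nat_lit 1991074325) (nat_lit 1292) (nat_lit 5376209293) (nat_lit 282) (nat_lit 5) (nat_lit 281) (nat_lit 5) (nat_lit 298) (nat_lit 5) (nat_lit 456) (nat_lit 440) (nat_lit 304)) (XT.lf (nat_lit 0) (nat_lit 1730974410) (nat_lit 1216) (nat_lit 11762860075) (nat_lit 1292) (nat_lit 3905277559) (nat_lit 266) (nat_lit 5) (nat_lit 282) (nat_lit 5) (nat_lit 283) (nat_lit 5) (nat_lit 457) (nat_lit 440) (nat_lit 303)))))) (XT.nd (nat_lit 546) (nat_lit 2660) (nat_lit 0) (XT.nd (nat_lit 234) (nat_lit 1216) (nat_lit 0) (XT.nd (nat_lit 78) (nat_lit 836) (nat_lit 0) (XT.lf (nat_lit 0) (nat_lit 11224931918) (nat_lit 1216) (nat_lit 4147486357) (nat_lit 1292) (nat_lit 2303060315) (nat_lit 266) (nat_lit 5) (nat_lit 282) (nat_lit 5) (nat_lit 283) (nat_lit 5) (nat_lit 458) (nat_lit 440) (nat_lit 302))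 (XT.nd (nat_lit 78) (nat_lit 76) (nat_lit 0) (XT.lf (nat_lit 0) (nat_lit 3059533071) (nat_lit 760) (nat_lit 14303754990) (nat_lit 836) (nat_lit 595172242) (nat_lit 256) (nat_lit 5) (nat_lit 266) (nat_lit 5) (nat_lit 267) (nat_lit 5) (nat_lit 459) (nat_lit 440) (nat_lit 301)) (XT.lf (nat_lit 0) (nat_lit 1239168439) (nat_lit 836) (nat_lit 5322038815) (nat_lit 76) (nat_lit 11685452597) (nat_lit 255) (nat_lit 5) (nat_lit 266) (nat_lit 5) (nat_lit 256) (nat_lit 5) (nat_lit 460) (nat_lit 440) (nat_lit 300)))) (XT.nd (nat_lit 156) (nat_lit 608) (nat_lit 0) (XT.nd (nat_lit 78) (nat_lit 0) (nat_lit 0) (XT.lf (nat_lit 0) (nat_lit 3166404782) (nat_lit 684) (nat_lit 13938033856) (nat_lit 76) (nat_lit 1437396982) (nat_lit 247) (nat_lit 5) (nat_lit 256) (nat_lit 5) (nat_lit 248) (nat_lit 5) (nat_lit 461) (nat_lit 440) (nat_lit 299)) (XT.lf (nat_lit 0) (nat_lit 5262216686) (nat_lit 684) (nat_lit 3981483565) (nat_lit 76) (nat_lit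 9598845456) (nat_lit 247) (nat_lit 5) (nat_lit 256) (nat_lit 5) (nat_lit 248) (nat_lit 5) (nat_lit 462) (nat_lit 440) (nat_lit 298))) (XT.nd (nat_lit 78) (nat_lit 0) (nat_lit 0) (XT.lf (nat_lit 0) (nat_lit 6390455535) (nat_lit 608) (nat_lit 1083645083) (nat_lit 684) (nat_lit 11676582294) (nat_lit 239) (nat_lit 5) (nat_lit 247) (nat_lit 5) (nat_lit 248) (nat_lit 5) (nat_lit 463) (nat_lit 440) (nat_lit 297)) (XT.lf (nat_lit 0) (nat_lit 9855253830) (nat_lit 684) (nat_lit 2390637840) (nat_lit 76) (nat_lit 7219086875) (nat_lit 239) (nat_lit 5) (nat_lit 248) (nat_lit 5) (nat_lit 240) (nat_lit 5) (nat_lit 464) (nat_lit 440) (nat_lit 296))))) (XT.nd (nat_lit 312) (nat_lit 988) (nat_lit 0) (XT.nd (nat_lit 156) (nat_lit 1140) (nat_lit 0) (XT.nd (nat_lit 78) (nat_lit 0) (nat_lit 0) (XT.lf (nat_lit 0) (nat_lit 8435989835) (nat_lit 532) (nat_lit 3955841350) (nat_lit 608) (nat_lit 7394353824) (nat_lit 232) (nat_lit 5) (nat_lit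 239) (nat_lit 5) (nat_lit 240) (nat_lit 5) (nat_lit 465) (nat_lit 440) (nat_lit 295)) (XT.lf (nat_lit 0) (nat_lit 15065258688) (nat_lit 608) (nat_lit 532263483) (nat_lit 76) (nat_lit 4517684507) (nat_lit 232) (nat_lit 5) (nat_lit 240) (nat_lit 5) (nat_lit 233) (nat_lit 5) (nat_lit 466) (nat_lit 440) (nat_lit 294))) (XT.nd (nat_lit 78) (nat_lit 608) (nat_lit 0) (XT.lf (nat_lit 0) (nat_lit 10773413774) (nat_lit 532) (nat_lit 7180745656) (nat_lit 608) (nat_lit 2495883007) (nat_lit 225) (nat_lit 5) (nat_lit 232) (nat_lit 5) (nat_lit 233) (nat_lit 5) (nat_lit 467) (nat_lit 440) (nat_lit 293)) (XT.lf (nat_lit 0) (nat_lit 160673582) (nat_lit 608) (nat_lit 19151515246) (nat_lit 76) (nat_lit 1481842026) (nat_lit 217) (nat_lit 5) (nat_lit 225) (nat_lit 5) (nat_lit 218) (nat_lit 5) (nat_lit 468) (nat_lit 440) (nat_lit 292)))) (XT.nd (nat_lit 156) (nat_lit 456) (nat_lit 0) (XT.nd (nat_lit 78) (nat_lit 532) (nat_lit 0) (XT.lf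 (nat_lit 0) (nat_lit 3009286605) (nat_lit 608) (nat_lit 7750648219) (nat_lit 76) (nat_lit 10382788430) (nat_lit 217) (nat_lit 5) (nat_lit 225) (nat_lit 5) (nat_lit 218) (nat_lit 5) (nat_lit 469) (nat_lit 440) (nat_lit 291)) (XT.lf (nat_lit 0) (nat_lit 4063716665) (nat_lit 532) (nat_lit 1911661150) (nat_lit 608) (nat_lit 15525539398) (nat_lit 210) (nat_lit 5) (nat_lit 217) (nat_lit 5) (nat_lit 218) (nat_lit 5) (nat_lit 470) (nat_lit 440) (nat_lit 290))) (XT.nd (nat_lit 78) (nat_lit 456) (nat_lit 0) (XT.lf (nat_lit 0) (nat_lit 9171803110) (nat_lit 608) (nat_lit 5554071187) (nat_lit 76) (nat_lit 7139743490) (nat_lit 210) (nat_lit 5) (nat_lit 218) (nat_lit 5) (nat_lit 211) (nat_lit 5) (nat_lit 471) (nat_lit 440) (nat_lit 289)) (XT.lf (nat_lit 0) (nat_lit 6791431712) (nat_lit 456) (nat_lit 5750181226) (nat_lit 532) (nat_lit 9697322986) (nat_lit 204) (nat_lit 5) (nat_lit 210) (nat_lit 5) (nat_lit 211) (nat_lit 5) (nat_lit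 472) (nat_lit 440) (nat_lit 288))))))) (XT.nd (nat_lit 1170) (nat_lit 3116) (nat_lit 0) (XT.nd (nat_lit 546) (nat_lit 1596) (nat_lit 0) (XT.nd (nat_lit 234) (nat_lit 1292) (nat_lit 0) (XT.nd (nat_lit 78) (nat_lit 532) (nat_lit 0) (XT.lf (nat_lit 0) (nat_lit 16096144797) (nat_lit 532) (nat_lit 3042599362) (nat_lit 76) (nat_lit 3482201876) (nat_lit 204) (nat_lit 5) (nat_lit 211) (nat_lit 5) (nat_lit 205) (nat_lit 5) (nat_lit 473) (nat_lit 440) (nat_lit 287)) (XT.nd (nat_lit 78) (nat_lit 76) (nat_lit 0) (XT.lf (nat_lit 0) (nat_lit 9862366816) (nat_lit 456) (nat_lit 10040267035) (nat_lit 532) (nat_lit 3107424185) (nat_lit 198) (nat_lit 5) (nat_lit 204) (nat_lit 5) (nat_lit 205) (nat_lit 5) (nat_lit 474) (nat_lit 440) (nat_lit 286)) (XT.lf (nat_lit 0) (nat_lit 429090369) (nat_lit 532) (nat_lit 204995425) (nat_lit 76) (nat_lit 22775899860) (nat_lit 197) (nat_lit 5) (nat_lit 204) (nat_lit 5) (nat_lit 198) (nat_lit 5)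 (nat_lit 475) (nat_lit 440) (nat_lit 285)))) (XT.nd (nat_lit 156) (nat_lit 380) (nat_lit 0) (XT.nd (nat_lit 78) (nat_lit 456) (nat_lit 0) (XT.lf (nat_lit 0) (nat_lit 4219975938) (nat_lit 532) (nat_lit 10557670164) (nat_lit 76) (nat_lit 9037021169) (nat_lit 191) (nat_lit 5) (nat_lit 198) (nat_lit 5) (nat_lit 192) (nat_lit 5) (nat_lit 476) (nat_lit 440) (nat_lit 284)) (XT.lf (nat_lit 0) (nat_lit 2939147444) (nat_lit 456) (nat_lit 5215980806) (nat_lit 532) (nat_lit 16075445970) (nat_lit 185) (nat_lit 5) (nat_lit 191) (nat_lit 5) (nat_lit 192) (nat_lit 5) (nat_lit 477) (nat_lit 440) (nat_lit 283))) (XT.nd (nat_lit 78) (nat_lit 380) (nat_lit 0) (XT.lf (nat_lit 0) (nat_lit 12354543076) (nat_lit 532) (nat_lit 7651678841) (nat_lit 76) (nat_lit 4648351277) (nat_lit 185) (nat_lit 5) (nat_lit 192) (nat_lit 5) (nat_lit 186) (nat_lit 5) (nat_lit 478) (nat_lit 440) (nat_lit 282)) (XT.lf (nat_lit 0) (nat_lit 6464359176) (nat_lit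 380) (nat_lit 10323548249) (nat_lit 456) (nat_lit 8300146728) (nat_lit 180) (nat_lit 5) (nat_lit 185) (nat_lit 5) (nat_lit 186) (nat_lit 5) (nat_lit 479) (nat_lit 440) (nat_lit 281))))) (XT.nd (nat_lit 312) (nat_lit 760) (nat_lit 0) (XT.nd (nat_lit 156) (nat_lit 380) (nat_lit 0) (XT.nd (nat_lit 78) (nat_lit 456) (nat_lit 0) (XT.lf (nat_lit 0) (nat_lit 21153400907) (nat_lit 380) (nat_lit 272422015) (nat_lit 456) (nat_lit 4106571107) (nat_lit 180) (nat_lit 5) (nat_lit 185) (nat_lit 5) (nat_lit 186) (nat_lit 5) (nat_lit 480) (nat_lit 440) (nat_lit 280)) (XT.lf (nat_lit 0) (nat_lit 401774563) (nat_lit 456) (nat_lit 15596604489) (nat_lit 76) (nat_lit 9985831153) (nat_lit 174) (nat_lit 5) (nat_lit 180) (nat_lit 5) (nat_lit 175) (nat_lit 5) (nat_lit 481) (nat_lit 440) (nat_lit 279))) (XT.nd (nat_lit 78) (nat_lit 380) (nat_lit 0) (XT.lf (nat_lit 0) (nat_lit 5004659429) (nat_lit 456) (nat_lit 812388836) (nat_lit 76) (nat_lit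 20630058933) (nat_lit 174) (nat_lit 5) (nat_lit 180) (nat_lit 5) (nat_lit 175) (nat_lit 5) (nat_lit 482) (nat_lit 440) (nat_lit 278)) (XT.lf (nat_lit 0) (nat_lit 9927792001) (nat_lit 456) (nat_lit 12271074684) (nat_lit 76) (nat_lit 4719560467) (nat_lit 169) (nat_lit 5) (nat_lit 175) (nat_lit 5) (nat_lit 170) (nat_lit 5) (nat_lit 483) (nat_lit 440) (nat_lit 277)))) (XT.nd (nat_lit 156) (nat_lit 380) (nat_lit 0) (XT.nd (nat_lit 78) (nat_lit 0) (nat_lit 0) (XT.lf (nat_lit 0) (nat_lit 3181130208) (nat_lit 380) (nat_lit 11908652102) (nat_lit 456) (nat_lit 12311370340) (nat_lit 164) (nat_lit 5) (nat_lit 169) (nat_lit 5) (nat_lit 170) (nat_lit 5) (nat_lit 484) (nat_lit 440) (nat_lit 276)) (XT.lf (nat_lit 0) (nat_lit 19341348594) (nat_lit 380) (nat_lit 1183989006) (nat_lit 456) (nat_lit 7369461990) (nat_lit 164) (nat_lit 5) (nat_lit 169) (nat_lit 5) (nat_lit 170) (nat_lit 5) (nat_lit 485) (nat_lit 440) (nat_lit 275)))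 (XT.nd (nat_lit 78) (nat_lit 76) (nat_lit 0) (XT.lf (nat_lit 0) (nat_lit 7630180530) (nat_lit 304) (nat_lit 18656854090) (nat_lit 380) (nat_lit 2111329875) (nat_lit 160) (nat_lit 5) (nat_lit 164) (nat_lit 5) (nat_lit 165) (nat_lit 5) (nat_lit 486) (nat_lit 440) (nat_lit 274)) (XT.lf (nat_lit 0) (nat_lit 3333969795) (nat_lit 380) (nat_lit 4491188029) (nat_lit 76) (nat_lit 21088109111) (nat_lit 159) (nat_lit 5) (nat_lit 164) (nat_lit 5) (nat_lit 160) (nat_lit 5) (nat_lit 487) (nat_lit 440) (nat_lit 273)))))) (XT.nd (nat_lit 624) (nat_lit 1444) (nat_lit 0) (XT.nd (nat_lit 312) (nat_lit 684) (nat_lit 0) (XT.nd (nat_lit 156) (nat_lit 608) (nat_lit 0) (XT.nd (nat_lit 78) (nat_lit 0) (nat_lit 0) (XT.lf (nat_lit 0) (nat_lit 9048759573) (nat_lit 456) (nat_lit 16982848692) (nat_lit 76) (nat_lit 3406924793) (nat_lit 154) (nat_lit 5) (nat_lit 160) (nat_lit 5) (nat_lit 155) (nat_lit 5) (nat_lit 488) (nat_lit 440) (nat_lit 272))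 (XT.lf (nat_lit 0) (nat_lit 15053432754) (nat_lit 456) (nat_lit 60006278) (nat_lit 76) (nat_lit 14862565663) (nat_lit 154) (nat_lit 5) (nat_lit 160) (nat_lit 5) (nat_lit 155) (nat_lit 5) (nat_lit 489) (nat_lit 440) (nat_lit 271))) (XT.nd (nat_lit 78) (nat_lit 304) (nat_lit 0) (XT.lf (nat_lit 0) (nat_lit 17709384883) (nat_lit 304) (nat_lit 3694397284) (nat_lit 380) (nat_lit 9120852930) (nat_lit 150) (nat_lit 5) (nat_lit 154) (nat_lit 5) (nat_lit 155) (nat_lit 5) (nat_lit 490) (nat_lit 440) (nat_lit 270)) (XT.lf (nat_lit 0) (nat_lit 4935370850) (nat_lit 304) (nat_lit 23130228097) (nat_lit 380) (nat_lit 3020497436) (nat_lit 146) (nat_lit 5) (nat_lit 150) (nat_lit 5) (nat_lit 151) (nat_lit 5) (nat_lit 491) (nat_lit 440) (nat_lit 269)))) (XT.nd (nat_lit 156) (nat_lit 304) (nat_lit 0) (XT.nd (nat_lit 78) (nat_lit 304) (nat_lit 0) (XT.lf (nat_lit 0) (nat_lit 3361847838) (nat_lit 380) (nat_lit 8255323646) (nat_lit 76)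 (nat_lit 20041410240) (nat_lit 145) (nat_lit 5) (nat_lit 150) (nat_lit 5) (nat_lit 146) (nat_lit 5) (nat_lit 492) (nat_lit 440) (nat_lit 268)) (XT.lf (nat_lit 0) (nat_lit 9973465603) (nat_lit 380) (nat_lit 21905820583) (nat_lit 76) (nat_lit 365103547) (nat_lit 141) (nat_lit 5) (nat_lit 146) (nat_lit 5) (nat_lit 142) (nat_lit 5) (nat_lit 493) (nat_lit 440) (nat_lit 267))) (XT.nd (nat_lit 78) (nat_lit 304) (nat_lit 0) (XT.lf (nat_lit 0) (nat_lit 16978204515) (nat_lit 380) (nat_lit 3308254433) (nat_lit 76) (nat_lit 12555470458) (nat_lit 141) (nat_lit 5) (nat_lit 146) (nat_lit 5) (nat_lit 142) (nat_lit 5) (nat_lit 494) (nat_lit 440) (nat_lit 266)) (XT.lf (nat_lit 0) (nat_lit 16156053706) (nat_lit 304) (nat_lit 8188026148) (nat_lit 380) (nat_lit 9108786173) (nat_lit 137) (nat_lit 5) (nat_lit 141) (nat_lit 5) (nat_lit 142) (nat_lit 5) (nat_lit 495) (nat_lit 440) (nat_lit 265))))) (XT.nd (nat_lit 312) (nat_lit 836) (nat_lit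 0) (XT.nd (nat_lit 156) (nat_lit 304) (nat_lit 0) (XT.nd (nat_lit 78) (nat_lit 76) (nat_lit 0) (XT.lf (nat_lit 0) (nat_lit 2185729189) (nat_lit 228) (nat_lit 29836764521) (nat_lit 304) (nat_lit 2056890737) (nat_lit 134) (nat_lit 5) (nat_lit 137) (nat_lit 5) (nat_lit 138) (nat_lit 5) (nat_lit 496) (nat_lit 440) (nat_lit 264)) (XT.lf (nat_lit 0) (nat_lit 5358181754) (nat_lit 304) (nat_lit 12251504652) (nat_lit 76) (nat_lit 17105914521) (nat_lit 133) (nat_lit 5) (nat_lit 137) (nat_lit 5) (nat_lit 134) (nat_lit 5) (nat_lit 497) (nat_lit 440) (nat_lit 263))) (XT.nd (nat_lit 78) (nat_lit 0) (nat_lit 0) (XT.lf (nat_lit 0) (nat_lit 8111506406) (nat_lit 304) (nat_lit 4916711079) (nat_lit 380) (nat_lit 22339860402) (nat_lit 129) (nat_lit 5) (nat_lit 133) (nat_lit 5) (nat_lit 134) (nat_lit 5) (nat_lit 498) (nat_lit 440) (nat_lit 262)) (XT.lf (nat_lit 0) (nat_lit 21127624392) (nat_lit 380) (nat_lit 6785864221) (nat_lit 76)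 (nat_lit 8120662944) (nat_lit 129) (nat_lit 5) (nat_lit 134) (nat_lit 5) (nat_lit 130) (nat_lit 5) (nat_lit 499) (nat_lit 440) (nat_lit 261)))) (XT.nd (nat_lit 156) (nat_lit 532) (nat_lit 0) (XT.nd (nat_lit 78) (nat_lit 76) (nat_lit 0) (XT.lf (nat_lit 0) (nat_lit 14527592238) (nat_lit 228) (nat_lit 15126786988) (nat_lit 304) (nat_lit 7060297730) (nat_lit 126) (nat_lit 5) (nat_lit 129) (nat_lit 5) (nat_lit 130) (nat_lit 5) (nat_lit 500) (nat_lit 440) (nat_lit 260)) (XT.lf (nat_lit 0) (nat_lit 1066646149) (nat_lit 304) (nat_lit 810698214) (nat_lit 76) (nat_lit 35536021974) (nat_lit 125) (nat_lit 5) (nat_lit 129) (nat_lit 5) (nat_lit 126) (nat_lit 5) (nat_lit 501) (nat_lit 440) (nat_lit 259))) (XT.nd (nat_lit 78) (nat_lit 228) (nat_lit 0) (XT.lf (nat_lit 0) (nat_lit 9614689004) (nat_lit 380) (nat_lit 16689068146) (nat_lit 76) (nat_lit 11817586711) (nat_lit 121) (nat_lit 5) (nat_lit 126) (nat_lit 5) (nat_lit 122) (nat_lit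 5) (nat_lit 502) (nat_lit 440) (nat_lit 258)) (XT.lf (nat_lit 0) (nat_lit 5593269374) (nat_lit 228) (nat_lit 12902727825) (nat_lit 304) (nat_lit 20352259224) (nat_lit 118) (nat_lit 5) (nat_lit 121) (nat_lit 5) (nat_lit 122) (nat_lit 5) (nat_lit 503) (nat_lit 440) (nat_lit 257))))))))
noncomputable def xc184 : XT := (XT.nd (nat_lit 2340) (nat_lit 1140) (nat_lit 0) (XT.nd (nat_lit 1170) (nat_lit 1672) (nat_lit 0) (XT.nd (nat_lit 546) (nat_lit 912) (nat_lit 0) (XT.nd (nat_lit 234) (nat_lit 684) (nat_lit 0) (XT.nd (nat_lit 78) (nat_lit 304) (nat_lit 0) (XT.lf (nat_lit 0) (nat_lit 27818829104) (nat_lit 304) (nat_lit 10722138078) (nat_lit 76) (nat_lit 1050757070) (nat_lit 118) (nat_lit 5) (nat_lit 122) (nat_lit 5) (nat_lit 119) (nat_lit 5) (nat_lit 504) (nat_lit 440) (nat_lit 256)) (XT.nd (nat_lit 78) (nat_lit 76) (nat_lit 0) (XT.lf (nat_lit 0) (nat_lit 12598892521) (nat_lit 228) (nat_lit 25067655632) (nat_lit 304) (nat_lit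 2683592307) (nat_lit 115) (nat_lit 5) (nat_lit 118) (nat_lit 5) (nat_lit 119) (nat_lit 5) (nat_lit 505) (nat_lit 440) (nat_lit 255)) (XT.lf (nat_lit 0) (nat_lit 6653773102) (nat_lit 304) (nat_lit 4359901206) (nat_lit 76) (nat_lit 30112538243) (nat_lit 114) (nat_lit 5) (nat_lit 118) (nat_lit 5) (nat_lit 115) (nat_lit 5) (nat_lit 506) (nat_lit 440) (nat_lit 254)))) (XT.nd (nat_lit 156) (nat_lit 228) (nat_lit 0) (XT.nd (nat_lit 78) (nat_lit 228) (nat_lit 0) (XT.lf (nat_lit 0) (nat_lit 16442364422) (nat_lit 304) (nat_lit 21861558862) (nat_lit 76) (nat_lit 3614095513) (nat_lit 111) (nat_lit 5) (nat_lit 115) (nat_lit 5) (nat_lit 112) (nat_lit 5) (nat_lit 507) (nat_lit 440) (nat_lit 253)) (XT.lf (nat_lit 0) (nat_lit 2495874596) (nat_lit 228) (nat_lit 24202730914) (nat_lit 304) (nat_lit 16029754325) (nat_lit 108) (nat_lit 5) (nat_lit 111) (nat_lit 5) (nat_lit 112) (nat_lit 5) (nat_lit 508) (nat_lit 440) (nat_lit 252)))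 (XT.nd (nat_lit 78) (nat_lit 228) (nat_lit 0) (XT.lf (nat_lit 0) (nat_lit 28026454296) (nat_lit 228) (nat_lit 9453377163) (nat_lit 304) (nat_lit 6076661071) (nat_lit 108) (nat_lit 5) (nat_lit 111) (nat_lit 5) (nat_lit 112) (nat_lit 5) (nat_lit 509) (nat_lit 440) (nat_lit 251)) (XT.lf (nat_lit 0) (nat_lit 4243398993) (nat_lit 228) (nat_lit 34397842650) (nat_lit 76) (nat_lit 5762528595) (nat_lit 105) (nat_lit 5) (nat_lit 108) (nat_lit 5) (nat_lit 106) (nat_lit 5) (nat_lit 510) (nat_lit 440) (nat_lit 250))))) (XT.nd (nat_lit 312) (nat_lit 456) (nat_lit 0) (XT.nd (nat_lit 156) (nat_lit 228) (nat_lit 0) (XT.nd (nat_lit 78) (nat_lit 228) (nat_lit 0) (XT.lf (nat_lit 0) (nat_lit 14999529458) (nat_lit 228) (nat_lit 8806397156) (nat_lit 76) (nat_lit 21461276935) (nat_lit 105) (nat_lit 5) (nat_lit 108) (nat_lit 5) (nat_lit 106) (nat_lit 5) (nat_lit 511) (nat_lit 440) (nat_lit 249)) (XT.lf (nat_lit 0) (nat_lit 17896538943)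 (nat_lit 228) (nat_lit 8350565564) (nat_lit 304) (nat_lit 19904372845) (nat_lit 102) (nat_lit 5) (nat_lit 105) (nat_lit 5) (nat_lit 106) (nat_lit 5) (nat_lit 512) (nat_lit 440) (nat_lit 248))) (XT.nd (nat_lit 78) (nat_lit 228) (nat_lit 0) (XT.lf (nat_lit 0) (nat_lit 37991417480) (nat_lit 304) (nat_lit 1557660051) (nat_lit 76) (nat_lit 7508422825) (nat_lit 102) (nat_lit 5) (nat_lit 106) (nat_lit 5) (nat_lit 103) (nat_lit 5) (nat_lit 513) (nat_lit 440) (nat_lit 247)) (XT.lf (nat_lit 0) (nat_lit 2392705159) (nat_lit 228) (nat_lit 21637140087) (nat_lit 76) (nat_lit 23950165969) (nat_lit 99) (nat_lit 5) (nat_lit 102) (nat_lit 5) (nat_lit 100) (nat_lit 5) (nat_lit 514) (nat_lit 440) (nat_lit 246)))) (XT.nd (nat_lit 156) (nat_lit 228) (nat_lit 0) (XT.nd (nat_lit 78) (nat_lit 0) (nat_lit 0) (XT.lf (nat_lit 0) (nat_lit 6208503232) (nat_lit 228) (nat_lit 7876954121) (nat_lit 304) (nat_lit 34839874837) (nat_lit 96) (nat_lit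 5) (nat_lit 99) (nat_lit 5) (nat_lit 100) (nat_lit 5) (nat_lit 515) (nat_lit 440) (nat_lit 245)) (XT.lf (nat_lit 0) (nat_lit 26430734013) (nat_lit 304) (nat_lit 14651147983) (nat_lit 76) (nat_lit 8808078812) (nat_lit 96) (nat_lit 5) (nat_lit 100) (nat_lit 5) (nat_lit 97) (nat_lit 5) (nat_lit 516) (nat_lit 440) (nat_lit 244))) (XT.nd (nat_lit 78) (nat_lit 76) (nat_lit 0) (XT.lf (nat_lit 0) (nat_lit 14455375488) (nat_lit 152) (nat_lit 24904902482) (nat_lit 228) (nat_lit 11516833307) (nat_lit 94) (nat_lit 5) (nat_lit 96) (nat_lit 5) (nat_lit 97) (nat_lit 5) (nat_lit 517) (nat_lit 440) (nat_lit 243)) (XT.lf (nat_lit 0) (nat_lit 914923574) (nat_lit 228) (nat_lit 7168232566) (nat_lit 76) (nat_lit 43806102721) (nat_lit 93) (nat_lit 5) (nat_lit 96) (nat_lit 5) (nat_lit 94) (nat_lit 5) (nat_lit 518) (nat_lit 440) (nat_lit 242)))))) (XT.nd (nat_lit 546) (nat_lit 912) (nat_lit 0) (XT.nd (nat_lit 234) (nat_lit 380) (nat_lit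 0) (XT.nd (nat_lit 78) (nat_lit 152) (nat_lit 0) (XT.lf (nat_lit 0) (nat_lit 13801354796) (nat_lit 304) (nat_lit 29715485513) (nat_lit 76) (nat_lit 9402114004) (nat_lit 90) (nat_lit 5) (nat_lit 94) (nat_lit 5) (nat_lit 91) (nat_lit 5) (nat_lit 519) (nat_lit 440) (nat_lit 241)) (XT.nd (nat_lit 78) (nat_lit 0) (nat_lit 0) (XT.lf (nat_lit 0) (nat_lit 581402153) (nat_lit 152) (nat_lit 26648777915) (nat_lit 228) (nat_lit 26744686761) (nat_lit 88) (nat_lit 5) (nat_lit 90) (nat_lit 5) (nat_lit 91) (nat_lit 5) (nat_lit 520) (nat_lit 440) (nat_lit 240)) (XT.lf (nat_lit 0) (nat_lit 32391295628) (nat_lit 152) (nat_lit 8967758533) (nat_lit 228) (nat_lit 13694487267) (nat_lit 88) (nat_lit 5) (nat_lit 90) (nat_lit 5) (nat_lit 91) (nat_lit 5) (nat_lit 521) (nat_lit 440) (nat_lit 239)))) (XT.nd (nat_lit 156) (nat_lit 152) (nat_lit 0) (XT.nd (nat_lit 78) (nat_lit 76) (nat_lit 0) (XT.lf (nat_lit 0) (nat_lit 9074166822) (nat_lit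 152) (nat_lit 47010889926) (nat_lit 228) (nat_lit 74321867) (nat_lit 86) (nat_lit 5) (nat_lit 88) (nat_lit 5) (nat_lit 89) (nat_lit 5) (nat_lit 522) (nat_lit 440) (nat_lit 238)) (XT.lf (nat_lit 0) (nat_lit 13999233653) (nat_lit 228) (nat_lit 15294458197) (nat_lit 76) (nat_lit 27991162514) (nat_lit 85) (nat_lit 5) (nat_lit 88) (nat_lit 5) (nat_lit 86) (nat_lit 5) (nat_lit 523) (nat_lit 440) (nat_lit 237))) (XT.nd (nat_lit 78) (nat_lit 0) (nat_lit 0) (XT.lf (nat_lit 0) (nat_lit 17791641661) (nat_lit 152) (nat_lit 10870153448) (nat_lit 228) (nat_lit 29777228610) (nat_lit 83) (nat_lit 5) (nat_lit 85) (nat_lit 5) (nat_lit 86) (nat_lit 5) (nat_lit 524) (nat_lit 440) (nat_lit 236)) (XT.lf (nat_lit 0) (nat_lit 43995409954) (nat_lit 228) (nat_lit 7523622197) (nat_lit 76) (nat_lit 8101850904) (nat_lit 83) (nat_lit 5) (nat_lit 86) (nat_lit 5) (nat_lit 84) (nat_lit 5) (nat_lit 525) (nat_lit 440) (nat_lit 235))))) (XT.nd (nat_lit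 312) (nat_lit 380) (nat_lit 0) (XT.nd (nat_lit 156) (nat_lit 152) (nat_lit 0) (XT.nd (nat_lit 78) (nat_lit 228) (nat_lit 0) (XT.lf (nat_lit 0) (nat_lit 27008566960) (nat_lit 152) (nat_lit 33145076230) (nat_lit 228) (nat_lit 673616873) (nat_lit 81) (nat_lit 5) (nat_lit 83) (nat_lit 5) (nat_lit 84) (nat_lit 5) (nat_lit 526) (nat_lit 440) (nat_lit 234)) (XT.lf (nat_lit 0) (nat_lit 526662205) (nat_lit 152) (nat_lit 13991916657) (nat_lit 228) (nat_lit 47544628110) (nat_lit 78) (nat_lit 5) (nat_lit 80) (nat_lit 5) (nat_lit 81) (nat_lit 5) (nat_lit 527) (nat_lit 440) (nat_lit 233))) (XT.nd (nat_lit 78) (nat_lit 152) (nat_lit 0) (XT.lf (nat_lit 0) (nat_lit 30550401705) (nat_lit 228) (nat_lit 26800257623) (nat_lit 76) (nat_lit 5973451042) (nat_lit 78) (nat_lit 5) (nat_lit 81) (nat_lit 5) (nat_lit 79) (nat_lit 5) (nat_lit 528) (nat_lit 440) (nat_lit 232)) (XT.lf (nat_lit 0) (nat_lit 9010843991) (nat_lit 152) (nat_lit 38274943304)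 (nat_lit 228) (nat_lit 17330375503) (nat_lit 76) (nat_lit 5) (nat_lit 78) (nat_lit 5) (nat_lit 79) (nat_lit 5) (nat_lit 529) (nat_lit 440) (nat_lit 231)))) (XT.nd (nat_lit 156) (nat_lit 152) (nat_lit 0) (XT.nd (nat_lit 78) (nat_lit 228) (nat_lit 0) (XT.lf (nat_lit 0) (nat_lit 46441128171) (nat_lit 152) (nat_lit 18350223367) (nat_lit 228) (nat_lit 1147581911) (nat_lit 76) (nat_lit 5) (nat_lit 78) (nat_lit 5) (nat_lit 79) (nat_lit 5) (nat_lit 530) (nat_lit 440) (nat_lit 230)) (XT.lf (nat_lit 0) (nat_lit 15411362085) (nat_lit 228) (nat_lit 49427509574) (nat_lit 76) (nat_lit 2452233946) (nat_lit 73) (nat_lit 5) (nat_lit 76) (nat_lit 5) (nat_lit 74) (nat_lit 5) (nat_lit 531) (nat_lit 440) (nat_lit 229))) (XT.nd (nat_lit 78) (nat_lit 152) (nat_lit 0) (XT.lf (nat_lit 0) (nat_lit 32822079961) (nat_lit 228) (nat_lit 12131865371) (nat_lit 76) (nat_lit 23718214754) (nat_lit 73) (nat_lit 5) (nat_lit 76) (nat_lit 5) (nat_lit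 74) (nat_lit 5) (nat_lit 532) (nat_lit 440) (nat_lit 228)) (XT.lf (nat_lit 0) (nat_lit 26801310660) (nat_lit 152) (nat_lit 24209057202) (nat_lit 228) (nat_lit 19076621028) (nat_lit 71) (nat_lit 5) (nat_lit 73) (nat_lit 5) (nat_lit 74) (nat_lit 5) (nat_lit 533) (nat_lit 440) (nat_lit 227))))))) (XT.nd (nat_lit 55302) (nat_lit 0) (nat_lit 16720) (XT.nd (nat_lit 546) (nat_lit 456) (nat_lit 0) (XT.nd (nat_lit 234) (nat_lit 304) (nat_lit 0) (XT.nd (nat_lit 78) (nat_lit 380) (nat_lit 0) (XT.lf (nat_lit 0) (nat_lit 67146888146) (nat_lit 152) (nat_lit 2717570396) (nat_lit 228) (nat_lit 1676199536) (nat_lit 71) (nat_lit 5) (nat_lit 73) (nat_lit 5) (nat_lit 74) (nat_lit 5) (nat_lit 534) (nat_lit 440) (nat_lit 226)) (XT.nd (nat_lit 78) (nat_lit 152) (nat_lit 0) (XT.lf (nat_lit 0) (nat_lit 16466625864) (nat_lit 228) (nat_lit 37003387539) (nat_lit 76) (nat_lit 19547116595) (nat_lit 68) (nat_lit 5) (nat_lit 71) (nat_lit 5) (nat_lit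 69) (nat_lit 5) (nat_lit 535) (nat_lit 440) (nat_lit 225)) (XT.lf (nat_lit 0) (nat_lit 3201294359) (nat_lit 152) (nat_lit 32018939867) (nat_lit 228) (nat_lit 39314158452) (nat_lit 66) (nat_lit 5) (nat_lit 68) (nat_lit 5) (nat_lit 69) (nat_lit 5) (nat_lit 536) (nat_lit 440) (nat_lit 224)))) (XT.nd (nat_lit 156) (nat_lit 228) (nat_lit 0) (XT.nd (nat_lit 78) (nat_lit 76) (nat_lit 0) (XT.lf (nat_lit 0) (nat_lit 45366475573) (nat_lit 152) (nat_lit 9541364723) (nat_lit 228) (nat_lit 21178191385) (nat_lit 66) (nat_lit 5) (nat_lit 68) (nat_lit 5) (nat_lit 69) (nat_lit 5) (nat_lit 537) (nat_lit 440) (nat_lit 223)) (XT.lf (nat_lit 0) (nat_lit 11195931221) (nat_lit 76) (nat_lit 64226374509) (nat_lit 152) (nat_lit 2254827312) (nat_lit 65) (nat_lit 5) (nat_lit 66) (nat_lit 5) (nat_lit 67) (nat_lit 4) (nat_lit 538) (nat_lit 440) (nat_lit 222))) (XT.nd (nat_lit 78) (nat_lit 152) (nat_lit 0) (XT.lf (nat_lit 0) (nat_lit 17305424282)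 (nat_lit 152) (nat_lit 24575388213) (nat_lit 76) (nat_lit 37418018674) (nat_lit 64) (nat_lit 5) (nat_lit 66) (nat_lit 5) (nat_lit 65) (nat_lit 5) (nat_lit 539) (nat_lit 440) (nat_lit 221)) (XT.lf (nat_lit 0) (nat_lit 18930695034) (nat_lit 152) (nat_lit 18656286753) (nat_lit 228) (nat_lit 43376134269) (nat_lit 62) (nat_lit 5) (nat_lit 64) (nat_lit 5) (nat_lit 65) (nat_lit 5) (nat_lit 540) (nat_lit 440) (nat_lit 220))))) (XT.nd (nat_lit 312) (nat_lit 152) (nat_lit 0) (XT.nd (nat_lit 156) (nat_lit 228) (nat_lit 0) (XT.nd (nat_lit 78) (nat_lit 76) (nat_lit 0) (XT.lf (nat_lit 0) (nat_lit 58776068588) (nat_lit 228) (nat_lit 18481212946) (nat_lit 76) (nat_lit 5411075588) (nat_lit 62) (nat_lit 5) (nat_lit 65) (nat_lit 5) (nat_lit 63) (nat_lit 4) (nat_lit 541) (nat_lit 440) (nat_lit 219)) (XT.lf (nat_lit 0) (nat_lit 26709130023) (nat_lit 76) (nat_lit 54331072851) (nat_lit 152) (nat_lit 3371371406) (nat_lit 61) (nat_lit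 5) (nat_lit 62) (nat_lit 5) (nat_lit 63) (nat_lit 4) (nat_lit 542) (nat_lit 440) (nat_lit 218))) (XT.nd (nat_lit 78) (nat_lit 152) (nat_lit 0) (XT.lf (nat_lit 0) (nat_lit 17604900494) (nat_lit 152) (nat_lit 12743957172) (nat_lit 76) (nat_lit 55847515600) (nat_lit 60) (nat_lit 5) (nat_lit 62) (nat_lit 5) (nat_lit 61) (nat_lit 5) (nat_lit 543) (nat_lit 440) (nat_lit 217)) (XT.lf (nat_lit 0) (nat_lit 34193373008) (nat_lit 152) (nat_lit 5275992575) (nat_lit 228) (nat_lit 48554549349) (nat_lit 58) (nat_lit 5) (nat_lit 60) (nat_lit 5) (nat_lit 61) (nat_lit 5) (nat_lit 544) (nat_lit 440) (nat_lit 216)))) (XT.nd (nat_lit 156) (nat_lit 76) (nat_lit 0) (XT.nd (nat_lit 78) (nat_lit 76) (nat_lit 0) (XT.lf (nat_lit 0) (nat_lit 62315242877) (nat_lit 228) (nat_lit 7304938653) (nat_lit 76) (nat_lit 20276337065) (nat_lit 58) (nat_lit 5) (nat_lit 61) (nat_lit 5) (nat_lit 59) (nat_lit 4) (nat_lit 545) (nat_lit 440) (nat_lit 215))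 (XT.lf (nat_lit 0) (nat_lit 41367765259) (nat_lit 76) (nat_lit 44926664739) (nat_lit 152) (nat_lit 5517432455) (nat_lit 57) (nat_lit 5) (nat_lit 58) (nat_lit 5) (nat_lit 59) (nat_lit 4) (nat_lit 546) (nat_lit 440) (nat_lit 214))) (XT.nd (nat_lit 54210) (nat_lit 0) (nat_lit 17860) (XT.lf (nat_lit 0) (nat_lit 16945072150) (nat_lit 152) (nat_lit 2301873648) (nat_lit 76) (nat_lit 74530582133) (nat_lit 56) (nat_lit 5) (nat_lit 58) (nat_lit 5) (nat_lit 57) (nat_lit 5) (nat_lit 547) (nat_lit 440) (nat_lit 213)) (XT.lf (nat_lit 0) (nat_lit 2884825753) (nat_lit 0) (nat_lit 2884825753) (nat_lit 1140) (nat_lit 1177698538) (nat_lit 291) (nat_lit 5) (nat_lit 291) (nat_lit 3) (nat_lit 306) (nat_lit 3) (nat_lit 441) (nat_lit 441) (nat_lit 318)))))) (XT.nd (nat_lit 546) (nat_lit 0) (nat_lit 152) (XT.nd (nat_lit 234) (nat_lit 1140) (nat_lit 0) (XT.nd (nat_lit 78) (nat_lit 0) (nat_lit 0) (XT.lf (nat_lit 0) (nat_lit 12063244641)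 (nat_lit 1140) (nat_lit 1319245383) (nat_lit 1216) (nat_lit 710021764) (nat_lit 291) (nat_lit 5) (nat_lit 306) (nat_lit 3) (nat_lit 307) (nat_lit 5) (nat_lit 442) (nat_lit 441) (nat_lit 317)) (XT.nd (nat_lit 78) (nat_lit 0) (nat_lit 0) (XT.lf (nat_lit 76) (nat_lit 5738402614) (nat_lit 0) (nat_lit 6963431599) (nat_lit 1216) (nat_lit 1591458980) (nat_lit 292) (nat_lit 5) (nat_lit 291) (nat_lit 5) (nat_lit 307) (nat_lit 5) (nat_lit 443) (nat_lit 441) (nat_lit 316)) (XT.lf (nat_lit 76) (nat_lit 13027712748) (nat_lit 0) (nat_lit 332154591) (nat_lit 1216) (nat_lit 1140225279) (nat_lit 292) (nat_lit 5) (nat_lit 291) (nat_lit 5) (nat_lit 307) (nat_lit 5) (nat_lit 444) (nat_lit 441) (nat_lit 315)))) (XT.nd (nat_lit 156) (nat_lit 0) (nat_lit 76) (XT.nd (nat_lit 78) (nat_lit 1216) (nat_lit 0) (XT.lf (nat_lit 76) (nat_lit 5867293364) (nat_lit 0) (nat_lit 8276610505) (nat_lit 1216) (nat_lit 566007348) (nat_lit 293) (nat_lit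 5) (nat_lit 292) (nat_lit 5) (nat_lit 308) (nat_lit 5) (nat_lit 445) (nat_lit 441) (nat_lit 314)) (XT.lf (nat_lit 0) (nat_lit 30816234) (nat_lit 1216) (nat_lit 1479439323) (nat_lit 1292) (nat_lit 13415588102) (nat_lit 276) (nat_lit 5) (nat_lit 292) (nat_lit 5) (nat_lit 293) (nat_lit 5) (nat_lit 446) (nat_lit 441) (nat_lit 313))) (XT.nd (nat_lit 78) (nat_lit 0) (nat_lit 0) (XT.lf (nat_lit 0) (nat_lit 734993366) (nat_lit 1216) (nat_lit 8986860625) (nat_lit 1292) (nat_lit 5423210015) (nat_lit 277) (nat_lit 5) (nat_lit 293) (nat_lit 5) (nat_lit 294) (nat_lit 5) (nat_lit 447) (nat_lit 441) (nat_lit 312)) (XT.lf (nat_lit 0) (nat_lit 1478595401) (nat_lit 1216) (nat_lit 1337840496) (nat_lit 1292) (nat_lit 12553878799) (nat_lit 277) (nat_lit 5) (nat_lit 293) (nat_lit 5) (nat_lit 294) (nat_lit 5) (nat_lit 448) (nat_lit 441) (nat_lit 311))))) (XT.nd (nat_lit 312) (nat_lit 0) (nat_lit 152) (XT.nd (nat_lit 156) (nat_lit 0)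 (nat_lit 76) (XT.nd (nat_lit 78) (nat_lit 0) (nat_lit 0) (XT.lf (nat_lit 0) (nat_lit 2339127795) (nat_lit 1216) (nat_lit 8979448090) (nat_lit 1292) (nat_lit 4280910995) (nat_lit 278) (nat_lit 5) (nat_lit 294) (nat_lit 5) (nat_lit 295) (nat_lit 5) (nat_lit 449) (nat_lit 441) (nat_lit 310)) (XT.lf (nat_lit 0) (nat_lit 3255904223) (nat_lit 1216) (nat_lit 1026776941) (nat_lit 1292) (nat_lit 11551942786) (nat_lit 278) (nat_lit 5) (nat_lit 294) (nat_lit 5) (nat_lit 295) (nat_lit 5) (nat_lit 450) (nat_lit 441) (nat_lit 309))) (XT.nd (nat_lit 78) (nat_lit 0) (nat_lit 0) (XT.lf (nat_lit 0) (nat_lit 4288794043) (nat_lit 1216) (nat_lit 8804827528) (nat_lit 1292) (nat_lit 2980537750) (nat_lit 279) (nat_lit 5) (nat_lit 295) (nat_lit 5) (nat_lit 296) (nat_lit 5) (nat_lit 451) (nat_lit 441) (nat_lit 308)) (XT.lf (nat_lit 0) (nat_lit 5395039710) (nat_lit 1216) (nat_lit 535461685) (nat_lit 1292) (nat_lit 10389110701) (nat_lit 279)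 (nat_lit 5) (nat_lit 295) (nat_lit 5) (nat_lit 296) (nat_lit 5) (nat_lit 452) (nat_lit 441) (nat_lit 307)))) (XT.nd (nat_lit 156) (nat_lit 0) (nat_lit 0) (XT.nd (nat_lit 78) (nat_lit 0) (nat_lit 0) (XT.lf (nat_lit 0) (nat_lit 6617168971) (nat_lit 1216) (nat_lit 8451945315) (nat_lit 1292) (nat_lit 1500835626) (nat_lit 280) (nat_lit 5) (nat_lit 296) (nat_lit 5) (nat_lit 297) (nat_lit 5) (nat_lit 453) (nat_lit 441) (nat_lit 306)) (XT.lf (nat_lit 76) (nat_lit 150802897) (nat_lit 0) (nat_lit 7780838080) (nat_lit 1292) (nat_lit 8894488802) (nat_lit 281) (nat_lit 5) (nat_lit 280) (nat_lit 5) (nat_lit 297) (nat_lit 5) (nat_lit 454) (nat_lit 441) (nat_lit 305))) (XT.nd (nat_lit 78) (nat_lit 0) (nat_lit 76) (XT.lf (nat_lit 76) (nat_lit 9177182367) (nat_lit 0) (nat_lit 183979313) (nat_lit 1292) (nat_lit 7726567135) (nat_lit 281) (nat_lit 5) (nat_lit 280) (nat_lit 5) (nat_lit 297) (nat_lit 5) (nat_lit 455) (nat_lit 441) (nat_lit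 304)) (XT.lf (nat_lit 76) (nat_lit 1056558929) (nat_lit 0) (nat_lit 9851182139) (nat_lit 1292) (nat_lit 6447211711) (nat_lit 282) (nat_lit 5) (nat_lit 281) (nat_lit 5) (nat_lit 298) (nat_lit 5) (nat_lit 456) (nat_lit 441) (nat_lit 303))))))))
noncomputable def xc185 : XT := (XT.nd (nat_lit 2340) (nat_lit 5168) (nat_lit 0) (XT.nd (nat_lit 1170) (nat_lit 3496) (nat_lit 0) (XT.nd (nat_lit 546) (nat_lit 2812) (nat_lit 0) (XT.nd (nat_lit 234) (nat_lit 1444) (nat_lit 0) (XT.nd (nat_lit 78) (nat_lit 1140) (nat_lit 0) (XT.lf (nat_lit 76) (nat_lit 10445266598) (nat_lit 0) (nat_lit 2127905401) (nat_lit 1292) (nat_lit 5054849923) (nat_lit 282) (nat_lit 5) (nat_lit 281) (nat_lit 5) (nat_lit 298) (nat_lit 5) (nat_lit 457) (nat_lit 441) (nat_lit 302)) (XT.nd (nat_lit 78) (nat_lit 0) (nat_lit 0) (XT.lf (nat_lit 0) (nat_lit 2185208352) (nat_lit 1216) (nat_lit 12171428887) (nat_lit 1292) (nat_lit 3550605783) (nat_lit 266) (nat_lit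 5) (nat_lit 282) (nat_lit 5) (nat_lit 283) (nat_lit 5) (nat_lit 458) (nat_lit 441) (nat_lit 301)) (XT.lf (nat_lit 0) (nat_lit 11952266972) (nat_lit 1216) (nat_lit 4325972123) (nat_lit 1292) (nat_lit 1914064646) (nat_lit 266) (nat_lit 5) (nat_lit 282) (nat_lit 5) (nat_lit 283) (nat_lit 5) (nat_lit 459) (nat_lit 441) (nat_lit 300)))) (XT.nd (nat_lit 156) (nat_lit 608) (nat_lit 0) (XT.nd (nat_lit 78) (nat_lit 76) (nat_lit 0) (XT.lf (nat_lit 0) (nat_lit 3551898898) (nat_lit 760) (nat_lit 14767331241) (nat_lit 836) (nat_lit 164835817) (nat_lit 256) (nat_lit 5) (nat_lit 266) (nat_lit 5) (nat_lit 267) (nat_lit 5) (nat_lit 460) (nat_lit 441) (nat_lit 299)) (XT.lf (nat_lit 0) (nat_lit 1702989861) (nat_lit 836) (nat_lit 5084205127) (nat_lit 76) (nat_lit 11993973975) (nat_lit 255) (nat_lit 5) (nat_lit 266) (nat_lit 5) (nat_lit 256) (nat_lit 5) (nat_lit 461) (nat_lit 441) (nat_lit 298))) (XT.nd (nat_lit 78) (nat_lit 0) (nat_lit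 0) (XT.lf (nat_lit 0) (nat_lit 3679165604) (nat_lit 684) (nat_lit 13949713695) (nat_lit 76) (nat_lit 1456589695) (nat_lit 247) (nat_lit 5) (nat_lit 256) (nat_lit 5) (nat_lit 248) (nat_lit 5) (nat_lit 462) (nat_lit 441) (nat_lit 297)) (XT.lf (nat_lit 0) (nat_lit 5825683845) (nat_lit 684) (nat_lit 3706305570) (nat_lit 76) (nat_lit 9863578590) (nat_lit 247) (nat_lit 5) (nat_lit 256) (nat_lit 5) (nat_lit 248) (nat_lit 5) (nat_lit 463) (nat_lit 441) (nat_lit 296))))) (XT.nd (nat_lit 312) (nat_lit 1672) (nat_lit 0) (XT.nd (nat_lit 156) (nat_lit 532) (nat_lit 0) (XT.nd (nat_lit 78) (nat_lit 0) (nat_lit 0) (XT.lf (nat_lit 0) (nat_lit 6972922854) (nat_lit 608) (nat_lit 1122943993) (nat_lit 684) (nat_lit 11617326710) (nat_lit 239) (nat_lit 5) (nat_lit 247) (nat_lit 5) (nat_lit 248) (nat_lit 5) (nat_lit 464) (nat_lit 441) (nat_lit 295)) (XT.lf (nat_lit 0) (nat_lit 10536812363) (nat_lit 684) (nat_lit 2071261092) (nat_lit 76)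 (nat_lit 7429196308) (nat_lit 239) (nat_lit 5) (nat_lit 248) (nat_lit 5) (nat_lit 240) (nat_lit 5) (nat_lit 465) (nat_lit 441) (nat_lit 294))) (XT.nd (nat_lit 78) (nat_lit 0) (nat_lit 0) (XT.lf (nat_lit 0) (nat_lit 9076331140) (nat_lit 532) (nat_lit 4065638661) (nat_lit 608) (nat_lit 7226370498) (nat_lit 232) (nat_lit 5) (nat_lit 239) (nat_lit 5) (nat_lit 240) (nat_lit 5) (nat_lit 466) (nat_lit 441) (nat_lit 293)) (XT.lf (nat_lit 0) (nat_lit 15884662101) (nat_lit 608) (nat_lit 161234756) (nat_lit 76) (nat_lit 4661666197) (nat_lit 232) (nat_lit 5) (nat_lit 240) (nat_lit 5) (nat_lit 233) (nat_lit 5) (nat_lit 467) (nat_lit 441) (nat_lit 292)))) (XT.nd (nat_lit 156) (nat_lit 532) (nat_lit 0) (XT.nd (nat_lit 78) (nat_lit 608) (nat_lit 0) (XT.lf (nat_lit 0) (nat_lit 11479818735) (nat_lit 532) (nat_lit 7373392407) (nat_lit 608) (nat_lit 2199445532) (nat_lit 225) (nat_lit 5) (nat_lit 232) (nat_lit 5) (nat_lit 233) (nat_lit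 5) (nat_lit 468) (nat_lit 441) (nat_lit 291)) (XT.lf (nat_lit 0) (nat_lit 522958937) (nat_lit 608) (nat_lit 19328867304) (nat_lit 76) (nat_lit 1555231615) (nat_lit 217) (nat_lit 5) (nat_lit 225) (nat_lit 5) (nat_lit 218) (nat_lit 5) (nat_lit 469) (nat_lit 441) (nat_lit 290))) (XT.nd (nat_lit 78) (nat_lit 532) (nat_lit 0) (XT.lf (nat_lit 0) (nat_lit 3446618745) (nat_lit 608) (nat_lit 7597543006) (nat_lit 76) (nat_lit 10722363664) (nat_lit 217) (nat_lit 5) (nat_lit 225) (nat_lit 5) (nat_lit 218) (nat_lit 5) (nat_lit 470) (nat_lit 441) (nat_lit 289)) (XT.lf (nat_lit 0) (nat_lit 4567472190) (nat_lit 532) (nat_lit 1927782663) (nat_lit 608) (nat_lit 15640405452) (nat_lit 210) (nat_lit 5) (nat_lit 217) (nat_lit 5) (nat_lit 218) (nat_lit 5) (nat_lit 471) (nat_lit 441) (nat_lit 288)))))) (XT.nd (nat_lit 546) (nat_lit 1596) (nat_lit 0) (XT.nd (nat_lit 234) (nat_lit 1444) (nat_lit 0) (XT.nd (nat_lit 78) (nat_lit 456) (nat_lit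 0) (XT.lf (nat_lit 0) (nat_lit 9778036831) (nat_lit 608) (nat_lit 5340370860) (nat_lit 76) (nat_lit 7393182210) (nat_lit 210) (nat_lit 5) (nat_lit 218) (nat_lit 5) (nat_lit 211) (nat_lit 5) (nat_lit 472) (nat_lit 441) (nat_lit 287)) (XT.nd (nat_lit 78) (nat_lit 0) (nat_lit 0) (XT.lf (nat_lit 0) (nat_lit 7371768475) (nat_lit 456) (nat_lit 5871149433) (nat_lit 532) (nat_lit 9653372230) (nat_lit 204) (nat_lit 5) (nat_lit 210) (nat_lit 5) (nat_lit 211) (nat_lit 5) (nat_lit 473) (nat_lit 441) (nat_lit 286)) (XT.lf (nat_lit 0) (nat_lit 16895099034) (nat_lit 532) (nat_lit 2759205239) (nat_lit 76) (nat_lit 3635727692) (nat_lit 204) (nat_lit 5) (nat_lit 211) (nat_lit 5) (nat_lit 205) (nat_lit 5) (nat_lit 474) (nat_lit 441) (nat_lit 285)))) (XT.nd (nat_lit 156) (nat_lit 456) (nat_lit 0) (XT.nd (nat_lit 78) (nat_lit 532) (nat_lit 0) (XT.lf (nat_lit 0) (nat_lit 10529236669) (nat_lit 456) (nat_lit 10280906440) (nat_lit 532)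 (nat_lit 2880845165) (nat_lit 198) (nat_lit 5) (nat_lit 204) (nat_lit 5) (nat_lit 205) (nat_lit 5) (nat_lit 475) (nat_lit 441) (nat_lit 284)) (XT.lf (nat_lit 0) (nat_lit 158249746) (nat_lit 456) (nat_lit 589662937) (nat_lit 532) (nat_lit 23355138819) (nat_lit 191) (nat_lit 5) (nat_lit 197) (nat_lit 5) (nat_lit 198) (nat_lit 5) (nat_lit 476) (nat_lit 441) (nat_lit 283))) (XT.nd (nat_lit 78) (nat_lit 456) (nat_lit 0) (XT.lf (nat_lit 0) (nat_lit 4646235436) (nat_lit 532) (nat_lit 10503271443) (nat_lit 76) (nat_lit 9370556979) (nat_lit 191) (nat_lit 5) (nat_lit 198) (nat_lit 5) (nat_lit 192) (nat_lit 5) (nat_lit 477) (nat_lit 441) (nat_lit 282)) (XT.lf (nat_lit 0) (nat_lit 3394812175) (nat_lit 456) (nat_lit 5299434716) (nat_lit 532) (nat_lit 16254358548) (nat_lit 185) (nat_lit 5) (nat_lit 191) (nat_lit 5) (nat_lit 192) (nat_lit 5) (nat_lit 478) (nat_lit 441) (nat_lit 281))))) (XT.nd (nat_lit 312) (nat_lit 760) (nat_lit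 0) (XT.nd (nat_lit 156) (nat_lit 456) (nat_lit 0) (XT.nd (nat_lit 78) (nat_lit 380) (nat_lit 0) (XT.lf (nat_lit 0) (nat_lit 13011749038) (nat_lit 532) (nat_lit 7516496829) (nat_lit 76) (nat_lit 4857316887) (nat_lit 185) (nat_lit 5) (nat_lit 192) (nat_lit 5) (nat_lit 186) (nat_lit 5) (nat_lit 479) (nat_lit 441) (nat_lit 280)) (XT.lf (nat_lit 0) (nat_lit 7019446522) (nat_lit 380) (nat_lit 10553792765) (nat_lit 456) (nat_lit 8258956578) (nat_lit 180) (nat_lit 5) (nat_lit 185) (nat_lit 5) (nat_lit 186) (nat_lit 5) (nat_lit 480) (nat_lit 441) (nat_lit 279))) (XT.nd (nat_lit 78) (nat_lit 456) (nat_lit 0) (XT.lf (nat_lit 0) (nat_lit 22138640380) (nat_lit 380) (nat_lit 203447169) (nat_lit 456) (nat_lit 3948025957) (nat_lit 180) (nat_lit 5) (nat_lit 185) (nat_lit 5) (nat_lit 186) (nat_lit 5) (nat_lit 481) (nat_lit 441) (nat_lit 278)) (XT.lf (nat_lit 0) (nat_lit 686196178) (nat_lit 456) (nat_lit 15704400106) (nat_lit 76)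 (nat_lit 10364924266) (nat_lit 174) (nat_lit 5) (nat_lit 180) (nat_lit 5) (nat_lit 175) (nat_lit 5) (nat_lit 482) (nat_lit 441) (nat_lit 277)))) (XT.nd (nat_lit 156) (nat_lit 380) (nat_lit 0) (XT.nd (nat_lit 78) (nat_lit 380) (nat_lit 0) (XT.lf (nat_lit 0) (nat_lit 5419234531) (nat_lit 456) (nat_lit 487146406) (nat_lit 76) (nat_lit 21326162817) (nat_lit 174) (nat_lit 5) (nat_lit 180) (nat_lit 5) (nat_lit 175) (nat_lit 5) (nat_lit 483) (nat_lit 441) (nat_lit 276)) (XT.lf (nat_lit 0) (nat_lit 10486514727) (nat_lit 456) (nat_lit 12286004144) (nat_lit 76) (nat_lit 4945592095) (nat_lit 169) (nat_lit 5) (nat_lit 175) (nat_lit 5) (nat_lit 170) (nat_lit 5) (nat_lit 484) (nat_lit 441) (nat_lit 275))) (XT.nd (nat_lit 78) (nat_lit 0) (nat_lit 0) (XT.lf (nat_lit 0) (nat_lit 3626304122) (nat_lit 380) (nat_lit 12172823830) (nat_lit 456) (nat_lit 12416318614) (nat_lit 164) (nat_lit 5) (nat_lit 169) (nat_lit 5) (nat_lit 170) (nat_lit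 5) (nat_lit 485) (nat_lit 441) (nat_lit 274)) (XT.lf (nat_lit 0) (nat_lit 20261142457) (nat_lit 380) (nat_lit 1129132138) (nat_lit 456) (nat_lit 7333853774) (nat_lit 164) (nat_lit 5) (nat_lit 169) (nat_lit 5) (nat_lit 170) (nat_lit 5) (nat_lit 486) (nat_lit 441) (nat_lit 273))))))) (XT.nd (nat_lit 1170) (nat_lit 2280) (nat_lit 0) (XT.nd (nat_lit 546) (nat_lit 1444) (nat_lit 0) (XT.nd (nat_lit 234) (nat_lit 684) (nat_lit 0) (XT.nd (nat_lit 78) (nat_lit 456) (nat_lit 0) (XT.lf (nat_lit 0) (nat_lit 8201891688) (nat_lit 304) (nat_lit 19119811969) (nat_lit 380) (nat_lit 1921191293) (nat_lit 160) (nat_lit 5) (nat_lit 164) (nat_lit 5) (nat_lit 165) (nat_lit 5) (nat_lit 487) (nat_lit 441) (nat_lit 272)) (XT.nd (nat_lit 78) (nat_lit 380) (nat_lit 0) (XT.lf (nat_lit 0) (nat_lit 3675282287) (nat_lit 380) (nat_lit 4288263833) (nat_lit 76) (nat_lit 21809843505) (nat_lit 159) (nat_lit 5) (nat_lit 164) (nat_lit 5) (nat_lit 160)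 (nat_lit 5) (nat_lit 488) (nat_lit 441) (nat_lit 271)) (XT.lf (nat_lit 0) (nat_lit 9558632941) (nat_lit 456) (nat_lit 17151756046) (nat_lit 76) (nat_lit 3604112294) (nat_lit 154) (nat_lit 5) (nat_lit 160) (nat_lit 5) (nat_lit 155) (nat_lit 5) (nat_lit 489) (nat_lit 441) (nat_lit 270)))) (XT.nd (nat_lit 156) (nat_lit 380) (nat_lit 0) (XT.nd (nat_lit 78) (nat_lit 0) (nat_lit 0) (XT.lf (nat_lit 0) (nat_lit 274202568) (nat_lit 304) (nat_lit 15464935553) (nat_lit 380) (nat_lit 15129089223) (nat_lit 150) (nat_lit 5) (nat_lit 154) (nat_lit 5) (nat_lit 155) (nat_lit 5) (nat_lit 490) (nat_lit 441) (nat_lit 269)) (XT.lf (nat_lit 0) (nat_lit 18568083037) (nat_lit 304) (nat_lit 3705684761) (nat_lit 380) (nat_lit 9159736770) (nat_lit 150) (nat_lit 5) (nat_lit 154) (nat_lit 5) (nat_lit 155) (nat_lit 5) (nat_lit 491) (nat_lit 441) (nat_lit 268))) (XT.nd (nat_lit 78) (nat_lit 76) (nat_lit 0) (XT.lf (nat_lit 0) (nat_lit 5413493348)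 (nat_lit 304) (nat_lit 23719410443) (nat_lit 380) (nat_lit 2878982933) (nat_lit 146) (nat_lit 5) (nat_lit 150) (nat_lit 5) (nat_lit 151) (nat_lit 5) (nat_lit 492) (nat_lit 441) (nat_lit 267)) (XT.lf (nat_lit 0) (nat_lit 3683673899) (nat_lit 380) (nat_lit 8178107090) (nat_lit 76) (nat_lit 20739898486) (nat_lit 145) (nat_lit 5) (nat_lit 150) (nat_lit 5) (nat_lit 146) (nat_lit 5) (nat_lit 493) (nat_lit 441) (nat_lit 266))))) (XT.nd (nat_lit 312) (nat_lit 608) (nat_lit 0) (XT.nd (nat_lit 156) (nat_lit 532) (nat_lit 0) (XT.nd (nat_lit 78) (nat_lit 0) (nat_lit 0) (XT.lf (nat_lit 0) (nat_lit 10491296783) (nat_lit 380) (nat_lit 22235745830) (nat_lit 76) (nat_lit 478090305) (nat_lit 141) (nat_lit 5) (nat_lit 146) (nat_lit 5) (nat_lit 142) (nat_lit 5) (nat_lit 494) (nat_lit 441) (nat_lit 265)) (XT.lf (nat_lit 0) (nat_lit 17699810079) (nat_lit 380) (nat_lit 3089784230) (nat_lit 76) (nat_lit 13031196371) (nat_lit 141) (nat_lit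 5) (nat_lit 146) (nat_lit 5) (nat_lit 142) (nat_lit 5) (nat_lit 495) (nat_lit 441) (nat_lit 264))) (XT.nd (nat_lit 78) (nat_lit 228) (nat_lit 0) (XT.lf (nat_lit 0) (nat_lit 16955338273) (nat_lit 304) (nat_lit 8328165248) (nat_lit 380) (nat_lit 9166647463) (nat_lit 137) (nat_lit 5) (nat_lit 141) (nat_lit 5) (nat_lit 142) (nat_lit 5) (nat_lit 496) (nat_lit 441) (nat_lit 263)) (XT.lf (nat_lit 0) (nat_lit 2568054723) (nat_lit 228) (nat_lit 30622154180) (nat_lit 304) (nat_lit 1905318696) (nat_lit 134) (nat_lit 5) (nat_lit 137) (nat_lit 5) (nat_lit 138) (nat_lit 5) (nat_lit 497) (nat_lit 441) (nat_lit 262)))) (XT.nd (nat_lit 156) (nat_lit 228) (nat_lit 0) (XT.nd (nat_lit 78) (nat_lit 304) (nat_lit 0) (XT.lf (nat_lit 0) (nat_lit 5721953350) (nat_lit 304) (nat_lit 12307455738) (nat_lit 76) (nat_lit 17721543471) (nat_lit 133) (nat_lit 5) (nat_lit 137) (nat_lit 5) (nat_lit 134) (nat_lit 5) (nat_lit 498) (nat_lit 441) (nat_lit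 261)) (XT.lf (nat_lit 0) (nat_lit 8663390808) (nat_lit 304) (nat_lit 4955751829) (nat_lit 380) (nat_lit 22803950362) (nat_lit 129) (nat_lit 5) (nat_lit 133) (nat_lit 5) (nat_lit 134) (nat_lit 5) (nat_lit 499) (nat_lit 441) (nat_lit 260))) (XT.nd (nat_lit 78) (nat_lit 228) (nat_lit 0) (XT.lf (nat_lit 0) (nat_lit 21956716441) (nat_lit 380) (nat_lit 6685048066) (nat_lit 76) (nat_lit 8467529556) (nat_lit 129) (nat_lit 5) (nat_lit 134) (nat_lit 5) (nat_lit 130) (nat_lit 5) (nat_lit 500) (nat_lit 441) (nat_lit 259)) (XT.lf (nat_lit 0) (nat_lit 15264827851) (nat_lit 228) (nat_lit 15471656105) (nat_lit 304) (nat_lit 7073835670) (nat_lit 126) (nat_lit 5) (nat_lit 129) (nat_lit 5) (nat_lit 130) (nat_lit 5) (nat_lit 501) (nat_lit 441) (nat_lit 258)))))) (XT.nd (nat_lit 624) (nat_lit 912) (nat_lit 0) (XT.nd (nat_lit 312) (nat_lit 760) (nat_lit 0) (XT.nd (nat_lit 156) (nat_lit 228) (nat_lit 0) (XT.nd (nat_lit 78) (nat_lit 304)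 (nat_lit 0) (XT.lf (nat_lit 0) (nat_lit 1287385350) (nat_lit 304) (nat_lit 538611799) (nat_lit 76) (nat_lit 36704085892) (nat_lit 125) (nat_lit 5) (nat_lit 129) (nat_lit 5) (nat_lit 126) (nat_lit 5) (nat_lit 502) (nat_lit 441) (nat_lit 257)) (XT.lf (nat_lit 0) (nat_lit 10090226284) (nat_lit 380) (nat_lit 16891668174) (nat_lit 76) (nat_lit 12277455371) (nat_lit 121) (nat_lit 5) (nat_lit 126) (nat_lit 5) (nat_lit 122) (nat_lit 5) (nat_lit 503) (nat_lit 441) (nat_lit 256))) (XT.nd (nat_lit 78) (nat_lit 0) (nat_lit 0) (XT.lf (nat_lit 0) (nat_lit 6056217197) (nat_lit 228) (nat_lit 13179144273) (nat_lit 304) (nat_lit 20772787292) (nat_lit 118) (nat_lit 5) (nat_lit 121) (nat_lit 5) (nat_lit 122) (nat_lit 5) (nat_lit 504) (nat_lit 441) (nat_lit 255)) (XT.lf (nat_lit 0) (nat_lit 28833537800) (nat_lit 304) (nat_lit 10752888324) (nat_lit 76) (nat_lit 1187625322) (nat_lit 118) (nat_lit 5) (nat_lit 122) (nat_lit 5) (nat_lit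 119) (nat_lit 5) (nat_lit 505) (nat_lit 441) (nat_lit 254)))) (XT.nd (nat_lit 156) (nat_lit 456) (nat_lit 0) (XT.nd (nat_lit 78) (nat_lit 76) (nat_lit 0) (XT.lf (nat_lit 0) (nat_lit 13264921096) (nat_lit 228) (nat_lit 25709289443) (nat_lit 304) (nat_lit 2581084527) (nat_lit 115) (nat_lit 5) (nat_lit 118) (nat_lit 5) (nat_lit 119) (nat_lit 5) (nat_lit 506) (nat_lit 441) (nat_lit 253)) (XT.lf (nat_lit 0) (nat_lit 7027604020) (nat_lit 304) (nat_lit 4207540816) (nat_lit 76) (nat_lit 31119609057) (nat_lit 114) (nat_lit 5) (nat_lit 118) (nat_lit 5) (nat_lit 115) (nat_lit 5) (nat_lit 507) (nat_lit 441) (nat_lit 252))) (XT.nd (nat_lit 78) (nat_lit 228) (nat_lit 0) (XT.lf (nat_lit 0) (nat_lit 17108517353) (nat_lit 304) (nat_lit 22232894513) (nat_lit 76) (nat_lit 3828943072) (nat_lit 111) (nat_lit 5) (nat_lit 115) (nat_lit 5) (nat_lit 112) (nat_lit 5) (nat_lit 508) (nat_lit 441) (nat_lit 251)) (XT.lf (nat_lit 0) (nat_lit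 2852472625) (nat_lit 228) (nat_lit 24817645734) (nat_lit 304) (nat_lit 16334958191) (nat_lit 108) (nat_lit 5) (nat_lit 111) (nat_lit 5) (nat_lit 112) (nat_lit 5) (nat_lit 509) (nat_lit 441) (nat_lit 250))))) (XT.nd (nat_lit 312) (nat_lit 456) (nat_lit 0) (XT.nd (nat_lit 156) (nat_lit 228) (nat_lit 0) (XT.nd (nat_lit 78) (nat_lit 228) (nat_lit 0) (XT.lf (nat_lit 0) (nat_lit 29140764227) (nat_lit 228) (nat_lit 9629049247) (nat_lit 304) (nat_lit 6088389288) (nat_lit 108) (nat_lit 5) (nat_lit 111) (nat_lit 5) (nat_lit 112) (nat_lit 5) (nat_lit 510) (nat_lit 441) (nat_lit 249)) (XT.lf (nat_lit 0) (nat_lit 4536757336) (nat_lit 228) (nat_lit 35151713986) (nat_lit 76) (nat_lit 6042414371) (nat_lit 105) (nat_lit 5) (nat_lit 108) (nat_lit 5) (nat_lit 106) (nat_lit 5) (nat_lit 511) (nat_lit 441) (nat_lit 248))) (XT.nd (nat_lit 78) (nat_lit 228) (nat_lit 0) (XT.lf (nat_lit 0) (nat_lit 15610735121) (nat_lit 228) (nat_lit 8800624078)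 (nat_lit 76) (nat_lit 22209008367) (nat_lit 105) (nat_lit 5) (nat_lit 108) (nat_lit 5) (nat_lit 106) (nat_lit 5) (nat_lit 512) (nat_lit 441) (nat_lit 247)) (XT.lf (nat_lit 0) (nat_lit 18700753389) (nat_lit 228) (nat_lit 8492857938) (nat_lit 304) (nat_lit 20337622491) (nat_lit 102) (nat_lit 5) (nat_lit 105) (nat_lit 5) (nat_lit 106) (nat_lit 5) (nat_lit 513) (nat_lit 441) (nat_lit 246)))) (XT.nd (nat_lit 156) (nat_lit 228) (nat_lit 0) (XT.nd (nat_lit 78) (nat_lit 228) (nat_lit 0) (XT.lf (nat_lit 0) (nat_lit 39286629913) (nat_lit 304) (nat_lit 1341219162) (nat_lit 76) (nat_lit 7836697588) (nat_lit 102) (nat_lit 5) (nat_lit 106) (nat_lit 5) (nat_lit 103) (nat_lit 5) (nat_lit 514) (nat_lit 441) (nat_lit 245)) (XT.lf (nat_lit 0) (nat_lit 2619466106) (nat_lit 228) (nat_lit 22022565535) (nat_lit 76) (nat_lit 24772716750) (nat_lit 99) (nat_lit 5) (nat_lit 102) (nat_lit 5) (nat_lit 100) (nat_lit 5) (nat_lit 515) (nat_lit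 441) (nat_lit 244))) (XT.nd (nat_lit 78) (nat_lit 0) (nat_lit 0) (XT.lf (nat_lit 0) (nat_lit 6655861900) (nat_lit 228) (nat_lit 8005134879) (nat_lit 304) (nat_lit 35727492740) (nat_lit 96) (nat_lit 5) (nat_lit 99) (nat_lit 5) (nat_lit 100) (nat_lit 5) (nat_lit 516) (nat_lit 441) (nat_lit 243)) (XT.lf (nat_lit 0) (nat_lit 27373185253) (nat_lit 304) (nat_lit 14833724347) (nat_lit 76) (nat_lit 9175251178) (nat_lit 96) (nat_lit 5) (nat_lit 100) (nat_lit 5) (nat_lit 97) (nat_lit 5) (nat_lit 517) (nat_lit 441) (nat_lit 242))))))))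
noncomputable def xc186 : XT := (XT.nd (nat_lit 56550) (nat_lit 0) (nat_lit 11628) (XT.nd (nat_lit 1170) (nat_lit 1216) (nat_lit 0) (XT.nd (nat_lit 546) (nat_lit 912) (nat_lit 0) (XT.nd (nat_lit 234) (nat_lit 380) (nat_lit 0) (XT.nd (nat_lit 78) (nat_lit 304) (nat_lit 0) (XT.lf (nat_lit 0) (nat_lit 15143475631) (nat_lit 152) (nat_lit 25545230500) (nat_lit 228) (nat_lit 11710277291) (nat_lit 94) (nat_lit 5) (nat_lit 96) (nat_lit 5) (nat_lit 97) (nat_lit 5) (nat_lit 518) (nat_lit 441) (nat_lit 241)) (XT.nd (nat_lit 78) (nat_lit 228) (nat_lit 0) (XT.lf (nat_lit 0) (nat_lit 1087122502) (nat_lit 228) (nat_lit 7133358797) (nat_lit 76) (nat_lit 45221100915) (nat_lit 93) (nat_lit 5) (nat_lit 96) (nat_lit 5) (nat_lit 94) (nat_lit 5) (nat_lit 519) (nat_lit 441) (nat_lit 240)) (XT.lf (nat_lit 0) (nat_lit 14359314506) (nat_lit 304) (nat_lit 30356185647) (nat_lit 76) (nat_lit 9786693688) (nat_lit 90) (nat_lit 5) (nat_lit 94)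 (nat_lit 5) (nat_lit 91) (nat_lit 5) (nat_lit 520) (nat_lit 441) (nat_lit 239)))) (XT.nd (nat_lit 156) (nat_lit 228) (nat_lit 0) (XT.nd (nat_lit 78) (nat_lit 0) (nat_lit 0) (XT.lf (nat_lit 0) (nat_lit 847150175) (nat_lit 152) (nat_lit 27342049412) (nat_lit 228) (nat_lit 27400638630) (nat_lit 88) (nat_lit 5) (nat_lit 90) (nat_lit 5) (nat_lit 91) (nat_lit 5) (nat_lit 521) (nat_lit 441) (nat_lit 238)) (XT.lf (nat_lit 0) (nat_lit 33604108241) (nat_lit 152) (nat_lit 9133692415) (nat_lit 228) (nat_lit 13963196900) (nat_lit 88) (nat_lit 5) (nat_lit 90) (nat_lit 5) (nat_lit 91) (nat_lit 5) (nat_lit 522) (nat_lit 441) (nat_lit 237))) (XT.nd (nat_lit 78) (nat_lit 0) (nat_lit 0) (XT.lf (nat_lit 0) (nat_lit 63554527) (nat_lit 228) (nat_lit 48252425017) (nat_lit 76) (nat_lit 9524033892) (nat_lit 85) (nat_lit 5) (nat_lit 88) (nat_lit 5) (nat_lit 86) (nat_lit 5) (nat_lit 523) (nat_lit 441) (nat_lit 236)) (XT.lf (nat_lit 0) (nat_lit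 14553785667) (nat_lit 228) (nat_lit 15515809157) (nat_lit 76) (nat_lit 28929757974) (nat_lit 85) (nat_lit 5) (nat_lit 88) (nat_lit 5) (nat_lit 86) (nat_lit 5) (nat_lit 524) (nat_lit 441) (nat_lit 235))))) (XT.nd (nat_lit 312) (nat_lit 380) (nat_lit 0) (XT.nd (nat_lit 156) (nat_lit 380) (nat_lit 0) (XT.nd (nat_lit 78) (nat_lit 0) (nat_lit 0) (XT.lf (nat_lit 0) (nat_lit 18560545434) (nat_lit 152) (nat_lit 11094019322) (nat_lit 228) (nat_lit 30533632545) (nat_lit 83) (nat_lit 5) (nat_lit 85) (nat_lit 5) (nat_lit 86) (nat_lit 5) (nat_lit 525) (nat_lit 441) (nat_lit 234)) (XT.lf (nat_lit 0) (nat_lit 45445270869) (nat_lit 228) (nat_lit 7518098948) (nat_lit 76) (nat_lit 8442230396) (nat_lit 83) (nat_lit 5) (nat_lit 86) (nat_lit 5) (nat_lit 84) (nat_lit 5) (nat_lit 526) (nat_lit 441) (nat_lit 233))) (XT.nd (nat_lit 78) (nat_lit 228) (nat_lit 0) (XT.lf (nat_lit 0) (nat_lit 28047788904) (nat_lit 152) (nat_lit 34038876782)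 (nat_lit 228) (nat_lit 561550681) (nat_lit 81) (nat_lit 5) (nat_lit 83) (nat_lit 5) (nat_lit 84) (nat_lit 5) (nat_lit 527) (nat_lit 441) (nat_lit 232)) (XT.lf (nat_lit 0) (nat_lit 771746852) (nat_lit 152) (nat_lit 14310509461) (nat_lit 228) (nat_lit 48838994686) (nat_lit 78) (nat_lit 5) (nat_lit 80) (nat_lit 5) (nat_lit 81) (nat_lit 5) (nat_lit 528) (nat_lit 441) (nat_lit 231)))) (XT.nd (nat_lit 156) (nat_lit 228) (nat_lit 0) (XT.nd (nat_lit 78) (nat_lit 152) (nat_lit 0) (XT.lf (nat_lit 0) (nat_lit 31592246322) (nat_lit 228) (nat_lit 27378862918) (nat_lit 76) (nat_lit 6248956135) (nat_lit 78) (nat_lit 5) (nat_lit 81) (nat_lit 5) (nat_lit 79) (nat_lit 5) (nat_lit 529) (nat_lit 441) (nat_lit 230)) (XT.lf (nat_lit 0) (nat_lit 9504361917) (nat_lit 152) (nat_lit 39323826564) (nat_lit 228) (nat_lit 17722736287) (nat_lit 76) (nat_lit 5) (nat_lit 78) (nat_lit 5) (nat_lit 79) (nat_lit 5) (nat_lit 530) (nat_lit 441) (nat_lit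 229))) (XT.nd (nat_lit 78) (nat_lit 228) (nat_lit 0) (XT.lf (nat_lit 0) (nat_lit 48051053867) (nat_lit 152) (nat_lit 18804259157) (nat_lit 228) (nat_lit 1058173950) (nat_lit 76) (nat_lit 5) (nat_lit 78) (nat_lit 5) (nat_lit 79) (nat_lit 5) (nat_lit 531) (nat_lit 441) (nat_lit 228)) (XT.lf (nat_lit 0) (nat_lit 15994603464) (nat_lit 228) (nat_lit 50690693086) (nat_lit 76) (nat_lit 2620907809) (nat_lit 73) (nat_lit 5) (nat_lit 76) (nat_lit 5) (nat_lit 74) (nat_lit 5) (nat_lit 532) (nat_lit 441) (nat_lit 227)))))) (XT.nd (nat_lit 546) (nat_lit 608) (nat_lit 0) (XT.nd (nat_lit 234) (nat_lit 456) (nat_lit 0) (XT.nd (nat_lit 78) (nat_lit 152) (nat_lit 0) (XT.lf (nat_lit 0) (nat_lit 33924121501) (nat_lit 228) (nat_lit 12282576890) (nat_lit 76) (nat_lit 24522097938) (nat_lit 73) (nat_lit 5) (nat_lit 76) (nat_lit 5) (nat_lit 74) (nat_lit 5) (nat_lit 533) (nat_lit 441) (nat_lit 226)) (XT.nd (nat_lit 78) (nat_lit 0) (nat_lit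 0) (XT.lf (nat_lit 0) (nat_lit 27816503791) (nat_lit 152) (nat_lit 24840165179) (nat_lit 228) (nat_lit 19529442910) (nat_lit 71) (nat_lit 5) (nat_lit 73) (nat_lit 5) (nat_lit 74) (nat_lit 5) (nat_lit 534) (nat_lit 441) (nat_lit 225)) (XT.lf (nat_lit 0) (nat_lit 69366298490) (nat_lit 152) (nat_lit 2706705528) (nat_lit 228) (nat_lit 1610488678) (nat_lit 71) (nat_lit 5) (nat_lit 73) (nat_lit 5) (nat_lit 74) (nat_lit 5) (nat_lit 535) (nat_lit 441) (nat_lit 224)))) (XT.nd (nat_lit 156) (nat_lit 76) (nat_lit 0) (XT.nd (nat_lit 78) (nat_lit 152) (nat_lit 0) (XT.lf (nat_lit 0) (nat_lit 17073910767) (nat_lit 228) (nat_lit 37905761790) (nat_lit 76) (nat_lit 20224566372) (nat_lit 68) (nat_lit 5) (nat_lit 71) (nat_lit 5) (nat_lit 69) (nat_lit 5) (nat_lit 536) (nat_lit 441) (nat_lit 223)) (XT.lf (nat_lit 0) (nat_lit 3503024022) (nat_lit 152) (nat_lit 32885780989) (nat_lit 228) (nat_lit 40378254337) (nat_lit 66) (nat_lit 5)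 (nat_lit 68) (nat_lit 5) (nat_lit 69) (nat_lit 5) (nat_lit 537) (nat_lit 441) (nat_lit 222))) (XT.nd (nat_lit 78) (nat_lit 76) (nat_lit 0) (XT.lf (nat_lit 0) (nat_lit 46927169678) (nat_lit 152) (nat_lit 9736608505) (nat_lit 228) (nat_lit 21701567351) (nat_lit 66) (nat_lit 5) (nat_lit 68) (nat_lit 5) (nat_lit 69) (nat_lit 5) (nat_lit 538) (nat_lit 441) (nat_lit 221)) (XT.lf (nat_lit 0) (nat_lit 11731920076) (nat_lit 76) (nat_lit 66061364237) (nat_lit 152) (nat_lit 2210907595) (nat_lit 65) (nat_lit 5) (nat_lit 66) (nat_lit 5) (nat_lit 67) (nat_lit 4) (nat_lit 539) (nat_lit 441) (nat_lit 220))))) (XT.nd (nat_lit 312) (nat_lit 304) (nat_lit 0) (XT.nd (nat_lit 156) (nat_lit 76) (nat_lit 0) (XT.nd (nat_lit 78) (nat_lit 152) (nat_lit 0) (XT.lf (nat_lit 0) (nat_lit 17930788477) (nat_lit 152) (nat_lit 25116248290) (nat_lit 76) (nat_lit 38627567786) (nat_lit 64) (nat_lit 5) (nat_lit 66) (nat_lit 5) (nat_lit 65) (nat_lit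 5) (nat_lit 540) (nat_lit 441) (nat_lit 219)) (XT.lf (nat_lit 0) (nat_lit 19693091949) (nat_lit 152) (nat_lit 19126476935) (nat_lit 228) (nat_lit 44569285979) (nat_lit 62) (nat_lit 5) (nat_lit 64) (nat_lit 5) (nat_lit 65) (nat_lit 5) (nat_lit 541) (nat_lit 441) (nat_lit 218))) (XT.nd (nat_lit 78) (nat_lit 76) (nat_lit 0) (XT.lf (nat_lit 0) (nat_lit 60642105943) (nat_lit 228) (nat_lit 18844610086) (nat_lit 76) (nat_lit 5658603958) (nat_lit 62) (nat_lit 5) (nat_lit 65) (nat_lit 5) (nat_lit 63) (nat_lit 4) (nat_lit 542) (nat_lit 441) (nat_lit 217)) (XT.lf (nat_lit 0) (nat_lit 27699570238) (nat_lit 76) (nat_lit 55873419529) (nat_lit 152) (nat_lit 3367879277) (nat_lit 61) (nat_lit 5) (nat_lit 62) (nat_lit 5) (nat_lit 63) (nat_lit 4) (nat_lit 543) (nat_lit 441) (nat_lit 216)))) (XT.nd (nat_lit 156) (nat_lit 76) (nat_lit 0) (XT.nd (nat_lit 78) (nat_lit 152) (nat_lit 0) (XT.lf (nat_lit 0) (nat_lit 18232650906) (nat_lit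 152) (nat_lit 12940632217) (nat_lit 76) (nat_lit 57605988488) (nat_lit 60) (nat_lit 5) (nat_lit 62) (nat_lit 5) (nat_lit 61) (nat_lit 5) (nat_lit 544) (nat_lit 441) (nat_lit 215)) (XT.lf (nat_lit 0) (nat_lit 35402997832) (nat_lit 152) (nat_lit 5348918071) (nat_lit 228) (nat_lit 49909757785) (nat_lit 58) (nat_lit 5) (nat_lit 60) (nat_lit 5) (nat_lit 61) (nat_lit 5) (nat_lit 545) (nat_lit 441) (nat_lit 214))) (XT.nd (nat_lit 78) (nat_lit 76) (nat_lit 0) (XT.lf (nat_lit 0) (nat_lit 64281098056) (nat_lit 228) (nat_lit 7343541329) (nat_lit 76) (nat_lit 20965878353) (nat_lit 58) (nat_lit 5) (nat_lit 61) (nat_lit 5) (nat_lit 59) (nat_lit 4) (nat_lit 546) (nat_lit 441) (nat_lit 213)) (XT.lf (nat_lit 0) (nat_lit 42787573647) (nat_lit 76) (nat_lit 46190997937) (nat_lit 152) (nat_lit 5584783135) (nat_lit 57) (nat_lit 5) (nat_lit 58) (nat_lit 5) (nat_lit 59) (nat_lit 4) (nat_lit 547) (nat_lit 441) (nat_lit 212))))))) (XT.nd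 (nat_lit 1170) (nat_lit 5016) (nat_lit 0) (XT.nd (nat_lit 546) (nat_lit 0) (nat_lit 76) (XT.nd (nat_lit 234) (nat_lit 1140) (nat_lit 0) (XT.nd (nat_lit 78) (nat_lit 0) (nat_lit 0) (XT.lf (nat_lit 0) (nat_lit 3141663222) (nat_lit 0) (nat_lit 3141663222) (nat_lit 1140) (nat_lit 862144099) (nat_lit 291) (nat_lit 5) (nat_lit 291) (nat_lit 3) (nat_lit 306) (nat_lit 3) (nat_lit 442) (nat_lit 442) (nat_lit 316)) (XT.nd (nat_lit 78) (nat_lit 0) (nat_lit 0) (XT.lf (nat_lit 0) (nat_lit 13083294280) (nat_lit 1140) (nat_lit 1004978749) (nat_lit 1216) (nat_lit 407109461) (nat_lit 291) (nat_lit 5) (nat_lit 306) (nat_lit 3) (nat_lit 307) (nat_lit 5) (nat_lit 443) (nat_lit 442) (nat_lit 315)) (XT.lf (nat_lit 76) (nat_lit 6260929629) (nat_lit 0) (nat_lit 7464310445) (nat_lit 1216) (nat_lit 977425972) (nat_lit 292) (nat_lit 5) (nat_lit 291) (nat_lit 5) (nat_lit 307) (nat_lit 5) (nat_lit 444) (nat_lit 442) (nat_lit 314)))) (XT.nd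 (nat_lit 156) (nat_lit 0) (nat_lit 0) (XT.nd (nat_lit 78) (nat_lit 1140) (nat_lit 0) (XT.lf (nat_lit 76) (nat_lit 13758713972) (nat_lit 0) (nat_lit 625590974) (nat_lit 1216) (nat_lit 531930312) (nat_lit 292) (nat_lit 5) (nat_lit 291) (nat_lit 5) (nat_lit 307) (nat_lit 5) (nat_lit 445) (nat_lit 442) (nat_lit 313)) (XT.lf (nat_lit 0) (nat_lit 40810027) (nat_lit 1216) (nat_lit 8731753470) (nat_lit 1292) (nat_lit 6360298304) (nat_lit 276) (nat_lit 5) (nat_lit 292) (nat_lit 5) (nat_lit 293) (nat_lit 5) (nat_lit 446) (nat_lit 442) (nat_lit 312))) (XT.nd (nat_lit 78) (nat_lit 0) (nat_lit 76) (XT.lf (nat_lit 0) (nat_lit 626324614) (nat_lit 1216) (nat_lit 1164076012) (nat_lit 1292) (nat_lit 13565242739) (nat_lit 276) (nat_lit 5) (nat_lit 292) (nat_lit 5) (nat_lit 293) (nat_lit 5) (nat_lit 447) (nat_lit 442) (nat_lit 311)) (XT.lf (nat_lit 0) (nat_lit 1335575534) (nat_lit 1216) (nat_lit 8880534361) (nat_lit 1292) (nat_lit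 5365815994) (nat_lit 277) (nat_lit 5) (nat_lit 293) (nat_lit 5) (nat_lit 294) (nat_lit 5) (nat_lit 448) (nat_lit 442) (nat_lit 310))))) (XT.nd (nat_lit 312) (nat_lit 0) (nat_lit 152) (XT.nd (nat_lit 156) (nat_lit 0) (nat_lit 76) (XT.nd (nat_lit 78) (nat_lit 0) (nat_lit 76) (XT.lf (nat_lit 0) (nat_lit 2084635173) (nat_lit 1216) (nat_lit 1012993106) (nat_lit 1292) (nat_lit 12716815239) (nat_lit 277) (nat_lit 5) (nat_lit 293) (nat_lit 5) (nat_lit 294) (nat_lit 5) (nat_lit 449) (nat_lit 442) (nat_lit 309)) (XT.lf (nat_lit 0) (nat_lit 2956296585) (nat_lit 1216) (nat_lit 8869035604) (nat_lit 1292) (nat_lit 4225603078) (nat_lit 278) (nat_lit 5) (nat_lit 294) (nat_lit 5) (nat_lit 295) (nat_lit 5) (nat_lit 450) (nat_lit 442) (nat_lit 308))) (XT.nd (nat_lit 78) (nat_lit 0) (nat_lit 76) (XT.lf (nat_lit 0) (nat_lit 3884644415) (nat_lit 1216) (nat_lit 688846338) (nat_lit 1292) (nat_lit 11720117335) (nat_lit 278) (nat_lit 5)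 (nat_lit 294) (nat_lit 5) (nat_lit 295) (nat_lit 5) (nat_lit 451) (nat_lit 442) (nat_lit 307)) (XT.lf (nat_lit 0) (nat_lit 4935082610) (nat_lit 1216) (nat_lit 8686681008) (nat_lit 1292) (nat_lit 2918972624) (nat_lit 279) (nat_lit 5) (nat_lit 295) (nat_lit 5) (nat_lit 296) (nat_lit 5) (nat_lit 452) (nat_lit 442) (nat_lit 306)))) (XT.nd (nat_lit 156) (nat_lit 0) (nat_lit 76) (XT.nd (nat_lit 78) (nat_lit 0) (nat_lit 76) (XT.lf (nat_lit 0) (nat_lit 6059439198) (nat_lit 1216) (nat_lit 180368889) (nat_lit 1292) (nat_lit 10554200276) (nat_lit 279) (nat_lit 5) (nat_lit 295) (nat_lit 5) (nat_lit 296) (nat_lit 5) (nat_lit 453) (nat_lit 442) (nat_lit 305)) (XT.lf (nat_lit 0) (nat_lit 7305936563) (nat_lit 1216) (nat_lit 8321938976) (nat_lit 1292) (nat_lit 1424353017) (nat_lit 280) (nat_lit 5) (nat_lit 296) (nat_lit 5) (nat_lit 297) (nat_lit 5) (nat_lit 454) (nat_lit 442) (nat_lit 304))) (XT.nd (nat_lit 78) (nat_lit 0) (nat_lit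 0) (XT.lf (nat_lit 76) (nat_lit 535131244) (nat_lit 0) (nat_lit 8114083196) (nat_lit 1292) (nat_lit 8667201497) (nat_lit 281) (nat_lit 5) (nat_lit 280) (nat_lit 5) (nat_lit 297) (nat_lit 5) (nat_lit 455) (nat_lit 442) (nat_lit 303)) (XT.lf (nat_lit 76) (nat_lit 9821239839) (nat_lit 0) (nat_lit 286411288) (nat_lit 1292) (nat_lit 7478634082) (nat_lit 281) (nat_lit 5) (nat_lit 280) (nat_lit 5) (nat_lit 297) (nat_lit 5) (nat_lit 456) (nat_lit 442) (nat_lit 302)))))) (XT.nd (nat_lit 624) (nat_lit 2812) (nat_lit 0) (XT.nd (nat_lit 312) (nat_lit 1444) (nat_lit 0) (XT.nd (nat_lit 156) (nat_lit 1140) (nat_lit 0) (XT.nd (nat_lit 78) (nat_lit 0) (nat_lit 0) (XT.lf (nat_lit 76) (nat_lit 1468242506) (nat_lit 0) (nat_lit 10221570851) (nat_lit 1292) (nat_lit 6172040054) (nat_lit 282) (nat_lit 5) (nat_lit 281) (nat_lit 5) (nat_lit 298) (nat_lit 5) (nat_lit 457) (nat_lit 442) (nat_lit 301)) (XT.lf (nat_lit 76) (nat_lit 11127543828)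 (nat_lit 0) (nat_lit 2264415619) (nat_lit 1292) (nat_lit 4751555606) (nat_lit 282) (nat_lit 5) (nat_lit 281) (nat_lit 5) (nat_lit 298) (nat_lit 5) (nat_lit 458) (nat_lit 442) (nat_lit 300))) (XT.nd (nat_lit 78) (nat_lit 0) (nat_lit 0) (XT.lf (nat_lit 0) (nat_lit 2629975377) (nat_lit 1216) (nat_lit 12589058332) (nat_lit 1292) (nat_lit 3212378832) (nat_lit 266) (nat_lit 5) (nat_lit 282) (nat_lit 5) (nat_lit 283) (nat_lit 5) (nat_lit 459) (nat_lit 442) (nat_lit 299)) (XT.lf (nat_lit 0) (nat_lit 12679000782) (nat_lit 1216) (nat_lit 4506709129) (nat_lit 1292) (nat_lit 1539695203) (nat_lit 266) (nat_lit 5) (nat_lit 282) (nat_lit 5) (nat_lit 283) (nat_lit 5) (nat_lit 460) (nat_lit 442) (nat_lit 298)))) (XT.nd (nat_lit 156) (nat_lit 608) (nat_lit 0) (XT.nd (nat_lit 78) (nat_lit 0) (nat_lit 0) (XT.lf (nat_lit 0) (nat_lit 247751920) (nat_lit 836) (nat_lit 14992582700) (nat_lit 76) (nat_lit 3785787050) (nat_lit 255) (nat_lit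 5) (nat_lit 266) (nat_lit 5) (nat_lit 256) (nat_lit 5) (nat_lit 461) (nat_lit 442) (nat_lit 297)) (XT.lf (nat_lit 0) (nat_lit 2156234679) (nat_lit 836) (nat_lit 4862054258) (nat_lit 76) (nat_lit 12314164389) (nat_lit 255) (nat_lit 5) (nat_lit 266) (nat_lit 5) (nat_lit 256) (nat_lit 5) (nat_lit 462) (nat_lit 442) (nat_lit 296))) (XT.nd (nat_lit 78) (nat_lit 0) (nat_lit 0) (XT.lf (nat_lit 0) (nat_lit 4183327620) (nat_lit 684) (nat_lit 13985076464) (nat_lit 76) (nat_lit 1477731824) (nat_lit 247) (nat_lit 5) (nat_lit 256) (nat_lit 5) (nat_lit 248) (nat_lit 5) (nat_lit 463) (nat_lit 442) (nat_lit 295)) (XT.lf (nat_lit 0) (nat_lit 6382771883) (nat_lit 684) (nat_lit 3445525182) (nat_lit 76) (nat_lit 10137587344) (nat_lit 247) (nat_lit 5) (nat_lit 256) (nat_lit 5) (nat_lit 248) (nat_lit 5) (nat_lit 464) (nat_lit 442) (nat_lit 294))))) (XT.nd (nat_lit 312) (nat_lit 1140) (nat_lit 0) (XT.nd (nat_lit 156) (nat_lit 1064) (nat_lit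 0) (XT.nd (nat_lit 78) (nat_lit 0) (nat_lit 0) (XT.lf (nat_lit 0) (nat_lit 7550433335) (nat_lit 608) (nat_lit 1163032122) (nat_lit 684) (nat_lit 11579803479) (nat_lit 239) (nat_lit 5) (nat_lit 247) (nat_lit 5) (nat_lit 248) (nat_lit 5) (nat_lit 465) (nat_lit 442) (nat_lit 293)) (XT.lf (nat_lit 0) (nat_lit 11216665361) (nat_lit 684) (nat_lit 1764753544) (nat_lit 76) (nat_lit 7645980036) (nat_lit 239) (nat_lit 5) (nat_lit 248) (nat_lit 5) (nat_lit 240) (nat_lit 5) (nat_lit 466) (nat_lit 442) (nat_lit 292))) (XT.nd (nat_lit 78) (nat_lit 532) (nat_lit 0) (XT.lf (nat_lit 0) (nat_lit 9713652285) (nat_lit 532) (nat_lit 4179239521) (nat_lit 608) (nat_lit 7075724586) (nat_lit 232) (nat_lit 5) (nat_lit 239) (nat_lit 5) (nat_lit 240) (nat_lit 5) (nat_lit 467) (nat_lit 442) (nat_lit 291)) (XT.lf (nat_lit 0) (nat_lit 202664354) (nat_lit 532) (nat_lit 16506838511) (nat_lit 608) (nat_lit 4608765987) (nat_lit 225) (nat_lit 5)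 (nat_lit 232) (nat_lit 5) (nat_lit 233) (nat_lit 5) (nat_lit 468) (nat_lit 442) (nat_lit 290)))) (XT.nd (nat_lit 156) (nat_lit 532) (nat_lit 0) (XT.nd (nat_lit 78) (nat_lit 608) (nat_lit 0) (XT.lf (nat_lit 0) (nat_lit 12185418450) (nat_lit 532) (nat_lit 7573125975) (nat_lit 608) (nat_lit 1915429874) (nat_lit 225) (nat_lit 5) (nat_lit 232) (nat_lit 5) (nat_lit 233) (nat_lit 5) (nat_lit 469) (nat_lit 442) (nat_lit 289)) (XT.lf (nat_lit 0) (nat_lit 875592892) (nat_lit 608) (nat_lit 19534340450) (nat_lit 76) (nat_lit 1629161944) (nat_lit 217) (nat_lit 5) (nat_lit 225) (nat_lit 5) (nat_lit 218) (nat_lit 5) (nat_lit 470) (nat_lit 442) (nat_lit 288))) (XT.nd (nat_lit 78) (nat_lit 532) (nat_lit 0) (XT.lf (nat_lit 0) (nat_lit 3877148557) (nat_lit 608) (nat_lit 7461981070) (nat_lit 76) (nat_lit 11070513583) (nat_lit 217) (nat_lit 5) (nat_lit 225) (nat_lit 5) (nat_lit 218) (nat_lit 5) (nat_lit 471) (nat_lit 442) (nat_lit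 287)) (XT.lf (nat_lit 0) (nat_lit 5064420972) (nat_lit 532) (nat_lit 1946754496) (nat_lit 608) (nat_lit 15778860591) (nat_lit 210) (nat_lit 5) (nat_lit 217) (nat_lit 5) (nat_lit 218) (nat_lit 5) (nat_lit 472) (nat_lit 442) (nat_lit 286))))))))
noncomputable def xc187 : XT := (XT.nd (nat_lit 2340) (nat_lit 4028) (nat_lit 0) (XT.nd (nat_lit 1170) (nat_lit 2888) (nat_lit 0) (XT.nd (nat_lit 546) (nat_lit 1596) (nat_lit 0) (XT.nd (nat_lit 234) (nat_lit 1444) (nat_lit 0) (XT.nd (nat_lit 78) (nat_lit 456) (nat_lit 0) (XT.lf (nat_lit 0) (nat_lit 10383452238) (nat_lit 608) (nat_lit 5142091588) (nat_lit 76) (nat_lit 7651971187) (nat_lit 210) (nat_lit 5) (nat_lit 218) (nat_lit 5) (nat_lit 211) (nat_lit 5) (nat_lit 473) (nat_lit 442) (nat_lit 285)) (XT.nd (nat_lit 78) (nat_lit 0) (nat_lit 0) (XT.lf (nat_lit 0) (nat_lit 7947897314) (nat_lit 456) (nat_lit 5998705135) (nat_lit 532) (nat_lit 9627325886) (nat_lit 204) (nat_lit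 5) (nat_lit 210) (nat_lit 5) (nat_lit 211) (nat_lit 5) (nat_lit 474) (nat_lit 442) (nat_lit 284)) (XT.lf (nat_lit 0) (nat_lit 17699878192) (nat_lit 532) (nat_lit 2488817004) (nat_lit 76) (nat_lit 3791043051) (nat_lit 204) (nat_lit 5) (nat_lit 211) (nat_lit 5) (nat_lit 205) (nat_lit 5) (nat_lit 475) (nat_lit 442) (nat_lit 283)))) (XT.nd (nat_lit 156) (nat_lit 456) (nat_lit 0) (XT.nd (nat_lit 78) (nat_lit 532) (nat_lit 0) (XT.lf (nat_lit 0) (nat_lit 11194815765) (nat_lit 456) (nat_lit 10532241912) (nat_lit 532) (nat_lit 2665826703) (nat_lit 198) (nat_lit 5) (nat_lit 204) (nat_lit 5) (nat_lit 205) (nat_lit 5) (nat_lit 476) (nat_lit 442) (nat_lit 282)) (XT.lf (nat_lit 0) (nat_lit 515148468) (nat_lit 456) (nat_lit 545539662) (nat_lit 532) (nat_lit 23756692713) (nat_lit 191) (nat_lit 5) (nat_lit 197) (nat_lit 5) (nat_lit 198) (nat_lit 5) (nat_lit 477) (nat_lit 442) (nat_lit 281))) (XT.nd (nat_lit 78) (nat_lit 456) (nat_lit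 0) (XT.lf (nat_lit 0) (nat_lit 5068080996) (nat_lit 532) (nat_lit 10468545073) (nat_lit 76) (nat_lit 9710515403) (nat_lit 191) (nat_lit 5) (nat_lit 198) (nat_lit 5) (nat_lit 192) (nat_lit 5) (nat_lit 478) (nat_lit 442) (nat_lit 280)) (XT.lf (nat_lit 0) (nat_lit 3843051401) (nat_lit 456) (nat_lit 5389584207) (nat_lit 532) (nat_lit 16456052081) (nat_lit 185) (nat_lit 5) (nat_lit 191) (nat_lit 5) (nat_lit 192) (nat_lit 5) (nat_lit 479) (nat_lit 442) (nat_lit 279))))) (XT.nd (nat_lit 312) (nat_lit 760) (nat_lit 0) (XT.nd (nat_lit 156) (nat_lit 456) (nat_lit 0) (XT.nd (nat_lit 78) (nat_lit 380) (nat_lit 0) (XT.lf (nat_lit 0) (nat_lit 13672220908) (nat_lit 532) (nat_lit 7398196487) (nat_lit 76) (nat_lit 5068561015) (nat_lit 185) (nat_lit 5) (nat_lit 192) (nat_lit 5) (nat_lit 186) (nat_lit 5) (nat_lit 480) (nat_lit 442) (nat_lit 278)) (XT.lf (nat_lit 0) (nat_lit 7570454623) (nat_lit 380) (nat_lit 10795506056) (nat_lit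 456) (nat_lit 8233189078) (nat_lit 180) (nat_lit 5) (nat_lit 185) (nat_lit 5) (nat_lit 186) (nat_lit 5) (nat_lit 481) (nat_lit 442) (nat_lit 277))) (XT.nd (nat_lit 78) (nat_lit 456) (nat_lit 0) (XT.lf (nat_lit 0) (nat_lit 23133309014) (nat_lit 380) (nat_lit 136831660) (nat_lit 456) (nat_lit 3800897612) (nat_lit 180) (nat_lit 5) (nat_lit 185) (nat_lit 5) (nat_lit 186) (nat_lit 5) (nat_lit 482) (nat_lit 442) (nat_lit 276)) (XT.lf (nat_lit 0) (nat_lit 963515383) (nat_lit 456) (nat_lit 15836100948) (nat_lit 76) (nat_lit 10750825504) (nat_lit 174) (nat_lit 5) (nat_lit 180) (nat_lit 5) (nat_lit 175) (nat_lit 5) (nat_lit 483) (nat_lit 442) (nat_lit 275)))) (XT.nd (nat_lit 156) (nat_lit 380) (nat_lit 0) (XT.nd (nat_lit 78) (nat_lit 380) (nat_lit 0) (XT.lf (nat_lit 0) (nat_lit 5831067216) (nat_lit 456) (nat_lit 172215982) (nat_lit 76) (nat_lit 22038718099) (nat_lit 174) (nat_lit 5) (nat_lit 180) (nat_lit 5) (nat_lit 175)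 (nat_lit 5) (nat_lit 484) (nat_lit 442) (nat_lit 274)) (XT.lf (nat_lit 0) (nat_lit 11047023041) (nat_lit 456) (nat_lit 12321656773) (nat_lit 76) (nat_lit 5173557193) (nat_lit 169) (nat_lit 5) (nat_lit 175) (nat_lit 5) (nat_lit 170) (nat_lit 5) (nat_lit 485) (nat_lit 442) (nat_lit 273))) (XT.nd (nat_lit 78) (nat_lit 0) (nat_lit 0) (XT.lf (nat_lit 0) (nat_lit 4064756746) (nat_lit 380) (nat_lit 12450264333) (nat_lit 456) (nat_lit 12539592565) (nat_lit 164) (nat_lit 5) (nat_lit 169) (nat_lit 5) (nat_lit 170) (nat_lit 5) (nat_lit 486) (nat_lit 442) (nat_lit 272)) (XT.lf (nat_lit 0) (nat_lit 21189038381) (nat_lit 380) (nat_lit 1077817547) (nat_lit 456) (nat_lit 7311912488) (nat_lit 164) (nat_lit 5) (nat_lit 169) (nat_lit 5) (nat_lit 170) (nat_lit 5) (nat_lit 487) (nat_lit 442) (nat_lit 271)))))) (XT.nd (nat_lit 546) (nat_lit 1444) (nat_lit 0) (XT.nd (nat_lit 234) (nat_lit 684) (nat_lit 0) (XT.nd (nat_lit 78) (nat_lit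 456) (nat_lit 0) (XT.lf (nat_lit 0) (nat_lit 8771075729) (nat_lit 304) (nat_lit 19602212300) (nat_lit 380) (nat_lit 1739899256) (nat_lit 160) (nat_lit 5) (nat_lit 164) (nat_lit 5) (nat_lit 165) (nat_lit 5) (nat_lit 488) (nat_lit 442) (nat_lit 270)) (XT.nd (nat_lit 78) (nat_lit 380) (nat_lit 0) (XT.lf (nat_lit 0) (nat_lit 4012982925) (nat_lit 380) (nat_lit 4098634967) (nat_lit 76) (nat_lit 22548115737) (nat_lit 159) (nat_lit 5) (nat_lit 164) (nat_lit 5) (nat_lit 160) (nat_lit 5) (nat_lit 489) (nat_lit 442) (nat_lit 269)) (XT.lf (nat_lit 0) (nat_lit 10070116766) (nat_lit 456) (nat_lit 17345281198) (nat_lit 76) (nat_lit 3801763193) (nat_lit 154) (nat_lit 5) (nat_lit 160) (nat_lit 5) (nat_lit 155) (nat_lit 5) (nat_lit 490) (nat_lit 442) (nat_lit 268)))) (XT.nd (nat_lit 156) (nat_lit 380) (nat_lit 0) (XT.nd (nat_lit 78) (nat_lit 0) (nat_lit 0) (XT.lf (nat_lit 0) (nat_lit 600308847) (nat_lit 304) (nat_lit 15832238531)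 (nat_lit 380) (nat_lit 15355057290) (nat_lit 150) (nat_lit 5) (nat_lit 154) (nat_lit 5) (nat_lit 155) (nat_lit 5) (nat_lit 491) (nat_lit 442) (nat_lit 267)) (XT.lf (nat_lit 0) (nat_lit 19433747082) (nat_lit 304) (nat_lit 3723025121) (nat_lit 380) (nat_lit 9213262262) (nat_lit 150) (nat_lit 5) (nat_lit 154) (nat_lit 5) (nat_lit 155) (nat_lit 5) (nat_lit 492) (nat_lit 442) (nat_lit 266))) (XT.nd (nat_lit 78) (nat_lit 76) (nat_lit 0) (XT.lf (nat_lit 0) (nat_lit 5887012649) (nat_lit 304) (nat_lit 24332279875) (nat_lit 380) (nat_lit 2746548173) (nat_lit 146) (nat_lit 5) (nat_lit 150) (nat_lit 5) (nat_lit 151) (nat_lit 5) (nat_lit 493) (nat_lit 442) (nat_lit 265)) (XT.lf (nat_lit 0) (nat_lit 4002470125) (nat_lit 380) (nat_lit 8117223265) (nat_lit 76) (nat_lit 21453759064) (nat_lit 145) (nat_lit 5) (nat_lit 150) (nat_lit 5) (nat_lit 146) (nat_lit 5) (nat_lit 494) (nat_lit 442) (nat_lit 264))))) (XT.nd (nat_lit 312) (nat_lit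 608) (nat_lit 0) (XT.nd (nat_lit 156) (nat_lit 532) (nat_lit 0) (XT.nd (nat_lit 78) (nat_lit 0) (nat_lit 0) (XT.lf (nat_lit 0) (nat_lit 11012112801) (nat_lit 380) (nat_lit 22594354286) (nat_lit 76) (nat_lit 588609518) (nat_lit 141) (nat_lit 5) (nat_lit 146) (nat_lit 5) (nat_lit 142) (nat_lit 5) (nat_lit 495) (nat_lit 442) (nat_lit 263)) (XT.lf (nat_lit 0) (nat_lit 18430879251) (nat_lit 380) (nat_lit 2882998225) (nat_lit 76) (nat_lit 13515507508) (nat_lit 141) (nat_lit 5) (nat_lit 146) (nat_lit 5) (nat_lit 142) (nat_lit 5) (nat_lit 496) (nat_lit 442) (nat_lit 262))) (XT.nd (nat_lit 78) (nat_lit 228) (nat_lit 0) (XT.lf (nat_lit 0) (nat_lit 17760541879) (nat_lit 304) (nat_lit 8478564750) (nat_lit 380) (nat_lit 9238609564) (nat_lit 137) (nat_lit 5) (nat_lit 141) (nat_lit 5) (nat_lit 142) (nat_lit 5) (nat_lit 497) (nat_lit 442) (nat_lit 261)) (XT.lf (nat_lit 0) (nat_lit 2943667067) (nat_lit 228) (nat_lit 31437403520)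 (nat_lit 304) (nat_lit 1761442566) (nat_lit 134) (nat_lit 5) (nat_lit 137) (nat_lit 5) (nat_lit 138) (nat_lit 5) (nat_lit 498) (nat_lit 442) (nat_lit 260)))) (XT.nd (nat_lit 156) (nat_lit 228) (nat_lit 0) (XT.nd (nat_lit 78) (nat_lit 304) (nat_lit 0) (XT.lf (nat_lit 0) (nat_lit 6084983562) (nat_lit 304) (nat_lit 12382972131) (nat_lit 76) (nat_lit 18349760154) (nat_lit 133) (nat_lit 5) (nat_lit 137) (nat_lit 5) (nat_lit 134) (nat_lit 5) (nat_lit 499) (nat_lit 442) (nat_lit 259)) (XT.lf (nat_lit 0) (nat_lit 9214120329) (nat_lit 304) (nat_lit 5002189883) (nat_lit 380) (nat_lit 23293794340) (nat_lit 129) (nat_lit 5) (nat_lit 133) (nat_lit 5) (nat_lit 134) (nat_lit 5) (nat_lit 500) (nat_lit 442) (nat_lit 258))) (XT.nd (nat_lit 78) (nat_lit 228) (nat_lit 0) (XT.lf (nat_lit 0) (nat_lit 22799472339) (nat_lit 380) (nat_lit 6598680777) (nat_lit 76) (nat_lit 8818875381) (nat_lit 129) (nat_lit 5) (nat_lit 134) (nat_lit 5)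 (nat_lit 130) (nat_lit 5) (nat_lit 501) (nat_lit 442) (nat_lit 257)) (XT.lf (nat_lit 0) (nat_lit 16006878489) (nat_lit 228) (nat_lit 15833124581) (nat_lit 304) (nat_lit 7099161315) (nat_lit 126) (nat_lit 5) (nat_lit 129) (nat_lit 5) (nat_lit 130) (nat_lit 5) (nat_lit 502) (nat_lit 442) (nat_lit 256))))))) (XT.nd (nat_lit 1170) (nat_lit 1748) (nat_lit 0) (XT.nd (nat_lit 546) (nat_lit 1140) (nat_lit 0) (XT.nd (nat_lit 234) (nat_lit 532) (nat_lit 0) (XT.nd (nat_lit 78) (nat_lit 532) (nat_lit 0) (XT.lf (nat_lit 0) (nat_lit 1503912289) (nat_lit 304) (nat_lit 275377787) (nat_lit 76) (nat_lit 37901337471) (nat_lit 125) (nat_lit 5) (nat_lit 129) (nat_lit 5) (nat_lit 126) (nat_lit 5) (nat_lit 503) (nat_lit 442) (nat_lit 255)) (XT.nd (nat_lit 78) (nat_lit 228) (nat_lit 0) (XT.lf (nat_lit 0) (nat_lit 10569289572) (nat_lit 380) (nat_lit 17117456756) (nat_lit 76) (nat_lit 12745073083) (nat_lit 121) (nat_lit 5) (nat_lit 126)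 (nat_lit 5) (nat_lit 122) (nat_lit 5) (nat_lit 504) (nat_lit 442) (nat_lit 254)) (XT.lf (nat_lit 0) (nat_lit 6516110651) (nat_lit 228) (nat_lit 13470205860) (nat_lit 304) (nat_lit 21216840258) (nat_lit 118) (nat_lit 5) (nat_lit 121) (nat_lit 5) (nat_lit 122) (nat_lit 5) (nat_lit 505) (nat_lit 442) (nat_lit 253)))) (XT.nd (nat_lit 156) (nat_lit 304) (nat_lit 0) (XT.nd (nat_lit 78) (nat_lit 228) (nat_lit 0) (XT.lf (nat_lit 0) (nat_lit 29868346765) (nat_lit 304) (nat_lit 10801260726) (nat_lit 76) (nat_lit 1322552358) (nat_lit 118) (nat_lit 5) (nat_lit 122) (nat_lit 5) (nat_lit 119) (nat_lit 5) (nat_lit 506) (nat_lit 442) (nat_lit 252)) (XT.lf (nat_lit 0) (nat_lit 13934394603) (nat_lit 228) (nat_lit 26376509443) (nat_lit 304) (nat_lit 2486007355) (nat_lit 115) (nat_lit 5) (nat_lit 118) (nat_lit 5) (nat_lit 119) (nat_lit 5) (nat_lit 507) (nat_lit 442) (nat_lit 251))) (XT.nd (nat_lit 78) (nat_lit 228) (nat_lit 0) (XT.lf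 (nat_lit 0) (nat_lit 7402649055) (nat_lit 304) (nat_lit 4066864008) (nat_lit 76) (nat_lit 32150939499) (nat_lit 114) (nat_lit 5) (nat_lit 118) (nat_lit 5) (nat_lit 115) (nat_lit 5) (nat_lit 508) (nat_lit 442) (nat_lit 250)) (XT.lf (nat_lit 0) (nat_lit 17784730738) (nat_lit 304) (nat_lit 22631702334) (nat_lit 76) (nat_lit 4044126845) (nat_lit 111) (nat_lit 5) (nat_lit 115) (nat_lit 5) (nat_lit 112) (nat_lit 5) (nat_lit 509) (nat_lit 442) (nat_lit 249))))) (XT.nd (nat_lit 312) (nat_lit 684) (nat_lit 0) (XT.nd (nat_lit 156) (nat_lit 228) (nat_lit 0) (XT.nd (nat_lit 78) (nat_lit 0) (nat_lit 0) (XT.lf (nat_lit 0) (nat_lit 3203596612) (nat_lit 228) (nat_lit 25457389444) (nat_lit 304) (nat_lit 16659403427) (nat_lit 108) (nat_lit 5) (nat_lit 111) (nat_lit 5) (nat_lit 112) (nat_lit 5) (nat_lit 510) (nat_lit 442) (nat_lit 248)) (XT.lf (nat_lit 0) (nat_lit 30272802501) (nat_lit 228) (nat_lit 9816187073) (nat_lit 304) (nat_lit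 6110260860) (nat_lit 108) (nat_lit 5) (nat_lit 111) (nat_lit 5) (nat_lit 112) (nat_lit 5) (nat_lit 511) (nat_lit 442) (nat_lit 247))) (XT.nd (nat_lit 78) (nat_lit 0) (nat_lit 0) (XT.lf (nat_lit 0) (nat_lit 4829384115) (nat_lit 228) (nat_lit 35944163471) (nat_lit 76) (nat_lit 6324553913) (nat_lit 105) (nat_lit 5) (nat_lit 108) (nat_lit 5) (nat_lit 106) (nat_lit 5) (nat_lit 512) (nat_lit 442) (nat_lit 246)) (XT.lf (nat_lit 0) (nat_lit 16231022280) (nat_lit 228) (nat_lit 8810174902) (nat_lit 76) (nat_lit 22973207853) (nat_lit 105) (nat_lit 5) (nat_lit 108) (nat_lit 5) (nat_lit 106) (nat_lit 5) (nat_lit 513) (nat_lit 442) (nat_lit 245)))) (XT.nd (nat_lit 156) (nat_lit 456) (nat_lit 0) (XT.nd (nat_lit 78) (nat_lit 0) (nat_lit 0) (XT.lf (nat_lit 0) (nat_lit 19513749106) (nat_lit 228) (nat_lit 8645631618) (nat_lit 304) (nat_lit 20793277097) (nat_lit 102) (nat_lit 5) (nat_lit 105) (nat_lit 5) (nat_lit 106) (nat_lit 5)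 (nat_lit 514) (nat_lit 442) (nat_lit 244)) (XT.lf (nat_lit 0) (nat_lit 40611774111) (nat_lit 304) (nat_lit 1133392121) (nat_lit 76) (nat_lit 8168906706) (nat_lit 102) (nat_lit 5) (nat_lit 106) (nat_lit 5) (nat_lit 103) (nat_lit 5) (nat_lit 515) (nat_lit 442) (nat_lit 243))) (XT.nd (nat_lit 78) (nat_lit 228) (nat_lit 0) (XT.lf (nat_lit 0) (nat_lit 2844133408) (nat_lit 228) (nat_lit 22434690559) (nat_lit 76) (nat_lit 25613971399) (nat_lit 99) (nat_lit 5) (nat_lit 102) (nat_lit 5) (nat_lit 100) (nat_lit 5) (nat_lit 516) (nat_lit 442) (nat_lit 242)) (XT.lf (nat_lit 0) (nat_lit 7101652915) (nat_lit 228) (nat_lit 8143368041) (nat_lit 304) (nat_lit 36650784821) (nat_lit 96) (nat_lit 5) (nat_lit 99) (nat_lit 5) (nat_lit 100) (nat_lit 5) (nat_lit 517) (nat_lit 442) (nat_lit 241)))))) (XT.nd (nat_lit 624) (nat_lit 912) (nat_lit 0) (XT.nd (nat_lit 312) (nat_lit 380) (nat_lit 0) (XT.nd (nat_lit 156) (nat_lit 304) (nat_lit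 0) (XT.nd (nat_lit 78) (nat_lit 152) (nat_lit 0) (XT.lf (nat_lit 0) (nat_lit 28335326442) (nat_lit 304) (nat_lit 15036528447) (nat_lit 76) (nat_lit 9547530112) (nat_lit 96) (nat_lit 5) (nat_lit 100) (nat_lit 5) (nat_lit 97) (nat_lit 5) (nat_lit 518) (nat_lit 442) (nat_lit 240)) (XT.lf (nat_lit 0) (nat_lit 15837612946) (nat_lit 152) (nat_lit 26210900209) (nat_lit 228) (nat_lit 11918253519) (nat_lit 94) (nat_lit 5) (nat_lit 96) (nat_lit 5) (nat_lit 97) (nat_lit 5) (nat_lit 519) (nat_lit 442) (nat_lit 239))) (XT.nd (nat_lit 78) (nat_lit 228) (nat_lit 0) (XT.lf (nat_lit 0) (nat_lit 1256178085) (nat_lit 228) (nat_lit 7111785288) (nat_lit 76) (nat_lit 46672761856) (nat_lit 93) (nat_lit 5) (nat_lit 96) (nat_lit 5) (nat_lit 94) (nat_lit 5) (nat_lit 520) (nat_lit 442) (nat_lit 238)) (XT.lf (nat_lit 0) (nat_lit 14925751463) (nat_lit 304) (nat_lit 31030501689) (nat_lit 76) (nat_lit 10176925910) (nat_lit 90) (nat_lit 5) (nat_lit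 94) (nat_lit 5) (nat_lit 91) (nat_lit 5) (nat_lit 521) (nat_lit 442) (nat_lit 237)))) (XT.nd (nat_lit 156) (nat_lit 228) (nat_lit 0) (XT.nd (nat_lit 78) (nat_lit 0) (nat_lit 0) (XT.lf (nat_lit 0) (nat_lit 1106616859) (nat_lit 152) (nat_lit 28062214901) (nat_lit 228) (nat_lit 28084672367) (nat_lit 88) (nat_lit 5) (nat_lit 90) (nat_lit 5) (nat_lit 91) (nat_lit 5) (nat_lit 522) (nat_lit 442) (nat_lit 236)) (XT.lf (nat_lit 0) (nat_lit 34839466614) (nat_lit 152) (nat_lit 9310522611) (nat_lit 228) (nat_lit 14248126377) (nat_lit 88) (nat_lit 5) (nat_lit 90) (nat_lit 5) (nat_lit 91) (nat_lit 5) (nat_lit 523) (nat_lit 442) (nat_lit 235))) (XT.nd (nat_lit 78) (nat_lit 0) (nat_lit 0) (XT.lf (nat_lit 0) (nat_lit 196116508) (nat_lit 228) (nat_lit 49469431956) (nat_lit 76) (nat_lit 9905736060) (nat_lit 85) (nat_lit 5) (nat_lit 88) (nat_lit 5) (nat_lit 86) (nat_lit 5) (nat_lit 524) (nat_lit 442) (nat_lit 234)) (XT.lf (nat_lit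 0) (nat_lit 15117249087) (nat_lit 228) (nat_lit 15757433129) (nat_lit 76) (nat_lit 29890836297) (nat_lit 85) (nat_lit 5) (nat_lit 88) (nat_lit 5) (nat_lit 86) (nat_lit 5) (nat_lit 525) (nat_lit 442) (nat_lit 233))))) (XT.nd (nat_lit 312) (nat_lit 380) (nat_lit 0) (XT.nd (nat_lit 156) (nat_lit 380) (nat_lit 0) (XT.nd (nat_lit 78) (nat_lit 0) (nat_lit 0) (XT.lf (nat_lit 0) (nat_lit 19339017489) (nat_lit 152) (nat_lit 11330470093) (nat_lit 228) (nat_lit 31320587959) (nat_lit 83) (nat_lit 5) (nat_lit 85) (nat_lit 5) (nat_lit 86) (nat_lit 5) (nat_lit 526) (nat_lit 442) (nat_lit 232)) (XT.lf (nat_lit 0) (nat_lit 46931165160) (nat_lit 228) (nat_lit 7525683659) (nat_lit 76) (nat_lit 8787234479) (nat_lit 83) (nat_lit 5) (nat_lit 86) (nat_lit 5) (nat_lit 84) (nat_lit 5) (nat_lit 527) (nat_lit 442) (nat_lit 231))) (XT.nd (nat_lit 78) (nat_lit 228) (nat_lit 0) (XT.lf (nat_lit 0) (nat_lit 29105043982) (nat_lit 152) (nat_lit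 34965263431) (nat_lit 228) (nat_lit 453715612) (nat_lit 81) (nat_lit 5) (nat_lit 83) (nat_lit 5) (nat_lit 84) (nat_lit 5) (nat_lit 528) (nat_lit 442) (nat_lit 230)) (XT.lf (nat_lit 0) (nat_lit 1011022155) (nat_lit 152) (nat_lit 14644467317) (nat_lit 228) (nat_lit 50179768006) (nat_lit 78) (nat_lit 5) (nat_lit 80) (nat_lit 5) (nat_lit 81) (nat_lit 5) (nat_lit 529) (nat_lit 442) (nat_lit 229)))) (XT.nd (nat_lit 156) (nat_lit 228) (nat_lit 0) (XT.nd (nat_lit 78) (nat_lit 152) (nat_lit 0) (XT.lf (nat_lit 0) (nat_lit 32658151676) (nat_lit 228) (nat_lit 27987765394) (nat_lit 76) (nat_lit 6527198277) (nat_lit 78) (nat_lit 5) (nat_lit 81) (nat_lit 5) (nat_lit 79) (nat_lit 5) (nat_lit 530) (nat_lit 442) (nat_lit 228)) (XT.lf (nat_lit 0) (nat_lit 9999873212) (nat_lit 152) (nat_lit 40409880282) (nat_lit 228) (nat_lit 18134189814) (nat_lit 76) (nat_lit 5) (nat_lit 78) (nat_lit 5) (nat_lit 79) (nat_lit 5) (nat_lit 531) (nat_lit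 442) (nat_lit 227))) (XT.nd (nat_lit 78) (nat_lit 228) (nat_lit 0) (XT.lf (nat_lit 0) (nat_lit 49696838335) (nat_lit 152) (nat_lit 19277453845) (nat_lit 228) (nat_lit 973192410) (nat_lit 76) (nat_lit 5) (nat_lit 78) (nat_lit 5) (nat_lit 79) (nat_lit 5) (nat_lit 532) (nat_lit 442) (nat_lit 226)) (XT.lf (nat_lit 0) (nat_lit 16588401899) (nat_lit 228) (nat_lit 52004380439) (nat_lit 76) (nat_lit 2789182365) (nat_lit 73) (nat_lit 5) (nat_lit 76) (nat_lit 5) (nat_lit 74) (nat_lit 5) (nat_lit 533) (nat_lit 442) (nat_lit 225))))))))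
noncomputable def xc188 : XT := (XT.nd (nat_lit 56706) (nat_lit 0) (nat_lit 7752) (XT.nd (nat_lit 55536) (nat_lit 0) (nat_lit 16492) (XT.nd (nat_lit 546) (nat_lit 532) (nat_lit 0) (XT.nd (nat_lit 234) (nat_lit 456) (nat_lit 0) (XT.nd (nat_lit 78) (nat_lit 152) (nat_lit 0) (XT.lf (nat_lit 0) (nat_lit 35052486245) (nat_lit 228) (nat_lit 12450050857) (nat_lit 76) (nat_lit 25344797111) (nat_lit 73) (nat_lit 5) (nat_lit 76) (nat_lit 5) (nat_lit 74) (nat_lit 5) (nat_lit 534) (nat_lit 442) (nat_lit 224)) (XT.nd (nat_lit 78) (nat_lit 0) (nat_lit 0) (XT.lf (nat_lit 0) (nat_lit 28850031623) (nat_lit 152) (nat_lit 25495669182) (nat_lit 228) (nat_lit 20002707902) (nat_lit 71) (nat_lit 5) (nat_lit 73) (nat_lit 5) (nat_lit 74) (nat_lit 5) (nat_lit 535) (nat_lit 442) (nat_lit 223)) (XT.lf (nat_lit 0) (nat_lit 71640523094) (nat_lit 152) (nat_lit 2700818391) (nat_lit 228) (nat_lit 1549465188) (nat_lit 71) (nat_lit 5) (nat_lit 73)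 (nat_lit 5) (nat_lit 74) (nat_lit 5) (nat_lit 536) (nat_lit 442) (nat_lit 222)))) (XT.nd (nat_lit 156) (nat_lit 76) (nat_lit 0) (XT.nd (nat_lit 78) (nat_lit 152) (nat_lit 0) (XT.lf (nat_lit 0) (nat_lit 17692911131) (nat_lit 228) (nat_lit 38847131669) (nat_lit 76) (nat_lit 20917113789) (nat_lit 68) (nat_lit 5) (nat_lit 71) (nat_lit 5) (nat_lit 69) (nat_lit 5) (nat_lit 537) (nat_lit 442) (nat_lit 221)) (XT.lf (nat_lit 0) (nat_lit 3801998080) (nat_lit 152) (nat_lit 33784007661) (nat_lit 228) (nat_lit 41480893447) (nat_lit 66) (nat_lit 5) (nat_lit 68) (nat_lit 5) (nat_lit 69) (nat_lit 5) (nat_lit 538) (nat_lit 442) (nat_lit 220))) (XT.nd (nat_lit 78) (nat_lit 76) (nat_lit 0) (XT.lf (nat_lit 0) (nat_lit 48523221018) (nat_lit 152) (nat_lit 9942933209) (nat_lit 228) (nat_lit 22247072119) (nat_lit 66) (nat_lit 5) (nat_lit 68) (nat_lit 5) (nat_lit 69) (nat_lit 5) (nat_lit 539) (nat_lit 442) (nat_lit 219)) (XT.lf (nat_lit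 0) (nat_lit 12272501411) (nat_lit 76) (nat_lit 67956673440) (nat_lit 152) (nat_lit 2172074547) (nat_lit 65) (nat_lit 5) (nat_lit 66) (nat_lit 5) (nat_lit 67) (nat_lit 4) (nat_lit 540) (nat_lit 442) (nat_lit 218))))) (XT.nd (nat_lit 312) (nat_lit 228) (nat_lit 0) (XT.nd (nat_lit 156) (nat_lit 76) (nat_lit 0) (XT.nd (nat_lit 78) (nat_lit 152) (nat_lit 0) (XT.lf (nat_lit 0) (nat_lit 18568817199) (nat_lit 152) (nat_lit 25684608423) (nat_lit 76) (nat_lit 39868408725) (nat_lit 64) (nat_lit 5) (nat_lit 66) (nat_lit 5) (nat_lit 65) (nat_lit 5) (nat_lit 541) (nat_lit 442) (nat_lit 217)) (XT.lf (nat_lit 0) (nat_lit 20467197050) (nat_lit 152) (nat_lit 19615910397) (nat_lit 228) (nat_lit 45804439477) (nat_lit 62) (nat_lit 5) (nat_lit 64) (nat_lit 5) (nat_lit 65) (nat_lit 5) (nat_lit 542) (nat_lit 442) (nat_lit 216))) (XT.nd (nat_lit 78) (nat_lit 76) (nat_lit 0) (XT.lf (nat_lit 0) (nat_lit 62558225844) (nat_lit 228) (nat_lit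 19229875575) (nat_lit 76) (nat_lit 5908667573) (nat_lit 62) (nat_lit 5) (nat_lit 65) (nat_lit 5) (nat_lit 63) (nat_lit 4) (nat_lit 543) (nat_lit 442) (nat_lit 215)) (XT.lf (nat_lit 0) (nat_lit 28708864739) (nat_lit 76) (nat_lit 57467064374) (nat_lit 152) (nat_lit 3370288763) (nat_lit 61) (nat_lit 5) (nat_lit 62) (nat_lit 5) (nat_lit 63) (nat_lit 4) (nat_lit 544) (nat_lit 442) (nat_lit 214)))) (XT.nd (nat_lit 54522) (nat_lit 0) (nat_lit 17708) (XT.nd (nat_lit 78) (nat_lit 152) (nat_lit 0) (XT.lf (nat_lit 0) (nat_lit 18873516187) (nat_lit 152) (nat_lit 13153864221) (nat_lit 76) (nat_lit 59412448301) (nat_lit 60) (nat_lit 5) (nat_lit 62) (nat_lit 5) (nat_lit 61) (nat_lit 5) (nat_lit 545) (nat_lit 442) (nat_lit 213)) (XT.lf (nat_lit 0) (nat_lit 36638359171) (nat_lit 152) (nat_lit 5428931017) (nat_lit 228) (nat_lit 51311444859) (nat_lit 58) (nat_lit 5) (nat_lit 60) (nat_lit 5) (nat_lit 61) (nat_lit 5) (nat_lit 546)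 (nat_lit 442) (nat_lit 212))) (XT.nd (nat_lit 78) (nat_lit 0) (nat_lit 0) (XT.lf (nat_lit 0) (nat_lit 3396430317) (nat_lit 0) (nat_lit 3396430317) (nat_lit 1140) (nat_lit 557265283) (nat_lit 291) (nat_lit 5) (nat_lit 291) (nat_lit 3) (nat_lit 306) (nat_lit 3) (nat_lit 443) (nat_lit 443) (nat_lit 314)) (XT.lf (nat_lit 0) (nat_lit 14096164774) (nat_lit 1140) (nat_lit 701596210) (nat_lit 1216) (nat_lit 113720940) (nat_lit 291) (nat_lit 5) (nat_lit 306) (nat_lit 3) (nat_lit 307) (nat_lit 5) (nat_lit 444) (nat_lit 443) (nat_lit 313)))))) (XT.nd (nat_lit 546) (nat_lit 0) (nat_lit 228) (XT.nd (nat_lit 234) (nat_lit 0) (nat_lit 76) (XT.nd (nat_lit 78) (nat_lit 1216) (nat_lit 0) (XT.lf (nat_lit 76) (nat_lit 6779019499) (nat_lit 0) (nat_lit 7963455044) (nat_lit 1216) (nat_lit 382960667) (nat_lit 292) (nat_lit 5) (nat_lit 291) (nat_lit 5) (nat_lit 307) (nat_lit 5) (nat_lit 445) (nat_lit 443) (nat_lit 312)) (XT.nd (nat_lit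 78) (nat_lit 0) (nat_lit 76) (XT.lf (nat_lit 0) (nat_lit 56604732) (nat_lit 1216) (nat_lit 854381681) (nat_lit 1292) (nat_lit 14434941763) (nat_lit 275) (nat_lit 5) (nat_lit 291) (nat_lit 5) (nat_lit 292) (nat_lit 5) (nat_lit 446) (nat_lit 443) (nat_lit 311)) (XT.lf (nat_lit 0) (nat_lit 619300243) (nat_lit 1216) (nat_lit 8644437636) (nat_lit 1292) (nat_lit 6305657733) (nat_lit 276) (nat_lit 5) (nat_lit 292) (nat_lit 5) (nat_lit 293) (nat_lit 5) (nat_lit 447) (nat_lit 443) (nat_lit 310)))) (XT.nd (nat_lit 156) (nat_lit 0) (nat_lit 76) (XT.nd (nat_lit 78) (nat_lit 0) (nat_lit 76) (XT.lf (nat_lit 0) (nat_lit 1205566697) (nat_lit 1216) (nat_lit 859902721) (nat_lit 1292) (nat_lit 13733899516) (nat_lit 276) (nat_lit 5) (nat_lit 292) (nat_lit 5) (nat_lit 293) (nat_lit 5) (nat_lit 448) (nat_lit 443) (nat_lit 309)) (XT.lf (nat_lit 0) (nat_lit 1920965043) (nat_lit 1216) (nat_lit 8792598349) (nat_lit 1292) (nat_lit 5319334236)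 (nat_lit 277) (nat_lit 5) (nat_lit 293) (nat_lit 5) (nat_lit 294) (nat_lit 5) (nat_lit 449) (nat_lit 443) (nat_lit 308))) (XT.nd (nat_lit 78) (nat_lit 0) (nat_lit 76) (XT.lf (nat_lit 0) (nat_lit 2676613299) (nat_lit 1216) (nat_lit 699351790) (nat_lit 1292) (nat_lit 12896905874) (nat_lit 277) (nat_lit 5) (nat_lit 293) (nat_lit 5) (nat_lit 294) (nat_lit 5) (nat_lit 450) (nat_lit 443) (nat_lit 307)) (XT.lf (nat_lit 0) (nat_lit 3560580691) (nat_lit 1216) (nat_lit 8777112584) (nat_lit 1292) (nat_lit 4179183078) (nat_lit 278) (nat_lit 5) (nat_lit 294) (nat_lit 5) (nat_lit 295) (nat_lit 5) (nat_lit 451) (nat_lit 443) (nat_lit 306))))) (XT.nd (nat_lit 312) (nat_lit 0) (nat_lit 152) (XT.nd (nat_lit 156) (nat_lit 0) (nat_lit 76) (XT.nd (nat_lit 78) (nat_lit 0) (nat_lit 76) (XT.lf (nat_lit 0) (nat_lit 4501761619) (nat_lit 1216) (nat_lit 361944653) (nat_lit 1292) (nat_lit 11903577076) (nat_lit 278) (nat_lit 5) (nat_lit 294)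 (nat_lit 5) (nat_lit 295) (nat_lit 5) (nat_lit 452) (nat_lit 443) (nat_lit 305)) (XT.lf (nat_lit 0) (nat_lit 5571046056) (nat_lit 1216) (nat_lit 8586935180) (nat_lit 1292) (nat_lit 2864227486) (nat_lit 279) (nat_lit 5) (nat_lit 295) (nat_lit 5) (nat_lit 296) (nat_lit 5) (nat_lit 453) (nat_lit 443) (nat_lit 304))) (XT.nd (nat_lit 78) (nat_lit 0) (nat_lit 76) (XT.lf (nat_lit 76) (nat_lit 167336110) (nat_lit 0) (nat_lit 6549194769) (nat_lit 1292) (nat_lit 10566929471) (nat_lit 280) (nat_lit 5) (nat_lit 279) (nat_lit 5) (nat_lit 296) (nat_lit 5) (nat_lit 454) (nat_lit 443) (nat_lit 303)) (XT.lf (nat_lit 0) (nat_lit 7987224682) (nat_lit 1216) (nat_lit 8210050630) (nat_lit 1292) (nat_lit 1352550968) (nat_lit 280) (nat_lit 5) (nat_lit 296) (nat_lit 5) (nat_lit 297) (nat_lit 5) (nat_lit 455) (nat_lit 443) (nat_lit 302)))) (XT.nd (nat_lit 156) (nat_lit 0) (nat_lit 76) (XT.nd (nat_lit 78) (nat_lit 0) (nat_lit 0) (XT.lf (nat_lit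 76) (nat_lit 909187123) (nat_lit 0) (nat_lit 8451595590) (nat_lit 1292) (nat_lit 8461460195) (nat_lit 281) (nat_lit 5) (nat_lit 280) (nat_lit 5) (nat_lit 297) (nat_lit 5) (nat_lit 456) (nat_lit 443) (nat_lit 301)) (XT.lf (nat_lit 76) (nat_lit 10463451735) (nat_lit 0) (nat_lit 386353043) (nat_lit 1292) (nat_lit 7250801506) (nat_lit 281) (nat_lit 5) (nat_lit 280) (nat_lit 5) (nat_lit 297) (nat_lit 5) (nat_lit 457) (nat_lit 443) (nat_lit 300))) (XT.nd (nat_lit 78) (nat_lit 0) (nat_lit 0) (XT.lf (nat_lit 76) (nat_lit 1870463792) (nat_lit 0) (nat_lit 10598774342) (nat_lit 1292) (nat_lit 5915512115) (nat_lit 282) (nat_lit 5) (nat_lit 281) (nat_lit 5) (nat_lit 298) (nat_lit 5) (nat_lit 458) (nat_lit 443) (nat_lit 299)) (XT.lf (nat_lit 76) (nat_lit 11809111902) (nat_lit 0) (nat_lit 2400849413) (nat_lit 1292) (nat_lit 4465277866) (nat_lit 282) (nat_lit 5) (nat_lit 281) (nat_lit 5) (nat_lit 298) (nat_lit 5) (nat_lit 459)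 (nat_lit 443) (nat_lit 298))))))) (XT.nd (nat_lit 1170) (nat_lit 3800) (nat_lit 0) (XT.nd (nat_lit 546) (nat_lit 2204) (nat_lit 0) (XT.nd (nat_lit 234) (nat_lit 1216) (nat_lit 0) (XT.nd (nat_lit 78) (nat_lit 836) (nat_lit 0) (XT.lf (nat_lit 0) (nat_lit 3066317162) (nat_lit 1216) (nat_lit 13016203715) (nat_lit 1292) (nat_lit 2889535262) (nat_lit 266) (nat_lit 5) (nat_lit 282) (nat_lit 5) (nat_lit 283) (nat_lit 5) (nat_lit 460) (nat_lit 443) (nat_lit 297)) (XT.nd (nat_lit 78) (nat_lit 836) (nat_lit 0) (XT.lf (nat_lit 0) (nat_lit 13406402382) (nat_lit 1216) (nat_lit 4689943057) (nat_lit 1292) (nat_lit 1178881268) (nat_lit 266) (nat_lit 5) (nat_lit 282) (nat_lit 5) (nat_lit 283) (nat_lit 5) (nat_lit 461) (nat_lit 443) (nat_lit 296)) (XT.lf (nat_lit 0) (nat_lit 645626343) (nat_lit 836) (nat_lit 15078596082) (nat_lit 76) (nat_lit 3860886094) (nat_lit 255) (nat_lit 5) (nat_lit 266) (nat_lit 5) (nat_lit 256) (nat_lit 5)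 (nat_lit 462) (nat_lit 443) (nat_lit 295)))) (XT.nd (nat_lit 156) (nat_lit 608) (nat_lit 0) (XT.nd (nat_lit 78) (nat_lit 608) (nat_lit 0) (XT.lf (nat_lit 0) (nat_lit 2599991492) (nat_lit 836) (nat_lit 4654746857) (nat_lit 76) (nat_lit 12646235371) (nat_lit 255) (nat_lit 5) (nat_lit 266) (nat_lit 5) (nat_lit 256) (nat_lit 5) (nat_lit 463) (nat_lit 443) (nat_lit 294)) (XT.lf (nat_lit 0) (nat_lit 4680009509) (nat_lit 684) (nat_lit 14043493267) (nat_lit 76) (nat_lit 1500802997) (nat_lit 247) (nat_lit 5) (nat_lit 256) (nat_lit 5) (nat_lit 248) (nat_lit 5) (nat_lit 464) (nat_lit 443) (nat_lit 293))) (XT.nd (nat_lit 78) (nat_lit 608) (nat_lit 0) (XT.lf (nat_lit 0) (nat_lit 6934625972) (nat_lit 684) (nat_lit 3198273956) (nat_lit 76) (nat_lit 10421073429) (nat_lit 247) (nat_lit 5) (nat_lit 256) (nat_lit 5) (nat_lit 248) (nat_lit 5) (nat_lit 465) (nat_lit 443) (nat_lit 292)) (XT.lf (nat_lit 0) (nat_lit 8124125895) (nat_lit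 608) (nat_lit 1203955520) (nat_lit 684) (nat_lit 11563315001) (nat_lit 239) (nat_lit 5) (nat_lit 247) (nat_lit 5) (nat_lit 248) (nat_lit 5) (nat_lit 466) (nat_lit 443) (nat_lit 291))))) (XT.nd (nat_lit 312) (nat_lit 1140) (nat_lit 0) (XT.nd (nat_lit 156) (nat_lit 532) (nat_lit 0) (XT.nd (nat_lit 78) (nat_lit 532) (nat_lit 0) (XT.lf (nat_lit 0) (nat_lit 11896033289) (nat_lit 684) (nat_lit 1470212523) (nat_lit 76) (nat_lit 7869616991) (nat_lit 239) (nat_lit 5) (nat_lit 248) (nat_lit 5) (nat_lit 240) (nat_lit 5) (nat_lit 467) (nat_lit 443) (nat_lit 290)) (XT.lf (nat_lit 0) (nat_lit 10349138778) (nat_lit 532) (nat_lit 4296728781) (nat_lit 608) (nat_lit 6941651686) (nat_lit 232) (nat_lit 5) (nat_lit 239) (nat_lit 5) (nat_lit 240) (nat_lit 5) (nat_lit 468) (nat_lit 443) (nat_lit 289))) (XT.nd (nat_lit 78) (nat_lit 0) (nat_lit 0) (XT.lf (nat_lit 0) (nat_lit 559428899) (nat_lit 532) (nat_lit 16981200749) (nat_lit 608)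 (nat_lit 4407224088) (nat_lit 225) (nat_lit 5) (nat_lit 232) (nat_lit 5) (nat_lit 233) (nat_lit 5) (nat_lit 469) (nat_lit 443) (nat_lit 288)) (XT.lf (nat_lit 0) (nat_lit 12891451503) (nat_lit 532) (nat_lit 7780083911) (nat_lit 608) (nat_lit 1642985121) (nat_lit 225) (nat_lit 5) (nat_lit 232) (nat_lit 5) (nat_lit 233) (nat_lit 5) (nat_lit 470) (nat_lit 443) (nat_lit 287)))) (XT.nd (nat_lit 156) (nat_lit 532) (nat_lit 0) (XT.nd (nat_lit 78) (nat_lit 0) (nat_lit 0) (XT.lf (nat_lit 0) (nat_lit 1219463833) (nat_lit 608) (nat_lit 19767469472) (nat_lit 76) (nat_lit 1703744578) (nat_lit 217) (nat_lit 5) (nat_lit 225) (nat_lit 5) (nat_lit 218) (nat_lit 5) (nat_lit 471) (nat_lit 443) (nat_lit 286)) (XT.lf (nat_lit 0) (nat_lit 4301815590) (nat_lit 608) (nat_lit 7343217987) (nat_lit 76) (nat_lit 11427587997) (nat_lit 217) (nat_lit 5) (nat_lit 225) (nat_lit 5) (nat_lit 218) (nat_lit 5) (nat_lit 472) (nat_lit 443) (nat_lit 285)))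 (XT.nd (nat_lit 78) (nat_lit 0) (nat_lit 0) (XT.lf (nat_lit 0) (nat_lit 5555617073) (nat_lit 532) (nat_lit 1968526302) (nat_lit 608) (nat_lit 15940456190) (nat_lit 210) (nat_lit 5) (nat_lit 217) (nat_lit 5) (nat_lit 218) (nat_lit 5) (nat_lit 473) (nat_lit 443) (nat_lit 284)) (XT.lf (nat_lit 0) (nat_lit 10989115766) (nat_lit 608) (nat_lit 4958442754) (nat_lit 76) (nat_lit 7916400254) (nat_lit 210) (nat_lit 5) (nat_lit 218) (nat_lit 5) (nat_lit 211) (nat_lit 5) (nat_lit 474) (nat_lit 443) (nat_lit 283)))))) (XT.nd (nat_lit 546) (nat_lit 1900) (nat_lit 0) (XT.nd (nat_lit 234) (nat_lit 988) (nat_lit 0) (XT.nd (nat_lit 78) (nat_lit 456) (nat_lit 0) (XT.lf (nat_lit 0) (nat_lit 8520932957) (nat_lit 456) (nat_lit 6132876128) (nat_lit 532) (nat_lit 9618617609) (nat_lit 204) (nat_lit 5) (nat_lit 210) (nat_lit 5) (nat_lit 211) (nat_lit 5) (nat_lit 475) (nat_lit 443) (nat_lit 282)) (XT.nd (nat_lit 78) (nat_lit 456) (nat_lit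 0) (XT.lf (nat_lit 0) (nat_lit 18511698544) (nat_lit 532) (nat_lit 2230590202) (nat_lit 76) (nat_lit 3948363303) (nat_lit 204) (nat_lit 5) (nat_lit 211) (nat_lit 5) (nat_lit 205) (nat_lit 5) (nat_lit 476) (nat_lit 443) (nat_lit 281)) (XT.lf (nat_lit 0) (nat_lit 11860287909) (nat_lit 456) (nat_lit 10794394747) (nat_lit 532) (nat_lit 2461661796) (nat_lit 198) (nat_lit 5) (nat_lit 204) (nat_lit 5) (nat_lit 205) (nat_lit 5) (nat_lit 477) (nat_lit 443) (nat_lit 280)))) (XT.nd (nat_lit 156) (nat_lit 456) (nat_lit 0) (XT.nd (nat_lit 78) (nat_lit 0) (nat_lit 0) (XT.lf (nat_lit 0) (nat_lit 862539230) (nat_lit 456) (nat_lit 503641016) (nat_lit 532) (nat_lit 24187462802) (nat_lit 191) (nat_lit 5) (nat_lit 197) (nat_lit 5) (nat_lit 198) (nat_lit 5) (nat_lit 478) (nat_lit 443) (nat_lit 279)) (XT.lf (nat_lit 0) (nat_lit 5486367650) (nat_lit 532) (nat_lit 10452858271) (nat_lit 76) (nat_lit 10057294824) (nat_lit 191) (nat_lit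 5) (nat_lit 198) (nat_lit 5) (nat_lit 192) (nat_lit 5) (nat_lit 479) (nat_lit 443) (nat_lit 278))) (XT.nd (nat_lit 78) (nat_lit 0) (nat_lit 0) (XT.lf (nat_lit 0) (nat_lit 4284853323) (nat_lit 456) (nat_lit 5486389509) (nat_lit 532) (nat_lit 16680210386) (nat_lit 185) (nat_lit 5) (nat_lit 191) (nat_lit 5) (nat_lit 192) (nat_lit 5) (nat_lit 480) (nat_lit 443) (nat_lit 277)) (XT.lf (nat_lit 0) (nat_lit 14337000975) (nat_lit 532) (nat_lit 7296082388) (nat_lit 76) (nat_lit 5282381086) (nat_lit 185) (nat_lit 5) (nat_lit 192) (nat_lit 5) (nat_lit 186) (nat_lit 5) (nat_lit 481) (nat_lit 443) (nat_lit 276))))) (XT.nd (nat_lit 312) (nat_lit 684) (nat_lit 0) (XT.nd (nat_lit 156) (nat_lit 836) (nat_lit 0) (XT.nd (nat_lit 78) (nat_lit 0) (nat_lit 0) (XT.lf (nat_lit 0) (nat_lit 8118451196) (nat_lit 380) (nat_lit 11048770340) (nat_lit 456) (nat_lit 8222350650) (nat_lit 180) (nat_lit 5) (nat_lit 185) (nat_lit 5) (nat_lit 186)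 (nat_lit 5) (nat_lit 482) (nat_lit 443) (nat_lit 275)) (XT.lf (nat_lit 0) (nat_lit 24138845115) (nat_lit 380) (nat_lit 72392050) (nat_lit 456) (nat_lit 3664600172) (nat_lit 180) (nat_lit 5) (nat_lit 185) (nat_lit 5) (nat_lit 186) (nat_lit 5) (nat_lit 483) (nat_lit 443) (nat_lit 274))) (XT.nd (nat_lit 78) (nat_lit 380) (nat_lit 0) (XT.lf (nat_lit 0) (nat_lit 1234416620) (nat_lit 456) (nat_lit 15991237553) (nat_lit 76) (nat_lit 11144001141) (nat_lit 174) (nat_lit 5) (nat_lit 180) (nat_lit 5) (nat_lit 175) (nat_lit 5) (nat_lit 484) (nat_lit 443) (nat_lit 273)) (XT.lf (nat_lit 0) (nat_lit 135896973) (nat_lit 380) (nat_lit 6106355940) (nat_lit 456) (nat_lit 22633882074) (nat_lit 169) (nat_lit 5) (nat_lit 174) (nat_lit 5) (nat_lit 175) (nat_lit 5) (nat_lit 485) (nat_lit 443) (nat_lit 272)))) (XT.nd (nat_lit 156) (nat_lit 304) (nat_lit 0) (XT.nd (nat_lit 78) (nat_lit 380) (nat_lit 0) (XT.lf (nat_lit 0) (nat_lit 11610230199)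 (nat_lit 456) (nat_lit 12377490381) (nat_lit 76) (nat_lit 5403792032) (nat_lit 169) (nat_lit 5) (nat_lit 175) (nat_lit 5) (nat_lit 170) (nat_lit 5) (nat_lit 486) (nat_lit 443) (nat_lit 271)) (XT.lf (nat_lit 0) (nat_lit 4497438916) (nat_lit 380) (nat_lit 12741064928) (nat_lit 456) (nat_lit 12680870731) (nat_lit 164) (nat_lit 5) (nat_lit 169) (nat_lit 5) (nat_lit 170) (nat_lit 5) (nat_lit 487) (nat_lit 443) (nat_lit 270))) (XT.nd (nat_lit 78) (nat_lit 304) (nat_lit 0) (XT.lf (nat_lit 0) (nat_lit 22126398336) (nat_lit 380) (nat_lit 1029853689) (nat_lit 456) (nat_lit 7303202279) (nat_lit 164) (nat_lit 5) (nat_lit 169) (nat_lit 5) (nat_lit 170) (nat_lit 5) (nat_lit 488) (nat_lit 443) (nat_lit 269)) (XT.lf (nat_lit 0) (nat_lit 9338786463) (nat_lit 304) (nat_lit 20104319551) (nat_lit 380) (nat_lit 1566883890) (nat_lit 160) (nat_lit 5) (nat_lit 164) (nat_lit 5) (nat_lit 165) (nat_lit 5) (nat_lit 489) (nat_lit 443) (nat_lit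 268))))))))
noncomputable def xc189 : XT := (XT.nd (nat_lit 2340) (nat_lit 2736) (nat_lit 0) (XT.nd (nat_lit 1170) (nat_lit 2204) (nat_lit 0) (XT.nd (nat_lit 546) (nat_lit 1216) (nat_lit 0) (XT.nd (nat_lit 234) (nat_lit 684) (nat_lit 0) (XT.nd (nat_lit 78) (nat_lit 684) (nat_lit 0) (XT.lf (nat_lit 0) (nat_lit 4347758471) (nat_lit 380) (nat_lit 3921587624) (nat_lit 76) (nat_lit 23303715517) (nat_lit 159) (nat_lit 5) (nat_lit 164) (nat_lit 5) (nat_lit 160) (nat_lit 5) (nat_lit 490) (nat_lit 443) (nat_lit 267)) (XT.nd (nat_lit 78) (nat_lit 304) (nat_lit 0) (XT.lf (nat_lit 0) (nat_lit 10584044982) (nat_lit 456) (nat_lit 17563040397) (nat_lit 76) (nat_lit 4000204373) (nat_lit 154) (nat_lit 5) (nat_lit 160) (nat_lit 5) (nat_lit 155) (nat_lit 5) (nat_lit 491) (nat_lit 443) (nat_lit 266)) (XT.lf (nat_lit 0) (nat_lit 917950689) (nat_lit 304) (nat_lit 16216108422) (nat_lit 380) (nat_lit 15600887056) (nat_lit 150) (nat_lit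 5) (nat_lit 154) (nat_lit 5) (nat_lit 155) (nat_lit 5) (nat_lit 492) (nat_lit 443) (nat_lit 265)))) (XT.nd (nat_lit 156) (nat_lit 380) (nat_lit 0) (XT.nd (nat_lit 78) (nat_lit 304) (nat_lit 0) (XT.lf (nat_lit 0) (nat_lit 20307664910) (nat_lit 304) (nat_lit 3746271928) (nat_lit 380) (nat_lit 9281095127) (nat_lit 150) (nat_lit 5) (nat_lit 154) (nat_lit 5) (nat_lit 155) (nat_lit 5) (nat_lit 493) (nat_lit 443) (nat_lit 264)) (XT.lf (nat_lit 0) (nat_lit 6356878283) (nat_lit 304) (nat_lit 24969201912) (nat_lit 380) (nat_lit 2622700630) (nat_lit 146) (nat_lit 5) (nat_lit 150) (nat_lit 5) (nat_lit 151) (nat_lit 5) (nat_lit 494) (nat_lit 443) (nat_lit 263))) (XT.nd (nat_lit 78) (nat_lit 304) (nat_lit 0) (XT.lf (nat_lit 0) (nat_lit 4318873768) (nat_lit 380) (nat_lit 8072091609) (nat_lit 76) (nat_lit 22183773593) (nat_lit 145) (nat_lit 5) (nat_lit 150) (nat_lit 5) (nat_lit 146) (nat_lit 5) (nat_lit 495) (nat_lit 443) (nat_lit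 262)) (XT.lf (nat_lit 0) (nat_lit 11536723631) (nat_lit 380) (nat_lit 22981428088) (nat_lit 76) (nat_lit 696923382) (nat_lit 141) (nat_lit 5) (nat_lit 146) (nat_lit 5) (nat_lit 142) (nat_lit 5) (nat_lit 496) (nat_lit 443) (nat_lit 261))))) (XT.nd (nat_lit 312) (nat_lit 608) (nat_lit 0) (XT.nd (nat_lit 156) (nat_lit 304) (nat_lit 0) (XT.nd (nat_lit 78) (nat_lit 304) (nat_lit 0) (XT.lf (nat_lit 0) (nat_lit 19172395381) (nat_lit 380) (nat_lit 2687199990) (nat_lit 76) (nat_lit 14008987858) (nat_lit 141) (nat_lit 5) (nat_lit 146) (nat_lit 5) (nat_lit 142) (nat_lit 5) (nat_lit 497) (nat_lit 443) (nat_lit 260)) (XT.lf (nat_lit 0) (nat_lit 18572878786) (nat_lit 304) (nat_lit 8639184813) (nat_lit 380) (nat_lit 9324385702) (nat_lit 137) (nat_lit 5) (nat_lit 141) (nat_lit 5) (nat_lit 142) (nat_lit 5) (nat_lit 498) (nat_lit 443) (nat_lit 259))) (XT.nd (nat_lit 78) (nat_lit 76) (nat_lit 0) (XT.lf (nat_lit 0) (nat_lit 3313408601)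 (nat_lit 228) (nat_lit 32283046800) (nat_lit 304) (nat_lit 1624790424) (nat_lit 134) (nat_lit 5) (nat_lit 137) (nat_lit 5) (nat_lit 138) (nat_lit 5) (nat_lit 499) (nat_lit 443) (nat_lit 258)) (XT.lf (nat_lit 0) (nat_lit 6447919167) (nat_lit 304) (nat_lit 12477614015) (nat_lit 76) (nat_lit 18991279802) (nat_lit 133) (nat_lit 5) (nat_lit 137) (nat_lit 5) (nat_lit 134) (nat_lit 5) (nat_lit 500) (nat_lit 443) (nat_lit 257)))) (XT.nd (nat_lit 156) (nat_lit 304) (nat_lit 0) (XT.nd (nat_lit 78) (nat_lit 0) (nat_lit 0) (XT.lf (nat_lit 0) (nat_lit 9764677030) (nat_lit 304) (nat_lit 5055889758) (nat_lit 380) (nat_lit 23809485791) (nat_lit 129) (nat_lit 5) (nat_lit 133) (nat_lit 5) (nat_lit 134) (nat_lit 5) (nat_lit 501) (nat_lit 443) (nat_lit 256)) (XT.lf (nat_lit 0) (nat_lit 23656945437) (nat_lit 380) (nat_lit 6526192779) (nat_lit 76) (nat_lit 9175175019) (nat_lit 129) (nat_lit 5) (nat_lit 134) (nat_lit 5) (nat_lit 130)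 (nat_lit 5) (nat_lit 502) (nat_lit 443) (nat_lit 255))) (XT.nd (nat_lit 78) (nat_lit 76) (nat_lit 0) (XT.lf (nat_lit 0) (nat_lit 16754881810) (nat_lit 228) (nat_lit 16211331432) (nat_lit 304) (nat_lit 7135974946) (nat_lit 126) (nat_lit 5) (nat_lit 129) (nat_lit 5) (nat_lit 130) (nat_lit 5) (nat_lit 503) (nat_lit 443) (nat_lit 254)) (XT.lf (nat_lit 0) (nat_lit 1716722539) (nat_lit 304) (nat_lit 20285019) (nat_lit 76) (nat_lit 39128988399) (nat_lit 125) (nat_lit 5) (nat_lit 129) (nat_lit 5) (nat_lit 126) (nat_lit 5) (nat_lit 504) (nat_lit 443) (nat_lit 253)))))) (XT.nd (nat_lit 546) (nat_lit 912) (nat_lit 0) (XT.nd (nat_lit 234) (nat_lit 760) (nat_lit 0) (XT.nd (nat_lit 78) (nat_lit 228) (nat_lit 0) (XT.lf (nat_lit 0) (nat_lit 11052601174) (nat_lit 380) (nat_lit 17366147333) (nat_lit 76) (nat_lit 13221019441) (nat_lit 121) (nat_lit 5) (nat_lit 126) (nat_lit 5) (nat_lit 122) (nat_lit 5) (nat_lit 505) (nat_lit 443)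 (nat_lit 252)) (XT.nd (nat_lit 78) (nat_lit 0) (nat_lit 0) (XT.lf (nat_lit 0) (nat_lit 6973830693) (nat_lit 228) (nat_lit 13775987272) (nat_lit 304) (nat_lit 21684497645) (nat_lit 118) (nat_lit 5) (nat_lit 121) (nat_lit 5) (nat_lit 122) (nat_lit 5) (nat_lit 506) (nat_lit 443) (nat_lit 251)) (XT.lf (nat_lit 0) (nat_lit 30924452621) (nat_lit 304) (nat_lit 10866825318) (nat_lit 76) (nat_lit 1455827077) (nat_lit 118) (nat_lit 5) (nat_lit 122) (nat_lit 5) (nat_lit 119) (nat_lit 5) (nat_lit 507) (nat_lit 443) (nat_lit 250)))) (XT.nd (nat_lit 156) (nat_lit 456) (nat_lit 0) (XT.nd (nat_lit 78) (nat_lit 76) (nat_lit 0) (XT.lf (nat_lit 0) (nat_lit 14608365618) (nat_lit 228) (nat_lit 27069719437) (nat_lit 304) (nat_lit 2397980631) (nat_lit 115) (nat_lit 5) (nat_lit 118) (nat_lit 5) (nat_lit 119) (nat_lit 5) (nat_lit 508) (nat_lit 443) (nat_lit 249)) (XT.lf (nat_lit 0) (nat_lit 7779518719) (nat_lit 304) (nat_lit 3937288223)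 (nat_lit 76) (nat_lit 33207599053) (nat_lit 114) (nat_lit 5) (nat_lit 118) (nat_lit 5) (nat_lit 115) (nat_lit 5) (nat_lit 509) (nat_lit 443) (nat_lit 248))) (XT.nd (nat_lit 78) (nat_lit 228) (nat_lit 0) (XT.lf (nat_lit 0) (nat_lit 18471876077) (nat_lit 304) (nat_lit 23057868963) (nat_lit 76) (nat_lit 4260007613) (nat_lit 111) (nat_lit 5) (nat_lit 115) (nat_lit 5) (nat_lit 112) (nat_lit 5) (nat_lit 510) (nat_lit 443) (nat_lit 247)) (XT.lf (nat_lit 0) (nat_lit 3550010672) (nat_lit 228) (nat_lit 26122340592) (nat_lit 304) (nat_lit 17003088339) (nat_lit 108) (nat_lit 5) (nat_lit 111) (nat_lit 5) (nat_lit 112) (nat_lit 5) (nat_lit 511) (nat_lit 443) (nat_lit 246))))) (XT.nd (nat_lit 312) (nat_lit 456) (nat_lit 0) (XT.nd (nat_lit 156) (nat_lit 228) (nat_lit 0) (XT.nd (nat_lit 78) (nat_lit 228) (nat_lit 0) (XT.lf (nat_lit 0) (nat_lit 31424002268) (nat_lit 228) (nat_lit 10014778961) (nat_lit 304) (nat_lit 6142018015) (nat_lit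 108) (nat_lit 5) (nat_lit 111) (nat_lit 5) (nat_lit 112) (nat_lit 5) (nat_lit 512) (nat_lit 443) (nat_lit 245)) (XT.lf (nat_lit 0) (nat_lit 5121804575) (nat_lit 228) (nat_lit 36775432163) (nat_lit 76) (nat_lit 6609367457) (nat_lit 105) (nat_lit 5) (nat_lit 108) (nat_lit 5) (nat_lit 106) (nat_lit 5) (nat_lit 513) (nat_lit 443) (nat_lit 244))) (XT.nd (nat_lit 78) (nat_lit 228) (nat_lit 0) (XT.lf (nat_lit 0) (nat_lit 16861194635) (nat_lit 228) (nat_lit 8834619749) (nat_lit 76) (nat_lit 23754711784) (nat_lit 105) (nat_lit 5) (nat_lit 108) (nat_lit 5) (nat_lit 106) (nat_lit 5) (nat_lit 514) (nat_lit 443) (nat_lit 243)) (XT.lf (nat_lit 0) (nat_lit 20336670406) (nat_lit 228) (nat_lit 8808844418) (nat_lit 304) (nat_lit 21271468785) (nat_lit 102) (nat_lit 5) (nat_lit 105) (nat_lit 5) (nat_lit 106) (nat_lit 5) (nat_lit 515) (nat_lit 443) (nat_lit 242)))) (XT.nd (nat_lit 156) (nat_lit 228) (nat_lit 0) (XT.nd (nat_lit 78)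 (nat_lit 228) (nat_lit 0) (XT.lf (nat_lit 0) (nat_lit 41968260334) (nat_lit 304) (nat_lit 933570135) (nat_lit 76) (nat_lit 8505507690) (nat_lit 102) (nat_lit 5) (nat_lit 106) (nat_lit 5) (nat_lit 103) (nat_lit 5) (nat_lit 516) (nat_lit 443) (nat_lit 241)) (XT.lf (nat_lit 0) (nat_lit 3067154948) (nat_lit 228) (nat_lit 22873447232) (nat_lit 76) (nat_lit 26474833889) (nat_lit 99) (nat_lit 5) (nat_lit 102) (nat_lit 5) (nat_lit 100) (nat_lit 5) (nat_lit 517) (nat_lit 443) (nat_lit 240))) (XT.nd (nat_lit 78) (nat_lit 0) (nat_lit 0) (XT.lf (nat_lit 0) (nat_lit 7546689643) (nat_lit 228) (nat_lit 8291598873) (nat_lit 304) (nat_lit 37610302050) (nat_lit 96) (nat_lit 5) (nat_lit 99) (nat_lit 5) (nat_lit 100) (nat_lit 5) (nat_lit 518) (nat_lit 443) (nat_lit 239)) (XT.lf (nat_lit 0) (nat_lit 29318241010) (nat_lit 304) (nat_lit 15259320379) (nat_lit 76) (nat_lit 9925407989) (nat_lit 96) (nat_lit 5) (nat_lit 100) (nat_lit 5)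 (nat_lit 97) (nat_lit 5) (nat_lit 519) (nat_lit 443) (nat_lit 238))))))) (XT.nd (nat_lit 1170) (nat_lit 988) (nat_lit 0) (XT.nd (nat_lit 546) (nat_lit 912) (nat_lit 0) (XT.nd (nat_lit 234) (nat_lit 380) (nat_lit 0) (XT.nd (nat_lit 78) (nat_lit 304) (nat_lit 0) (XT.lf (nat_lit 0) (nat_lit 16538806982) (nat_lit 152) (nat_lit 26902319867) (nat_lit 228) (nat_lit 12140696882) (nat_lit 94) (nat_lit 5) (nat_lit 96) (nat_lit 5) (nat_lit 97) (nat_lit 5) (nat_lit 520) (nat_lit 443) (nat_lit 237)) (XT.nd (nat_lit 78) (nat_lit 228) (nat_lit 0) (XT.lf (nat_lit 0) (nat_lit 1422473013) (nat_lit 228) (nat_lit 7103087501) (nat_lit 76) (nat_lit 48162517634) (nat_lit 93) (nat_lit 5) (nat_lit 96) (nat_lit 5) (nat_lit 94) (nat_lit 5) (nat_lit 521) (nat_lit 443) (nat_lit 236)) (XT.lf (nat_lit 0) (nat_lit 15501394233) (nat_lit 304) (nat_lit 31738615790) (nat_lit 76) (nat_lit 10573318060) (nat_lit 90) (nat_lit 5) (nat_lit 94) (nat_lit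 5) (nat_lit 91) (nat_lit 5) (nat_lit 522) (nat_lit 443) (nat_lit 235)))) (XT.nd (nat_lit 156) (nat_lit 228) (nat_lit 0) (XT.nd (nat_lit 78) (nat_lit 0) (nat_lit 0) (XT.lf (nat_lit 0) (nat_lit 1360431991) (nat_lit 152) (nat_lit 28809731273) (nat_lit 228) (nat_lit 28797148043) (nat_lit 88) (nat_lit 5) (nat_lit 90) (nat_lit 5) (nat_lit 91) (nat_lit 5) (nat_lit 523) (nat_lit 443) (nat_lit 234)) (XT.lf (nat_lit 0) (nat_lit 36098841512) (nat_lit 152) (nat_lit 9498236275) (nat_lit 228) (nat_lit 14549293961) (nat_lit 88) (nat_lit 5) (nat_lit 90) (nat_lit 5) (nat_lit 91) (nat_lit 5) (nat_lit 524) (nat_lit 443) (nat_lit 233))) (XT.nd (nat_lit 78) (nat_lit 0) (nat_lit 0) (XT.lf (nat_lit 0) (nat_lit 325155197) (nat_lit 228) (nat_lit 50736184523) (nat_lit 76) (nat_lit 10293379581) (nat_lit 85) (nat_lit 5) (nat_lit 88) (nat_lit 5) (nat_lit 86) (nat_lit 5) (nat_lit 525) (nat_lit 443) (nat_lit 232)) (XT.lf (nat_lit 0) (nat_lit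 15690334708) (nat_lit 228) (nat_lit 16019155743) (nat_lit 76) (nat_lit 30875397735) (nat_lit 85) (nat_lit 5) (nat_lit 88) (nat_lit 5) (nat_lit 86) (nat_lit 5) (nat_lit 526) (nat_lit 443) (nat_lit 231))))) (XT.nd (nat_lit 312) (nat_lit 380) (nat_lit 0) (XT.nd (nat_lit 156) (nat_lit 380) (nat_lit 0) (XT.nd (nat_lit 78) (nat_lit 0) (nat_lit 0) (XT.lf (nat_lit 0) (nat_lit 20128119762) (nat_lit 152) (nat_lit 11579546409) (nat_lit 228) (nat_lit 32138560238) (nat_lit 83) (nat_lit 5) (nat_lit 85) (nat_lit 5) (nat_lit 86) (nat_lit 5) (nat_lit 527) (nat_lit 443) (nat_lit 230)) (XT.lf (nat_lit 0) (nat_lit 48454602202) (nat_lit 228) (nat_lit 7546007607) (nat_lit 76) (nat_lit 9137322596) (nat_lit 83) (nat_lit 5) (nat_lit 86) (nat_lit 5) (nat_lit 84) (nat_lit 5) (nat_lit 528) (nat_lit 443) (nat_lit 229))) (XT.nd (nat_lit 78) (nat_lit 228) (nat_lit 0) (XT.lf (nat_lit 0) (nat_lit 30181627681) (nat_lit 152) (nat_lit 35924882420)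 (nat_lit 228) (nat_lit 349802724) (nat_lit 81) (nat_lit 5) (nat_lit 83) (nat_lit 5) (nat_lit 84) (nat_lit 5) (nat_lit 529) (nat_lit 443) (nat_lit 228)) (XT.lf (nat_lit 0) (nat_lit 1245069379) (nat_lit 152) (nat_lit 14993917814) (nat_lit 228) (nat_lit 51567905396) (nat_lit 78) (nat_lit 5) (nat_lit 80) (nat_lit 5) (nat_lit 81) (nat_lit 5) (nat_lit 530) (nat_lit 443) (nat_lit 227)))) (XT.nd (nat_lit 156) (nat_lit 228) (nat_lit 0) (XT.nd (nat_lit 78) (nat_lit 152) (nat_lit 0) (XT.lf (nat_lit 0) (nat_lit 33749252588) (nat_lit 228) (nat_lit 28627131213) (nat_lit 76) (nat_lit 6808576915) (nat_lit 78) (nat_lit 5) (nat_lit 81) (nat_lit 5) (nat_lit 79) (nat_lit 5) (nat_lit 531) (nat_lit 443) (nat_lit 226)) (XT.lf (nat_lit 0) (nat_lit 10498173148) (nat_lit 152) (nat_lit 41533892140) (nat_lit 228) (nat_lit 18564888559) (nat_lit 76) (nat_lit 5) (nat_lit 78) (nat_lit 5) (nat_lit 79) (nat_lit 5) (nat_lit 532) (nat_lit 443) (nat_lit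 225))) (XT.nd (nat_lit 78) (nat_lit 228) (nat_lit 0) (XT.lf (nat_lit 0) (nat_lit 51380271387) (nat_lit 152) (nat_lit 19770064304) (nat_lit 228) (nat_lit 892362018) (nat_lit 76) (nat_lit 5) (nat_lit 78) (nat_lit 5) (nat_lit 79) (nat_lit 5) (nat_lit 533) (nat_lit 443) (nat_lit 224)) (XT.lf (nat_lit 0) (nat_lit 17193472499) (nat_lit 228) (nat_lit 53369362979) (nat_lit 76) (nat_lit 2957359035) (nat_lit 73) (nat_lit 5) (nat_lit 76) (nat_lit 5) (nat_lit 74) (nat_lit 5) (nat_lit 534) (nat_lit 443) (nat_lit 223)))))) (XT.nd (nat_lit 624) (nat_lit 304) (nat_lit 0) (XT.nd (nat_lit 312) (nat_lit 304) (nat_lit 0) (XT.nd (nat_lit 156) (nat_lit 228) (nat_lit 0) (XT.nd (nat_lit 78) (nat_lit 152) (nat_lit 0) (XT.lf (nat_lit 0) (nat_lit 36208350679) (nat_lit 228) (nat_lit 12634087457) (nat_lit 76) (nat_lit 26187181024) (nat_lit 73) (nat_lit 5) (nat_lit 76) (nat_lit 5) (nat_lit 74) (nat_lit 5) (nat_lit 535) (nat_lit 443) (nat_lit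 222)) (XT.lf (nat_lit 0) (nat_lit 29903139998) (nat_lit 152) (nat_lit 26175987508) (nat_lit 228) (nat_lit 20496635595) (nat_lit 71) (nat_lit 5) (nat_lit 73) (nat_lit 5) (nat_lit 74) (nat_lit 5) (nat_lit 536) (nat_lit 443) (nat_lit 221))) (XT.nd (nat_lit 78) (nat_lit 228) (nat_lit 0) (XT.lf (nat_lit 0) (nat_lit 73971881919) (nat_lit 152) (nat_lit 2699753865) (nat_lit 228) (nat_lit 1492887450) (nat_lit 71) (nat_lit 5) (nat_lit 73) (nat_lit 5) (nat_lit 74) (nat_lit 5) (nat_lit 537) (nat_lit 443) (nat_lit 220)) (XT.lf (nat_lit 0) (nat_lit 18324351722) (nat_lit 228) (nat_lit 39827982537) (nat_lit 76) (nat_lit 21625511758) (nat_lit 68) (nat_lit 5) (nat_lit 71) (nat_lit 5) (nat_lit 69) (nat_lit 5) (nat_lit 538) (nat_lit 443) (nat_lit 219)))) (XT.nd (nat_lit 156) (nat_lit 152) (nat_lit 0) (XT.nd (nat_lit 78) (nat_lit 0) (nat_lit 0) (XT.lf (nat_lit 0) (nat_lit 4098811663) (nat_lit 152) (nat_lit 34714252599) (nat_lit 228)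 (nat_lit 42622852044) (nat_lit 66) (nat_lit 5) (nat_lit 68) (nat_lit 5) (nat_lit 69) (nat_lit 5) (nat_lit 539) (nat_lit 443) (nat_lit 218)) (XT.lf (nat_lit 0) (nat_lit 50156348368) (nat_lit 152) (nat_lit 10160371408) (nat_lit 228) (nat_lit 22815000588) (nat_lit 66) (nat_lit 5) (nat_lit 68) (nat_lit 5) (nat_lit 69) (nat_lit 5) (nat_lit 540) (nat_lit 443) (nat_lit 217))) (XT.nd (nat_lit 78) (nat_lit 76) (nat_lit 0) (XT.lf (nat_lit 0) (nat_lit 12818472413) (nat_lit 76) (nat_lit 69913809193) (nat_lit 152) (nat_lit 2138113138) (nat_lit 65) (nat_lit 5) (nat_lit 66) (nat_lit 5) (nat_lit 67) (nat_lit 4) (nat_lit 541) (nat_lit 443) (nat_lit 216)) (XT.lf (nat_lit 0) (nat_lit 19220240343) (nat_lit 152) (nat_lit 26280646425) (nat_lit 76) (nat_lit 41141766959) (nat_lit 64) (nat_lit 5) (nat_lit 66) (nat_lit 5) (nat_lit 65) (nat_lit 5) (nat_lit 542) (nat_lit 443) (nat_lit 215))))) (XT.nd (nat_lit 54756) (nat_lit 0) (nat_lit 16340)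 (XT.nd (nat_lit 156) (nat_lit 152) (nat_lit 0) (XT.nd (nat_lit 78) (nat_lit 0) (nat_lit 0) (XT.lf (nat_lit 0) (nat_lit 21254002425) (nat_lit 152) (nat_lit 20124869521) (nat_lit 228) (nat_lit 47082498497) (nat_lit 62) (nat_lit 5) (nat_lit 64) (nat_lit 5) (nat_lit 65) (nat_lit 5) (nat_lit 543) (nat_lit 443) (nat_lit 214)) (XT.lf (nat_lit 0) (nat_lit 64526269370) (nat_lit 228) (nat_lit 19637035944) (nat_lit 76) (nat_lit 6161623233) (nat_lit 62) (nat_lit 5) (nat_lit 65) (nat_lit 5) (nat_lit 63) (nat_lit 4) (nat_lit 544) (nat_lit 443) (nat_lit 213))) (XT.nd (nat_lit 78) (nat_lit 76) (nat_lit 0) (XT.lf (nat_lit 0) (nat_lit 29738202502) (nat_lit 76) (nat_lit 59113257716) (nat_lit 152) (nat_lit 3378432120) (nat_lit 61) (nat_lit 5) (nat_lit 62) (nat_lit 5) (nat_lit 63) (nat_lit 4) (nat_lit 545) (nat_lit 443) (nat_lit 212)) (XT.lf (nat_lit 0) (nat_lit 19528218001) (nat_lit 152) (nat_lit 13383538152) (nat_lit 76) (nat_lit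 61268608308) (nat_lit 60) (nat_lit 5) (nat_lit 62) (nat_lit 5) (nat_lit 61) (nat_lit 5) (nat_lit 546) (nat_lit 443) (nat_lit 211)))) (XT.nd (nat_lit 156) (nat_lit 1216) (nat_lit 0) (XT.nd (nat_lit 78) (nat_lit 0) (nat_lit 0) (XT.lf (nat_lit 0) (nat_lit 3649626081) (nat_lit 0) (nat_lit 3649626081) (nat_lit 1140) (nat_lit 262226112) (nat_lit 291) (nat_lit 5) (nat_lit 291) (nat_lit 3) (nat_lit 306) (nat_lit 3) (nat_lit 444) (nat_lit 444) (nat_lit 312)) (XT.lf (nat_lit 0) (nat_lit 14931157046) (nat_lit 0) (nat_lit 174328214) (nat_lit 1140) (nat_lit 235605824) (nat_lit 291) (nat_lit 5) (nat_lit 291) (nat_lit 3) (nat_lit 306) (nat_lit 3) (nat_lit 445) (nat_lit 444) (nat_lit 311))) (XT.nd (nat_lit 78) (nat_lit 0) (nat_lit 0) (XT.lf (nat_lit 0) (nat_lit 189754128) (nat_lit 1216) (nat_lit 8270105225) (nat_lit 1292) (nat_lit 7102023403) (nat_lit 275) (nat_lit 5) (nat_lit 291) (nat_lit 5) (nat_lit 292) (nat_lit 5) (nat_lit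 446) (nat_lit 444) (nat_lit 310)) (XT.lf (nat_lit 0) (nat_lit 618017909) (nat_lit 1216) (nat_lit 566507046) (nat_lit 1292) (nat_lit 14604859454) (nat_lit 275) (nat_lit 5) (nat_lit 291) (nat_lit 5) (nat_lit 292) (nat_lit 5) (nat_lit 447) (nat_lit 444) (nat_lit 309))))))))
noncomputable def xc190 : XT := (XT.nd (nat_lit 2340) (nat_lit 6536) (nat_lit 0) (XT.nd (nat_lit 1170) (nat_lit 4712) (nat_lit 0) (XT.nd (nat_lit 546) (nat_lit 760) (nat_lit 0) (XT.nd (nat_lit 234) (nat_lit 0) (nat_lit 76) (XT.nd (nat_lit 78) (nat_lit 0) (nat_lit 0) (XT.lf (nat_lit 0) (nat_lit 1182007741) (nat_lit 1216) (nat_lit 8574551764) (nat_lit 1292) (nat_lit 6263467751) (nat_lit 276) (nat_lit 5) (nat_lit 292) (nat_lit 5) (nat_lit 293) (nat_lit 5) (nat_lit 448) (nat_lit 444) (nat_lit 308)) (XT.nd (nat_lit 78) (nat_lit 0) (nat_lit 76) (XT.lf (nat_lit 0) (nat_lit 1770013786) (nat_lit 1216) (nat_lit 566069705) (nat_lit 1292) (nat_lit 13921295420)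 (nat_lit 276) (nat_lit 5) (nat_lit 292) (nat_lit 5) (nat_lit 293) (nat_lit 5) (nat_lit 449) (nat_lit 444) (nat_lit 307)) (XT.lf (nat_lit 0) (nat_lit 2492612510) (nat_lit 1216) (nat_lit 8722365513) (nat_lit 1292) (nat_lit 5283366863) (nat_lit 277) (nat_lit 5) (nat_lit 293) (nat_lit 5) (nat_lit 294) (nat_lit 5) (nat_lit 450) (nat_lit 444) (nat_lit 306)))) (XT.nd (nat_lit 156) (nat_lit 0) (nat_lit 76) (XT.nd (nat_lit 78) (nat_lit 0) (nat_lit 76) (XT.lf (nat_lit 0) (nat_lit 3255958800) (nat_lit 1216) (nat_lit 396050027) (nat_lit 1292) (nat_lit 13093961205) (nat_lit 277) (nat_lit 5) (nat_lit 293) (nat_lit 5) (nat_lit 294) (nat_lit 5) (nat_lit 451) (nat_lit 444) (nat_lit 305)) (XT.lf (nat_lit 0) (nat_lit 4153396046) (nat_lit 1216) (nat_lit 8702982198) (nat_lit 1292) (nat_lit 4141312183) (nat_lit 278) (nat_lit 5) (nat_lit 294) (nat_lit 5) (nat_lit 295) (nat_lit 5) (nat_lit 452) (nat_lit 444) (nat_lit 304))) (XT.nd (nat_lit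 78) (nat_lit 0) (nat_lit 76) (XT.lf (nat_lit 0) (nat_lit 5108657122) (nat_lit 1216) (nat_lit 45187688) (nat_lit 1292) (nat_lit 12102192750) (nat_lit 278) (nat_lit 5) (nat_lit 294) (nat_lit 5) (nat_lit 295) (nat_lit 5) (nat_lit 453) (nat_lit 444) (nat_lit 303)) (XT.lf (nat_lit 0) (nat_lit 6198080320) (nat_lit 1216) (nat_lit 8504882327) (nat_lit 1292) (nat_lit 2816009418) (nat_lit 279) (nat_lit 5) (nat_lit 295) (nat_lit 5) (nat_lit 296) (nat_lit 5) (nat_lit 454) (nat_lit 444) (nat_lit 302))))) (XT.nd (nat_lit 312) (nat_lit 988) (nat_lit 0) (XT.nd (nat_lit 156) (nat_lit 0) (nat_lit 76) (XT.nd (nat_lit 78) (nat_lit 0) (nat_lit 76) (XT.lf (nat_lit 76) (nat_lit 508687093) (nat_lit 0) (nat_lit 6859080383) (nat_lit 1292) (nat_lit 10420601714) (nat_lit 280) (nat_lit 5) (nat_lit 279) (nat_lit 5) (nat_lit 296) (nat_lit 5) (nat_lit 455) (nat_lit 444) (nat_lit 301)) (XT.lf (nat_lit 0) (nat_lit 8662424439) (nat_lit 1216) (nat_lit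 8115559882) (nat_lit 1292) (nat_lit 1285169499) (nat_lit 280) (nat_lit 5) (nat_lit 296) (nat_lit 5) (nat_lit 297) (nat_lit 5) (nat_lit 456) (nat_lit 444) (nat_lit 300))) (XT.nd (nat_lit 78) (nat_lit 0) (nat_lit 0) (XT.lf (nat_lit 76) (nat_lit 1273913903) (nat_lit 0) (nat_lit 8793832211) (nat_lit 1292) (nat_lit 8276283032) (nat_lit 281) (nat_lit 5) (nat_lit 280) (nat_lit 5) (nat_lit 297) (nat_lit 5) (nat_lit 457) (nat_lit 444) (nat_lit 299)) (XT.lf (nat_lit 76) (nat_lit 11104977779) (nat_lit 0) (nat_lit 484049220) (nat_lit 1292) (nat_lit 7042091600) (nat_lit 281) (nat_lit 5) (nat_lit 280) (nat_lit 5) (nat_lit 297) (nat_lit 5) (nat_lit 458) (nat_lit 444) (nat_lit 298)))) (XT.nd (nat_lit 156) (nat_lit 1140) (nat_lit 0) (XT.nd (nat_lit 78) (nat_lit 0) (nat_lit 0) (XT.lf (nat_lit 76) (nat_lit 2264191064) (nat_lit 0) (nat_lit 10983243713) (nat_lit 1292) (nat_lit 5676643102) (nat_lit 282) (nat_lit 5) (nat_lit 281) (nat_lit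 5) (nat_lit 298) (nat_lit 5) (nat_lit 459) (nat_lit 444) (nat_lit 297)) (XT.lf (nat_lit 76) (nat_lit 12491165218) (nat_lit 0) (nat_lit 2537443965) (nat_lit 1292) (nat_lit 4195028070) (nat_lit 282) (nat_lit 5) (nat_lit 281) (nat_lit 5) (nat_lit 298) (nat_lit 5) (nat_lit 460) (nat_lit 444) (nat_lit 296))) (XT.nd (nat_lit 78) (nat_lit 0) (nat_lit 0) (XT.lf (nat_lit 0) (nat_lit 3495230538) (nat_lit 1216) (nat_lit 13453323471) (nat_lit 1292) (nat_lit 2581071037) (nat_lit 266) (nat_lit 5) (nat_lit 282) (nat_lit 5) (nat_lit 283) (nat_lit 5) (nat_lit 461) (nat_lit 444) (nat_lit 295)) (XT.lf (nat_lit 0) (nat_lit 14135704998) (nat_lit 1216) (nat_lit 4875916732) (nat_lit 1292) (nat_lit 830606654) (nat_lit 266) (nat_lit 5) (nat_lit 282) (nat_lit 5) (nat_lit 283) (nat_lit 5) (nat_lit 462) (nat_lit 444) (nat_lit 294)))))) (XT.nd (nat_lit 546) (nat_lit 2128) (nat_lit 0) (XT.nd (nat_lit 234) (nat_lit 1140) (nat_lit 0) (XT.nd (nat_lit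 78) (nat_lit 608) (nat_lit 0) (XT.lf (nat_lit 0) (nat_lit 1033024039) (nat_lit 836) (nat_lit 15188071412) (nat_lit 76) (nat_lit 3940446706) (nat_lit 255) (nat_lit 5) (nat_lit 266) (nat_lit 5) (nat_lit 256) (nat_lit 5) (nat_lit 463) (nat_lit 444) (nat_lit 293)) (XT.nd (nat_lit 78) (nat_lit 608) (nat_lit 0) (XT.lf (nat_lit 0) (nat_lit 3035300854) (nat_lit 836) (nat_lit 4461493581) (nat_lit 76) (nat_lit 12990412752) (nat_lit 255) (nat_lit 5) (nat_lit 266) (nat_lit 5) (nat_lit 256) (nat_lit 5) (nat_lit 464) (nat_lit 444) (nat_lit 292)) (XT.lf (nat_lit 0) (nat_lit 5170284486) (nat_lit 684) (nat_lit 14124393229) (nat_lit 76) (nat_lit 1525786762) (nat_lit 247) (nat_lit 5) (nat_lit 256) (nat_lit 5) (nat_lit 248) (nat_lit 5) (nat_lit 465) (nat_lit 444) (nat_lit 291)))) (XT.nd (nat_lit 156) (nat_lit 532) (nat_lit 0) (XT.nd (nat_lit 78) (nat_lit 608) (nat_lit 0) (XT.lf (nat_lit 0) (nat_lit 7482348918) (nat_lit 684) (nat_lit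 2963732043) (nat_lit 76) (nat_lit 10714249005) (nat_lit 247) (nat_lit 5) (nat_lit 256) (nat_lit 5) (nat_lit 248) (nat_lit 5) (nat_lit 466) (nat_lit 444) (nat_lit 290)) (XT.lf (nat_lit 0) (nat_lit 8695099705) (nat_lit 608) (nat_lit 1245760333) (nat_lit 684) (nat_lit 11567220217) (nat_lit 239) (nat_lit 5) (nat_lit 247) (nat_lit 5) (nat_lit 248) (nat_lit 5) (nat_lit 467) (nat_lit 444) (nat_lit 289))) (XT.nd (nat_lit 78) (nat_lit 532) (nat_lit 0) (XT.lf (nat_lit 0) (nat_lit 12576100232) (nat_lit 684) (nat_lit 1186782253) (nat_lit 76) (nat_lit 8100292694) (nat_lit 239) (nat_lit 5) (nat_lit 248) (nat_lit 5) (nat_lit 240) (nat_lit 5) (nat_lit 468) (nat_lit 444) (nat_lit 288)) (XT.lf (nat_lit 0) (nat_lit 10983938444) (nat_lit 532) (nat_lit 4418195518) (nat_lit 608) (nat_lit 6823438198) (nat_lit 232) (nat_lit 5) (nat_lit 239) (nat_lit 5) (nat_lit 240) (nat_lit 5) (nat_lit 469) (nat_lit 444) (nat_lit 287))))) (XT.nd (nat_lit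 312) (nat_lit 988) (nat_lit 0) (XT.nd (nat_lit 156) (nat_lit 608) (nat_lit 0) (XT.nd (nat_lit 78) (nat_lit 0) (nat_lit 0) (XT.lf (nat_lit 0) (nat_lit 906765649) (nat_lit 532) (nat_lit 17470990323) (nat_lit 608) (nat_lit 4219142122) (nat_lit 225) (nat_lit 5) (nat_lit 232) (nat_lit 5) (nat_lit 233) (nat_lit 5) (nat_lit 470) (nat_lit 444) (nat_lit 286)) (XT.lf (nat_lit 0) (nat_lit 13599121149) (nat_lit 532) (nat_lit 7994412207) (nat_lit 608) (nat_lit 1381305075) (nat_lit 225) (nat_lit 5) (nat_lit 232) (nat_lit 5) (nat_lit 233) (nat_lit 5) (nat_lit 471) (nat_lit 444) (nat_lit 285))) (XT.nd (nat_lit 78) (nat_lit 0) (nat_lit 0) (XT.lf (nat_lit 0) (nat_lit 1555419182) (nat_lit 608) (nat_lit 20027850338) (nat_lit 76) (nat_lit 1779088960) (nat_lit 217) (nat_lit 5) (nat_lit 225) (nat_lit 5) (nat_lit 218) (nat_lit 5) (nat_lit 472) (nat_lit 444) (nat_lit 284)) (XT.lf (nat_lit 0) (nat_lit 4721521936) (nat_lit 608) (nat_lit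 7240559945) (nat_lit 76) (nat_lit 11793941894) (nat_lit 217) (nat_lit 5) (nat_lit 225) (nat_lit 5) (nat_lit 218) (nat_lit 5) (nat_lit 473) (nat_lit 444) (nat_lit 283)))) (XT.nd (nat_lit 156) (nat_lit 456) (nat_lit 0) (XT.nd (nat_lit 78) (nat_lit 0) (nat_lit 0) (XT.lf (nat_lit 0) (nat_lit 6042073945) (nat_lit 532) (nat_lit 1993054022) (nat_lit 608) (nat_lit 16124796544) (nat_lit 210) (nat_lit 5) (nat_lit 217) (nat_lit 5) (nat_lit 218) (nat_lit 5) (nat_lit 474) (nat_lit 444) (nat_lit 282)) (XT.lf (nat_lit 0) (nat_lit 11596063215) (nat_lit 608) (nat_lit 4788681961) (nat_lit 76) (nat_lit 8186760517) (nat_lit 210) (nat_lit 5) (nat_lit 218) (nat_lit 5) (nat_lit 211) (nat_lit 5) (nat_lit 475) (nat_lit 444) (nat_lit 281))) (XT.nd (nat_lit 78) (nat_lit 0) (nat_lit 0) (XT.lf (nat_lit 0) (nat_lit 9091952334) (nat_lit 456) (nat_lit 6273700794) (nat_lit 532) (nat_lit 9626727412) (nat_lit 204) (nat_lit 5) (nat_lit 210) (nat_lit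 5) (nat_lit 211) (nat_lit 5) (nat_lit 476) (nat_lit 444) (nat_lit 280)) (XT.lf (nat_lit 0) (nat_lit 19331753059) (nat_lit 532) (nat_lit 1983725920) (nat_lit 76) (nat_lit 4107900979) (nat_lit 204) (nat_lit 5) (nat_lit 211) (nat_lit 5) (nat_lit 205) (nat_lit 5) (nat_lit 477) (nat_lit 444) (nat_lit 279))))))) (XT.nd (nat_lit 1170) (nat_lit 2736) (nat_lit 0) (XT.nd (nat_lit 546) (nat_lit 1976) (nat_lit 0) (XT.nd (nat_lit 234) (nat_lit 836) (nat_lit 0) (XT.nd (nat_lit 78) (nat_lit 532) (nat_lit 0) (XT.lf (nat_lit 0) (nat_lit 12526802241) (nat_lit 456) (nat_lit 11067501335) (nat_lit 532) (nat_lit 2267682722) (nat_lit 198) (nat_lit 5) (nat_lit 204) (nat_lit 5) (nat_lit 205) (nat_lit 5) (nat_lit 478) (nat_lit 444) (nat_lit 278)) (XT.nd (nat_lit 78) (nat_lit 0) (nat_lit 0) (XT.lf (nat_lit 0) (nat_lit 1201297214) (nat_lit 456) (nat_lit 463830052) (nat_lit 532) (nat_lit 24647339970) (nat_lit 191) (nat_lit 5) (nat_lit 197)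 (nat_lit 5) (nat_lit 198) (nat_lit 5) (nat_lit 479) (nat_lit 444) (nat_lit 277)) (XT.lf (nat_lit 0) (nat_lit 5901919396) (nat_lit 532) (nat_lit 10455629470) (nat_lit 76) (nat_lit 10411293770) (nat_lit 191) (nat_lit 5) (nat_lit 198) (nat_lit 5) (nat_lit 192) (nat_lit 5) (nat_lit 480) (nat_lit 444) (nat_lit 276)))) (XT.nd (nat_lit 156) (nat_lit 380) (nat_lit 0) (XT.nd (nat_lit 78) (nat_lit 0) (nat_lit 0) (XT.lf (nat_lit 0) (nat_lit 4721166270) (nat_lit 456) (nat_lit 5589823476) (nat_lit 532) (nat_lit 16926565178) (nat_lit 185) (nat_lit 5) (nat_lit 191) (nat_lit 5) (nat_lit 192) (nat_lit 5) (nat_lit 481) (nat_lit 444) (nat_lit 275)) (XT.lf (nat_lit 0) (nat_lit 15007108591) (nat_lit 532) (nat_lit 7209507236) (nat_lit 76) (nat_lit 5499070297) (nat_lit 185) (nat_lit 5) (nat_lit 192) (nat_lit 5) (nat_lit 186) (nat_lit 5) (nat_lit 482) (nat_lit 444) (nat_lit 274))) (XT.nd (nat_lit 78) (nat_lit 0) (nat_lit 0) (XT.lf (nat_lit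 0) (nat_lit 8664467673) (nat_lit 380) (nat_lit 11313685334) (nat_lit 456) (nat_lit 8225987801) (nat_lit 180) (nat_lit 5) (nat_lit 185) (nat_lit 5) (nat_lit 186) (nat_lit 5) (nat_lit 483) (nat_lit 444) (nat_lit 273)) (XT.lf (nat_lit 0) (nat_lit 25156663809) (nat_lit 380) (nat_lit 9953989) (nat_lit 456) (nat_lit 3538583450) (nat_lit 180) (nat_lit 5) (nat_lit 185) (nat_lit 5) (nat_lit 186) (nat_lit 5) (nat_lit 484) (nat_lit 444) (nat_lit 272))))) (XT.nd (nat_lit 312) (nat_lit 760) (nat_lit 0) (XT.nd (nat_lit 156) (nat_lit 380) (nat_lit 0) (XT.nd (nat_lit 78) (nat_lit 380) (nat_lit 0) (XT.lf (nat_lit 0) (nat_lit 1499553348) (nat_lit 456) (nat_lit 16169394490) (nat_lit 76) (nat_lit 11544916398) (nat_lit 174) (nat_lit 5) (nat_lit 180) (nat_lit 5) (nat_lit 175) (nat_lit 5) (nat_lit 485) (nat_lit 444) (nat_lit 271)) (XT.lf (nat_lit 0) (nat_lit 438597403) (nat_lit 380) (nat_lit 6215254065) (nat_lit 456) (nat_lit 23081801123)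 (nat_lit 169) (nat_lit 5) (nat_lit 174) (nat_lit 5) (nat_lit 175) (nat_lit 5) (nat_lit 486) (nat_lit 444) (nat_lit 270))) (XT.nd (nat_lit 78) (nat_lit 380) (nat_lit 0) (XT.lf (nat_lit 0) (nat_lit 12177027507) (nat_lit 456) (nat_lit 12453013325) (nat_lit 76) (nat_lit 5636626994) (nat_lit 169) (nat_lit 5) (nat_lit 175) (nat_lit 5) (nat_lit 170) (nat_lit 5) (nat_lit 487) (nat_lit 444) (nat_lit 269)) (XT.lf (nat_lit 0) (nat_lit 4925263833) (nat_lit 380) (nat_lit 13045337279) (nat_lit 456) (nat_lit 12839872014) (nat_lit 164) (nat_lit 5) (nat_lit 169) (nat_lit 5) (nat_lit 170) (nat_lit 5) (nat_lit 488) (nat_lit 444) (nat_lit 268)))) (XT.nd (nat_lit 156) (nat_lit 456) (nat_lit 0) (XT.nd (nat_lit 78) (nat_lit 304) (nat_lit 0) (XT.lf (nat_lit 0) (nat_lit 23074560917) (nat_lit 380) (nat_lit 985060372) (nat_lit 456) (nat_lit 7307322776) (nat_lit 164) (nat_lit 5) (nat_lit 169) (nat_lit 5) (nat_lit 170) (nat_lit 5) (nat_lit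 489) (nat_lit 444) (nat_lit 267)) (XT.lf (nat_lit 0) (nat_lit 9906044469) (nat_lit 304) (nat_lit 20626424424) (nat_lit 380) (nat_lit 1401606172) (nat_lit 160) (nat_lit 5) (nat_lit 164) (nat_lit 5) (nat_lit 165) (nat_lit 5) (nat_lit 490) (nat_lit 444) (nat_lit 266))) (XT.nd (nat_lit 78) (nat_lit 380) (nat_lit 0) (XT.lf (nat_lit 0) (nat_lit 4680270647) (nat_lit 380) (nat_lit 3756450456) (nat_lit 76) (nat_lit 24077439394) (nat_lit 159) (nat_lit 5) (nat_lit 164) (nat_lit 5) (nat_lit 160) (nat_lit 5) (nat_lit 491) (nat_lit 444) (nat_lit 265)) (XT.lf (nat_lit 0) (nat_lit 11101231438) (nat_lit 456) (nat_lit 17804702807) (nat_lit 76) (nat_lit 4199754555) (nat_lit 154) (nat_lit 5) (nat_lit 160) (nat_lit 5) (nat_lit 155) (nat_lit 5) (nat_lit 492) (nat_lit 444) (nat_lit 264)))))) (XT.nd (nat_lit 624) (nat_lit 1216) (nat_lit 0) (XT.nd (nat_lit 312) (nat_lit 836) (nat_lit 0) (XT.nd (nat_lit 156) (nat_lit 380) (nat_lit 0) (XT.nd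 (nat_lit 78) (nat_lit 0) (nat_lit 0) (XT.lf (nat_lit 0) (nat_lit 1227921651) (nat_lit 304) (nat_lit 16616723765) (nat_lit 380) (nat_lit 15866423373) (nat_lit 150) (nat_lit 5) (nat_lit 154) (nat_lit 5) (nat_lit 155) (nat_lit 5) (nat_lit 493) (nat_lit 444) (nat_lit 263)) (XT.lf (nat_lit 0) (nat_lit 21191101111) (nat_lit 304) (nat_lit 3775293184) (nat_lit 380) (nat_lit 9362935462) (nat_lit 150) (nat_lit 5) (nat_lit 154) (nat_lit 5) (nat_lit 155) (nat_lit 5) (nat_lit 494) (nat_lit 444) (nat_lit 262))) (XT.nd (nat_lit 78) (nat_lit 76) (nat_lit 0) (XT.lf (nat_lit 0) (nat_lit 6824005835) (nat_lit 304) (nat_lit 25630572852) (nat_lit 380) (nat_lit 2506976908) (nat_lit 146) (nat_lit 5) (nat_lit 150) (nat_lit 5) (nat_lit 151) (nat_lit 5) (nat_lit 495) (nat_lit 444) (nat_lit 261)) (XT.lf (nat_lit 0) (nat_lit 4633499402) (nat_lit 380) (nat_lit 8042175600) (nat_lit 76) (nat_lit 22930728743) (nat_lit 145) (nat_lit 5) (nat_lit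 150) (nat_lit 5) (nat_lit 146) (nat_lit 5) (nat_lit 496) (nat_lit 444) (nat_lit 260)))) (XT.nd (nat_lit 156) (nat_lit 532) (nat_lit 0) (XT.nd (nat_lit 78) (nat_lit 0) (nat_lit 0) (XT.lf (nat_lit 0) (nat_lit 12065922187) (nat_lit 380) (nat_lit 23396804734) (nat_lit 76) (nat_lit 803282661) (nat_lit 141) (nat_lit 5) (nat_lit 146) (nat_lit 5) (nat_lit 142) (nat_lit 5) (nat_lit 497) (nat_lit 444) (nat_lit 259)) (XT.lf (nat_lit 0) (nat_lit 19925331172) (nat_lit 380) (nat_lit 2501732304) (nat_lit 76) (nat_lit 14512220190) (nat_lit 141) (nat_lit 5) (nat_lit 146) (nat_lit 5) (nat_lit 142) (nat_lit 5) (nat_lit 498) (nat_lit 444) (nat_lit 258))) (XT.nd (nat_lit 78) (nat_lit 228) (nat_lit 0) (XT.lf (nat_lit 0) (nat_lit 19393540172) (nat_lit 304) (nat_lit 8810004358) (nat_lit 380) (nat_lit 9423721241) (nat_lit 137) (nat_lit 5) (nat_lit 141) (nat_lit 5) (nat_lit 142) (nat_lit 5) (nat_lit 499) (nat_lit 444) (nat_lit 257)) (XT.lf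 (nat_lit 0) (nat_lit 3678087061) (nat_lit 228) (nat_lit 33159655062) (nat_lit 304) (nat_lit 1494916530) (nat_lit 134) (nat_lit 5) (nat_lit 137) (nat_lit 5) (nat_lit 138) (nat_lit 5) (nat_lit 500) (nat_lit 444) (nat_lit 256))))) (XT.nd (nat_lit 312) (nat_lit 608) (nat_lit 0) (XT.nd (nat_lit 156) (nat_lit 228) (nat_lit 0) (XT.nd (nat_lit 78) (nat_lit 304) (nat_lit 0) (XT.lf (nat_lit 0) (nat_lit 6811387940) (nat_lit 304) (nat_lit 12590987321) (nat_lit 76) (nat_lit 19646819727) (nat_lit 133) (nat_lit 5) (nat_lit 137) (nat_lit 5) (nat_lit 134) (nat_lit 5) (nat_lit 501) (nat_lit 444) (nat_lit 255)) (XT.lf (nat_lit 0) (nat_lit 10316014071) (nat_lit 304) (nat_lit 5116732421) (nat_lit 380) (nat_lit 24351159958) (nat_lit 129) (nat_lit 5) (nat_lit 133) (nat_lit 5) (nat_lit 134) (nat_lit 5) (nat_lit 502) (nat_lit 444) (nat_lit 254))) (XT.nd (nat_lit 78) (nat_lit 228) (nat_lit 0) (XT.lf (nat_lit 0) (nat_lit 24530183755) (nat_lit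 380) (nat_lit 6467054986) (nat_lit 76) (nat_lit 9536897776) (nat_lit 129) (nat_lit 5) (nat_lit 134) (nat_lit 5) (nat_lit 130) (nat_lit 5) (nat_lit 503) (nat_lit 444) (nat_lit 253)) (XT.lf (nat_lit 0) (nat_lit 17509952590) (nat_lit 228) (nat_lit 16606440453) (nat_lit 304) (nat_lit 7184005361) (nat_lit 126) (nat_lit 5) (nat_lit 129) (nat_lit 5) (nat_lit 130) (nat_lit 5) (nat_lit 504) (nat_lit 444) (nat_lit 252)))) (XT.nd (nat_lit 156) (nat_lit 228) (nat_lit 0) (XT.nd (nat_lit 78) (nat_lit 0) (nat_lit 0) (XT.lf (nat_lit 0) (nat_lit 231867498) (nat_lit 304) (nat_lit 1696652193) (nat_lit 380) (nat_lit 40158628777) (nat_lit 121) (nat_lit 5) (nat_lit 125) (nat_lit 5) (nat_lit 126) (nat_lit 5) (nat_lit 505) (nat_lit 444) (nat_lit 251)) (XT.lf (nat_lit 0) (nat_lit 11540869675) (nat_lit 380) (nat_lit 17637501132) (nat_lit 76) (nat_lit 13705871503) (nat_lit 121) (nat_lit 5) (nat_lit 126) (nat_lit 5) (nat_lit 122) (nat_lit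 5) (nat_lit 506) (nat_lit 444) (nat_lit 250))) (XT.nd (nat_lit 78) (nat_lit 0) (nat_lit 0) (XT.lf (nat_lit 0) (nat_lit 7430228876) (nat_lit 228) (nat_lit 14096586371) (nat_lit 304) (nat_lit 22175877310) (nat_lit 118) (nat_lit 5) (nat_lit 121) (nat_lit 5) (nat_lit 122) (nat_lit 5) (nat_lit 507) (nat_lit 444) (nat_lit 249)) (XT.lf (nat_lit 0) (nat_lit 32003053816) (nat_lit 304) (nat_lit 10949194270) (nat_lit 76) (nat_lit 1587727121) (nat_lit 118) (nat_lit 5) (nat_lit 122) (nat_lit 5) (nat_lit 119) (nat_lit 5) (nat_lit 508) (nat_lit 444) (nat_lit 248))))))))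
noncomputable def xc191 : XT := (XT.nd (nat_lit 2340) (nat_lit 760) (nat_lit 0) (XT.nd (nat_lit 1170) (nat_lit 1444) (nat_lit 0) (XT.nd (nat_lit 546) (nat_lit 1140) (nat_lit 0) (XT.nd (nat_lit 234) (nat_lit 456) (nat_lit 0) (XT.nd (nat_lit 78) (nat_lit 304) (nat_lit 0) (XT.lf (nat_lit 0) (nat_lit 15287863809) (nat_lit 228) (nat_lit 27789356227) (nat_lit 304) (nat_lit 2316647408) (nat_lit 115) (nat_lit 5) (nat_lit 118) (nat_lit 5) (nat_lit 119) (nat_lit 5) (nat_lit 509) (nat_lit 444) (nat_lit 247)) (XT.nd (nat_lit 78) (nat_lit 228) (nat_lit 0) (XT.lf (nat_lit 0) (nat_lit 8158808882) (nat_lit 304) (nat_lit 3818266983) (nat_lit 76) (nat_lit 34290669676) (nat_lit 114) (nat_lit 5) (nat_lit 118) (nat_lit 5) (nat_lit 115) (nat_lit 5) (nat_lit 510) (nat_lit 444) (nat_lit 246)) (XT.lf (nat_lit 0) (nat_lit 19170818312) (nat_lit 304) (nat_lit 23511331451) (nat_lit 76) (nat_lit 4476936847) (nat_lit 111) (nat_lit 5) (nat_lit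 115) (nat_lit 5) (nat_lit 112) (nat_lit 5) (nat_lit 511) (nat_lit 444) (nat_lit 245)))) (XT.nd (nat_lit 156) (nat_lit 228) (nat_lit 0) (XT.nd (nat_lit 78) (nat_lit 0) (nat_lit 0) (XT.lf (nat_lit 0) (nat_lit 3892448557) (nat_lit 228) (nat_lit 26812910107) (nat_lit 304) (nat_lit 17366044416) (nat_lit 108) (nat_lit 5) (nat_lit 111) (nat_lit 5) (nat_lit 112) (nat_lit 5) (nat_lit 512) (nat_lit 444) (nat_lit 244)) (XT.lf (nat_lit 0) (nat_lit 32595787933) (nat_lit 228) (nat_lit 10224833298) (nat_lit 304) (nat_lit 6183427513) (nat_lit 108) (nat_lit 5) (nat_lit 111) (nat_lit 5) (nat_lit 112) (nat_lit 5) (nat_lit 513) (nat_lit 444) (nat_lit 243))) (XT.nd (nat_lit 78) (nat_lit 0) (nat_lit 0) (XT.lf (nat_lit 0) (nat_lit 5414528311) (nat_lit 228) (nat_lit 37645820953) (nat_lit 76) (nat_lit 6897267603) (nat_lit 105) (nat_lit 5) (nat_lit 108) (nat_lit 5) (nat_lit 106) (nat_lit 5) (nat_lit 514) (nat_lit 444) (nat_lit 242)) (XT.lf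 (nat_lit 0) (nat_lit 17502049501) (nat_lit 228) (nat_lit 8873566909) (nat_lit 76) (nat_lit 24554361994) (nat_lit 105) (nat_lit 5) (nat_lit 108) (nat_lit 5) (nat_lit 106) (nat_lit 5) (nat_lit 515) (nat_lit 444) (nat_lit 241))))) (XT.nd (nat_lit 312) (nat_lit 456) (nat_lit 0) (XT.nd (nat_lit 156) (nat_lit 456) (nat_lit 0) (XT.nd (nat_lit 78) (nat_lit 0) (nat_lit 0) (XT.lf (nat_lit 0) (nat_lit 21170645368) (nat_lit 228) (nat_lit 8982473358) (nat_lit 304) (nat_lit 21772364639) (nat_lit 102) (nat_lit 5) (nat_lit 105) (nat_lit 5) (nat_lit 106) (nat_lit 5) (nat_lit 516) (nat_lit 444) (nat_lit 240)) (XT.lf (nat_lit 0) (nat_lit 43357511745) (nat_lit 304) (nat_lit 741175929) (nat_lit 76) (nat_lit 8846952289) (nat_lit 102) (nat_lit 5) (nat_lit 106) (nat_lit 5) (nat_lit 103) (nat_lit 5) (nat_lit 517) (nat_lit 444) (nat_lit 239))) (XT.nd (nat_lit 78) (nat_lit 228) (nat_lit 0) (XT.lf (nat_lit 0) (nat_lit 3288962732) (nat_lit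 228) (nat_lit 23338815468) (nat_lit 76) (nat_lit 27356215626) (nat_lit 99) (nat_lit 5) (nat_lit 102) (nat_lit 5) (nat_lit 100) (nat_lit 5) (nat_lit 518) (nat_lit 444) (nat_lit 238)) (XT.lf (nat_lit 0) (nat_lit 7991760463) (nat_lit 228) (nat_lit 8449791454) (nat_lit 304) (nat_lit 38606641730) (nat_lit 96) (nat_lit 5) (nat_lit 99) (nat_lit 5) (nat_lit 100) (nat_lit 5) (nat_lit 519) (nat_lit 444) (nat_lit 237)))) (XT.nd (nat_lit 156) (nat_lit 304) (nat_lit 0) (XT.nd (nat_lit 78) (nat_lit 152) (nat_lit 0) (XT.lf (nat_lit 0) (nat_lit 30323016607) (nat_lit 304) (nat_lit 15501901648) (nat_lit 76) (nat_lit 10309372485) (nat_lit 96) (nat_lit 5) (nat_lit 100) (nat_lit 5) (nat_lit 97) (nat_lit 5) (nat_lit 520) (nat_lit 444) (nat_lit 236)) (XT.lf (nat_lit 0) (nat_lit 17248059747) (nat_lit 152) (nat_lit 27619930185) (nat_lit 228) (nat_lit 12377569082) (nat_lit 94) (nat_lit 5) (nat_lit 96) (nat_lit 5) (nat_lit 97) (nat_lit 5)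 (nat_lit 521) (nat_lit 444) (nat_lit 235))) (XT.nd (nat_lit 78) (nat_lit 228) (nat_lit 0) (XT.lf (nat_lit 0) (nat_lit 1586374072) (nat_lit 228) (nat_lit 7106875435) (nat_lit 76) (nat_lit 49691824233) (nat_lit 93) (nat_lit 5) (nat_lit 96) (nat_lit 5) (nat_lit 94) (nat_lit 5) (nat_lit 522) (nat_lit 444) (nat_lit 234)) (XT.lf (nat_lit 0) (nat_lit 16086966011) (nat_lit 304) (nat_lit 32480763000) (nat_lit 76) (nat_lit 10976373360) (nat_lit 90) (nat_lit 5) (nat_lit 94) (nat_lit 5) (nat_lit 91) (nat_lit 5) (nat_lit 523) (nat_lit 444) (nat_lit 233)))))) (XT.nd (nat_lit 546) (nat_lit 760) (nat_lit 0) (XT.nd (nat_lit 234) (nat_lit 304) (nat_lit 0) (XT.nd (nat_lit 78) (nat_lit 228) (nat_lit 0) (XT.lf (nat_lit 0) (nat_lit 1609197281) (nat_lit 152) (nat_lit 29585089217) (nat_lit 228) (nat_lit 29538464224) (nat_lit 88) (nat_lit 5) (nat_lit 90) (nat_lit 5) (nat_lit 91) (nat_lit 5) (nat_lit 524) (nat_lit 444) (nat_lit 232)) (XT.nd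 (nat_lit 78) (nat_lit 228) (nat_lit 0) (XT.lf (nat_lit 0) (nat_lit 37383702223) (nat_lit 152) (nat_lit 9696839679) (nat_lit 228) (nat_lit 14866745342) (nat_lit 88) (nat_lit 5) (nat_lit 90) (nat_lit 5) (nat_lit 91) (nat_lit 5) (nat_lit 525) (nat_lit 444) (nat_lit 231)) (XT.lf (nat_lit 0) (nat_lit 450995434) (nat_lit 228) (nat_lit 52053415322) (nat_lit 76) (nat_lit 10687458978) (nat_lit 85) (nat_lit 5) (nat_lit 88) (nat_lit 5) (nat_lit 86) (nat_lit 5) (nat_lit 526) (nat_lit 444) (nat_lit 230)))) (XT.nd (nat_lit 156) (nat_lit 152) (nat_lit 0) (XT.nd (nat_lit 78) (nat_lit 152) (nat_lit 0) (XT.lf (nat_lit 0) (nat_lit 16273749198) (nat_lit 228) (nat_lit 16300842320) (nat_lit 76) (nat_lit 31884453851) (nat_lit 85) (nat_lit 5) (nat_lit 88) (nat_lit 5) (nat_lit 86) (nat_lit 5) (nat_lit 527) (nat_lit 444) (nat_lit 229)) (XT.lf (nat_lit 0) (nat_lit 20928901567) (nat_lit 152) (nat_lit 11841309475) (nat_lit 228) (nat_lit 32988054627)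 (nat_lit 83) (nat_lit 5) (nat_lit 85) (nat_lit 5) (nat_lit 86) (nat_lit 5) (nat_lit 528) (nat_lit 444) (nat_lit 228))) (XT.nd (nat_lit 78) (nat_lit 152) (nat_lit 0) (XT.lf (nat_lit 0) (nat_lit 50017112063) (nat_lit 228) (nat_lit 7578734747) (nat_lit 76) (nat_lit 9492949562) (nat_lit 83) (nat_lit 5) (nat_lit 86) (nat_lit 5) (nat_lit 84) (nat_lit 5) (nat_lit 529) (nat_lit 444) (nat_lit 227)) (XT.lf (nat_lit 0) (nat_lit 31278831041) (nat_lit 152) (nat_lit 36918418397) (nat_lit 228) (nat_lit 249518829) (nat_lit 81) (nat_lit 5) (nat_lit 83) (nat_lit 5) (nat_lit 84) (nat_lit 5) (nat_lit 530) (nat_lit 444) (nat_lit 226))))) (XT.nd (nat_lit 312) (nat_lit 380) (nat_lit 0) (XT.nd (nat_lit 156) (nat_lit 152) (nat_lit 0) (XT.nd (nat_lit 78) (nat_lit 0) (nat_lit 0) (XT.lf (nat_lit 0) (nat_lit 1474443855) (nat_lit 152) (nat_lit 15359011509) (nat_lit 228) (nat_lit 53004417861) (nat_lit 78) (nat_lit 5) (nat_lit 80) (nat_lit 5)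 (nat_lit 81) (nat_lit 5) (nat_lit 531) (nat_lit 444) (nat_lit 225)) (XT.lf (nat_lit 0) (nat_lit 34866694216) (nat_lit 228) (nat_lit 29297174160) (nat_lit 76) (nat_lit 7093485263) (nat_lit 78) (nat_lit 5) (nat_lit 81) (nat_lit 5) (nat_lit 79) (nat_lit 5) (nat_lit 532) (nat_lit 444) (nat_lit 224))) (XT.nd (nat_lit 78) (nat_lit 0) (nat_lit 0) (XT.lf (nat_lit 0) (nat_lit 11000038636) (nat_lit 152) (nat_lit 42696692248) (nat_lit 228) (nat_lit 19015013696) (nat_lit 76) (nat_lit 5) (nat_lit 78) (nat_lit 5) (nat_lit 79) (nat_lit 5) (nat_lit 533) (nat_lit 444) (nat_lit 223)) (XT.lf (nat_lit 0) (nat_lit 53103155542) (nat_lit 152) (nat_lit 20282373364) (nat_lit 228) (nat_lit 815422665) (nat_lit 76) (nat_lit 5) (nat_lit 78) (nat_lit 5) (nat_lit 79) (nat_lit 5) (nat_lit 534) (nat_lit 444) (nat_lit 222)))) (XT.nd (nat_lit 156) (nat_lit 152) (nat_lit 0) (XT.nd (nat_lit 78) (nat_lit 0) (nat_lit 0) (XT.lf (nat_lit 0) (nat_lit 17810528952)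 (nat_lit 228) (nat_lit 54786497338) (nat_lit 76) (nat_lit 3125730291) (nat_lit 73) (nat_lit 5) (nat_lit 76) (nat_lit 5) (nat_lit 74) (nat_lit 5) (nat_lit 535) (nat_lit 444) (nat_lit 221)) (XT.lf (nat_lit 0) (nat_lit 37392904383) (nat_lit 228) (nat_lit 12834521217) (nat_lit 76) (nat_lit 27050127022) (nat_lit 73) (nat_lit 5) (nat_lit 76) (nat_lit 5) (nat_lit 74) (nat_lit 5) (nat_lit 536) (nat_lit 444) (nat_lit 220))) (XT.nd (nat_lit 78) (nat_lit 0) (nat_lit 0) (XT.lf (nat_lit 0) (nat_lit 30977072191) (nat_lit 152) (nat_lit 26881568999) (nat_lit 228) (nat_lit 21011474766) (nat_lit 71) (nat_lit 5) (nat_lit 73) (nat_lit 5) (nat_lit 74) (nat_lit 5) (nat_lit 537) (nat_lit 444) (nat_lit 219)) (XT.lf (nat_lit 0) (nat_lit 76362725748) (nat_lit 152) (nat_lit 2703369652) (nat_lit 228) (nat_lit 1440528543) (nat_lit 71) (nat_lit 5) (nat_lit 73) (nat_lit 5) (nat_lit 74) (nat_lit 5) (nat_lit 538) (nat_lit 444) (nat_lit 218)))))))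 (XT.nd (nat_lit 55692) (nat_lit 0) (nat_lit 14136) (XT.nd (nat_lit 546) (nat_lit 76) (nat_lit 0) (XT.nd (nat_lit 234) (nat_lit 304) (nat_lit 0) (XT.nd (nat_lit 78) (nat_lit 152) (nat_lit 0) (XT.lf (nat_lit 0) (nat_lit 18968957622) (nat_lit 228) (nat_lit 40848853606) (nat_lit 76) (nat_lit 22350518562) (nat_lit 68) (nat_lit 5) (nat_lit 71) (nat_lit 5) (nat_lit 69) (nat_lit 5) (nat_lit 539) (nat_lit 444) (nat_lit 217)) (XT.nd (nat_lit 78) (nat_lit 0) (nat_lit 0) (XT.lf (nat_lit 0) (nat_lit 4394038847) (nat_lit 152) (nat_lit 35677185228) (nat_lit 228) (nat_lit 43804951494) (nat_lit 66) (nat_lit 5) (nat_lit 68) (nat_lit 5) (nat_lit 69) (nat_lit 5) (nat_lit 540) (nat_lit 444) (nat_lit 216)) (XT.lf (nat_lit 0) (nat_lit 51828284289) (nat_lit 152) (nat_lit 10388973861) (nat_lit 228) (nat_lit 23405677681) (nat_lit 66) (nat_lit 5) (nat_lit 68) (nat_lit 5) (nat_lit 69) (nat_lit 5) (nat_lit 541) (nat_lit 444) (nat_lit 215))))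 (XT.nd (nat_lit 156) (nat_lit 152) (nat_lit 0) (XT.nd (nat_lit 78) (nat_lit 76) (nat_lit 0) (XT.lf (nat_lit 0) (nat_lit 13370616329) (nat_lit 76) (nat_lit 71934341152) (nat_lit 152) (nat_lit 2108822989) (nat_lit 65) (nat_lit 5) (nat_lit 66) (nat_lit 5) (nat_lit 67) (nat_lit 4) (nat_lit 542) (nat_lit 444) (nat_lit 214)) (XT.lf (nat_lit 0) (nat_lit 19885789609) (nat_lit 152) (nat_lit 26904582595) (nat_lit 76) (nat_lit 42448888260) (nat_lit 64) (nat_lit 5) (nat_lit 66) (nat_lit 5) (nat_lit 65) (nat_lit 5) (nat_lit 543) (nat_lit 444) (nat_lit 213))) (XT.nd (nat_lit 78) (nat_lit 0) (nat_lit 0) (XT.lf (nat_lit 0) (nat_lit 22054493140) (nat_lit 152) (nat_lit 20653662088) (nat_lit 228) (nat_lit 48404414338) (nat_lit 62) (nat_lit 5) (nat_lit 64) (nat_lit 5) (nat_lit 65) (nat_lit 5) (nat_lit 544) (nat_lit 444) (nat_lit 212)) (XT.lf (nat_lit 0) (nat_lit 66548113395) (nat_lit 228) (nat_lit 20066154659) (nat_lit 76) (nat_lit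 6417822324) (nat_lit 62) (nat_lit 5) (nat_lit 65) (nat_lit 5) (nat_lit 63) (nat_lit 4) (nat_lit 545) (nat_lit 444) (nat_lit 211))))) (XT.nd (nat_lit 54834) (nat_lit 0) (nat_lit 16264) (XT.nd (nat_lit 54678) (nat_lit 0) (nat_lit 16188) (XT.nd (nat_lit 54600) (nat_lit 0) (nat_lit 16188) (XT.lf (nat_lit 0) (nat_lit 30788772387) (nat_lit 76) (nat_lit 60813303963) (nat_lit 152) (nat_lit 3392156366) (nat_lit 61) (nat_lit 5) (nat_lit 62) (nat_lit 5) (nat_lit 63) (nat_lit 4) (nat_lit 546) (nat_lit 444) (nat_lit 210)) (XT.lf (nat_lit 0) (nat_lit 23304298) (nat_lit 1292) (nat_lit 3878192690) (nat_lit 1292) (nat_lit 3878192690) (nat_lit 274) (nat_lit 3) (nat_lit 291) (nat_lit 3) (nat_lit 291) (nat_lit 5) (nat_lit 445) (nat_lit 445) (nat_lit 310))) (XT.nd (nat_lit 78) (nat_lit 0) (nat_lit 76) (XT.lf (nat_lit 0) (nat_lit 321530781) (nat_lit 1292) (nat_lit 131707540) (nat_lit 1292) (nat_lit 15331241236) (nat_lit 274) (nat_lit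 3) (nat_lit 291) (nat_lit 3) (nat_lit 291) (nat_lit 5) (nat_lit 446) (nat_lit 445) (nat_lit 309)) (XT.lf (nat_lit 0) (nat_lit 738859408) (nat_lit 1216) (nat_lit 8213833541) (nat_lit 1292) (nat_lit 7059617541) (nat_lit 275) (nat_lit 5) (nat_lit 291) (nat_lit 5) (nat_lit 292) (nat_lit 5) (nat_lit 447) (nat_lit 445) (nat_lit 308)))) (XT.nd (nat_lit 156) (nat_lit 0) (nat_lit 76) (XT.nd (nat_lit 78) (nat_lit 0) (nat_lit 76) (XT.lf (nat_lit 0) (nat_lit 1164143549) (nat_lit 1216) (nat_lit 287992703) (nat_lit 1292) (nat_lit 14794979447) (nat_lit 275) (nat_lit 5) (nat_lit 291) (nat_lit 5) (nat_lit 292) (nat_lit 5) (nat_lit 448) (nat_lit 445) (nat_lit 307)) (XT.lf (nat_lit 0) (nat_lit 1730361262) (nat_lit 1216) (nat_lit 8521467833) (nat_lit 1292) (nat_lit 6233293063) (nat_lit 276) (nat_lit 5) (nat_lit 292) (nat_lit 5) (nat_lit 293) (nat_lit 5) (nat_lit 449) (nat_lit 445) (nat_lit 306))) (XT.nd (nat_lit 78) (nat_lit 0) (nat_lit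 76) (XT.lf (nat_lit 0) (nat_lit 2321068849) (nat_lit 1216) (nat_lit 281769773) (nat_lit 1292) (nat_lit 14127207370) (nat_lit 276) (nat_lit 5) (nat_lit 292) (nat_lit 5) (nat_lit 293) (nat_lit 5) (nat_lit 450) (nat_lit 445) (nat_lit 305)) (XT.lf (nat_lit 0) (nat_lit 3051902635) (nat_lit 1216) (nat_lit 8669199278) (nat_lit 1292) (nat_lit 5257545690) (nat_lit 277) (nat_lit 5) (nat_lit 293) (nat_lit 5) (nat_lit 294) (nat_lit 5) (nat_lit 451) (nat_lit 445) (nat_lit 304)))))) (XT.nd (nat_lit 624) (nat_lit 2280) (nat_lit 0) (XT.nd (nat_lit 312) (nat_lit 0) (nat_lit 152) (XT.nd (nat_lit 156) (nat_lit 0) (nat_lit 76) (XT.nd (nat_lit 78) (nat_lit 0) (nat_lit 76) (XT.lf (nat_lit 0) (nat_lit 3824037321) (nat_lit 1216) (nat_lit 102264342) (nat_lit 1292) (nat_lit 13307826469) (nat_lit 277) (nat_lit 5) (nat_lit 293) (nat_lit 5) (nat_lit 294) (nat_lit 5) (nat_lit 452) (nat_lit 445) (nat_lit 303)) (XT.lf (nat_lit 0) (nat_lit 4736097592)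 (nat_lit 1216) (nat_lit 8645998554) (nat_lit 1292) (nat_lit 4111676172) (nat_lit 278) (nat_lit 5) (nat_lit 294) (nat_lit 5) (nat_lit 295) (nat_lit 5) (nat_lit 453) (nat_lit 445) (nat_lit 302))) (XT.nd (nat_lit 78) (nat_lit 0) (nat_lit 76) (XT.lf (nat_lit 76) (nat_lit 267485123) (nat_lit 0) (nat_lit 5441759899) (nat_lit 1292) (nat_lit 12050951069) (nat_lit 279) (nat_lit 5) (nat_lit 278) (nat_lit 5) (nat_lit 295) (nat_lit 5) (nat_lit 454) (nat_lit 445) (nat_lit 301)) (XT.lf (nat_lit 0) (nat_lit 6817525305) (nat_lit 1216) (nat_lit 8439865813) (nat_lit 1292) (nat_lit 2774045273) (nat_lit 279) (nat_lit 5) (nat_lit 295) (nat_lit 5) (nat_lit 296) (nat_lit 5) (nat_lit 455) (nat_lit 445) (nat_lit 300)))) (XT.nd (nat_lit 156) (nat_lit 0) (nat_lit 76) (XT.nd (nat_lit 78) (nat_lit 0) (nat_lit 76) (XT.lf (nat_lit 76) (nat_lit 840971837) (nat_lit 0) (nat_lit 7171752381) (nat_lit 1292) (nat_lit 10296481485) (nat_lit 280) (nat_lit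 5) (nat_lit 279) (nat_lit 5) (nat_lit 296) (nat_lit 5) (nat_lit 456) (nat_lit 445) (nat_lit 299)) (XT.lf (nat_lit 0) (nat_lit 9332875942) (nat_lit 1216) (nat_lit 8037797282) (nat_lit 1292) (nat_lit 1221963817) (nat_lit 280) (nat_lit 5) (nat_lit 296) (nat_lit 5) (nat_lit 297) (nat_lit 5) (nat_lit 457) (nat_lit 445) (nat_lit 298))) (XT.nd (nat_lit 78) (nat_lit 0) (nat_lit 0) (XT.lf (nat_lit 76) (nat_lit 1630211409) (nat_lit 0) (nat_lit 9141244834) (nat_lit 1292) (nat_lit 8110752153) (nat_lit 281) (nat_lit 5) (nat_lit 280) (nat_lit 5) (nat_lit 297) (nat_lit 5) (nat_lit 458) (nat_lit 445) (nat_lit 297)) (XT.lf (nat_lit 76) (nat_lit 11746942732) (nat_lit 0) (nat_lit 579733469) (nat_lit 1292) (nat_lit 6851587970) (nat_lit 281) (nat_lit 5) (nat_lit 280) (nat_lit 5) (nat_lit 297) (nat_lit 5) (nat_lit 459) (nat_lit 445) (nat_lit 296))))) (XT.nd (nat_lit 312) (nat_lit 1444) (nat_lit 0) (XT.nd (nat_lit 156) (nat_lit 1140)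 (nat_lit 0) (XT.nd (nat_lit 78) (nat_lit 0) (nat_lit 0) (XT.lf (nat_lit 76) (nat_lit 2650349766) (nat_lit 0) (nat_lit 11375429441) (nat_lit 1292) (nat_lit 5454507315) (nat_lit 282) (nat_lit 5) (nat_lit 281) (nat_lit 5) (nat_lit 298) (nat_lit 5) (nat_lit 460) (nat_lit 445) (nat_lit 295)) (XT.lf (nat_lit 76) (nat_lit 13174864223) (nat_lit 0) (nat_lit 2674429824) (nat_lit 1292) (nat_lit 3939873979) (nat_lit 282) (nat_lit 5) (nat_lit 281) (nat_lit 5) (nat_lit 298) (nat_lit 5) (nat_lit 461) (nat_lit 445) (nat_lit 294))) (XT.nd (nat_lit 78) (nat_lit 0) (nat_lit 0) (XT.lf (nat_lit 0) (nat_lit 3917670508) (nat_lit 1216) (nat_lit 13900879858) (nat_lit 1292) (nat_lit 2286036128) (nat_lit 266) (nat_lit 5) (nat_lit 282) (nat_lit 5) (nat_lit 283) (nat_lit 5) (nat_lit 462) (nat_lit 445) (nat_lit 293)) (XT.lf (nat_lit 0) (nat_lit 14868109209) (nat_lit 1216) (nat_lit 5064870625) (nat_lit 1292) (nat_lit 493906369) (nat_lit 266)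 (nat_lit 5) (nat_lit 282) (nat_lit 5) (nat_lit 283) (nat_lit 5) (nat_lit 463) (nat_lit 445) (nat_lit 292)))) (XT.nd (nat_lit 156) (nat_lit 608) (nat_lit 0) (XT.nd (nat_lit 78) (nat_lit 0) (nat_lit 0) (XT.lf (nat_lit 0) (nat_lit 1410917302) (nat_lit 836) (nat_lit 15320513864) (nat_lit 76) (nat_lit 4024475952) (nat_lit 255) (nat_lit 5) (nat_lit 266) (nat_lit 5) (nat_lit 256) (nat_lit 5) (nat_lit 464) (nat_lit 445) (nat_lit 291)) (XT.lf (nat_lit 0) (nat_lit 3463158464) (nat_lit 836) (nat_lit 4281552281) (nat_lit 76) (nat_lit 13346936634) (nat_lit 255) (nat_lit 5) (nat_lit 266) (nat_lit 5) (nat_lit 256) (nat_lit 5) (nat_lit 465) (nat_lit 445) (nat_lit 290))) (XT.nd (nat_lit 78) (nat_lit 0) (nat_lit 0) (XT.lf (nat_lit 0) (nat_lit 5655183474) (nat_lit 684) (nat_lit 14227260819) (nat_lit 76) (nat_lit 1552670436) (nat_lit 247) (nat_lit 5) (nat_lit 256) (nat_lit 5) (nat_lit 248) (nat_lit 5) (nat_lit 466) (nat_lit 445) (nat_lit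 289)) (XT.lf (nat_lit 0) (nat_lit 8027004291) (nat_lit 684) (nat_lit 2741125357) (nat_lit 76) (nat_lit 11017336739) (nat_lit 247) (nat_lit 5) (nat_lit 256) (nat_lit 5) (nat_lit 248) (nat_lit 5) (nat_lit 467) (nat_lit 445) (nat_lit 288))))))))
noncomputable def xc192 : XT := (XT.nd (nat_lit 2340) (nat_lit 4560) (nat_lit 0) (XT.nd (nat_lit 1170) (nat_lit 3040) (nat_lit 0) (XT.nd (nat_lit 546) (nat_lit 2432) (nat_lit 0) (XT.nd (nat_lit 234) (nat_lit 1140) (nat_lit 0) (XT.nd (nat_lit 78) (nat_lit 532) (nat_lit 0) (XT.lf (nat_lit 0) (nat_lit 9264417238) (nat_lit 608) (nat_lit 1288492883) (nat_lit 684) (nat_lit 11590931861) (nat_lit 239) (nat_lit 5) (nat_lit 247) (nat_lit 5) (nat_lit 248) (nat_lit 5) (nat_lit 468) (nat_lit 445) (nat_lit 287)) (XT.nd (nat_lit 78) (nat_lit 532) (nat_lit 0) (XT.lf (nat_lit 0) (nat_lit 13258016987) (nat_lit 684) (nat_lit 913651018) (nat_lit 76) (nat_lit 8338199386) (nat_lit 239) (nat_lit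 5) (nat_lit 248) (nat_lit 5) (nat_lit 240) (nat_lit 5) (nat_lit 469) (nat_lit 445) (nat_lit 286)) (XT.lf (nat_lit 0) (nat_lit 11619164489) (nat_lit 532) (nat_lit 4543733064) (nat_lit 608) (nat_lit 6720418619) (nat_lit 232) (nat_lit 5) (nat_lit 239) (nat_lit 5) (nat_lit 240) (nat_lit 5) (nat_lit 470) (nat_lit 445) (nat_lit 285)))) (XT.nd (nat_lit 156) (nat_lit 608) (nat_lit 0) (XT.nd (nat_lit 78) (nat_lit 0) (nat_lit 0) (XT.lf (nat_lit 0) (nat_lit 1245547357) (nat_lit 532) (nat_lit 17976601370) (nat_lit 608) (nat_lit 4043804153) (nat_lit 225) (nat_lit 5) (nat_lit 232) (nat_lit 5) (nat_lit 233) (nat_lit 5) (nat_lit 471) (nat_lit 445) (nat_lit 284)) (XT.lf (nat_lit 0) (nat_lit 14309598413) (nat_lit 532) (nat_lit 8216265289) (nat_lit 608) (nat_lit 1129625554) (nat_lit 225) (nat_lit 5) (nat_lit 232) (nat_lit 5) (nat_lit 233) (nat_lit 5) (nat_lit 472) (nat_lit 445) (nat_lit 283))) (XT.nd (nat_lit 78) (nat_lit 0) (nat_lit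 0) (XT.lf (nat_lit 0) (nat_lit 1884268046) (nat_lit 608) (nat_lit 20315137711) (nat_lit 76) (nat_lit 1855302655) (nat_lit 217) (nat_lit 5) (nat_lit 225) (nat_lit 5) (nat_lit 218) (nat_lit 5) (nat_lit 473) (nat_lit 445) (nat_lit 282)) (XT.lf (nat_lit 0) (nat_lit 5137134865) (nat_lit 608) (nat_lit 7153361076) (nat_lit 76) (nat_lit 12169935904) (nat_lit 217) (nat_lit 5) (nat_lit 225) (nat_lit 5) (nat_lit 218) (nat_lit 5) (nat_lit 474) (nat_lit 445) (nat_lit 281))))) (XT.nd (nat_lit 312) (nat_lit 1444) (nat_lit 0) (XT.nd (nat_lit 156) (nat_lit 456) (nat_lit 0) (XT.nd (nat_lit 78) (nat_lit 0) (nat_lit 0) (XT.lf (nat_lit 0) (nat_lit 6524767363) (nat_lit 532) (nat_lit 2020299625) (nat_lit 608) (nat_lit 16331536639) (nat_lit 210) (nat_lit 5) (nat_lit 217) (nat_lit 5) (nat_lit 218) (nat_lit 5) (nat_lit 475) (nat_lit 445) (nat_lit 280)) (XT.lf (nat_lit 0) (nat_lit 12205302427) (nat_lit 608) (nat_lit 4632112356) (nat_lit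 76) (nat_lit 8463344815) (nat_lit 210) (nat_lit 5) (nat_lit 218) (nat_lit 5) (nat_lit 211) (nat_lit 5) (nat_lit 476) (nat_lit 445) (nat_lit 279))) (XT.nd (nat_lit 78) (nat_lit 0) (nat_lit 0) (XT.lf (nat_lit 0) (nat_lit 9661997536) (nat_lit 456) (nat_lit 6421227853) (nat_lit 532) (nat_lit 9651179412) (nat_lit 204) (nat_lit 5) (nat_lit 210) (nat_lit 5) (nat_lit 211) (nat_lit 5) (nat_lit 477) (nat_lit 445) (nat_lit 278)) (XT.lf (nat_lit 0) (nat_lit 20161214143) (nat_lit 532) (nat_lit 1747468079) (nat_lit 76) (nat_lit 4269866235) (nat_lit 204) (nat_lit 5) (nat_lit 211) (nat_lit 5) (nat_lit 205) (nat_lit 5) (nat_lit 478) (nat_lit 445) (nat_lit 277)))) (XT.nd (nat_lit 156) (nat_lit 456) (nat_lit 0) (XT.nd (nat_lit 78) (nat_lit 532) (nat_lit 0) (XT.lf (nat_lit 0) (nat_lit 13195476224) (nat_lit 456) (nat_lit 11351712958) (nat_lit 532) (nat_lit 2083258753) (nat_lit 198) (nat_lit 5) (nat_lit 204) (nat_lit 5) (nat_lit 205)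 (nat_lit 5) (nat_lit 479) (nat_lit 445) (nat_lit 276)) (XT.lf (nat_lit 0) (nat_lit 1532257241) (nat_lit 456) (nat_lit 425977402) (nat_lit 532) (nat_lit 25136268400) (nat_lit 191) (nat_lit 5) (nat_lit 197) (nat_lit 5) (nat_lit 198) (nat_lit 5) (nat_lit 480) (nat_lit 445) (nat_lit 275))) (XT.nd (nat_lit 78) (nat_lit 456) (nat_lit 0) (XT.lf (nat_lit 0) (nat_lit 6315531523) (nat_lit 532) (nat_lit 10476325831) (nat_lit 76) (nat_lit 10772911593) (nat_lit 191) (nat_lit 5) (nat_lit 198) (nat_lit 5) (nat_lit 192) (nat_lit 5) (nat_lit 481) (nat_lit 445) (nat_lit 274)) (XT.lf (nat_lit 0) (nat_lit 5152901501) (nat_lit 456) (nat_lit 5699871165) (nat_lit 532) (nat_lit 17194894210) (nat_lit 185) (nat_lit 5) (nat_lit 191) (nat_lit 5) (nat_lit 192) (nat_lit 5) (nat_lit 482) (nat_lit 445) (nat_lit 273)))))) (XT.nd (nat_lit 546) (nat_lit 1444) (nat_lit 0) (XT.nd (nat_lit 234) (nat_lit 1216) (nat_lit 0) (XT.nd (nat_lit 78) (nat_lit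 380) (nat_lit 0) (XT.lf (nat_lit 0) (nat_lit 15683542592) (nat_lit 532) (nat_lit 7137869346) (nat_lit 76) (nat_lit 5718918245) (nat_lit 185) (nat_lit 5) (nat_lit 192) (nat_lit 5) (nat_lit 186) (nat_lit 5) (nat_lit 483) (nat_lit 445) (nat_lit 272)) (XT.nd (nat_lit 78) (nat_lit 0) (nat_lit 0) (XT.lf (nat_lit 0) (nat_lit 9209502035) (nat_lit 380) (nat_lit 11590367911) (nat_lit 456) (nat_lit 8243685177) (nat_lit 180) (nat_lit 5) (nat_lit 185) (nat_lit 5) (nat_lit 186) (nat_lit 5) (nat_lit 484) (nat_lit 445) (nat_lit 271)) (XT.lf (nat_lit 0) (nat_lit 26137998680) (nat_lit 456) (nat_lit 3372169512) (nat_lit 76) (nat_lit 49660012) (nat_lit 180) (nat_lit 5) (nat_lit 186) (nat_lit 5) (nat_lit 181) (nat_lit 5) (nat_lit 485) (nat_lit 445) (nat_lit 270)))) (XT.nd (nat_lit 156) (nat_lit 380) (nat_lit 0) (XT.nd (nat_lit 78) (nat_lit 380) (nat_lit 0) (XT.lf (nat_lit 0) (nat_lit 1759550061) (nat_lit 456) (nat_lit 16370208071)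 (nat_lit 76) (nat_lit 11954036275) (nat_lit 174) (nat_lit 5) (nat_lit 180) (nat_lit 5) (nat_lit 175) (nat_lit 5) (nat_lit 486) (nat_lit 445) (nat_lit 269)) (XT.lf (nat_lit 0) (nat_lit 733236635) (nat_lit 380) (nat_lit 6331683830) (nat_lit 456) (nat_lit 23556423680) (nat_lit 169) (nat_lit 5) (nat_lit 174) (nat_lit 5) (nat_lit 175) (nat_lit 5) (nat_lit 487) (nat_lit 445) (nat_lit 268))) (XT.nd (nat_lit 78) (nat_lit 380) (nat_lit 0) (XT.lf (nat_lit 0) (nat_lit 12748286491) (nat_lit 456) (nat_lit 12547782188) (nat_lit 76) (nat_lit 5872387320) (nat_lit 169) (nat_lit 5) (nat_lit 175) (nat_lit 5) (nat_lit 170) (nat_lit 5) (nat_lit 488) (nat_lit 445) (nat_lit 267)) (XT.lf (nat_lit 0) (nat_lit 5349109740) (nat_lit 380) (nat_lit 13363213002) (nat_lit 456) (nat_lit 13016354028) (nat_lit 164) (nat_lit 5) (nat_lit 169) (nat_lit 5) (nat_lit 170) (nat_lit 5) (nat_lit 489) (nat_lit 445) (nat_lit 266))))) (XT.nd (nat_lit 312) (nat_lit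 684) (nat_lit 0) (XT.nd (nat_lit 156) (nat_lit 456) (nat_lit 0) (XT.nd (nat_lit 78) (nat_lit 304) (nat_lit 0) (XT.lf (nat_lit 0) (nat_lit 24034844339) (nat_lit 380) (nat_lit 943268109) (nat_lit 456) (nat_lit 7323907365) (nat_lit 164) (nat_lit 5) (nat_lit 169) (nat_lit 5) (nat_lit 170) (nat_lit 5) (nat_lit 490) (nat_lit 445) (nat_lit 265)) (XT.lf (nat_lit 0) (nat_lit 10473839822) (nat_lit 304) (nat_lit 21168843594) (nat_lit 380) (nat_lit 1243556106) (nat_lit 160) (nat_lit 5) (nat_lit 164) (nat_lit 5) (nat_lit 165) (nat_lit 5) (nat_lit 491) (nat_lit 445) (nat_lit 264))) (XT.nd (nat_lit 78) (nat_lit 380) (nat_lit 0) (XT.lf (nat_lit 0) (nat_lit 5011158002) (nat_lit 380) (nat_lit 3602592176) (nat_lit 76) (nat_lit 24870091930) (nat_lit 159) (nat_lit 5) (nat_lit 164) (nat_lit 5) (nat_lit 160) (nat_lit 5) (nat_lit 492) (nat_lit 445) (nat_lit 263)) (XT.lf (nat_lit 0) (nat_lit 11622471895) (nat_lit 456) (nat_lit 18069988389)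 (nat_lit 76) (nat_lit 4400725089) (nat_lit 154) (nat_lit 5) (nat_lit 160) (nat_lit 5) (nat_lit 155) (nat_lit 5) (nat_lit 493) (nat_lit 445) (nat_lit 262)))) (XT.nd (nat_lit 156) (nat_lit 380) (nat_lit 0) (XT.nd (nat_lit 78) (nat_lit 0) (nat_lit 0) (XT.lf (nat_lit 0) (nat_lit 1530978965) (nat_lit 304) (nat_lit 17034286738) (nat_lit 380) (nat_lit 16151549552) (nat_lit 150) (nat_lit 5) (nat_lit 154) (nat_lit 5) (nat_lit 155) (nat_lit 5) (nat_lit 494) (nat_lit 445) (nat_lit 261)) (XT.lf (nat_lit 0) (nat_lit 22085299837) (nat_lit 304) (nat_lit 3809970678) (nat_lit 380) (nat_lit 9458516222) (nat_lit 150) (nat_lit 5) (nat_lit 154) (nat_lit 5) (nat_lit 155) (nat_lit 5) (nat_lit 495) (nat_lit 445) (nat_lit 260))) (XT.nd (nat_lit 78) (nat_lit 76) (nat_lit 0) (XT.lf (nat_lit 0) (nat_lit 7289279506) (nat_lit 304) (nat_lit 26316819553) (nat_lit 380) (nat_lit 2398941103) (nat_lit 146) (nat_lit 5) (nat_lit 150) (nat_lit 5) (nat_lit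 151) (nat_lit 5) (nat_lit 496) (nat_lit 445) (nat_lit 259)) (XT.lf (nat_lit 0) (nat_lit 4946940637) (nat_lit 380) (nat_lit 8026980544) (nat_lit 76) (nat_lit 23695417447) (nat_lit 145) (nat_lit 5) (nat_lit 150) (nat_lit 5) (nat_lit 146) (nat_lit 5) (nat_lit 497) (nat_lit 445) (nat_lit 258))))))) (XT.nd (nat_lit 1170) (nat_lit 1976) (nat_lit 0) (XT.nd (nat_lit 546) (nat_lit 1368) (nat_lit 0) (XT.nd (nat_lit 234) (nat_lit 608) (nat_lit 0) (XT.nd (nat_lit 78) (nat_lit 304) (nat_lit 0) (XT.lf (nat_lit 0) (nat_lit 12600486192) (nat_lit 380) (nat_lit 23840375201) (nat_lit 76) (nat_lit 907927449) (nat_lit 141) (nat_lit 5) (nat_lit 146) (nat_lit 5) (nat_lit 142) (nat_lit 5) (nat_lit 498) (nat_lit 445) (nat_lit 257)) (XT.nd (nat_lit 78) (nat_lit 304) (nat_lit 0) (XT.lf (nat_lit 0) (nat_lit 20690650660) (nat_lit 380) (nat_lit 2325974879) (nat_lit 76) (nat_lit 15025787095) (nat_lit 141) (nat_lit 5) (nat_lit 146) (nat_lit 5)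 (nat_lit 142) (nat_lit 5) (nat_lit 499) (nat_lit 445) (nat_lit 256)) (XT.lf (nat_lit 0) (nat_lit 20223696855) (nat_lit 304) (nat_lit 8991020485) (nat_lit 380) (nat_lit 9536392317) (nat_lit 137) (nat_lit 5) (nat_lit 141) (nat_lit 5) (nat_lit 142) (nat_lit 5) (nat_lit 500) (nat_lit 445) (nat_lit 255)))) (XT.nd (nat_lit 156) (nat_lit 304) (nat_lit 0) (XT.nd (nat_lit 78) (nat_lit 76) (nat_lit 0) (XT.lf (nat_lit 0) (nat_lit 4038477935) (nat_lit 228) (nat_lit 34067836040) (nat_lit 304) (nat_lit 1371399800) (nat_lit 134) (nat_lit 5) (nat_lit 137) (nat_lit 5) (nat_lit 138) (nat_lit 5) (nat_lit 501) (nat_lit 445) (nat_lit 254)) (XT.lf (nat_lit 0) (nat_lit 7176000290) (nat_lit 304) (nat_lit 12722741718) (nat_lit 76) (nat_lit 20317100490) (nat_lit 133) (nat_lit 5) (nat_lit 137) (nat_lit 5) (nat_lit 134) (nat_lit 5) (nat_lit 502) (nat_lit 445) (nat_lit 253))) (XT.nd (nat_lit 78) (nat_lit 0) (nat_lit 0) (XT.lf (nat_lit 0) (nat_lit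 10869058194) (nat_lit 304) (nat_lit 5184614609) (nat_lit 380) (nat_lit 24918992895) (nat_lit 129) (nat_lit 5) (nat_lit 133) (nat_lit 5) (nat_lit 134) (nat_lit 5) (nat_lit 503) (nat_lit 445) (nat_lit 252)) (XT.lf (nat_lit 0) (nat_lit 25420231933) (nat_lit 380) (nat_lit 6420776715) (nat_lit 76) (nat_lit 9904508626) (nat_lit 129) (nat_lit 5) (nat_lit 134) (nat_lit 5) (nat_lit 130) (nat_lit 5) (nat_lit 504) (nat_lit 445) (nat_lit 251))))) (XT.nd (nat_lit 312) (nat_lit 532) (nat_lit 0) (XT.nd (nat_lit 156) (nat_lit 228) (nat_lit 0) (XT.nd (nat_lit 78) (nat_lit 380) (nat_lit 0) (XT.lf (nat_lit 0) (nat_lit 18273185305) (nat_lit 228) (nat_lit 17018639772) (nat_lit 304) (nat_lit 7243008570) (nat_lit 126) (nat_lit 5) (nat_lit 129) (nat_lit 5) (nat_lit 130) (nat_lit 5) (nat_lit 505) (nat_lit 445) (nat_lit 250)) (XT.lf (nat_lit 0) (nat_lit 477467026) (nat_lit 304) (nat_lit 1660195197) (nat_lit 380) (nat_lit 41207544651) (nat_lit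 121) (nat_lit 5) (nat_lit 125) (nat_lit 5) (nat_lit 126) (nat_lit 5) (nat_lit 506) (nat_lit 445) (nat_lit 249))) (XT.nd (nat_lit 78) (nat_lit 228) (nat_lit 0) (XT.lf (nat_lit 0) (nat_lit 12034791557) (nat_lit 380) (nat_lit 17931325364) (nat_lit 76) (nat_lit 14200204852) (nat_lit 121) (nat_lit 5) (nat_lit 126) (nat_lit 5) (nat_lit 122) (nat_lit 5) (nat_lit 507) (nat_lit 445) (nat_lit 248)) (XT.lf (nat_lit 0) (nat_lit 7886129674) (nat_lit 228) (nat_lit 14432123684) (nat_lit 304) (nat_lit 22691134528) (nat_lit 118) (nat_lit 5) (nat_lit 121) (nat_lit 5) (nat_lit 122) (nat_lit 5) (nat_lit 508) (nat_lit 445) (nat_lit 247)))) (XT.nd (nat_lit 156) (nat_lit 304) (nat_lit 0) (XT.nd (nat_lit 78) (nat_lit 228) (nat_lit 0) (XT.lf (nat_lit 0) (nat_lit 33105352628) (nat_lit 304) (nat_lit 11048019982) (nat_lit 76) (nat_lit 1718519677) (nat_lit 118) (nat_lit 5) (nat_lit 122) (nat_lit 5) (nat_lit 119) (nat_lit 5) (nat_lit 509) (nat_lit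 445) (nat_lit 246)) (XT.lf (nat_lit 0) (nat_lit 15973898368) (nat_lit 228) (nat_lit 28535889405) (nat_lit 304) (nat_lit 2241672666) (nat_lit 115) (nat_lit 5) (nat_lit 118) (nat_lit 5) (nat_lit 119) (nat_lit 5) (nat_lit 510) (nat_lit 445) (nat_lit 245))) (XT.nd (nat_lit 78) (nat_lit 228) (nat_lit 0) (XT.lf (nat_lit 0) (nat_lit 8541102229) (nat_lit 304) (nat_lit 3709287905) (nat_lit 76) (nat_lit 35401247294) (nat_lit 114) (nat_lit 5) (nat_lit 118) (nat_lit 5) (nat_lit 115) (nat_lit 5) (nat_lit 511) (nat_lit 445) (nat_lit 244)) (XT.lf (nat_lit 0) (nat_lit 19882417507) (nat_lit 304) (nat_lit 23992075693) (nat_lit 76) (nat_lit 4695257588) (nat_lit 111) (nat_lit 5) (nat_lit 115) (nat_lit 5) (nat_lit 112) (nat_lit 5) (nat_lit 512) (nat_lit 445) (nat_lit 243)))))) (XT.nd (nat_lit 546) (nat_lit 1064) (nat_lit 0) (XT.nd (nat_lit 234) (nat_lit 456) (nat_lit 0) (XT.nd (nat_lit 78) (nat_lit 228) (nat_lit 0) (XT.lf (nat_lit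 0) (nat_lit 4231615798) (nat_lit 228) (nat_lit 27529541068) (nat_lit 304) (nat_lit 17748335416) (nat_lit 108) (nat_lit 5) (nat_lit 111) (nat_lit 5) (nat_lit 112) (nat_lit 5) (nat_lit 513) (nat_lit 445) (nat_lit 242)) (XT.nd (nat_lit 78) (nat_lit 228) (nat_lit 0) (XT.lf (nat_lit 0) (nat_lit 33789577865) (nat_lit 228) (nat_lit 10446377965) (nat_lit 304) (nat_lit 6234279530) (nat_lit 108) (nat_lit 5) (nat_lit 111) (nat_lit 5) (nat_lit 112) (nat_lit 5) (nat_lit 514) (nat_lit 445) (nat_lit 241)) (XT.lf (nat_lit 0) (nat_lit 5708050594) (nat_lit 228) (nat_lit 38555689337) (nat_lit 76) (nat_lit 7188660249) (nat_lit 105) (nat_lit 5) (nat_lit 108) (nat_lit 5) (nat_lit 106) (nat_lit 5) (nat_lit 515) (nat_lit 445) (nat_lit 240)))) (XT.nd (nat_lit 156) (nat_lit 228) (nat_lit 0) (XT.nd (nat_lit 78) (nat_lit 228) (nat_lit 0) (XT.lf (nat_lit 0) (nat_lit 18154379369) (nat_lit 228) (nat_lit 8926661058) (nat_lit 76) (nat_lit 25373007046)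 (nat_lit 105) (nat_lit 5) (nat_lit 108) (nat_lit 5) (nat_lit 106) (nat_lit 5) (nat_lit 516) (nat_lit 445) (nat_lit 239)) (XT.lf (nat_lit 0) (nat_lit 22016788246) (nat_lit 228) (nat_lit 9166514065) (nat_lit 304) (nat_lit 22296165978) (nat_lit 102) (nat_lit 5) (nat_lit 105) (nat_lit 5) (nat_lit 106) (nat_lit 5) (nat_lit 517) (nat_lit 445) (nat_lit 238))) (XT.nd (nat_lit 78) (nat_lit 228) (nat_lit 0) (XT.lf (nat_lit 0) (nat_lit 44780966479) (nat_lit 304) (nat_lit 555661833) (nat_lit 76) (nat_lit 9193687438) (nat_lit 102) (nat_lit 5) (nat_lit 106) (nat_lit 5) (nat_lit 103) (nat_lit 5) (nat_lit 518) (nat_lit 445) (nat_lit 237)) (XT.lf (nat_lit 0) (nat_lit 3509974094) (nat_lit 228) (nat_lit 23830821594) (nat_lit 76) (nat_lit 28259036811) (nat_lit 99) (nat_lit 5) (nat_lit 102) (nat_lit 5) (nat_lit 100) (nat_lit 5) (nat_lit 519) (nat_lit 445) (nat_lit 236))))) (XT.nd (nat_lit 312) (nat_lit 608) (nat_lit 0) (XT.nd (nat_lit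 156) (nat_lit 228) (nat_lit 0) (XT.nd (nat_lit 78) (nat_lit 0) (nat_lit 0) (XT.lf (nat_lit 0) (nat_lit 8437630847) (nat_lit 228) (nat_lit 8617928061) (nat_lit 304) (nat_lit 39640447183) (nat_lit 96) (nat_lit 5) (nat_lit 99) (nat_lit 5) (nat_lit 100) (nat_lit 5) (nat_lit 520) (nat_lit 445) (nat_lit 235)) (XT.lf (nat_lit 0) (nat_lit 31350746852) (nat_lit 304) (nat_lit 15764113620) (nat_lit 76) (nat_lit 10699907554) (nat_lit 96) (nat_lit 5) (nat_lit 100) (nat_lit 5) (nat_lit 97) (nat_lit 5) (nat_lit 521) (nat_lit 445) (nat_lit 234))) (XT.nd (nat_lit 78) (nat_lit 76) (nat_lit 0) (XT.lf (nat_lit 0) (nat_lit 17966357939) (nat_lit 152) (nat_lit 28364204141) (nat_lit 228) (nat_lit 12628857784) (nat_lit 94) (nat_lit 5) (nat_lit 96) (nat_lit 5) (nat_lit 97) (nat_lit 5) (nat_lit 522) (nat_lit 445) (nat_lit 233)) (XT.lf (nat_lit 0) (nat_lit 1748233244) (nat_lit 228) (nat_lit 7122791953) (nat_lit 76) (nat_lit 51262163341) (nat_lit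 93) (nat_lit 5) (nat_lit 96) (nat_lit 5) (nat_lit 94) (nat_lit 5) (nat_lit 523) (nat_lit 445) (nat_lit 232)))) (XT.nd (nat_lit 156) (nat_lit 228) (nat_lit 0) (XT.nd (nat_lit 78) (nat_lit 152) (nat_lit 0) (XT.lf (nat_lit 0) (nat_lit 16683186031) (nat_lit 304) (nat_lit 33257230132) (nat_lit 76) (nat_lit 11386591846) (nat_lit 90) (nat_lit 5) (nat_lit 94) (nat_lit 5) (nat_lit 91) (nat_lit 5) (nat_lit 524) (nat_lit 445) (nat_lit 231)) (XT.lf (nat_lit 0) (nat_lit 1853488214) (nat_lit 152) (nat_lit 30388813075) (nat_lit 228) (nat_lit 30309057532) (nat_lit 88) (nat_lit 5) (nat_lit 90) (nat_lit 5) (nat_lit 91) (nat_lit 5) (nat_lit 525) (nat_lit 445) (nat_lit 230))) (XT.nd (nat_lit 78) (nat_lit 228) (nat_lit 0) (XT.lf (nat_lit 0) (nat_lit 38695519129) (nat_lit 152) (nat_lit 9906357667) (nat_lit 228) (nat_lit 15200552927) (nat_lit 88) (nat_lit 5) (nat_lit 90) (nat_lit 5) (nat_lit 91) (nat_lit 5) (nat_lit 526) (nat_lit 445)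 (nat_lit 229)) (XT.lf (nat_lit 0) (nat_lit 573947092) (nat_lit 228) (nat_lit 53421922544) (nat_lit 76) (nat_lit 11088465450) (nat_lit 85) (nat_lit 5) (nat_lit 88) (nat_lit 5) (nat_lit 86) (nat_lit 5) (nat_lit 527) (nat_lit 445) (nat_lit 228))))))))
noncomputable def xc193 : XT := (XT.nd (nat_lit 56940) (nat_lit 0) (nat_lit 8512) (XT.nd (nat_lit 1170) (nat_lit 304) (nat_lit 0) (XT.nd (nat_lit 546) (nat_lit 760) (nat_lit 0) (XT.nd (nat_lit 234) (nat_lit 532) (nat_lit 0) (XT.nd (nat_lit 78) (nat_lit 152) (nat_lit 0) (XT.lf (nat_lit 0) (nat_lit 16868196426) (nat_lit 228) (nat_lit 16602396486) (nat_lit 76) (nat_lit 32919028925) (nat_lit 85) (nat_lit 5) (nat_lit 88) (nat_lit 5) (nat_lit 86) (nat_lit 5) (nat_lit 528) (nat_lit 445) (nat_lit 227)) (XT.nd (nat_lit 78) (nat_lit 0) (nat_lit 0) (XT.lf (nat_lit 0) (nat_lit 21742401766) (nat_lit 152) (nat_lit 12115840561) (nat_lit 228) (nat_lit 33869615939) (nat_lit 83) (nat_lit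 5) (nat_lit 85) (nat_lit 5) (nat_lit 86) (nat_lit 5) (nat_lit 529) (nat_lit 445) (nat_lit 226)) (XT.lf (nat_lit 0) (nat_lit 51620247533) (nat_lit 228) (nat_lit 7623560181) (nat_lit 76) (nat_lit 9854566486) (nat_lit 83) (nat_lit 5) (nat_lit 86) (nat_lit 5) (nat_lit 84) (nat_lit 5) (nat_lit 530) (nat_lit 445) (nat_lit 225)))) (XT.nd (nat_lit 156) (nat_lit 152) (nat_lit 0) (XT.nd (nat_lit 78) (nat_lit 228) (nat_lit 0) (XT.lf (nat_lit 0) (nat_lit 32397943006) (nat_lit 152) (nat_lit 37946594481) (nat_lit 228) (nat_lit 152585526) (nat_lit 81) (nat_lit 5) (nat_lit 83) (nat_lit 5) (nat_lit 84) (nat_lit 5) (nat_lit 531) (nat_lit 445) (nat_lit 224)) (XT.lf (nat_lit 0) (nat_lit 1699676695) (nat_lit 152) (nat_lit 15739921509) (nat_lit 228) (nat_lit 54490370270) (nat_lit 78) (nat_lit 5) (nat_lit 80) (nat_lit 5) (nat_lit 81) (nat_lit 5) (nat_lit 532) (nat_lit 445) (nat_lit 223))) (XT.nd (nat_lit 78) (nat_lit 152) (nat_lit 0)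 (XT.lf (nat_lit 0) (nat_lit 36011633728) (nat_lit 228) (nat_lit 29998154622) (nat_lit 76) (nat_lit 7382311163) (nat_lit 78) (nat_lit 5) (nat_lit 81) (nat_lit 5) (nat_lit 79) (nat_lit 5) (nat_lit 533) (nat_lit 445) (nat_lit 222)) (XT.lf (nat_lit 0) (nat_lit 11506230099) (nat_lit 152) (nat_lit 43899153336) (nat_lit 228) (nat_lit 19484774580) (nat_lit 76) (nat_lit 5) (nat_lit 78) (nat_lit 5) (nat_lit 79) (nat_lit 5) (nat_lit 534) (nat_lit 445) (nat_lit 221))))) (XT.nd (nat_lit 312) (nat_lit 380) (nat_lit 0) (XT.nd (nat_lit 156) (nat_lit 152) (nat_lit 0) (XT.nd (nat_lit 78) (nat_lit 228) (nat_lit 0) (XT.lf (nat_lit 0) (nat_lit 54867308756) (nat_lit 152) (nat_lit 20814689536) (nat_lit 228) (nat_lit 742128522) (nat_lit 76) (nat_lit 5) (nat_lit 78) (nat_lit 5) (nat_lit 79) (nat_lit 5) (nat_lit 535) (nat_lit 445) (nat_lit 220)) (XT.lf (nat_lit 0) (nat_lit 18440284804) (nat_lit 228) (nat_lit 56256705012) (nat_lit 76) (nat_lit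 3294580420) (nat_lit 73) (nat_lit 5) (nat_lit 76) (nat_lit 5) (nat_lit 74) (nat_lit 5) (nat_lit 536) (nat_lit 445) (nat_lit 219))) (XT.nd (nat_lit 78) (nat_lit 152) (nat_lit 0) (XT.lf (nat_lit 0) (nat_lit 38607351692) (nat_lit 228) (nat_lit 13051219722) (nat_lit 76) (nat_lit 27934522310) (nat_lit 73) (nat_lit 5) (nat_lit 76) (nat_lit 5) (nat_lit 74) (nat_lit 5) (nat_lit 537) (nat_lit 445) (nat_lit 218)) (XT.lf (nat_lit 0) (nat_lit 32073071125) (nat_lit 152) (nat_lit 27612892934) (nat_lit 228) (nat_lit 21547502960) (nat_lit 71) (nat_lit 5) (nat_lit 73) (nat_lit 5) (nat_lit 74) (nat_lit 5) (nat_lit 538) (nat_lit 445) (nat_lit 217)))) (XT.nd (nat_lit 156) (nat_lit 152) (nat_lit 0) (XT.nd (nat_lit 78) (nat_lit 228) (nat_lit 0) (XT.lf (nat_lit 0) (nat_lit 78815439334) (nat_lit 152) (nat_lit 2711535659) (nat_lit 228) (nat_lit 1392175420) (nat_lit 71) (nat_lit 5) (nat_lit 73) (nat_lit 5) (nat_lit 74) (nat_lit 5) (nat_lit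 539) (nat_lit 445) (nat_lit 216)) (XT.lf (nat_lit 0) (nat_lit 19627455466) (nat_lit 228) (nat_lit 41910337306) (nat_lit 76) (nat_lit 23092898999) (nat_lit 68) (nat_lit 5) (nat_lit 71) (nat_lit 5) (nat_lit 69) (nat_lit 5) (nat_lit 540) (nat_lit 445) (nat_lit 215))) (XT.nd (nat_lit 78) (nat_lit 0) (nat_lit 0) (XT.lf (nat_lit 0) (nat_lit 4688234255) (nat_lit 152) (nat_lit 36673511767) (nat_lit 228) (nat_lit 45028058365) (nat_lit 66) (nat_lit 5) (nat_lit 68) (nat_lit 5) (nat_lit 69) (nat_lit 5) (nat_lit 541) (nat_lit 445) (nat_lit 214)) (XT.lf (nat_lit 0) (nat_lit 53540777713) (nat_lit 152) (nat_lit 10628809079) (nat_lit 228) (nat_lit 24019458037) (nat_lit 66) (nat_lit 5) (nat_lit 68) (nat_lit 5) (nat_lit 69) (nat_lit 5) (nat_lit 542) (nat_lit 445) (nat_lit 213)))))) (XT.nd (nat_lit 55146) (nat_lit 0) (nat_lit 16188) (XT.nd (nat_lit 234) (nat_lit 0) (nat_lit 0) (XT.nd (nat_lit 78) (nat_lit 228) (nat_lit 0) (XT.lf (nat_lit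 0) (nat_lit 13929704226) (nat_lit 76) (nat_lit 74019902430) (nat_lit 152) (nat_lit 2084017604) (nat_lit 65) (nat_lit 5) (nat_lit 66) (nat_lit 5) (nat_lit 67) (nat_lit 4) (nat_lit 543) (nat_lit 445) (nat_lit 212)) (XT.nd (nat_lit 78) (nat_lit 152) (nat_lit 0) (XT.lf (nat_lit 0) (nat_lit 20566199716) (nat_lit 152) (nat_lit 27556678860) (nat_lit 76) (nat_lit 43791040263) (nat_lit 64) (nat_lit 5) (nat_lit 66) (nat_lit 5) (nat_lit 65) (nat_lit 5) (nat_lit 544) (nat_lit 445) (nat_lit 211)) (XT.lf (nat_lit 0) (nat_lit 22869649135) (nat_lit 152) (nat_lit 21202621071) (nat_lit 228) (nat_lit 49771186117) (nat_lit 62) (nat_lit 5) (nat_lit 64) (nat_lit 5) (nat_lit 65) (nat_lit 5) (nat_lit 545) (nat_lit 445) (nat_lit 210)))) (XT.nd (nat_lit 54756) (nat_lit 0) (nat_lit 16112) (XT.nd (nat_lit 54678) (nat_lit 0) (nat_lit 16112) (XT.lf (nat_lit 0) (nat_lit 68625672778) (nat_lit 228) (nat_lit 20517331152) (nat_lit 76) (nat_lit 6677611583)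 (nat_lit 62) (nat_lit 5) (nat_lit 65) (nat_lit 5) (nat_lit 63) (nat_lit 4) (nat_lit 546) (nat_lit 445) (nat_lit 209)) (XT.lf (nat_lit 0) (nat_lit 295590483) (nat_lit 1292) (nat_lit 3854639544) (nat_lit 1292) (nat_lit 3854639544) (nat_lit 274) (nat_lit 3) (nat_lit 291) (nat_lit 3) (nat_lit 291) (nat_lit 5) (nat_lit 446) (nat_lit 446) (nat_lit 308))) (XT.nd (nat_lit 78) (nat_lit 0) (nat_lit 76) (XT.lf (nat_lit 76) (nat_lit 138696095) (nat_lit 0) (nat_lit 721167349) (nat_lit 1292) (nat_lit 15382167208) (nat_lit 275) (nat_lit 5) (nat_lit 274) (nat_lit 3) (nat_lit 291) (nat_lit 5) (nat_lit 447) (nat_lit 446) (nat_lit 307)) (XT.lf (nat_lit 0) (nat_lit 1273243736) (nat_lit 1216) (nat_lit 8173346068) (nat_lit 1292) (nat_lit 7030604328) (nat_lit 275) (nat_lit 5) (nat_lit 291) (nat_lit 5) (nat_lit 292) (nat_lit 5) (nat_lit 448) (nat_lit 446) (nat_lit 306))))) (XT.nd (nat_lit 312) (nat_lit 0) (nat_lit 152) (XT.nd (nat_lit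 156) (nat_lit 0) (nat_lit 76) (XT.nd (nat_lit 78) (nat_lit 0) (nat_lit 76) (XT.lf (nat_lit 0) (nat_lit 1696367415) (nat_lit 1216) (nat_lit 18086388) (nat_lit 1292) (nat_lit 15005040734) (nat_lit 275) (nat_lit 5) (nat_lit 291) (nat_lit 5) (nat_lit 292) (nat_lit 5) (nat_lit 449) (nat_lit 446) (nat_lit 305)) (XT.lf (nat_lit 0) (nat_lit 2265723216) (nat_lit 1216) (nat_lit 8484605050) (nat_lit 1292) (nat_lit 6214731746) (nat_lit 276) (nat_lit 5) (nat_lit 292) (nat_lit 5) (nat_lit 293) (nat_lit 5) (nat_lit 450) (nat_lit 446) (nat_lit 304))) (XT.nd (nat_lit 78) (nat_lit 0) (nat_lit 76) (XT.lf (nat_lit 0) (nat_lit 2860070930) (nat_lit 1216) (nat_lit 6235664) (nat_lit 1292) (nat_lit 14351450669) (nat_lit 276) (nat_lit 5) (nat_lit 292) (nat_lit 5) (nat_lit 293) (nat_lit 5) (nat_lit 451) (nat_lit 446) (nat_lit 303)) (XT.lf (nat_lit 0) (nat_lit 3600158507) (nat_lit 1216) (nat_lit 8632510999) (nat_lit 1292) (nat_lit 5241530728)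 (nat_lit 277) (nat_lit 5) (nat_lit 293) (nat_lit 5) (nat_lit 294) (nat_lit 5) (nat_lit 452) (nat_lit 446) (nat_lit 302)))) (XT.nd (nat_lit 156) (nat_lit 0) (nat_lit 76) (XT.nd (nat_lit 78) (nat_lit 0) (nat_lit 76) (XT.lf (nat_lit 76) (nat_lit 186426212) (nat_lit 0) (nat_lit 4197521158) (nat_lit 1292) (nat_lit 13353746188) (nat_lit 278) (nat_lit 5) (nat_lit 277) (nat_lit 5) (nat_lit 294) (nat_lit 5) (nat_lit 453) (nat_lit 446) (nat_lit 301)) (XT.lf (nat_lit 0) (nat_lit 5309983389) (nat_lit 1216) (nat_lit 8605564097) (nat_lit 1292) (nat_lit 4089984156) (nat_lit 278) (nat_lit 5) (nat_lit 294) (nat_lit 5) (nat_lit 295) (nat_lit 5) (nat_lit 454) (nat_lit 446) (nat_lit 300))) (XT.nd (nat_lit 78) (nat_lit 0) (nat_lit 76) (XT.lf (nat_lit 76) (nat_lit 572384733) (nat_lit 0) (nat_lit 5730217471) (nat_lit 1292) (nat_lit 11977640523) (nat_lit 279) (nat_lit 5) (nat_lit 278) (nat_lit 5) (nat_lit 295) (nat_lit 5) (nat_lit 455)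 (nat_lit 446) (nat_lit 299)) (XT.lf (nat_lit 0) (nat_lit 7430668819) (nat_lit 1216) (nat_lit 8391277469) (nat_lit 1292) (nat_lit 2738080632) (nat_lit 279) (nat_lit 5) (nat_lit 295) (nat_lit 5) (nat_lit 296) (nat_lit 5) (nat_lit 456) (nat_lit 446) (nat_lit 298))))))) (XT.nd (nat_lit 1170) (nat_lit 4408) (nat_lit 0) (XT.nd (nat_lit 546) (nat_lit 2584) (nat_lit 0) (XT.nd (nat_lit 234) (nat_lit 988) (nat_lit 0) (XT.nd (nat_lit 78) (nat_lit 0) (nat_lit 76) (XT.lf (nat_lit 76) (nat_lit 1165026640) (nat_lit 0) (nat_lit 7487668065) (nat_lit 1292) (nat_lit 10193708213) (nat_lit 280) (nat_lit 5) (nat_lit 279) (nat_lit 5) (nat_lit 296) (nat_lit 5) (nat_lit 457) (nat_lit 446) (nat_lit 297)) (XT.nd (nat_lit 78) (nat_lit 0) (nat_lit 0) (XT.lf (nat_lit 0) (nat_lit 9999872089) (nat_lit 1216) (nat_lit 7976141685) (nat_lit 1292) (nat_lit 1162703448) (nat_lit 280) (nat_lit 5) (nat_lit 296) (nat_lit 5) (nat_lit 297) (nat_lit 5) (nat_lit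 458) (nat_lit 446) (nat_lit 296)) (XT.lf (nat_lit 76) (nat_lit 1978938742) (nat_lit 0) (nat_lit 9494280988) (nat_lit 1292) (nat_lit 7964010273) (nat_lit 281) (nat_lit 5) (nat_lit 280) (nat_lit 5) (nat_lit 297) (nat_lit 5) (nat_lit 459) (nat_lit 446) (nat_lit 295)))) (XT.nd (nat_lit 156) (nat_lit 1064) (nat_lit 0) (XT.nd (nat_lit 78) (nat_lit 0) (nat_lit 76) (XT.lf (nat_lit 76) (nat_lit 12390439354) (nat_lit 0) (nat_lit 673629171) (nat_lit 1292) (nat_lit 6678432264) (nat_lit 281) (nat_lit 5) (nat_lit 280) (nat_lit 5) (nat_lit 297) (nat_lit 5) (nat_lit 460) (nat_lit 446) (nat_lit 294)) (XT.lf (nat_lit 76) (nat_lit 3029825355) (nat_lit 0) (nat_lit 11775782170) (nat_lit 1292) (nat_lit 5248234833) (nat_lit 282) (nat_lit 5) (nat_lit 281) (nat_lit 5) (nat_lit 298) (nat_lit 5) (nat_lit 461) (nat_lit 446) (nat_lit 293))) (XT.nd (nat_lit 78) (nat_lit 1140) (nat_lit 0) (XT.lf (nat_lit 76) (nat_lit 13861338398) (nat_lit 0)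 (nat_lit 2812031500) (nat_lit 1292) (nat_lit 3698936508) (nat_lit 282) (nat_lit 5) (nat_lit 281) (nat_lit 5) (nat_lit 298) (nat_lit 5) (nat_lit 462) (nat_lit 446) (nat_lit 292)) (XT.lf (nat_lit 0) (nat_lit 4334553109) (nat_lit 1216) (nat_lit 14359339643) (nat_lit 1292) (nat_lit 2003531304) (nat_lit 266) (nat_lit 5) (nat_lit 282) (nat_lit 5) (nat_lit 283) (nat_lit 5) (nat_lit 463) (nat_lit 446) (nat_lit 291))))) (XT.nd (nat_lit 312) (nat_lit 1140) (nat_lit 0) (XT.nd (nat_lit 156) (nat_lit 608) (nat_lit 0) (XT.nd (nat_lit 78) (nat_lit 836) (nat_lit 0) (XT.lf (nat_lit 0) (nat_lit 15604785968) (nat_lit 1216) (nat_lit 5257043335) (nat_lit 1292) (nat_lit 167863455) (nat_lit 266) (nat_lit 5) (nat_lit 282) (nat_lit 5) (nat_lit 283) (nat_lit 5) (nat_lit 464) (nat_lit 446) (nat_lit 290)) (XT.lf (nat_lit 0) (nat_lit 1780233737) (nat_lit 836) (nat_lit 15475482573) (nat_lit 76) (nat_lit 4112988385) (nat_lit 255) (nat_lit 5)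 (nat_lit 266) (nat_lit 5) (nat_lit 256) (nat_lit 5) (nat_lit 465) (nat_lit 446) (nat_lit 289))) (XT.nd (nat_lit 78) (nat_lit 608) (nat_lit 0) (XT.lf (nat_lit 0) (nat_lit 3884518184) (nat_lit 836) (nat_lit 4114225348) (nat_lit 76) (nat_lit 13716061389) (nat_lit 255) (nat_lit 5) (nat_lit 266) (nat_lit 5) (nat_lit 256) (nat_lit 5) (nat_lit 466) (nat_lit 446) (nat_lit 288)) (XT.lf (nat_lit 0) (nat_lit 6135698110) (nat_lit 684) (nat_lit 14351633356) (nat_lit 76) (nat_lit 1581444980) (nat_lit 247) (nat_lit 5) (nat_lit 256) (nat_lit 5) (nat_lit 248) (nat_lit 5) (nat_lit 467) (nat_lit 446) (nat_lit 287)))) (XT.nd (nat_lit 156) (nat_lit 532) (nat_lit 0) (XT.nd (nat_lit 78) (nat_lit 608) (nat_lit 0) (XT.lf (nat_lit 0) (nat_lit 8569619402) (nat_lit 684) (nat_lit 2529722916) (nat_lit 76) (nat_lit 11330569881) (nat_lit 247) (nat_lit 5) (nat_lit 256) (nat_lit 5) (nat_lit 248) (nat_lit 5) (nat_lit 468) (nat_lit 446) (nat_lit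 286)) (XT.lf (nat_lit 0) (nat_lit 9833107171) (nat_lit 608) (nat_lit 1332199738) (nat_lit 684) (nat_lit 11633913883) (nat_lit 239) (nat_lit 5) (nat_lit 247) (nat_lit 5) (nat_lit 248) (nat_lit 5) (nat_lit 469) (nat_lit 446) (nat_lit 285))) (XT.nd (nat_lit 78) (nat_lit 532) (nat_lit 0) (XT.lf (nat_lit 0) (nat_lit 13942904021) (nat_lit 684) (nat_lit 650048481) (nat_lit 76) (nat_lit 8583536160) (nat_lit 239) (nat_lit 5) (nat_lit 248) (nat_lit 5) (nat_lit 240) (nat_lit 5) (nat_lit 470) (nat_lit 446) (nat_lit 284)) (XT.lf (nat_lit 0) (nat_lit 12255898432) (nat_lit 532) (nat_lit 4673439042) (nat_lit 608) (nat_lit 6631972996) (nat_lit 232) (nat_lit 5) (nat_lit 239) (nat_lit 5) (nat_lit 240) (nat_lit 5) (nat_lit 471) (nat_lit 446) (nat_lit 283)))))) (XT.nd (nat_lit 624) (nat_lit 2280) (nat_lit 0) (XT.nd (nat_lit 312) (nat_lit 988) (nat_lit 0) (XT.nd (nat_lit 156) (nat_lit 608) (nat_lit 0) (XT.nd (nat_lit 78) (nat_lit 0)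 (nat_lit 0) (XT.lf (nat_lit 0) (nat_lit 1576606622) (nat_lit 532) (nat_lit 18498443796) (nat_lit 608) (nat_lit 3880537041) (nat_lit 225) (nat_lit 5) (nat_lit 232) (nat_lit 5) (nat_lit 233) (nat_lit 5) (nat_lit 472) (nat_lit 446) (nat_lit 282)) (XT.lf (nat_lit 0) (nat_lit 15024025049) (nat_lit 532) (nat_lit 8445806048) (nat_lit 608) (nat_lit 887221858) (nat_lit 225) (nat_lit 5) (nat_lit 232) (nat_lit 5) (nat_lit 233) (nat_lit 5) (nat_lit 473) (nat_lit 446) (nat_lit 281))) (XT.nd (nat_lit 78) (nat_lit 0) (nat_lit 0) (XT.lf (nat_lit 0) (nat_lit 2206783729) (nat_lit 608) (nat_lit 20629042650) (nat_lit 76) (nat_lit 1932491593) (nat_lit 217) (nat_lit 5) (nat_lit 225) (nat_lit 5) (nat_lit 218) (nat_lit 5) (nat_lit 474) (nat_lit 446) (nat_lit 280)) (XT.lf (nat_lit 0) (nat_lit 5549489339) (nat_lit 608) (nat_lit 7081020946) (nat_lit 76) (nat_lit 12555936756) (nat_lit 217) (nat_lit 5) (nat_lit 225) (nat_lit 5) (nat_lit 218)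 (nat_lit 5) (nat_lit 475) (nat_lit 446) (nat_lit 279)))) (XT.nd (nat_lit 156) (nat_lit 456) (nat_lit 0) (XT.nd (nat_lit 78) (nat_lit 0) (nat_lit 0) (XT.lf (nat_lit 0) (nat_lit 7004638200) (nat_lit 532) (nat_lit 2050230871) (nat_lit 608) (nat_lit 16560380089) (nat_lit 210) (nat_lit 5) (nat_lit 217) (nat_lit 5) (nat_lit 218) (nat_lit 5) (nat_lit 476) (nat_lit 446) (nat_lit 278)) (XT.lf (nat_lit 0) (nat_lit 12817815836) (nat_lit 608) (nat_lit 4488080097) (nat_lit 76) (nat_lit 8746448178) (nat_lit 210) (nat_lit 5) (nat_lit 218) (nat_lit 5) (nat_lit 211) (nat_lit 5) (nat_lit 477) (nat_lit 446) (nat_lit 277))) (XT.nd (nat_lit 78) (nat_lit 0) (nat_lit 0) (XT.lf (nat_lit 0) (nat_lit 10232078625) (nat_lit 456) (nat_lit 6575516150) (nat_lit 532) (nat_lit 9691539734) (nat_lit 204) (nat_lit 5) (nat_lit 210) (nat_lit 5) (nat_lit 211) (nat_lit 5) (nat_lit 478) (nat_lit 446) (nat_lit 276)) (XT.lf (nat_lit 0) (nat_lit 21001236251)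 (nat_lit 532) (nat_lit 1521100889) (nat_lit 76) (nat_lit 4434467291) (nat_lit 204) (nat_lit 5) (nat_lit 211) (nat_lit 5) (nat_lit 205) (nat_lit 5) (nat_lit 479) (nat_lit 446) (nat_lit 275))))) (XT.nd (nat_lit 312) (nat_lit 836) (nat_lit 0) (XT.nd (nat_lit 156) (nat_lit 456) (nat_lit 0) (XT.nd (nat_lit 78) (nat_lit 532) (nat_lit 0) (XT.lf (nat_lit 0) (nat_lit 13867398496) (nat_lit 456) (nat_lit 11647195615) (nat_lit 532) (nat_lit 1907793983) (nat_lit 198) (nat_lit 5) (nat_lit 204) (nat_lit 5) (nat_lit 205) (nat_lit 5) (nat_lit 480) (nat_lit 446) (nat_lit 274)) (XT.lf (nat_lit 0) (nat_lit 1856216391) (nat_lit 456) (nat_lit 389960842) (nat_lit 532) (nat_lit 25654243937) (nat_lit 191) (nat_lit 5) (nat_lit 197) (nat_lit 5) (nat_lit 198) (nat_lit 5) (nat_lit 481) (nat_lit 446) (nat_lit 273))) (XT.nd (nat_lit 78) (nat_lit 456) (nat_lit 0) (XT.lf (nat_lit 0) (nat_lit 6727972815) (nat_lit 532) (nat_lit 10514460905) (nat_lit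 76) (nat_lit 11142549133) (nat_lit 191) (nat_lit 5) (nat_lit 198) (nat_lit 5) (nat_lit 192) (nat_lit 5) (nat_lit 482) (nat_lit 446) (nat_lit 272)) (XT.lf (nat_lit 0) (nat_lit 5580935848) (nat_lit 456) (nat_lit 5816529459) (nat_lit 532) (nat_lit 17485019552) (nat_lit 185) (nat_lit 5) (nat_lit 191) (nat_lit 5) (nat_lit 192) (nat_lit 5) (nat_lit 483) (nat_lit 446) (nat_lit 271)))) (XT.nd (nat_lit 156) (nat_lit 456) (nat_lit 0) (XT.nd (nat_lit 78) (nat_lit 380) (nat_lit 0) (XT.lf (nat_lit 0) (nat_lit 16367283618) (nat_lit 532) (nat_lit 7080610284) (nat_lit 76) (nat_lit 5942211534) (nat_lit 185) (nat_lit 5) (nat_lit 192) (nat_lit 5) (nat_lit 186) (nat_lit 5) (nat_lit 484) (nat_lit 446) (nat_lit 270)) (XT.lf (nat_lit 0) (nat_lit 9754521502) (nat_lit 380) (nat_lit 11878951809) (nat_lit 456) (nat_lit 8275063732) (nat_lit 180) (nat_lit 5) (nat_lit 185) (nat_lit 5) (nat_lit 186) (nat_lit 5) (nat_lit 485) (nat_lit 446) (nat_lit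 269))) (XT.nd (nat_lit 78) (nat_lit 456) (nat_lit 0) (XT.lf (nat_lit 0) (nat_lit 27126192653) (nat_lit 456) (nat_lit 3206838701) (nat_lit 76) (nat_lit 107434625) (nat_lit 180) (nat_lit 5) (nat_lit 186) (nat_lit 5) (nat_lit 181) (nat_lit 5) (nat_lit 486) (nat_lit 446) (nat_lit 268)) (XT.lf (nat_lit 0) (nat_lit 2015004216) (nat_lit 456) (nat_lit 16593364221) (nat_lit 76) (nat_lit 12371826356) (nat_lit 174) (nat_lit 5) (nat_lit 180) (nat_lit 5) (nat_lit 175) (nat_lit 5) (nat_lit 487) (nat_lit 446) (nat_lit 267))))))))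
noncomputable def xc194 : XT := (XT.nd (nat_lit 2340) (nat_lit 3268) (nat_lit 0) (XT.nd (nat_lit 1170) (nat_lit 2204) (nat_lit 0) (XT.nd (nat_lit 546) (nat_lit 1520) (nat_lit 0) (XT.nd (nat_lit 234) (nat_lit 760) (nat_lit 0) (XT.nd (nat_lit 78) (nat_lit 380) (nat_lit 0) (XT.lf (nat_lit 0) (nat_lit 1020556865) (nat_lit 380) (nat_lit 6455626374) (nat_lit 456) (nat_lit 24057789332) (nat_lit 169) (nat_lit 5) (nat_lit 174) (nat_lit 5) (nat_lit 175) (nat_lit 5) (nat_lit 488) (nat_lit 446) (nat_lit 266)) (XT.nd (nat_lit 78) (nat_lit 380) (nat_lit 0) (XT.lf (nat_lit 0) (nat_lit 13324860977) (nat_lit 456) (nat_lit 12661399615) (nat_lit 76) (nat_lit 6111393811) (nat_lit 169) (nat_lit 5) (nat_lit 175) (nat_lit 5) (nat_lit 170) (nat_lit 5) (nat_lit 489) (nat_lit 446) (nat_lit 265)) (XT.lf (nat_lit 0) (nat_lit 5769822444) (nat_lit 380) (nat_lit 13694843300) (nat_lit 456) (nat_lit 13210111547) (nat_lit 164) (nat_lit 5) (nat_lit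 169) (nat_lit 5) (nat_lit 170) (nat_lit 5) (nat_lit 490) (nat_lit 446) (nat_lit 264)))) (XT.nd (nat_lit 156) (nat_lit 456) (nat_lit 0) (XT.nd (nat_lit 78) (nat_lit 304) (nat_lit 0) (XT.lf (nat_lit 0) (nat_lit 25008549292) (nat_lit 380) (nat_lit 904317520) (nat_lit 456) (nat_lit 7352621575) (nat_lit 164) (nat_lit 5) (nat_lit 169) (nat_lit 5) (nat_lit 170) (nat_lit 5) (nat_lit 491) (nat_lit 446) (nat_lit 263)) (XT.lf (nat_lit 0) (nat_lit 11043134684) (nat_lit 304) (nat_lit 21731919494) (nat_lit 380) (nat_lit 1092250997) (nat_lit 160) (nat_lit 5) (nat_lit 164) (nat_lit 5) (nat_lit 165) (nat_lit 5) (nat_lit 492) (nat_lit 446) (nat_lit 262))) (XT.nd (nat_lit 78) (nat_lit 380) (nat_lit 0) (XT.lf (nat_lit 0) (nat_lit 5341037691) (nat_lit 380) (nat_lit 3459419312) (nat_lit 76) (nat_lit 25682486849) (nat_lit 159) (nat_lit 5) (nat_lit 164) (nat_lit 5) (nat_lit 160) (nat_lit 5) (nat_lit 493) (nat_lit 446) (nat_lit 261)) (XT.lf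 (nat_lit 0) (nat_lit 12148545914) (nat_lit 456) (nat_lit 18358665944) (nat_lit 76) (nat_lit 4603420701) (nat_lit 154) (nat_lit 5) (nat_lit 160) (nat_lit 5) (nat_lit 155) (nat_lit 5) (nat_lit 494) (nat_lit 446) (nat_lit 260))))) (XT.nd (nat_lit 312) (nat_lit 836) (nat_lit 0) (XT.nd (nat_lit 156) (nat_lit 380) (nat_lit 0) (XT.nd (nat_lit 78) (nat_lit 0) (nat_lit 0) (XT.lf (nat_lit 0) (nat_lit 1827845900) (nat_lit 304) (nat_lit 17469022815) (nat_lit 380) (nat_lit 16456186035) (nat_lit 150) (nat_lit 5) (nat_lit 154) (nat_lit 5) (nat_lit 155) (nat_lit 5) (nat_lit 495) (nat_lit 446) (nat_lit 259)) (XT.lf (nat_lit 0) (nat_lit 22991487538) (nat_lit 304) (nat_lit 3850199385) (nat_lit 380) (nat_lit 9567601802) (nat_lit 150) (nat_lit 5) (nat_lit 154) (nat_lit 5) (nat_lit 155) (nat_lit 5) (nat_lit 496) (nat_lit 446) (nat_lit 258))) (XT.nd (nat_lit 78) (nat_lit 76) (nat_lit 0) (XT.lf (nat_lit 0) (nat_lit 7753554550) (nat_lit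 304) (nat_lit 27028399279) (nat_lit 380) (nat_lit 2298183242) (nat_lit 146) (nat_lit 5) (nat_lit 150) (nat_lit 5) (nat_lit 151) (nat_lit 5) (nat_lit 497) (nat_lit 446) (nat_lit 257)) (XT.lf (nat_lit 0) (nat_lit 5259771754) (nat_lit 380) (nat_lit 8026051509) (nat_lit 76) (nat_lit 24478640081) (nat_lit 145) (nat_lit 5) (nat_lit 150) (nat_lit 5) (nat_lit 146) (nat_lit 5) (nat_lit 498) (nat_lit 446) (nat_lit 256)))) (XT.nd (nat_lit 156) (nat_lit 532) (nat_lit 0) (XT.nd (nat_lit 78) (nat_lit 0) (nat_lit 0) (XT.lf (nat_lit 0) (nat_lit 13141179955) (nat_lit 380) (nat_lit 24312082192) (nat_lit 76) (nat_lit 1011087892) (nat_lit 141) (nat_lit 5) (nat_lit 146) (nat_lit 5) (nat_lit 142) (nat_lit 5) (nat_lit 499) (nat_lit 446) (nat_lit 255)) (XT.lf (nat_lit 0) (nat_lit 21469311129) (nat_lit 380) (nat_lit 2159342218) (nat_lit 76) (nat_lit 15550271989) (nat_lit 141) (nat_lit 5) (nat_lit 146) (nat_lit 5) (nat_lit 142) (nat_lit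 5) (nat_lit 500) (nat_lit 446) (nat_lit 254))) (XT.nd (nat_lit 78) (nat_lit 228) (nat_lit 0) (XT.lf (nat_lit 0) (nat_lit 21064501905) (nat_lit 304) (nat_lit 9182247939) (nat_lit 380) (nat_lit 9662204550) (nat_lit 137) (nat_lit 5) (nat_lit 141) (nat_lit 5) (nat_lit 142) (nat_lit 5) (nat_lit 501) (nat_lit 446) (nat_lit 253)) (XT.lf (nat_lit 0) (nat_lit 4395326742) (nat_lit 228) (nat_lit 35008234140) (nat_lit 304) (nat_lit 1253842364) (nat_lit 134) (nat_lit 5) (nat_lit 137) (nat_lit 5) (nat_lit 138) (nat_lit 5) (nat_lit 502) (nat_lit 446) (nat_lit 252)))))) (XT.nd (nat_lit 546) (nat_lit 988) (nat_lit 0) (XT.nd (nat_lit 234) (nat_lit 836) (nat_lit 0) (XT.nd (nat_lit 78) (nat_lit 304) (nat_lit 0) (XT.lf (nat_lit 0) (nat_lit 7542350816) (nat_lit 304) (nat_lit 12872568731) (nat_lit 76) (nat_lit 21002847053) (nat_lit 133) (nat_lit 5) (nat_lit 137) (nat_lit 5) (nat_lit 134) (nat_lit 5) (nat_lit 503) (nat_lit 446) (nat_lit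 251)) (XT.nd (nat_lit 78) (nat_lit 0) (nat_lit 0) (XT.lf (nat_lit 0) (nat_lit 11424712088) (nat_lit 304) (nat_lit 5259448188) (nat_lit 380) (nat_lit 25513200571) (nat_lit 129) (nat_lit 5) (nat_lit 133) (nat_lit 5) (nat_lit 134) (nat_lit 5) (nat_lit 504) (nat_lit 446) (nat_lit 250)) (XT.lf (nat_lit 0) (nat_lit 26328133138) (nat_lit 380) (nat_lit 6386903721) (nat_lit 76) (nat_lit 10278469143) (nat_lit 129) (nat_lit 5) (nat_lit 134) (nat_lit 5) (nat_lit 130) (nat_lit 5) (nat_lit 505) (nat_lit 446) (nat_lit 249)))) (XT.nd (nat_lit 156) (nat_lit 228) (nat_lit 0) (XT.nd (nat_lit 78) (nat_lit 380) (nat_lit 0) (XT.lf (nat_lit 0) (nat_lit 19045656607) (nat_lit 228) (nat_lit 17448141472) (nat_lit 304) (nat_lit 7312766589) (nat_lit 126) (nat_lit 5) (nat_lit 129) (nat_lit 5) (nat_lit 130) (nat_lit 5) (nat_lit 506) (nat_lit 446) (nat_lit 248)) (XT.lf (nat_lit 0) (nat_lit 716735426) (nat_lit 304) (nat_lit 1627659116) (nat_lit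 380) (nat_lit 42296874027) (nat_lit 121) (nat_lit 5) (nat_lit 125) (nat_lit 5) (nat_lit 126) (nat_lit 5) (nat_lit 507) (nat_lit 446) (nat_lit 247))) (XT.nd (nat_lit 78) (nat_lit 228) (nat_lit 0) (XT.lf (nat_lit 0) (nat_lit 12535052753) (nat_lit 380) (nat_lit 18247471552) (nat_lit 76) (nat_lit 14704594638) (nat_lit 121) (nat_lit 5) (nat_lit 126) (nat_lit 5) (nat_lit 122) (nat_lit 5) (nat_lit 508) (nat_lit 446) (nat_lit 246)) (XT.lf (nat_lit 0) (nat_lit 8342332691) (nat_lit 228) (nat_lit 14782741953) (nat_lit 304) (nat_lit 23230461172) (nat_lit 118) (nat_lit 5) (nat_lit 121) (nat_lit 5) (nat_lit 122) (nat_lit 5) (nat_lit 509) (nat_lit 446) (nat_lit 245))))) (XT.nd (nat_lit 312) (nat_lit 456) (nat_lit 0) (XT.nd (nat_lit 156) (nat_lit 304) (nat_lit 0) (XT.nd (nat_lit 78) (nat_lit 228) (nat_lit 0) (XT.lf (nat_lit 0) (nat_lit 34232557129) (nat_lit 304) (nat_lit 11162993321) (nat_lit 76) (nat_lit 1848462243) (nat_lit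 118) (nat_lit 5) (nat_lit 122) (nat_lit 5) (nat_lit 119) (nat_lit 5) (nat_lit 510) (nat_lit 446) (nat_lit 244)) (XT.lf (nat_lit 0) (nat_lit 16667460351) (nat_lit 228) (nat_lit 29309821201) (nat_lit 304) (nat_lit 2172742090) (nat_lit 115) (nat_lit 5) (nat_lit 118) (nat_lit 5) (nat_lit 119) (nat_lit 5) (nat_lit 511) (nat_lit 446) (nat_lit 243))) (XT.nd (nat_lit 78) (nat_lit 228) (nat_lit 0) (XT.lf (nat_lit 0) (nat_lit 8926969645) (nat_lit 304) (nat_lit 3609870824) (nat_lit 76) (nat_lit 36540443284) (nat_lit 114) (nat_lit 5) (nat_lit 118) (nat_lit 5) (nat_lit 115) (nat_lit 5) (nat_lit 512) (nat_lit 446) (nat_lit 242)) (XT.lf (nat_lit 0) (nat_lit 20607530476) (nat_lit 304) (nat_lit 24500134974) (nat_lit 76) (nat_lit 4915305283) (nat_lit 111) (nat_lit 5) (nat_lit 115) (nat_lit 5) (nat_lit 112) (nat_lit 5) (nat_lit 513) (nat_lit 446) (nat_lit 241)))) (XT.nd (nat_lit 156) (nat_lit 228) (nat_lit 0) (XT.nd (nat_lit 78)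 (nat_lit 0) (nat_lit 0) (XT.lf (nat_lit 0) (nat_lit 4568191742) (nat_lit 228) (nat_lit 28272708531) (nat_lit 304) (nat_lit 18150056538) (nat_lit 108) (nat_lit 5) (nat_lit 111) (nat_lit 5) (nat_lit 112) (nat_lit 5) (nat_lit 514) (nat_lit 446) (nat_lit 240)) (XT.lf (nat_lit 0) (nat_lit 35006787017) (nat_lit 228) (nat_lit 10679459819) (nat_lit 304) (nat_lit 6294386615) (nat_lit 108) (nat_lit 5) (nat_lit 111) (nat_lit 5) (nat_lit 112) (nat_lit 5) (nat_lit 515) (nat_lit 446) (nat_lit 239))) (XT.nd (nat_lit 78) (nat_lit 0) (nat_lit 0) (XT.lf (nat_lit 0) (nat_lit 6002853649) (nat_lit 228) (nat_lit 39505454329) (nat_lit 76) (nat_lit 7483945486) (nat_lit 105) (nat_lit 5) (nat_lit 108) (nat_lit 5) (nat_lit 106) (nat_lit 5) (nat_lit 516) (nat_lit 446) (nat_lit 238)) (XT.lf (nat_lit 0) (nat_lit 18818973407) (nat_lit 228) (nat_lit 8993581581) (nat_lit 76) (nat_lit 26211503499) (nat_lit 105) (nat_lit 5) (nat_lit 108) (nat_lit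 5) (nat_lit 106) (nat_lit 5) (nat_lit 517) (nat_lit 446) (nat_lit 237))))))) (XT.nd (nat_lit 1170) (nat_lit 1444) (nat_lit 0) (XT.nd (nat_lit 546) (nat_lit 912) (nat_lit 0) (XT.nd (nat_lit 234) (nat_lit 456) (nat_lit 0) (XT.nd (nat_lit 78) (nat_lit 228) (nat_lit 0) (XT.lf (nat_lit 0) (nat_lit 22876201797) (nat_lit 228) (nat_lit 9360980227) (nat_lit 304) (nat_lit 22843107701) (nat_lit 102) (nat_lit 5) (nat_lit 105) (nat_lit 5) (nat_lit 106) (nat_lit 5) (nat_lit 518) (nat_lit 446) (nat_lit 236)) (XT.nd (nat_lit 78) (nat_lit 228) (nat_lit 0) (XT.lf (nat_lit 0) (nat_lit 46240079687) (nat_lit 304) (nat_lit 376507979) (nat_lit 76) (nat_lit 9546156164) (nat_lit 102) (nat_lit 5) (nat_lit 106) (nat_lit 5) (nat_lit 103) (nat_lit 5) (nat_lit 519) (nat_lit 446) (nat_lit 235)) (XT.lf (nat_lit 0) (nat_lit 3730592837) (nat_lit 228) (nat_lit 24349537044) (nat_lit 76) (nat_lit 29184227764) (nat_lit 99) (nat_lit 5) (nat_lit 102)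 (nat_lit 5) (nat_lit 100) (nat_lit 5) (nat_lit 520) (nat_lit 446) (nat_lit 234)))) (XT.nd (nat_lit 156) (nat_lit 228) (nat_lit 0) (XT.nd (nat_lit 78) (nat_lit 0) (nat_lit 0) (XT.lf (nat_lit 0) (nat_lit 8885045351) (nat_lit 228) (nat_lit 8796008616) (nat_lit 304) (nat_lit 40712407513) (nat_lit 96) (nat_lit 5) (nat_lit 99) (nat_lit 5) (nat_lit 100) (nat_lit 5) (nat_lit 521) (nat_lit 446) (nat_lit 233)) (XT.lf (nat_lit 0) (nat_lit 32402533040) (nat_lit 304) (nat_lit 16045836088) (nat_lit 76) (nat_lit 11097494368) (nat_lit 96) (nat_lit 5) (nat_lit 100) (nat_lit 5) (nat_lit 97) (nat_lit 5) (nat_lit 522) (nat_lit 446) (nat_lit 232))) (XT.nd (nat_lit 78) (nat_lit 76) (nat_lit 0) (XT.lf (nat_lit 0) (nat_lit 18694675099) (nat_lit 152) (nat_lit 29135646855) (nat_lit 228) (nat_lit 12894575842) (nat_lit 94) (nat_lit 5) (nat_lit 96) (nat_lit 5) (nat_lit 97) (nat_lit 5) (nat_lit 523) (nat_lit 446) (nat_lit 231)) (XT.lf (nat_lit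 0) (nat_lit 1908388744) (nat_lit 228) (nat_lit 7150511206) (nat_lit 76) (nat_lit 52875044153) (nat_lit 93) (nat_lit 5) (nat_lit 96) (nat_lit 5) (nat_lit 94) (nat_lit 5) (nat_lit 524) (nat_lit 446) (nat_lit 230))))) (XT.nd (nat_lit 312) (nat_lit 304) (nat_lit 0) (XT.nd (nat_lit 156) (nat_lit 228) (nat_lit 0) (XT.nd (nat_lit 78) (nat_lit 152) (nat_lit 0) (XT.lf (nat_lit 0) (nat_lit 17290770912) (nat_lit 304) (nat_lit 34068354749) (nat_lit 76) (nat_lit 11804471330) (nat_lit 90) (nat_lit 5) (nat_lit 94) (nat_lit 5) (nat_lit 91) (nat_lit 5) (nat_lit 525) (nat_lit 446) (nat_lit 229)) (XT.lf (nat_lit 0) (nat_lit 2093855812) (nat_lit 152) (nat_lit 31221460765) (nat_lit 228) (nat_lit 31109402292) (nat_lit 88) (nat_lit 5) (nat_lit 90) (nat_lit 5) (nat_lit 91) (nat_lit 5) (nat_lit 526) (nat_lit 446) (nat_lit 228))) (XT.nd (nat_lit 78) (nat_lit 228) (nat_lit 0) (XT.lf (nat_lit 0) (nat_lit 40035766209) (nat_lit 152) (nat_lit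 10126833152) (nat_lit 228) (nat_lit 15550815178) (nat_lit 88) (nat_lit 5) (nat_lit 90) (nat_lit 5) (nat_lit 91) (nat_lit 5) (nat_lit 527) (nat_lit 446) (nat_lit 227)) (XT.lf (nat_lit 0) (nat_lit 694306040) (nat_lit 228) (nat_lit 54842569439) (nat_lit 76) (nat_lit 11496887820) (nat_lit 85) (nat_lit 5) (nat_lit 88) (nat_lit 5) (nat_lit 86) (nat_lit 5) (nat_lit 528) (nat_lit 446) (nat_lit 226)))) (XT.nd (nat_lit 156) (nat_lit 152) (nat_lit 0) (XT.nd (nat_lit 78) (nat_lit 152) (nat_lit 0) (XT.lf (nat_lit 0) (nat_lit 17474378761) (nat_lit 228) (nat_lit 16923758884) (nat_lit 76) (nat_lit 33980161353) (nat_lit 85) (nat_lit 5) (nat_lit 88) (nat_lit 5) (nat_lit 86) (nat_lit 5) (nat_lit 529) (nat_lit 446) (nat_lit 225)) (XT.lf (nat_lit 0) (nat_lit 22569650869) (nat_lit 152) (nat_lit 12403240562) (nat_lit 228) (nat_lit 34783828344) (nat_lit 83) (nat_lit 5) (nat_lit 85) (nat_lit 5) (nat_lit 86) (nat_lit 5) (nat_lit 530) (nat_lit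 446) (nat_lit 224))) (XT.nd (nat_lit 78) (nat_lit 152) (nat_lit 0) (XT.lf (nat_lit 0) (nat_lit 53265586138) (nat_lit 228) (nat_lit 7680208725) (nat_lit 76) (nat_lit 10222621650) (nat_lit 83) (nat_lit 5) (nat_lit 86) (nat_lit 5) (nat_lit 84) (nat_lit 5) (nat_lit 531) (nat_lit 446) (nat_lit 223)) (XT.lf (nat_lit 0) (nat_lit 33540252712) (nat_lit 152) (nat_lit 39010172381) (nat_lit 228) (nat_lit 58738293) (nat_lit 81) (nat_lit 5) (nat_lit 83) (nat_lit 5) (nat_lit 84) (nat_lit 5) (nat_lit 532) (nat_lit 446) (nat_lit 222)))))) (XT.nd (nat_lit 546) (nat_lit 684) (nat_lit 0) (XT.nd (nat_lit 234) (nat_lit 380) (nat_lit 0) (XT.nd (nat_lit 78) (nat_lit 152) (nat_lit 0) (XT.lf (nat_lit 0) (nat_lit 1921276406) (nat_lit 152) (nat_lit 16136843120) (nat_lit 228) (nat_lit 56026881616) (nat_lit 78) (nat_lit 5) (nat_lit 80) (nat_lit 5) (nat_lit 81) (nat_lit 5) (nat_lit 533) (nat_lit 446) (nat_lit 221)) (XT.nd (nat_lit 78) (nat_lit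 152) (nat_lit 0) (XT.lf (nat_lit 0) (nat_lit 37185241939) (nat_lit 228) (nat_lit 30730378681) (nat_lit 76) (nat_lit 7675437904) (nat_lit 78) (nat_lit 5) (nat_lit 81) (nat_lit 5) (nat_lit 79) (nat_lit 5) (nat_lit 534) (nat_lit 446) (nat_lit 220)) (XT.lf (nat_lit 0) (nat_lit 12017493262) (nat_lit 152) (nat_lit 45142191015) (nat_lit 228) (nat_lit 19974408281) (nat_lit 76) (nat_lit 5) (nat_lit 78) (nat_lit 5) (nat_lit 79) (nat_lit 5) (nat_lit 535) (nat_lit 446) (nat_lit 219)))) (XT.nd (nat_lit 156) (nat_lit 152) (nat_lit 0) (XT.nd (nat_lit 78) (nat_lit 228) (nat_lit 0) (XT.lf (nat_lit 0) (nat_lit 56674567106) (nat_lit 152) (nat_lit 21367346804) (nat_lit 228) (nat_lit 672247197) (nat_lit 76) (nat_lit 5) (nat_lit 78) (nat_lit 5) (nat_lit 79) (nat_lit 5) (nat_lit 536) (nat_lit 446) (nat_lit 218)) (XT.lf (nat_lit 0) (nat_lit 19083454687) (nat_lit 228) (nat_lit 57780972054) (nat_lit 76) (nat_lit 3464186257) (nat_lit 73)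 (nat_lit 5) (nat_lit 76) (nat_lit 5) (nat_lit 74) (nat_lit 5) (nat_lit 537) (nat_lit 446) (nat_lit 217))) (XT.nd (nat_lit 78) (nat_lit 152) (nat_lit 0) (XT.lf (nat_lit 0) (nat_lit 39852913348) (nat_lit 228) (nat_lit 13284082421) (nat_lit 76) (nat_lit 28841265187) (nat_lit 73) (nat_lit 5) (nat_lit 76) (nat_lit 5) (nat_lit 74) (nat_lit 5) (nat_lit 538) (nat_lit 446) (nat_lit 216)) (XT.lf (nat_lit 0) (nat_lit 33192381524) (nat_lit 152) (nat_lit 28370468963) (nat_lit 228) (nat_lit 22105026127) (nat_lit 71) (nat_lit 5) (nat_lit 73) (nat_lit 5) (nat_lit 74) (nat_lit 5) (nat_lit 539) (nat_lit 446) (nat_lit 215))))) (XT.nd (nat_lit 312) (nat_lit 304) (nat_lit 0) (XT.nd (nat_lit 156) (nat_lit 152) (nat_lit 0) (XT.nd (nat_lit 78) (nat_lit 228) (nat_lit 0) (XT.lf (nat_lit 0) (nat_lit 81332444520) (nat_lit 152) (nat_lit 2724133418) (nat_lit 228) (nat_lit 1347628137) (nat_lit 71) (nat_lit 5) (nat_lit 73) (nat_lit 5) (nat_lit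 74) (nat_lit 5) (nat_lit 540) (nat_lit 446) (nat_lit 214)) (XT.lf (nat_lit 0) (nat_lit 20300574649) (nat_lit 228) (nat_lit 43013078749) (nat_lit 76) (nat_lit 23853425511) (nat_lit 68) (nat_lit 5) (nat_lit 71) (nat_lit 5) (nat_lit 69) (nat_lit 5) (nat_lit 541) (nat_lit 446) (nat_lit 213))) (XT.nd (nat_lit 78) (nat_lit 0) (nat_lit 0) (XT.lf (nat_lit 0) (nat_lit 4981934579) (nat_lit 152) (nat_lit 37703975374) (nat_lit 228) (nat_lit 46293084606) (nat_lit 66) (nat_lit 5) (nat_lit 68) (nat_lit 5) (nat_lit 69) (nat_lit 5) (nat_lit 542) (nat_lit 446) (nat_lit 212)) (XT.lf (nat_lit 0) (nat_lit 55295596478) (nat_lit 152) (nat_lit 10879962919) (nat_lit 228) (nat_lit 24656725750) (nat_lit 66) (nat_lit 5) (nat_lit 68) (nat_lit 5) (nat_lit 69) (nat_lit 5) (nat_lit 543) (nat_lit 446) (nat_lit 211)))) (XT.nd (nat_lit 156) (nat_lit 152) (nat_lit 0) (XT.nd (nat_lit 78) (nat_lit 76) (nat_lit 0) (XT.lf (nat_lit 0) (nat_lit 14496496670)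 (nat_lit 76) (nat_lit 76172190560) (nat_lit 152) (nat_lit 2063523639) (nat_lit 65) (nat_lit 5) (nat_lit 66) (nat_lit 5) (nat_lit 67) (nat_lit 4) (nat_lit 544) (nat_lit 446) (nat_lit 210)) (XT.lf (nat_lit 0) (nat_lit 21262209572) (nat_lit 152) (nat_lit 28237238014) (nat_lit 76) (nat_lit 45169514005) (nat_lit 64) (nat_lit 5) (nat_lit 66) (nat_lit 5) (nat_lit 65) (nat_lit 5) (nat_lit 545) (nat_lit 446) (nat_lit 209))) (XT.nd (nat_lit 54756) (nat_lit 0) (nat_lit 16112) (XT.lf (nat_lit 0) (nat_lit 23700447064) (nat_lit 152) (nat_lit 21772104472) (nat_lit 228) (nat_lit 51183861101) (nat_lit 62) (nat_lit 5) (nat_lit 64) (nat_lit 5) (nat_lit 65) (nat_lit 5) (nat_lit 546) (nat_lit 446) (nat_lit 208)) (XT.lf (nat_lit 0) (nat_lit 560455047) (nat_lit 1292) (nat_lit 3838410574) (nat_lit 1292) (nat_lit 3838410574) (nat_lit 274) (nat_lit 3) (nat_lit 291) (nat_lit 3) (nat_lit 291) (nat_lit 5) (nat_lit 447) (nat_lit 447) (nat_lit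 306))))))))
noncomputable def xc195 : XT := (XT.nd (nat_lit 2340) (nat_lit 6764) (nat_lit 0) (XT.nd (nat_lit 1170) (nat_lit 4864) (nat_lit 0) (XT.nd (nat_lit 546) (nat_lit 0) (nat_lit 304) (XT.nd (nat_lit 234) (nat_lit 0) (nat_lit 152) (XT.nd (nat_lit 78) (nat_lit 0) (nat_lit 76) (XT.lf (nat_lit 76) (nat_lit 404007640) (nat_lit 0) (nat_lit 981243307) (nat_lit 1292) (nat_lit 15328937230) (nat_lit 275) (nat_lit 5) (nat_lit 274) (nat_lit 3) (nat_lit 291) (nat_lit 5) (nat_lit 448) (nat_lit 447) (nat_lit 305)) (XT.nd (nat_lit 78) (nat_lit 0) (nat_lit 0) (XT.lf (nat_lit 0) (nat_lit 1794256155) (nat_lit 1216) (nat_lit 8148113346) (nat_lit 1292) (nat_lit 7014543724) (nat_lit 275) (nat_lit 5) (nat_lit 291) (nat_lit 5) (nat_lit 292) (nat_lit 5) (nat_lit 449) (nat_lit 447) (nat_lit 304)) (XT.lf (nat_lit 76) (nat_lit 248782065) (nat_lit 0) (nat_lit 1969620347) (nat_lit 1292) (nat_lit 14988433633) (nat_lit 276) (nat_lit 5)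 (nat_lit 275) (nat_lit 5) (nat_lit 292) (nat_lit 5) (nat_lit 450) (nat_lit 447) (nat_lit 303)))) (XT.nd (nat_lit 156) (nat_lit 0) (nat_lit 76) (XT.nd (nat_lit 78) (nat_lit 0) (nat_lit 0) (XT.lf (nat_lit 0) (nat_lit 2789393957) (nat_lit 1216) (nat_lit 8463427471) (nat_lit 1292) (nat_lit 6207413580) (nat_lit 276) (nat_lit 5) (nat_lit 292) (nat_lit 5) (nat_lit 293) (nat_lit 5) (nat_lit 451) (nat_lit 447) (nat_lit 302)) (XT.lf (nat_lit 76) (nat_lit 266462075) (nat_lit 0) (nat_lit 3124398635) (nat_lit 1292) (nat_lit 14329976891) (nat_lit 277) (nat_lit 5) (nat_lit 276) (nat_lit 5) (nat_lit 293) (nat_lit 5) (nat_lit 452) (nat_lit 447) (nat_lit 301))) (XT.nd (nat_lit 78) (nat_lit 0) (nat_lit 0) (XT.lf (nat_lit 0) (nat_lit 4138645676) (nat_lit 1216) (nat_lit 8611757553) (nat_lit 1292) (nat_lit 5235008781) (nat_lit 277) (nat_lit 5) (nat_lit 293) (nat_lit 5) (nat_lit 294) (nat_lit 5) (nat_lit 453) (nat_lit 447) (nat_lit 300))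 (XT.lf (nat_lit 76) (nat_lit 469005334) (nat_lit 0) (nat_lit 4467067110) (nat_lit 1292) (nat_lit 13321036869) (nat_lit 278) (nat_lit 5) (nat_lit 277) (nat_lit 5) (nat_lit 294) (nat_lit 5) (nat_lit 454) (nat_lit 447) (nat_lit 299))))) (XT.nd (nat_lit 312) (nat_lit 0) (nat_lit 152) (XT.nd (nat_lit 156) (nat_lit 0) (nat_lit 76) (XT.nd (nat_lit 78) (nat_lit 0) (nat_lit 0) (XT.lf (nat_lit 0) (nat_lit 5876298509) (nat_lit 1216) (nat_lit 8581127181) (nat_lit 1292) (nat_lit 4075967402) (nat_lit 278) (nat_lit 5) (nat_lit 294) (nat_lit 5) (nat_lit 295) (nat_lit 5) (nat_lit 455) (nat_lit 447) (nat_lit 298)) (XT.lf (nat_lit 76) (nat_lit 869389488) (nat_lit 0) (nat_lit 6020141505) (nat_lit 1292) (nat_lit 11927092201) (nat_lit 279) (nat_lit 5) (nat_lit 278) (nat_lit 5) (nat_lit 295) (nat_lit 5) (nat_lit 456) (nat_lit 447) (nat_lit 297))) (XT.nd (nat_lit 78) (nat_lit 0) (nat_lit 0) (XT.lf (nat_lit 0) (nat_lit 8038750307) (nat_lit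 1216) (nat_lit 8358555129) (nat_lit 1292) (nat_lit 2707878815) (nat_lit 279) (nat_lit 5) (nat_lit 295) (nat_lit 5) (nat_lit 296) (nat_lit 5) (nat_lit 457) (nat_lit 447) (nat_lit 296)) (XT.lf (nat_lit 76) (nat_lit 1481649274) (nat_lit 0) (nat_lit 7807277005) (nat_lit 1292) (nat_lit 10111483154) (nat_lit 280) (nat_lit 5) (nat_lit 279) (nat_lit 5) (nat_lit 296) (nat_lit 5) (nat_lit 458) (nat_lit 447) (nat_lit 295)))) (XT.nd (nat_lit 156) (nat_lit 0) (nat_lit 0) (XT.nd (nat_lit 78) (nat_lit 0) (nat_lit 0) (XT.lf (nat_lit 0) (nat_lit 10664662170) (nat_lit 1216) (nat_lit 7930017777) (nat_lit 1292) (nat_lit 1107171428) (nat_lit 280) (nat_lit 5) (nat_lit 296) (nat_lit 5) (nat_lit 297) (nat_lit 5) (nat_lit 459) (nat_lit 447) (nat_lit 294)) (XT.lf (nat_lit 76) (nat_lit 2320916943) (nat_lit 0) (nat_lit 9853384852) (nat_lit 1292) (nat_lit 7835257431) (nat_lit 281) (nat_lit 5) (nat_lit 280) (nat_lit 5) (nat_lit 297) (nat_lit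 5) (nat_lit 460) (nat_lit 447) (nat_lit 293))) (XT.nd (nat_lit 78) (nat_lit 0) (nat_lit 76) (XT.lf (nat_lit 76) (nat_lit 13036531214) (nat_lit 0) (nat_lit 765950119) (nat_lit 1292) (nat_lit 6521821009) (nat_lit 281) (nat_lit 5) (nat_lit 280) (nat_lit 5) (nat_lit 297) (nat_lit 5) (nat_lit 461) (nat_lit 447) (nat_lit 292)) (XT.lf (nat_lit 76) (nat_lit 3403465988) (nat_lit 0) (nat_lit 12184753481) (nat_lit 1292) (nat_lit 5057008392) (nat_lit 282) (nat_lit 5) (nat_lit 281) (nat_lit 5) (nat_lit 298) (nat_lit 5) (nat_lit 462) (nat_lit 447) (nat_lit 291)))))) (XT.nd (nat_lit 546) (nat_lit 2812) (nat_lit 0) (XT.nd (nat_lit 234) (nat_lit 1368) (nat_lit 0) (XT.nd (nat_lit 78) (nat_lit 1216) (nat_lit 0) (XT.lf (nat_lit 76) (nat_lit 14551689106) (nat_lit 0) (nat_lit 2950468024) (nat_lit 1292) (nat_lit 3471386656) (nat_lit 282) (nat_lit 5) (nat_lit 281) (nat_lit 5) (nat_lit 298) (nat_lit 5) (nat_lit 463) (nat_lit 447) (nat_lit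 290)) (XT.nd (nat_lit 78) (nat_lit 76) (nat_lit 0) (XT.lf (nat_lit 0) (nat_lit 4746758132) (nat_lit 1216) (nat_lit 14829174776) (nat_lit 1292) (nat_lit 1732705102) (nat_lit 266) (nat_lit 5) (nat_lit 282) (nat_lit 5) (nat_lit 283) (nat_lit 5) (nat_lit 464) (nat_lit 447) (nat_lit 289)) (XT.lf (nat_lit 0) (nat_lit 145498280) (nat_lit 1292) (nat_lit 5305704528) (nat_lit 76) (nat_lit 16199911951) (nat_lit 265) (nat_lit 5) (nat_lit 282) (nat_lit 5) (nat_lit 266) (nat_lit 5) (nat_lit 465) (nat_lit 447) (nat_lit 288)))) (XT.nd (nat_lit 156) (nat_lit 608) (nat_lit 0) (XT.nd (nat_lit 78) (nat_lit 0) (nat_lit 0) (XT.lf (nat_lit 0) (nat_lit 2141859163) (nat_lit 836) (nat_lit 15652588311) (nat_lit 76) (nat_lit 4206005857) (nat_lit 255) (nat_lit 5) (nat_lit 266) (nat_lit 5) (nat_lit 256) (nat_lit 5) (nat_lit 466) (nat_lit 447) (nat_lit 287)) (XT.lf (nat_lit 0) (nat_lit 4300294909) (nat_lit 836) (nat_lit 3958857216) (nat_lit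 76) (nat_lit 14098055677) (nat_lit 255) (nat_lit 5) (nat_lit 266) (nat_lit 5) (nat_lit 256) (nat_lit 5) (nat_lit 467) (nat_lit 447) (nat_lit 286))) (XT.nd (nat_lit 78) (nat_lit 0) (nat_lit 0) (XT.lf (nat_lit 0) (nat_lit 6612783599) (nat_lit 684) (nat_lit 14497098665) (nat_lit 76) (nat_lit 1612104872) (nat_lit 247) (nat_lit 5) (nat_lit 256) (nat_lit 5) (nat_lit 248) (nat_lit 5) (nat_lit 468) (nat_lit 447) (nat_lit 285)) (XT.lf (nat_lit 0) (nat_lit 9111188126) (nat_lit 684) (nat_lit 2328834321) (nat_lit 76) (nat_lit 11654192359) (nat_lit 247) (nat_lit 5) (nat_lit 256) (nat_lit 5) (nat_lit 248) (nat_lit 5) (nat_lit 469) (nat_lit 447) (nat_lit 284))))) (XT.nd (nat_lit 312) (nat_lit 1140) (nat_lit 0) (XT.nd (nat_lit 156) (nat_lit 1064) (nat_lit 0) (XT.nd (nat_lit 78) (nat_lit 0) (nat_lit 0) (XT.lf (nat_lit 0) (nat_lit 10402167137) (nat_lit 608) (nat_lit 1376927789) (nat_lit 684) (nat_lit 11695679028) (nat_lit 239) (nat_lit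 5) (nat_lit 247) (nat_lit 5) (nat_lit 248) (nat_lit 5) (nat_lit 470) (nat_lit 447) (nat_lit 283)) (XT.lf (nat_lit 0) (nat_lit 14631854282) (nat_lit 684) (nat_lit 395243151) (nat_lit 76) (nat_lit 8836509104) (nat_lit 239) (nat_lit 5) (nat_lit 248) (nat_lit 5) (nat_lit 240) (nat_lit 5) (nat_lit 471) (nat_lit 447) (nat_lit 282))) (XT.nd (nat_lit 78) (nat_lit 532) (nat_lit 0) (XT.lf (nat_lit 0) (nat_lit 12895192887) (nat_lit 532) (nat_lit 4807415412) (nat_lit 608) (nat_lit 6557524531) (nat_lit 232) (nat_lit 5) (nat_lit 239) (nat_lit 5) (nat_lit 240) (nat_lit 5) (nat_lit 472) (nat_lit 447) (nat_lit 281)) (XT.lf (nat_lit 0) (nat_lit 1900738494) (nat_lit 532) (nat_lit 19036943518) (nat_lit 608) (nat_lit 3728708044) (nat_lit 225) (nat_lit 5) (nat_lit 232) (nat_lit 5) (nat_lit 233) (nat_lit 5) (nat_lit 473) (nat_lit 447) (nat_lit 280)))) (XT.nd (nat_lit 156) (nat_lit 532) (nat_lit 0) (XT.nd (nat_lit 78) (nat_lit 608) (nat_lit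 0) (XT.lf (nat_lit 0) (nat_lit 15743516357) (nat_lit 532) (nat_lit 8683205869) (nat_lit 608) (nat_lit 653406370) (nat_lit 225) (nat_lit 5) (nat_lit 232) (nat_lit 5) (nat_lit 233) (nat_lit 5) (nat_lit 474) (nat_lit 447) (nat_lit 279)) (XT.lf (nat_lit 0) (nat_lit 2523706104) (nat_lit 608) (nat_lit 20969330471) (nat_lit 76) (nat_lit 2010760297) (nat_lit 217) (nat_lit 5) (nat_lit 225) (nat_lit 5) (nat_lit 218) (nat_lit 5) (nat_lit 475) (nat_lit 447) (nat_lit 278))) (XT.nd (nat_lit 78) (nat_lit 532) (nat_lit 0) (XT.lf (nat_lit 0) (nat_lit 5959390391) (nat_lit 608) (nat_lit 7022982197) (nat_lit 76) (nat_lit 12952317728) (nat_lit 217) (nat_lit 5) (nat_lit 225) (nat_lit 5) (nat_lit 218) (nat_lit 5) (nat_lit 476) (nat_lit 447) (nat_lit 277)) (XT.lf (nat_lit 0) (nat_lit 7482595063) (nat_lit 532) (nat_lit 2082821082) (nat_lit 608) (nat_lit 16811077202) (nat_lit 210) (nat_lit 5) (nat_lit 217) (nat_lit 5) (nat_lit 218) (nat_lit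 5) (nat_lit 477) (nat_lit 447) (nat_lit 276))))))) (XT.nd (nat_lit 1170) (nat_lit 3268) (nat_lit 0) (XT.nd (nat_lit 546) (nat_lit 1596) (nat_lit 0) (XT.nd (nat_lit 234) (nat_lit 1444) (nat_lit 0) (XT.nd (nat_lit 78) (nat_lit 456) (nat_lit 0) (XT.lf (nat_lit 0) (nat_lit 13434562901) (nat_lit 608) (nat_lit 4355971976) (nat_lit 76) (nat_lit 9036368270) (nat_lit 210) (nat_lit 5) (nat_lit 218) (nat_lit 5) (nat_lit 211) (nat_lit 5) (nat_lit 478) (nat_lit 447) (nat_lit 275)) (XT.nd (nat_lit 78) (nat_lit 0) (nat_lit 0) (XT.lf (nat_lit 0) (nat_lit 10803176306) (nat_lit 456) (nat_lit 6736634459) (nat_lit 532) (nat_lit 9747414534) (nat_lit 204) (nat_lit 5) (nat_lit 210) (nat_lit 5) (nat_lit 211) (nat_lit 5) (nat_lit 479) (nat_lit 447) (nat_lit 274)) (XT.lf (nat_lit 0) (nat_lit 21852958402) (nat_lit 532) (nat_lit 1303946441) (nat_lit 76) (nat_lit 4601910838) (nat_lit 204) (nat_lit 5) (nat_lit 211) (nat_lit 5) (nat_lit 205)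 (nat_lit 5) (nat_lit 480) (nat_lit 447) (nat_lit 273)))) (XT.nd (nat_lit 156) (nat_lit 456) (nat_lit 0) (XT.nd (nat_lit 78) (nat_lit 532) (nat_lit 0) (XT.lf (nat_lit 0) (nat_lit 14543631578) (nat_lit 456) (nat_lit 11954129881) (nat_lit 532) (nat_lit 1740725292) (nat_lit 198) (nat_lit 5) (nat_lit 204) (nat_lit 5) (nat_lit 205) (nat_lit 5) (nat_lit 481) (nat_lit 447) (nat_lit 272)) (XT.lf (nat_lit 0) (nat_lit 2173936470) (nat_lit 456) (nat_lit 355664869) (nat_lit 532) (nat_lit 26201312563) (nat_lit 191) (nat_lit 5) (nat_lit 197) (nat_lit 5) (nat_lit 198) (nat_lit 5) (nat_lit 482) (nat_lit 447) (nat_lit 271))) (XT.nd (nat_lit 78) (nat_lit 456) (nat_lit 0) (XT.lf (nat_lit 0) (nat_lit 7139987648) (nat_lit 532) (nat_lit 10569592441) (nat_lit 76) (nat_lit 11520609369) (nat_lit 191) (nat_lit 5) (nat_lit 198) (nat_lit 5) (nat_lit 192) (nat_lit 5) (nat_lit 483) (nat_lit 447) (nat_lit 270)) (XT.lf (nat_lit 0) (nat_lit 6006114232)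 (nat_lit 456) (nat_lit 5939806717) (nat_lit 532) (nat_lit 17796805990) (nat_lit 185) (nat_lit 5) (nat_lit 191) (nat_lit 5) (nat_lit 192) (nat_lit 5) (nat_lit 484) (nat_lit 447) (nat_lit 269))))) (XT.nd (nat_lit 312) (nat_lit 760) (nat_lit 0) (XT.nd (nat_lit 156) (nat_lit 456) (nat_lit 0) (XT.nd (nat_lit 78) (nat_lit 380) (nat_lit 0) (XT.lf (nat_lit 0) (nat_lit 17059296327) (nat_lit 532) (nat_lit 7037212641) (nat_lit 76) (nat_lit 6169234352) (nat_lit 185) (nat_lit 5) (nat_lit 192) (nat_lit 5) (nat_lit 186) (nat_lit 5) (nat_lit 485) (nat_lit 447) (nat_lit 268)) (XT.lf (nat_lit 0) (nat_lit 10300465099) (nat_lit 380) (nat_lit 12179587363) (nat_lit 456) (nat_lit 8319779024) (nat_lit 180) (nat_lit 5) (nat_lit 185) (nat_lit 5) (nat_lit 186) (nat_lit 5) (nat_lit 486) (nat_lit 447) (nat_lit 267))) (XT.nd (nat_lit 78) (nat_lit 456) (nat_lit 0) (XT.lf (nat_lit 0) (nat_lit 28132318909) (nat_lit 456) (nat_lit 3051845920) (nat_lit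 76) (nat_lit 163711497) (nat_lit 180) (nat_lit 5) (nat_lit 186) (nat_lit 5) (nat_lit 181) (nat_lit 5) (nat_lit 487) (nat_lit 447) (nat_lit 266)) (XT.lf (nat_lit 0) (nat_lit 2266488043) (nat_lit 456) (nat_lit 16838596487) (nat_lit 76) (nat_lit 12798753598) (nat_lit 174) (nat_lit 5) (nat_lit 180) (nat_lit 5) (nat_lit 175) (nat_lit 5) (nat_lit 488) (nat_lit 447) (nat_lit 265)))) (XT.nd (nat_lit 156) (nat_lit 380) (nat_lit 0) (XT.nd (nat_lit 78) (nat_lit 0) (nat_lit 0) (XT.lf (nat_lit 0) (nat_lit 1301266069) (nat_lit 380) (nat_lit 6587076322) (nat_lit 456) (nat_lit 24585982567) (nat_lit 169) (nat_lit 5) (nat_lit 174) (nat_lit 5) (nat_lit 175) (nat_lit 5) (nat_lit 489) (nat_lit 447) (nat_lit 264)) (XT.lf (nat_lit 0) (nat_lit 13907589078) (nat_lit 456) (nat_lit 12793512280) (nat_lit 76) (nat_lit 6353963518) (nat_lit 169) (nat_lit 5) (nat_lit 175) (nat_lit 5) (nat_lit 170) (nat_lit 5) (nat_lit 490) (nat_lit 447) (nat_lit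 263))) (XT.nd (nat_lit 78) (nat_lit 0) (nat_lit 0) (XT.lf (nat_lit 0) (nat_lit 6188217722) (nat_lit 380) (nat_lit 14040398665) (nat_lit 456) (nat_lit 13420975077) (nat_lit 164) (nat_lit 5) (nat_lit 169) (nat_lit 5) (nat_lit 170) (nat_lit 5) (nat_lit 491) (nat_lit 447) (nat_lit 262)) (XT.lf (nat_lit 0) (nat_lit 25996961697) (nat_lit 380) (nat_lit 868058760) (nat_lit 456) (nat_lit 7393161565) (nat_lit 164) (nat_lit 5) (nat_lit 169) (nat_lit 5) (nat_lit 170) (nat_lit 5) (nat_lit 492) (nat_lit 447) (nat_lit 261)))))) (XT.nd (nat_lit 624) (nat_lit 1520) (nat_lit 0) (XT.nd (nat_lit 312) (nat_lit 684) (nat_lit 0) (XT.nd (nat_lit 156) (nat_lit 684) (nat_lit 0) (XT.nd (nat_lit 78) (nat_lit 76) (nat_lit 0) (XT.lf (nat_lit 0) (nat_lit 11614865775) (nat_lit 304) (nat_lit 22316020157) (nat_lit 380) (nat_lit 947233823) (nat_lit 160) (nat_lit 5) (nat_lit 164) (nat_lit 5) (nat_lit 165) (nat_lit 5) (nat_lit 493) (nat_lit 447) (nat_lit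 260)) (XT.lf (nat_lit 0) (nat_lit 5670507156) (nat_lit 380) (nat_lit 3326374075) (nat_lit 76) (nat_lit 26515448175) (nat_lit 159) (nat_lit 5) (nat_lit 164) (nat_lit 5) (nat_lit 160) (nat_lit 5) (nat_lit 494) (nat_lit 447) (nat_lit 259))) (XT.nd (nat_lit 78) (nat_lit 304) (nat_lit 0) (XT.lf (nat_lit 0) (nat_lit 12680218675) (nat_lit 456) (nat_lit 18670551291) (nat_lit 76) (nat_lit 4808140212) (nat_lit 154) (nat_lit 5) (nat_lit 160) (nat_lit 5) (nat_lit 155) (nat_lit 5) (nat_lit 495) (nat_lit 447) (nat_lit 258)) (XT.lf (nat_lit 0) (nat_lit 2119214001) (nat_lit 304) (nat_lit 17921180477) (nat_lit 380) (nat_lit 16780289182) (nat_lit 150) (nat_lit 5) (nat_lit 154) (nat_lit 5) (nat_lit 155) (nat_lit 5) (nat_lit 496) (nat_lit 447) (nat_lit 257)))) (XT.nd (nat_lit 156) (nat_lit 380) (nat_lit 0) (XT.nd (nat_lit 78) (nat_lit 304) (nat_lit 0) (XT.lf (nat_lit 0) (nat_lit 23910875585) (nat_lit 304) (nat_lit 3895886899) (nat_lit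 380) (nat_lit 9689986717) (nat_lit 150) (nat_lit 5) (nat_lit 154) (nat_lit 5) (nat_lit 155) (nat_lit 5) (nat_lit 497) (nat_lit 447) (nat_lit 256)) (XT.lf (nat_lit 0) (nat_lit 8217659593) (nat_lit 304) (nat_lit 27765799602) (nat_lit 380) (nat_lit 2204317831) (nat_lit 146) (nat_lit 5) (nat_lit 150) (nat_lit 5) (nat_lit 151) (nat_lit 5) (nat_lit 498) (nat_lit 447) (nat_lit 255))) (XT.nd (nat_lit 78) (nat_lit 304) (nat_lit 0) (XT.lf (nat_lit 0) (nat_lit 5572549258) (nat_lit 380) (nat_lit 8038971378) (nat_lit 76) (nat_lit 25281205628) (nat_lit 145) (nat_lit 5) (nat_lit 150) (nat_lit 5) (nat_lit 146) (nat_lit 5) (nat_lit 499) (nat_lit 447) (nat_lit 254)) (XT.lf (nat_lit 0) (nat_lit 13688756081) (nat_lit 380) (nat_lit 24811918533) (nat_lit 76) (nat_lit 1112984880) (nat_lit 141) (nat_lit 5) (nat_lit 146) (nat_lit 5) (nat_lit 142) (nat_lit 5) (nat_lit 500) (nat_lit 447) (nat_lit 253))))) (XT.nd (nat_lit 312) (nat_lit 912)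 (nat_lit 0) (XT.nd (nat_lit 156) (nat_lit 304) (nat_lit 0) (XT.nd (nat_lit 78) (nat_lit 304) (nat_lit 0) (XT.lf (nat_lit 0) (nat_lit 22262264955) (nat_lit 380) (nat_lit 2001281587) (nat_lit 76) (nat_lit 16086260101) (nat_lit 141) (nat_lit 5) (nat_lit 146) (nat_lit 5) (nat_lit 142) (nat_lit 5) (nat_lit 501) (nat_lit 447) (nat_lit 252)) (XT.lf (nat_lit 0) (nat_lit 21917093145) (nat_lit 304) (nat_lit 9383718619) (nat_lit 380) (nat_lit 9800991850) (nat_lit 137) (nat_lit 5) (nat_lit 141) (nat_lit 5) (nat_lit 142) (nat_lit 5) (nat_lit 502) (nat_lit 447) (nat_lit 251))) (XT.nd (nat_lit 78) (nat_lit 76) (nat_lit 0) (XT.lf (nat_lit 0) (nat_lit 4749351187) (nat_lit 228) (nat_lit 35981530479) (nat_lit 304) (nat_lit 1141868201) (nat_lit 134) (nat_lit 5) (nat_lit 137) (nat_lit 5) (nat_lit 138) (nat_lit 5) (nat_lit 503) (nat_lit 447) (nat_lit 250)) (XT.lf (nat_lit 0) (nat_lit 7911019792) (nat_lit 304) (nat_lit 13040199994) (nat_lit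 76) (nat_lit 21704789896) (nat_lit 133) (nat_lit 5) (nat_lit 137) (nat_lit 5) (nat_lit 134) (nat_lit 5) (nat_lit 504) (nat_lit 447) (nat_lit 249)))) (XT.nd (nat_lit 156) (nat_lit 608) (nat_lit 0) (XT.nd (nat_lit 78) (nat_lit 0) (nat_lit 0) (XT.lf (nat_lit 0) (nat_lit 11983856644) (nat_lit 304) (nat_lit 5341159564) (nat_lit 380) (nat_lit 26134038091) (nat_lit 129) (nat_lit 5) (nat_lit 133) (nat_lit 5) (nat_lit 134) (nat_lit 5) (nat_lit 505) (nat_lit 447) (nat_lit 248)) (XT.lf (nat_lit 0) (nat_lit 27254930894) (nat_lit 380) (nat_lit 6365016351) (nat_lit 76) (nat_lit 10659238392) (nat_lit 129) (nat_lit 5) (nat_lit 134) (nat_lit 5) (nat_lit 130) (nat_lit 5) (nat_lit 506) (nat_lit 447) (nat_lit 247))) (XT.nd (nat_lit 78) (nat_lit 380) (nat_lit 0) (XT.lf (nat_lit 0) (nat_lit 19828427704) (nat_lit 228) (nat_lit 17895181255) (nat_lit 304) (nat_lit 7393086302) (nat_lit 126) (nat_lit 5) (nat_lit 129) (nat_lit 5) (nat_lit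 130) (nat_lit 5) (nat_lit 507) (nat_lit 447) (nat_lit 246)) (XT.lf (nat_lit 0) (nat_lit 950269150) (nat_lit 304) (nat_lit 1598873716) (nat_lit 380) (nat_lit 43427315770) (nat_lit 121) (nat_lit 5) (nat_lit 125) (nat_lit 5) (nat_lit 126) (nat_lit 5) (nat_lit 508) (nat_lit 447) (nat_lit 245))))))))
noncomputable def xc196 : XT := (XT.nd (nat_lit 2340) (nat_lit 684) (nat_lit 0) (XT.nd (nat_lit 1170) (nat_lit 1748) (nat_lit 0) (XT.nd (nat_lit 546) (nat_lit 912) (nat_lit 0) (XT.nd (nat_lit 234) (nat_lit 760) (nat_lit 0) (XT.nd (nat_lit 78) (nat_lit 228) (nat_lit 0) (XT.lf (nat_lit 0) (nat_lit 13042330134) (nat_lit 380) (nat_lit 18585833983) (nat_lit 76) (nat_lit 15219616576) (nat_lit 121) (nat_lit 5) (nat_lit 126) (nat_lit 5) (nat_lit 122) (nat_lit 5) (nat_lit 509) (nat_lit 447) (nat_lit 244)) (XT.nd (nat_lit 78) (nat_lit 0) (nat_lit 0) (XT.lf (nat_lit 0) (nat_lit 8799614762) (nat_lit 228) (nat_lit 15148605736) (nat_lit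 304) (nat_lit 23794084979) (nat_lit 118) (nat_lit 5) (nat_lit 121) (nat_lit 5) (nat_lit 122) (nat_lit 5) (nat_lit 510) (nat_lit 447) (nat_lit 243)) (XT.lf (nat_lit 0) (nat_lit 35385883096) (nat_lit 304) (nat_lit 11293841967) (nat_lit 76) (nat_lit 1977803353) (nat_lit 118) (nat_lit 5) (nat_lit 122) (nat_lit 5) (nat_lit 119) (nat_lit 5) (nat_lit 511) (nat_lit 447) (nat_lit 242)))) (XT.nd (nat_lit 156) (nat_lit 456) (nat_lit 0) (XT.nd (nat_lit 78) (nat_lit 76) (nat_lit 0) (XT.lf (nat_lit 0) (nat_lit 17369524911) (nat_lit 228) (nat_lit 30111686404) (nat_lit 304) (nat_lit 2109560929) (nat_lit 115) (nat_lit 5) (nat_lit 118) (nat_lit 5) (nat_lit 119) (nat_lit 5) (nat_lit 512) (nat_lit 447) (nat_lit 241)) (XT.lf (nat_lit 0) (nat_lit 9316971541) (nat_lit 304) (nat_lit 3519566027) (nat_lit 76) (nat_lit 37709385936) (nat_lit 114) (nat_lit 5) (nat_lit 118) (nat_lit 5) (nat_lit 115) (nat_lit 5) (nat_lit 513) (nat_lit 447) (nat_lit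 240))) (XT.nd (nat_lit 78) (nat_lit 228) (nat_lit 0) (XT.lf (nat_lit 0) (nat_lit 21347012346) (nat_lit 304) (nat_lit 25035588651) (nat_lit 76) (nat_lit 5137408580) (nat_lit 111) (nat_lit 5) (nat_lit 115) (nat_lit 5) (nat_lit 112) (nat_lit 5) (nat_lit 514) (nat_lit 447) (nat_lit 239)) (XT.lf (nat_lit 0) (nat_lit 4902831490) (nat_lit 228) (nat_lit 29042919414) (nat_lit 304) (nat_lit 18571333671) (nat_lit 108) (nat_lit 5) (nat_lit 111) (nat_lit 5) (nat_lit 112) (nat_lit 5) (nat_lit 515) (nat_lit 447) (nat_lit 238))))) (XT.nd (nat_lit 312) (nat_lit 456) (nat_lit 0) (XT.nd (nat_lit 156) (nat_lit 228) (nat_lit 0) (XT.nd (nat_lit 78) (nat_lit 228) (nat_lit 0) (XT.lf (nat_lit 0) (nat_lit 36248829459) (nat_lit 228) (nat_lit 10924144223) (nat_lit 304) (nat_lit 6363582715) (nat_lit 108) (nat_lit 5) (nat_lit 111) (nat_lit 5) (nat_lit 112) (nat_lit 5) (nat_lit 516) (nat_lit 447) (nat_lit 237)) (XT.lf (nat_lit 0) (nat_lit 6299407858)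 (nat_lit 228) (nat_lit 40495589504) (nat_lit 76) (nat_lit 7783518454) (nat_lit 105) (nat_lit 5) (nat_lit 108) (nat_lit 5) (nat_lit 106) (nat_lit 5) (nat_lit 517) (nat_lit 447) (nat_lit 236))) (XT.nd (nat_lit 78) (nat_lit 228) (nat_lit 0) (XT.lf (nat_lit 0) (nat_lit 19496618920) (nat_lit 228) (nat_lit 9074041014) (nat_lit 76) (nat_lit 27070717152) (nat_lit 105) (nat_lit 5) (nat_lit 108) (nat_lit 5) (nat_lit 106) (nat_lit 5) (nat_lit 518) (nat_lit 447) (nat_lit 235)) (XT.lf (nat_lit 0) (nat_lit 23749979512) (nat_lit 228) (nat_lit 9565903081) (nat_lit 304) (nat_lit 23413457717) (nat_lit 102) (nat_lit 5) (nat_lit 105) (nat_lit 5) (nat_lit 106) (nat_lit 5) (nat_lit 519) (nat_lit 447) (nat_lit 234)))) (XT.nd (nat_lit 156) (nat_lit 228) (nat_lit 0) (XT.nd (nat_lit 78) (nat_lit 228) (nat_lit 0) (XT.lf (nat_lit 0) (nat_lit 47736325543) (nat_lit 304) (nat_lit 203220591) (nat_lit 76) (nat_lit 9904798462) (nat_lit 102) (nat_lit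 5) (nat_lit 106) (nat_lit 5) (nat_lit 103) (nat_lit 5) (nat_lit 520) (nat_lit 447) (nat_lit 233)) (XT.lf (nat_lit 0) (nat_lit 3951210330) (nat_lit 228) (nat_lit 24895077168) (nat_lit 76) (nat_lit 30132730228) (nat_lit 99) (nat_lit 5) (nat_lit 102) (nat_lit 5) (nat_lit 100) (nat_lit 5) (nat_lit 521) (nat_lit 447) (nat_lit 232))) (XT.nd (nat_lit 78) (nat_lit 0) (nat_lit 0) (XT.lf (nat_lit 0) (nat_lit 9334729502) (nat_lit 228) (nat_lit 8984050165) (nat_lit 304) (nat_lit 41823257460) (nat_lit 96) (nat_lit 5) (nat_lit 99) (nat_lit 5) (nat_lit 100) (nat_lit 5) (nat_lit 522) (nat_lit 447) (nat_lit 231)) (XT.lf (nat_lit 0) (nat_lit 33479485817) (nat_lit 304) (nat_lit 16346985947) (nat_lit 76) (nat_lit 11502612232) (nat_lit 96) (nat_lit 5) (nat_lit 100) (nat_lit 5) (nat_lit 97) (nat_lit 5) (nat_lit 523) (nat_lit 447) (nat_lit 230)))))) (XT.nd (nat_lit 546) (nat_lit 912) (nat_lit 0) (XT.nd (nat_lit 234) (nat_lit 380) (nat_lit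 0) (XT.nd (nat_lit 78) (nat_lit 304) (nat_lit 0) (XT.lf (nat_lit 0) (nat_lit 19433973662) (nat_lit 152) (nat_lit 29934795524) (nat_lit 228) (nat_lit 13174760580) (nat_lit 94) (nat_lit 5) (nat_lit 96) (nat_lit 5) (nat_lit 97) (nat_lit 5) (nat_lit 524) (nat_lit 447) (nat_lit 229)) (XT.nd (nat_lit 78) (nat_lit 228) (nat_lit 0) (XT.lf (nat_lit 0) (nat_lit 2067166000) (nat_lit 228) (nat_lit 7189737159) (nat_lit 76) (nat_lit 54532005170) (nat_lit 93) (nat_lit 5) (nat_lit 96) (nat_lit 5) (nat_lit 94) (nat_lit 5) (nat_lit 525) (nat_lit 447) (nat_lit 228)) (XT.lf (nat_lit 0) (nat_lit 17910435977) (nat_lit 304) (nat_lit 34914524264) (nat_lit 76) (nat_lit 12230508315) (nat_lit 90) (nat_lit 5) (nat_lit 94) (nat_lit 5) (nat_lit 91) (nat_lit 5) (nat_lit 526) (nat_lit 447) (nat_lit 227)))) (XT.nd (nat_lit 156) (nat_lit 228) (nat_lit 0) (XT.nd (nat_lit 78) (nat_lit 0) (nat_lit 0) (XT.lf (nat_lit 0) (nat_lit 2330828289) (nat_lit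 152) (nat_lit 32083623768) (nat_lit 228) (nat_lit 31940010247) (nat_lit 88) (nat_lit 5) (nat_lit 90) (nat_lit 5) (nat_lit 91) (nat_lit 5) (nat_lit 527) (nat_lit 447) (nat_lit 226)) (XT.lf (nat_lit 0) (nat_lit 41405923470) (nat_lit 152) (nat_lit 10358326671) (nat_lit 228) (nat_lit 15917656029) (nat_lit 88) (nat_lit 5) (nat_lit 90) (nat_lit 5) (nat_lit 91) (nat_lit 5) (nat_lit 528) (nat_lit 447) (nat_lit 225))) (XT.nd (nat_lit 78) (nat_lit 0) (nat_lit 0) (XT.lf (nat_lit 0) (nat_lit 812355068) (nat_lit 228) (nat_lit 56316283905) (nat_lit 76) (nat_lit 11913213445) (nat_lit 85) (nat_lit 5) (nat_lit 88) (nat_lit 5) (nat_lit 86) (nat_lit 5) (nat_lit 529) (nat_lit 447) (nat_lit 224)) (XT.lf (nat_lit 0) (nat_lit 18092998325) (nat_lit 228) (nat_lit 17264906002) (nat_lit 76) (nat_lit 35068905018) (nat_lit 85) (nat_lit 5) (nat_lit 88) (nat_lit 5) (nat_lit 86) (nat_lit 5) (nat_lit 530) (nat_lit 447) (nat_lit 223))))) (XT.nd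 (nat_lit 312) (nat_lit 380) (nat_lit 0) (XT.nd (nat_lit 156) (nat_lit 380) (nat_lit 0) (XT.nd (nat_lit 78) (nat_lit 0) (nat_lit 0) (XT.lf (nat_lit 0) (nat_lit 23411673047) (nat_lit 152) (nat_lit 12703629591) (nat_lit 228) (nat_lit 35731315224) (nat_lit 83) (nat_lit 5) (nat_lit 85) (nat_lit 5) (nat_lit 86) (nat_lit 5) (nat_lit 531) (nat_lit 447) (nat_lit 222)) (XT.lf (nat_lit 0) (nat_lit 54954732137) (nat_lit 228) (nat_lit 7748433574) (nat_lit 76) (nat_lit 10597561371) (nat_lit 83) (nat_lit 5) (nat_lit 86) (nat_lit 5) (nat_lit 84) (nat_lit 5) (nat_lit 532) (nat_lit 447) (nat_lit 221))) (XT.nd (nat_lit 78) (nat_lit 152) (nat_lit 0) (XT.lf (nat_lit 0) (nat_lit 31644579) (nat_lit 228) (nat_lit 40077988460) (nat_lit 76) (nat_lit 34675087564) (nat_lit 80) (nat_lit 5) (nat_lit 83) (nat_lit 5) (nat_lit 81) (nat_lit 5) (nat_lit 533) (nat_lit 447) (nat_lit 220)) (XT.lf (nat_lit 0) (nat_lit 2139730431) (nat_lit 152) (nat_lit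 16549993532) (nat_lit 228) (nat_lit 57615125371) (nat_lit 78) (nat_lit 5) (nat_lit 80) (nat_lit 5) (nat_lit 81) (nat_lit 5) (nat_lit 534) (nat_lit 447) (nat_lit 219)))) (XT.nd (nat_lit 156) (nat_lit 228) (nat_lit 0) (XT.nd (nat_lit 78) (nat_lit 152) (nat_lit 0) (XT.lf (nat_lit 0) (nat_lit 38388704937) (nat_lit 228) (nat_lit 31494197310) (nat_lit 76) (nat_lit 7973245018) (nat_lit 78) (nat_lit 5) (nat_lit 81) (nat_lit 5) (nat_lit 79) (nat_lit 5) (nat_lit 535) (nat_lit 447) (nat_lit 218)) (XT.lf (nat_lit 0) (nat_lit 12534560863) (nat_lit 152) (nat_lit 46426764106) (nat_lit 228) (nat_lit 20484179188) (nat_lit 76) (nat_lit 5) (nat_lit 78) (nat_lit 5) (nat_lit 79) (nat_lit 5) (nat_lit 536) (nat_lit 447) (nat_lit 217))) (XT.nd (nat_lit 78) (nat_lit 228) (nat_lit 0) (XT.lf (nat_lit 0) (nat_lit 58526787423) (nat_lit 152) (nat_lit 21940704451) (nat_lit 228) (nat_lit 605558942) (nat_lit 76) (nat_lit 5) (nat_lit 78) (nat_lit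 5) (nat_lit 79) (nat_lit 5) (nat_lit 537) (nat_lit 447) (nat_lit 216)) (XT.lf (nat_lit 0) (nat_lit 19740755517) (nat_lit 228) (nat_lit 59360348893) (nat_lit 76) (nat_lit 3634817872) (nat_lit 73) (nat_lit 5) (nat_lit 76) (nat_lit 5) (nat_lit 74) (nat_lit 5) (nat_lit 538) (nat_lit 447) (nat_lit 215))))))) (XT.nd (nat_lit 55926) (nat_lit 0) (nat_lit 13908) (XT.nd (nat_lit 546) (nat_lit 76) (nat_lit 0) (XT.nd (nat_lit 234) (nat_lit 456) (nat_lit 0) (XT.nd (nat_lit 78) (nat_lit 152) (nat_lit 0) (XT.lf (nat_lit 0) (nat_lit 41130828117) (nat_lit 228) (nat_lit 13533039532) (nat_lit 76) (nat_lit 29771266275) (nat_lit 73) (nat_lit 5) (nat_lit 76) (nat_lit 5) (nat_lit 74) (nat_lit 5) (nat_lit 539) (nat_lit 447) (nat_lit 214)) (XT.nd (nat_lit 78) (nat_lit 0) (nat_lit 0) (XT.lf (nat_lit 0) (nat_lit 34336252004) (nat_lit 152) (nat_lit 29154837099) (nat_lit 228) (nat_lit 22684378323) (nat_lit 71) (nat_lit 5) (nat_lit 73) (nat_lit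 5) (nat_lit 74) (nat_lit 5) (nat_lit 540) (nat_lit 447) (nat_lit 213)) (XT.lf (nat_lit 0) (nat_lit 83916203326) (nat_lit 152) (nat_lit 2741055545) (nat_lit 228) (nat_lit 1306699129) (nat_lit 71) (nat_lit 5) (nat_lit 73) (nat_lit 5) (nat_lit 74) (nat_lit 5) (nat_lit 541) (nat_lit 447) (nat_lit 212)))) (XT.nd (nat_lit 156) (nat_lit 76) (nat_lit 0) (XT.nd (nat_lit 78) (nat_lit 152) (nat_lit 0) (XT.lf (nat_lit 0) (nat_lit 20989048499) (nat_lit 228) (nat_lit 44157775310) (nat_lit 76) (nat_lit 24632879291) (nat_lit 68) (nat_lit 5) (nat_lit 71) (nat_lit 5) (nat_lit 69) (nat_lit 5) (nat_lit 542) (nat_lit 447) (nat_lit 211)) (XT.lf (nat_lit 0) (nat_lit 5275660028) (nat_lit 152) (nat_lit 38769356351) (nat_lit 228) (nat_lit 47600987797) (nat_lit 66) (nat_lit 5) (nat_lit 68) (nat_lit 5) (nat_lit 69) (nat_lit 5) (nat_lit 543) (nat_lit 447) (nat_lit 210))) (XT.nd (nat_lit 78) (nat_lit 76) (nat_lit 0) (XT.lf (nat_lit 0) (nat_lit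 57094529820) (nat_lit 152) (nat_lit 11142538229) (nat_lit 228) (nat_lit 25317894175) (nat_lit 66) (nat_lit 5) (nat_lit 68) (nat_lit 5) (nat_lit 69) (nat_lit 5) (nat_lit 544) (nat_lit 447) (nat_lit 209)) (XT.lf (nat_lit 0) (nat_lit 15071745342) (nat_lit 76) (nat_lit 78392968547) (nat_lit 152) (nat_lit 2047180227) (nat_lit 65) (nat_lit 5) (nat_lit 66) (nat_lit 5) (nat_lit 67) (nat_lit 4) (nat_lit 545) (nat_lit 447) (nat_lit 208))))) (XT.nd (nat_lit 55068) (nat_lit 0) (nat_lit 16036) (XT.nd (nat_lit 54912) (nat_lit 0) (nat_lit 15960) (XT.nd (nat_lit 54834) (nat_lit 0) (nat_lit 15960) (XT.lf (nat_lit 0) (nat_lit 21974563431) (nat_lit 152) (nat_lit 28946603045) (nat_lit 76) (nat_lit 46585625473) (nat_lit 64) (nat_lit 5) (nat_lit 66) (nat_lit 5) (nat_lit 65) (nat_lit 5) (nat_lit 546) (nat_lit 447) (nat_lit 207)) (XT.lf (nat_lit 0) (nat_lit 818570280) (nat_lit 1292) (nat_lit 3829264507) (nat_lit 1292) (nat_lit 3829264507)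 (nat_lit 274) (nat_lit 3) (nat_lit 291) (nat_lit 3) (nat_lit 291) (nat_lit 5) (nat_lit 448) (nat_lit 448) (nat_lit 304))) (XT.nd (nat_lit 78) (nat_lit 0) (nat_lit 76) (XT.lf (nat_lit 76) (nat_lit 662287415) (nat_lit 0) (nat_lit 1235434059) (nat_lit 1292) (nat_lit 15303655951) (nat_lit 275) (nat_lit 5) (nat_lit 274) (nat_lit 3) (nat_lit 291) (nat_lit 5) (nat_lit 449) (nat_lit 448) (nat_lit 303)) (XT.lf (nat_lit 0) (nat_lit 2303183383) (nat_lit 1216) (nat_lit 8137647610) (nat_lit 1292) (nat_lit 7011030810) (nat_lit 275) (nat_lit 5) (nat_lit 291) (nat_lit 5) (nat_lit 292) (nat_lit 5) (nat_lit 450) (nat_lit 448) (nat_lit 302)))) (XT.nd (nat_lit 156) (nat_lit 0) (nat_lit 76) (XT.nd (nat_lit 78) (nat_lit 0) (nat_lit 76) (XT.lf (nat_lit 76) (nat_lit 508655555) (nat_lit 0) (nat_lit 2220569467) (nat_lit 1292) (nat_lit 14980385238) (nat_lit 276) (nat_lit 5) (nat_lit 275) (nat_lit 5) (nat_lit 292) (nat_lit 5) (nat_lit 451)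 (nat_lit 448) (nat_lit 301)) (XT.lf (nat_lit 0) (nat_lit 3302615830) (nat_lit 1216) (nat_lit 8457441776) (nat_lit 1292) (nat_lit 6210998493) (nat_lit 276) (nat_lit 5) (nat_lit 292) (nat_lit 5) (nat_lit 293) (nat_lit 5) (nat_lit 452) (nat_lit 448) (nat_lit 300))) (XT.nd (nat_lit 78) (nat_lit 0) (nat_lit 76) (XT.lf (nat_lit 76) (nat_lit 531796530) (nat_lit 0) (nat_lit 3380292896) (nat_lit 1292) (nat_lit 14327691364) (nat_lit 277) (nat_lit 5) (nat_lit 276) (nat_lit 5) (nat_lit 293) (nat_lit 5) (nat_lit 453) (nat_lit 448) (nat_lit 299)) (XT.lf (nat_lit 0) (nat_lit 4668576009) (nat_lit 1216) (nat_lit 8606439081) (nat_lit 1292) (nat_lit 5237692121) (nat_lit 277) (nat_lit 5) (nat_lit 293) (nat_lit 5) (nat_lit 294) (nat_lit 5) (nat_lit 454) (nat_lit 448) (nat_lit 298)))))) (XT.nd (nat_lit 546) (nat_lit 2280) (nat_lit 0) (XT.nd (nat_lit 234) (nat_lit 0) (nat_lit 152) (XT.nd (nat_lit 78) (nat_lit 0) (nat_lit 76) (XT.lf (nat_lit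 76) (nat_lit 744161682) (nat_lit 0) (nat_lit 4736455047) (nat_lit 1292) (nat_lit 13312220708) (nat_lit 278) (nat_lit 5) (nat_lit 277) (nat_lit 5) (nat_lit 294) (nat_lit 5) (nat_lit 455) (nat_lit 448) (nat_lit 297)) (XT.nd (nat_lit 78) (nat_lit 0) (nat_lit 0) (XT.lf (nat_lit 0) (nat_lit 6436238722) (nat_lit 1216) (nat_lit 8572179774) (nat_lit 1292) (nat_lit 4069378218) (nat_lit 278) (nat_lit 5) (nat_lit 294) (nat_lit 5) (nat_lit 295) (nat_lit 5) (nat_lit 456) (nat_lit 448) (nat_lit 296)) (XT.lf (nat_lit 76) (nat_lit 1159240815) (nat_lit 0) (nat_lit 6311988572) (nat_lit 1292) (nat_lit 11898556078) (nat_lit 279) (nat_lit 5) (nat_lit 278) (nat_lit 5) (nat_lit 295) (nat_lit 5) (nat_lit 457) (nat_lit 448) (nat_lit 295)))) (XT.nd (nat_lit 156) (nat_lit 0) (nat_lit 76) (XT.nd (nat_lit 78) (nat_lit 0) (nat_lit 0) (XT.lf (nat_lit 0) (nat_lit 8642964399) (nat_lit 1216) (nat_lit 8341180325) (nat_lit 1292) (nat_lit 2683219962)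 (nat_lit 279) (nat_lit 5) (nat_lit 295) (nat_lit 5) (nat_lit 296) (nat_lit 5) (nat_lit 458) (nat_lit 448) (nat_lit 294)) (XT.lf (nat_lit 76) (nat_lit 1791601470) (nat_lit 0) (nat_lit 8131022036) (nat_lit 1292) (nat_lit 10049066214) (nat_lit 280) (nat_lit 5) (nat_lit 279) (nat_lit 5) (nat_lit 296) (nat_lit 5) (nat_lit 459) (nat_lit 448) (nat_lit 293))) (XT.nd (nat_lit 78) (nat_lit 0) (nat_lit 0) (XT.lf (nat_lit 0) (nat_lit 11328455291) (nat_lit 1216) (nat_lit 7898893748) (nat_lit 1292) (nat_lit 1055163530) (nat_lit 280) (nat_lit 5) (nat_lit 296) (nat_lit 5) (nat_lit 297) (nat_lit 5) (nat_lit 460) (nat_lit 448) (nat_lit 292)) (XT.lf (nat_lit 76) (nat_lit 2656931518) (nat_lit 0) (nat_lit 10218998118) (nat_lit 1292) (nat_lit 7723747946) (nat_lit 281) (nat_lit 5) (nat_lit 280) (nat_lit 5) (nat_lit 297) (nat_lit 5) (nat_lit 461) (nat_lit 448) (nat_lit 291))))) (XT.nd (nat_lit 312) (nat_lit 1444) (nat_lit 0) (XT.nd (nat_lit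 156) (nat_lit 1064) (nat_lit 0) (XT.nd (nat_lit 78) (nat_lit 0) (nat_lit 76) (XT.lf (nat_lit 76) (nat_lit 13686255370) (nat_lit 0) (nat_lit 856901167) (nat_lit 1292) (nat_lit 6381002622) (nat_lit 281) (nat_lit 5) (nat_lit 280) (nat_lit 5) (nat_lit 297) (nat_lit 5) (nat_lit 462) (nat_lit 448) (nat_lit 290)) (XT.lf (nat_lit 76) (nat_lit 3772085070) (nat_lit 0) (nat_lit 12602796648) (nat_lit 1292) (nat_lit 4880060442) (nat_lit 282) (nat_lit 5) (nat_lit 281) (nat_lit 5) (nat_lit 298) (nat_lit 5) (nat_lit 463) (nat_lit 448) (nat_lit 289))) (XT.nd (nat_lit 78) (nat_lit 1140) (nat_lit 0) (XT.lf (nat_lit 76) (nat_lit 15246992306) (nat_lit 0) (nat_lit 3089953485) (nat_lit 1292) (nat_lit 3256442623) (nat_lit 282) (nat_lit 5) (nat_lit 281) (nat_lit 5) (nat_lit 298) (nat_lit 5) (nat_lit 464) (nat_lit 448) (nat_lit 288)) (XT.lf (nat_lit 0) (nat_lit 5155131683) (nat_lit 1216) (nat_lit 15310863049) (nat_lit 1292) (nat_lit 1472750973)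 (nat_lit 266) (nat_lit 5) (nat_lit 282) (nat_lit 5) (nat_lit 283) (nat_lit 5) (nat_lit 465) (nat_lit 448) (nat_lit 287)))) (XT.nd (nat_lit 156) (nat_lit 608) (nat_lit 0) (XT.nd (nat_lit 78) (nat_lit 760) (nat_lit 0) (XT.lf (nat_lit 0) (nat_lit 446803327) (nat_lit 1292) (nat_lit 5200677858) (nat_lit 76) (nat_lit 16644194783) (nat_lit 265) (nat_lit 5) (nat_lit 282) (nat_lit 5) (nat_lit 266) (nat_lit 5) (nat_lit 466) (nat_lit 448) (nat_lit 286)) (XT.lf (nat_lit 0) (nat_lit 2496640355) (nat_lit 836) (nat_lit 15851491308) (nat_lit 76) (nat_lit 4303557341) (nat_lit 255) (nat_lit 5) (nat_lit 266) (nat_lit 5) (nat_lit 256) (nat_lit 5) (nat_lit 467) (nat_lit 448) (nat_lit 285))) (XT.nd (nat_lit 78) (nat_lit 608) (nat_lit 0) (XT.lf (nat_lit 0) (nat_lit 4711367268) (nat_lit 836) (nat_lit 3814832008) (nat_lit 76) (nat_lit 14493202501) (nat_lit 255) (nat_lit 5) (nat_lit 266) (nat_lit 5) (nat_lit 256) (nat_lit 5) (nat_lit 468)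 (nat_lit 448) (nat_lit 284)) (XT.lf (nat_lit 0) (nat_lit 7087361420) (nat_lit 684) (nat_lit 14663292904) (nat_lit 76) (nat_lit 1644648001) (nat_lit 247) (nat_lit 5) (nat_lit 256) (nat_lit 5) (nat_lit 248) (nat_lit 5) (nat_lit 469) (nat_lit 448) (nat_lit 283))))))))
noncomputable def xc197 : XT := (XT.nd (nat_lit 2340) (nat_lit 4636) (nat_lit 0) (XT.nd (nat_lit 1170) (nat_lit 3420) (nat_lit 0) (XT.nd (nat_lit 546) (nat_lit 1976) (nat_lit 0) (XT.nd (nat_lit 234) (nat_lit 1672) (nat_lit 0) (XT.nd (nat_lit 78) (nat_lit 608) (nat_lit 0) (XT.lf (nat_lit 0) (nat_lit 9652673588) (nat_lit 684) (nat_lit 2137807388) (nat_lit 76) (nat_lit 11988458889) (nat_lit 247) (nat_lit 5) (nat_lit 256) (nat_lit 5) (nat_lit 248) (nat_lit 5) (nat_lit 470) (nat_lit 448) (nat_lit 282)) (XT.nd (nat_lit 78) (nat_lit 0) (nat_lit 0) (XT.lf (nat_lit 0) (nat_lit 10972566349) (nat_lit 608) (nat_lit 1422724320) (nat_lit 684) (nat_lit 11775786583)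 (nat_lit 239) (nat_lit 5) (nat_lit 247) (nat_lit 5) (nat_lit 248) (nat_lit 5) (nat_lit 471) (nat_lit 448) (nat_lit 281)) (XT.lf (nat_lit 0) (nat_lit 15325935878) (nat_lit 684) (nat_lit 148539993) (nat_lit 76) (nat_lit 9097331458) (nat_lit 239) (nat_lit 5) (nat_lit 248) (nat_lit 5) (nat_lit 240) (nat_lit 5) (nat_lit 472) (nat_lit 448) (nat_lit 280)))) (XT.nd (nat_lit 156) (nat_lit 608) (nat_lit 0) (XT.nd (nat_lit 78) (nat_lit 532) (nat_lit 0) (XT.lf (nat_lit 0) (nat_lit 13538074220) (nat_lit 532) (nat_lit 4945768517) (nat_lit 608) (nat_lit 6496537329) (nat_lit 232) (nat_lit 5) (nat_lit 239) (nat_lit 5) (nat_lit 240) (nat_lit 5) (nat_lit 473) (nat_lit 448) (nat_lit 279)) (XT.lf (nat_lit 0) (nat_lit 2218702936) (nat_lit 532) (nat_lit 19592542736) (nat_lit 608) (nat_lit 3587722543) (nat_lit 225) (nat_lit 5) (nat_lit 232) (nat_lit 5) (nat_lit 233) (nat_lit 5) (nat_lit 474) (nat_lit 448) (nat_lit 278))) (XT.nd (nat_lit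 78) (nat_lit 608) (nat_lit 0) (XT.lf (nat_lit 0) (nat_lit 16469163875) (nat_lit 532) (nat_lit 8928644678) (nat_lit 608) (nat_lit 427526287) (nat_lit 225) (nat_lit 5) (nat_lit 232) (nat_lit 5) (nat_lit 233) (nat_lit 5) (nat_lit 475) (nat_lit 448) (nat_lit 277)) (XT.lf (nat_lit 0) (nat_lit 2835743862) (nat_lit 608) (nat_lit 21335818757) (nat_lit 76) (nat_lit 2090212105) (nat_lit 217) (nat_lit 5) (nat_lit 225) (nat_lit 5) (nat_lit 218) (nat_lit 5) (nat_lit 476) (nat_lit 448) (nat_lit 276))))) (XT.nd (nat_lit 312) (nat_lit 988) (nat_lit 0) (XT.nd (nat_lit 156) (nat_lit 456) (nat_lit 0) (XT.nd (nat_lit 78) (nat_lit 532) (nat_lit 0) (XT.lf (nat_lit 0) (nat_lit 6367615379) (nat_lit 608) (nat_lit 6978728334) (nat_lit 76) (nat_lit 13359459105) (nat_lit 217) (nat_lit 5) (nat_lit 225) (nat_lit 5) (nat_lit 218) (nat_lit 5) (nat_lit 477) (nat_lit 448) (nat_lit 275)) (XT.lf (nat_lit 0) (nat_lit 7959516799) (nat_lit 532) (nat_lit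 2118048938) (nat_lit 608) (nat_lit 17083423196) (nat_lit 210) (nat_lit 5) (nat_lit 217) (nat_lit 5) (nat_lit 218) (nat_lit 5) (nat_lit 478) (nat_lit 448) (nat_lit 274))) (XT.nd (nat_lit 78) (nat_lit 456) (nat_lit 0) (XT.lf (nat_lit 0) (nat_lit 14056482425) (nat_lit 608) (nat_lit 4235213184) (nat_lit 76) (nat_lit 9333405822) (nat_lit 210) (nat_lit 5) (nat_lit 218) (nat_lit 5) (nat_lit 211) (nat_lit 5) (nat_lit 479) (nat_lit 448) (nat_lit 273)) (XT.lf (nat_lit 0) (nat_lit 11376244470) (nat_lit 456) (nat_lit 6904661313) (nat_lit 532) (nat_lit 9818448156) (nat_lit 204) (nat_lit 5) (nat_lit 210) (nat_lit 5) (nat_lit 211) (nat_lit 5) (nat_lit 480) (nat_lit 448) (nat_lit 272)))) (XT.nd (nat_lit 156) (nat_lit 532) (nat_lit 0) (XT.nd (nat_lit 78) (nat_lit 456) (nat_lit 0) (XT.lf (nat_lit 0) (nat_lit 22717506588) (nat_lit 532) (nat_lit 1095362435) (nat_lit 76) (nat_lit 4772402443) (nat_lit 204) (nat_lit 5) (nat_lit 211)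 (nat_lit 5) (nat_lit 205) (nat_lit 5) (nat_lit 481) (nat_lit 448) (nat_lit 271)) (XT.lf (nat_lit 0) (nat_lit 15225214470) (nat_lit 456) (nat_lit 12272710793) (nat_lit 532) (nat_lit 1581520423) (nat_lit 198) (nat_lit 5) (nat_lit 204) (nat_lit 5) (nat_lit 205) (nat_lit 5) (nat_lit 482) (nat_lit 448) (nat_lit 270))) (XT.nd (nat_lit 78) (nat_lit 0) (nat_lit 0) (XT.lf (nat_lit 0) (nat_lit 2486146351) (nat_lit 456) (nat_lit 322980306) (nat_lit 532) (nat_lit 26777569028) (nat_lit 191) (nat_lit 5) (nat_lit 197) (nat_lit 5) (nat_lit 198) (nat_lit 5) (nat_lit 483) (nat_lit 448) (nat_lit 269)) (XT.lf (nat_lit 0) (nat_lit 7552297985) (nat_lit 532) (nat_lit 10641320339) (nat_lit 76) (nat_lit 11907498045) (nat_lit 191) (nat_lit 5) (nat_lit 198) (nat_lit 5) (nat_lit 192) (nat_lit 5) (nat_lit 484) (nat_lit 448) (nat_lit 268)))))) (XT.nd (nat_lit 546) (nat_lit 1748) (nat_lit 0) (XT.nd (nat_lit 234) (nat_lit 836) (nat_lit 0) (XT.nd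 (nat_lit 78) (nat_lit 380) (nat_lit 0) (XT.lf (nat_lit 0) (nat_lit 6429252045) (nat_lit 456) (nat_lit 6069722451) (nat_lit 532) (nat_lit 18130159554) (nat_lit 185) (nat_lit 5) (nat_lit 191) (nat_lit 5) (nat_lit 192) (nat_lit 5) (nat_lit 485) (nat_lit 448) (nat_lit 267)) (XT.nd (nat_lit 78) (nat_lit 380) (nat_lit 0) (XT.lf (nat_lit 0) (nat_lit 17760531528) (nat_lit 532) (nat_lit 7007197951) (nat_lit 76) (nat_lit 6400269034) (nat_lit 185) (nat_lit 5) (nat_lit 192) (nat_lit 5) (nat_lit 186) (nat_lit 5) (nat_lit 486) (nat_lit 448) (nat_lit 266)) (XT.lf (nat_lit 0) (nat_lit 10848246091) (nat_lit 380) (nat_lit 12492441286) (nat_lit 456) (nat_lit 8377519610) (nat_lit 180) (nat_lit 5) (nat_lit 185) (nat_lit 5) (nat_lit 186) (nat_lit 5) (nat_lit 487) (nat_lit 448) (nat_lit 265)))) (XT.nd (nat_lit 156) (nat_lit 380) (nat_lit 0) (XT.nd (nat_lit 78) (nat_lit 456) (nat_lit 0) (XT.lf (nat_lit 0) (nat_lit 29157587823) (nat_lit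 456) (nat_lit 2906623145) (nat_lit 76) (nat_lit 218631168) (nat_lit 180) (nat_lit 5) (nat_lit 186) (nat_lit 5) (nat_lit 181) (nat_lit 5) (nat_lit 488) (nat_lit 448) (nat_lit 264)) (XT.lf (nat_lit 0) (nat_lit 2514550269) (nat_lit 456) (nat_lit 17105684194) (nat_lit 76) (nat_lit 13235287090) (nat_lit 174) (nat_lit 5) (nat_lit 180) (nat_lit 5) (nat_lit 175) (nat_lit 5) (nat_lit 489) (nat_lit 448) (nat_lit 263))) (XT.nd (nat_lit 78) (nat_lit 0) (nat_lit 0) (XT.lf (nat_lit 0) (nat_lit 1576040216) (nat_lit 380) (nat_lit 6726041384) (nat_lit 456) (nat_lit 25141131612) (nat_lit 169) (nat_lit 5) (nat_lit 174) (nat_lit 5) (nat_lit 175) (nat_lit 5) (nat_lit 490) (nat_lit 448) (nat_lit 262)) (XT.lf (nat_lit 0) (nat_lit 14497295092) (nat_lit 456) (nat_lit 12943809001) (nat_lit 76) (nat_lit 6600410394) (nat_lit 169) (nat_lit 5) (nat_lit 175) (nat_lit 5) (nat_lit 170) (nat_lit 5) (nat_lit 491) (nat_lit 448) (nat_lit 261)))))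 (XT.nd (nat_lit 312) (nat_lit 988) (nat_lit 0) (XT.nd (nat_lit 156) (nat_lit 380) (nat_lit 0) (XT.nd (nat_lit 78) (nat_lit 0) (nat_lit 0) (XT.lf (nat_lit 0) (nat_lit 6605083600) (nat_lit 380) (nat_lit 14400068600) (nat_lit 456) (nat_lit 13648809517) (nat_lit 164) (nat_lit 5) (nat_lit 169) (nat_lit 5) (nat_lit 170) (nat_lit 5) (nat_lit 492) (nat_lit 448) (nat_lit 260)) (XT.lf (nat_lit 0) (nat_lit 27001355350) (nat_lit 380) (nat_lit 834350984) (nat_lit 456) (nat_lit 7445252711) (nat_lit 164) (nat_lit 5) (nat_lit 169) (nat_lit 5) (nat_lit 170) (nat_lit 5) (nat_lit 493) (nat_lit 448) (nat_lit 259))) (XT.nd (nat_lit 78) (nat_lit 76) (nat_lit 0) (XT.lf (nat_lit 0) (nat_lit 12189946728) (nat_lit 304) (nat_lit 22921539106) (nat_lit 380) (nat_lit 808071703) (nat_lit 160) (nat_lit 5) (nat_lit 164) (nat_lit 5) (nat_lit 165) (nat_lit 5) (nat_lit 494) (nat_lit 448) (nat_lit 258)) (XT.lf (nat_lit 0) (nat_lit 6000145732) (nat_lit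 380) (nat_lit 3202932367) (nat_lit 76) (nat_lit 27369811347) (nat_lit 159) (nat_lit 5) (nat_lit 164) (nat_lit 5) (nat_lit 160) (nat_lit 5) (nat_lit 495) (nat_lit 448) (nat_lit 257)))) (XT.nd (nat_lit 156) (nat_lit 304) (nat_lit 0) (XT.nd (nat_lit 78) (nat_lit 304) (nat_lit 0) (XT.lf (nat_lit 0) (nat_lit 13218242715) (nat_lit 456) (nat_lit 19005505579) (nat_lit 76) (nat_lit 5015177227) (nat_lit 154) (nat_lit 5) (nat_lit 160) (nat_lit 5) (nat_lit 155) (nat_lit 5) (nat_lit 496) (nat_lit 448) (nat_lit 256)) (XT.lf (nat_lit 0) (nat_lit 2405745198) (nat_lit 304) (nat_lit 18391030971) (nat_lit 380) (nat_lit 17123850150) (nat_lit 150) (nat_lit 5) (nat_lit 154) (nat_lit 5) (nat_lit 155) (nat_lit 5) (nat_lit 497) (nat_lit 448) (nat_lit 255))) (XT.nd (nat_lit 78) (nat_lit 304) (nat_lit 0) (XT.lf (nat_lit 0) (nat_lit 24844662801) (nat_lit 304) (nat_lit 3946952903) (nat_lit 380) (nat_lit 9825494369) (nat_lit 150) (nat_lit 5)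 (nat_lit 154) (nat_lit 5) (nat_lit 155) (nat_lit 5) (nat_lit 498) (nat_lit 448) (nat_lit 254)) (XT.lf (nat_lit 0) (nat_lit 8682398831) (nat_lit 304) (nat_lit 28529538361) (nat_lit 380) (nat_lit 2116982468) (nat_lit 146) (nat_lit 5) (nat_lit 150) (nat_lit 5) (nat_lit 151) (nat_lit 5) (nat_lit 499) (nat_lit 448) (nat_lit 253))))))) (XT.nd (nat_lit 1170) (nat_lit 2204) (nat_lit 0) (XT.nd (nat_lit 546) (nat_lit 1140) (nat_lit 0) (XT.nd (nat_lit 234) (nat_lit 912) (nat_lit 0) (XT.nd (nat_lit 78) (nat_lit 304) (nat_lit 0) (XT.lf (nat_lit 0) (nat_lit 5885813352) (nat_lit 380) (nat_lit 8065359036) (nat_lit 76) (nat_lit 26103932819) (nat_lit 145) (nat_lit 5) (nat_lit 150) (nat_lit 5) (nat_lit 146) (nat_lit 5) (nat_lit 500) (nat_lit 448) (nat_lit 252)) (XT.nd (nat_lit 78) (nat_lit 0) (nat_lit 0) (XT.lf (nat_lit 0) (nat_lit 14243957106) (nat_lit 380) (nat_lit 25339925703) (nat_lit 76) (nat_lit 1213830691) (nat_lit 141) (nat_lit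 5) (nat_lit 146) (nat_lit 5) (nat_lit 142) (nat_lit 5) (nat_lit 501) (nat_lit 448) (nat_lit 251)) (XT.lf (nat_lit 0) (nat_lit 23070461392) (nat_lit 380) (nat_lit 1851271116) (nat_lit 76) (nat_lit 16634339423) (nat_lit 141) (nat_lit 5) (nat_lit 146) (nat_lit 5) (nat_lit 142) (nat_lit 5) (nat_lit 502) (nat_lit 448) (nat_lit 250)))) (XT.nd (nat_lit 156) (nat_lit 380) (nat_lit 0) (XT.nd (nat_lit 78) (nat_lit 228) (nat_lit 0) (XT.lf (nat_lit 0) (nat_lit 22782595554) (nat_lit 304) (nat_lit 9595481135) (nat_lit 380) (nat_lit 9952615312) (nat_lit 137) (nat_lit 5) (nat_lit 141) (nat_lit 5) (nat_lit 142) (nat_lit 5) (nat_lit 503) (nat_lit 448) (nat_lit 249)) (XT.lf (nat_lit 0) (nat_lit 5101243206) (nat_lit 228) (nat_lit 36988442993) (nat_lit 304) (nat_lit 1035121859) (nat_lit 134) (nat_lit 5) (nat_lit 137) (nat_lit 5) (nat_lit 138) (nat_lit 5) (nat_lit 504) (nat_lit 448) (nat_lit 248))) (XT.nd (nat_lit 78) (nat_lit 304)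 (nat_lit 0) (XT.lf (nat_lit 0) (nat_lit 8282574584) (nat_lit 304) (nat_lit 13225405617) (nat_lit 76) (nat_lit 22423666113) (nat_lit 133) (nat_lit 5) (nat_lit 137) (nat_lit 5) (nat_lit 134) (nat_lit 5) (nat_lit 505) (nat_lit 448) (nat_lit 247)) (XT.lf (nat_lit 0) (nat_lit 12547353109) (nat_lit 304) (nat_lit 5429689129) (nat_lit 380) (nat_lit 26781798985) (nat_lit 129) (nat_lit 5) (nat_lit 133) (nat_lit 5) (nat_lit 134) (nat_lit 5) (nat_lit 506) (nat_lit 448) (nat_lit 246))))) (XT.nd (nat_lit 312) (nat_lit 532) (nat_lit 0) (XT.nd (nat_lit 156) (nat_lit 380) (nat_lit 0) (XT.nd (nat_lit 78) (nat_lit 228) (nat_lit 0) (XT.lf (nat_lit 0) (nat_lit 28201670877) (nat_lit 380) (nat_lit 6354727816) (nat_lit 76) (nat_lit 11047273791) (nat_lit 129) (nat_lit 5) (nat_lit 134) (nat_lit 5) (nat_lit 130) (nat_lit 5) (nat_lit 507) (nat_lit 448) (nat_lit 245)) (XT.lf (nat_lit 0) (nat_lit 20622546629) (nat_lit 228) (nat_lit 18360018159)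 (nat_lit 304) (nat_lit 7483798408) (nat_lit 126) (nat_lit 5) (nat_lit 129) (nat_lit 5) (nat_lit 130) (nat_lit 5) (nat_lit 508) (nat_lit 448) (nat_lit 244))) (XT.nd (nat_lit 78) (nat_lit 0) (nat_lit 0) (XT.lf (nat_lit 0) (nat_lit 1178637400) (nat_lit 304) (nat_lit 1573680182) (nat_lit 380) (nat_lit 44599619193) (nat_lit 121) (nat_lit 5) (nat_lit 125) (nat_lit 5) (nat_lit 126) (nat_lit 5) (nat_lit 509) (nat_lit 448) (nat_lit 243)) (XT.lf (nat_lit 0) (nat_lit 13557292938) (nat_lit 380) (nat_lit 18946348286) (nat_lit 76) (nat_lit 15745847923) (nat_lit 121) (nat_lit 5) (nat_lit 126) (nat_lit 5) (nat_lit 122) (nat_lit 5) (nat_lit 510) (nat_lit 448) (nat_lit 242)))) (XT.nd (nat_lit 156) (nat_lit 304) (nat_lit 0) (XT.nd (nat_lit 78) (nat_lit 0) (nat_lit 0) (XT.lf (nat_lit 0) (nat_lit 9258731954) (nat_lit 228) (nat_lit 15529901050) (nat_lit 304) (nat_lit 24382268892) (nat_lit 118) (nat_lit 5) (nat_lit 121) (nat_lit 5) (nat_lit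 122) (nat_lit 5) (nat_lit 511) (nat_lit 448) (nat_lit 241)) (XT.lf (nat_lit 0) (nat_lit 36566555878) (nat_lit 304) (nat_lit 11440328869) (nat_lit 76) (nat_lit 2106783267) (nat_lit 118) (nat_lit 5) (nat_lit 122) (nat_lit 5) (nat_lit 119) (nat_lit 5) (nat_lit 512) (nat_lit 448) (nat_lit 240))) (XT.nd (nat_lit 78) (nat_lit 76) (nat_lit 0) (XT.lf (nat_lit 0) (nat_lit 18081053443) (nat_lit 228) (nat_lit 30942052329) (nat_lit 304) (nat_lit 2051852918) (nat_lit 115) (nat_lit 5) (nat_lit 118) (nat_lit 5) (nat_lit 119) (nat_lit 5) (nat_lit 513) (nat_lit 448) (nat_lit 239)) (XT.lf (nat_lit 0) (nat_lit 9711659127) (nat_lit 304) (nat_lit 3437952592) (nat_lit 76) (nat_lit 38909221906) (nat_lit 114) (nat_lit 5) (nat_lit 118) (nat_lit 5) (nat_lit 115) (nat_lit 5) (nat_lit 514) (nat_lit 448) (nat_lit 238)))))) (XT.nd (nat_lit 624) (nat_lit 1064) (nat_lit 0) (XT.nd (nat_lit 312) (nat_lit 456) (nat_lit 0) (XT.nd (nat_lit 156) (nat_lit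 228) (nat_lit 0) (XT.nd (nat_lit 78) (nat_lit 228) (nat_lit 0) (XT.lf (nat_lit 0) (nat_lit 22101718084) (nat_lit 304) (nat_lit 25598560946) (nat_lit 76) (nat_lit 5361890097) (nat_lit 111) (nat_lit 5) (nat_lit 115) (nat_lit 5) (nat_lit 112) (nat_lit 5) (nat_lit 515) (nat_lit 448) (nat_lit 237)) (XT.lf (nat_lit 0) (nat_lit 5236167727) (nat_lit 228) (nat_lit 29840712442) (nat_lit 304) (nat_lit 19012322711) (nat_lit 108) (nat_lit 5) (nat_lit 111) (nat_lit 5) (nat_lit 112) (nat_lit 5) (nat_lit 516) (nat_lit 448) (nat_lit 236))) (XT.nd (nat_lit 78) (nat_lit 228) (nat_lit 0) (XT.lf (nat_lit 0) (nat_lit 37517120840) (nat_lit 228) (nat_lit 11180514613) (nat_lit 304) (nat_lit 6441722264) (nat_lit 108) (nat_lit 5) (nat_lit 111) (nat_lit 5) (nat_lit 112) (nat_lit 5) (nat_lit 517) (nat_lit 448) (nat_lit 235)) (XT.lf (nat_lit 0) (nat_lit 6598172919) (nat_lit 228) (nat_lit 41526624165) (nat_lit 76) (nat_lit 8087770170) (nat_lit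 105) (nat_lit 5) (nat_lit 108) (nat_lit 5) (nat_lit 106) (nat_lit 5) (nat_lit 518) (nat_lit 448) (nat_lit 234)))) (XT.nd (nat_lit 156) (nat_lit 228) (nat_lit 0) (XT.nd (nat_lit 78) (nat_lit 228) (nat_lit 0) (XT.lf (nat_lit 0) (nat_lit 20188102754) (nat_lit 228) (nat_lit 9167783580) (nat_lit 76) (nat_lit 27951524261) (nat_lit 105) (nat_lit 5) (nat_lit 108) (nat_lit 5) (nat_lit 106) (nat_lit 5) (nat_lit 519) (nat_lit 448) (nat_lit 233)) (XT.lf (nat_lit 0) (nat_lit 24639207771) (nat_lit 228) (nat_lit 9781330969) (nat_lit 304) (nat_lit 24007516445) (nat_lit 102) (nat_lit 5) (nat_lit 105) (nat_lit 5) (nat_lit 106) (nat_lit 5) (nat_lit 520) (nat_lit 448) (nat_lit 232))) (XT.nd (nat_lit 78) (nat_lit 228) (nat_lit 0) (XT.lf (nat_lit 0) (nat_lit 49271199234) (nat_lit 304) (nat_lit 35330379) (nat_lit 76) (nat_lit 10270052146) (nat_lit 102) (nat_lit 5) (nat_lit 106) (nat_lit 5) (nat_lit 103) (nat_lit 5) (nat_lit 521) (nat_lit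 448) (nat_lit 231)) (XT.lf (nat_lit 0) (nat_lit 4172206540) (nat_lit 228) (nat_lit 25467600152) (nat_lit 76) (nat_lit 31105498667) (nat_lit 99) (nat_lit 5) (nat_lit 102) (nat_lit 5) (nat_lit 100) (nat_lit 5) (nat_lit 522) (nat_lit 448) (nat_lit 230))))) (XT.nd (nat_lit 312) (nat_lit 608) (nat_lit 0) (XT.nd (nat_lit 156) (nat_lit 228) (nat_lit 0) (XT.nd (nat_lit 78) (nat_lit 0) (nat_lit 0) (XT.lf (nat_lit 0) (nat_lit 9787391608) (nat_lit 228) (nat_lit 9182086412) (nat_lit 304) (nat_lit 42973777335) (nat_lit 96) (nat_lit 5) (nat_lit 99) (nat_lit 5) (nat_lit 100) (nat_lit 5) (nat_lit 523) (nat_lit 448) (nat_lit 229)) (XT.lf (nat_lit 0) (nat_lit 34582726821) (nat_lit 304) (nat_lit 16667515967) (nat_lit 76) (nat_lit 11915739456) (nat_lit 96) (nat_lit 5) (nat_lit 100) (nat_lit 5) (nat_lit 97) (nat_lit 5) (nat_lit 524) (nat_lit 448) (nat_lit 228))) (XT.nd (nat_lit 78) (nat_lit 76) (nat_lit 0) (XT.lf (nat_lit 0) (nat_lit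 20185206944) (nat_lit 152) (nat_lit 30762219409) (nat_lit 228) (nat_lit 13469473153) (nat_lit 94) (nat_lit 5) (nat_lit 96) (nat_lit 5) (nat_lit 97) (nat_lit 5) (nat_lit 525) (nat_lit 448) (nat_lit 227)) (XT.lf (nat_lit 0) (nat_lit 2224878590) (nat_lit 228) (nat_lit 7240202218) (nat_lit 76) (nat_lit 56234615991) (nat_lit 93) (nat_lit 5) (nat_lit 96) (nat_lit 5) (nat_lit 94) (nat_lit 5) (nat_lit 526) (nat_lit 448) (nat_lit 226)))) (XT.nd (nat_lit 156) (nat_lit 228) (nat_lit 0) (XT.nd (nat_lit 78) (nat_lit 152) (nat_lit 0) (XT.lf (nat_lit 0) (nat_lit 18542896513) (nat_lit 304) (nat_lit 35796175161) (nat_lit 76) (nat_lit 12665198892) (nat_lit 90) (nat_lit 5) (nat_lit 94) (nat_lit 5) (nat_lit 91) (nat_lit 5) (nat_lit 527) (nat_lit 448) (nat_lit 225)) (XT.lf (nat_lit 0) (nat_lit 2564912627) (nat_lit 152) (nat_lit 32975927165) (nat_lit 228) (nat_lit 32801430356) (nat_lit 88) (nat_lit 5) (nat_lit 90) (nat_lit 5) (nat_lit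 91) (nat_lit 5) (nat_lit 528) (nat_lit 448) (nat_lit 224))) (XT.nd (nat_lit 78) (nat_lit 228) (nat_lit 0) (XT.lf (nat_lit 0) (nat_lit 42807479319) (nat_lit 152) (nat_lit 10600915970) (nat_lit 228) (nat_lit 16301224352) (nat_lit 88) (nat_lit 5) (nat_lit 90) (nat_lit 5) (nat_lit 91) (nat_lit 5) (nat_lit 529) (nat_lit 448) (nat_lit 223)) (XT.lf (nat_lit 0) (nat_lit 928364750) (nat_lit 228) (nat_lit 57844058200) (nat_lit 76) (nat_lit 12337929096) (nat_lit 85) (nat_lit 5) (nat_lit 88) (nat_lit 5) (nat_lit 86) (nat_lit 5) (nat_lit 530) (nat_lit 448) (nat_lit 222))))))))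
noncomputable def xc198 : XT := (XT.nd (nat_lit 57174) (nat_lit 0) (nat_lit 7524) (XT.nd (nat_lit 1170) (nat_lit 76) (nat_lit 0) (XT.nd (nat_lit 546) (nat_lit 760) (nat_lit 0) (XT.nd (nat_lit 234) (nat_lit 532) (nat_lit 0) (XT.nd (nat_lit 78) (nat_lit 152) (nat_lit 0) (XT.lf (nat_lit 0) (nat_lit 18724758206) (nat_lit 228) (nat_lit 17625849084) (nat_lit 76) (nat_lit 36186330662) (nat_lit 85) (nat_lit 5) (nat_lit 88) (nat_lit 5) (nat_lit 86) (nat_lit 5) (nat_lit 531) (nat_lit 448) (nat_lit 221)) (XT.nd (nat_lit 78) (nat_lit 0) (nat_lit 0) (XT.lf (nat_lit 0) (nat_lit 24269488081) (nat_lit 152) (nat_lit 13017146634) (nat_lit 228) (nat_lit 36712739109) (nat_lit 83) (nat_lit 5) (nat_lit 85) (nat_lit 5) (nat_lit 86) (nat_lit 5) (nat_lit 532) (nat_lit 448) (nat_lit 220)) (XT.lf (nat_lit 0) (nat_lit 56689318501) (nat_lit 228) (nat_lit 7828015045) (nat_lit 76) (nat_lit 10979830818) (nat_lit 83) (nat_lit 5) (nat_lit 86) (nat_lit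 5) (nat_lit 84) (nat_lit 5) (nat_lit 533) (nat_lit 448) (nat_lit 219)))) (XT.nd (nat_lit 156) (nat_lit 152) (nat_lit 0) (XT.nd (nat_lit 78) (nat_lit 152) (nat_lit 0) (XT.lf (nat_lit 0) (nat_lit 118336627) (nat_lit 228) (nat_lit 41127243028) (nat_lit 76) (nat_lit 35780104443) (nat_lit 80) (nat_lit 5) (nat_lit 83) (nat_lit 5) (nat_lit 81) (nat_lit 5) (nat_lit 534) (nat_lit 448) (nat_lit 218)) (XT.lf (nat_lit 0) (nat_lit 2355506596) (nat_lit 152) (nat_lit 16979611556) (nat_lit 228) (nat_lit 59256329916) (nat_lit 78) (nat_lit 5) (nat_lit 80) (nat_lit 5) (nat_lit 81) (nat_lit 5) (nat_lit 535) (nat_lit 448) (nat_lit 217))) (XT.nd (nat_lit 78) (nat_lit 152) (nat_lit 0) (XT.lf (nat_lit 0) (nat_lit 39623225677) (nat_lit 228) (nat_lit 32290005667) (nat_lit 76) (nat_lit 8276109045) (nat_lit 78) (nat_lit 5) (nat_lit 81) (nat_lit 5) (nat_lit 79) (nat_lit 5) (nat_lit 536) (nat_lit 448) (nat_lit 216)) (XT.lf (nat_lit 0) (nat_lit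 13058154295) (nat_lit 152) (nat_lit 47753875033) (nat_lit 228) (nat_lit 21014378670) (nat_lit 76) (nat_lit 5) (nat_lit 78) (nat_lit 5) (nat_lit 79) (nat_lit 5) (nat_lit 537) (nat_lit 448) (nat_lit 215))))) (XT.nd (nat_lit 312) (nat_lit 380) (nat_lit 0) (XT.nd (nat_lit 156) (nat_lit 152) (nat_lit 0) (XT.nd (nat_lit 78) (nat_lit 228) (nat_lit 0) (XT.lf (nat_lit 0) (nat_lit 60425849887) (nat_lit 152) (nat_lit 22535146948) (nat_lit 228) (nat_lit 541855911) (nat_lit 76) (nat_lit 5) (nat_lit 78) (nat_lit 5) (nat_lit 79) (nat_lit 5) (nat_lit 538) (nat_lit 448) (nat_lit 214)) (XT.lf (nat_lit 0) (nat_lit 20412907666) (nat_lit 228) (nat_lit 60995950271) (nat_lit 76) (nat_lit 3806739236) (nat_lit 73) (nat_lit 5) (nat_lit 76) (nat_lit 5) (nat_lit 74) (nat_lit 5) (nat_lit 539) (nat_lit 448) (nat_lit 213))) (XT.nd (nat_lit 78) (nat_lit 152) (nat_lit 0) (XT.lf (nat_lit 0) (nat_lit 42442354401) (nat_lit 228) (nat_lit 13798051020)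 (nat_lit 76) (nat_lit 30725449727) (nat_lit 73) (nat_lit 5) (nat_lit 76) (nat_lit 5) (nat_lit 74) (nat_lit 5) (nat_lit 540) (nat_lit 448) (nat_lit 212)) (XT.lf (nat_lit 0) (nat_lit 35505937109) (nat_lit 152) (nat_lit 29966567769) (nat_lit 228) (nat_lit 23285921466) (nat_lit 71) (nat_lit 5) (nat_lit 73) (nat_lit 5) (nat_lit 74) (nat_lit 5) (nat_lit 541) (nat_lit 448) (nat_lit 211)))) (XT.nd (nat_lit 156) (nat_lit 152) (nat_lit 0) (XT.nd (nat_lit 78) (nat_lit 228) (nat_lit 0) (XT.lf (nat_lit 0) (nat_lit 86569221022) (nat_lit 152) (nat_lit 2762205228) (nat_lit 228) (nat_lit 1269212523) (nat_lit 71) (nat_lit 5) (nat_lit 73) (nat_lit 5) (nat_lit 74) (nat_lit 5) (nat_lit 542) (nat_lit 448) (nat_lit 210)) (XT.lf (nat_lit 0) (nat_lit 21693615430) (nat_lit 228) (nat_lit 45345176303) (nat_lit 76) (nat_lit 25432051375) (nat_lit 68) (nat_lit 5) (nat_lit 71) (nat_lit 5) (nat_lit 69) (nat_lit 5) (nat_lit 543) (nat_lit 448) (nat_lit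 209))) (XT.nd (nat_lit 78) (nat_lit 0) (nat_lit 0) (XT.lf (nat_lit 0) (nat_lit 5569915701) (nat_lit 152) (nat_lit 39870472404) (nat_lit 228) (nat_lit 48952771462) (nat_lit 66) (nat_lit 5) (nat_lit 68) (nat_lit 5) (nat_lit 69) (nat_lit 5) (nat_lit 544) (nat_lit 448) (nat_lit 208)) (XT.lf (nat_lit 0) (nat_lit 58939390833) (nat_lit 152) (nat_lit 11416654534) (nat_lit 228) (nat_lit 26003405788) (nat_lit 66) (nat_lit 5) (nat_lit 68) (nat_lit 5) (nat_lit 69) (nat_lit 5) (nat_lit 545) (nat_lit 448) (nat_lit 207)))))) (XT.nd (nat_lit 55380) (nat_lit 0) (nat_lit 16112) (XT.nd (nat_lit 55068) (nat_lit 0) (nat_lit 15960) (XT.nd (nat_lit 54912) (nat_lit 0) (nat_lit 15884) (XT.lf (nat_lit 0) (nat_lit 15656194593) (nat_lit 76) (nat_lit 80684065993) (nat_lit 152) (nat_lit 2034838333) (nat_lit 65) (nat_lit 5) (nat_lit 66) (nat_lit 5) (nat_lit 67) (nat_lit 4) (nat_lit 546) (nat_lit 448) (nat_lit 206)) (XT.nd (nat_lit 78) (nat_lit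 0) (nat_lit 0) (XT.lf (nat_lit 0) (nat_lit 1070577273) (nat_lit 1292) (nat_lit 3826979293) (nat_lit 1292) (nat_lit 3826979293) (nat_lit 274) (nat_lit 3) (nat_lit 291) (nat_lit 3) (nat_lit 291) (nat_lit 5) (nat_lit 449) (nat_lit 449) (nat_lit 302)) (XT.lf (nat_lit 76) (nat_lit 914185018) (nat_lit 0) (nat_lit 1484348765) (nat_lit 1292) (nat_lit 15305465794) (nat_lit 275) (nat_lit 5) (nat_lit 274) (nat_lit 3) (nat_lit 291) (nat_lit 5) (nat_lit 450) (nat_lit 449) (nat_lit 301)))) (XT.nd (nat_lit 156) (nat_lit 0) (nat_lit 76) (XT.nd (nat_lit 78) (nat_lit 0) (nat_lit 0) (XT.lf (nat_lit 0) (nat_lit 2801253853) (nat_lit 1216) (nat_lit 8141500728) (nat_lit 1292) (nat_lit 7019694069) (nat_lit 275) (nat_lit 5) (nat_lit 291) (nat_lit 5) (nat_lit 292) (nat_lit 5) (nat_lit 451) (nat_lit 449) (nat_lit 300)) (XT.lf (nat_lit 76) (nat_lit 761835881) (nat_lit 0) (nat_lit 2468033482) (nat_lit 1292) (nat_lit 14998369325) (nat_lit 276)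 (nat_lit 5) (nat_lit 275) (nat_lit 5) (nat_lit 292) (nat_lit 5) (nat_lit 452) (nat_lit 449) (nat_lit 299))) (XT.nd (nat_lit 78) (nat_lit 0) (nat_lit 0) (XT.lf (nat_lit 0) (nat_lit 3806577004) (nat_lit 1216) (nat_lit 8466195174) (nat_lit 1292) (nat_lit 6225175093) (nat_lit 276) (nat_lit 5) (nat_lit 292) (nat_lit 5) (nat_lit 293) (nat_lit 5) (nat_lit 453) (nat_lit 449) (nat_lit 298)) (XT.lf (nat_lit 76) (nat_lit 790318616) (nat_lit 0) (nat_lit 3634555205) (nat_lit 1292) (nat_lit 14350146449) (nat_lit 277) (nat_lit 5) (nat_lit 276) (nat_lit 5) (nat_lit 293) (nat_lit 5) (nat_lit 454) (nat_lit 449) (nat_lit 297))))) (XT.nd (nat_lit 312) (nat_lit 0) (nat_lit 152) (XT.nd (nat_lit 156) (nat_lit 0) (nat_lit 76) (XT.nd (nat_lit 78) (nat_lit 0) (nat_lit 0) (XT.lf (nat_lit 0) (nat_lit 5191111339) (nat_lit 1216) (nat_lit 8616096860) (nat_lit 1292) (nat_lit 5249317254) (nat_lit 277) (nat_lit 5) (nat_lit 293) (nat_lit 5) (nat_lit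 294) (nat_lit 5) (nat_lit 455) (nat_lit 449) (nat_lit 296)) (XT.lf (nat_lit 76) (nat_lit 1012585304) (nat_lit 0) (nat_lit 5006153490) (nat_lit 1292) (nat_lit 13326586606) (nat_lit 278) (nat_lit 5) (nat_lit 277) (nat_lit 5) (nat_lit 294) (nat_lit 5) (nat_lit 456) (nat_lit 449) (nat_lit 295))) (XT.nd (nat_lit 78) (nat_lit 0) (nat_lit 0) (XT.lf (nat_lit 0) (nat_lit 6990953989) (nat_lit 1216) (nat_lit 8578255317) (nat_lit 1292) (nat_lit 4069988921) (nat_lit 278) (nat_lit 5) (nat_lit 294) (nat_lit 5) (nat_lit 295) (nat_lit 5) (nat_lit 457) (nat_lit 449) (nat_lit 294)) (XT.lf (nat_lit 76) (nat_lit 1442646225) (nat_lit 0) (nat_lit 6606205258) (nat_lit 1292) (nat_lit 11891341878) (nat_lit 279) (nat_lit 5) (nat_lit 278) (nat_lit 5) (nat_lit 295) (nat_lit 5) (nat_lit 458) (nat_lit 449) (nat_lit 293)))) (XT.nd (nat_lit 156) (nat_lit 0) (nat_lit 76) (XT.nd (nat_lit 78) (nat_lit 0) (nat_lit 0) (XT.lf (nat_lit 0) (nat_lit 9244464267)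 (nat_lit 1216) (nat_lit 8338676119) (nat_lit 1292) (nat_lit 2663900163) (nat_lit 279) (nat_lit 5) (nat_lit 295) (nat_lit 5) (nat_lit 296) (nat_lit 5) (nat_lit 459) (nat_lit 449) (nat_lit 292)) (XT.lf (nat_lit 76) (nat_lit 2095611290) (nat_lit 0) (nat_lit 8459340217) (nat_lit 1292) (nat_lit 10005772969) (nat_lit 280) (nat_lit 5) (nat_lit 279) (nat_lit 5) (nat_lit 296) (nat_lit 5) (nat_lit 460) (nat_lit 449) (nat_lit 291))) (XT.nd (nat_lit 78) (nat_lit 0) (nat_lit 0) (XT.lf (nat_lit 0) (nat_lit 11992423622) (nat_lit 1216) (nat_lit 7882279109) (nat_lit 1292) (nat_lit 1006487547) (nat_lit 280) (nat_lit 5) (nat_lit 296) (nat_lit 5) (nat_lit 297) (nat_lit 5) (nat_lit 461) (nat_lit 449) (nat_lit 290)) (XT.lf (nat_lit 76) (nat_lit 2987734823) (nat_lit 0) (nat_lit 10591560824) (nat_lit 1292) (nat_lit 7628787553) (nat_lit 281) (nat_lit 5) (nat_lit 280) (nat_lit 5) (nat_lit 297) (nat_lit 5) (nat_lit 462) (nat_lit 449) (nat_lit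 289))))))) (XT.nd (nat_lit 1170) (nat_lit 4028) (nat_lit 0) (XT.nd (nat_lit 546) (nat_lit 2888) (nat_lit 0) (XT.nd (nat_lit 234) (nat_lit 1900) (nat_lit 0) (XT.nd (nat_lit 78) (nat_lit 0) (nat_lit 76) (XT.lf (nat_lit 76) (nat_lit 14340624933) (nat_lit 0) (nat_lit 946678845) (nat_lit 1292) (nat_lit 6255274612) (nat_lit 281) (nat_lit 5) (nat_lit 280) (nat_lit 5) (nat_lit 297) (nat_lit 5) (nat_lit 463) (nat_lit 449) (nat_lit 288)) (XT.nd (nat_lit 78) (nat_lit 0) (nat_lit 0) (XT.lf (nat_lit 76) (nat_lit 4136463667) (nat_lit 0) (nat_lit 13030367362) (nat_lit 1292) (nat_lit 4716670379) (nat_lit 282) (nat_lit 5) (nat_lit 281) (nat_lit 5) (nat_lit 298) (nat_lit 5) (nat_lit 464) (nat_lit 449) (nat_lit 287)) (XT.lf (nat_lit 76) (nat_lit 15948301148) (nat_lit 0) (nat_lit 3230697541) (nat_lit 1292) (nat_lit 3053367090) (nat_lit 282) (nat_lit 5) (nat_lit 281) (nat_lit 5) (nat_lit 298) (nat_lit 5) (nat_lit 465) (nat_lit 449)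 (nat_lit 286)))) (XT.nd (nat_lit 156) (nat_lit 760) (nat_lit 0) (XT.nd (nat_lit 78) (nat_lit 76) (nat_lit 0) (XT.lf (nat_lit 0) (nat_lit 5560488629) (nat_lit 1216) (nat_lit 15804888751) (nat_lit 1292) (nat_lit 1222904582) (nat_lit 266) (nat_lit 5) (nat_lit 282) (nat_lit 5) (nat_lit 283) (nat_lit 5) (nat_lit 466) (nat_lit 449) (nat_lit 285)) (XT.lf (nat_lit 0) (nat_lit 740101948) (nat_lit 1292) (nat_lit 5107666423) (nat_lit 76) (nat_lit 17104200684) (nat_lit 265) (nat_lit 5) (nat_lit 282) (nat_lit 5) (nat_lit 266) (nat_lit 5) (nat_lit 467) (nat_lit 449) (nat_lit 284))) (XT.nd (nat_lit 78) (nat_lit 0) (nat_lit 0) (XT.lf (nat_lit 0) (nat_lit 2845387635) (nat_lit 836) (nat_lit 16071899227) (nat_lit 76) (nat_lit 4405678773) (nat_lit 255) (nat_lit 5) (nat_lit 266) (nat_lit 5) (nat_lit 256) (nat_lit 5) (nat_lit 468) (nat_lit 449) (nat_lit 283)) (XT.lf (nat_lit 0) (nat_lit 5118580198) (nat_lit 836) (nat_lit 3681571317)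 (nat_lit 76) (nat_lit 14901799267) (nat_lit 255) (nat_lit 5) (nat_lit 266) (nat_lit 5) (nat_lit 256) (nat_lit 5) (nat_lit 469) (nat_lit 449) (nat_lit 282))))) (XT.nd (nat_lit 312) (nat_lit 1140) (nat_lit 0) (XT.nd (nat_lit 156) (nat_lit 1140) (nat_lit 0) (XT.nd (nat_lit 78) (nat_lit 0) (nat_lit 0) (XT.lf (nat_lit 0) (nat_lit 7560321891) (nat_lit 684) (nat_lit 14849898524) (nat_lit 76) (nat_lit 1679075557) (nat_lit 247) (nat_lit 5) (nat_lit 256) (nat_lit 5) (nat_lit 248) (nat_lit 5) (nat_lit 470) (nat_lit 449) (nat_lit 281)) (XT.lf (nat_lit 0) (nat_lit 10195010717) (nat_lit 684) (nat_lit 1956025913) (nat_lit 76) (nat_lit 12333635098) (nat_lit 247) (nat_lit 5) (nat_lit 256) (nat_lit 5) (nat_lit 248) (nat_lit 5) (nat_lit 471) (nat_lit 449) (nat_lit 280))) (XT.nd (nat_lit 78) (nat_lit 532) (nat_lit 0) (XT.lf (nat_lit 0) (nat_lit 11545248097) (nat_lit 608) (nat_lit 1469637078) (nat_lit 684) (nat_lit 11873840259) (nat_lit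 239) (nat_lit 5) (nat_lit 247) (nat_lit 5) (nat_lit 248) (nat_lit 5) (nat_lit 472) (nat_lit 449) (nat_lit 279)) (XT.lf (nat_lit 0) (nat_lit 92527374) (nat_lit 532) (nat_lit 15934556704) (nat_lit 608) (nat_lit 9274585822) (nat_lit 232) (nat_lit 5) (nat_lit 239) (nat_lit 5) (nat_lit 240) (nat_lit 5) (nat_lit 473) (nat_lit 449) (nat_lit 278)))) (XT.nd (nat_lit 156) (nat_lit 608) (nat_lit 0) (XT.nd (nat_lit 78) (nat_lit 532) (nat_lit 0) (XT.lf (nat_lit 0) (nat_lit 14185545079) (nat_lit 532) (nat_lit 5088609141) (nat_lit 608) (nat_lit 6448514289) (nat_lit 232) (nat_lit 5) (nat_lit 239) (nat_lit 5) (nat_lit 240) (nat_lit 5) (nat_lit 474) (nat_lit 449) (nat_lit 277)) (XT.lf (nat_lit 0) (nat_lit 2531227158) (nat_lit 532) (nat_lit 20165700215) (nat_lit 608) (nat_lit 3457021914) (nat_lit 225) (nat_lit 5) (nat_lit 232) (nat_lit 5) (nat_lit 233) (nat_lit 5) (nat_lit 475) (nat_lit 449) (nat_lit 276))) (XT.nd (nat_lit 78) (nat_lit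 608) (nat_lit 0) (XT.lf (nat_lit 0) (nat_lit 17202037949) (nat_lit 532) (nat_lit 9182311006) (nat_lit 608) (nat_lit 208961488) (nat_lit 225) (nat_lit 5) (nat_lit 232) (nat_lit 5) (nat_lit 233) (nat_lit 5) (nat_lit 476) (nat_lit 449) (nat_lit 275)) (XT.lf (nat_lit 0) (nat_lit 3143576640) (nat_lit 608) (nat_lit 21728375524) (nat_lit 76) (nat_lit 2170949385) (nat_lit 217) (nat_lit 5) (nat_lit 225) (nat_lit 5) (nat_lit 218) (nat_lit 5) (nat_lit 477) (nat_lit 449) (nat_lit 274)))))) (XT.nd (nat_lit 624) (nat_lit 2052) (nat_lit 0) (XT.nd (nat_lit 312) (nat_lit 988) (nat_lit 0) (XT.nd (nat_lit 156) (nat_lit 456) (nat_lit 0) (XT.nd (nat_lit 78) (nat_lit 532) (nat_lit 0) (XT.lf (nat_lit 0) (nat_lit 6774916134) (nat_lit 608) (nat_lit 6947781645) (nat_lit 76) (nat_lit 13777748622) (nat_lit 217) (nat_lit 5) (nat_lit 225) (nat_lit 5) (nat_lit 218) (nat_lit 5) (nat_lit 478) (nat_lit 449) (nat_lit 273)) (XT.lf (nat_lit 0) (nat_lit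 8436254876) (nat_lit 532) (nat_lit 2155898279) (nat_lit 608) (nat_lit 17377256533) (nat_lit 210) (nat_lit 5) (nat_lit 217) (nat_lit 5) (nat_lit 218) (nat_lit 5) (nat_lit 479) (nat_lit 449) (nat_lit 272))) (XT.nd (nat_lit 78) (nat_lit 456) (nat_lit 0) (XT.lf (nat_lit 0) (nat_lit 14684494776) (nat_lit 608) (nat_lit 4125265194) (nat_lit 76) (nat_lit 9637865065) (nat_lit 210) (nat_lit 5) (nat_lit 218) (nat_lit 5) (nat_lit 211) (nat_lit 5) (nat_lit 480) (nat_lit 449) (nat_lit 271)) (XT.lf (nat_lit 0) (nat_lit 11952212616) (nat_lit 456) (nat_lit 7079684855) (nat_lit 532) (nat_lit 9904321410) (nat_lit 204) (nat_lit 5) (nat_lit 210) (nat_lit 5) (nat_lit 211) (nat_lit 5) (nat_lit 481) (nat_lit 449) (nat_lit 270)))) (XT.nd (nat_lit 156) (nat_lit 532) (nat_lit 0) (XT.nd (nat_lit 78) (nat_lit 456) (nat_lit 0) (XT.lf (nat_lit 0) (nat_lit 23595996093) (nat_lit 532) (nat_lit 894740040) (nat_lit 76) (nat_lit 4946146937) (nat_lit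 204) (nat_lit 5) (nat_lit 211) (nat_lit 5) (nat_lit 205) (nat_lit 5) (nat_lit 482) (nat_lit 449) (nat_lit 269)) (XT.lf (nat_lit 0) (nat_lit 15913165121) (nat_lit 456) (nat_lit 12603147764) (nat_lit 532) (nat_lit 1429676160) (nat_lit 198) (nat_lit 5) (nat_lit 204) (nat_lit 5) (nat_lit 205) (nat_lit 5) (nat_lit 483) (nat_lit 449) (nat_lit 268))) (XT.nd (nat_lit 78) (nat_lit 0) (nat_lit 0) (XT.lf (nat_lit 0) (nat_lit 2793544190) (nat_lit 456) (nat_lit 291803932) (nat_lit 532) (nat_lit 27383155583) (nat_lit 191) (nat_lit 5) (nat_lit 197) (nat_lit 5) (nat_lit 198) (nat_lit 5) (nat_lit 484) (nat_lit 449) (nat_lit 267)) (XT.lf (nat_lit 0) (nat_lit 7965605266) (nat_lit 532) (nat_lit 10729284735) (nat_lit 76) (nat_lit 12303624291) (nat_lit 191) (nat_lit 5) (nat_lit 198) (nat_lit 5) (nat_lit 192) (nat_lit 5) (nat_lit 485) (nat_lit 449) (nat_lit 266))))) (XT.nd (nat_lit 312) (nat_lit 1216) (nat_lit 0) (XT.nd (nat_lit 156)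 (nat_lit 380) (nat_lit 0) (XT.nd (nat_lit 78) (nat_lit 0) (nat_lit 0) (XT.lf (nat_lit 0) (nat_lit 6851137417) (nat_lit 456) (nat_lit 6206307038) (nat_lit 532) (nat_lit 18485026151) (nat_lit 185) (nat_lit 5) (nat_lit 191) (nat_lit 5) (nat_lit 192) (nat_lit 5) (nat_lit 486) (nat_lit 449) (nat_lit 265)) (XT.lf (nat_lit 0) (nat_lit 18471928218) (nat_lit 532) (nat_lit 6990124730) (nat_lit 76) (nat_lit 6635596599) (nat_lit 185) (nat_lit 5) (nat_lit 192) (nat_lit 5) (nat_lit 186) (nat_lit 5) (nat_lit 487) (nat_lit 449) (nat_lit 264))) (XT.nd (nat_lit 78) (nat_lit 0) (nat_lit 0) (XT.lf (nat_lit 0) (nat_lit 11398754308) (nat_lit 380) (nat_lit 12817696476) (nat_lit 456) (nat_lit 8448005548) (nat_lit 180) (nat_lit 5) (nat_lit 185) (nat_lit 5) (nat_lit 186) (nat_lit 5) (nat_lit 488) (nat_lit 449) (nat_lit 263)) (XT.lf (nat_lit 0) (nat_lit 30203207481) (nat_lit 456) (nat_lit 2770635722) (nat_lit 76) (nat_lit 272327747) (nat_lit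 180) (nat_lit 5) (nat_lit 186) (nat_lit 5) (nat_lit 181) (nat_lit 5) (nat_lit 489) (nat_lit 449) (nat_lit 262)))) (XT.nd (nat_lit 156) (nat_lit 380) (nat_lit 0) (XT.nd (nat_lit 78) (nat_lit 380) (nat_lit 0) (XT.lf (nat_lit 0) (nat_lit 2759717746) (nat_lit 456) (nat_lit 17394450736) (nat_lit 76) (nat_lit 13681898802) (nat_lit 174) (nat_lit 5) (nat_lit 180) (nat_lit 5) (nat_lit 175) (nat_lit 5) (nat_lit 490) (nat_lit 449) (nat_lit 261)) (XT.lf (nat_lit 0) (nat_lit 1845525367) (nat_lit 380) (nat_lit 6872541989) (nat_lit 456) (nat_lit 25723407382) (nat_lit 169) (nat_lit 5) (nat_lit 174) (nat_lit 5) (nat_lit 175) (nat_lit 5) (nat_lit 491) (nat_lit 449) (nat_lit 260))) (XT.nd (nat_lit 78) (nat_lit 380) (nat_lit 0) (XT.lf (nat_lit 0) (nat_lit 15094791323) (nat_lit 456) (nat_lit 13112018976) (nat_lit 76) (nat_lit 6851045921) (nat_lit 169) (nat_lit 5) (nat_lit 175) (nat_lit 5) (nat_lit 170) (nat_lit 5) (nat_lit 492) (nat_lit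 449) (nat_lit 259)) (XT.lf (nat_lit 0) (nat_lit 7021182518) (nat_lit 380) (nat_lit 14774061397) (nat_lit 456) (nat_lit 13893512928) (nat_lit 164) (nat_lit 5) (nat_lit 169) (nat_lit 5) (nat_lit 170) (nat_lit 5) (nat_lit 493) (nat_lit 449) (nat_lit 258))))))))
noncomputable def xc199 : XT := (XT.nd (nat_lit 2340) (nat_lit 2508) (nat_lit 0) (XT.nd (nat_lit 1170) (nat_lit 2280) (nat_lit 0) (XT.nd (nat_lit 546) (nat_lit 1292) (nat_lit 0) (XT.nd (nat_lit 234) (nat_lit 988) (nat_lit 0) (XT.nd (nat_lit 78) (nat_lit 380) (nat_lit 0) (XT.lf (nat_lit 0) (nat_lit 28022994467) (nat_lit 380) (nat_lit 803061843) (nat_lit 456) (nat_lit 7508648278) (nat_lit 164) (nat_lit 5) (nat_lit 169) (nat_lit 5) (nat_lit 170) (nat_lit 5) (nat_lit 494) (nat_lit 449) (nat_lit 257)) (XT.nd (nat_lit 78) (nat_lit 76) (nat_lit 0) (XT.lf (nat_lit 0) (nat_lit 12769270335) (nat_lit 304) (nat_lit 23548895283) (nat_lit 380) (nat_lit 674354447) (nat_lit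 160) (nat_lit 5) (nat_lit 164) (nat_lit 5) (nat_lit 165) (nat_lit 5) (nat_lit 495) (nat_lit 449) (nat_lit 256)) (XT.lf (nat_lit 0) (nat_lit 6330516172) (nat_lit 380) (nat_lit 3088601891) (nat_lit 76) (nat_lit 28246424329) (nat_lit 159) (nat_lit 5) (nat_lit 164) (nat_lit 5) (nat_lit 160) (nat_lit 5) (nat_lit 496) (nat_lit 449) (nat_lit 255)))) (XT.nd (nat_lit 156) (nat_lit 304) (nat_lit 0) (XT.nd (nat_lit 78) (nat_lit 304) (nat_lit 0) (XT.lf (nat_lit 0) (nat_lit 13763359588) (nat_lit 456) (nat_lit 19363433730) (nat_lit 76) (nat_lit 5224820788) (nat_lit 154) (nat_lit 5) (nat_lit 160) (nat_lit 5) (nat_lit 155) (nat_lit 5) (nat_lit 497) (nat_lit 449) (nat_lit 254)) (XT.lf (nat_lit 0) (nat_lit 2688073815) (nat_lit 304) (nat_lit 18878868111) (nat_lit 380) (nat_lit 17486893859) (nat_lit 150) (nat_lit 5) (nat_lit 154) (nat_lit 5) (nat_lit 155) (nat_lit 5) (nat_lit 498) (nat_lit 449) (nat_lit 253))) (XT.nd (nat_lit 78)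 (nat_lit 304) (nat_lit 0) (XT.lf (nat_lit 0) (nat_lit 25794037890) (nat_lit 304) (nat_lit 4003328686) (nat_lit 380) (nat_lit 9973975904) (nat_lit 150) (nat_lit 5) (nat_lit 154) (nat_lit 5) (nat_lit 155) (nat_lit 5) (nat_lit 499) (nat_lit 449) (nat_lit 252)) (XT.lf (nat_lit 0) (nat_lit 9148554132) (nat_lit 304) (nat_lit 29320163668) (nat_lit 380) (nat_lit 2035836558) (nat_lit 146) (nat_lit 5) (nat_lit 150) (nat_lit 5) (nat_lit 151) (nat_lit 5) (nat_lit 500) (nat_lit 449) (nat_lit 251))))) (XT.nd (nat_lit 312) (nat_lit 608) (nat_lit 0) (XT.nd (nat_lit 156) (nat_lit 304) (nat_lit 0) (XT.nd (nat_lit 78) (nat_lit 304) (nat_lit 0) (XT.lf (nat_lit 0) (nat_lit 6200089341) (nat_lit 380) (nat_lit 8104867659) (nat_lit 76) (nat_lit 26947651257) (nat_lit 145) (nat_lit 5) (nat_lit 150) (nat_lit 5) (nat_lit 146) (nat_lit 5) (nat_lit 501) (nat_lit 449) (nat_lit 250)) (XT.lf (nat_lit 0) (nat_lit 14807517069) (nat_lit 380) (nat_lit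 25896192485) (nat_lit 76) (nat_lit 1313829610) (nat_lit 141) (nat_lit 5) (nat_lit 146) (nat_lit 5) (nat_lit 142) (nat_lit 5) (nat_lit 502) (nat_lit 449) (nat_lit 249))) (XT.nd (nat_lit 78) (nat_lit 304) (nat_lit 0) (XT.lf (nat_lit 0) (nat_lit 23894848292) (nat_lit 380) (nat_lit 1708817998) (nat_lit 76) (nat_lit 17195101643) (nat_lit 141) (nat_lit 5) (nat_lit 146) (nat_lit 5) (nat_lit 142) (nat_lit 5) (nat_lit 503) (nat_lit 449) (nat_lit 248)) (XT.lf (nat_lit 0) (nat_lit 23662123582) (nat_lit 304) (nat_lit 9817600408) (nat_lit 380) (nat_lit 10116962183) (nat_lit 137) (nat_lit 5) (nat_lit 141) (nat_lit 5) (nat_lit 142) (nat_lit 5) (nat_lit 504) (nat_lit 449) (nat_lit 247)))) (XT.nd (nat_lit 156) (nat_lit 304) (nat_lit 0) (XT.nd (nat_lit 78) (nat_lit 76) (nat_lit 0) (XT.lf (nat_lit 0) (nat_lit 5451670910) (nat_lit 228) (nat_lit 38029726596) (nat_lit 304) (nat_lit 933267240) (nat_lit 134) (nat_lit 5) (nat_lit 137)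 (nat_lit 5) (nat_lit 138) (nat_lit 5) (nat_lit 505) (nat_lit 449) (nat_lit 246)) (XT.lf (nat_lit 0) (nat_lit 8657571001) (nat_lit 304) (nat_lit 13427992673) (nat_lit 76) (nat_lit 23160220494) (nat_lit 133) (nat_lit 5) (nat_lit 137) (nat_lit 5) (nat_lit 134) (nat_lit 5) (nat_lit 506) (nat_lit 449) (nat_lit 245))) (XT.nd (nat_lit 78) (nat_lit 0) (nat_lit 0) (XT.lf (nat_lit 0) (nat_lit 13116045137) (nat_lit 304) (nat_lit 5524990754) (nat_lit 380) (nat_lit 27456814602) (nat_lit 129) (nat_lit 5) (nat_lit 133) (nat_lit 5) (nat_lit 134) (nat_lit 5) (nat_lit 507) (nat_lit 449) (nat_lit 244)) (XT.lf (nat_lit 0) (nat_lit 29169402647) (nat_lit 380) (nat_lit 6355682569) (nat_lit 76) (nat_lit 11443031950) (nat_lit 129) (nat_lit 5) (nat_lit 134) (nat_lit 5) (nat_lit 130) (nat_lit 5) (nat_lit 508) (nat_lit 449) (nat_lit 243)))))) (XT.nd (nat_lit 546) (nat_lit 1140) (nat_lit 0) (XT.nd (nat_lit 234) (nat_lit 532) (nat_lit 0) (XT.nd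 (nat_lit 78) (nat_lit 380) (nat_lit 0) (XT.lf (nat_lit 0) (nat_lit 21429050432) (nat_lit 228) (nat_lit 18842934330) (nat_lit 304) (nat_lit 7584756433) (nat_lit 126) (nat_lit 5) (nat_lit 129) (nat_lit 5) (nat_lit 130) (nat_lit 5) (nat_lit 509) (nat_lit 449) (nat_lit 242)) (XT.nd (nat_lit 78) (nat_lit 0) (nat_lit 0) (XT.lf (nat_lit 0) (nat_lit 1402383907) (nat_lit 304) (nat_lit 1551930511) (nat_lit 380) (nat_lit 45814583874) (nat_lit 121) (nat_lit 5) (nat_lit 125) (nat_lit 5) (nat_lit 126) (nat_lit 5) (nat_lit 510) (nat_lit 449) (nat_lit 241)) (XT.lf (nat_lit 0) (nat_lit 14080604148) (nat_lit 380) (nat_lit 19328990108) (nat_lit 76) (nat_lit 16283868426) (nat_lit 121) (nat_lit 5) (nat_lit 126) (nat_lit 5) (nat_lit 122) (nat_lit 5) (nat_lit 511) (nat_lit 449) (nat_lit 240)))) (XT.nd (nat_lit 156) (nat_lit 304) (nat_lit 0) (XT.nd (nat_lit 78) (nat_lit 0) (nat_lit 0) (XT.lf (nat_lit 0) (nat_lit 9720421474) (nat_lit 228)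 (nat_lit 15926835071) (nat_lit 304) (nat_lit 24995310495) (nat_lit 118) (nat_lit 5) (nat_lit 121) (nat_lit 5) (nat_lit 122) (nat_lit 5) (nat_lit 512) (nat_lit 449) (nat_lit 239)) (XT.lf (nat_lit 0) (nat_lit 37775812229) (nat_lit 304) (nat_lit 11602250813) (nat_lit 76) (nat_lit 2235634623) (nat_lit 118) (nat_lit 5) (nat_lit 122) (nat_lit 5) (nat_lit 119) (nat_lit 5) (nat_lit 513) (nat_lit 449) (nat_lit 238))) (XT.nd (nat_lit 78) (nat_lit 76) (nat_lit 0) (XT.lf (nat_lit 0) (nat_lit 18802995636) (nat_lit 228) (nat_lit 31801518850) (nat_lit 304) (nat_lit 1999359266) (nat_lit 115) (nat_lit 5) (nat_lit 118) (nat_lit 5) (nat_lit 119) (nat_lit 5) (nat_lit 514) (nat_lit 449) (nat_lit 237)) (XT.lf (nat_lit 0) (nat_lit 10111575628) (nat_lit 304) (nat_lit 3364636823) (nat_lit 76) (nat_lit 40141117651) (nat_lit 114) (nat_lit 5) (nat_lit 118) (nat_lit 5) (nat_lit 115) (nat_lit 5) (nat_lit 515) (nat_lit 449) (nat_lit 236)))))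 (XT.nd (nat_lit 312) (nat_lit 456) (nat_lit 0) (XT.nd (nat_lit 156) (nat_lit 228) (nat_lit 0) (XT.nd (nat_lit 78) (nat_lit 228) (nat_lit 0) (XT.lf (nat_lit 0) (nat_lit 22872503972) (nat_lit 304) (nat_lit 26189219853) (nat_lit 76) (nat_lit 5589067151) (nat_lit 111) (nat_lit 5) (nat_lit 115) (nat_lit 5) (nat_lit 112) (nat_lit 5) (nat_lit 516) (nat_lit 449) (nat_lit 235)) (XT.lf (nat_lit 0) (nat_lit 5568812466) (nat_lit 228) (nat_lit 30666658149) (nat_lit 304) (nat_lit 19473208963) (nat_lit 108) (nat_lit 5) (nat_lit 111) (nat_lit 5) (nat_lit 112) (nat_lit 5) (nat_lit 517) (nat_lit 449) (nat_lit 234))) (XT.nd (nat_lit 78) (nat_lit 228) (nat_lit 0) (XT.lf (nat_lit 0) (nat_lit 38813080782) (nat_lit 228) (nat_lit 11448672123) (nat_lit 304) (nat_lit 6528679341) (nat_lit 108) (nat_lit 5) (nat_lit 111) (nat_lit 5) (nat_lit 112) (nat_lit 5) (nat_lit 518) (nat_lit 449) (nat_lit 233)) (XT.lf (nat_lit 0) (nat_lit 6899598948)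 (nat_lit 228) (nat_lit 42599142634) (nat_lit 76) (nat_lit 8397088319) (nat_lit 105) (nat_lit 5) (nat_lit 108) (nat_lit 5) (nat_lit 106) (nat_lit 5) (nat_lit 519) (nat_lit 449) (nat_lit 232)))) (XT.nd (nat_lit 156) (nat_lit 228) (nat_lit 0) (XT.nd (nat_lit 78) (nat_lit 228) (nat_lit 0) (XT.lf (nat_lit 0) (nat_lit 20894212674) (nat_lit 228) (nat_lit 9274583829) (nat_lit 76) (nat_lit 28854812749) (nat_lit 105) (nat_lit 5) (nat_lit 108) (nat_lit 5) (nat_lit 106) (nat_lit 5) (nat_lit 520) (nat_lit 449) (nat_lit 231)) (XT.lf (nat_lit 0) (nat_lit 25544967917) (nat_lit 228) (nat_lit 10007328909) (nat_lit 304) (nat_lit 24625616381) (nat_lit 102) (nat_lit 5) (nat_lit 105) (nat_lit 5) (nat_lit 106) (nat_lit 5) (nat_lit 521) (nat_lit 449) (nat_lit 230))) (XT.nd (nat_lit 78) (nat_lit 76) (nat_lit 0) (XT.lf (nat_lit 0) (nat_lit 130148652) (nat_lit 152) (nat_lit 50717321335) (nat_lit 228) (nat_lit 10513456081) (nat_lit 100) (nat_lit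 5) (nat_lit 102) (nat_lit 5) (nat_lit 103) (nat_lit 5) (nat_lit 522) (nat_lit 449) (nat_lit 229)) (XT.lf (nat_lit 0) (nat_lit 4393951019) (nat_lit 228) (nat_lit 26067306043) (nat_lit 76) (nat_lit 32103501531) (nat_lit 99) (nat_lit 5) (nat_lit 102) (nat_lit 5) (nat_lit 100) (nat_lit 5) (nat_lit 523) (nat_lit 449) (nat_lit 228))))))) (XT.nd (nat_lit 1170) (nat_lit 760) (nat_lit 0) (XT.nd (nat_lit 546) (nat_lit 912) (nat_lit 0) (XT.nd (nat_lit 234) (nat_lit 456) (nat_lit 0) (XT.nd (nat_lit 78) (nat_lit 152) (nat_lit 0) (XT.lf (nat_lit 0) (nat_lit 10243724469) (nat_lit 228) (nat_lit 9390167293) (nat_lit 304) (nat_lit 44164793042) (nat_lit 96) (nat_lit 5) (nat_lit 99) (nat_lit 5) (nat_lit 100) (nat_lit 5) (nat_lit 524) (nat_lit 449) (nat_lit 227)) (XT.nd (nat_lit 78) (nat_lit 152) (nat_lit 0) (XT.lf (nat_lit 0) (nat_lit 35713390292) (nat_lit 304) (nat_lit 17007413668) (nat_lit 76) (nat_lit 12337354214) (nat_lit 96)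 (nat_lit 5) (nat_lit 100) (nat_lit 5) (nat_lit 97) (nat_lit 5) (nat_lit 525) (nat_lit 449) (nat_lit 226)) (XT.lf (nat_lit 0) (nat_lit 20949321050) (nat_lit 152) (nat_lit 31618519887) (nat_lit 228) (nat_lit 13778797950) (nat_lit 94) (nat_lit 5) (nat_lit 96) (nat_lit 5) (nat_lit 97) (nat_lit 5) (nat_lit 526) (nat_lit 449) (nat_lit 225)))) (XT.nd (nat_lit 156) (nat_lit 152) (nat_lit 0) (XT.nd (nat_lit 78) (nat_lit 228) (nat_lit 0) (XT.lf (nat_lit 0) (nat_lit 2381829123) (nat_lit 228) (nat_lit 7301665938) (nat_lit 76) (nat_lit 57984479116) (nat_lit 93) (nat_lit 5) (nat_lit 96) (nat_lit 5) (nat_lit 94) (nat_lit 5) (nat_lit 527) (nat_lit 449) (nat_lit 224)) (XT.lf (nat_lit 0) (nat_lit 19188869012) (nat_lit 304) (nat_lit 36713792313) (nat_lit 76) (nat_lit 13109039605) (nat_lit 90) (nat_lit 5) (nat_lit 94) (nat_lit 5) (nat_lit 91) (nat_lit 5) (nat_lit 528) (nat_lit 449) (nat_lit 223))) (XT.nd (nat_lit 78) (nat_lit 0) (nat_lit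 0) (XT.lf (nat_lit 0) (nat_lit 2796596069) (nat_lit 152) (nat_lit 33899029736) (nat_lit 228) (nat_lit 33694248647) (nat_lit 88) (nat_lit 5) (nat_lit 90) (nat_lit 5) (nat_lit 91) (nat_lit 5) (nat_lit 529) (nat_lit 449) (nat_lit 222)) (XT.lf (nat_lit 0) (nat_lit 44241932886) (nat_lit 152) (nat_lit 10854695639) (nat_lit 228) (nat_lit 16701693490) (nat_lit 88) (nat_lit 5) (nat_lit 90) (nat_lit 5) (nat_lit 91) (nat_lit 5) (nat_lit 530) (nat_lit 449) (nat_lit 221))))) (XT.nd (nat_lit 312) (nat_lit 532) (nat_lit 0) (XT.nd (nat_lit 156) (nat_lit 152) (nat_lit 0) (XT.nd (nat_lit 78) (nat_lit 0) (nat_lit 0) (XT.lf (nat_lit 0) (nat_lit 1042594268) (nat_lit 228) (nat_lit 59426948783) (nat_lit 76) (nat_lit 12771521817) (nat_lit 85) (nat_lit 5) (nat_lit 88) (nat_lit 5) (nat_lit 86) (nat_lit 5) (nat_lit 531) (nat_lit 449) (nat_lit 220)) (XT.lf (nat_lit 0) (nat_lit 19370363647) (nat_lit 228) (nat_lit 18006633136) (nat_lit 76)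 (nat_lit 37333527230) (nat_lit 85) (nat_lit 5) (nat_lit 88) (nat_lit 5) (nat_lit 86) (nat_lit 5) (nat_lit 532) (nat_lit 449) (nat_lit 219))) (XT.nd (nat_lit 78) (nat_lit 0) (nat_lit 0) (XT.lf (nat_lit 0) (nat_lit 25144113248) (nat_lit 152) (nat_lit 13343949236) (nat_lit 228) (nat_lit 37728801675) (nat_lit 83) (nat_lit 5) (nat_lit 85) (nat_lit 5) (nat_lit 86) (nat_lit 5) (nat_lit 533) (nat_lit 449) (nat_lit 218)) (XT.lf (nat_lit 0) (nat_lit 58471008896) (nat_lit 228) (nat_lit 7918759412) (nat_lit 76) (nat_lit 11369874820) (nat_lit 83) (nat_lit 5) (nat_lit 86) (nat_lit 5) (nat_lit 84) (nat_lit 5) (nat_lit 534) (nat_lit 449) (nat_lit 217)))) (XT.nd (nat_lit 156) (nat_lit 152) (nat_lit 0) (XT.nd (nat_lit 78) (nat_lit 152) (nat_lit 0) (XT.lf (nat_lit 0) (nat_lit 202707454) (nat_lit 228) (nat_lit 42216762943) (nat_lit 76) (nat_lit 36914554096) (nat_lit 80) (nat_lit 5) (nat_lit 83) (nat_lit 5) (nat_lit 81) (nat_lit 5)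 (nat_lit 535) (nat_lit 449) (nat_lit 216)) (XT.lf (nat_lit 0) (nat_lit 2569054489) (nat_lit 152) (nat_lit 17425957409) (nat_lit 228) (nat_lit 60951779059) (nat_lit 78) (nat_lit 5) (nat_lit 80) (nat_lit 5) (nat_lit 81) (nat_lit 5) (nat_lit 536) (nat_lit 449) (nat_lit 215))) (XT.nd (nat_lit 78) (nat_lit 152) (nat_lit 0) (XT.lf (nat_lit 0) (nat_lit 40890025559) (nat_lit 228) (nat_lit 33118242492) (nat_lit 76) (nat_lit 8584404266) (nat_lit 78) (nat_lit 5) (nat_lit 81) (nat_lit 5) (nat_lit 79) (nat_lit 5) (nat_lit 537) (nat_lit 449) (nat_lit 214)) (XT.lf (nat_lit 0) (nat_lit 13588985177) (nat_lit 152) (nat_lit 49124570277) (nat_lit 228) (nat_lit 21565324787) (nat_lit 76) (nat_lit 5) (nat_lit 78) (nat_lit 5) (nat_lit 79) (nat_lit 5) (nat_lit 538) (nat_lit 449) (nat_lit 213)))))) (XT.nd (nat_lit 55614) (nat_lit 0) (nat_lit 15808) (XT.nd (nat_lit 312) (nat_lit 380) (nat_lit 0) (XT.nd (nat_lit 156) (nat_lit 152) (nat_lit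 0) (XT.nd (nat_lit 78) (nat_lit 228) (nat_lit 0) (XT.lf (nat_lit 0) (nat_lit 62373660580) (nat_lit 152) (nat_lit 23151083873) (nat_lit 228) (nat_lit 480941449) (nat_lit 76) (nat_lit 5) (nat_lit 78) (nat_lit 5) (nat_lit 79) (nat_lit 5) (nat_lit 539) (nat_lit 449) (nat_lit 212)) (XT.lf (nat_lit 0) (nat_lit 21100636100) (nat_lit 228) (nat_lit 62688955285) (nat_lit 76) (nat_lit 3980208854) (nat_lit 73) (nat_lit 5) (nat_lit 76) (nat_lit 5) (nat_lit 74) (nat_lit 5) (nat_lit 540) (nat_lit 449) (nat_lit 211))) (XT.nd (nat_lit 78) (nat_lit 152) (nat_lit 0) (XT.lf (nat_lit 0) (nat_lit 43788771833) (nat_lit 228) (nat_lit 14079105664) (nat_lit 76) (nat_lit 31704754424) (nat_lit 73) (nat_lit 5) (nat_lit 76) (nat_lit 5) (nat_lit 74) (nat_lit 5) (nat_lit 541) (nat_lit 449) (nat_lit 210)) (XT.lf (nat_lit 0) (nat_lit 36702699296) (nat_lit 152) (nat_lit 30806261906) (nat_lit 228) (nat_lit 23910045150) (nat_lit 71) (nat_lit 5) (nat_lit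 73) (nat_lit 5) (nat_lit 74) (nat_lit 5) (nat_lit 542) (nat_lit 449) (nat_lit 209)))) (XT.nd (nat_lit 156) (nat_lit 152) (nat_lit 0) (XT.nd (nat_lit 78) (nat_lit 228) (nat_lit 0) (XT.lf (nat_lit 0) (nat_lit 89294049181) (nat_lit 152) (nat_lit 2787495757) (nat_lit 228) (nat_lit 1235003501) (nat_lit 71) (nat_lit 5) (nat_lit 73) (nat_lit 5) (nat_lit 74) (nat_lit 5) (nat_lit 543) (nat_lit 449) (nat_lit 208)) (XT.lf (nat_lit 0) (nat_lit 22415020063) (nat_lit 228) (nat_lit 46576082759) (nat_lit 76) (nat_lit 26251743717) (nat_lit 68) (nat_lit 5) (nat_lit 71) (nat_lit 5) (nat_lit 69) (nat_lit 5) (nat_lit 544) (nat_lit 449) (nat_lit 207))) (XT.nd (nat_lit 55068) (nat_lit 0) (nat_lit 15808) (XT.lf (nat_lit 0) (nat_lit 5865192899) (nat_lit 152) (nat_lit 41008178962) (nat_lit 228) (nat_lit 50349485468) (nat_lit 66) (nat_lit 5) (nat_lit 68) (nat_lit 5) (nat_lit 69) (nat_lit 5) (nat_lit 545) (nat_lit 449) (nat_lit 206)) (XT.lf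 (nat_lit 0) (nat_lit 1317087922) (nat_lit 1292) (nat_lit 3831351168) (nat_lit 1292) (nat_lit 3831351168) (nat_lit 274) (nat_lit 3) (nat_lit 291) (nat_lit 3) (nat_lit 291) (nat_lit 5) (nat_lit 450) (nat_lit 450) (nat_lit 300))))) (XT.nd (nat_lit 312) (nat_lit 0) (nat_lit 152) (XT.nd (nat_lit 156) (nat_lit 0) (nat_lit 76) (XT.nd (nat_lit 78) (nat_lit 0) (nat_lit 76) (XT.lf (nat_lit 76) (nat_lit 1160320137) (nat_lit 0) (nat_lit 1728569760) (nat_lit 1292) (nat_lit 15333580813) (nat_lit 275) (nat_lit 5) (nat_lit 274) (nat_lit 3) (nat_lit 291) (nat_lit 5) (nat_lit 451) (nat_lit 450) (nat_lit 299)) (XT.lf (nat_lit 0) (nat_lit 3289641519) (nat_lit 1216) (nat_lit 8159262283) (nat_lit 1292) (nat_lit 7040193774) (nat_lit 275) (nat_lit 5) (nat_lit 291) (nat_lit 5) (nat_lit 292) (nat_lit 5) (nat_lit 452) (nat_lit 450) (nat_lit 298))) (XT.nd (nat_lit 78) (nat_lit 0) (nat_lit 76) (XT.lf (nat_lit 76) (nat_lit 1008953998) (nat_lit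 0) (nat_lit 2712540064) (nat_lit 1292) (nat_lit 15041658636) (nat_lit 276) (nat_lit 5) (nat_lit 275) (nat_lit 5) (nat_lit 292) (nat_lit 5) (nat_lit 453) (nat_lit 450) (nat_lit 297)) (XT.lf (nat_lit 0) (nat_lit 4302415089) (nat_lit 1216) (nat_lit 8489273446) (nat_lit 1292) (nat_lit 6249659297) (nat_lit 276) (nat_lit 5) (nat_lit 292) (nat_lit 5) (nat_lit 293) (nat_lit 5) (nat_lit 454) (nat_lit 450) (nat_lit 296)))) (XT.nd (nat_lit 156) (nat_lit 0) (nat_lit 76) (XT.nd (nat_lit 78) (nat_lit 0) (nat_lit 76) (XT.lf (nat_lit 76) (nat_lit 1042671958) (nat_lit 0) (nat_lit 3887670966) (nat_lit 1292) (nat_lit 14396660215) (nat_lit 277) (nat_lit 5) (nat_lit 276) (nat_lit 5) (nat_lit 293) (nat_lit 5) (nat_lit 455) (nat_lit 450) (nat_lit 295)) (XT.lf (nat_lit 0) (nat_lit 5707366924) (nat_lit 1216) (nat_lit 8640311320) (nat_lit 1292) (nat_lit 5269643759) (nat_lit 277) (nat_lit 5) (nat_lit 293) (nat_lit 5) (nat_lit 294) (nat_lit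 5) (nat_lit 456) (nat_lit 450) (nat_lit 294))) (XT.nd (nat_lit 78) (nat_lit 0) (nat_lit 76) (XT.lf (nat_lit 76) (nat_lit 1274934559) (nat_lit 0) (nat_lit 5276617850) (nat_lit 1292) (nat_lit 13363484098) (nat_lit 278) (nat_lit 5) (nat_lit 277) (nat_lit 5) (nat_lit 294) (nat_lit 5) (nat_lit 457) (nat_lit 450) (nat_lit 293)) (XT.lf (nat_lit 0) (nat_lit 7541551781) (nat_lit 1216) (nat_lit 8598926710) (nat_lit 1292) (nat_lit 4077590858) (nat_lit 278) (nat_lit 5) (nat_lit 294) (nat_lit 5) (nat_lit 295) (nat_lit 5) (nat_lit 458) (nat_lit 450) (nat_lit 292))))))))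
noncomputable def xc200 : XT := (XT.nd (nat_lit 2340) (nat_lit 5852) (nat_lit 0) (XT.nd (nat_lit 1170) (nat_lit 4104) (nat_lit 0) (XT.nd (nat_lit 546) (nat_lit 2964) (nat_lit 0) (XT.nd (nat_lit 234) (nat_lit 0) (nat_lit 152) (XT.nd (nat_lit 78) (nat_lit 0) (nat_lit 76) (XT.lf (nat_lit 76) (nat_lit 1720281522) (nat_lit 0) (nat_lit 6903229222) (nat_lit 1292) (nat_lit 11904816150) (nat_lit 279) (nat_lit 5) (nat_lit 278) (nat_lit 5) (nat_lit 295) (nat_lit 5) (nat_lit 459) (nat_lit 450) (nat_lit 291)) (XT.nd (nat_lit 78) (nat_lit 0) (nat_lit 0) (XT.lf (nat_lit 0) (nat_lit 9844364823) (nat_lit 1216) (nat_lit 8350605075) (nat_lit 1292) (nat_lit 2649730639) (nat_lit 279) (nat_lit 5) (nat_lit 295) (nat_lit 5) (nat_lit 296) (nat_lit 5) (nat_lit 460) (nat_lit 450) (nat_lit 290)) (XT.lf (nat_lit 76) (nat_lit 2394375356) (nat_lit 0) (nat_lit 8792663755) (nat_lit 1292) (nat_lit 9980971861) (nat_lit 280) (nat_lit 5) (nat_lit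 279) (nat_lit 5) (nat_lit 296) (nat_lit 5) (nat_lit 461) (nat_lit 450) (nat_lit 289)))) (XT.nd (nat_lit 156) (nat_lit 0) (nat_lit 0) (XT.nd (nat_lit 78) (nat_lit 0) (nat_lit 0) (XT.lf (nat_lit 0) (nat_lit 12657705494) (nat_lit 1216) (nat_lit 7879722643) (nat_lit 1292) (nat_lit 960962606) (nat_lit 280) (nat_lit 5) (nat_lit 296) (nat_lit 5) (nat_lit 297) (nat_lit 5) (nat_lit 462) (nat_lit 450) (nat_lit 288)) (XT.lf (nat_lit 76) (nat_lit 3314048326) (nat_lit 0) (nat_lit 10971512156) (nat_lit 1292) (nat_lit 7549730705) (nat_lit 281) (nat_lit 5) (nat_lit 280) (nat_lit 5) (nat_lit 297) (nat_lit 5) (nat_lit 463) (nat_lit 450) (nat_lit 287))) (XT.nd (nat_lit 78) (nat_lit 0) (nat_lit 76) (XT.lf (nat_lit 76) (nat_lit 15000631505) (nat_lit 0) (nat_lit 1035471936) (nat_lit 1292) (nat_lit 6143980933) (nat_lit 281) (nat_lit 5) (nat_lit 280) (nat_lit 5) (nat_lit 297) (nat_lit 5) (nat_lit 464) (nat_lit 450) (nat_lit 286)) (XT.lf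 (nat_lit 76) (nat_lit 4497352794) (nat_lit 0) (nat_lit 13467924452) (nat_lit 1292) (nat_lit 4566161935) (nat_lit 282) (nat_lit 5) (nat_lit 281) (nat_lit 5) (nat_lit 298) (nat_lit 5) (nat_lit 465) (nat_lit 450) (nat_lit 285))))) (XT.nd (nat_lit 312) (nat_lit 1216) (nat_lit 0) (XT.nd (nat_lit 156) (nat_lit 836) (nat_lit 0) (XT.nd (nat_lit 78) (nat_lit 1140) (nat_lit 0) (XT.lf (nat_lit 76) (nat_lit 16656648451) (nat_lit 0) (nat_lit 3372905913) (nat_lit 1292) (nat_lit 2861464651) (nat_lit 282) (nat_lit 5) (nat_lit 281) (nat_lit 5) (nat_lit 298) (nat_lit 5) (nat_lit 466) (nat_lit 450) (nat_lit 284)) (XT.lf (nat_lit 0) (nat_lit 5963614905) (nat_lit 1216) (nat_lit 16311743314) (nat_lit 1292) (nat_lit 982441261) (nat_lit 266) (nat_lit 5) (nat_lit 282) (nat_lit 5) (nat_lit 283) (nat_lit 5) (nat_lit 467) (nat_lit 450) (nat_lit 283))) (XT.nd (nat_lit 78) (nat_lit 760) (nat_lit 0) (XT.lf (nat_lit 0) (nat_lit 1026132438) (nat_lit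 1292) (nat_lit 5026160087) (nat_lit 76) (nat_lit 17580263888) (nat_lit 265) (nat_lit 5) (nat_lit 282) (nat_lit 5) (nat_lit 266) (nat_lit 5) (nat_lit 468) (nat_lit 450) (nat_lit 282)) (XT.lf (nat_lit 0) (nat_lit 3188877334) (nat_lit 836) (nat_lit 16313565280) (nat_lit 76) (nat_lit 4512412914) (nat_lit 255) (nat_lit 5) (nat_lit 266) (nat_lit 5) (nat_lit 256) (nat_lit 5) (nat_lit 469) (nat_lit 450) (nat_lit 281)))) (XT.nd (nat_lit 156) (nat_lit 608) (nat_lit 0) (XT.nd (nat_lit 78) (nat_lit 608) (nat_lit 0) (XT.lf (nat_lit 0) (nat_lit 5522747380) (nat_lit 836) (nat_lit 3558532123) (nat_lit 76) (nat_lit 15324157884) (nat_lit 255) (nat_lit 5) (nat_lit 266) (nat_lit 5) (nat_lit 256) (nat_lit 5) (nat_lit 470) (nat_lit 450) (nat_lit 280)) (XT.lf (nat_lit 0) (nat_lit 8032526617) (nat_lit 684) (nat_lit 15056642377) (nat_lit 76) (nat_lit 1715391943) (nat_lit 247) (nat_lit 5) (nat_lit 256) (nat_lit 5) (nat_lit 248) (nat_lit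 5) (nat_lit 471) (nat_lit 450) (nat_lit 279))) (XT.nd (nat_lit 78) (nat_lit 608) (nat_lit 0) (XT.lf (nat_lit 0) (nat_lit 10739108678) (nat_lit 684) (nat_lit 1782907561) (nat_lit 76) (nat_lit 12689997665) (nat_lit 247) (nat_lit 5) (nat_lit 256) (nat_lit 5) (nat_lit 248) (nat_lit 5) (nat_lit 472) (nat_lit 450) (nat_lit 278)) (XT.lf (nat_lit 0) (nat_lit 12121132129) (nat_lit 608) (nat_lit 1517714339) (nat_lit 684) (nat_lit 11989486212) (nat_lit 239) (nat_lit 5) (nat_lit 247) (nat_lit 5) (nat_lit 248) (nat_lit 5) (nat_lit 473) (nat_lit 450) (nat_lit 277)))))) (XT.nd (nat_lit 546) (nat_lit 1900) (nat_lit 0) (XT.nd (nat_lit 234) (nat_lit 1140) (nat_lit 0) (XT.nd (nat_lit 78) (nat_lit 532) (nat_lit 0) (XT.lf (nat_lit 0) (nat_lit 329602838) (nat_lit 532) (nat_lit 16407222112) (nat_lit 608) (nat_lit 9316979551) (nat_lit 232) (nat_lit 5) (nat_lit 239) (nat_lit 5) (nat_lit 240) (nat_lit 5) (nat_lit 474) (nat_lit 450) (nat_lit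 276)) (XT.nd (nat_lit 78) (nat_lit 532) (nat_lit 0) (XT.lf (nat_lit 0) (nat_lit 14838586813) (nat_lit 532) (nat_lit 5236052567) (nat_lit 608) (nat_lit 6412995110) (nat_lit 232) (nat_lit 5) (nat_lit 239) (nat_lit 5) (nat_lit 240) (nat_lit 5) (nat_lit 475) (nat_lit 450) (nat_lit 275)) (XT.lf (nat_lit 0) (nat_lit 2839007816) (nat_lit 532) (nat_lit 20756891597) (nat_lit 608) (nat_lit 3336081516) (nat_lit 225) (nat_lit 5) (nat_lit 232) (nat_lit 5) (nat_lit 233) (nat_lit 5) (nat_lit 476) (nat_lit 450) (nat_lit 274)))) (XT.nd (nat_lit 156) (nat_lit 532) (nat_lit 0) (XT.nd (nat_lit 78) (nat_lit 532) (nat_lit 0) (XT.lf (nat_lit 0) (nat_lit 2821337) (nat_lit 608) (nat_lit 9441552233) (nat_lit 76) (nat_lit 17940340370) (nat_lit 224) (nat_lit 5) (nat_lit 232) (nat_lit 5) (nat_lit 225) (nat_lit 5) (nat_lit 477) (nat_lit 450) (nat_lit 273)) (XT.lf (nat_lit 0) (nat_lit 3447857039) (nat_lit 608) (nat_lit 22146917529) (nat_lit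 76) (nat_lit 2253073736) (nat_lit 217) (nat_lit 5) (nat_lit 225) (nat_lit 5) (nat_lit 218) (nat_lit 5) (nat_lit 478) (nat_lit 450) (nat_lit 272))) (XT.nd (nat_lit 78) (nat_lit 532) (nat_lit 0) (XT.lf (nat_lit 0) (nat_lit 7182020997) (nat_lit 608) (nat_lit 6929701249) (nat_lit 76) (nat_lit 14207581924) (nat_lit 217) (nat_lit 5) (nat_lit 225) (nat_lit 5) (nat_lit 218) (nat_lit 5) (nat_lit 479) (nat_lit 450) (nat_lit 271)) (XT.lf (nat_lit 0) (nat_lit 8913635644) (nat_lit 532) (nat_lit 2196357934) (nat_lit 608) (nat_lit 17692457387) (nat_lit 210) (nat_lit 5) (nat_lit 217) (nat_lit 5) (nat_lit 218) (nat_lit 5) (nat_lit 480) (nat_lit 450) (nat_lit 270))))) (XT.nd (nat_lit 312) (nat_lit 988) (nat_lit 0) (XT.nd (nat_lit 156) (nat_lit 456) (nat_lit 0) (XT.nd (nat_lit 78) (nat_lit 456) (nat_lit 0) (XT.lf (nat_lit 0) (nat_lit 15319504008) (nat_lit 608) (nat_lit 4025623786) (nat_lit 76) (nat_lit 9950054150) (nat_lit 210) (nat_lit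 5) (nat_lit 218) (nat_lit 5) (nat_lit 211) (nat_lit 5) (nat_lit 481) (nat_lit 450) (nat_lit 269)) (XT.lf (nat_lit 0) (nat_lit 12531988169) (nat_lit 456) (nat_lit 7261802710) (nat_lit 532) (nat_lit 10004749959) (nat_lit 204) (nat_lit 5) (nat_lit 210) (nat_lit 5) (nat_lit 211) (nat_lit 5) (nat_lit 482) (nat_lit 450) (nat_lit 268))) (XT.nd (nat_lit 78) (nat_lit 456) (nat_lit 0) (XT.lf (nat_lit 0) (nat_lit 24489533726) (nat_lit 532) (nat_lit 701501867) (nat_lit 76) (nat_lit 5123348783) (nat_lit 204) (nat_lit 5) (nat_lit 211) (nat_lit 5) (nat_lit 205) (nat_lit 5) (nat_lit 483) (nat_lit 450) (nat_lit 267)) (XT.lf (nat_lit 0) (nat_lit 16608482797) (nat_lit 456) (nat_lit 12945664524) (nat_lit 532) (nat_lit 1284716624) (nat_lit 198) (nat_lit 5) (nat_lit 204) (nat_lit 5) (nat_lit 205) (nat_lit 5) (nat_lit 484) (nat_lit 450) (nat_lit 266)))) (XT.nd (nat_lit 156) (nat_lit 456) (nat_lit 0) (XT.nd (nat_lit 78) (nat_lit 0) (nat_lit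 0) (XT.lf (nat_lit 0) (nat_lit 3096799520) (nat_lit 456) (nat_lit 262038130) (nat_lit 532) (nat_lit 28018260851) (nat_lit 191) (nat_lit 5) (nat_lit 197) (nat_lit 5) (nat_lit 198) (nat_lit 5) (nat_lit 485) (nat_lit 450) (nat_lit 265)) (XT.lf (nat_lit 0) (nat_lit 8380592222) (nat_lit 532) (nat_lit 10833164205) (nat_lit 76) (nat_lit 12709401231) (nat_lit 191) (nat_lit 5) (nat_lit 198) (nat_lit 5) (nat_lit 192) (nat_lit 5) (nat_lit 486) (nat_lit 450) (nat_lit 264))) (XT.nd (nat_lit 78) (nat_lit 0) (nat_lit 0) (XT.lf (nat_lit 0) (nat_lit 7272533364) (nat_lit 456) (nat_lit 6349601456) (nat_lit 532) (nat_lit 18861390311) (nat_lit 185) (nat_lit 5) (nat_lit 191) (nat_lit 5) (nat_lit 192) (nat_lit 5) (nat_lit 487) (nat_lit 450) (nat_lit 263)) (XT.lf (nat_lit 0) (nat_lit 19194415543) (nat_lit 532) (nat_lit 6985586640) (nat_lit 76) (nat_lit 6875497275) (nat_lit 185) (nat_lit 5) (nat_lit 192) (nat_lit 5) (nat_lit 186) (nat_lit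 5) (nat_lit 488) (nat_lit 450) (nat_lit 262))))))) (XT.nd (nat_lit 1170) (nat_lit 2508) (nat_lit 0) (XT.nd (nat_lit 546) (nat_lit 1748) (nat_lit 0) (XT.nd (nat_lit 234) (nat_lit 760) (nat_lit 0) (XT.nd (nat_lit 78) (nat_lit 456) (nat_lit 0) (XT.lf (nat_lit 0) (nat_lit 11952858359) (nat_lit 380) (nat_lit 13155551860) (nat_lit 456) (nat_lit 8530986999) (nat_lit 180) (nat_lit 5) (nat_lit 185) (nat_lit 5) (nat_lit 186) (nat_lit 5) (nat_lit 489) (nat_lit 450) (nat_lit 261)) (XT.nd (nat_lit 78) (nat_lit 456) (nat_lit 0) (XT.lf (nat_lit 0) (nat_lit 31270385826) (nat_lit 456) (nat_lit 2643380472) (nat_lit 76) (nat_lit 324929330) (nat_lit 180) (nat_lit 5) (nat_lit 186) (nat_lit 5) (nat_lit 181) (nat_lit 5) (nat_lit 490) (nat_lit 450) (nat_lit 260)) (XT.lf (nat_lit 0) (nat_lit 3002496995) (nat_lit 456) (nat_lit 17704761981) (nat_lit 76) (nat_lit 14139064316) (nat_lit 174) (nat_lit 5) (nat_lit 180) (nat_lit 5) (nat_lit 175)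 (nat_lit 5) (nat_lit 491) (nat_lit 450) (nat_lit 259)))) (XT.nd (nat_lit 156) (nat_lit 380) (nat_lit 0) (XT.nd (nat_lit 78) (nat_lit 0) (nat_lit 0) (XT.lf (nat_lit 0) (nat_lit 2110339658) (nat_lit 380) (nat_lit 7026610947) (nat_lit 456) (nat_lit 26333022527) (nat_lit 169) (nat_lit 5) (nat_lit 174) (nat_lit 5) (nat_lit 175) (nat_lit 5) (nat_lit 492) (nat_lit 450) (nat_lit 258)) (XT.lf (nat_lit 0) (nat_lit 15700879834) (nat_lit 456) (nat_lit 13297910137) (nat_lit 76) (nat_lit 7106179727) (nat_lit 169) (nat_lit 5) (nat_lit 175) (nat_lit 5) (nat_lit 170) (nat_lit 5) (nat_lit 493) (nat_lit 450) (nat_lit 257))) (XT.nd (nat_lit 78) (nat_lit 0) (nat_lit 0) (XT.lf (nat_lit 0) (nat_lit 7437253388) (nat_lit 380) (nat_lit 15162603947) (nat_lit 456) (nat_lit 14155015389) (nat_lit 164) (nat_lit 5) (nat_lit 169) (nat_lit 5) (nat_lit 170) (nat_lit 5) (nat_lit 494) (nat_lit 450) (nat_lit 256)) (XT.lf (nat_lit 0) (nat_lit 29063136141)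 (nat_lit 380) (nat_lit 774067007) (nat_lit 456) (nat_lit 7583128185) (nat_lit 164) (nat_lit 5) (nat_lit 169) (nat_lit 5) (nat_lit 170) (nat_lit 5) (nat_lit 495) (nat_lit 450) (nat_lit 255))))) (XT.nd (nat_lit 312) (nat_lit 684) (nat_lit 0) (XT.nd (nat_lit 156) (nat_lit 684) (nat_lit 0) (XT.nd (nat_lit 78) (nat_lit 76) (nat_lit 0) (XT.lf (nat_lit 0) (nat_lit 13353710690) (nat_lit 304) (nat_lit 24198533038) (nat_lit 380) (nat_lit 545693189) (nat_lit 160) (nat_lit 5) (nat_lit 164) (nat_lit 5) (nat_lit 165) (nat_lit 5) (nat_lit 496) (nat_lit 450) (nat_lit 254)) (XT.lf (nat_lit 0) (nat_lit 6662166098) (nat_lit 380) (nat_lit 2982920381) (nat_lit 76) (nat_lit 29146148703) (nat_lit 159) (nat_lit 5) (nat_lit 164) (nat_lit 5) (nat_lit 160) (nat_lit 5) (nat_lit 497) (nat_lit 450) (nat_lit 253))) (XT.nd (nat_lit 78) (nat_lit 304) (nat_lit 0) (XT.lf (nat_lit 0) (nat_lit 14316301464) (nat_lit 456) (nat_lit 19744282999) (nat_lit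 76) (nat_lit 5437356009) (nat_lit 154) (nat_lit 5) (nat_lit 160) (nat_lit 5) (nat_lit 155) (nat_lit 5) (nat_lit 498) (nat_lit 450) (nat_lit 252)) (XT.lf (nat_lit 0) (nat_lit 2966808462) (nat_lit 304) (nat_lit 19385008131) (nat_lit 380) (nat_lit 17869478056) (nat_lit 150) (nat_lit 5) (nat_lit 154) (nat_lit 5) (nat_lit 155) (nat_lit 5) (nat_lit 499) (nat_lit 450) (nat_lit 251)))) (XT.nd (nat_lit 156) (nat_lit 380) (nat_lit 0) (XT.nd (nat_lit 78) (nat_lit 304) (nat_lit 0) (XT.lf (nat_lit 0) (nat_lit 26760181776) (nat_lit 304) (nat_lit 4064956678) (nat_lit 380) (nat_lit 10135309144) (nat_lit 150) (nat_lit 5) (nat_lit 154) (nat_lit 5) (nat_lit 155) (nat_lit 5) (nat_lit 500) (nat_lit 450) (nat_lit 250)) (XT.lf (nat_lit 0) (nat_lit 9616887026) (nat_lit 304) (nat_lit 30138253973) (nat_lit 380) (nat_lit 1960560082) (nat_lit 146) (nat_lit 5) (nat_lit 150) (nat_lit 5) (nat_lit 151) (nat_lit 5) (nat_lit 501) (nat_lit 450)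 (nat_lit 249))) (XT.nd (nat_lit 78) (nat_lit 304) (nat_lit 0) (XT.lf (nat_lit 0) (nat_lit 6515888976) (nat_lit 380) (nat_lit 8157183123) (nat_lit 76) (nat_lit 27813202535) (nat_lit 145) (nat_lit 5) (nat_lit 150) (nat_lit 5) (nat_lit 146) (nat_lit 5) (nat_lit 502) (nat_lit 450) (nat_lit 248)) (XT.lf (nat_lit 0) (nat_lit 15380163026) (nat_lit 380) (nat_lit 26480853744) (nat_lit 76) (nat_lit 1413178516) (nat_lit 141) (nat_lit 5) (nat_lit 146) (nat_lit 5) (nat_lit 142) (nat_lit 5) (nat_lit 503) (nat_lit 450) (nat_lit 247)))))) (XT.nd (nat_lit 546) (nat_lit 1368) (nat_lit 0) (XT.nd (nat_lit 234) (nat_lit 608) (nat_lit 0) (XT.nd (nat_lit 78) (nat_lit 532) (nat_lit 0) (XT.lf (nat_lit 0) (nat_lit 24736373784) (nat_lit 380) (nat_lit 1573456795) (nat_lit 76) (nat_lit 17769143059) (nat_lit 141) (nat_lit 5) (nat_lit 146) (nat_lit 5) (nat_lit 142) (nat_lit 5) (nat_lit 504) (nat_lit 450) (nat_lit 246)) (XT.nd (nat_lit 78) (nat_lit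 228) (nat_lit 0) (XT.lf (nat_lit 0) (nat_lit 24556783368) (nat_lit 304) (nat_lit 10050157300) (nat_lit 380) (nat_lit 10293944901) (nat_lit 137) (nat_lit 5) (nat_lit 141) (nat_lit 5) (nat_lit 142) (nat_lit 5) (nat_lit 505) (nat_lit 450) (nat_lit 245)) (XT.lf (nat_lit 0) (nat_lit 5801280428) (nat_lit 228) (nat_lit 39106173406) (nat_lit 304) (nat_lit 835986461) (nat_lit 134) (nat_lit 5) (nat_lit 137) (nat_lit 5) (nat_lit 138) (nat_lit 5) (nat_lit 506) (nat_lit 450) (nat_lit 244)))) (XT.nd (nat_lit 156) (nat_lit 228) (nat_lit 0) (XT.nd (nat_lit 78) (nat_lit 304) (nat_lit 0) (XT.lf (nat_lit 0) (nat_lit 9036554592) (nat_lit 304) (nat_lit 13647803787) (nat_lit 76) (nat_lit 23915206576) (nat_lit 133) (nat_lit 5) (nat_lit 137) (nat_lit 5) (nat_lit 134) (nat_lit 5) (nat_lit 507) (nat_lit 450) (nat_lit 243)) (XT.lf (nat_lit 0) (nat_lit 13690760759) (nat_lit 304) (nat_lit 5627031315) (nat_lit 380) (nat_lit 28159453574) (nat_lit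 129) (nat_lit 5) (nat_lit 133) (nat_lit 5) (nat_lit 134) (nat_lit 5) (nat_lit 508) (nat_lit 450) (nat_lit 242))) (XT.nd (nat_lit 78) (nat_lit 228) (nat_lit 0) (XT.lf (nat_lit 0) (nat_lit 30159181346) (nat_lit 380) (nat_lit 6367554778) (nat_lit 76) (nat_lit 11846969477) (nat_lit 129) (nat_lit 5) (nat_lit 134) (nat_lit 5) (nat_lit 130) (nat_lit 5) (nat_lit 509) (nat_lit 450) (nat_lit 241)) (XT.lf (nat_lit 0) (nat_lit 22248967289) (nat_lit 228) (nat_lit 19344234826) (nat_lit 304) (nat_lit 7695835815) (nat_lit 126) (nat_lit 5) (nat_lit 129) (nat_lit 5) (nat_lit 130) (nat_lit 5) (nat_lit 510) (nat_lit 450) (nat_lit 240))))) (XT.nd (nat_lit 312) (nat_lit 760) (nat_lit 0) (XT.nd (nat_lit 156) (nat_lit 228) (nat_lit 0) (XT.nd (nat_lit 78) (nat_lit 0) (nat_lit 0) (XT.lf (nat_lit 0) (nat_lit 1622028602) (nat_lit 304) (nat_lit 1533486941) (nat_lit 380) (nat_lit 47073059570) (nat_lit 121) (nat_lit 5) (nat_lit 125) (nat_lit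 5) (nat_lit 126) (nat_lit 5) (nat_lit 511) (nat_lit 450) (nat_lit 239)) (XT.lf (nat_lit 0) (nat_lit 14612921813) (nat_lit 380) (nat_lit 19733773916) (nat_lit 76) (nat_lit 16834261248) (nat_lit 121) (nat_lit 5) (nat_lit 126) (nat_lit 5) (nat_lit 122) (nat_lit 5) (nat_lit 512) (nat_lit 450) (nat_lit 238))) (XT.nd (nat_lit 78) (nat_lit 0) (nat_lit 0) (XT.lf (nat_lit 0) (nat_lit 10185403485) (nat_lit 228) (nat_lit 16339635871) (nat_lit 304) (nat_lit 25633541509) (nat_lit 118) (nat_lit 5) (nat_lit 121) (nat_lit 5) (nat_lit 122) (nat_lit 5) (nat_lit 513) (nat_lit 450) (nat_lit 237)) (XT.lf (nat_lit 0) (nat_lit 39014902106) (nat_lit 304) (nat_lit 11779437083) (nat_lit 76) (nat_lit 2364583064) (nat_lit 118) (nat_lit 5) (nat_lit 122) (nat_lit 5) (nat_lit 119) (nat_lit 5) (nat_lit 514) (nat_lit 450) (nat_lit 236)))) (XT.nd (nat_lit 156) (nat_lit 456) (nat_lit 0) (XT.nd (nat_lit 78) (nat_lit 76) (nat_lit 0) (XT.lf (nat_lit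 0) (nat_lit 19536291453) (nat_lit 228) (nat_lit 32690718484) (nat_lit 304) (nat_lit 1951837698) (nat_lit 115) (nat_lit 5) (nat_lit 118) (nat_lit 5) (nat_lit 119) (nat_lit 5) (nat_lit 515) (nat_lit 450) (nat_lit 235)) (XT.lf (nat_lit 0) (nat_lit 10517257449) (nat_lit 304) (nat_lit 3299250782) (nat_lit 76) (nat_lit 41406260870) (nat_lit 114) (nat_lit 5) (nat_lit 118) (nat_lit 5) (nat_lit 115) (nat_lit 5) (nat_lit 516) (nat_lit 450) (nat_lit 234))) (XT.nd (nat_lit 78) (nat_lit 228) (nat_lit 0) (XT.lf (nat_lit 0) (nat_lit 23660229046) (nat_lit 304) (nat_lit 26807776153) (nat_lit 76) (nat_lit 5819252457) (nat_lit 111) (nat_lit 5) (nat_lit 115) (nat_lit 5) (nat_lit 112) (nat_lit 5) (nat_lit 517) (nat_lit 450) (nat_lit 233)) (XT.lf (nat_lit 0) (nat_lit 5901358700) (nat_lit 228) (nat_lit 31521358934) (nat_lit 304) (nat_lit 19954206600) (nat_lit 108) (nat_lit 5) (nat_lit 111) (nat_lit 5) (nat_lit 112) (nat_lit 5) (nat_lit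 518) (nat_lit 450) (nat_lit 232))))))))
noncomputable def xc201 : XT := (XT.nd (nat_lit 57408) (nat_lit 0) (nat_lit 10336) (XT.nd (nat_lit 1170) (nat_lit 1292) (nat_lit 0) (XT.nd (nat_lit 546) (nat_lit 836) (nat_lit 0) (XT.nd (nat_lit 234) (nat_lit 684) (nat_lit 0) (XT.nd (nat_lit 78) (nat_lit 228) (nat_lit 0) (XT.lf (nat_lit 0) (nat_lit 40138135206) (nat_lit 228) (nat_lit 11728735238) (nat_lit 304) (nat_lit 6624346874) (nat_lit 108) (nat_lit 5) (nat_lit 111) (nat_lit 5) (nat_lit 112) (nat_lit 5) (nat_lit 519) (nat_lit 450) (nat_lit 231)) (XT.nd (nat_lit 78) (nat_lit 0) (nat_lit 0) (XT.lf (nat_lit 0) (nat_lit 7204127535) (nat_lit 228) (nat_lit 43713783652) (nat_lit 76) (nat_lit 8711858017) (nat_lit 105) (nat_lit 5) (nat_lit 108) (nat_lit 5) (nat_lit 106) (nat_lit 5) (nat_lit 520) (nat_lit 450) (nat_lit 230)) (XT.lf (nat_lit 0) (nat_lit 21615738683) (nat_lit 228) (nat_lit 9394245363) (nat_lit 76) (nat_lit 29781483393)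 (nat_lit 105) (nat_lit 5) (nat_lit 108) (nat_lit 5) (nat_lit 106) (nat_lit 5) (nat_lit 521) (nat_lit 450) (nat_lit 229)))) (XT.nd (nat_lit 156) (nat_lit 304) (nat_lit 0) (XT.nd (nat_lit 78) (nat_lit 152) (nat_lit 0) (XT.lf (nat_lit 0) (nat_lit 26468338269) (nat_lit 228) (nat_lit 10243978234) (nat_lit 304) (nat_lit 25268121740) (nat_lit 102) (nat_lit 5) (nat_lit 105) (nat_lit 5) (nat_lit 106) (nat_lit 5) (nat_lit 522) (nat_lit 450) (nat_lit 228)) (XT.lf (nat_lit 0) (nat_lit 291714701) (nat_lit 152) (nat_lit 52174017111) (nat_lit 228) (nat_lit 10733228326) (nat_lit 100) (nat_lit 5) (nat_lit 102) (nat_lit 5) (nat_lit 103) (nat_lit 5) (nat_lit 523) (nat_lit 450) (nat_lit 227))) (XT.nd (nat_lit 78) (nat_lit 228) (nat_lit 0) (XT.lf (nat_lit 0) (nat_lit 4616803844) (nat_lit 228) (nat_lit 26694435871) (nat_lit 76) (nat_lit 33127722520) (nat_lit 99) (nat_lit 5) (nat_lit 102) (nat_lit 5) (nat_lit 100) (nat_lit 5) (nat_lit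 524) (nat_lit 450) (nat_lit 226)) (XT.lf (nat_lit 0) (nat_lit 10704407033) (nat_lit 228) (nat_lit 9608358586) (nat_lit 304) (nat_lit 45397176165) (nat_lit 96) (nat_lit 5) (nat_lit 99) (nat_lit 5) (nat_lit 100) (nat_lit 5) (nat_lit 525) (nat_lit 450) (nat_lit 225))))) (XT.nd (nat_lit 312) (nat_lit 380) (nat_lit 0) (XT.nd (nat_lit 156) (nat_lit 304) (nat_lit 0) (XT.nd (nat_lit 78) (nat_lit 152) (nat_lit 0) (XT.lf (nat_lit 0) (nat_lit 36872624658) (nat_lit 304) (nat_lit 17366700291) (nat_lit 76) (nat_lit 12767935368) (nat_lit 96) (nat_lit 5) (nat_lit 100) (nat_lit 5) (nat_lit 97) (nat_lit 5) (nat_lit 526) (nat_lit 450) (nat_lit 224)) (XT.lf (nat_lit 0) (nat_lit 21727256707) (nat_lit 152) (nat_lit 32504330545) (nat_lit 228) (nat_lit 14102842068) (nat_lit 94) (nat_lit 5) (nat_lit 96) (nat_lit 5) (nat_lit 97) (nat_lit 5) (nat_lit 527) (nat_lit 450) (nat_lit 223))) (XT.nd (nat_lit 78) (nat_lit 228) (nat_lit 0) (XT.lf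 (nat_lit 0) (nat_lit 2538310083) (nat_lit 228) (nat_lit 7373913818) (nat_lit 76) (nat_lit 59783231743) (nat_lit 93) (nat_lit 5) (nat_lit 96) (nat_lit 5) (nat_lit 94) (nat_lit 5) (nat_lit 528) (nat_lit 450) (nat_lit 222)) (XT.lf (nat_lit 0) (nat_lit 19849072365) (nat_lit 304) (nat_lit 37667908408) (nat_lit 76) (nat_lit 13562528294) (nat_lit 90) (nat_lit 5) (nat_lit 94) (nat_lit 5) (nat_lit 91) (nat_lit 5) (nat_lit 529) (nat_lit 450) (nat_lit 221)))) (XT.nd (nat_lit 156) (nat_lit 228) (nat_lit 0) (XT.nd (nat_lit 78) (nat_lit 0) (nat_lit 0) (XT.lf (nat_lit 0) (nat_lit 3026347531) (nat_lit 152) (nat_lit 34853624114) (nat_lit 228) (nat_lit 34619088153) (nat_lit 88) (nat_lit 5) (nat_lit 90) (nat_lit 5) (nat_lit 91) (nat_lit 5) (nat_lit 530) (nat_lit 450) (nat_lit 220)) (XT.lf (nat_lit 0) (nat_lit 45710796290) (nat_lit 152) (nat_lit 11119776786) (nat_lit 228) (nat_lit 17119260845) (nat_lit 88) (nat_lit 5) (nat_lit 90)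 (nat_lit 5) (nat_lit 91) (nat_lit 5) (nat_lit 531) (nat_lit 450) (nat_lit 219))) (XT.nd (nat_lit 78) (nat_lit 0) (nat_lit 0) (XT.lf (nat_lit 0) (nat_lit 1155292187) (nat_lit 228) (nat_lit 61066076255) (nat_lit 76) (nat_lit 13214479751) (nat_lit 85) (nat_lit 5) (nat_lit 88) (nat_lit 5) (nat_lit 86) (nat_lit 5) (nat_lit 532) (nat_lit 450) (nat_lit 218)) (XT.lf (nat_lit 0) (nat_lit 20030523188) (nat_lit 228) (nat_lit 18407336022) (nat_lit 76) (nat_lit 38511603222) (nat_lit 85) (nat_lit 5) (nat_lit 88) (nat_lit 5) (nat_lit 86) (nat_lit 5) (nat_lit 533) (nat_lit 450) (nat_lit 217)))))) (XT.nd (nat_lit 546) (nat_lit 608) (nat_lit 0) (XT.nd (nat_lit 234) (nat_lit 304) (nat_lit 0) (XT.nd (nat_lit 78) (nat_lit 228) (nat_lit 0) (XT.lf (nat_lit 0) (nat_lit 26036565145) (nat_lit 152) (nat_lit 13684213235) (nat_lit 228) (nat_lit 38780243812) (nat_lit 83) (nat_lit 5) (nat_lit 85) (nat_lit 5) (nat_lit 86) (nat_lit 5) (nat_lit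 534) (nat_lit 450) (nat_lit 216)) (XT.nd (nat_lit 78) (nat_lit 228) (nat_lit 0) (XT.lf (nat_lit 0) (nat_lit 60301499649) (nat_lit 228) (nat_lit 8020497814) (nat_lit 76) (nat_lit 11768138637) (nat_lit 83) (nat_lit 5) (nat_lit 86) (nat_lit 5) (nat_lit 84) (nat_lit 5) (nat_lit 535) (nat_lit 450) (nat_lit 215)) (XT.lf (nat_lit 0) (nat_lit 284969965) (nat_lit 228) (nat_lit 43347251715) (nat_lit 76) (nat_lit 38079532918) (nat_lit 80) (nat_lit 5) (nat_lit 83) (nat_lit 5) (nat_lit 81) (nat_lit 5) (nat_lit 536) (nat_lit 450) (nat_lit 214)))) (XT.nd (nat_lit 156) (nat_lit 152) (nat_lit 0) (XT.nd (nat_lit 78) (nat_lit 0) (nat_lit 0) (XT.lf (nat_lit 0) (nat_lit 2780806768) (nat_lit 152) (nat_lit 17889312535) (nat_lit 228) (nat_lit 62702812632) (nat_lit 78) (nat_lit 5) (nat_lit 80) (nat_lit 5) (nat_lit 81) (nat_lit 5) (nat_lit 537) (nat_lit 450) (nat_lit 213)) (XT.lf (nat_lit 0) (nat_lit 42190345999) (nat_lit 228) (nat_lit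 33979389593) (nat_lit 76) (nat_lit 8898503412) (nat_lit 78) (nat_lit 5) (nat_lit 81) (nat_lit 5) (nat_lit 79) (nat_lit 5) (nat_lit 538) (nat_lit 450) (nat_lit 212))) (XT.nd (nat_lit 78) (nat_lit 0) (nat_lit 0) (XT.lf (nat_lit 0) (nat_lit 14127756865) (nat_lit 152) (nat_lit 50539940897) (nat_lit 228) (nat_lit 22137362066) (nat_lit 76) (nat_lit 5) (nat_lit 78) (nat_lit 5) (nat_lit 79) (nat_lit 5) (nat_lit 539) (nat_lit 450) (nat_lit 211)) (XT.lf (nat_lit 0) (nat_lit 64372154022) (nat_lit 152) (nat_lit 23788949896) (nat_lit 228) (nat_lit 422629436) (nat_lit 76) (nat_lit 5) (nat_lit 78) (nat_lit 5) (nat_lit 79) (nat_lit 5) (nat_lit 540) (nat_lit 450) (nat_lit 210))))) (XT.nd (nat_lit 312) (nat_lit 228) (nat_lit 0) (XT.nd (nat_lit 156) (nat_lit 152) (nat_lit 0) (XT.nd (nat_lit 78) (nat_lit 0) (nat_lit 0) (XT.lf (nat_lit 0) (nat_lit 21804671494) (nat_lit 228) (nat_lit 64440607549) (nat_lit 76) (nat_lit 4155480367) (nat_lit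 73) (nat_lit 5) (nat_lit 76) (nat_lit 5) (nat_lit 74) (nat_lit 5) (nat_lit 541) (nat_lit 450) (nat_lit 209)) (XT.lf (nat_lit 0) (nat_lit 45171382863) (nat_lit 228) (nat_lit 14376220198) (nat_lit 76) (nat_lit 32710135161) (nat_lit 73) (nat_lit 5) (nat_lit 76) (nat_lit 5) (nat_lit 74) (nat_lit 5) (nat_lit 542) (nat_lit 450) (nat_lit 208))) (XT.nd (nat_lit 78) (nat_lit 0) (nat_lit 0) (XT.lf (nat_lit 0) (nat_lit 37927810885) (nat_lit 152) (nat_lit 31674551096) (nat_lit 228) (nat_lit 24557166506) (nat_lit 71) (nat_lit 5) (nat_lit 73) (nat_lit 5) (nat_lit 74) (nat_lit 5) (nat_lit 543) (nat_lit 450) (nat_lit 207)) (XT.lf (nat_lit 0) (nat_lit 92093288724) (nat_lit 152) (nat_lit 2816850079) (nat_lit 228) (nat_lit 1203917685) (nat_lit 71) (nat_lit 5) (nat_lit 73) (nat_lit 5) (nat_lit 74) (nat_lit 5) (nat_lit 544) (nat_lit 450) (nat_lit 206)))) (XT.nd (nat_lit 55224) (nat_lit 0) (nat_lit 15656) (XT.nd (nat_lit 55146) (nat_lit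 0) (nat_lit 15656) (XT.lf (nat_lit 0) (nat_lit 23154014325) (nat_lit 228) (nat_lit 47851347302) (nat_lit 76) (nat_lit 27092770248) (nat_lit 68) (nat_lit 5) (nat_lit 71) (nat_lit 5) (nat_lit 69) (nat_lit 5) (nat_lit 545) (nat_lit 450) (nat_lit 205)) (XT.lf (nat_lit 0) (nat_lit 1558686836) (nat_lit 1292) (nat_lit 3842193763) (nat_lit 1292) (nat_lit 3842193763) (nat_lit 274) (nat_lit 3) (nat_lit 291) (nat_lit 3) (nat_lit 291) (nat_lit 5) (nat_lit 451) (nat_lit 451) (nat_lit 298))) (XT.nd (nat_lit 78) (nat_lit 0) (nat_lit 76) (XT.lf (nat_lit 76) (nat_lit 1401284485) (nat_lit 0) (nat_lit 1968654331) (nat_lit 1292) (nat_lit 15387283256) (nat_lit 275) (nat_lit 5) (nat_lit 274) (nat_lit 3) (nat_lit 291) (nat_lit 5) (nat_lit 452) (nat_lit 451) (nat_lit 297)) (XT.lf (nat_lit 0) (nat_lit 3769469468) (nat_lit 1216) (nat_lit 8190557763) (nat_lit 1292) (nat_lit 7072220479) (nat_lit 275) (nat_lit 5) (nat_lit 291) (nat_lit 5)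 (nat_lit 292) (nat_lit 5) (nat_lit 453) (nat_lit 451) (nat_lit 296))))))) (XT.nd (nat_lit 1170) (nat_lit 4712) (nat_lit 0) (XT.nd (nat_lit 546) (nat_lit 684) (nat_lit 0) (XT.nd (nat_lit 234) (nat_lit 0) (nat_lit 152) (XT.nd (nat_lit 78) (nat_lit 0) (nat_lit 76) (XT.lf (nat_lit 76) (nat_lit 1250612043) (nat_lit 0) (nat_lit 2954596421) (nat_lit 1292) (nat_lit 15109590675) (nat_lit 276) (nat_lit 5) (nat_lit 275) (nat_lit 5) (nat_lit 292) (nat_lit 5) (nat_lit 454) (nat_lit 451) (nat_lit 295)) (XT.nd (nat_lit 78) (nat_lit 0) (nat_lit 0) (XT.lf (nat_lit 0) (nat_lit 4791220575) (nat_lit 1216) (nat_lit 8526299106) (nat_lit 1292) (nat_lit 6284193049) (nat_lit 276) (nat_lit 5) (nat_lit 292) (nat_lit 5) (nat_lit 293) (nat_lit 5) (nat_lit 455) (nat_lit 451) (nat_lit 294)) (XT.lf (nat_lit 76) (nat_lit 1289470812) (nat_lit 0) (nat_lit 4140109470) (nat_lit 1292) (nat_lit 14466612027) (nat_lit 277) (nat_lit 5) (nat_lit 276) (nat_lit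 5) (nat_lit 293) (nat_lit 5) (nat_lit 456) (nat_lit 451) (nat_lit 293)))) (XT.nd (nat_lit 156) (nat_lit 0) (nat_lit 76) (XT.nd (nat_lit 78) (nat_lit 0) (nat_lit 0) (XT.lf (nat_lit 0) (nat_lit 6218414724) (nat_lit 1216) (nat_lit 8678700182) (nat_lit 1292) (nat_lit 5298453204) (nat_lit 277) (nat_lit 5) (nat_lit 293) (nat_lit 5) (nat_lit 294) (nat_lit 5) (nat_lit 457) (nat_lit 451) (nat_lit 292)) (XT.lf (nat_lit 76) (nat_lit 1531838168) (nat_lit 0) (nat_lit 5548291590) (nat_lit 1292) (nat_lit 13422320466) (nat_lit 278) (nat_lit 5) (nat_lit 277) (nat_lit 5) (nat_lit 294) (nat_lit 5) (nat_lit 458) (nat_lit 451) (nat_lit 291))) (XT.nd (nat_lit 78) (nat_lit 0) (nat_lit 0) (XT.lf (nat_lit 0) (nat_lit 8089100223) (nat_lit 1216) (nat_lit 8633804431) (nat_lit 1292) (nat_lit 4091993490) (nat_lit 278) (nat_lit 5) (nat_lit 294) (nat_lit 5) (nat_lit 295) (nat_lit 5) (nat_lit 459) (nat_lit 451) (nat_lit 290)) (XT.lf (nat_lit 76)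 (nat_lit 1992792891) (nat_lit 0) (nat_lit 7203490211) (nat_lit 1292) (nat_lit 11938399521) (nat_lit 279) (nat_lit 5) (nat_lit 278) (nat_lit 5) (nat_lit 295) (nat_lit 5) (nat_lit 460) (nat_lit 451) (nat_lit 289))))) (XT.nd (nat_lit 312) (nat_lit 988) (nat_lit 0) (XT.nd (nat_lit 156) (nat_lit 0) (nat_lit 76) (XT.nd (nat_lit 78) (nat_lit 0) (nat_lit 0) (XT.lf (nat_lit 0) (nat_lit 10443745752) (nat_lit 1216) (nat_lit 8376567353) (nat_lit 1292) (nat_lit 2640536981) (nat_lit 279) (nat_lit 5) (nat_lit 295) (nat_lit 5) (nat_lit 296) (nat_lit 5) (nat_lit 461) (nat_lit 451) (nat_lit 288)) (XT.lf (nat_lit 76) (nat_lit 2688560963) (nat_lit 0) (nat_lit 9131420887) (nat_lit 1292) (nat_lit 9974081574) (nat_lit 280) (nat_lit 5) (nat_lit 279) (nat_lit 5) (nat_lit 296) (nat_lit 5) (nat_lit 462) (nat_lit 451) (nat_lit 287))) (XT.nd (nat_lit 78) (nat_lit 0) (nat_lit 0) (XT.lf (nat_lit 0) (nat_lit 13325408347) (nat_lit 1216) (nat_lit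 7890810487) (nat_lit 1292) (nat_lit 918418529) (nat_lit 280) (nat_lit 5) (nat_lit 296) (nat_lit 5) (nat_lit 297) (nat_lit 5) (nat_lit 463) (nat_lit 451) (nat_lit 286)) (XT.lf (nat_lit 76) (nat_lit 3636564751) (nat_lit 0) (nat_lit 11359291235) (nat_lit 1292) (nat_lit 7485978046) (nat_lit 281) (nat_lit 5) (nat_lit 280) (nat_lit 5) (nat_lit 297) (nat_lit 5) (nat_lit 464) (nat_lit 451) (nat_lit 285)))) (XT.nd (nat_lit 156) (nat_lit 1064) (nat_lit 0) (XT.nd (nat_lit 78) (nat_lit 0) (nat_lit 76) (XT.lf (nat_lit 76) (nat_lit 15667247513) (nat_lit 0) (nat_lit 1123462030) (nat_lit 1292) (nat_lit 6046509506) (nat_lit 281) (nat_lit 5) (nat_lit 280) (nat_lit 5) (nat_lit 297) (nat_lit 5) (nat_lit 465) (nat_lit 451) (nat_lit 284)) (XT.lf (nat_lit 76) (nat_lit 4855475580) (nat_lit 0) (nat_lit 13915930580) (nat_lit 1292) (nat_lit 4427900724) (nat_lit 282) (nat_lit 5) (nat_lit 281) (nat_lit 5) (nat_lit 298) (nat_lit 5) (nat_lit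 466) (nat_lit 451) (nat_lit 283))) (XT.nd (nat_lit 78) (nat_lit 1140) (nat_lit 0) (XT.lf (nat_lit 76) (nat_lit 17373049072) (nat_lit 0) (nat_lit 3516780852) (nat_lit 1292) (nat_lit 2680079397) (nat_lit 282) (nat_lit 5) (nat_lit 281) (nat_lit 5) (nat_lit 298) (nat_lit 5) (nat_lit 467) (nat_lit 451) (nat_lit 282)) (XT.lf (nat_lit 0) (nat_lit 6365269716) (nat_lit 1216) (nat_lit 16831925946) (nat_lit 1292) (nat_lit 750673611) (nat_lit 266) (nat_lit 5) (nat_lit 282) (nat_lit 5) (nat_lit 283) (nat_lit 5) (nat_lit 468) (nat_lit 451) (nat_lit 281)))))) (XT.nd (nat_lit 624) (nat_lit 2128) (nat_lit 0) (XT.nd (nat_lit 312) (nat_lit 1140) (nat_lit 0) (XT.nd (nat_lit 156) (nat_lit 608) (nat_lit 0) (XT.nd (nat_lit 78) (nat_lit 760) (nat_lit 0) (XT.lf (nat_lit 0) (nat_lit 1305599069) (nat_lit 1292) (nat_lit 4955683387) (nat_lit 76) (nat_lit 18072736546) (nat_lit 265) (nat_lit 5) (nat_lit 282) (nat_lit 5) (nat_lit 266) (nat_lit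 5) (nat_lit 469) (nat_lit 451) (nat_lit 280)) (XT.lf (nat_lit 0) (nat_lit 3527854116) (nat_lit 836) (nat_lit 16576286478) (nat_lit 76) (nat_lit 4623809223) (nat_lit 255) (nat_lit 5) (nat_lit 266) (nat_lit 5) (nat_lit 256) (nat_lit 5) (nat_lit 470) (nat_lit 451) (nat_lit 279))) (XT.nd (nat_lit 78) (nat_lit 608) (nat_lit 0) (XT.lf (nat_lit 0) (nat_lit 5924653552) (nat_lit 836) (nat_lit 3445204825) (nat_lit 76) (nat_lit 15760604874) (nat_lit 255) (nat_lit 5) (nat_lit 266) (nat_lit 5) (nat_lit 256) (nat_lit 5) (nat_lit 471) (nat_lit 451) (nat_lit 278)) (XT.lf (nat_lit 0) (nat_lit 8504810804) (nat_lit 684) (nat_lit 15283293950) (nat_lit 76) (nat_lit 1753604685) (nat_lit 247) (nat_lit 5) (nat_lit 256) (nat_lit 5) (nat_lit 248) (nat_lit 5) (nat_lit 472) (nat_lit 451) (nat_lit 277)))) (XT.nd (nat_lit 156) (nat_lit 532) (nat_lit 0) (XT.nd (nat_lit 78) (nat_lit 608) (nat_lit 0) (XT.lf (nat_lit 0) (nat_lit 11285853190) (nat_lit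 684) (nat_lit 1617901877) (nat_lit 76) (nat_lit 13057834473) (nat_lit 247) (nat_lit 5) (nat_lit 256) (nat_lit 5) (nat_lit 248) (nat_lit 5) (nat_lit 473) (nat_lit 451) (nat_lit 276)) (XT.lf (nat_lit 0) (nat_lit 12701116917) (nat_lit 608) (nat_lit 1567004983) (nat_lit 684) (nat_lit 12122411203) (nat_lit 239) (nat_lit 5) (nat_lit 247) (nat_lit 5) (nat_lit 248) (nat_lit 5) (nat_lit 474) (nat_lit 451) (nat_lit 275))) (XT.nd (nat_lit 78) (nat_lit 0) (nat_lit 0) (XT.lf (nat_lit 0) (nat_lit 560340809) (nat_lit 532) (nat_lit 16894375816) (nat_lit 608) (nat_lit 9374183494) (nat_lit 232) (nat_lit 5) (nat_lit 239) (nat_lit 5) (nat_lit 240) (nat_lit 5) (nat_lit 475) (nat_lit 451) (nat_lit 274)) (XT.lf (nat_lit 0) (nat_lit 15498161782) (nat_lit 532) (nat_lit 5388218649) (nat_lit 608) (nat_lit 6389554436) (nat_lit 232) (nat_lit 5) (nat_lit 239) (nat_lit 5) (nat_lit 240) (nat_lit 5) (nat_lit 476) (nat_lit 451) (nat_lit 273)))))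 (XT.nd (nat_lit 312) (nat_lit 988) (nat_lit 0) (XT.nd (nat_lit 156) (nat_lit 532) (nat_lit 0) (XT.nd (nat_lit 78) (nat_lit 76) (nat_lit 0) (XT.lf (nat_lit 0) (nat_lit 3142713108) (nat_lit 532) (nat_lit 21366609728) (nat_lit 608) (nat_lit 3224408796) (nat_lit 225) (nat_lit 5) (nat_lit 232) (nat_lit 5) (nat_lit 233) (nat_lit 5) (nat_lit 477) (nat_lit 451) (nat_lit 272)) (XT.lf (nat_lit 0) (nat_lit 204481764) (nat_lit 608) (nat_lit 9508577185) (nat_lit 76) (nat_lit 18487109234) (nat_lit 224) (nat_lit 5) (nat_lit 232) (nat_lit 5) (nat_lit 225) (nat_lit 5) (nat_lit 478) (nat_lit 451) (nat_lit 271))) (XT.nd (nat_lit 78) (nat_lit 0) (nat_lit 0) (XT.lf (nat_lit 0) (nat_lit 3749212536) (nat_lit 608) (nat_lit 22591408700) (nat_lit 76) (nat_lit 2336686184) (nat_lit 217) (nat_lit 5) (nat_lit 225) (nat_lit 5) (nat_lit 218) (nat_lit 5) (nat_lit 479) (nat_lit 451) (nat_lit 270)) (XT.lf (nat_lit 0) (nat_lit 7589636759) (nat_lit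 608) (nat_lit 6924081262) (nat_lit 76) (nat_lit 14649363010) (nat_lit 217) (nat_lit 5) (nat_lit 225) (nat_lit 5) (nat_lit 218) (nat_lit 5) (nat_lit 480) (nat_lit 451) (nat_lit 269)))) (XT.nd (nat_lit 156) (nat_lit 456) (nat_lit 0) (XT.nd (nat_lit 78) (nat_lit 0) (nat_lit 0) (XT.lf (nat_lit 0) (nat_lit 9392462492) (nat_lit 532) (nat_lit 2239421551) (nat_lit 608) (nat_lit 18028946215) (nat_lit 210) (nat_lit 5) (nat_lit 217) (nat_lit 5) (nat_lit 218) (nat_lit 5) (nat_lit 481) (nat_lit 451) (nat_lit 268)) (XT.lf (nat_lit 0) (nat_lit 15962399891) (nat_lit 608) (nat_lit 3935817174) (nat_lit 76) (nat_lit 10270285563) (nat_lit 210) (nat_lit 5) (nat_lit 218) (nat_lit 5) (nat_lit 211) (nat_lit 5) (nat_lit 482) (nat_lit 451) (nat_lit 267))) (XT.nd (nat_lit 78) (nat_lit 0) (nat_lit 0) (XT.lf (nat_lit 0) (nat_lit 13116458676) (nat_lit 456) (nat_lit 7451121877) (nat_lit 532) (nat_lit 10119482812) (nat_lit 204) (nat_lit 5) (nat_lit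 210) (nat_lit 5) (nat_lit 211) (nat_lit 5) (nat_lit 483) (nat_lit 451) (nat_lit 266)) (XT.lf (nat_lit 0) (nat_lit 25399219974) (nat_lit 532) (nat_lit 515100064) (nat_lit 76) (nat_lit 5304212446) (nat_lit 204) (nat_lit 5) (nat_lit 211) (nat_lit 5) (nat_lit 205) (nat_lit 5) (nat_lit 484) (nat_lit 451) (nat_lit 265))))))))
noncomputable def xc202 : XT := (XT.nd (nat_lit 2340) (nat_lit 3572) (nat_lit 0) (XT.nd (nat_lit 1170) (nat_lit 2736) (nat_lit 0) (XT.nd (nat_lit 546) (nat_lit 1976) (nat_lit 0) (XT.nd (nat_lit 234) (nat_lit 836) (nat_lit 0) (XT.nd (nat_lit 78) (nat_lit 532) (nat_lit 0) (XT.lf (nat_lit 0) (nat_lit 17312150348) (nat_lit 456) (nat_lit 13300499090) (nat_lit 532) (nat_lit 1146191651) (nat_lit 198) (nat_lit 5) (nat_lit 204) (nat_lit 5) (nat_lit 205) (nat_lit 5) (nat_lit 485) (nat_lit 451) (nat_lit 264)) (XT.nd (nat_lit 78) (nat_lit 0) (nat_lit 0) (XT.lf (nat_lit 0) (nat_lit 3396555239) (nat_lit 456)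 (nat_lit 233590555) (nat_lit 532) (nat_lit 28683118790) (nat_lit 191) (nat_lit 5) (nat_lit 197) (nat_lit 5) (nat_lit 198) (nat_lit 5) (nat_lit 486) (nat_lit 451) (nat_lit 263)) (XT.lf (nat_lit 0) (nat_lit 8797924586) (nat_lit 532) (nat_lit 10952674099) (nat_lit 76) (nat_lit 13125246574) (nat_lit 191) (nat_lit 5) (nat_lit 198) (nat_lit 5) (nat_lit 192) (nat_lit 5) (nat_lit 487) (nat_lit 451) (nat_lit 262)))) (XT.nd (nat_lit 156) (nat_lit 380) (nat_lit 0) (XT.nd (nat_lit 78) (nat_lit 0) (nat_lit 0) (XT.lf (nat_lit 0) (nat_lit 7694179839) (nat_lit 456) (nat_lit 6499657043) (nat_lit 532) (nat_lit 19259274037) (nat_lit 185) (nat_lit 5) (nat_lit 191) (nat_lit 5) (nat_lit 192) (nat_lit 5) (nat_lit 488) (nat_lit 451) (nat_lit 261)) (XT.lf (nat_lit 0) (nat_lit 19928914687) (nat_lit 532) (nat_lit 6993210765) (nat_lit 76) (nat_lit 7120251003) (nat_lit 185) (nat_lit 5) (nat_lit 192) (nat_lit 5) (nat_lit 186) (nat_lit 5) (nat_lit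 489) (nat_lit 451) (nat_lit 260))) (XT.nd (nat_lit 78) (nat_lit 0) (nat_lit 0) (XT.lf (nat_lit 0) (nat_lit 12511407746) (nat_lit 380) (nat_lit 13506222271) (nat_lit 456) (nat_lit 8626242922) (nat_lit 180) (nat_lit 5) (nat_lit 185) (nat_lit 5) (nat_lit 186) (nat_lit 5) (nat_lit 490) (nat_lit 451) (nat_lit 259)) (XT.lf (nat_lit 0) (nat_lit 32360332750) (nat_lit 456) (nat_lit 2524383911) (nat_lit 76) (nat_lit 376558396) (nat_lit 180) (nat_lit 5) (nat_lit 186) (nat_lit 5) (nat_lit 181) (nat_lit 5) (nat_lit 491) (nat_lit 451) (nat_lit 258))))) (XT.nd (nat_lit 312) (nat_lit 760) (nat_lit 0) (XT.nd (nat_lit 156) (nat_lit 380) (nat_lit 0) (XT.nd (nat_lit 78) (nat_lit 380) (nat_lit 0) (XT.lf (nat_lit 0) (nat_lit 3243375672) (nat_lit 456) (nat_lit 18036524807) (nat_lit 76) (nat_lit 14607263533) (nat_lit 174) (nat_lit 5) (nat_lit 180) (nat_lit 5) (nat_lit 175) (nat_lit 5) (nat_lit 492) (nat_lit 451) (nat_lit 257)) (XT.lf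 (nat_lit 0) (nat_lit 2371075175) (nat_lit 380) (nat_lit 7188293146) (nat_lit 456) (nat_lit 26970230588) (nat_lit 169) (nat_lit 5) (nat_lit 174) (nat_lit 5) (nat_lit 175) (nat_lit 5) (nat_lit 493) (nat_lit 451) (nat_lit 256))) (XT.nd (nat_lit 78) (nat_lit 380) (nat_lit 0) (XT.lf (nat_lit 0) (nat_lit 16316354124) (nat_lit 456) (nat_lit 13501287625) (nat_lit 76) (nat_lit 7366120164) (nat_lit 169) (nat_lit 5) (nat_lit 175) (nat_lit 5) (nat_lit 170) (nat_lit 5) (nat_lit 494) (nat_lit 451) (nat_lit 255)) (XT.lf (nat_lit 0) (nat_lit 7854013552) (nat_lit 380) (nat_lit 15565941589) (nat_lit 456) (nat_lit 14433277947) (nat_lit 164) (nat_lit 5) (nat_lit 169) (nat_lit 5) (nat_lit 170) (nat_lit 5) (nat_lit 495) (nat_lit 451) (nat_lit 254)))) (XT.nd (nat_lit 156) (nat_lit 456) (nat_lit 0) (XT.nd (nat_lit 78) (nat_lit 304) (nat_lit 0) (XT.lf (nat_lit 0) (nat_lit 30123032713) (nat_lit 380) (nat_lit 747249719) (nat_lit 456) (nat_lit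 7668497853) (nat_lit 164) (nat_lit 5) (nat_lit 169) (nat_lit 5) (nat_lit 170) (nat_lit 5) (nat_lit 496) (nat_lit 451) (nat_lit 253)) (XT.lf (nat_lit 0) (nat_lit 13944125239) (nat_lit 304) (nat_lit 24870922149) (nat_lit 380) (nat_lit 421719098) (nat_lit 160) (nat_lit 5) (nat_lit 164) (nat_lit 5) (nat_lit 165) (nat_lit 5) (nat_lit 497) (nat_lit 451) (nat_lit 252))) (XT.nd (nat_lit 78) (nat_lit 380) (nat_lit 0) (XT.lf (nat_lit 0) (nat_lit 6995629385) (nat_lit 380) (nat_lit 2885453928) (nat_lit 76) (nat_lit 30069860758) (nat_lit 159) (nat_lit 5) (nat_lit 164) (nat_lit 5) (nat_lit 160) (nat_lit 5) (nat_lit 498) (nat_lit 451) (nat_lit 251)) (XT.lf (nat_lit 0) (nat_lit 14877792666) (nat_lit 456) (nat_lit 20148041649) (nat_lit 76) (nat_lit 5653064678) (nat_lit 154) (nat_lit 5) (nat_lit 160) (nat_lit 5) (nat_lit 155) (nat_lit 5) (nat_lit 499) (nat_lit 451) (nat_lit 250)))))) (XT.nd (nat_lit 546) (nat_lit 1444) (nat_lit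 0) (XT.nd (nat_lit 234) (nat_lit 684) (nat_lit 0) (XT.nd (nat_lit 78) (nat_lit 304) (nat_lit 0) (XT.lf (nat_lit 0) (nat_lit 3242533831) (nat_lit 304) (nat_lit 19909789571) (nat_lit 380) (nat_lit 18271692459) (nat_lit 150) (nat_lit 5) (nat_lit 154) (nat_lit 5) (nat_lit 155) (nat_lit 5) (nat_lit 500) (nat_lit 451) (nat_lit 249)) (XT.nd (nat_lit 78) (nat_lit 304) (nat_lit 0) (XT.lf (nat_lit 0) (nat_lit 27744269867) (nat_lit 304) (nat_lit 4131790035) (nat_lit 380) (nat_lit 10309397603) (nat_lit 150) (nat_lit 5) (nat_lit 154) (nat_lit 5) (nat_lit 155) (nat_lit 5) (nat_lit 501) (nat_lit 451) (nat_lit 248)) (XT.lf (nat_lit 0) (nat_lit 10088140617) (nat_lit 304) (nat_lit 30984418178) (nat_lit 380) (nat_lit 1890852449) (nat_lit 146) (nat_lit 5) (nat_lit 150) (nat_lit 5) (nat_lit 151) (nat_lit 5) (nat_lit 502) (nat_lit 451) (nat_lit 247)))) (XT.nd (nat_lit 156) (nat_lit 304) (nat_lit 0) (XT.nd (nat_lit 78) (nat_lit 304)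 (nat_lit 0) (XT.lf (nat_lit 0) (nat_lit 6833711723) (nat_lit 380) (nat_lit 8222022506) (nat_lit 76) (nat_lit 28701441329) (nat_lit 145) (nat_lit 5) (nat_lit 150) (nat_lit 5) (nat_lit 146) (nat_lit 5) (nat_lit 503) (nat_lit 451) (nat_lit 246)) (XT.lf (nat_lit 0) (nat_lit 15962616503) (nat_lit 380) (nat_lit 27094089314) (nat_lit 76) (nat_lit 1512067431) (nat_lit 141) (nat_lit 5) (nat_lit 146) (nat_lit 5) (nat_lit 142) (nat_lit 5) (nat_lit 504) (nat_lit 451) (nat_lit 245))) (XT.nd (nat_lit 78) (nat_lit 304) (nat_lit 0) (XT.lf (nat_lit 0) (nat_lit 25595987897) (nat_lit 380) (nat_lit 1444747836) (nat_lit 76) (nat_lit 18357065467) (nat_lit 141) (nat_lit 5) (nat_lit 146) (nat_lit 5) (nat_lit 142) (nat_lit 5) (nat_lit 505) (nat_lit 451) (nat_lit 244)) (XT.lf (nat_lit 0) (nat_lit 25467674898) (nat_lit 304) (nat_lit 10293248295) (nat_lit 380) (nat_lit 10483500220) (nat_lit 137) (nat_lit 5) (nat_lit 141) (nat_lit 5) (nat_lit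 142) (nat_lit 5) (nat_lit 506) (nat_lit 451) (nat_lit 243))))) (XT.nd (nat_lit 312) (nat_lit 836) (nat_lit 0) (XT.nd (nat_lit 156) (nat_lit 304) (nat_lit 0) (XT.nd (nat_lit 78) (nat_lit 76) (nat_lit 0) (XT.lf (nat_lit 0) (nat_lit 6150697661) (nat_lit 228) (nat_lit 40218613027) (nat_lit 304) (nat_lit 742978775) (nat_lit 134) (nat_lit 5) (nat_lit 137) (nat_lit 5) (nat_lit 138) (nat_lit 5) (nat_lit 507) (nat_lit 451) (nat_lit 242)) (XT.lf (nat_lit 0) (nat_lit 9420061883) (nat_lit 304) (nat_lit 13884715828) (nat_lit 76) (nat_lit 24689387693) (nat_lit 133) (nat_lit 5) (nat_lit 137) (nat_lit 5) (nat_lit 134) (nat_lit 5) (nat_lit 508) (nat_lit 451) (nat_lit 241))) (XT.nd (nat_lit 78) (nat_lit 0) (nat_lit 0) (XT.lf (nat_lit 0) (nat_lit 14272314261) (nat_lit 304) (nat_lit 5735790260) (nat_lit 380) (nat_lit 28890121368) (nat_lit 129) (nat_lit 5) (nat_lit 133) (nat_lit 5) (nat_lit 134) (nat_lit 5) (nat_lit 509) (nat_lit 451)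 (nat_lit 240)) (XT.lf (nat_lit 0) (nat_lit 31172069351) (nat_lit 380) (nat_lit 6390046906) (nat_lit 76) (nat_lit 12259543769) (nat_lit 129) (nat_lit 5) (nat_lit 134) (nat_lit 5) (nat_lit 130) (nat_lit 5) (nat_lit 510) (nat_lit 451) (nat_lit 239)))) (XT.nd (nat_lit 156) (nat_lit 228) (nat_lit 0) (XT.nd (nat_lit 78) (nat_lit 380) (nat_lit 0) (XT.lf (nat_lit 0) (nat_lit 23083318524) (nat_lit 228) (nat_lit 19864247484) (nat_lit 304) (nat_lit 7816933049) (nat_lit 126) (nat_lit 5) (nat_lit 129) (nat_lit 5) (nat_lit 130) (nat_lit 5) (nat_lit 511) (nat_lit 451) (nat_lit 238)) (XT.lf (nat_lit 0) (nat_lit 1838069211) (nat_lit 304) (nat_lit 1518221414) (nat_lit 380) (nat_lit 48375946220) (nat_lit 121) (nat_lit 5) (nat_lit 125) (nat_lit 5) (nat_lit 126) (nat_lit 5) (nat_lit 512) (nat_lit 451) (nat_lit 237))) (XT.nd (nat_lit 78) (nat_lit 228) (nat_lit 0) (XT.lf (nat_lit 0) (nat_lit 15154900324) (nat_lit 380) (nat_lit 20160751886)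 (nat_lit 76) (nat_lit 17397613875) (nat_lit 121) (nat_lit 5) (nat_lit 126) (nat_lit 5) (nat_lit 122) (nat_lit 5) (nat_lit 513) (nat_lit 451) (nat_lit 236)) (XT.lf (nat_lit 0) (nat_lit 10654382845) (nat_lit 228) (nat_lit 16768552205) (nat_lit 304) (nat_lit 26297327375) (nat_lit 118) (nat_lit 5) (nat_lit 121) (nat_lit 5) (nat_lit 122) (nat_lit 5) (nat_lit 514) (nat_lit 451) (nat_lit 235))))))) (XT.nd (nat_lit 1170) (nat_lit 1672) (nat_lit 0) (XT.nd (nat_lit 546) (nat_lit 912) (nat_lit 0) (XT.nd (nat_lit 234) (nat_lit 684) (nat_lit 0) (XT.nd (nat_lit 78) (nat_lit 304) (nat_lit 0) (XT.lf (nat_lit 0) (nat_lit 40285090436) (nat_lit 304) (nat_lit 11971748225) (nat_lit 76) (nat_lit 2493847828) (nat_lit 118) (nat_lit 5) (nat_lit 122) (nat_lit 5) (nat_lit 119) (nat_lit 5) (nat_lit 515) (nat_lit 451) (nat_lit 234)) (XT.nd (nat_lit 78) (nat_lit 76) (nat_lit 0) (XT.lf (nat_lit 0) (nat_lit 20281873031) (nat_lit 228) (nat_lit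 33610316529) (nat_lit 304) (nat_lit 1909061556) (nat_lit 115) (nat_lit 5) (nat_lit 118) (nat_lit 5) (nat_lit 119) (nat_lit 5) (nat_lit 516) (nat_lit 451) (nat_lit 233)) (XT.lf (nat_lit 0) (nat_lit 10929235302) (nat_lit 304) (nat_lit 3241450904) (nat_lit 76) (nat_lit 42705861919) (nat_lit 114) (nat_lit 5) (nat_lit 118) (nat_lit 5) (nat_lit 115) (nat_lit 5) (nat_lit 517) (nat_lit 451) (nat_lit 232)))) (XT.nd (nat_lit 156) (nat_lit 228) (nat_lit 0) (XT.nd (nat_lit 78) (nat_lit 228) (nat_lit 0) (XT.lf (nat_lit 0) (nat_lit 24465756488) (nat_lit 304) (nat_lit 27454482531) (nat_lit 76) (nat_lit 6052754803) (nat_lit 111) (nat_lit 5) (nat_lit 115) (nat_lit 5) (nat_lit 112) (nat_lit 5) (nat_lit 518) (nat_lit 451) (nat_lit 231)) (XT.lf (nat_lit 0) (nat_lit 6234381987) (nat_lit 228) (nat_lit 32405449169) (nat_lit 304) (nat_lit 20455558189) (nat_lit 108) (nat_lit 5) (nat_lit 111) (nat_lit 5) (nat_lit 112) (nat_lit 5) (nat_lit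 519) (nat_lit 451) (nat_lit 230))) (XT.nd (nat_lit 78) (nat_lit 228) (nat_lit 0) (XT.lf (nat_lit 0) (nat_lit 41493718607) (nat_lit 228) (nat_lit 12020839497) (nat_lit 304) (nat_lit 6728635913) (nat_lit 108) (nat_lit 5) (nat_lit 111) (nat_lit 5) (nat_lit 112) (nat_lit 5) (nat_lit 520) (nat_lit 451) (nat_lit 229)) (XT.lf (nat_lit 0) (nat_lit 7512192749) (nat_lit 228) (nat_lit 44871239898) (nat_lit 76) (nat_lit 9032462555) (nat_lit 105) (nat_lit 5) (nat_lit 108) (nat_lit 5) (nat_lit 106) (nat_lit 5) (nat_lit 521) (nat_lit 451) (nat_lit 228))))) (XT.nd (nat_lit 312) (nat_lit 456) (nat_lit 0) (XT.nd (nat_lit 156) (nat_lit 228) (nat_lit 0) (XT.nd (nat_lit 78) (nat_lit 228) (nat_lit 0) (XT.lf (nat_lit 0) (nat_lit 22353474327) (nat_lit 228) (nat_lit 9526599652) (nat_lit 76) (nat_lit 30732450999) (nat_lit 105) (nat_lit 5) (nat_lit 108) (nat_lit 5) (nat_lit 106) (nat_lit 5) (nat_lit 522) (nat_lit 451) (nat_lit 227)) (XT.lf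 (nat_lit 0) (nat_lit 27410396067) (nat_lit 228) (nat_lit 10491376249) (nat_lit 304) (nat_lit 25935428157) (nat_lit 102) (nat_lit 5) (nat_lit 105) (nat_lit 5) (nat_lit 106) (nat_lit 5) (nat_lit 523) (nat_lit 451) (nat_lit 226))) (XT.nd (nat_lit 78) (nat_lit 76) (nat_lit 0) (XT.lf (nat_lit 0) (nat_lit 449077312) (nat_lit 152) (nat_lit 53678134914) (nat_lit 228) (nat_lit 10965083375) (nat_lit 100) (nat_lit 5) (nat_lit 102) (nat_lit 5) (nat_lit 103) (nat_lit 5) (nat_lit 524) (nat_lit 451) (nat_lit 225)) (XT.lf (nat_lit 0) (nat_lit 4841116512) (nat_lit 228) (nat_lit 27349270877) (nat_lit 76) (nat_lit 34179161833) (nat_lit 99) (nat_lit 5) (nat_lit 102) (nat_lit 5) (nat_lit 100) (nat_lit 5) (nat_lit 525) (nat_lit 451) (nat_lit 224)))) (XT.nd (nat_lit 156) (nat_lit 228) (nat_lit 0) (XT.nd (nat_lit 78) (nat_lit 0) (nat_lit 0) (XT.lf (nat_lit 0) (nat_lit 11170105960) (nat_lit 228) (nat_lit 9836741566) (nat_lit 304) (nat_lit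 46671844142) (nat_lit 96) (nat_lit 5) (nat_lit 99) (nat_lit 5) (nat_lit 100) (nat_lit 5) (nat_lit 526) (nat_lit 451) (nat_lit 223)) (XT.lf (nat_lit 0) (nat_lit 38061594101) (nat_lit 304) (nat_lit 17745429843) (nat_lit 76) (nat_lit 13207963276) (nat_lit 96) (nat_lit 5) (nat_lit 100) (nat_lit 5) (nat_lit 97) (nat_lit 5) (nat_lit 527) (nat_lit 451) (nat_lit 222))) (XT.nd (nat_lit 78) (nat_lit 76) (nat_lit 0) (XT.lf (nat_lit 0) (nat_lit 22519951046) (nat_lit 152) (nat_lit 33420317340) (nat_lit 228) (nat_lit 14441734832) (nat_lit 94) (nat_lit 5) (nat_lit 96) (nat_lit 5) (nat_lit 97) (nat_lit 5) (nat_lit 528) (nat_lit 451) (nat_lit 221)) (XT.lf (nat_lit 0) (nat_lit 2694604627) (nat_lit 228) (nat_lit 7456756174) (nat_lit 76) (nat_lit 61632547580) (nat_lit 93) (nat_lit 5) (nat_lit 96) (nat_lit 5) (nat_lit 94) (nat_lit 5) (nat_lit 529) (nat_lit 451) (nat_lit 220)))))) (XT.nd (nat_lit 624) (nat_lit 684) (nat_lit 0) (XT.nd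 (nat_lit 312) (nat_lit 380) (nat_lit 0) (XT.nd (nat_lit 156) (nat_lit 228) (nat_lit 0) (XT.nd (nat_lit 78) (nat_lit 152) (nat_lit 0) (XT.lf (nat_lit 0) (nat_lit 20524229033) (nat_lit 304) (nat_lit 38659103474) (nat_lit 76) (nat_lit 14026164913) (nat_lit 90) (nat_lit 5) (nat_lit 94) (nat_lit 5) (nat_lit 91) (nat_lit 5) (nat_lit 530) (nat_lit 451) (nat_lit 219)) (XT.lf (nat_lit 0) (nat_lit 3254618945) (nat_lit 152) (nat_lit 35840436990) (nat_lit 228) (nat_lit 35576608905) (nat_lit 88) (nat_lit 5) (nat_lit 90) (nat_lit 5) (nat_lit 91) (nat_lit 5) (nat_lit 531) (nat_lit 451) (nat_lit 218))) (XT.nd (nat_lit 78) (nat_lit 228) (nat_lit 0) (XT.lf (nat_lit 0) (nat_lit 47215596866) (nat_lit 152) (nat_lit 11396286743) (nat_lit 228) (nat_lit 17554147513) (nat_lit 88) (nat_lit 5) (nat_lit 90) (nat_lit 5) (nat_lit 91) (nat_lit 5) (nat_lit 532) (nat_lit 451) (nat_lit 217)) (XT.lf (nat_lit 0) (nat_lit 1266697198) (nat_lit 228)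 (nat_lit 62762625428) (nat_lit 76) (nat_lit 13667292954) (nat_lit 85) (nat_lit 5) (nat_lit 88) (nat_lit 5) (nat_lit 86) (nat_lit 5) (nat_lit 533) (nat_lit 451) (nat_lit 216)))) (XT.nd (nat_lit 156) (nat_lit 228) (nat_lit 0) (XT.nd (nat_lit 78) (nat_lit 152) (nat_lit 0) (XT.lf (nat_lit 0) (nat_lit 20705949801) (nat_lit 228) (nat_lit 18828067641) (nat_lit 76) (nat_lit 39721688027) (nat_lit 85) (nat_lit 5) (nat_lit 88) (nat_lit 5) (nat_lit 86) (nat_lit 5) (nat_lit 534) (nat_lit 451) (nat_lit 215)) (XT.lf (nat_lit 0) (nat_lit 26947861457) (nat_lit 152) (nat_lit 14038132526) (nat_lit 228) (nat_lit 39867845760) (nat_lit 83) (nat_lit 5) (nat_lit 85) (nat_lit 5) (nat_lit 86) (nat_lit 5) (nat_lit 535) (nat_lit 451) (nat_lit 214))) (XT.nd (nat_lit 78) (nat_lit 228) (nat_lit 0) (XT.lf (nat_lit 0) (nat_lit 62182521721) (nat_lit 228) (nat_lit 8133085244) (nat_lit 76) (nat_lit 12175068715) (nat_lit 83) (nat_lit 5) (nat_lit 86)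 (nat_lit 5) (nat_lit 84) (nat_lit 5) (nat_lit 536) (nat_lit 451) (nat_lit 213)) (XT.lf (nat_lit 0) (nat_lit 365327233) (nat_lit 228) (nat_lit 44519462918) (nat_lit 76) (nat_lit 39276157947) (nat_lit 80) (nat_lit 5) (nat_lit 83) (nat_lit 5) (nat_lit 81) (nat_lit 5) (nat_lit 537) (nat_lit 451) (nat_lit 212))))) (XT.nd (nat_lit 312) (nat_lit 380) (nat_lit 0) (XT.nd (nat_lit 156) (nat_lit 152) (nat_lit 0) (XT.nd (nat_lit 78) (nat_lit 0) (nat_lit 0) (XT.lf (nat_lit 0) (nat_lit 2991180396) (nat_lit 152) (nat_lit 18369979472) (nat_lit 228) (nat_lit 64510827166) (nat_lit 78) (nat_lit 5) (nat_lit 80) (nat_lit 5) (nat_lit 81) (nat_lit 5) (nat_lit 538) (nat_lit 451) (nat_lit 211)) (XT.lf (nat_lit 0) (nat_lit 43525449982) (nat_lit 228) (nat_lit 34873971418) (nat_lit 76) (nat_lit 9218778354) (nat_lit 78) (nat_lit 5) (nat_lit 81) (nat_lit 5) (nat_lit 79) (nat_lit 5) (nat_lit 539) (nat_lit 451) (nat_lit 210))) (XT.nd (nat_lit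 78) (nat_lit 0) (nat_lit 0) (XT.lf (nat_lit 0) (nat_lit 14675165906) (nat_lit 152) (nat_lit 52001123111) (nat_lit 228) (nat_lit 22730861320) (nat_lit 76) (nat_lit 5) (nat_lit 78) (nat_lit 5) (nat_lit 79) (nat_lit 5) (nat_lit 540) (nat_lit 451) (nat_lit 209)) (XT.lf (nat_lit 0) (nat_lit 66423295667) (nat_lit 152) (nat_lit 24449204788) (nat_lit 228) (nat_lit 366743651) (nat_lit 76) (nat_lit 5) (nat_lit 78) (nat_lit 5) (nat_lit 79) (nat_lit 5) (nat_lit 541) (nat_lit 451) (nat_lit 208)))) (XT.nd (nat_lit 156) (nat_lit 152) (nat_lit 0) (XT.nd (nat_lit 78) (nat_lit 0) (nat_lit 0) (XT.lf (nat_lit 0) (nat_lit 22525751323) (nat_lit 228) (nat_lit 66252215450) (nat_lit 76) (nat_lit 4332803131) (nat_lit 73) (nat_lit 5) (nat_lit 76) (nat_lit 5) (nat_lit 74) (nat_lit 5) (nat_lit 542) (nat_lit 451) (nat_lit 207)) (XT.lf (nat_lit 0) (nat_lit 46591514334) (nat_lit 228) (nat_lit 14689438526) (nat_lit 76) (nat_lit 33742563831) (nat_lit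 73) (nat_lit 5) (nat_lit 76) (nat_lit 5) (nat_lit 74) (nat_lit 5) (nat_lit 543) (nat_lit 451) (nat_lit 206))) (XT.nd (nat_lit 78) (nat_lit 0) (nat_lit 0) (XT.lf (nat_lit 0) (nat_lit 39182555957) (nat_lit 152) (nat_lit 32572097773) (nat_lit 228) (nat_lit 25227730122) (nat_lit 71) (nat_lit 5) (nat_lit 73) (nat_lit 5) (nat_lit 74) (nat_lit 5) (nat_lit 544) (nat_lit 451) (nat_lit 205)) (XT.lf (nat_lit 0) (nat_lit 94969592964) (nat_lit 152) (nat_lit 2850200382) (nat_lit 228) (nat_lit 1175810576) (nat_lit 71) (nat_lit 5) (nat_lit 73) (nat_lit 5) (nat_lit 74) (nat_lit 5) (nat_lit 545) (nat_lit 451) (nat_lit 204))))))))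
noncomputable def xc203 : XT := (XT.nd (nat_lit 2340) (nat_lit 6916) (nat_lit 0) (XT.nd (nat_lit 1170) (nat_lit 4332) (nat_lit 0) (XT.nd (nat_lit 546) (nat_lit 0) (nat_lit 228) (XT.nd (nat_lit 234) (nat_lit 0) (nat_lit 76) (XT.nd (nat_lit 78) (nat_lit 0) (nat_lit 0) (XT.lf (nat_lit 0) (nat_lit 1795933138) (nat_lit 1292) (nat_lit 3859337283) (nat_lit 1292) (nat_lit 3859337283) (nat_lit 274) (nat_lit 3) (nat_lit 291) (nat_lit 3) (nat_lit 291) (nat_lit 5) (nat_lit 452) (nat_lit 452) (nat_lit 296)) (XT.nd (nat_lit 78) (nat_lit 0) (nat_lit 76) (XT.lf (nat_lit 76) (nat_lit 1637643638) (nat_lit 0) (nat_lit 2205136411) (nat_lit 1292) (nat_lit 15465920341) (nat_lit 275) (nat_lit 5) (nat_lit 274) (nat_lit 3) (nat_lit 291) (nat_lit 5) (nat_lit 453) (nat_lit 452) (nat_lit 295)) (XT.lf (nat_lit 0) (nat_lit 4241813335) (nat_lit 1216) (nat_lit 8235046869) (nat_lit 1292) (nat_lit 7115493599) (nat_lit 275) (nat_lit 5) (nat_lit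 291) (nat_lit 5) (nat_lit 292) (nat_lit 5) (nat_lit 454) (nat_lit 452) (nat_lit 294)))) (XT.nd (nat_lit 156) (nat_lit 0) (nat_lit 76) (XT.nd (nat_lit 78) (nat_lit 0) (nat_lit 76) (XT.lf (nat_lit 76) (nat_lit 1487385211) (nat_lit 0) (nat_lit 3194690772) (nat_lit 1292) (nat_lit 15201564681) (nat_lit 276) (nat_lit 5) (nat_lit 275) (nat_lit 5) (nat_lit 292) (nat_lit 5) (nat_lit 455) (nat_lit 452) (nat_lit 293)) (XT.lf (nat_lit 0) (nat_lit 5274040078) (nat_lit 1216) (nat_lit 8576929682) (nat_lit 1292) (nat_lit 6328543116) (nat_lit 276) (nat_lit 5) (nat_lit 292) (nat_lit 5) (nat_lit 293) (nat_lit 5) (nat_lit 456) (nat_lit 452) (nat_lit 292))) (XT.nd (nat_lit 78) (nat_lit 0) (nat_lit 76) (XT.lf (nat_lit 76) (nat_lit 1531301977) (nat_lit 0) (nat_lit 4392325173) (nat_lit 1292) (nat_lit 14559439690) (nat_lit 277) (nat_lit 5) (nat_lit 276) (nat_lit 5) (nat_lit 293) (nat_lit 5) (nat_lit 457) (nat_lit 452) (nat_lit 291)) (XT.lf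 (nat_lit 0) (nat_lit 6725286511) (nat_lit 1216) (nat_lit 8730916708) (nat_lit 1292) (nat_lit 5335548125) (nat_lit 277) (nat_lit 5) (nat_lit 293) (nat_lit 5) (nat_lit 294) (nat_lit 5) (nat_lit 458) (nat_lit 452) (nat_lit 290))))) (XT.nd (nat_lit 312) (nat_lit 0) (nat_lit 152) (XT.nd (nat_lit 156) (nat_lit 0) (nat_lit 76) (XT.nd (nat_lit 78) (nat_lit 0) (nat_lit 76) (XT.lf (nat_lit 76) (nat_lit 1783897160) (nat_lit 0) (nat_lit 5821607342) (nat_lit 1292) (nat_lit 13502558036) (nat_lit 278) (nat_lit 5) (nat_lit 277) (nat_lit 5) (nat_lit 294) (nat_lit 5) (nat_lit 459) (nat_lit 452) (nat_lit 289)) (XT.lf (nat_lit 0) (nat_lit 8634631074) (nat_lit 1216) (nat_lit 8682534767) (nat_lit 1292) (nat_lit 4113023543) (nat_lit 278) (nat_lit 5) (nat_lit 294) (nat_lit 5) (nat_lit 295) (nat_lit 5) (nat_lit 460) (nat_lit 452) (nat_lit 288))) (XT.nd (nat_lit 78) (nat_lit 0) (nat_lit 76) (XT.lf (nat_lit 76) (nat_lit 2260798868) (nat_lit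 0) (nat_lit 7507411028) (nat_lit 1292) (nat_lit 11991564126) (nat_lit 279) (nat_lit 5) (nat_lit 278) (nat_lit 5) (nat_lit 295) (nat_lit 5) (nat_lit 461) (nat_lit 452) (nat_lit 287)) (XT.lf (nat_lit 0) (nat_lit 11043654397) (nat_lit 1216) (nat_lit 8416198924) (nat_lit 1292) (nat_lit 2636158428) (nat_lit 279) (nat_lit 5) (nat_lit 295) (nat_lit 5) (nat_lit 296) (nat_lit 5) (nat_lit 462) (nat_lit 452) (nat_lit 286)))) (XT.nd (nat_lit 156) (nat_lit 0) (nat_lit 76) (XT.nd (nat_lit 78) (nat_lit 0) (nat_lit 76) (XT.lf (nat_lit 76) (nat_lit 2978808089) (nat_lit 0) (nat_lit 9476036734) (nat_lit 1292) (nat_lit 9984568568) (nat_lit 280) (nat_lit 5) (nat_lit 279) (nat_lit 5) (nat_lit 296) (nat_lit 5) (nat_lit 463) (nat_lit 452) (nat_lit 285)) (XT.lf (nat_lit 0) (nat_lit 13996611533) (nat_lit 1216) (nat_lit 7915164327) (nat_lit 1292) (nat_lit 878695230) (nat_lit 280) (nat_lit 5) (nat_lit 296) (nat_lit 5) (nat_lit 297) (nat_lit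 5) (nat_lit 464) (nat_lit 452) (nat_lit 284))) (XT.nd (nat_lit 78) (nat_lit 0) (nat_lit 0) (XT.lf (nat_lit 76) (nat_lit 3955950103) (nat_lit 0) (nat_lit 11755337871) (nat_lit 1292) (nat_lit 7436974034) (nat_lit 281) (nat_lit 5) (nat_lit 280) (nat_lit 5) (nat_lit 297) (nat_lit 5) (nat_lit 465) (nat_lit 452) (nat_lit 283)) (XT.lf (nat_lit 76) (nat_lit 16341428444) (nat_lit 0) (nat_lit 1210824045) (nat_lit 1292) (nat_lit 5962289885) (nat_lit 281) (nat_lit 5) (nat_lit 280) (nat_lit 5) (nat_lit 297) (nat_lit 5) (nat_lit 466) (nat_lit 452) (nat_lit 282)))))) (XT.nd (nat_lit 546) (nat_lit 2280) (nat_lit 0) (XT.nd (nat_lit 234) (nat_lit 1444) (nat_lit 0) (XT.nd (nat_lit 78) (nat_lit 1140) (nat_lit 0) (XT.lf (nat_lit 76) (nat_lit 5211529330) (nat_lit 0) (nat_lit 14374852926) (nat_lit 1292) (nat_lit 4301291926) (nat_lit 282) (nat_lit 5) (nat_lit 281) (nat_lit 5) (nat_lit 298) (nat_lit 5) (nat_lit 467) (nat_lit 452) (nat_lit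 281)) (XT.nd (nat_lit 78) (nat_lit 1140) (nat_lit 0) (XT.lf (nat_lit 76) (nat_lit 18098502178) (nat_lit 0) (nat_lit 3662521586) (nat_lit 1292) (nat_lit 2508592634) (nat_lit 282) (nat_lit 5) (nat_lit 281) (nat_lit 5) (nat_lit 298) (nat_lit 5) (nat_lit 468) (nat_lit 452) (nat_lit 280)) (XT.lf (nat_lit 0) (nat_lit 6766187618) (nat_lit 1216) (nat_lit 17365944270) (nat_lit 1292) (nat_lit 526949227) (nat_lit 266) (nat_lit 5) (nat_lit 282) (nat_lit 5) (nat_lit 283) (nat_lit 5) (nat_lit 469) (nat_lit 452) (nat_lit 279)))) (XT.nd (nat_lit 156) (nat_lit 608) (nat_lit 0) (XT.nd (nat_lit 78) (nat_lit 760) (nat_lit 0) (XT.lf (nat_lit 0) (nat_lit 1579174297) (nat_lit 1292) (nat_lit 4895793702) (nat_lit 76) (nat_lit 18581988810) (nat_lit 265) (nat_lit 5) (nat_lit 282) (nat_lit 5) (nat_lit 266) (nat_lit 5) (nat_lit 470) (nat_lit 452) (nat_lit 278)) (XT.lf (nat_lit 0) (nat_lit 3863033187) (nat_lit 836) (nat_lit 16859902002) (nat_lit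 76) (nat_lit 4739923746) (nat_lit 255) (nat_lit 5) (nat_lit 266) (nat_lit 5) (nat_lit 256) (nat_lit 5) (nat_lit 471) (nat_lit 452) (nat_lit 277))) (XT.nd (nat_lit 78) (nat_lit 608) (nat_lit 0) (XT.lf (nat_lit 0) (nat_lit 6325056699) (nat_lit 836) (nat_lit 3341111386) (nat_lit 76) (nat_lit 16211481512) (nat_lit 255) (nat_lit 5) (nat_lit 266) (nat_lit 5) (nat_lit 256) (nat_lit 5) (nat_lit 472) (nat_lit 452) (nat_lit 276)) (XT.lf (nat_lit 0) (nat_lit 8977985469) (nat_lit 684) (nat_lit 15529663728) (nat_lit 76) (nat_lit 1793724357) (nat_lit 247) (nat_lit 5) (nat_lit 256) (nat_lit 5) (nat_lit 248) (nat_lit 5) (nat_lit 473) (nat_lit 452) (nat_lit 275))))) (XT.nd (nat_lit 312) (nat_lit 1140) (nat_lit 0) (XT.nd (nat_lit 156) (nat_lit 532) (nat_lit 0) (XT.nd (nat_lit 78) (nat_lit 608) (nat_lit 0) (XT.lf (nat_lit 0) (nat_lit 11836108728) (nat_lit 684) (nat_lit 1460488409) (nat_lit 76) (nat_lit 13437444781) (nat_lit 247)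 (nat_lit 5) (nat_lit 256) (nat_lit 5) (nat_lit 248) (nat_lit 5) (nat_lit 474) (nat_lit 452) (nat_lit 274)) (XT.lf (nat_lit 0) (nat_lit 13286081826) (nat_lit 608) (nat_lit 1617558552) (nat_lit 684) (nat_lit 12272340872) (nat_lit 239) (nat_lit 5) (nat_lit 247) (nat_lit 5) (nat_lit 248) (nat_lit 5) (nat_lit 475) (nat_lit 452) (nat_lit 273))) (XT.nd (nat_lit 78) (nat_lit 0) (nat_lit 0) (XT.lf (nat_lit 0) (nat_lit 785323231) (nat_lit 532) (nat_lit 17396434766) (nat_lit 608) (nat_lit 9445864797) (nat_lit 232) (nat_lit 5) (nat_lit 239) (nat_lit 5) (nat_lit 240) (nat_lit 5) (nat_lit 476) (nat_lit 452) (nat_lit 272)) (XT.lf (nat_lit 0) (nat_lit 16165215566) (nat_lit 532) (nat_lit 5545231884) (nat_lit 608) (nat_lit 6377800096) (nat_lit 232) (nat_lit 5) (nat_lit 239) (nat_lit 5) (nat_lit 240) (nat_lit 5) (nat_lit 477) (nat_lit 452) (nat_lit 271)))) (XT.nd (nat_lit 156) (nat_lit 532) (nat_lit 0) (XT.nd (nat_lit 78) (nat_lit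 76) (nat_lit 0) (XT.lf (nat_lit 0) (nat_lit 3442984753) (nat_lit 532) (nat_lit 21995365002) (nat_lit 608) (nat_lit 3121541507) (nat_lit 225) (nat_lit 5) (nat_lit 232) (nat_lit 5) (nat_lit 233) (nat_lit 5) (nat_lit 478) (nat_lit 452) (nat_lit 270)) (XT.lf (nat_lit 0) (nat_lit 400620728) (nat_lit 608) (nat_lit 9590024892) (nat_lit 76) (nat_lit 19049789862) (nat_lit 224) (nat_lit 5) (nat_lit 232) (nat_lit 5) (nat_lit 225) (nat_lit 5) (nat_lit 479) (nat_lit 452) (nat_lit 269))) (XT.nd (nat_lit 78) (nat_lit 0) (nat_lit 0) (XT.lf (nat_lit 0) (nat_lit 4048247292) (nat_lit 608) (nat_lit 23061858705) (nat_lit 76) (nat_lit 2421887379) (nat_lit 217) (nat_lit 5) (nat_lit 225) (nat_lit 5) (nat_lit 218) (nat_lit 5) (nat_lit 480) (nat_lit 452) (nat_lit 268)) (XT.lf (nat_lit 0) (nat_lit 7998450502) (nat_lit 608) (nat_lit 6930549082) (nat_lit 76) (nat_lit 15103504685) (nat_lit 217) (nat_lit 5) (nat_lit 225) (nat_lit 5) (nat_lit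 218) (nat_lit 5) (nat_lit 481) (nat_lit 452) (nat_lit 267))))))) (XT.nd (nat_lit 1170) (nat_lit 2888) (nat_lit 0) (XT.nd (nat_lit 546) (nat_lit 2052) (nat_lit 0) (XT.nd (nat_lit 234) (nat_lit 988) (nat_lit 0) (XT.nd (nat_lit 78) (nat_lit 456) (nat_lit 0) (XT.lf (nat_lit 0) (nat_lit 9873517900) (nat_lit 532) (nat_lit 2285087446) (nat_lit 608) (nat_lit 18386682457) (nat_lit 210) (nat_lit 5) (nat_lit 217) (nat_lit 5) (nat_lit 218) (nat_lit 5) (nat_lit 482) (nat_lit 452) (nat_lit 266)) (XT.nd (nat_lit 78) (nat_lit 456) (nat_lit 0) (XT.lf (nat_lit 0) (nat_lit 16614059862) (nat_lit 608) (nat_lit 3855404248) (nat_lit 76) (nat_lit 10598876540) (nat_lit 210) (nat_lit 5) (nat_lit 218) (nat_lit 5) (nat_lit 211) (nat_lit 5) (nat_lit 483) (nat_lit 452) (nat_lit 265)) (XT.lf (nat_lit 0) (nat_lit 13706493922) (nat_lit 456) (nat_lit 7647758640) (nat_lit 532) (nat_lit 10248300922) (nat_lit 204) (nat_lit 5) (nat_lit 210) (nat_lit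 5) (nat_lit 211) (nat_lit 5) (nat_lit 484) (nat_lit 452) (nat_lit 264)))) (XT.nd (nat_lit 156) (nat_lit 532) (nat_lit 0) (XT.nd (nat_lit 78) (nat_lit 456) (nat_lit 0) (XT.lf (nat_lit 0) (nat_lit 26326151080) (nat_lit 532) (nat_lit 335014505) (nat_lit 76) (nat_lit 5488942740) (nat_lit 204) (nat_lit 5) (nat_lit 211) (nat_lit 5) (nat_lit 205) (nat_lit 5) (nat_lit 485) (nat_lit 452) (nat_lit 263)) (XT.lf (nat_lit 0) (nat_lit 18025136375) (nat_lit 456) (nat_lit 13667903762) (nat_lit 532) (nat_lit 1013675267) (nat_lit 198) (nat_lit 5) (nat_lit 204) (nat_lit 5) (nat_lit 205) (nat_lit 5) (nat_lit 486) (nat_lit 452) (nat_lit 262))) (XT.nd (nat_lit 78) (nat_lit 0) (nat_lit 0) (XT.lf (nat_lit 0) (nat_lit 3693429494) (nat_lit 456) (nat_lit 206373822) (nat_lit 532) (nat_lit 29378007785) (nat_lit 191) (nat_lit 5) (nat_lit 197) (nat_lit 5) (nat_lit 198) (nat_lit 5) (nat_lit 487) (nat_lit 452) (nat_lit 261)) (XT.lf (nat_lit 0)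 (nat_lit 9218252746) (nat_lit 532) (nat_lit 11087564971) (nat_lit 76) (nat_lit 13551583202) (nat_lit 191) (nat_lit 5) (nat_lit 198) (nat_lit 5) (nat_lit 192) (nat_lit 5) (nat_lit 488) (nat_lit 452) (nat_lit 260))))) (XT.nd (nat_lit 312) (nat_lit 1216) (nat_lit 0) (XT.nd (nat_lit 156) (nat_lit 380) (nat_lit 0) (XT.nd (nat_lit 78) (nat_lit 0) (nat_lit 0) (XT.lf (nat_lit 0) (nat_lit 8116795670) (nat_lit 456) (nat_lit 6656535286) (nat_lit 532) (nat_lit 19678735751) (nat_lit 185) (nat_lit 5) (nat_lit 191) (nat_lit 5) (nat_lit 192) (nat_lit 5) (nat_lit 489) (nat_lit 452) (nat_lit 259)) (XT.lf (nat_lit 0) (nat_lit 20676340689) (nat_lit 532) (nat_lit 7012655996) (nat_lit 76) (nat_lit 7370137928) (nat_lit 185) (nat_lit 5) (nat_lit 192) (nat_lit 5) (nat_lit 186) (nat_lit 5) (nat_lit 490) (nat_lit 452) (nat_lit 258))) (XT.nd (nat_lit 78) (nat_lit 0) (nat_lit 0) (XT.lf (nat_lit 0) (nat_lit 13075234883) (nat_lit 380) (nat_lit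 13869938352) (nat_lit 456) (nat_lit 8733579850) (nat_lit 180) (nat_lit 5) (nat_lit 185) (nat_lit 5) (nat_lit 186) (nat_lit 5) (nat_lit 491) (nat_lit 452) (nat_lit 257)) (XT.lf (nat_lit 0) (nat_lit 33474262111) (nat_lit 456) (nat_lit 2413200568) (nat_lit 76) (nat_lit 427332183) (nat_lit 180) (nat_lit 5) (nat_lit 186) (nat_lit 5) (nat_lit 181) (nat_lit 5) (nat_lit 492) (nat_lit 452) (nat_lit 256)))) (XT.nd (nat_lit 156) (nat_lit 380) (nat_lit 0) (XT.nd (nat_lit 78) (nat_lit 380) (nat_lit 0) (XT.lf (nat_lit 0) (nat_lit 3482823956) (nat_lit 456) (nat_lit 18389685747) (nat_lit 76) (nat_lit 15086981380) (nat_lit 174) (nat_lit 5) (nat_lit 180) (nat_lit 5) (nat_lit 175) (nat_lit 5) (nat_lit 493) (nat_lit 452) (nat_lit 255)) (XT.lf (nat_lit 0) (nat_lit 2628299736) (nat_lit 380) (nat_lit 7357645277) (nat_lit 456) (nat_lit 27635325238) (nat_lit 169) (nat_lit 5) (nat_lit 174) (nat_lit 5) (nat_lit 175) (nat_lit 5) (nat_lit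 494) (nat_lit 452) (nat_lit 254))) (XT.nd (nat_lit 78) (nat_lit 380) (nat_lit 0) (XT.lf (nat_lit 0) (nat_lit 16942000743) (nat_lit 456) (nat_lit 13721992372) (nat_lit 76) (nat_lit 7631174884) (nat_lit 169) (nat_lit 5) (nat_lit 175) (nat_lit 5) (nat_lit 170) (nat_lit 5) (nat_lit 495) (nat_lit 452) (nat_lit 253)) (XT.lf (nat_lit 0) (nat_lit 8272160646) (nat_lit 380) (nat_lit 15984337994) (nat_lit 456) (nat_lit 14728291646) (nat_lit 164) (nat_lit 5) (nat_lit 169) (nat_lit 5) (nat_lit 170) (nat_lit 5) (nat_lit 496) (nat_lit 452) (nat_lit 252)))))) (XT.nd (nat_lit 624) (nat_lit 1444) (nat_lit 0) (XT.nd (nat_lit 312) (nat_lit 684) (nat_lit 0) (XT.nd (nat_lit 156) (nat_lit 456) (nat_lit 0) (XT.nd (nat_lit 78) (nat_lit 304) (nat_lit 0) (XT.lf (nat_lit 0) (nat_lit 31203934070) (nat_lit 380) (nat_lit 722500373) (nat_lit 456) (nat_lit 7764587120) (nat_lit 164) (nat_lit 5) (nat_lit 169) (nat_lit 5) (nat_lit 170) (nat_lit 5)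 (nat_lit 497) (nat_lit 452) (nat_lit 251)) (XT.lf (nat_lit 0) (nat_lit 14541356742) (nat_lit 304) (nat_lit 25566557891) (nat_lit 380) (nat_lit 302082154) (nat_lit 160) (nat_lit 5) (nat_lit 164) (nat_lit 5) (nat_lit 165) (nat_lit 5) (nat_lit 498) (nat_lit 452) (nat_lit 250))) (XT.nd (nat_lit 78) (nat_lit 380) (nat_lit 0) (XT.lf (nat_lit 0) (nat_lit 7331427481) (nat_lit 380) (nat_lit 2795795409) (nat_lit 76) (nat_lit 31018452569) (nat_lit 159) (nat_lit 5) (nat_lit 164) (nat_lit 5) (nat_lit 160) (nat_lit 5) (nat_lit 499) (nat_lit 452) (nat_lit 249)) (XT.lf (nat_lit 0) (nat_lit 15448551140) (nat_lit 456) (nat_lit 20574737739) (nat_lit 76) (nat_lit 5872225841) (nat_lit 154) (nat_lit 5) (nat_lit 160) (nat_lit 5) (nat_lit 155) (nat_lit 5) (nat_lit 500) (nat_lit 452) (nat_lit 248)))) (XT.nd (nat_lit 156) (nat_lit 380) (nat_lit 0) (XT.nd (nat_lit 78) (nat_lit 0) (nat_lit 0) (XT.lf (nat_lit 0) (nat_lit 3515812407) (nat_lit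 304) (nat_lit 20453573216) (nat_lit 380) (nat_lit 18693657976) (nat_lit 150) (nat_lit 5) (nat_lit 154) (nat_lit 5) (nat_lit 155) (nat_lit 5) (nat_lit 501) (nat_lit 452) (nat_lit 247)) (XT.lf (nat_lit 0) (nat_lit 28747474234) (nat_lit 304) (nat_lit 4203792239) (nat_lit 380) (nat_lit 10496169574) (nat_lit 150) (nat_lit 5) (nat_lit 154) (nat_lit 5) (nat_lit 155) (nat_lit 5) (nat_lit 502) (nat_lit 452) (nat_lit 246))) (XT.nd (nat_lit 78) (nat_lit 76) (nat_lit 0) (XT.lf (nat_lit 0) (nat_lit 10563041390) (nat_lit 304) (nat_lit 31859295794) (nat_lit 380) (nat_lit 1826431416) (nat_lit 146) (nat_lit 5) (nat_lit 150) (nat_lit 5) (nat_lit 151) (nat_lit 5) (nat_lit 503) (nat_lit 452) (nat_lit 245)) (XT.lf (nat_lit 0) (nat_lit 7154045988) (nat_lit 380) (nat_lit 8299132695) (nat_lit 76) (nat_lit 29613236495) (nat_lit 145) (nat_lit 5) (nat_lit 150) (nat_lit 5) (nat_lit 146) (nat_lit 5) (nat_lit 504) (nat_lit 452) (nat_lit 244)))))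 (XT.nd (nat_lit 312) (nat_lit 608) (nat_lit 0) (XT.nd (nat_lit 156) (nat_lit 532) (nat_lit 0) (XT.nd (nat_lit 78) (nat_lit 0) (nat_lit 0) (XT.lf (nat_lit 0) (nat_lit 16555594900) (nat_lit 380) (nat_lit 27736123001) (nat_lit 76) (nat_lit 1610680052) (nat_lit 141) (nat_lit 5) (nat_lit 146) (nat_lit 5) (nat_lit 142) (nat_lit 5) (nat_lit 505) (nat_lit 452) (nat_lit 243)) (XT.lf (nat_lit 0) (nat_lit 26474644138) (nat_lit 380) (nat_lit 1322275716) (nat_lit 76) (nat_lit 18959477041) (nat_lit 141) (nat_lit 5) (nat_lit 146) (nat_lit 5) (nat_lit 142) (nat_lit 5) (nat_lit 506) (nat_lit 452) (nat_lit 242))) (XT.nd (nat_lit 78) (nat_lit 228) (nat_lit 0) (XT.lf (nat_lit 0) (nat_lit 26395894068) (nat_lit 304) (nat_lit 10546985206) (nat_lit 380) (nat_lit 10685588384) (nat_lit 137) (nat_lit 5) (nat_lit 141) (nat_lit 5) (nat_lit 142) (nat_lit 5) (nat_lit 507) (nat_lit 452) (nat_lit 241)) (XT.lf (nat_lit 0) (nat_lit 6500529949) (nat_lit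 228) (nat_lit 41367912882) (nat_lit 304) (nat_lit 653959551) (nat_lit 134) (nat_lit 5) (nat_lit 137) (nat_lit 5) (nat_lit 138) (nat_lit 5) (nat_lit 508) (nat_lit 452) (nat_lit 240)))) (XT.nd (nat_lit 156) (nat_lit 228) (nat_lit 0) (XT.nd (nat_lit 78) (nat_lit 304) (nat_lit 0) (XT.lf (nat_lit 0) (nat_lit 9808621561) (nat_lit 304) (nat_lit 14138638704) (nat_lit 76) (nat_lit 25483538000) (nat_lit 133) (nat_lit 5) (nat_lit 137) (nat_lit 5) (nat_lit 134) (nat_lit 5) (nat_lit 509) (nat_lit 452) (nat_lit 239)) (XT.lf (nat_lit 0) (nat_lit 14861507988) (nat_lit 304) (nat_lit 5851259204) (nat_lit 380) (nat_lit 29649259911) (nat_lit 129) (nat_lit 5) (nat_lit 133) (nat_lit 5) (nat_lit 134) (nat_lit 5) (nat_lit 510) (nat_lit 452) (nat_lit 238))) (XT.nd (nat_lit 78) (nat_lit 228) (nat_lit 0) (XT.lf (nat_lit 0) (nat_lit 32209137893) (nat_lit 380) (nat_lit 6422888369) (nat_lit 76) (nat_lit 12681213772) (nat_lit 129) (nat_lit 5)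 (nat_lit 134) (nat_lit 5) (nat_lit 130) (nat_lit 5) (nat_lit 511) (nat_lit 452) (nat_lit 237)) (XT.lf (nat_lit 0) (nat_lit 23933120574) (nat_lit 228) (nat_lit 20403322813) (nat_lit 304) (nat_lit 7947964897) (nat_lit 126) (nat_lit 5) (nat_lit 129) (nat_lit 5) (nat_lit 130) (nat_lit 5) (nat_lit 512) (nat_lit 452) (nat_lit 236))))))))
noncomputable def xc204 : XT := (XT.nd (nat_lit 2340) (nat_lit 380) (nat_lit 0) (XT.nd (nat_lit 1170) (nat_lit 1520) (nat_lit 0) (XT.nd (nat_lit 546) (nat_lit 1140) (nat_lit 0) (XT.nd (nat_lit 234) (nat_lit 532) (nat_lit 0) (XT.nd (nat_lit 78) (nat_lit 228) (nat_lit 0) (XT.lf (nat_lit 0) (nat_lit 2050982757) (nat_lit 304) (nat_lit 1506015078) (nat_lit 380) (nat_lit 49724194032) (nat_lit 121) (nat_lit 5) (nat_lit 125) (nat_lit 5) (nat_lit 126) (nat_lit 5) (nat_lit 513) (nat_lit 452) (nat_lit 235)) (XT.nd (nat_lit 78) (nat_lit 228) (nat_lit 0) (XT.lf (nat_lit 0) (nat_lit 15707191652) (nat_lit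 380) (nat_lit 20610012892) (nat_lit 76) (nat_lit 17974519000) (nat_lit 121) (nat_lit 5) (nat_lit 126) (nat_lit 5) (nat_lit 122) (nat_lit 5) (nat_lit 514) (nat_lit 452) (nat_lit 234)) (XT.lf (nat_lit 0) (nat_lit 11128050767) (nat_lit 228) (nat_lit 17213853336) (nat_lit 304) (nat_lit 26987066897) (nat_lit 118) (nat_lit 5) (nat_lit 121) (nat_lit 5) (nat_lit 122) (nat_lit 5) (nat_lit 515) (nat_lit 452) (nat_lit 233)))) (XT.nd (nat_lit 156) (nat_lit 304) (nat_lit 0) (XT.nd (nat_lit 78) (nat_lit 228) (nat_lit 0) (XT.lf (nat_lit 0) (nat_lit 41587658860) (nat_lit 304) (nat_lit 12179074891) (nat_lit 76) (nat_lit 2623642310) (nat_lit 118) (nat_lit 5) (nat_lit 122) (nat_lit 5) (nat_lit 119) (nat_lit 5) (nat_lit 516) (nat_lit 452) (nat_lit 232)) (XT.lf (nat_lit 0) (nat_lit 21040666515) (nat_lit 228) (nat_lit 34561011255) (nat_lit 304) (nat_lit 1870818960) (nat_lit 115) (nat_lit 5) (nat_lit 118) (nat_lit 5) (nat_lit 119) (nat_lit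 5) (nat_lit 517) (nat_lit 452) (nat_lit 231))) (XT.nd (nat_lit 78) (nat_lit 228) (nat_lit 0) (XT.lf (nat_lit 0) (nat_lit 11348035285) (nat_lit 304) (nat_lit 3190916694) (nat_lit 76) (nat_lit 44041155246) (nat_lit 114) (nat_lit 5) (nat_lit 118) (nat_lit 5) (nat_lit 115) (nat_lit 5) (nat_lit 518) (nat_lit 452) (nat_lit 230)) (XT.lf (nat_lit 0) (nat_lit 25289955001) (nat_lit 304) (nat_lit 28129632789) (nat_lit 76) (nat_lit 6289879697) (nat_lit 111) (nat_lit 5) (nat_lit 115) (nat_lit 5) (nat_lit 112) (nat_lit 5) (nat_lit 519) (nat_lit 452) (nat_lit 229))))) (XT.nd (nat_lit 312) (nat_lit 684) (nat_lit 0) (XT.nd (nat_lit 156) (nat_lit 228) (nat_lit 0) (XT.nd (nat_lit 78) (nat_lit 0) (nat_lit 0) (XT.lf (nat_lit 0) (nat_lit 6568441936) (nat_lit 228) (nat_lit 33319595364) (nat_lit 304) (nat_lit 20977534287) (nat_lit 108) (nat_lit 5) (nat_lit 111) (nat_lit 5) (nat_lit 112) (nat_lit 5) (nat_lit 520) (nat_lit 452) (nat_lit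 228)) (XT.lf (nat_lit 0) (nat_lit 42881276273) (nat_lit 228) (nat_lit 12325137225) (nat_lit 304) (nat_lit 6841474943) (nat_lit 108) (nat_lit 5) (nat_lit 111) (nat_lit 5) (nat_lit 112) (nat_lit 5) (nat_lit 521) (nat_lit 452) (nat_lit 227))) (XT.nd (nat_lit 78) (nat_lit 0) (nat_lit 0) (XT.lf (nat_lit 0) (nat_lit 7824222107) (nat_lit 228) (nat_lit 46072257609) (nat_lit 76) (nat_lit 9359284106) (nat_lit 105) (nat_lit 5) (nat_lit 108) (nat_lit 5) (nat_lit 106) (nat_lit 5) (nat_lit 522) (nat_lit 452) (nat_lit 226)) (XT.lf (nat_lit 0) (nat_lit 23108217951) (nat_lit 228) (nat_lit 9671504936) (nat_lit 76) (nat_lit 31708645572) (nat_lit 105) (nat_lit 5) (nat_lit 108) (nat_lit 5) (nat_lit 106) (nat_lit 5) (nat_lit 523) (nat_lit 452) (nat_lit 225)))) (XT.nd (nat_lit 156) (nat_lit 304) (nat_lit 0) (XT.nd (nat_lit 78) (nat_lit 152) (nat_lit 0) (XT.lf (nat_lit 0) (nat_lit 28372219353) (nat_lit 228) (nat_lit 10749635933) (nat_lit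 304) (nat_lit 26627962455) (nat_lit 102) (nat_lit 5) (nat_lit 105) (nat_lit 5) (nat_lit 106) (nat_lit 5) (nat_lit 524) (nat_lit 452) (nat_lit 224)) (XT.lf (nat_lit 0) (nat_lit 602629912) (nat_lit 152) (nat_lit 55230883798) (nat_lit 228) (nat_lit 11209068583) (nat_lit 100) (nat_lit 5) (nat_lit 102) (nat_lit 5) (nat_lit 103) (nat_lit 5) (nat_lit 525) (nat_lit 452) (nat_lit 223))) (XT.nd (nat_lit 78) (nat_lit 228) (nat_lit 0) (XT.lf (nat_lit 0) (nat_lit 5067232799) (nat_lit 228) (nat_lit 28032131820) (nat_lit 76) (nat_lit 35258837412) (nat_lit 99) (nat_lit 5) (nat_lit 102) (nat_lit 5) (nat_lit 100) (nat_lit 5) (nat_lit 526) (nat_lit 452) (nat_lit 222)) (XT.lf (nat_lit 0) (nat_lit 11641477135) (nat_lit 228) (nat_lit 10075412691) (nat_lit 304) (nat_lit 47989760511) (nat_lit 96) (nat_lit 5) (nat_lit 99) (nat_lit 5) (nat_lit 100) (nat_lit 5) (nat_lit 527) (nat_lit 452) (nat_lit 221)))))) (XT.nd (nat_lit 546) (nat_lit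 684) (nat_lit 0) (XT.nd (nat_lit 234) (nat_lit 608) (nat_lit 0) (XT.nd (nat_lit 78) (nat_lit 228) (nat_lit 0) (XT.lf (nat_lit 0) (nat_lit 39281480103) (nat_lit 304) (nat_lit 18143688246) (nat_lit 76) (nat_lit 13657920570) (nat_lit 96) (nat_lit 5) (nat_lit 100) (nat_lit 5) (nat_lit 97) (nat_lit 5) (nat_lit 528) (nat_lit 452) (nat_lit 220)) (XT.nd (nat_lit 78) (nat_lit 76) (nat_lit 0) (XT.lf (nat_lit 0) (nat_lit 23328339320) (nat_lit 152) (nat_lit 34367178795) (nat_lit 228) (nat_lit 14795627374) (nat_lit 94) (nat_lit 5) (nat_lit 96) (nat_lit 5) (nat_lit 97) (nat_lit 5) (nat_lit 529) (nat_lit 452) (nat_lit 219)) (XT.lf (nat_lit 0) (nat_lit 2850987342) (nat_lit 228) (nat_lit 7550027096) (nat_lit 76) (nat_lit 63534138658) (nat_lit 93) (nat_lit 5) (nat_lit 96) (nat_lit 5) (nat_lit 94) (nat_lit 5) (nat_lit 530) (nat_lit 452) (nat_lit 218)))) (XT.nd (nat_lit 156) (nat_lit 228) (nat_lit 0) (XT.nd (nat_lit 78) (nat_lit 152)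 (nat_lit 0) (XT.lf (nat_lit 0) (nat_lit 21215066185) (nat_lit 304) (nat_lit 39688004502) (nat_lit 76) (nat_lit 14500452330) (nat_lit 90) (nat_lit 5) (nat_lit 94) (nat_lit 5) (nat_lit 91) (nat_lit 5) (nat_lit 531) (nat_lit 452) (nat_lit 217)) (XT.lf (nat_lit 0) (nat_lit 3481846530) (nat_lit 152) (nat_lit 36860229375) (nat_lit 228) (nat_lit 36567507989) (nat_lit 88) (nat_lit 5) (nat_lit 90) (nat_lit 5) (nat_lit 91) (nat_lit 5) (nat_lit 532) (nat_lit 452) (nat_lit 216))) (XT.nd (nat_lit 78) (nat_lit 228) (nat_lit 0) (XT.lf (nat_lit 0) (nat_lit 48757879351) (nat_lit 152) (nat_lit 11684368816) (nat_lit 228) (nat_lit 18006597974) (nat_lit 88) (nat_lit 5) (nat_lit 90) (nat_lit 5) (nat_lit 91) (nat_lit 5) (nat_lit 533) (nat_lit 452) (nat_lit 215)) (XT.lf (nat_lit 0) (nat_lit 1377038810) (nat_lit 228) (nat_lit 64517845491) (nat_lit 76) (nat_lit 14130454178) (nat_lit 85) (nat_lit 5) (nat_lit 88) (nat_lit 5) (nat_lit 86)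 (nat_lit 5) (nat_lit 534) (nat_lit 452) (nat_lit 214))))) (XT.nd (nat_lit 312) (nat_lit 304) (nat_lit 0) (XT.nd (nat_lit 156) (nat_lit 228) (nat_lit 0) (XT.nd (nat_lit 78) (nat_lit 152) (nat_lit 0) (XT.lf (nat_lit 0) (nat_lit 21397361982) (nat_lit 228) (nat_lit 19268969185) (nat_lit 76) (nat_lit 40964933266) (nat_lit 85) (nat_lit 5) (nat_lit 88) (nat_lit 5) (nat_lit 86) (nat_lit 5) (nat_lit 535) (nat_lit 452) (nat_lit 213)) (XT.lf (nat_lit 0) (nat_lit 27879022684) (nat_lit 152) (nat_lit 14405918876) (nat_lit 228) (nat_lit 40992427304) (nat_lit 83) (nat_lit 5) (nat_lit 85) (nat_lit 5) (nat_lit 86) (nat_lit 5) (nat_lit 536) (nat_lit 452) (nat_lit 212))) (XT.nd (nat_lit 78) (nat_lit 228) (nat_lit 0) (XT.lf (nat_lit 0) (nat_lit 64115842676) (nat_lit 228) (nat_lit 8256399599) (nat_lit 76) (nat_lit 12591113424) (nat_lit 83) (nat_lit 5) (nat_lit 86) (nat_lit 5) (nat_lit 84) (nat_lit 5) (nat_lit 537) (nat_lit 452) (nat_lit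 211)) (XT.lf (nat_lit 0) (nat_lit 443973137) (nat_lit 228) (nat_lit 45734200025) (nat_lit 76) (nat_lit 40505568185) (nat_lit 80) (nat_lit 5) (nat_lit 83) (nat_lit 5) (nat_lit 81) (nat_lit 5) (nat_lit 538) (nat_lit 452) (nat_lit 210)))) (XT.nd (nat_lit 156) (nat_lit 152) (nat_lit 0) (XT.nd (nat_lit 78) (nat_lit 0) (nat_lit 0) (XT.lf (nat_lit 0) (nat_lit 3200577816) (nat_lit 152) (nat_lit 18868281760) (nat_lit 228) (nat_lit 66377276644) (nat_lit 78) (nat_lit 5) (nat_lit 80) (nat_lit 5) (nat_lit 81) (nat_lit 5) (nat_lit 539) (nat_lit 452) (nat_lit 209)) (XT.lf (nat_lit 0) (nat_lit 44896623608) (nat_lit 228) (nat_lit 35802554721) (nat_lit 76) (nat_lit 9545600767) (nat_lit 78) (nat_lit 5) (nat_lit 81) (nat_lit 5) (nat_lit 79) (nat_lit 5) (nat_lit 540) (nat_lit 452) (nat_lit 208))) (XT.nd (nat_lit 78) (nat_lit 0) (nat_lit 0) (XT.lf (nat_lit 0) (nat_lit 15231903430) (nat_lit 152) (nat_lit 53509298935) (nat_lit 228) (nat_lit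 23346219520) (nat_lit 76) (nat_lit 5) (nat_lit 78) (nat_lit 5) (nat_lit 79) (nat_lit 5) (nat_lit 541) (nat_lit 452) (nat_lit 207)) (XT.lf (nat_lit 0) (nat_lit 68529084388) (nat_lit 152) (nat_lit 25132333486) (nat_lit 228) (nat_lit 313117184) (nat_lit 76) (nat_lit 5) (nat_lit 78) (nat_lit 5) (nat_lit 79) (nat_lit 5) (nat_lit 542) (nat_lit 452) (nat_lit 206))))))) (XT.nd (nat_lit 56394) (nat_lit 0) (nat_lit 11704) (XT.nd (nat_lit 55770) (nat_lit 0) (nat_lit 15580) (XT.nd (nat_lit 55458) (nat_lit 0) (nat_lit 15428) (XT.nd (nat_lit 78) (nat_lit 152) (nat_lit 0) (XT.lf (nat_lit 0) (nat_lit 23264620936) (nat_lit 228) (nat_lit 68125152517) (nat_lit 76) (nat_lit 4512422774) (nat_lit 73) (nat_lit 5) (nat_lit 76) (nat_lit 5) (nat_lit 74) (nat_lit 5) (nat_lit 543) (nat_lit 452) (nat_lit 205)) (XT.nd (nat_lit 78) (nat_lit 152) (nat_lit 0) (XT.lf (nat_lit 0) (nat_lit 48050519058) (nat_lit 228) (nat_lit 15018831007) (nat_lit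 76) (nat_lit 34803030599) (nat_lit 73) (nat_lit 5) (nat_lit 76) (nat_lit 5) (nat_lit 74) (nat_lit 5) (nat_lit 544) (nat_lit 452) (nat_lit 204)) (XT.lf (nat_lit 0) (nat_lit 40468232226) (nat_lit 152) (nat_lit 33499595464) (nat_lit 228) (nat_lit 25922208007) (nat_lit 71) (nat_lit 5) (nat_lit 73) (nat_lit 5) (nat_lit 74) (nat_lit 5) (nat_lit 545) (nat_lit 452) (nat_lit 203)))) (XT.nd (nat_lit 156) (nat_lit 0) (nat_lit 76) (XT.nd (nat_lit 78) (nat_lit 0) (nat_lit 0) (XT.lf (nat_lit 0) (nat_lit 2029362172) (nat_lit 1292) (nat_lit 3882627730) (nat_lit 1292) (nat_lit 3882627730) (nat_lit 274) (nat_lit 3) (nat_lit 291) (nat_lit 3) (nat_lit 291) (nat_lit 5) (nat_lit 453) (nat_lit 453) (nat_lit 294)) (XT.lf (nat_lit 76) (nat_lit 1869938767) (nat_lit 0) (nat_lit 2438528180) (nat_lit 1292) (nat_lit 15568901238) (nat_lit 275) (nat_lit 5) (nat_lit 274) (nat_lit 3) (nat_lit 291) (nat_lit 5) (nat_lit 454) (nat_lit 453) (nat_lit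 293))) (XT.nd (nat_lit 78) (nat_lit 0) (nat_lit 0) (XT.lf (nat_lit 0) (nat_lit 4707704536) (nat_lit 1216) (nat_lit 8292421937) (nat_lit 1292) (nat_lit 7169760089) (nat_lit 275) (nat_lit 5) (nat_lit 291) (nat_lit 5) (nat_lit 292) (nat_lit 5) (nat_lit 455) (nat_lit 453) (nat_lit 292)) (XT.lf (nat_lit 76) (nat_lit 1719823533) (nat_lit 0) (nat_lit 3433293732) (nat_lit 1292) (nat_lit 15317038792) (nat_lit 276) (nat_lit 5) (nat_lit 275) (nat_lit 5) (nat_lit 292) (nat_lit 5) (nat_lit 456) (nat_lit 453) (nat_lit 291))))) (XT.nd (nat_lit 312) (nat_lit 0) (nat_lit 152) (XT.nd (nat_lit 156) (nat_lit 0) (nat_lit 76) (XT.nd (nat_lit 78) (nat_lit 0) (nat_lit 0) (XT.lf (nat_lit 0) (nat_lit 5751879422) (nat_lit 1216) (nat_lit 8640856106) (nat_lit 1292) (nat_lit 6382499961) (nat_lit 276) (nat_lit 5) (nat_lit 292) (nat_lit 5) (nat_lit 293) (nat_lit 5) (nat_lit 457) (nat_lit 453) (nat_lit 290)) (XT.lf (nat_lit 76) (nat_lit 1768726605)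 (nat_lit 0) (nat_lit 4644758910) (nat_lit 1292) (nat_lit 14674636775) (nat_lit 277) (nat_lit 5) (nat_lit 276) (nat_lit 5) (nat_lit 293) (nat_lit 5) (nat_lit 458) (nat_lit 453) (nat_lit 289))) (XT.nd (nat_lit 78) (nat_lit 0) (nat_lit 0) (XT.lf (nat_lit 0) (nat_lit 7228976810) (nat_lit 1216) (nat_lit 8796648074) (nat_lit 1292) (nat_lit 5380751080) (nat_lit 277) (nat_lit 5) (nat_lit 293) (nat_lit 5) (nat_lit 294) (nat_lit 5) (nat_lit 459) (nat_lit 453) (nat_lit 288)) (XT.lf (nat_lit 76) (nat_lit 2031686718) (nat_lit 0) (nat_lit 6096987963) (nat_lit 1292) (nat_lit 13603711651) (nat_lit 278) (nat_lit 5) (nat_lit 277) (nat_lit 5) (nat_lit 294) (nat_lit 5) (nat_lit 460) (nat_lit 453) (nat_lit 287)))) (XT.nd (nat_lit 156) (nat_lit 0) (nat_lit 76) (XT.nd (nat_lit 78) (nat_lit 0) (nat_lit 0) (XT.lf (nat_lit 0) (nat_lit 9179142573) (nat_lit 1216) (nat_lit 8744798163) (nat_lit 1292) (nat_lit 4140524202) (nat_lit 278) (nat_lit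 5) (nat_lit 294) (nat_lit 5) (nat_lit 295) (nat_lit 5) (nat_lit 461) (nat_lit 453) (nat_lit 286)) (XT.lf (nat_lit 76) (nat_lit 2524892220) (nat_lit 0) (nat_lit 7815408465) (nat_lit 1292) (nat_lit 12063831192) (nat_lit 279) (nat_lit 5) (nat_lit 278) (nat_lit 5) (nat_lit 295) (nat_lit 5) (nat_lit 462) (nat_lit 453) (nat_lit 285))) (XT.nd (nat_lit 78) (nat_lit 0) (nat_lit 0) (XT.lf (nat_lit 0) (nat_lit 11645108502) (nat_lit 1216) (nat_lit 8469169906) (nat_lit 1292) (nat_lit 2636447194) (nat_lit 279) (nat_lit 5) (nat_lit 295) (nat_lit 5) (nat_lit 296) (nat_lit 5) (nat_lit 463) (nat_lit 453) (nat_lit 284)) (XT.lf (nat_lit 76) (nat_lit 3265731289) (nat_lit 0) (nat_lit 9826934124) (nat_lit 1292) (nat_lit 10011944768) (nat_lit 280) (nat_lit 5) (nat_lit 279) (nat_lit 5) (nat_lit 296) (nat_lit 5) (nat_lit 464) (nat_lit 453) (nat_lit 283)))))) (XT.nd (nat_lit 546) (nat_lit 3040) (nat_lit 0) (XT.nd (nat_lit 234) (nat_lit 1140)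 (nat_lit 0) (XT.nd (nat_lit 78) (nat_lit 0) (nat_lit 0) (XT.lf (nat_lit 0) (nat_lit 14672368994) (nat_lit 1216) (nat_lit 7952439717) (nat_lit 1292) (nat_lit 841642141) (nat_lit 280) (nat_lit 5) (nat_lit 296) (nat_lit 5) (nat_lit 297) (nat_lit 5) (nat_lit 465) (nat_lit 453) (nat_lit 282)) (XT.nd (nat_lit 78) (nat_lit 0) (nat_lit 0) (XT.lf (nat_lit 76) (nat_lit 4272845602) (nat_lit 0) (nat_lit 12160093302) (nat_lit 1292) (nat_lit 7402204705) (nat_lit 281) (nat_lit 5) (nat_lit 280) (nat_lit 5) (nat_lit 297) (nat_lit 5) (nat_lit 466) (nat_lit 453) (nat_lit 281)) (XT.lf (nat_lit 76) (nat_lit 17024114982) (nat_lit 0) (nat_lit 1297726723) (nat_lit 1292) (nat_lit 5890791057) (nat_lit 281) (nat_lit 5) (nat_lit 280) (nat_lit 5) (nat_lit 297) (nat_lit 5) (nat_lit 467) (nat_lit 453) (nat_lit 280)))) (XT.nd (nat_lit 156) (nat_lit 1216) (nat_lit 0) (XT.nd (nat_lit 78) (nat_lit 0) (nat_lit 0) (XT.lf (nat_lit 76) (nat_lit 5566187476)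 (nat_lit 0) (nat_lit 14845163863) (nat_lit 1292) (nat_lit 4185778116) (nat_lit 282) (nat_lit 5) (nat_lit 281) (nat_lit 5) (nat_lit 298) (nat_lit 5) (nat_lit 468) (nat_lit 453) (nat_lit 279)) (XT.lf (nat_lit 76) (nat_lit 18833993424) (nat_lit 0) (nat_lit 3810324757) (nat_lit 1292) (nat_lit 2346420735) (nat_lit 282) (nat_lit 5) (nat_lit 281) (nat_lit 5) (nat_lit 298) (nat_lit 5) (nat_lit 469) (nat_lit 453) (nat_lit 278))) (XT.nd (nat_lit 78) (nat_lit 76) (nat_lit 0) (XT.lf (nat_lit 0) (nat_lit 7167080506) (nat_lit 1216) (nat_lit 17914314949) (nat_lit 1292) (nat_lit 310648559) (nat_lit 266) (nat_lit 5) (nat_lit 282) (nat_lit 5) (nat_lit 283) (nat_lit 5) (nat_lit 470) (nat_lit 453) (nat_lit 277)) (XT.lf (nat_lit 0) (nat_lit 1847500846) (nat_lit 1292) (nat_lit 4846079533) (nat_lit 76) (nat_lit 19108408949) (nat_lit 265) (nat_lit 5) (nat_lit 282) (nat_lit 5) (nat_lit 266) (nat_lit 5) (nat_lit 471) (nat_lit 453) (nat_lit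 276))))) (XT.nd (nat_lit 312) (nat_lit 1672) (nat_lit 0) (XT.nd (nat_lit 156) (nat_lit 608) (nat_lit 0) (XT.nd (nat_lit 78) (nat_lit 0) (nat_lit 0) (XT.lf (nat_lit 0) (nat_lit 4195102377) (nat_lit 836) (nat_lit 17164291700) (nat_lit 76) (nat_lit 4860819022) (nat_lit 255) (nat_lit 5) (nat_lit 266) (nat_lit 5) (nat_lit 256) (nat_lit 5) (nat_lit 472) (nat_lit 453) (nat_lit 275)) (XT.lf (nat_lit 0) (nat_lit 6724690142) (nat_lit 836) (nat_lit 3245803600) (nat_lit 76) (nat_lit 16677143981) (nat_lit 255) (nat_lit 5) (nat_lit 266) (nat_lit 5) (nat_lit 256) (nat_lit 5) (nat_lit 473) (nat_lit 453) (nat_lit 274))) (XT.nd (nat_lit 78) (nat_lit 0) (nat_lit 0) (XT.lf (nat_lit 0) (nat_lit 9452839541) (nat_lit 684) (nat_lit 15795601675) (nat_lit 76) (nat_lit 1835764509) (nat_lit 247) (nat_lit 5) (nat_lit 256) (nat_lit 5) (nat_lit 248) (nat_lit 5) (nat_lit 474) (nat_lit 453) (nat_lit 273)) (XT.lf (nat_lit 0) (nat_lit 12390720637)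 (nat_lit 684) (nat_lit 1310174940) (nat_lit 76) (nat_lit 13829139406) (nat_lit 247) (nat_lit 5) (nat_lit 256) (nat_lit 5) (nat_lit 248) (nat_lit 5) (nat_lit 475) (nat_lit 453) (nat_lit 272)))) (XT.nd (nat_lit 156) (nat_lit 532) (nat_lit 0) (XT.nd (nat_lit 78) (nat_lit 532) (nat_lit 0) (XT.lf (nat_lit 0) (nat_lit 13876889185) (nat_lit 608) (nat_lit 1669425321) (nat_lit 684) (nat_lit 12439038134) (nat_lit 239) (nat_lit 5) (nat_lit 247) (nat_lit 5) (nat_lit 248) (nat_lit 5) (nat_lit 476) (nat_lit 453) (nat_lit 271)) (XT.lf (nat_lit 0) (nat_lit 1005105191) (nat_lit 532) (nat_lit 17913829435) (nat_lit 608) (nat_lit 9531725234) (nat_lit 232) (nat_lit 5) (nat_lit 239) (nat_lit 5) (nat_lit 240) (nat_lit 5) (nat_lit 477) (nat_lit 453) (nat_lit 270))) (XT.nd (nat_lit 78) (nat_lit 532) (nat_lit 0) (XT.lf (nat_lit 0) (nat_lit 16840679084) (nat_lit 532) (nat_lit 5707221487) (nat_lit 608) (nat_lit 6377371471) (nat_lit 232) (nat_lit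 5) (nat_lit 239) (nat_lit 5) (nat_lit 240) (nat_lit 5) (nat_lit 478) (nat_lit 453) (nat_lit 269)) (XT.lf (nat_lit 0) (nat_lit 3740439864) (nat_lit 532) (nat_lit 22643685734) (nat_lit 608) (nat_lit 3027046029) (nat_lit 225) (nat_lit 5) (nat_lit 232) (nat_lit 5) (nat_lit 233) (nat_lit 5) (nat_lit 479) (nat_lit 453) (nat_lit 268))))))))
noncomputable def xc205 : XT := (XT.nd (nat_lit 2340) (nat_lit 4256) (nat_lit 0) (XT.nd (nat_lit 1170) (nat_lit 3040) (nat_lit 0) (XT.nd (nat_lit 546) (nat_lit 2280) (nat_lit 0) (XT.nd (nat_lit 234) (nat_lit 988) (nat_lit 0) (XT.nd (nat_lit 78) (nat_lit 532) (nat_lit 0) (XT.lf (nat_lit 0) (nat_lit 591736825) (nat_lit 608) (nat_lit 9685615534) (nat_lit 76) (nat_lit 19628887810) (nat_lit 224) (nat_lit 5) (nat_lit 232) (nat_lit 5) (nat_lit 225) (nat_lit 5) (nat_lit 480) (nat_lit 453) (nat_lit 267)) (XT.nd (nat_lit 78) (nat_lit 0) (nat_lit 0) (XT.lf (nat_lit 0) (nat_lit 4345543877) (nat_lit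 608) (nat_lit 23558321633) (nat_lit 76) (nat_lit 2508777772) (nat_lit 217) (nat_lit 5) (nat_lit 225) (nat_lit 5) (nat_lit 218) (nat_lit 5) (nat_lit 481) (nat_lit 453) (nat_lit 266)) (XT.lf (nat_lit 0) (nat_lit 8409131363) (nat_lit 608) (nat_lit 6948763775) (nat_lit 76) (nat_lit 15570429023) (nat_lit 217) (nat_lit 5) (nat_lit 225) (nat_lit 5) (nat_lit 218) (nat_lit 5) (nat_lit 482) (nat_lit 453) (nat_lit 265)))) (XT.nd (nat_lit 156) (nat_lit 456) (nat_lit 0) (XT.nd (nat_lit 78) (nat_lit 0) (nat_lit 0) (XT.lf (nat_lit 0) (nat_lit 10357565396) (nat_lit 532) (nat_lit 2333358467) (nat_lit 608) (nat_lit 18765663320) (nat_lit 210) (nat_lit 5) (nat_lit 217) (nat_lit 5) (nat_lit 218) (nat_lit 5) (nat_lit 483) (nat_lit 453) (nat_lit 264)) (XT.lf (nat_lit 0) (nat_lit 17275350896) (nat_lit 608) (nat_lit 3783972925) (nat_lit 76) (nat_lit 10936149472) (nat_lit 210) (nat_lit 5) (nat_lit 218) (nat_lit 5) (nat_lit 211) (nat_lit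 5) (nat_lit 484) (nat_lit 453) (nat_lit 263))) (XT.nd (nat_lit 78) (nat_lit 0) (nat_lit 0) (XT.lf (nat_lit 0) (nat_lit 14302947940) (nat_lit 456) (nat_lit 7851838498) (nat_lit 532) (nat_lit 10391015880) (nat_lit 204) (nat_lit 5) (nat_lit 210) (nat_lit 5) (nat_lit 211) (nat_lit 5) (nat_lit 485) (nat_lit 453) (nat_lit 262)) (XT.lf (nat_lit 0) (nat_lit 27271421055) (nat_lit 532) (nat_lit 160751092) (nat_lit 76) (nat_lit 5677745173) (nat_lit 204) (nat_lit 5) (nat_lit 211) (nat_lit 5) (nat_lit 205) (nat_lit 5) (nat_lit 486) (nat_lit 453) (nat_lit 261))))) (XT.nd (nat_lit 312) (nat_lit 836) (nat_lit 0) (XT.nd (nat_lit 156) (nat_lit 456) (nat_lit 0) (XT.nd (nat_lit 78) (nat_lit 532) (nat_lit 0) (XT.lf (nat_lit 0) (nat_lit 18748397315) (nat_lit 456) (nat_lit 14048145133) (nat_lit 532) (nat_lit 886764258) (nat_lit 198) (nat_lit 5) (nat_lit 204) (nat_lit 5) (nat_lit 205) (nat_lit 5) (nat_lit 487) (nat_lit 453) (nat_lit 260))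 (XT.lf (nat_lit 0) (nat_lit 3988017465) (nat_lit 456) (nat_lit 180305210) (nat_lit 532) (nat_lit 30103249830) (nat_lit 191) (nat_lit 5) (nat_lit 197) (nat_lit 5) (nat_lit 198) (nat_lit 5) (nat_lit 488) (nat_lit 453) (nat_lit 259))) (XT.nd (nat_lit 78) (nat_lit 456) (nat_lit 0) (XT.lf (nat_lit 0) (nat_lit 9642213299) (nat_lit 532) (nat_lit 11237621130) (nat_lit 76) (nat_lit 13988839748) (nat_lit 191) (nat_lit 5) (nat_lit 198) (nat_lit 5) (nat_lit 192) (nat_lit 5) (nat_lit 489) (nat_lit 453) (nat_lit 258)) (XT.lf (nat_lit 0) (nat_lit 8541080420) (nat_lit 456) (nat_lit 6820307630) (nat_lit 532) (nat_lit 20119869330) (nat_lit 185) (nat_lit 5) (nat_lit 191) (nat_lit 5) (nat_lit 192) (nat_lit 5) (nat_lit 490) (nat_lit 453) (nat_lit 257)))) (XT.nd (nat_lit 156) (nat_lit 456) (nat_lit 0) (XT.nd (nat_lit 78) (nat_lit 380) (nat_lit 0) (XT.lf (nat_lit 0) (nat_lit 21437604198) (nat_lit 532) (nat_lit 7043611514) (nat_lit 76)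 (nat_lit 7625438874) (nat_lit 185) (nat_lit 5) (nat_lit 192) (nat_lit 5) (nat_lit 186) (nat_lit 5) (nat_lit 491) (nat_lit 453) (nat_lit 256)) (XT.lf (nat_lit 0) (nat_lit 13645157031) (nat_lit 380) (nat_lit 14246946498) (nat_lit 456) (nat_lit 8852830755) (nat_lit 180) (nat_lit 5) (nat_lit 185) (nat_lit 5) (nat_lit 186) (nat_lit 5) (nat_lit 492) (nat_lit 453) (nat_lit 255))) (XT.nd (nat_lit 78) (nat_lit 456) (nat_lit 0) (XT.lf (nat_lit 0) (nat_lit 34613393715) (nat_lit 456) (nat_lit 2309411403) (nat_lit 76) (nat_lit 477363040) (nat_lit 180) (nat_lit 5) (nat_lit 186) (nat_lit 5) (nat_lit 181) (nat_lit 5) (nat_lit 493) (nat_lit 453) (nat_lit 254)) (XT.lf (nat_lit 0) (nat_lit 3721295869) (nat_lit 456) (nat_lit 18764229743) (nat_lit 76) (nat_lit 15578708497) (nat_lit 174) (nat_lit 5) (nat_lit 180) (nat_lit 5) (nat_lit 175) (nat_lit 5) (nat_lit 494) (nat_lit 453) (nat_lit 253)))))) (XT.nd (nat_lit 546) (nat_lit 1520)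 (nat_lit 0) (XT.nd (nat_lit 234) (nat_lit 760) (nat_lit 0) (XT.nd (nat_lit 78) (nat_lit 380) (nat_lit 0) (XT.lf (nat_lit 0) (nat_lit 2882558574) (nat_lit 380) (nat_lit 7534735590) (nat_lit 456) (nat_lit 28328639621) (nat_lit 169) (nat_lit 5) (nat_lit 174) (nat_lit 5) (nat_lit 175) (nat_lit 5) (nat_lit 495) (nat_lit 453) (nat_lit 252)) (XT.nd (nat_lit 78) (nat_lit 380) (nat_lit 0) (XT.lf (nat_lit 0) (nat_lit 17578600849) (nat_lit 456) (nat_lit 13959899780) (nat_lit 76) (nat_lit 7901651383) (nat_lit 169) (nat_lit 5) (nat_lit 175) (nat_lit 5) (nat_lit 170) (nat_lit 5) (nat_lit 496) (nat_lit 453) (nat_lit 251)) (XT.lf (nat_lit 0) (nat_lit 8692374374) (nat_lit 380) (nat_lit 16418075087) (nat_lit 456) (nat_lit 15040076639) (nat_lit 164) (nat_lit 5) (nat_lit 169) (nat_lit 5) (nat_lit 170) (nat_lit 5) (nat_lit 497) (nat_lit 453) (nat_lit 250)))) (XT.nd (nat_lit 156) (nat_lit 456) (nat_lit 0) (XT.nd (nat_lit 78) (nat_lit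 304) (nat_lit 0) (XT.lf (nat_lit 0) (nat_lit 32307089868) (nat_lit 380) (nat_lit 699716116) (nat_lit 456) (nat_lit 7871249242) (nat_lit 164) (nat_lit 5) (nat_lit 169) (nat_lit 5) (nat_lit 170) (nat_lit 5) (nat_lit 498) (nat_lit 453) (nat_lit 249)) (XT.lf (nat_lit 0) (nat_lit 15146235154) (nat_lit 304) (nat_lit 26285961148) (nat_lit 380) (nat_lit 186450004) (nat_lit 160) (nat_lit 5) (nat_lit 164) (nat_lit 5) (nat_lit 165) (nat_lit 5) (nat_lit 499) (nat_lit 453) (nat_lit 248))) (XT.nd (nat_lit 78) (nat_lit 380) (nat_lit 0) (XT.lf (nat_lit 0) (nat_lit 7670070668) (nat_lit 380) (nat_lit 2713563006) (nat_lit 76) (nat_lit 31992833074) (nat_lit 159) (nat_lit 5) (nat_lit 164) (nat_lit 5) (nat_lit 160) (nat_lit 5) (nat_lit 500) (nat_lit 453) (nat_lit 247)) (XT.lf (nat_lit 0) (nat_lit 16029289881) (nat_lit 456) (nat_lit 21024438010) (nat_lit 76) (nat_lit 6095116363) (nat_lit 154) (nat_lit 5) (nat_lit 160) (nat_lit 5) (nat_lit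 155) (nat_lit 5) (nat_lit 501) (nat_lit 453) (nat_lit 246))))) (XT.nd (nat_lit 312) (nat_lit 836) (nat_lit 0) (XT.nd (nat_lit 156) (nat_lit 380) (nat_lit 0) (XT.nd (nat_lit 78) (nat_lit 0) (nat_lit 0) (XT.lf (nat_lit 0) (nat_lit 3787186072) (nat_lit 304) (nat_lit 21016742065) (nat_lit 380) (nat_lit 19135526009) (nat_lit 150) (nat_lit 5) (nat_lit 154) (nat_lit 5) (nat_lit 155) (nat_lit 5) (nat_lit 502) (nat_lit 453) (nat_lit 245)) (XT.lf (nat_lit 0) (nat_lit 29770965736) (nat_lit 304) (nat_lit 4280936737) (nat_lit 380) (nat_lit 10695577276) (nat_lit 150) (nat_lit 5) (nat_lit 154) (nat_lit 5) (nat_lit 155) (nat_lit 5) (nat_lit 503) (nat_lit 453) (nat_lit 244))) (XT.nd (nat_lit 78) (nat_lit 76) (nat_lit 0) (XT.lf (nat_lit 0) (nat_lit 11042300956) (nat_lit 304) (nat_lit 32763557155) (nat_lit 380) (nat_lit 1767032062) (nat_lit 146) (nat_lit 5) (nat_lit 150) (nat_lit 5) (nat_lit 151) (nat_lit 5) (nat_lit 504) (nat_lit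 453) (nat_lit 243)) (XT.lf (nat_lit 0) (nat_lit 7477370273) (nat_lit 380) (nat_lit 8388289081) (nat_lit 76) (nat_lit 30549472148) (nat_lit 145) (nat_lit 5) (nat_lit 150) (nat_lit 5) (nat_lit 146) (nat_lit 5) (nat_lit 505) (nat_lit 453) (nat_lit 242)))) (XT.nd (nat_lit 156) (nat_lit 532) (nat_lit 0) (XT.nd (nat_lit 78) (nat_lit 0) (nat_lit 0) (XT.lf (nat_lit 0) (nat_lit 17159812848) (nat_lit 380) (nat_lit 28407221686) (nat_lit 76) (nat_lit 1709194249) (nat_lit 141) (nat_lit 5) (nat_lit 146) (nat_lit 5) (nat_lit 142) (nat_lit 5) (nat_lit 506) (nat_lit 453) (nat_lit 241)) (XT.lf (nat_lit 0) (nat_lit 27373301036) (nat_lit 380) (nat_lit 1205647865) (nat_lit 76) (nat_lit 19576993192) (nat_lit 141) (nat_lit 5) (nat_lit 146) (nat_lit 5) (nat_lit 142) (nat_lit 5) (nat_lit 507) (nat_lit 453) (nat_lit 240))) (XT.nd (nat_lit 78) (nat_lit 228) (nat_lit 0) (XT.lf (nat_lit 0) (nat_lit 27342534697) (nat_lit 304) (nat_lit 10811494924)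 (nat_lit 380) (nat_lit 10900192379) (nat_lit 137) (nat_lit 5) (nat_lit 141) (nat_lit 5) (nat_lit 142) (nat_lit 5) (nat_lit 508) (nat_lit 453) (nat_lit 239)) (XT.lf (nat_lit 0) (nat_lit 6851367658) (nat_lit 228) (nat_lit 42554978606) (nat_lit 304) (nat_lit 568659318) (nat_lit 134) (nat_lit 5) (nat_lit 137) (nat_lit 5) (nat_lit 138) (nat_lit 5) (nat_lit 509) (nat_lit 453) (nat_lit 238))))))) (XT.nd (nat_lit 1170) (nat_lit 2052) (nat_lit 0) (XT.nd (nat_lit 546) (nat_lit 988) (nat_lit 0) (XT.nd (nat_lit 234) (nat_lit 836) (nat_lit 0) (XT.nd (nat_lit 78) (nat_lit 304) (nat_lit 0) (XT.lf (nat_lit 0) (nat_lit 10202755616) (nat_lit 304) (nat_lit 14409514238) (nat_lit 76) (nat_lit 26298443497) (nat_lit 133) (nat_lit 5) (nat_lit 137) (nat_lit 5) (nat_lit 134) (nat_lit 5) (nat_lit 510) (nat_lit 453) (nat_lit 237)) (XT.nd (nat_lit 78) (nat_lit 0) (nat_lit 0) (XT.lf (nat_lit 0) (nat_lit 15459134074) (nat_lit 304) (nat_lit 5973441561)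 (nat_lit 380) (nat_lit 30437347287) (nat_lit 129) (nat_lit 5) (nat_lit 133) (nat_lit 5) (nat_lit 134) (nat_lit 5) (nat_lit 511) (nat_lit 453) (nat_lit 236)) (XT.lf (nat_lit 0) (nat_lit 33271468643) (nat_lit 380) (nat_lit 6465834286) (nat_lit 76) (nat_lit 13112440732) (nat_lit 129) (nat_lit 5) (nat_lit 134) (nat_lit 5) (nat_lit 130) (nat_lit 5) (nat_lit 512) (nat_lit 453) (nat_lit 235)))) (XT.nd (nat_lit 156) (nat_lit 228) (nat_lit 0) (XT.nd (nat_lit 78) (nat_lit 380) (nat_lit 0) (XT.lf (nat_lit 0) (nat_lit 24799386878) (nat_lit 228) (nat_lit 20961833946) (nat_lit 304) (nat_lit 8088867654) (nat_lit 126) (nat_lit 5) (nat_lit 129) (nat_lit 5) (nat_lit 130) (nat_lit 5) (nat_lit 513) (nat_lit 453) (nat_lit 234)) (XT.lf (nat_lit 0) (nat_lit 2261226980) (nat_lit 304) (nat_lit 1496757810) (nat_lit 380) (nat_lit 51118803654) (nat_lit 121) (nat_lit 5) (nat_lit 125) (nat_lit 5) (nat_lit 126) (nat_lit 5) (nat_lit 514) (nat_lit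 453) (nat_lit 233))) (XT.nd (nat_lit 78) (nat_lit 228) (nat_lit 0) (XT.lf (nat_lit 0) (nat_lit 16270446536) (nat_lit 380) (nat_lit 21081681598) (nat_lit 76) (nat_lit 18565575391) (nat_lit 121) (nat_lit 5) (nat_lit 126) (nat_lit 5) (nat_lit 122) (nat_lit 5) (nat_lit 515) (nat_lit 453) (nat_lit 232)) (XT.lf (nat_lit 0) (nat_lit 11607086405) (nat_lit 228) (nat_lit 17675828899) (nat_lit 304) (nat_lit 27703191960) (nat_lit 118) (nat_lit 5) (nat_lit 121) (nat_lit 5) (nat_lit 122) (nat_lit 5) (nat_lit 516) (nat_lit 453) (nat_lit 231))))) (XT.nd (nat_lit 312) (nat_lit 456) (nat_lit 0) (XT.nd (nat_lit 156) (nat_lit 304) (nat_lit 0) (XT.nd (nat_lit 78) (nat_lit 228) (nat_lit 0) (XT.lf (nat_lit 0) (nat_lit 42923907450) (nat_lit 304) (nat_lit 12401336778) (nat_lit 76) (nat_lit 2754174605) (nat_lit 118) (nat_lit 5) (nat_lit 122) (nat_lit 5) (nat_lit 119) (nat_lit 5) (nat_lit 517) (nat_lit 453) (nat_lit 230)) (XT.lf (nat_lit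 0) (nat_lit 21813593827) (nat_lit 228) (nat_lit 35543534146) (nat_lit 304) (nat_lit 1836912006) (nat_lit 115) (nat_lit 5) (nat_lit 118) (nat_lit 5) (nat_lit 119) (nat_lit 5) (nat_lit 518) (nat_lit 453) (nat_lit 229))) (XT.nd (nat_lit 78) (nat_lit 228) (nat_lit 0) (XT.lf (nat_lit 0) (nat_lit 11774179920) (nat_lit 304) (nat_lit 3147349504) (nat_lit 76) (nat_lit 45413400809) (nat_lit 114) (nat_lit 5) (nat_lit 118) (nat_lit 5) (nat_lit 115) (nat_lit 5) (nat_lit 519) (nat_lit 453) (nat_lit 228)) (XT.lf (nat_lit 0) (nat_lit 26133700139) (nat_lit 304) (nat_lit 28833561157) (nat_lit 76) (nat_lit 6530929985) (nat_lit 111) (nat_lit 5) (nat_lit 115) (nat_lit 5) (nat_lit 112) (nat_lit 5) (nat_lit 520) (nat_lit 453) (nat_lit 227)))) (XT.nd (nat_lit 156) (nat_lit 228) (nat_lit 0) (XT.nd (nat_lit 78) (nat_lit 0) (nat_lit 0) (XT.lf (nat_lit 0) (nat_lit 6904083648) (nat_lit 228) (nat_lit 34264496374) (nat_lit 304) (nat_lit 21520433085)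 (nat_lit 108) (nat_lit 5) (nat_lit 111) (nat_lit 5) (nat_lit 112) (nat_lit 5) (nat_lit 521) (nat_lit 453) (nat_lit 226)) (XT.lf (nat_lit 0) (nat_lit 44302266457) (nat_lit 228) (nat_lit 12641797312) (nat_lit 304) (nat_lit 6962809260) (nat_lit 108) (nat_lit 5) (nat_lit 111) (nat_lit 5) (nat_lit 112) (nat_lit 5) (nat_lit 522) (nat_lit 453) (nat_lit 225))) (XT.nd (nat_lit 78) (nat_lit 0) (nat_lit 0) (XT.lf (nat_lit 0) (nat_lit 8140637502) (nat_lit 228) (nat_lit 47317636302) (nat_lit 76) (nat_lit 9692704418) (nat_lit 105) (nat_lit 5) (nat_lit 108) (nat_lit 5) (nat_lit 106) (nat_lit 5) (nat_lit 523) (nat_lit 453) (nat_lit 224)) (XT.lf (nat_lit 0) (nat_lit 23880773938) (nat_lit 228) (nat_lit 9828845196) (nat_lit 76) (nat_lit 32711013472) (nat_lit 105) (nat_lit 5) (nat_lit 108) (nat_lit 5) (nat_lit 106) (nat_lit 5) (nat_lit 524) (nat_lit 453) (nat_lit 223)))))) (XT.nd (nat_lit 624) (nat_lit 912) (nat_lit 0) (XT.nd (nat_lit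 312) (nat_lit 456) (nat_lit 0) (XT.nd (nat_lit 156) (nat_lit 304) (nat_lit 0) (XT.nd (nat_lit 78) (nat_lit 152) (nat_lit 0) (XT.lf (nat_lit 0) (nat_lit 29354888813) (nat_lit 228) (nat_lit 11018885682) (nat_lit 304) (nat_lit 27346182471) (nat_lit 102) (nat_lit 5) (nat_lit 105) (nat_lit 5) (nat_lit 106) (nat_lit 5) (nat_lit 525) (nat_lit 453) (nat_lit 222)) (XT.lf (nat_lit 0) (nat_lit 752747909) (nat_lit 152) (nat_lit 56833521346) (nat_lit 228) (nat_lit 11465250818) (nat_lit 100) (nat_lit 5) (nat_lit 102) (nat_lit 5) (nat_lit 103) (nat_lit 5) (nat_lit 526) (nat_lit 453) (nat_lit 221))) (XT.nd (nat_lit 78) (nat_lit 228) (nat_lit 0) (XT.lf (nat_lit 0) (nat_lit 5295489571) (nat_lit 228) (nat_lit 28743378380) (nat_lit 76) (nat_lit 36367786174) (nat_lit 99) (nat_lit 5) (nat_lit 102) (nat_lit 5) (nat_lit 100) (nat_lit 5) (nat_lit 527) (nat_lit 453) (nat_lit 220)) (XT.lf (nat_lit 0) (nat_lit 12119167104) (nat_lit 228) (nat_lit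 10324483326) (nat_lit 304) (nat_lit 49351935224) (nat_lit 96) (nat_lit 5) (nat_lit 99) (nat_lit 5) (nat_lit 100) (nat_lit 5) (nat_lit 528) (nat_lit 453) (nat_lit 219)))) (XT.nd (nat_lit 156) (nat_lit 304) (nat_lit 0) (XT.nd (nat_lit 78) (nat_lit 152) (nat_lit 0) (XT.lf (nat_lit 0) (nat_lit 40533482973) (nat_lit 304) (nat_lit 18561592548) (nat_lit 76) (nat_lit 14118292928) (nat_lit 96) (nat_lit 5) (nat_lit 100) (nat_lit 5) (nat_lit 97) (nat_lit 5) (nat_lit 529) (nat_lit 453) (nat_lit 218)) (XT.lf (nat_lit 0) (nat_lit 24153356567) (nat_lit 152) (nat_lit 35345646262) (nat_lit 228) (nat_lit 15164692251) (nat_lit 94) (nat_lit 5) (nat_lit 96) (nat_lit 5) (nat_lit 97) (nat_lit 5) (nat_lit 530) (nat_lit 453) (nat_lit 217))) (XT.nd (nat_lit 78) (nat_lit 228) (nat_lit 0) (XT.lf (nat_lit 0) (nat_lit 3007724971) (nat_lit 228) (nat_lit 7653583463) (nat_lit 76) (nat_lit 65489757173) (nat_lit 93) (nat_lit 5) (nat_lit 96) (nat_lit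 5) (nat_lit 94) (nat_lit 5) (nat_lit 531) (nat_lit 453) (nat_lit 216)) (XT.lf (nat_lit 0) (nat_lit 21922316814) (nat_lit 304) (nat_lit 40755285153) (nat_lit 76) (nat_lit 14985897109) (nat_lit 90) (nat_lit 5) (nat_lit 94) (nat_lit 5) (nat_lit 91) (nat_lit 5) (nat_lit 532) (nat_lit 453) (nat_lit 215))))) (XT.nd (nat_lit 312) (nat_lit 532) (nat_lit 0) (XT.nd (nat_lit 156) (nat_lit 228) (nat_lit 0) (XT.nd (nat_lit 78) (nat_lit 0) (nat_lit 0) (XT.lf (nat_lit 0) (nat_lit 3708452003) (nat_lit 152) (nat_lit 37913796907) (nat_lit 228) (nat_lit 37592519672) (nat_lit 88) (nat_lit 5) (nat_lit 90) (nat_lit 5) (nat_lit 91) (nat_lit 5) (nat_lit 533) (nat_lit 453) (nat_lit 214)) (XT.lf (nat_lit 0) (nat_lit 50339208039) (nat_lit 152) (nat_lit 11984182067) (nat_lit 228) (nat_lit 18476879839) (nat_lit 88) (nat_lit 5) (nat_lit 90) (nat_lit 5) (nat_lit 91) (nat_lit 5) (nat_lit 534) (nat_lit 453) (nat_lit 213))) (XT.nd (nat_lit 78)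 (nat_lit 0) (nat_lit 0) (XT.lf (nat_lit 0) (nat_lit 1486538019) (nat_lit 228) (nat_lit 66333050287) (nat_lit 76) (nat_lit 14604459646) (nat_lit 85) (nat_lit 5) (nat_lit 88) (nat_lit 5) (nat_lit 86) (nat_lit 5) (nat_lit 535) (nat_lit 453) (nat_lit 212)) (XT.lf (nat_lit 0) (nat_lit 22105484826) (nat_lit 228) (nat_lit 19730212467) (nat_lit 76) (nat_lit 42242514121) (nat_lit 85) (nat_lit 5) (nat_lit 88) (nat_lit 5) (nat_lit 86) (nat_lit 5) (nat_lit 536) (nat_lit 453) (nat_lit 211)))) (XT.nd (nat_lit 156) (nat_lit 380) (nat_lit 0) (XT.nd (nat_lit 78) (nat_lit 0) (nat_lit 0) (XT.lf (nat_lit 0) (nat_lit 28831073808) (nat_lit 152) (nat_lit 14787801762) (nat_lit 228) (nat_lit 42154848037) (nat_lit 83) (nat_lit 5) (nat_lit 85) (nat_lit 5) (nat_lit 86) (nat_lit 5) (nat_lit 537) (nat_lit 453) (nat_lit 210)) (XT.lf (nat_lit 0) (nat_lit 66103268661) (nat_lit 228) (nat_lit 8390340807) (nat_lit 76) (nat_lit 13016723769) (nat_lit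 83) (nat_lit 5) (nat_lit 86) (nat_lit 5) (nat_lit 84) (nat_lit 5) (nat_lit 538) (nat_lit 453) (nat_lit 209))) (XT.nd (nat_lit 78) (nat_lit 152) (nat_lit 0) (XT.lf (nat_lit 0) (nat_lit 521092960) (nat_lit 228) (nat_lit 46992316344) (nat_lit 76) (nat_lit 41768925916) (nat_lit 80) (nat_lit 5) (nat_lit 83) (nat_lit 5) (nat_lit 81) (nat_lit 5) (nat_lit 539) (nat_lit 453) (nat_lit 208)) (XT.lf (nat_lit 0) (nat_lit 3409388069) (nat_lit 152) (nat_lit 19384563886) (nat_lit 228) (nat_lit 68303673333) (nat_lit 78) (nat_lit 5) (nat_lit 80) (nat_lit 5) (nat_lit 81) (nat_lit 5) (nat_lit 540) (nat_lit 453) (nat_lit 207))))))))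
noncomputable def xc206 : XT := (XT.nd (nat_lit 57642) (nat_lit 0) (nat_lit 4864) (XT.nd (nat_lit 56472) (nat_lit 0) (nat_lit 12084) (XT.nd (nat_lit 55848) (nat_lit 0) (nat_lit 15352) (XT.nd (nat_lit 234) (nat_lit 228) (nat_lit 0) (XT.nd (nat_lit 78) (nat_lit 152) (nat_lit 0) (XT.lf (nat_lit 0) (nat_lit 46305177633) (nat_lit 228) (nat_lit 36765748301) (nat_lit 76) (nat_lit 9879342777) (nat_lit 78) (nat_lit 5) (nat_lit 81) (nat_lit 5) (nat_lit 79) (nat_lit 5) (nat_lit 541) (nat_lit 453) (nat_lit 206)) (XT.nd (nat_lit 78) (nat_lit 0) (nat_lit 0) (XT.lf (nat_lit 0) (nat_lit 15798656505) (nat_lit 152) (nat_lit 55065696889) (nat_lit 228) (nat_lit 23983859721) (nat_lit 76) (nat_lit 5) (nat_lit 78) (nat_lit 5) (nat_lit 79) (nat_lit 5) (nat_lit 542) (nat_lit 453) (nat_lit 205)) (XT.lf (nat_lit 0) (nat_lit 70691554952) (nat_lit 152) (nat_lit 25838846195) (nat_lit 228) (nat_lit 261591880) (nat_lit 76) (nat_lit 5) (nat_lit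 78) (nat_lit 5) (nat_lit 79) (nat_lit 5) (nat_lit 543) (nat_lit 453) (nat_lit 204)))) (XT.nd (nat_lit 55458) (nat_lit 0) (nat_lit 15276) (XT.nd (nat_lit 78) (nat_lit 0) (nat_lit 0) (XT.lf (nat_lit 0) (nat_lit 24022034606) (nat_lit 228) (nat_lit 70060857893) (nat_lit 76) (nat_lit 4694581722) (nat_lit 73) (nat_lit 5) (nat_lit 76) (nat_lit 5) (nat_lit 74) (nat_lit 5) (nat_lit 544) (nat_lit 453) (nat_lit 203)) (XT.lf (nat_lit 0) (nat_lit 49549777389) (nat_lit 228) (nat_lit 15364493801) (nat_lit 76) (nat_lit 35892545075) (nat_lit 73) (nat_lit 5) (nat_lit 76) (nat_lit 5) (nat_lit 74) (nat_lit 5) (nat_lit 545) (nat_lit 453) (nat_lit 202))) (XT.nd (nat_lit 78) (nat_lit 0) (nat_lit 0) (XT.lf (nat_lit 0) (nat_lit 2259487112) (nat_lit 1292) (nat_lit 3911926176) (nat_lit 1292) (nat_lit 3911926176) (nat_lit 274) (nat_lit 3) (nat_lit 291) (nat_lit 3) (nat_lit 291) (nat_lit 5) (nat_lit 454) (nat_lit 454) (nat_lit 292)) (XT.lf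 (nat_lit 76) (nat_lit 2098688283) (nat_lit 0) (nat_lit 2669321575) (nat_lit 1292) (nat_lit 15695694250) (nat_lit 275) (nat_lit 5) (nat_lit 274) (nat_lit 3) (nat_lit 291) (nat_lit 5) (nat_lit 455) (nat_lit 454) (nat_lit 291))))) (XT.nd (nat_lit 312) (nat_lit 0) (nat_lit 152) (XT.nd (nat_lit 156) (nat_lit 0) (nat_lit 76) (XT.nd (nat_lit 78) (nat_lit 0) (nat_lit 0) (XT.lf (nat_lit 0) (nat_lit 5168133336) (nat_lit 1216) (nat_lit 8362406455) (nat_lit 1292) (nat_lit 7234793209) (nat_lit 275) (nat_lit 5) (nat_lit 291) (nat_lit 5) (nat_lit 292) (nat_lit 5) (nat_lit 456) (nat_lit 454) (nat_lit 290)) (XT.lf (nat_lit 76) (nat_lit 1948453554) (nat_lit 0) (nat_lit 3670859645) (nat_lit 1292) (nat_lit 15455527400) (nat_lit 276) (nat_lit 5) (nat_lit 275) (nat_lit 5) (nat_lit 292) (nat_lit 5) (nat_lit 457) (nat_lit 454) (nat_lit 289))) (XT.nd (nat_lit 78) (nat_lit 0) (nat_lit 0) (XT.lf (nat_lit 0) (nat_lit 6225706556) (nat_lit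 1216) (nat_lit 8717801211) (nat_lit 1292) (nat_lit 6445876696) (nat_lit 276) (nat_lit 5) (nat_lit 292) (nat_lit 5) (nat_lit 293) (nat_lit 5) (nat_lit 458) (nat_lit 454) (nat_lit 288)) (XT.lf (nat_lit 76) (nat_lit 2002281918) (nat_lit 0) (nat_lit 4897839053) (nat_lit 1292) (nat_lit 14811750132) (nat_lit 277) (nat_lit 5) (nat_lit 276) (nat_lit 5) (nat_lit 293) (nat_lit 5) (nat_lit 459) (nat_lit 454) (nat_lit 287)))) (XT.nd (nat_lit 156) (nat_lit 0) (nat_lit 76) (XT.nd (nat_lit 78) (nat_lit 0) (nat_lit 0) (XT.lf (nat_lit 0) (nat_lit 7730445704) (nat_lit 1216) (nat_lit 8875613842) (nat_lit 1292) (nat_lit 5433903758) (nat_lit 277) (nat_lit 5) (nat_lit 293) (nat_lit 5) (nat_lit 294) (nat_lit 5) (nat_lit 460) (nat_lit 454) (nat_lit 286)) (XT.lf (nat_lit 76) (nat_lit 2275757918) (nat_lit 0) (nat_lit 6374847551) (nat_lit 1292) (nat_lit 13725346306) (nat_lit 278) (nat_lit 5) (nat_lit 277) (nat_lit 5) (nat_lit 294) (nat_lit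 5) (nat_lit 461) (nat_lit 454) (nat_lit 285))) (XT.nd (nat_lit 78) (nat_lit 0) (nat_lit 0) (XT.lf (nat_lit 0) (nat_lit 9723602122) (nat_lit 1216) (nat_lit 8820307678) (nat_lit 1292) (nat_lit 4174354361) (nat_lit 278) (nat_lit 5) (nat_lit 294) (nat_lit 5) (nat_lit 295) (nat_lit 5) (nat_lit 462) (nat_lit 454) (nat_lit 284)) (XT.lf (nat_lit 76) (nat_lit 2785641707) (nat_lit 0) (nat_lit 8127894196) (nat_lit 1292) (nat_lit 12154768790) (nat_lit 279) (nat_lit 5) (nat_lit 278) (nat_lit 5) (nat_lit 295) (nat_lit 5) (nat_lit 463) (nat_lit 454) (nat_lit 283)))))) (XT.nd (nat_lit 546) (nat_lit 3572) (nat_lit 0) (XT.nd (nat_lit 234) (nat_lit 0) (nat_lit 76) (XT.nd (nat_lit 78) (nat_lit 0) (nat_lit 0) (XT.lf (nat_lit 0) (nat_lit 12249098832) (nat_lit 1216) (nat_lit 8535182993) (nat_lit 1292) (nat_lit 2641267835) (nat_lit 279) (nat_lit 5) (nat_lit 295) (nat_lit 5) (nat_lit 296) (nat_lit 5) (nat_lit 464) (nat_lit 454) (nat_lit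 282)) (XT.nd (nat_lit 78) (nat_lit 0) (nat_lit 76) (XT.lf (nat_lit 76) (nat_lit 3549921493) (nat_lit 0) (nat_lit 10184534388) (nat_lit 1292) (nat_lit 10055765400) (nat_lit 280) (nat_lit 5) (nat_lit 279) (nat_lit 5) (nat_lit 296) (nat_lit 5) (nat_lit 465) (nat_lit 454) (nat_lit 281)) (XT.lf (nat_lit 0) (nat_lit 15353711819) (nat_lit 1216) (nat_lit 8002324494) (nat_lit 1292) (nat_lit 807117679) (nat_lit 280) (nat_lit 5) (nat_lit 296) (nat_lit 5) (nat_lit 297) (nat_lit 5) (nat_lit 466) (nat_lit 454) (nat_lit 280)))) (XT.nd (nat_lit 156) (nat_lit 0) (nat_lit 76) (XT.nd (nat_lit 78) (nat_lit 0) (nat_lit 0) (XT.lf (nat_lit 76) (nat_lit 4587869499) (nat_lit 0) (nat_lit 12574000914) (nat_lit 1292) (nat_lit 7381195579) (nat_lit 281) (nat_lit 5) (nat_lit 280) (nat_lit 5) (nat_lit 297) (nat_lit 5) (nat_lit 467) (nat_lit 454) (nat_lit 279)) (XT.lf (nat_lit 76) (nat_lit 17716235061) (nat_lit 0) (nat_lit 1384333100) (nat_lit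 1292) (nat_lit 5831519385) (nat_lit 281) (nat_lit 5) (nat_lit 280) (nat_lit 5) (nat_lit 297) (nat_lit 5) (nat_lit 468) (nat_lit 454) (nat_lit 278))) (XT.nd (nat_lit 78) (nat_lit 0) (nat_lit 0) (XT.lf (nat_lit 76) (nat_lit 5920101431) (nat_lit 0) (nat_lit 15327341617) (nat_lit 1292) (nat_lit 4080837210) (nat_lit 282) (nat_lit 5) (nat_lit 281) (nat_lit 5) (nat_lit 298) (nat_lit 5) (nat_lit 469) (nat_lit 454) (nat_lit 277)) (XT.lf (nat_lit 76) (nat_lit 19580497043) (nat_lit 0) (nat_lit 3960384828) (nat_lit 1292) (nat_lit 2193013115) (nat_lit 282) (nat_lit 5) (nat_lit 281) (nat_lit 5) (nat_lit 298) (nat_lit 5) (nat_lit 470) (nat_lit 454) (nat_lit 276))))) (XT.nd (nat_lit 312) (nat_lit 1748) (nat_lit 0) (XT.nd (nat_lit 156) (nat_lit 760) (nat_lit 0) (XT.nd (nat_lit 78) (nat_lit 76) (nat_lit 0) (XT.lf (nat_lit 0) (nat_lit 7568639494) (nat_lit 1216) (nat_lit 18477564316) (nat_lit 1292) (nat_lit 101182885) (nat_lit 266)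 (nat_lit 5) (nat_lit 282) (nat_lit 5) (nat_lit 283) (nat_lit 5) (nat_lit 471) (nat_lit 454) (nat_lit 275)) (XT.lf (nat_lit 0) (nat_lit 2111193682) (nat_lit 1292) (nat_lit 4806158894) (nat_lit 76) (nat_lit 19652403488) (nat_lit 265) (nat_lit 5) (nat_lit 282) (nat_lit 5) (nat_lit 266) (nat_lit 5) (nat_lit 472) (nat_lit 454) (nat_lit 274))) (XT.nd (nat_lit 78) (nat_lit 0) (nat_lit 0) (XT.lf (nat_lit 0) (nat_lit 4524724130) (nat_lit 836) (nat_lit 17489374696) (nat_lit 76) (nat_lit 4986564004) (nat_lit 255) (nat_lit 5) (nat_lit 266) (nat_lit 5) (nat_lit 256) (nat_lit 5) (nat_lit 473) (nat_lit 454) (nat_lit 273)) (XT.lf (nat_lit 0) (nat_lit 7124264518) (nat_lit 836) (nat_lit 3158861440) (nat_lit 76) (nat_lit 17157963554) (nat_lit 255) (nat_lit 5) (nat_lit 266) (nat_lit 5) (nat_lit 256) (nat_lit 5) (nat_lit 474) (nat_lit 454) (nat_lit 272)))) (XT.nd (nat_lit 156) (nat_lit 1140) (nat_lit 0) (XT.nd (nat_lit 78) (nat_lit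 0) (nat_lit 0) (XT.lf (nat_lit 0) (nat_lit 9930141861) (nat_lit 684) (nat_lit 16080995821) (nat_lit 76) (nat_lit 1879741602) (nat_lit 247) (nat_lit 5) (nat_lit 256) (nat_lit 5) (nat_lit 248) (nat_lit 5) (nat_lit 475) (nat_lit 454) (nat_lit 271)) (XT.lf (nat_lit 0) (nat_lit 12950517144) (nat_lit 684) (nat_lit 1166495815) (nat_lit 76) (nat_lit 14233240926) (nat_lit 247) (nat_lit 5) (nat_lit 256) (nat_lit 5) (nat_lit 248) (nat_lit 5) (nat_lit 476) (nat_lit 454) (nat_lit 270))) (XT.nd (nat_lit 78) (nat_lit 532) (nat_lit 0) (XT.lf (nat_lit 0) (nat_lit 14474386270) (nat_lit 608) (nat_lit 1722656362) (nat_lit 684) (nat_lit 12622301687) (nat_lit 239) (nat_lit 5) (nat_lit 247) (nat_lit 5) (nat_lit 248) (nat_lit 5) (nat_lit 477) (nat_lit 454) (nat_lit 269)) (XT.lf (nat_lit 0) (nat_lit 1220216649) (nat_lit 532) (nat_lit 18447004170) (nat_lit 608) (nat_lit 9631499682) (nat_lit 232) (nat_lit 5) (nat_lit 239) (nat_lit 5) (nat_lit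 240) (nat_lit 5) (nat_lit 478) (nat_lit 454) (nat_lit 268))))))) (XT.nd (nat_lit 1170) (nat_lit 3268) (nat_lit 0) (XT.nd (nat_lit 546) (nat_lit 2280) (nat_lit 0) (XT.nd (nat_lit 234) (nat_lit 1064) (nat_lit 0) (XT.nd (nat_lit 78) (nat_lit 608) (nat_lit 0) (XT.lf (nat_lit 0) (nat_lit 17525470623) (nat_lit 532) (nat_lit 5874321483) (nat_lit 608) (nat_lit 6387937946) (nat_lit 232) (nat_lit 5) (nat_lit 239) (nat_lit 5) (nat_lit 240) (nat_lit 5) (nat_lit 479) (nat_lit 454) (nat_lit 267)) (XT.nd (nat_lit 78) (nat_lit 76) (nat_lit 0) (XT.lf (nat_lit 0) (nat_lit 4035672731) (nat_lit 532) (nat_lit 23312118544) (nat_lit 608) (nat_lit 2940515793) (nat_lit 225) (nat_lit 5) (nat_lit 232) (nat_lit 5) (nat_lit 233) (nat_lit 5) (nat_lit 480) (nat_lit 454) (nat_lit 266)) (XT.lf (nat_lit 0) (nat_lit 778305478) (nat_lit 608) (nat_lit 9795101802) (nat_lit 76) (nat_lit 20224922181) (nat_lit 224) (nat_lit 5) (nat_lit 232) (nat_lit 5)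 (nat_lit 225) (nat_lit 5) (nat_lit 481) (nat_lit 454) (nat_lit 265)))) (XT.nd (nat_lit 156) (nat_lit 532) (nat_lit 0) (XT.nd (nat_lit 78) (nat_lit 0) (nat_lit 0) (XT.lf (nat_lit 0) (nat_lit 4641664898) (nat_lit 608) (nat_lit 24080894797) (nat_lit 76) (nat_lit 2597457801) (nat_lit 217) (nat_lit 5) (nat_lit 225) (nat_lit 5) (nat_lit 218) (nat_lit 5) (nat_lit 482) (nat_lit 454) (nat_lit 264)) (XT.lf (nat_lit 0) (nat_lit 8822332201) (nat_lit 608) (nat_lit 6978414567) (nat_lit 76) (nat_lit 16050567811) (nat_lit 217) (nat_lit 5) (nat_lit 225) (nat_lit 5) (nat_lit 218) (nat_lit 5) (nat_lit 483) (nat_lit 454) (nat_lit 263))) (XT.nd (nat_lit 78) (nat_lit 0) (nat_lit 0) (XT.lf (nat_lit 0) (nat_lit 10845351419) (nat_lit 532) (nat_lit 2384241866) (nat_lit 608) (nat_lit 19165922680) (nat_lit 210) (nat_lit 5) (nat_lit 217) (nat_lit 5) (nat_lit 218) (nat_lit 5) (nat_lit 484) (nat_lit 454) (nat_lit 262)) (XT.lf (nat_lit 0) (nat_lit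 17947131301) (nat_lit 608) (nat_lit 3721138592) (nat_lit 76) (nat_lit 11282432312) (nat_lit 210) (nat_lit 5) (nat_lit 218) (nat_lit 5) (nat_lit 211) (nat_lit 5) (nat_lit 485) (nat_lit 454) (nat_lit 261))))) (XT.nd (nat_lit 312) (nat_lit 836) (nat_lit 0) (XT.nd (nat_lit 156) (nat_lit 532) (nat_lit 0) (XT.nd (nat_lit 78) (nat_lit 456) (nat_lit 0) (XT.lf (nat_lit 0) (nat_lit 14906660943) (nat_lit 456) (nat_lit 8063496111) (nat_lit 532) (nat_lit 10547468697) (nat_lit 204) (nat_lit 5) (nat_lit 210) (nat_lit 5) (nat_lit 211) (nat_lit 5) (nat_lit 486) (nat_lit 454) (nat_lit 260)) (XT.lf (nat_lit 0) (nat_lit 8322251) (nat_lit 456) (nat_lit 28227881377) (nat_lit 532) (nat_lit 5862584027) (nat_lit 198) (nat_lit 5) (nat_lit 204) (nat_lit 5) (nat_lit 205) (nat_lit 5) (nat_lit 487) (nat_lit 454) (nat_lit 259))) (XT.nd (nat_lit 78) (nat_lit 532) (nat_lit 0) (XT.lf (nat_lit 0) (nat_lit 19482879444) (nat_lit 456) (nat_lit 14441504144)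 (nat_lit 532) (nat_lit 765076802) (nat_lit 198) (nat_lit 5) (nat_lit 204) (nat_lit 5) (nat_lit 205) (nat_lit 5) (nat_lit 488) (nat_lit 454) (nat_lit 258)) (XT.lf (nat_lit 0) (nat_lit 4280893059) (nat_lit 456) (nat_lit 155306386) (nat_lit 532) (nat_lit 30859209811) (nat_lit 191) (nat_lit 5) (nat_lit 197) (nat_lit 5) (nat_lit 198) (nat_lit 5) (nat_lit 489) (nat_lit 454) (nat_lit 257)))) (XT.nd (nat_lit 156) (nat_lit 380) (nat_lit 0) (XT.nd (nat_lit 78) (nat_lit 456) (nat_lit 0) (XT.lf (nat_lit 0) (nat_lit 10070430562) (nat_lit 532) (nat_lit 11402659284) (nat_lit 76) (nat_lit 14437451164) (nat_lit 191) (nat_lit 5) (nat_lit 198) (nat_lit 5) (nat_lit 192) (nat_lit 5) (nat_lit 490) (nat_lit 454) (nat_lit 256)) (XT.lf (nat_lit 0) (nat_lit 8967716151) (nat_lit 456) (nat_lit 6991055313) (nat_lit 532) (nat_lit 20582803244) (nat_lit 185) (nat_lit 5) (nat_lit 191) (nat_lit 5) (nat_lit 192) (nat_lit 5) (nat_lit 491) (nat_lit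 454) (nat_lit 255))) (XT.nd (nat_lit 78) (nat_lit 380) (nat_lit 0) (XT.lf (nat_lit 0) (nat_lit 22213613169) (nat_lit 532) (nat_lit 7085795380) (nat_lit 76) (nat_lit 7886435813) (nat_lit 185) (nat_lit 5) (nat_lit 192) (nat_lit 5) (nat_lit 186) (nat_lit 5) (nat_lit 492) (nat_lit 454) (nat_lit 254)) (XT.lf (nat_lit 0) (nat_lit 14221978139) (nat_lit 380) (nat_lit 14637508814) (nat_lit 456) (nat_lit 8983853994) (nat_lit 180) (nat_lit 5) (nat_lit 185) (nat_lit 5) (nat_lit 186) (nat_lit 5) (nat_lit 493) (nat_lit 454) (nat_lit 253)))))) (XT.nd (nat_lit 624) (nat_lit 1672) (nat_lit 0) (XT.nd (nat_lit 312) (nat_lit 760) (nat_lit 0) (XT.nd (nat_lit 156) (nat_lit 380) (nat_lit 0) (XT.nd (nat_lit 78) (nat_lit 456) (nat_lit 0) (XT.lf (nat_lit 0) (nat_lit 35778955240) (nat_lit 456) (nat_lit 2212622313) (nat_lit 76) (nat_lit 526758765) (nat_lit 180) (nat_lit 5) (nat_lit 186) (nat_lit 5) (nat_lit 181) (nat_lit 5) (nat_lit 494)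 (nat_lit 454) (nat_lit 252)) (XT.lf (nat_lit 0) (nat_lit 3959230526) (nat_lit 456) (nat_lit 19160178996) (nat_lit 76) (nat_lit 16082941912) (nat_lit 174) (nat_lit 5) (nat_lit 180) (nat_lit 5) (nat_lit 175) (nat_lit 5) (nat_lit 495) (nat_lit 454) (nat_lit 251))) (XT.nd (nat_lit 78) (nat_lit 0) (nat_lit 0) (XT.lf (nat_lit 0) (nat_lit 3134375935) (nat_lit 380) (nat_lit 7719643673) (nat_lit 456) (nat_lit 29050545775) (nat_lit 169) (nat_lit 5) (nat_lit 174) (nat_lit 5) (nat_lit 175) (nat_lit 5) (nat_lit 496) (nat_lit 454) (nat_lit 250)) (XT.lf (nat_lit 0) (nat_lit 18226931712) (nat_lit 456) (nat_lit 14214918506) (nat_lit 76) (nat_lit 8177857539) (nat_lit 169) (nat_lit 5) (nat_lit 175) (nat_lit 5) (nat_lit 170) (nat_lit 5) (nat_lit 497) (nat_lit 454) (nat_lit 249)))) (XT.nd (nat_lit 156) (nat_lit 380) (nat_lit 0) (XT.nd (nat_lit 78) (nat_lit 0) (nat_lit 0) (XT.lf (nat_lit 0) (nat_lit 9115318203) (nat_lit 380) (nat_lit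 16867453002) (nat_lit 456) (nat_lit 15368681374) (nat_lit 164) (nat_lit 5) (nat_lit 169) (nat_lit 5) (nat_lit 170) (nat_lit 5) (nat_lit 498) (nat_lit 454) (nat_lit 248)) (XT.lf (nat_lit 0) (nat_lit 33433751688) (nat_lit 380) (nat_lit 678800475) (nat_lit 456) (nat_lit 7988359957) (nat_lit 164) (nat_lit 5) (nat_lit 169) (nat_lit 5) (nat_lit 170) (nat_lit 5) (nat_lit 499) (nat_lit 454) (nat_lit 247))) (XT.nd (nat_lit 78) (nat_lit 76) (nat_lit 0) (XT.lf (nat_lit 0) (nat_lit 15759579424) (nat_lit 304) (nat_lit 27029678564) (nat_lit 380) (nat_lit 74506871) (nat_lit 160) (nat_lit 5) (nat_lit 164) (nat_lit 5) (nat_lit 165) (nat_lit 5) (nat_lit 500) (nat_lit 454) (nat_lit 246)) (XT.lf (nat_lit 0) (nat_lit 8012059264) (nat_lit 380) (nat_lit 2638398810) (nat_lit 76) (nat_lit 32993929150) (nat_lit 159) (nat_lit 5) (nat_lit 164) (nat_lit 5) (nat_lit 160) (nat_lit 5) (nat_lit 501) (nat_lit 454) (nat_lit 245))))) (XT.nd (nat_lit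 312) (nat_lit 684) (nat_lit 0) (XT.nd (nat_lit 156) (nat_lit 304) (nat_lit 0) (XT.nd (nat_lit 78) (nat_lit 304) (nat_lit 0) (XT.lf (nat_lit 0) (nat_lit 16620718307) (nat_lit 456) (nat_lit 21497246878) (nat_lit 76) (nat_lit 6322011466) (nat_lit 154) (nat_lit 5) (nat_lit 160) (nat_lit 5) (nat_lit 155) (nat_lit 5) (nat_lit 502) (nat_lit 454) (nat_lit 244)) (XT.lf (nat_lit 0) (nat_lit 4057177649) (nat_lit 304) (nat_lit 21599701348) (nat_lit 380) (nat_lit 19597477823) (nat_lit 150) (nat_lit 5) (nat_lit 154) (nat_lit 5) (nat_lit 155) (nat_lit 5) (nat_lit 503) (nat_lit 454) (nat_lit 243))) (XT.nd (nat_lit 78) (nat_lit 304) (nat_lit 0) (XT.lf (nat_lit 0) (nat_lit 30815916063) (nat_lit 304) (nat_lit 4363206607) (nat_lit 380) (nat_lit 10907596083) (nat_lit 150) (nat_lit 5) (nat_lit 154) (nat_lit 5) (nat_lit 155) (nat_lit 5) (nat_lit 504) (nat_lit 454) (nat_lit 242)) (XT.lf (nat_lit 0) (nat_lit 11526617704) (nat_lit 304)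 (nat_lit 33697903672) (nat_lit 380) (nat_lit 1712405833) (nat_lit 146) (nat_lit 5) (nat_lit 150) (nat_lit 5) (nat_lit 151) (nat_lit 5) (nat_lit 505) (nat_lit 454) (nat_lit 241)))) (XT.nd (nat_lit 156) (nat_lit 304) (nat_lit 0) (XT.nd (nat_lit 78) (nat_lit 304) (nat_lit 0) (XT.lf (nat_lit 0) (nat_lit 7804154296) (nat_lit 380) (nat_lit 8489294342) (nat_lit 76) (nat_lit 31511048741) (nat_lit 145) (nat_lit 5) (nat_lit 150) (nat_lit 5) (nat_lit 146) (nat_lit 5) (nat_lit 506) (nat_lit 454) (nat_lit 240)) (XT.lf (nat_lit 0) (nat_lit 17775983519) (nat_lit 380) (nat_lit 29107694528) (nat_lit 76) (nat_lit 1807782543) (nat_lit 141) (nat_lit 5) (nat_lit 146) (nat_lit 5) (nat_lit 142) (nat_lit 5) (nat_lit 507) (nat_lit 454) (nat_lit 239))) (XT.nd (nat_lit 78) (nat_lit 304) (nat_lit 0) (XT.lf (nat_lit 0) (nat_lit 28292923644) (nat_lit 380) (nat_lit 1094493216) (nat_lit 76) (nat_lit 20210237422) (nat_lit 141) (nat_lit 5) (nat_lit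 146) (nat_lit 5) (nat_lit 142) (nat_lit 5) (nat_lit 508) (nat_lit 454) (nat_lit 238)) (XT.lf (nat_lit 0) (nat_lit 28308690469) (nat_lit 304) (nat_lit 11086919198) (nat_lit 380) (nat_lit 11127317242) (nat_lit 137) (nat_lit 5) (nat_lit 141) (nat_lit 5) (nat_lit 142) (nat_lit 5) (nat_lit 509) (nat_lit 454) (nat_lit 237))))))))
noncomputable def xc207 : XT := (XT.nd (nat_lit 2340) (nat_lit 532) (nat_lit 0) (XT.nd (nat_lit 1170) (nat_lit 1672) (nat_lit 0) (XT.nd (nat_lit 546) (nat_lit 1216) (nat_lit 0) (XT.nd (nat_lit 234) (nat_lit 608) (nat_lit 0) (XT.nd (nat_lit 78) (nat_lit 380) (nat_lit 0) (XT.lf (nat_lit 0) (nat_lit 7203785689) (nat_lit 228) (nat_lit 43780754496) (nat_lit 304) (nat_lit 486822859) (nat_lit 134) (nat_lit 5) (nat_lit 137) (nat_lit 5) (nat_lit 138) (nat_lit 5) (nat_lit 510) (nat_lit 454) (nat_lit 236)) (XT.nd (nat_lit 78) (nat_lit 304) (nat_lit 0) (XT.lf (nat_lit 0) (nat_lit 10602980437) (nat_lit 304)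 (nat_lit 14697315146) (nat_lit 76) (nat_lit 27134903029) (nat_lit 133) (nat_lit 5) (nat_lit 137) (nat_lit 5) (nat_lit 134) (nat_lit 5) (nat_lit 511) (nat_lit 454) (nat_lit 235)) (XT.lf (nat_lit 0) (nat_lit 16065976101) (nat_lit 304) (nat_lit 6102352208) (nat_lit 380) (nat_lit 31254897508) (nat_lit 129) (nat_lit 5) (nat_lit 133) (nat_lit 5) (nat_lit 134) (nat_lit 5) (nat_lit 512) (nat_lit 454) (nat_lit 234)))) (XT.nd (nat_lit 156) (nat_lit 380) (nat_lit 0) (XT.nd (nat_lit 78) (nat_lit 228) (nat_lit 0) (XT.lf (nat_lit 0) (nat_lit 34360155273) (nat_lit 380) (nat_lit 6518664311) (nat_lit 76) (nat_lit 13553688915) (nat_lit 129) (nat_lit 5) (nat_lit 134) (nat_lit 5) (nat_lit 130) (nat_lit 5) (nat_lit 513) (nat_lit 454) (nat_lit 233)) (XT.lf (nat_lit 0) (nat_lit 25683129714) (nat_lit 228) (nat_lit 21540176614) (nat_lit 304) (nat_lit 8239596470) (nat_lit 126) (nat_lit 5) (nat_lit 129) (nat_lit 5) (nat_lit 130) (nat_lit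 5) (nat_lit 514) (nat_lit 454) (nat_lit 232))) (XT.nd (nat_lit 78) (nat_lit 0) (nat_lit 0) (XT.lf (nat_lit 0) (nat_lit 2469241696) (nat_lit 304) (nat_lit 1490347771) (nat_lit 380) (nat_lit 52560826432) (nat_lit 121) (nat_lit 5) (nat_lit 125) (nat_lit 5) (nat_lit 126) (nat_lit 5) (nat_lit 515) (nat_lit 454) (nat_lit 231)) (XT.lf (nat_lit 0) (nat_lit 16845315643) (nat_lit 380) (nat_lit 21575917624) (nat_lit 76) (nat_lit 19171388746) (nat_lit 121) (nat_lit 5) (nat_lit 126) (nat_lit 5) (nat_lit 122) (nat_lit 5) (nat_lit 516) (nat_lit 454) (nat_lit 230))))) (XT.nd (nat_lit 312) (nat_lit 684) (nat_lit 0) (XT.nd (nat_lit 156) (nat_lit 304) (nat_lit 0) (XT.nd (nat_lit 78) (nat_lit 0) (nat_lit 0) (XT.lf (nat_lit 0) (nat_lit 12092158377) (nat_lit 228) (nat_lit 18154788809) (nat_lit 304) (nat_lit 28446167308) (nat_lit 118) (nat_lit 5) (nat_lit 121) (nat_lit 5) (nat_lit 122) (nat_lit 5) (nat_lit 517) (nat_lit 454) (nat_lit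 229)) (XT.lf (nat_lit 0) (nat_lit 44295156414) (nat_lit 304) (nat_lit 12638481641) (nat_lit 76) (nat_lit 2885648015) (nat_lit 118) (nat_lit 5) (nat_lit 122) (nat_lit 5) (nat_lit 119) (nat_lit 5) (nat_lit 518) (nat_lit 454) (nat_lit 228))) (XT.nd (nat_lit 78) (nat_lit 76) (nat_lit 0) (XT.lf (nat_lit 0) (nat_lit 22601574380) (nat_lit 228) (nat_lit 36558650193) (nat_lit 304) (nat_lit 1807156021) (nat_lit 115) (nat_lit 5) (nat_lit 118) (nat_lit 5) (nat_lit 119) (nat_lit 5) (nat_lit 519) (nat_lit 454) (nat_lit 227)) (XT.lf (nat_lit 0) (nat_lit 12208189158) (nat_lit 304) (nat_lit 3110471383) (nat_lit 76) (nat_lit 46823885504) (nat_lit 114) (nat_lit 5) (nat_lit 118) (nat_lit 5) (nat_lit 115) (nat_lit 5) (nat_lit 520) (nat_lit 454) (nat_lit 226)))) (XT.nd (nat_lit 156) (nat_lit 228) (nat_lit 0) (XT.nd (nat_lit 78) (nat_lit 228) (nat_lit 0) (XT.lf (nat_lit 0) (nat_lit 26997875614) (nat_lit 304) (nat_lit 29566641687) (nat_lit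 76) (nat_lit 6776206454) (nat_lit 111) (nat_lit 5) (nat_lit 115) (nat_lit 5) (nat_lit 112) (nat_lit 5) (nat_lit 521) (nat_lit 454) (nat_lit 225)) (XT.lf (nat_lit 0) (nat_lit 7241839066) (nat_lit 228) (nat_lit 35240883663) (nat_lit 304) (nat_lit 22084580124) (nat_lit 108) (nat_lit 5) (nat_lit 111) (nat_lit 5) (nat_lit 112) (nat_lit 5) (nat_lit 522) (nat_lit 454) (nat_lit 224))) (XT.nd (nat_lit 78) (nat_lit 228) (nat_lit 0) (XT.lf (nat_lit 0) (nat_lit 45758162518) (nat_lit 228) (nat_lit 12971005016) (nat_lit 304) (nat_lit 7092600379) (nat_lit 108) (nat_lit 5) (nat_lit 111) (nat_lit 5) (nat_lit 112) (nat_lit 5) (nat_lit 523) (nat_lit 454) (nat_lit 223)) (XT.lf (nat_lit 0) (nat_lit 8461856092) (nat_lit 228) (nat_lit 48608228607) (nat_lit 76) (nat_lit 10033105486) (nat_lit 105) (nat_lit 5) (nat_lit 108) (nat_lit 5) (nat_lit 106) (nat_lit 5) (nat_lit 524) (nat_lit 454) (nat_lit 222)))))) (XT.nd (nat_lit 546) (nat_lit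 836) (nat_lit 0) (XT.nd (nat_lit 234) (nat_lit 456) (nat_lit 0) (XT.nd (nat_lit 78) (nat_lit 380) (nat_lit 0) (XT.lf (nat_lit 0) (nat_lit 24671953918) (nat_lit 228) (nat_lit 9998529208) (nat_lit 76) (nat_lit 33740518570) (nat_lit 105) (nat_lit 5) (nat_lit 108) (nat_lit 5) (nat_lit 106) (nat_lit 5) (nat_lit 525) (nat_lit 454) (nat_lit 221)) (XT.nd (nat_lit 78) (nat_lit 152) (nat_lit 0) (XT.lf (nat_lit 0) (nat_lit 30359489553) (nat_lit 228) (nat_lit 11299269080) (nat_lit 304) (nat_lit 28090576939) (nat_lit 102) (nat_lit 5) (nat_lit 105) (nat_lit 5) (nat_lit 106) (nat_lit 5) (nat_lit 526) (nat_lit 454) (nat_lit 220)) (XT.lf (nat_lit 0) (nat_lit 899789861) (nat_lit 152) (nat_lit 58487354429) (nat_lit 228) (nat_lit 11733716003) (nat_lit 100) (nat_lit 5) (nat_lit 102) (nat_lit 5) (nat_lit 103) (nat_lit 5) (nat_lit 527) (nat_lit 454) (nat_lit 219)))) (XT.nd (nat_lit 156) (nat_lit 152) (nat_lit 0) (XT.nd (nat_lit 78) (nat_lit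 228) (nat_lit 0) (XT.lf (nat_lit 0) (nat_lit 5526217571) (nat_lit 228) (nat_lit 29483408646) (nat_lit 76) (nat_lit 37507065249) (nat_lit 99) (nat_lit 5) (nat_lit 102) (nat_lit 5) (nat_lit 100) (nat_lit 5) (nat_lit 528) (nat_lit 454) (nat_lit 218)) (XT.lf (nat_lit 0) (nat_lit 12603814467) (nat_lit 228) (nat_lit 10584079504) (nat_lit 304) (nat_lit 50759425034) (nat_lit 96) (nat_lit 5) (nat_lit 99) (nat_lit 5) (nat_lit 100) (nat_lit 5) (nat_lit 529) (nat_lit 454) (nat_lit 217))) (XT.nd (nat_lit 78) (nat_lit 152) (nat_lit 0) (XT.lf (nat_lit 0) (nat_lit 41818823373) (nat_lit 304) (nat_lit 18999290219) (nat_lit 76) (nat_lit 14589569815) (nat_lit 96) (nat_lit 5) (nat_lit 100) (nat_lit 5) (nat_lit 97) (nat_lit 5) (nat_lit 530) (nat_lit 454) (nat_lit 216)) (XT.lf (nat_lit 0) (nat_lit 24995939231) (nat_lit 152) (nat_lit 36356484216) (nat_lit 228) (nat_lit 15549123128) (nat_lit 94) (nat_lit 5) (nat_lit 96) (nat_lit 5) (nat_lit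 97) (nat_lit 5) (nat_lit 531) (nat_lit 454) (nat_lit 215))))) (XT.nd (nat_lit 312) (nat_lit 380) (nat_lit 0) (XT.nd (nat_lit 156) (nat_lit 152) (nat_lit 0) (XT.nd (nat_lit 78) (nat_lit 228) (nat_lit 0) (XT.lf (nat_lit 0) (nat_lit 3165077098) (nat_lit 228) (nat_lit 7767304034) (nat_lit 76) (nat_lit 67501197325) (nat_lit 93) (nat_lit 5) (nat_lit 96) (nat_lit 5) (nat_lit 94) (nat_lit 5) (nat_lit 532) (nat_lit 454) (nat_lit 214)) (XT.lf (nat_lit 0) (nat_lit 22646720830) (nat_lit 304) (nat_lit 41861665563) (nat_lit 76) (nat_lit 15483010273) (nat_lit 90) (nat_lit 5) (nat_lit 94) (nat_lit 5) (nat_lit 91) (nat_lit 5) (nat_lit 533) (nat_lit 454) (nat_lit 213))) (XT.nd (nat_lit 78) (nat_lit 0) (nat_lit 0) (XT.lf (nat_lit 0) (nat_lit 3934843726) (nat_lit 152) (nat_lit 39001970218) (nat_lit 228) (nat_lit 38652415578) (nat_lit 88) (nat_lit 5) (nat_lit 90) (nat_lit 5) (nat_lit 91) (nat_lit 5) (nat_lit 534) (nat_lit 454) (nat_lit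 212)) (XT.lf (nat_lit 0) (nat_lit 51961168905) (nat_lit 152) (nat_lit 12295901124) (nat_lit 228) (nat_lit 18965283628) (nat_lit 88) (nat_lit 5) (nat_lit 90) (nat_lit 5) (nat_lit 91) (nat_lit 5) (nat_lit 535) (nat_lit 454) (nat_lit 211)))) (XT.nd (nat_lit 156) (nat_lit 152) (nat_lit 0) (XT.nd (nat_lit 78) (nat_lit 0) (nat_lit 0) (XT.lf (nat_lit 0) (nat_lit 1595407932) (nat_lit 228) (nat_lit 68209618695) (nat_lit 76) (nat_lit 15089809802) (nat_lit 85) (nat_lit 5) (nat_lit 88) (nat_lit 5) (nat_lit 86) (nat_lit 5) (nat_lit 536) (nat_lit 454) (nat_lit 210)) (XT.lf (nat_lit 0) (nat_lit 22831051091) (nat_lit 228) (nat_lit 20211999325) (nat_lit 76) (nat_lit 43555630677) (nat_lit 85) (nat_lit 5) (nat_lit 88) (nat_lit 5) (nat_lit 86) (nat_lit 5) (nat_lit 537) (nat_lit 454) (nat_lit 209))) (XT.nd (nat_lit 78) (nat_lit 0) (nat_lit 0) (XT.lf (nat_lit 0) (nat_lit 29805045934) (nat_lit 152) (nat_lit 15184028255) (nat_lit 228)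 (nat_lit 43356007677) (nat_lit 83) (nat_lit 5) (nat_lit 85) (nat_lit 5) (nat_lit 86) (nat_lit 5) (nat_lit 538) (nat_lit 454) (nat_lit 208)) (XT.lf (nat_lit 0) (nat_lit 68146646394) (nat_lit 228) (nat_lit 8534830011) (nat_lit 76) (nat_lit 13452354091) (nat_lit 83) (nat_lit 5) (nat_lit 86) (nat_lit 5) (nat_lit 84) (nat_lit 5) (nat_lit 539) (nat_lit 454) (nat_lit 207))))))) (XT.nd (nat_lit 56628) (nat_lit 0) (nat_lit 11856) (XT.nd (nat_lit 56004) (nat_lit 0) (nat_lit 15124) (XT.nd (nat_lit 234) (nat_lit 152) (nat_lit 0) (XT.nd (nat_lit 78) (nat_lit 152) (nat_lit 0) (XT.lf (nat_lit 0) (nat_lit 596863961) (nat_lit 228) (nat_lit 48294715036) (nat_lit 76) (nat_lit 43067418037) (nat_lit 80) (nat_lit 5) (nat_lit 83) (nat_lit 5) (nat_lit 81) (nat_lit 5) (nat_lit 540) (nat_lit 454) (nat_lit 206)) (XT.nd (nat_lit 78) (nat_lit 0) (nat_lit 0) (XT.lf (nat_lit 0) (nat_lit 3617987856) (nat_lit 152) (nat_lit 19919191267) (nat_lit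 228) (nat_lit 70291588688) (nat_lit 78) (nat_lit 5) (nat_lit 80) (nat_lit 5) (nat_lit 81) (nat_lit 5) (nat_lit 541) (nat_lit 454) (nat_lit 205)) (XT.lf (nat_lit 0) (nat_lit 47752449012) (nat_lit 228) (nat_lit 37764202830) (nat_lit 76) (nat_lit 10220377586) (nat_lit 78) (nat_lit 5) (nat_lit 81) (nat_lit 5) (nat_lit 79) (nat_lit 5) (nat_lit 542) (nat_lit 454) (nat_lit 204)))) (XT.nd (nat_lit 55614) (nat_lit 0) (nat_lit 15048) (XT.nd (nat_lit 78) (nat_lit 0) (nat_lit 0) (XT.lf (nat_lit 0) (nat_lit 16376109435) (nat_lit 152) (nat_lit 56671592751) (nat_lit 228) (nat_lit 24644231027) (nat_lit 76) (nat_lit 5) (nat_lit 78) (nat_lit 5) (nat_lit 79) (nat_lit 5) (nat_lit 543) (nat_lit 454) (nat_lit 203)) (XT.lf (nat_lit 0) (nat_lit 72912780469) (nat_lit 152) (nat_lit 26569278528) (nat_lit 228) (nat_lit 212017806) (nat_lit 76) (nat_lit 5) (nat_lit 78) (nat_lit 5) (nat_lit 79) (nat_lit 5) (nat_lit 544) (nat_lit 454) (nat_lit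 202))) (XT.nd (nat_lit 78) (nat_lit 0) (nat_lit 0) (XT.lf (nat_lit 0) (nat_lit 2486800498) (nat_lit 1292) (nat_lit 3947108086) (nat_lit 1292) (nat_lit 3947108086) (nat_lit 274) (nat_lit 3) (nat_lit 291) (nat_lit 3) (nat_lit 291) (nat_lit 5) (nat_lit 455) (nat_lit 455) (nat_lit 290)) (XT.lf (nat_lit 76) (nat_lit 2324389390) (nat_lit 0) (nat_lit 2897989731) (nat_lit 1292) (nat_lit 15845824173) (nat_lit 275) (nat_lit 5) (nat_lit 274) (nat_lit 3) (nat_lit 291) (nat_lit 5) (nat_lit 456) (nat_lit 455) (nat_lit 289))))) (XT.nd (nat_lit 312) (nat_lit 0) (nat_lit 152) (XT.nd (nat_lit 156) (nat_lit 0) (nat_lit 76) (XT.nd (nat_lit 78) (nat_lit 0) (nat_lit 0) (XT.lf (nat_lit 0) (nat_lit 5624051748) (nat_lit 1216) (nat_lit 8444753679) (nat_lit 1292) (nat_lit 7310391363) (nat_lit 275) (nat_lit 5) (nat_lit 291) (nat_lit 5) (nat_lit 292) (nat_lit 5) (nat_lit 457) (nat_lit 455) (nat_lit 288)) (XT.lf (nat_lit 76) (nat_lit 2173779925)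 (nat_lit 0) (nat_lit 3907827833) (nat_lit 1292) (nat_lit 15616598675) (nat_lit 276) (nat_lit 5) (nat_lit 275) (nat_lit 5) (nat_lit 292) (nat_lit 5) (nat_lit 458) (nat_lit 455) (nat_lit 287))) (XT.nd (nat_lit 78) (nat_lit 0) (nat_lit 0) (XT.lf (nat_lit 0) (nat_lit 6696454332) (nat_lit 1216) (nat_lit 8807518319) (nat_lit 1292) (nat_lit 6518508097) (nat_lit 276) (nat_lit 5) (nat_lit 292) (nat_lit 5) (nat_lit 293) (nat_lit 5) (nat_lit 459) (nat_lit 455) (nat_lit 286)) (XT.lf (nat_lit 76) (nat_lit 2232482823) (nat_lit 0) (nat_lit 5151982610) (nat_lit 1292) (nat_lit 14970377547) (nat_lit 277) (nat_lit 5) (nat_lit 276) (nat_lit 5) (nat_lit 293) (nat_lit 5) (nat_lit 460) (nat_lit 455) (nat_lit 285)))) (XT.nd (nat_lit 156) (nat_lit 0) (nat_lit 76) (XT.nd (nat_lit 78) (nat_lit 0) (nat_lit 0) (XT.lf (nat_lit 0) (nat_lit 8230621483) (nat_lit 1216) (nat_lit 8967564533) (nat_lit 1292) (nat_lit 5494866149) (nat_lit 277) (nat_lit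 5) (nat_lit 293) (nat_lit 5) (nat_lit 294) (nat_lit 5) (nat_lit 461) (nat_lit 455) (nat_lit 284)) (XT.lf (nat_lit 76) (nat_lit 2516639383) (nat_lit 0) (nat_lit 6655592411) (nat_lit 1292) (nat_lit 13867074934) (nat_lit 278) (nat_lit 5) (nat_lit 277) (nat_lit 5) (nat_lit 294) (nat_lit 5) (nat_lit 462) (nat_lit 455) (nat_lit 283))) (XT.nd (nat_lit 78) (nat_lit 0) (nat_lit 0) (XT.lf (nat_lit 0) (nat_lit 10268948863) (nat_lit 1216) (nat_lit 8908807539) (nat_lit 1292) (nat_lit 4214387927) (nat_lit 278) (nat_lit 5) (nat_lit 294) (nat_lit 5) (nat_lit 295) (nat_lit 5) (nat_lit 463) (nat_lit 455) (nat_lit 282)) (XT.lf (nat_lit 76) (nat_lit 3043593765) (nat_lit 0) (nat_lit 8445275632) (nat_lit 1292) (nat_lit 12263989724) (nat_lit 279) (nat_lit 5) (nat_lit 278) (nat_lit 5) (nat_lit 295) (nat_lit 5) (nat_lit 464) (nat_lit 455) (nat_lit 281)))))) (XT.nd (nat_lit 624) (nat_lit 2508) (nat_lit 0) (XT.nd (nat_lit 312) (nat_lit 1064)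 (nat_lit 0) (XT.nd (nat_lit 156) (nat_lit 0) (nat_lit 76) (XT.nd (nat_lit 78) (nat_lit 0) (nat_lit 0) (XT.lf (nat_lit 0) (nat_lit 12856591662) (nat_lit 1216) (nat_lit 8613972001) (nat_lit 1292) (nat_lit 2650496657) (nat_lit 279) (nat_lit 5) (nat_lit 295) (nat_lit 5) (nat_lit 296) (nat_lit 5) (nat_lit 465) (nat_lit 455) (nat_lit 280)) (XT.lf (nat_lit 76) (nat_lit 3831947712) (nat_lit 0) (nat_lit 10549258128) (nat_lit 1292) (nat_lit 10115626965) (nat_lit 280) (nat_lit 5) (nat_lit 279) (nat_lit 5) (nat_lit 296) (nat_lit 5) (nat_lit 466) (nat_lit 455) (nat_lit 279))) (XT.nd (nat_lit 78) (nat_lit 0) (nat_lit 0) (XT.lf (nat_lit 0) (nat_lit 16041650684) (nat_lit 1216) (nat_lit 8064537300) (nat_lit 1292) (nat_lit 774988740) (nat_lit 280) (nat_lit 5) (nat_lit 296) (nat_lit 5) (nat_lit 297) (nat_lit 5) (nat_lit 467) (nat_lit 455) (nat_lit 278)) (XT.lf (nat_lit 76) (nat_lit 4901618817) (nat_lit 0) (nat_lit 12997506937) (nat_lit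 1292) (nat_lit 7373509695) (nat_lit 281) (nat_lit 5) (nat_lit 280) (nat_lit 5) (nat_lit 297) (nat_lit 5) (nat_lit 468) (nat_lit 455) (nat_lit 277)))) (XT.nd (nat_lit 156) (nat_lit 1140) (nat_lit 0) (XT.nd (nat_lit 78) (nat_lit 0) (nat_lit 76) (XT.lf (nat_lit 76) (nat_lit 18418705834) (nat_lit 0) (nat_lit 1470800953) (nat_lit 1292) (nat_lit 5784016664) (nat_lit 281) (nat_lit 5) (nat_lit 280) (nat_lit 5) (nat_lit 297) (nat_lit 5) (nat_lit 469) (nat_lit 455) (nat_lit 276)) (XT.lf (nat_lit 76) (nat_lit 6273902354) (nat_lit 0) (nat_lit 15821870921) (nat_lit 1292) (nat_lit 3985980537) (nat_lit 282) (nat_lit 5) (nat_lit 281) (nat_lit 5) (nat_lit 298) (nat_lit 5) (nat_lit 470) (nat_lit 455) (nat_lit 275))) (XT.nd (nat_lit 78) (nat_lit 1216) (nat_lit 0) (XT.lf (nat_lit 76) (nat_lit 20338977856) (nat_lit 0) (nat_lit 4112894486) (nat_lit 1292) (nat_lit 2047850315) (nat_lit 282) (nat_lit 5) (nat_lit 281) (nat_lit 5) (nat_lit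 298) (nat_lit 5) (nat_lit 471) (nat_lit 455) (nat_lit 274)) (XT.lf (nat_lit 0) (nat_lit 100017061) (nat_lit 1292) (nat_lit 18955201957) (nat_lit 76) (nat_lit 7870509678) (nat_lit 265) (nat_lit 5) (nat_lit 282) (nat_lit 5) (nat_lit 266) (nat_lit 5) (nat_lit 472) (nat_lit 455) (nat_lit 273))))) (XT.nd (nat_lit 312) (nat_lit 1140) (nat_lit 0) (XT.nd (nat_lit 156) (nat_lit 608) (nat_lit 0) (XT.nd (nat_lit 78) (nat_lit 760) (nat_lit 0) (XT.lf (nat_lit 0) (nat_lit 2370841878) (nat_lit 1292) (nat_lit 4775677787) (nat_lit 76) (nat_lit 20214397377) (nat_lit 265) (nat_lit 5) (nat_lit 282) (nat_lit 5) (nat_lit 266) (nat_lit 5) (nat_lit 473) (nat_lit 455) (nat_lit 272)) (XT.lf (nat_lit 0) (nat_lit 4852537380) (nat_lit 836) (nat_lit 17835108104) (nat_lit 76) (nat_lit 5117233987) (nat_lit 255) (nat_lit 5) (nat_lit 266) (nat_lit 5) (nat_lit 256) (nat_lit 5) (nat_lit 474) (nat_lit 455) (nat_lit 271))) (XT.nd (nat_lit 78) (nat_lit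 608) (nat_lit 0) (XT.lf (nat_lit 0) (nat_lit 7524469664) (nat_lit 836) (nat_lit 3079891524) (nat_lit 76) (nat_lit 17654326793) (nat_lit 255) (nat_lit 5) (nat_lit 266) (nat_lit 5) (nat_lit 256) (nat_lit 5) (nat_lit 475) (nat_lit 455) (nat_lit 270)) (XT.lf (nat_lit 0) (nat_lit 10410643094) (nat_lit 684) (nat_lit 16385770964) (nat_lit 76) (nat_lit 1925674955) (nat_lit 247) (nat_lit 5) (nat_lit 256) (nat_lit 5) (nat_lit 248) (nat_lit 5) (nat_lit 476) (nat_lit 455) (nat_lit 269)))) (XT.nd (nat_lit 156) (nat_lit 532) (nat_lit 0) (XT.nd (nat_lit 78) (nat_lit 608) (nat_lit 0) (XT.lf (nat_lit 0) (nat_lit 13516311277) (nat_lit 684) (nat_lit 1029010368) (nat_lit 76) (nat_lit 14650083887) (nat_lit 247) (nat_lit 5) (nat_lit 256) (nat_lit 5) (nat_lit 248) (nat_lit 5) (nat_lit 477) (nat_lit 455) (nat_lit 268)) (XT.lf (nat_lit 0) (nat_lit 15079407196) (nat_lit 608) (nat_lit 1777303611) (nat_lit 684) (nat_lit 12821964619) (nat_lit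 239) (nat_lit 5) (nat_lit 247) (nat_lit 5) (nat_lit 248) (nat_lit 5) (nat_lit 478) (nat_lit 455) (nat_lit 267))) (XT.nd (nat_lit 78) (nat_lit 0) (nat_lit 0) (XT.lf (nat_lit 0) (nat_lit 1431164087) (nat_lit 532) (nat_lit 18996417548) (nat_lit 608) (nat_lit 9744954702) (nat_lit 232) (nat_lit 5) (nat_lit 239) (nat_lit 5) (nat_lit 240) (nat_lit 5) (nat_lit 479) (nat_lit 455) (nat_lit 266)) (XT.lf (nat_lit 0) (nat_lit 18220497790) (nat_lit 532) (nat_lit 6046670791) (nat_lit 608) (nat_lit 6409197473) (nat_lit 232) (nat_lit 5) (nat_lit 239) (nat_lit 5) (nat_lit 240) (nat_lit 5) (nat_lit 480) (nat_lit 455) (nat_lit 265))))))))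
noncomputable def xc208 : XT := (XT.nd (nat_lit 2340) (nat_lit 4104) (nat_lit 0) (XT.nd (nat_lit 1170) (nat_lit 3268) (nat_lit 0) (XT.nd (nat_lit 546) (nat_lit 1824) (nat_lit 0) (XT.nd (nat_lit 234) (nat_lit 988) (nat_lit 0) (XT.nd (nat_lit 78) (nat_lit 608) (nat_lit 0) (XT.lf (nat_lit 0) (nat_lit 4329256506) (nat_lit 532) (nat_lit 24001228766) (nat_lit 608) (nat_lit 2861569783) (nat_lit 225) (nat_lit 5) (nat_lit 232) (nat_lit 5) (nat_lit 233) (nat_lit 5) (nat_lit 481) (nat_lit 455) (nat_lit 264)) (XT.nd (nat_lit 78) (nat_lit 532) (nat_lit 0) (XT.lf (nat_lit 0) (nat_lit 960780429) (nat_lit 608) (nat_lit 9918267517) (nat_lit 76) (nat_lit 20838426126) (nat_lit 224) (nat_lit 5) (nat_lit 232) (nat_lit 5) (nat_lit 225) (nat_lit 5) (nat_lit 482) (nat_lit 455) (nat_lit 263)) (XT.lf (nat_lit 0) (nat_lit 4937154551) (nat_lit 608) (nat_lit 24629717639) (nat_lit 76) (nat_lit 2688028058) (nat_lit 217) (nat_lit 5) (nat_lit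 225) (nat_lit 5) (nat_lit 218) (nat_lit 5) (nat_lit 483) (nat_lit 455) (nat_lit 262)))) (XT.nd (nat_lit 156) (nat_lit 456) (nat_lit 0) (XT.nd (nat_lit 78) (nat_lit 532) (nat_lit 0) (XT.lf (nat_lit 0) (nat_lit 9238691203) (nat_lit 608) (nat_lit 7019219430) (nat_lit 76) (nat_lit 16544363023) (nat_lit 217) (nat_lit 5) (nat_lit 225) (nat_lit 5) (nat_lit 218) (nat_lit 5) (nat_lit 484) (nat_lit 455) (nat_lit 261)) (XT.lf (nat_lit 0) (nat_lit 11337607108) (nat_lit 532) (nat_lit 2437749182) (nat_lit 608) (nat_lit 19587530073) (nat_lit 210) (nat_lit 5) (nat_lit 217) (nat_lit 5) (nat_lit 218) (nat_lit 5) (nat_lit 485) (nat_lit 455) (nat_lit 260))) (XT.nd (nat_lit 78) (nat_lit 456) (nat_lit 0) (XT.lf (nat_lit 0) (nat_lit 18630252449) (nat_lit 608) (nat_lit 3666542643) (nat_lit 76) (nat_lit 11638058977) (nat_lit 210) (nat_lit 5) (nat_lit 218) (nat_lit 5) (nat_lit 211) (nat_lit 5) (nat_lit 486) (nat_lit 455) (nat_lit 259))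 (XT.lf (nat_lit 0) (nat_lit 15518461172) (nat_lit 456) (nat_lit 8282875270) (nat_lit 532) (nat_lit 10717528671) (nat_lit 204) (nat_lit 5) (nat_lit 210) (nat_lit 5) (nat_lit 211) (nat_lit 5) (nat_lit 487) (nat_lit 455) (nat_lit 258))))) (XT.nd (nat_lit 312) (nat_lit 836) (nat_lit 0) (XT.nd (nat_lit 156) (nat_lit 532) (nat_lit 0) (XT.nd (nat_lit 78) (nat_lit 0) (nat_lit 0) (XT.lf (nat_lit 0) (nat_lit 175591539) (nat_lit 456) (nat_lit 29047450495) (nat_lit 532) (nat_lit 5894490302) (nat_lit 198) (nat_lit 5) (nat_lit 204) (nat_lit 5) (nat_lit 205) (nat_lit 5) (nat_lit 488) (nat_lit 455) (nat_lit 257)) (XT.lf (nat_lit 0) (nat_lit 20229520799) (nat_lit 456) (nat_lit 14848276138) (nat_lit 532) (nat_lit 648251198) (nat_lit 198) (nat_lit 5) (nat_lit 204) (nat_lit 5) (nat_lit 205) (nat_lit 5) (nat_lit 489) (nat_lit 455) (nat_lit 256))) (XT.nd (nat_lit 78) (nat_lit 0) (nat_lit 0) (XT.lf (nat_lit 0) (nat_lit 4572610519) (nat_lit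 456) (nat_lit 131303140) (nat_lit 532) (nat_lit 31646294887) (nat_lit 191) (nat_lit 5) (nat_lit 197) (nat_lit 5) (nat_lit 198) (nat_lit 5) (nat_lit 490) (nat_lit 455) (nat_lit 255)) (XT.lf (nat_lit 0) (nat_lit 10503517995) (nat_lit 532) (nat_lit 11582527280) (nat_lit 76) (nat_lit 14897859292) (nat_lit 191) (nat_lit 5) (nat_lit 198) (nat_lit 5) (nat_lit 192) (nat_lit 5) (nat_lit 491) (nat_lit 455) (nat_lit 254)))) (XT.nd (nat_lit 156) (nat_lit 380) (nat_lit 0) (XT.nd (nat_lit 78) (nat_lit 0) (nat_lit 0) (XT.lf (nat_lit 0) (nat_lit 9397369107) (nat_lit 456) (nat_lit 7168869218) (nat_lit 532) (nat_lit 21067699758) (nat_lit 185) (nat_lit 5) (nat_lit 191) (nat_lit 5) (nat_lit 192) (nat_lit 5) (nat_lit 492) (nat_lit 455) (nat_lit 253)) (XT.lf (nat_lit 0) (nat_lit 23005274505) (nat_lit 532) (nat_lit 7138953198) (nat_lit 76) (nat_lit 8153412309) (nat_lit 185) (nat_lit 5) (nat_lit 192) (nat_lit 5) (nat_lit 186) (nat_lit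 5) (nat_lit 493) (nat_lit 455) (nat_lit 252))) (XT.nd (nat_lit 78) (nat_lit 0) (nat_lit 0) (XT.lf (nat_lit 0) (nat_lit 14806490624) (nat_lit 380) (nat_lit 15041903116) (nat_lit 456) (nat_lit 9126532322) (nat_lit 180) (nat_lit 5) (nat_lit 185) (nat_lit 5) (nat_lit 186) (nat_lit 5) (nat_lit 494) (nat_lit 455) (nat_lit 251)) (XT.lf (nat_lit 0) (nat_lit 36972184124) (nat_lit 456) (nat_lit 2122462729) (nat_lit 76) (nat_lit 575622923) (nat_lit 180) (nat_lit 5) (nat_lit 186) (nat_lit 5) (nat_lit 181) (nat_lit 5) (nat_lit 495) (nat_lit 455) (nat_lit 250)))))) (XT.nd (nat_lit 546) (nat_lit 1672) (nat_lit 0) (XT.nd (nat_lit 234) (nat_lit 760) (nat_lit 0) (XT.nd (nat_lit 78) (nat_lit 380) (nat_lit 0) (XT.lf (nat_lit 0) (nat_lit 4197053328) (nat_lit 456) (nat_lit 19577591926) (nat_lit 76) (nat_lit 16600185717) (nat_lit 174) (nat_lit 5) (nat_lit 180) (nat_lit 5) (nat_lit 175) (nat_lit 5) (nat_lit 496) (nat_lit 455) (nat_lit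 249)) (XT.nd (nat_lit 78) (nat_lit 0) (nat_lit 0) (XT.lf (nat_lit 0) (nat_lit 3384256589) (nat_lit 380) (nat_lit 7912460257) (nat_lit 456) (nat_lit 29801454142) (nat_lit 169) (nat_lit 5) (nat_lit 174) (nat_lit 5) (nat_lit 175) (nat_lit 5) (nat_lit 497) (nat_lit 455) (nat_lit 248)) (XT.lf (nat_lit 0) (nat_lit 18887768166) (nat_lit 456) (nat_lit 14486989337) (nat_lit 76) (nat_lit 8460102130) (nat_lit 169) (nat_lit 5) (nat_lit 175) (nat_lit 5) (nat_lit 170) (nat_lit 5) (nat_lit 498) (nat_lit 455) (nat_lit 247)))) (XT.nd (nat_lit 156) (nat_lit 380) (nat_lit 0) (XT.nd (nat_lit 78) (nat_lit 0) (nat_lit 0) (XT.lf (nat_lit 0) (nat_lit 9541640976) (nat_lit 380) (nat_lit 17332790063) (nat_lit 456) (nat_lit 15714181853) (nat_lit 164) (nat_lit 5) (nat_lit 169) (nat_lit 5) (nat_lit 170) (nat_lit 5) (nat_lit 499) (nat_lit 455) (nat_lit 246)) (XT.lf (nat_lit 0) (nat_lit 34585175138) (nat_lit 380) (nat_lit 659663006) (nat_lit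 456) (nat_lit 8115816617) (nat_lit 164) (nat_lit 5) (nat_lit 169) (nat_lit 5) (nat_lit 170) (nat_lit 5) (nat_lit 500) (nat_lit 455) (nat_lit 245))) (XT.nd (nat_lit 78) (nat_lit 0) (nat_lit 0) (XT.lf (nat_lit 0) (nat_lit 33383083) (nat_lit 380) (nat_lit 27764562543) (nat_lit 76) (nat_lit 16348479040) (nat_lit 159) (nat_lit 5) (nat_lit 164) (nat_lit 5) (nat_lit 160) (nat_lit 5) (nat_lit 501) (nat_lit 455) (nat_lit 244)) (XT.lf (nat_lit 0) (nat_lit 8357884777) (nat_lit 380) (nat_lit 2569967510) (nat_lit 76) (nat_lit 34022686683) (nat_lit 159) (nat_lit 5) (nat_lit 164) (nat_lit 5) (nat_lit 160) (nat_lit 5) (nat_lit 502) (nat_lit 455) (nat_lit 243))))) (XT.nd (nat_lit 312) (nat_lit 684) (nat_lit 0) (XT.nd (nat_lit 156) (nat_lit 304) (nat_lit 0) (XT.nd (nat_lit 78) (nat_lit 304) (nat_lit 0) (XT.lf (nat_lit 0) (nat_lit 17223543578) (nat_lit 456) (nat_lit 21993305512) (nat_lit 76) (nat_lit 6553185254) (nat_lit 154) (nat_lit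 5) (nat_lit 160) (nat_lit 5) (nat_lit 155) (nat_lit 5) (nat_lit 503) (nat_lit 455) (nat_lit 242)) (XT.lf (nat_lit 0) (nat_lit 4326292352) (nat_lit 304) (nat_lit 22202878570) (nat_lit 380) (nat_lit 20079723991) (nat_lit 150) (nat_lit 5) (nat_lit 154) (nat_lit 5) (nat_lit 155) (nat_lit 5) (nat_lit 504) (nat_lit 455) (nat_lit 241))) (XT.nd (nat_lit 78) (nat_lit 304) (nat_lit 0) (XT.lf (nat_lit 0) (nat_lit 31883499733) (nat_lit 304) (nat_lit 4450594244) (nat_lit 380) (nat_lit 11132223804) (nat_lit 150) (nat_lit 5) (nat_lit 154) (nat_lit 5) (nat_lit 155) (nat_lit 5) (nat_lit 505) (nat_lit 455) (nat_lit 240)) (XT.lf (nat_lit 0) (nat_lit 12016678388) (nat_lit 304) (nat_lit 34663068140) (nat_lit 380) (nat_lit 1662319632) (nat_lit 146) (nat_lit 5) (nat_lit 150) (nat_lit 5) (nat_lit 151) (nat_lit 5) (nat_lit 506) (nat_lit 455) (nat_lit 239)))) (XT.nd (nat_lit 156) (nat_lit 304) (nat_lit 0) (XT.nd (nat_lit 78) (nat_lit 304)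 (nat_lit 0) (XT.lf (nat_lit 0) (nat_lit 8134860049) (nat_lit 380) (nat_lit 8601977309) (nat_lit 76) (nat_lit 32498884142) (nat_lit 145) (nat_lit 5) (nat_lit 150) (nat_lit 5) (nat_lit 146) (nat_lit 5) (nat_lit 507) (nat_lit 455) (nat_lit 238)) (XT.lf (nat_lit 0) (nat_lit 18404819896) (nat_lit 380) (nat_lit 29837892272) (nat_lit 76) (nat_lit 1906612557) (nat_lit 141) (nat_lit 5) (nat_lit 146) (nat_lit 5) (nat_lit 142) (nat_lit 5) (nat_lit 508) (nat_lit 455) (nat_lit 237))) (XT.nd (nat_lit 78) (nat_lit 304) (nat_lit 0) (XT.lf (nat_lit 0) (nat_lit 29234485016) (nat_lit 380) (nat_lit 988460932) (nat_lit 76) (nat_lit 20859842154) (nat_lit 141) (nat_lit 5) (nat_lit 146) (nat_lit 5) (nat_lit 142) (nat_lit 5) (nat_lit 509) (nat_lit 455) (nat_lit 236)) (XT.lf (nat_lit 0) (nat_lit 29295456821) (nat_lit 304) (nat_lit 11373414440) (nat_lit 380) (nat_lit 11366989423) (nat_lit 137) (nat_lit 5) (nat_lit 141) (nat_lit 5) (nat_lit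 142) (nat_lit 5) (nat_lit 510) (nat_lit 455) (nat_lit 235))))))) (XT.nd (nat_lit 1170) (nat_lit 1672) (nat_lit 0) (XT.nd (nat_lit 546) (nat_lit 1216) (nat_lit 0) (XT.nd (nat_lit 234) (nat_lit 608) (nat_lit 0) (XT.nd (nat_lit 78) (nat_lit 380) (nat_lit 0) (XT.lf (nat_lit 0) (nat_lit 7558344920) (nat_lit 228) (nat_lit 45046224009) (nat_lit 304) (nat_lit 408208356) (nat_lit 134) (nat_lit 5) (nat_lit 137) (nat_lit 5) (nat_lit 138) (nat_lit 5) (nat_lit 511) (nat_lit 455) (nat_lit 234)) (XT.nd (nat_lit 78) (nat_lit 304) (nat_lit 0) (XT.lf (nat_lit 0) (nat_lit 11009807857) (nat_lit 304) (nat_lit 15002044083) (nat_lit 76) (nat_lit 27993729295) (nat_lit 133) (nat_lit 5) (nat_lit 137) (nat_lit 5) (nat_lit 134) (nat_lit 5) (nat_lit 512) (nat_lit 455) (nat_lit 233)) (XT.lf (nat_lit 0) (nat_lit 16682810699) (nat_lit 304) (nat_lit 6238017175) (nat_lit 380) (nat_lit 32102460357) (nat_lit 129) (nat_lit 5) (nat_lit 133) (nat_lit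 5) (nat_lit 134) (nat_lit 5) (nat_lit 513) (nat_lit 455) (nat_lit 232)))) (XT.nd (nat_lit 156) (nat_lit 380) (nat_lit 0) (XT.nd (nat_lit 78) (nat_lit 228) (nat_lit 0) (XT.lf (nat_lit 0) (nat_lit 35476304988) (nat_lit 380) (nat_lit 6581181538) (nat_lit 76) (nat_lit 14005426326) (nat_lit 129) (nat_lit 5) (nat_lit 134) (nat_lit 5) (nat_lit 130) (nat_lit 5) (nat_lit 514) (nat_lit 455) (nat_lit 231)) (XT.lf (nat_lit 0) (nat_lit 26585361968) (nat_lit 228) (nat_lit 22138769178) (nat_lit 304) (nat_lit 8400124723) (nat_lit 126) (nat_lit 5) (nat_lit 129) (nat_lit 5) (nat_lit 130) (nat_lit 5) (nat_lit 515) (nat_lit 455) (nat_lit 230))) (XT.nd (nat_lit 78) (nat_lit 0) (nat_lit 0) (XT.lf (nat_lit 0) (nat_lit 2675450068) (nat_lit 304) (nat_lit 1486690994) (nat_lit 380) (nat_lit 54051364741) (nat_lit 121) (nat_lit 5) (nat_lit 125) (nat_lit 5) (nat_lit 126) (nat_lit 5) (nat_lit 516) (nat_lit 455) (nat_lit 229)) (XT.lf (nat_lit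 0) (nat_lit 17432450692) (nat_lit 380) (nat_lit 22092914804) (nat_lit 76) (nat_lit 19792572536) (nat_lit 121) (nat_lit 5) (nat_lit 126) (nat_lit 5) (nat_lit 122) (nat_lit 5) (nat_lit 517) (nat_lit 455) (nat_lit 228))))) (XT.nd (nat_lit 312) (nat_lit 684) (nat_lit 0) (XT.nd (nat_lit 156) (nat_lit 304) (nat_lit 0) (XT.nd (nat_lit 78) (nat_lit 0) (nat_lit 0) (XT.lf (nat_lit 0) (nat_lit 12583926219) (nat_lit 228) (nat_lit 18651063205) (nat_lit 304) (nat_lit 29216490388) (nat_lit 118) (nat_lit 5) (nat_lit 121) (nat_lit 5) (nat_lit 122) (nat_lit 5) (nat_lit 518) (nat_lit 455) (nat_lit 227)) (XT.lf (nat_lit 0) (nat_lit 45702747784) (nat_lit 304) (nat_lit 12890484389) (nat_lit 76) (nat_lit 3018261542) (nat_lit 118) (nat_lit 5) (nat_lit 122) (nat_lit 5) (nat_lit 119) (nat_lit 5) (nat_lit 519) (nat_lit 455) (nat_lit 226))) (XT.nd (nat_lit 78) (nat_lit 76) (nat_lit 0) (XT.lf (nat_lit 0) (nat_lit 23405526727) (nat_lit 228)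 (nat_lit 37607158236) (nat_lit 304) (nat_lit 1781378860) (nat_lit 115) (nat_lit 5) (nat_lit 118) (nat_lit 5) (nat_lit 119) (nat_lit 5) (nat_lit 520) (nat_lit 455) (nat_lit 225)) (XT.lf (nat_lit 0) (nat_lit 12650581351) (nat_lit 304) (nat_lit 3080023996) (nat_lit 76) (nat_lit 48273924597) (nat_lit 114) (nat_lit 5) (nat_lit 118) (nat_lit 5) (nat_lit 115) (nat_lit 5) (nat_lit 521) (nat_lit 455) (nat_lit 224)))) (XT.nd (nat_lit 156) (nat_lit 228) (nat_lit 0) (XT.nd (nat_lit 78) (nat_lit 228) (nat_lit 0) (XT.lf (nat_lit 0) (nat_lit 27883374586) (nat_lit 304) (nat_lit 30329287743) (nat_lit 76) (nat_lit 7026008407) (nat_lit 111) (nat_lit 5) (nat_lit 115) (nat_lit 5) (nat_lit 112) (nat_lit 5) (nat_lit 522) (nat_lit 455) (nat_lit 223)) (XT.lf (nat_lit 0) (nat_lit 7582228284) (nat_lit 228) (nat_lit 36249521615) (nat_lit 304) (nat_lit 22670328054) (nat_lit 108) (nat_lit 5) (nat_lit 111) (nat_lit 5) (nat_lit 112) (nat_lit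 5) (nat_lit 523) (nat_lit 455) (nat_lit 222))) (XT.nd (nat_lit 78) (nat_lit 228) (nat_lit 0) (XT.lf (nat_lit 0) (nat_lit 47250455011) (nat_lit 228) (nat_lit 13312961808) (nat_lit 304) (nat_lit 7230825503) (nat_lit 108) (nat_lit 5) (nat_lit 111) (nat_lit 5) (nat_lit 112) (nat_lit 5) (nat_lit 524) (nat_lit 455) (nat_lit 221)) (XT.lf (nat_lit 0) (nat_lit 8788291155) (nat_lit 228) (nat_lit 49944940180) (nat_lit 76) (nat_lit 10380870198) (nat_lit 105) (nat_lit 5) (nat_lit 108) (nat_lit 5) (nat_lit 106) (nat_lit 5) (nat_lit 525) (nat_lit 455) (nat_lit 220)))))) (XT.nd (nat_lit 546) (nat_lit 836) (nat_lit 0) (XT.nd (nat_lit 234) (nat_lit 456) (nat_lit 0) (XT.nd (nat_lit 78) (nat_lit 380) (nat_lit 0) (XT.lf (nat_lit 0) (nat_lit 25482577954) (nat_lit 228) (nat_lit 10180489662) (nat_lit 76) (nat_lit 34798143397) (nat_lit 105) (nat_lit 5) (nat_lit 108) (nat_lit 5) (nat_lit 106) (nat_lit 5) (nat_lit 526) (nat_lit 455) (nat_lit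 219)) (XT.nd (nat_lit 78) (nat_lit 152) (nat_lit 0) (XT.lf (nat_lit 0) (nat_lit 31387112845) (nat_lit 228) (nat_lit 11590944699) (nat_lit 304) (nat_lit 28861665436) (nat_lit 102) (nat_lit 5) (nat_lit 105) (nat_lit 5) (nat_lit 106) (nat_lit 5) (nat_lit 527) (nat_lit 455) (nat_lit 218)) (XT.lf (nat_lit 0) (nat_lit 1044098587) (nat_lit 152) (nat_lit 60193740019) (nat_lit 228) (nat_lit 12014568713) (nat_lit 100) (nat_lit 5) (nat_lit 102) (nat_lit 5) (nat_lit 103) (nat_lit 5) (nat_lit 528) (nat_lit 455) (nat_lit 217)))) (XT.nd (nat_lit 156) (nat_lit 152) (nat_lit 0) (XT.nd (nat_lit 78) (nat_lit 228) (nat_lit 0) (XT.lf (nat_lit 0) (nat_lit 5759742162) (nat_lit 228) (nat_lit 30252658680) (nat_lit 76) (nat_lit 38677753207) (nat_lit 99) (nat_lit 5) (nat_lit 102) (nat_lit 5) (nat_lit 100) (nat_lit 5) (nat_lit 529) (nat_lit 455) (nat_lit 216)) (XT.lf (nat_lit 0) (nat_lit 13096051202) (nat_lit 228) (nat_lit 10854341713) (nat_lit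 304) (nat_lit 52213333955) (nat_lit 96) (nat_lit 5) (nat_lit 99) (nat_lit 5) (nat_lit 100) (nat_lit 5) (nat_lit 530) (nat_lit 455) (nat_lit 215))) (XT.nd (nat_lit 78) (nat_lit 152) (nat_lit 0) (XT.lf (nat_lit 0) (nat_lit 43138743820) (nat_lit 304) (nat_lit 19456958525) (nat_lit 76) (nat_lit 15072245221) (nat_lit 96) (nat_lit 5) (nat_lit 100) (nat_lit 5) (nat_lit 97) (nat_lit 5) (nat_lit 531) (nat_lit 455) (nat_lit 214)) (XT.lf (nat_lit 0) (nat_lit 25857026726) (nat_lit 152) (nat_lit 37400490616) (nat_lit 228) (nat_lit 15949134487) (nat_lit 94) (nat_lit 5) (nat_lit 96) (nat_lit 5) (nat_lit 97) (nat_lit 5) (nat_lit 532) (nat_lit 455) (nat_lit 213))))) (XT.nd (nat_lit 312) (nat_lit 380) (nat_lit 0) (XT.nd (nat_lit 156) (nat_lit 152) (nat_lit 0) (XT.nd (nat_lit 78) (nat_lit 228) (nat_lit 0) (XT.lf (nat_lit 0) (nat_lit 3323296805) (nat_lit 228) (nat_lit 7891088607) (nat_lit 76) (nat_lit 69570297187) (nat_lit 93) (nat_lit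 5) (nat_lit 96) (nat_lit 5) (nat_lit 94) (nat_lit 5) (nat_lit 533) (nat_lit 455) (nat_lit 212)) (XT.lf (nat_lit 0) (nat_lit 23389026133) (nat_lit 304) (nat_lit 43007912226) (nat_lit 76) (nat_lit 15992308057) (nat_lit 90) (nat_lit 5) (nat_lit 94) (nat_lit 5) (nat_lit 91) (nat_lit 5) (nat_lit 534) (nat_lit 455) (nat_lit 211))) (XT.nd (nat_lit 78) (nat_lit 0) (nat_lit 0) (XT.lf (nat_lit 0) (nat_lit 4161417799) (nat_lit 152) (nat_lit 40125615340) (nat_lit 228) (nat_lit 39748004933) (nat_lit 88) (nat_lit 5) (nat_lit 90) (nat_lit 5) (nat_lit 91) (nat_lit 5) (nat_lit 535) (nat_lit 455) (nat_lit 210)) (XT.lf (nat_lit 0) (nat_lit 53625371702) (nat_lit 152) (nat_lit 12619716037) (nat_lit 228) (nat_lit 19472122610) (nat_lit 88) (nat_lit 5) (nat_lit 90) (nat_lit 5) (nat_lit 91) (nat_lit 5) (nat_lit 536) (nat_lit 455) (nat_lit 209)))) (XT.nd (nat_lit 156) (nat_lit 152) (nat_lit 0) (XT.nd (nat_lit 78) (nat_lit 0) (nat_lit 0)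 (XT.lf (nat_lit 0) (nat_lit 1703854364) (nat_lit 228) (nat_lit 70148995104) (nat_lit 76) (nat_lit 15587010049) (nat_lit 85) (nat_lit 5) (nat_lit 88) (nat_lit 5) (nat_lit 86) (nat_lit 5) (nat_lit 537) (nat_lit 455) (nat_lit 208)) (XT.lf (nat_lit 0) (nat_lit 23574802230) (nat_lit 228) (nat_lit 20714561099) (nat_lit 76) (nat_lit 44905509261) (nat_lit 85) (nat_lit 5) (nat_lit 88) (nat_lit 5) (nat_lit 86) (nat_lit 5) (nat_lit 538) (nat_lit 455) (nat_lit 207))) (XT.nd (nat_lit 78) (nat_lit 0) (nat_lit 0) (XT.lf (nat_lit 0) (nat_lit 30801977888) (nat_lit 152) (nat_lit 15594862930) (nat_lit 228) (nat_lit 44596846451) (nat_lit 83) (nat_lit 5) (nat_lit 85) (nat_lit 5) (nat_lit 86) (nat_lit 5) (nat_lit 539) (nat_lit 455) (nat_lit 206)) (XT.lf (nat_lit 0) (nat_lit 70247865159) (nat_lit 228) (nat_lit 8689808817) (nat_lit 76) (nat_lit 13898462756) (nat_lit 83) (nat_lit 5) (nat_lit 86) (nat_lit 5) (nat_lit 84) (nat_lit 5) (nat_lit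 540) (nat_lit 455) (nat_lit 205))))))))
noncomputable def xc209 : XT := (XT.nd (nat_lit 57876) (nat_lit 0) (nat_lit 4408) (XT.nd (nat_lit 56706) (nat_lit 0) (nat_lit 11856) (XT.nd (nat_lit 56082) (nat_lit 0) (nat_lit 15124) (XT.nd (nat_lit 234) (nat_lit 152) (nat_lit 0) (XT.nd (nat_lit 78) (nat_lit 152) (nat_lit 0) (XT.lf (nat_lit 0) (nat_lit 671455912) (nat_lit 228) (nat_lit 49642349211) (nat_lit 76) (nat_lit 44402257379) (nat_lit 80) (nat_lit 5) (nat_lit 83) (nat_lit 5) (nat_lit 81) (nat_lit 5) (nat_lit 541) (nat_lit 455) (nat_lit 204)) (XT.nd (nat_lit 78) (nat_lit 0) (nat_lit 0) (XT.lf (nat_lit 0) (nat_lit 3826742539) (nat_lit 152) (nat_lit 20472550268) (nat_lit 228) (nat_lit 72342654338) (nat_lit 78) (nat_lit 5) (nat_lit 80) (nat_lit 5) (nat_lit 81) (nat_lit 5) (nat_lit 542) (nat_lit 455) (nat_lit 203)) (XT.lf (nat_lit 0) (nat_lit 49239802434) (nat_lit 228) (nat_lit 38798610751) (nat_lit 76) (nat_lit 10569080087)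 (nat_lit 78) (nat_lit 5) (nat_lit 81) (nat_lit 5) (nat_lit 79) (nat_lit 5) (nat_lit 543) (nat_lit 455) (nat_lit 202)))) (XT.nd (nat_lit 55692) (nat_lit 0) (nat_lit 15048) (XT.nd (nat_lit 55614) (nat_lit 0) (nat_lit 15048) (XT.lf (nat_lit 0) (nat_lit 16964945018) (nat_lit 152) (nat_lit 58328310384) (nat_lit 228) (nat_lit 25327808608) (nat_lit 76) (nat_lit 5) (nat_lit 78) (nat_lit 5) (nat_lit 79) (nat_lit 5) (nat_lit 544) (nat_lit 455) (nat_lit 201)) (XT.lf (nat_lit 0) (nat_lit 2711775681) (nat_lit 1292) (nat_lit 3988062685) (nat_lit 1292) (nat_lit 3988062685) (nat_lit 274) (nat_lit 3) (nat_lit 291) (nat_lit 3) (nat_lit 291) (nat_lit 5) (nat_lit 456) (nat_lit 456) (nat_lit 288))) (XT.nd (nat_lit 78) (nat_lit 0) (nat_lit 76) (XT.lf (nat_lit 76) (nat_lit 2547519562) (nat_lit 0) (nat_lit 3124988344) (nat_lit 1292) (nat_lit 16018869834) (nat_lit 275) (nat_lit 5) (nat_lit 274) (nat_lit 3) (nat_lit 291) (nat_lit 5) (nat_lit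 457) (nat_lit 456) (nat_lit 287)) (XT.lf (nat_lit 0) (nat_lit 6076376290) (nat_lit 1216) (nat_lit 8539245343) (nat_lit 1292) (nat_lit 7396377019) (nat_lit 275) (nat_lit 5) (nat_lit 291) (nat_lit 5) (nat_lit 292) (nat_lit 5) (nat_lit 458) (nat_lit 456) (nat_lit 286))))) (XT.nd (nat_lit 312) (nat_lit 0) (nat_lit 152) (XT.nd (nat_lit 156) (nat_lit 0) (nat_lit 76) (XT.nd (nat_lit 78) (nat_lit 0) (nat_lit 76) (XT.lf (nat_lit 76) (nat_lit 2396286907) (nat_lit 0) (nat_lit 4144623795) (nat_lit 1292) (nat_lit 15799872252) (nat_lit 276) (nat_lit 5) (nat_lit 275) (nat_lit 5) (nat_lit 292) (nat_lit 5) (nat_lit 459) (nat_lit 456) (nat_lit 285)) (XT.lf (nat_lit 0) (nat_lit 7165023123) (nat_lit 1216) (nat_lit 8909789936) (nat_lit 1292) (nat_lit 6600249691) (nat_lit 276) (nat_lit 5) (nat_lit 292) (nat_lit 5) (nat_lit 293) (nat_lit 5) (nat_lit 460) (nat_lit 456) (nat_lit 284))) (XT.nd (nat_lit 78) (nat_lit 0) (nat_lit 76) (XT.lf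 (nat_lit 76) (nat_lit 2459823458) (nat_lit 0) (nat_lit 5407596273) (nat_lit 1292) (nat_lit 15150165573) (nat_lit 277) (nat_lit 5) (nat_lit 276) (nat_lit 5) (nat_lit 293) (nat_lit 5) (nat_lit 461) (nat_lit 456) (nat_lit 283)) (XT.lf (nat_lit 0) (nat_lit 8730403176) (nat_lit 1216) (nat_lit 9072280295) (nat_lit 1292) (nat_lit 5563515771) (nat_lit 277) (nat_lit 5) (nat_lit 293) (nat_lit 5) (nat_lit 294) (nat_lit 5) (nat_lit 462) (nat_lit 456) (nat_lit 282)))) (XT.nd (nat_lit 156) (nat_lit 0) (nat_lit 76) (XT.nd (nat_lit 78) (nat_lit 0) (nat_lit 76) (XT.lf (nat_lit 76) (nat_lit 2754838845) (nat_lit 0) (nat_lit 6939621984) (nat_lit 1292) (nat_lit 14028556349) (nat_lit 278) (nat_lit 5) (nat_lit 277) (nat_lit 5) (nat_lit 294) (nat_lit 5) (nat_lit 463) (nat_lit 456) (nat_lit 281)) (XT.lf (nat_lit 0) (nat_lit 10816096109) (nat_lit 1216) (nat_lit 9010071794) (nat_lit 1292) (nat_lit 4260513159) (nat_lit 278) (nat_lit 5) (nat_lit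 294) (nat_lit 5) (nat_lit 295) (nat_lit 5) (nat_lit 464) (nat_lit 456) (nat_lit 280))) (XT.nd (nat_lit 78) (nat_lit 0) (nat_lit 76) (XT.lf (nat_lit 76) (nat_lit 3299274098) (nat_lit 0) (nat_lit 8767956750) (nat_lit 1292) (nat_lit 12391149560) (nat_lit 279) (nat_lit 5) (nat_lit 278) (nat_lit 5) (nat_lit 295) (nat_lit 5) (nat_lit 465) (nat_lit 456) (nat_lit 279)) (XT.lf (nat_lit 0) (nat_lit 13468531155) (nat_lit 1216) (nat_lit 8705300501) (nat_lit 1292) (nat_lit 2664021158) (nat_lit 279) (nat_lit 5) (nat_lit 295) (nat_lit 5) (nat_lit 296) (nat_lit 5) (nat_lit 466) (nat_lit 456) (nat_lit 278)))))) (XT.nd (nat_lit 546) (nat_lit 2508) (nat_lit 0) (XT.nd (nat_lit 234) (nat_lit 1064) (nat_lit 0) (XT.nd (nat_lit 78) (nat_lit 0) (nat_lit 76) (XT.lf (nat_lit 76) (nat_lit 4112358660) (nat_lit 0) (nat_lit 10921525965) (nat_lit 1292) (nat_lit 10191165341) (nat_lit 280) (nat_lit 5) (nat_lit 279) (nat_lit 5) (nat_lit 296) (nat_lit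 5) (nat_lit 467) (nat_lit 456) (nat_lit 277)) (XT.nd (nat_lit 78) (nat_lit 0) (nat_lit 0) (XT.lf (nat_lit 0) (nat_lit 16737178185) (nat_lit 1216) (nat_lit 8138826206) (nat_lit 1292) (nat_lit 745130221) (nat_lit 280) (nat_lit 5) (nat_lit 296) (nat_lit 5) (nat_lit 297) (nat_lit 5) (nat_lit 468) (nat_lit 456) (nat_lit 276)) (XT.lf (nat_lit 76) (nat_lit 5214670994) (nat_lit 0) (nat_lit 13431061135) (nat_lit 1292) (nat_lit 7378745760) (nat_lit 281) (nat_lit 5) (nat_lit 280) (nat_lit 5) (nat_lit 297) (nat_lit 5) (nat_lit 469) (nat_lit 456) (nat_lit 275)))) (XT.nd (nat_lit 156) (nat_lit 1140) (nat_lit 0) (XT.nd (nat_lit 78) (nat_lit 0) (nat_lit 76) (XT.lf (nat_lit 76) (nat_lit 19132435566) (nat_lit 0) (nat_lit 1557283224) (nat_lit 1292) (nat_lit 5747858304) (nat_lit 281) (nat_lit 5) (nat_lit 280) (nat_lit 5) (nat_lit 297) (nat_lit 5) (nat_lit 470) (nat_lit 456) (nat_lit 274)) (XT.lf (nat_lit 76) (nat_lit 6628202825) (nat_lit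 0) (nat_lit 16329243664) (nat_lit 1292) (nat_lit 3900751027) (nat_lit 282) (nat_lit 5) (nat_lit 281) (nat_lit 5) (nat_lit 298) (nat_lit 5) (nat_lit 471) (nat_lit 456) (nat_lit 273))) (XT.nd (nat_lit 78) (nat_lit 1216) (nat_lit 0) (XT.lf (nat_lit 76) (nat_lit 21110393212) (nat_lit 0) (nat_lit 4268045024) (nat_lit 1292) (nat_lit 1910442207) (nat_lit 282) (nat_lit 5) (nat_lit 281) (nat_lit 5) (nat_lit 298) (nat_lit 5) (nat_lit 472) (nat_lit 456) (nat_lit 272)) (XT.lf (nat_lit 0) (nat_lit 293612123) (nat_lit 1292) (nat_lit 19354279498) (nat_lit 76) (nat_lit 8079850001) (nat_lit 265) (nat_lit 5) (nat_lit 282) (nat_lit 5) (nat_lit 266) (nat_lit 5) (nat_lit 473) (nat_lit 456) (nat_lit 271))))) (XT.nd (nat_lit 312) (nat_lit 1140) (nat_lit 0) (XT.nd (nat_lit 156) (nat_lit 608) (nat_lit 0) (XT.nd (nat_lit 78) (nat_lit 760) (nat_lit 0) (XT.lf (nat_lit 0) (nat_lit 2627010387) (nat_lit 1292) (nat_lit 4754308783) (nat_lit 76)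 (nat_lit 20794834184) (nat_lit 265) (nat_lit 5) (nat_lit 282) (nat_lit 5) (nat_lit 266) (nat_lit 5) (nat_lit 474) (nat_lit 456) (nat_lit 270)) (XT.lf (nat_lit 0) (nat_lit 5179159336) (nat_lit 836) (nat_lit 18201485852) (nat_lit 76) (nat_lit 5252910552) (nat_lit 255) (nat_lit 5) (nat_lit 266) (nat_lit 5) (nat_lit 256) (nat_lit 5) (nat_lit 475) (nat_lit 456) (nat_lit 269))) (XT.nd (nat_lit 78) (nat_lit 608) (nat_lit 0) (XT.lf (nat_lit 0) (nat_lit 7925976409) (nat_lit 836) (nat_lit 3008525653) (nat_lit 76) (nat_lit 18166635767) (nat_lit 255) (nat_lit 5) (nat_lit 266) (nat_lit 5) (nat_lit 256) (nat_lit 5) (nat_lit 476) (nat_lit 456) (nat_lit 268)) (XT.lf (nat_lit 0) (nat_lit 10895077551) (nat_lit 684) (nat_lit 16709887470) (nat_lit 76) (nat_lit 1973586691) (nat_lit 247) (nat_lit 5) (nat_lit 256) (nat_lit 5) (nat_lit 248) (nat_lit 5) (nat_lit 477) (nat_lit 456) (nat_lit 267)))) (XT.nd (nat_lit 156) (nat_lit 532) (nat_lit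 0) (XT.nd (nat_lit 78) (nat_lit 608) (nat_lit 0) (XT.lf (nat_lit 0) (nat_lit 14088902717) (nat_lit 684) (nat_lit 897301433) (nat_lit 76) (nat_lit 15080015032) (nat_lit 247) (nat_lit 5) (nat_lit 256) (nat_lit 5) (nat_lit 248) (nat_lit 5) (nat_lit 478) (nat_lit 456) (nat_lit 266)) (XT.lf (nat_lit 0) (nat_lit 15692774743) (nat_lit 608) (nat_lit 1833419927) (nat_lit 684) (nat_lit 13037893123) (nat_lit 239) (nat_lit 5) (nat_lit 247) (nat_lit 5) (nat_lit 248) (nat_lit 5) (nat_lit 479) (nat_lit 456) (nat_lit 265))) (XT.nd (nat_lit 78) (nat_lit 0) (nat_lit 0) (XT.lf (nat_lit 0) (nat_lit 1638432065) (nat_lit 532) (nat_lit 19562542757) (nat_lit 608) (nat_lit 9871887215) (nat_lit 232) (nat_lit 5) (nat_lit 239) (nat_lit 5) (nat_lit 240) (nat_lit 5) (nat_lit 480) (nat_lit 456) (nat_lit 264)) (XT.lf (nat_lit 0) (nat_lit 18926659379) (nat_lit 532) (nat_lit 6224413325) (nat_lit 608) (nat_lit 6440875214) (nat_lit 232) (nat_lit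 5) (nat_lit 239) (nat_lit 5) (nat_lit 240) (nat_lit 5) (nat_lit 481) (nat_lit 456) (nat_lit 263))))))) (XT.nd (nat_lit 1170) (nat_lit 3496) (nat_lit 0) (XT.nd (nat_lit 546) (nat_lit 1824) (nat_lit 0) (XT.nd (nat_lit 234) (nat_lit 988) (nat_lit 0) (XT.nd (nat_lit 78) (nat_lit 608) (nat_lit 0) (XT.lf (nat_lit 0) (nat_lit 4621744808) (nat_lit 532) (nat_lit 24711600878) (nat_lit 608) (nat_lit 2789851146) (nat_lit 225) (nat_lit 5) (nat_lit 232) (nat_lit 5) (nat_lit 233) (nat_lit 5) (nat_lit 482) (nat_lit 456) (nat_lit 262)) (XT.nd (nat_lit 78) (nat_lit 532) (nat_lit 0) (XT.lf (nat_lit 0) (nat_lit 1139595158) (nat_lit 608) (nat_lit 10054926355) (nat_lit 76) (nat_lit 21469947351) (nat_lit 224) (nat_lit 5) (nat_lit 232) (nat_lit 5) (nat_lit 225) (nat_lit 5) (nat_lit 483) (nat_lit 456) (nat_lit 261)) (XT.lf (nat_lit 0) (nat_lit 5232540096) (nat_lit 608) (nat_lit 25204970747) (nat_lit 76) (nat_lit 2780589460) (nat_lit 217)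 (nat_lit 5) (nat_lit 225) (nat_lit 5) (nat_lit 218) (nat_lit 5) (nat_lit 484) (nat_lit 456) (nat_lit 260)))) (XT.nd (nat_lit 156) (nat_lit 456) (nat_lit 0) (XT.nd (nat_lit 78) (nat_lit 532) (nat_lit 0) (XT.lf (nat_lit 0) (nat_lit 9658833403) (nat_lit 608) (nat_lit 7070923759) (nat_lit 76) (nat_lit 17052267273) (nat_lit 217) (nat_lit 5) (nat_lit 225) (nat_lit 5) (nat_lit 218) (nat_lit 5) (nat_lit 485) (nat_lit 456) (nat_lit 259)) (XT.lf (nat_lit 0) (nat_lit 11835050004) (nat_lit 532) (nat_lit 2493896135) (nat_lit 608) (nat_lit 20030589768) (nat_lit 210) (nat_lit 5) (nat_lit 217) (nat_lit 5) (nat_lit 218) (nat_lit 5) (nat_lit 486) (nat_lit 456) (nat_lit 258))) (XT.nd (nat_lit 78) (nat_lit 456) (nat_lit 0) (XT.lf (nat_lit 0) (nat_lit 19325560445) (nat_lit 608) (nat_lit 3619851103) (nat_lit 76) (nat_lit 12003369750) (nat_lit 210) (nat_lit 5) (nat_lit 218) (nat_lit 5) (nat_lit 211) (nat_lit 5) (nat_lit 487) (nat_lit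 456) (nat_lit 257)) (XT.lf (nat_lit 0) (nat_lit 16139166671) (nat_lit 456) (nat_lit 8510128872) (nat_lit 532) (nat_lit 10901092342) (nat_lit 204) (nat_lit 5) (nat_lit 210) (nat_lit 5) (nat_lit 211) (nat_lit 5) (nat_lit 488) (nat_lit 456) (nat_lit 256))))) (XT.nd (nat_lit 312) (nat_lit 836) (nat_lit 0) (XT.nd (nat_lit 156) (nat_lit 532) (nat_lit 0) (XT.nd (nat_lit 78) (nat_lit 0) (nat_lit 0) (XT.lf (nat_lit 0) (nat_lit 338291297) (nat_lit 456) (nat_lit 29893171941) (nat_lit 532) (nat_lit 5935618304) (nat_lit 198) (nat_lit 5) (nat_lit 204) (nat_lit 5) (nat_lit 205) (nat_lit 5) (nat_lit 489) (nat_lit 456) (nat_lit 255)) (XT.lf (nat_lit 0) (nat_lit 20989253037) (nat_lit 456) (nat_lit 15268770958) (nat_lit 532) (nat_lit 535944649) (nat_lit 198) (nat_lit 5) (nat_lit 204) (nat_lit 5) (nat_lit 205) (nat_lit 5) (nat_lit 490) (nat_lit 456) (nat_lit 254))) (XT.nd (nat_lit 78) (nat_lit 0) (nat_lit 0) (XT.lf (nat_lit 0) (nat_lit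 4863705951) (nat_lit 456) (nat_lit 108225137) (nat_lit 532) (nat_lit 32464953958) (nat_lit 191) (nat_lit 5) (nat_lit 197) (nat_lit 5) (nat_lit 198) (nat_lit 5) (nat_lit 491) (nat_lit 456) (nat_lit 253)) (XT.lf (nat_lit 0) (nat_lit 10942079578) (nat_lit 532) (nat_lit 11777102936) (nat_lit 76) (nat_lit 15370513416) (nat_lit 191) (nat_lit 5) (nat_lit 198) (nat_lit 5) (nat_lit 192) (nat_lit 5) (nat_lit 492) (nat_lit 456) (nat_lit 252)))) (XT.nd (nat_lit 156) (nat_lit 380) (nat_lit 0) (XT.nd (nat_lit 78) (nat_lit 0) (nat_lit 0) (XT.lf (nat_lit 0) (nat_lit 9830691321) (nat_lit 456) (nat_lit 7353849750) (nat_lit 532) (nat_lit 21574754237) (nat_lit 185) (nat_lit 5) (nat_lit 191) (nat_lit 5) (nat_lit 192) (nat_lit 5) (nat_lit 493) (nat_lit 456) (nat_lit 251)) (XT.lf (nat_lit 0) (nat_lit 23813495650) (nat_lit 532) (nat_lit 7202856883) (nat_lit 76) (nat_lit 8426653967) (nat_lit 185) (nat_lit 5) (nat_lit 192) (nat_lit 5) (nat_lit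 186) (nat_lit 5) (nat_lit 494) (nat_lit 456) (nat_lit 250))) (XT.nd (nat_lit 78) (nat_lit 0) (nat_lit 0) (XT.lf (nat_lit 0) (nat_lit 15399477068) (nat_lit 380) (nat_lit 15460422945) (nat_lit 456) (nat_lit 9280771979) (nat_lit 180) (nat_lit 5) (nat_lit 185) (nat_lit 5) (nat_lit 186) (nat_lit 5) (nat_lit 495) (nat_lit 456) (nat_lit 249)) (XT.lf (nat_lit 0) (nat_lit 38194329407) (nat_lit 456) (nat_lit 2038584295) (nat_lit 76) (nat_lit 624055147) (nat_lit 180) (nat_lit 5) (nat_lit 186) (nat_lit 5) (nat_lit 181) (nat_lit 5) (nat_lit 496) (nat_lit 456) (nat_lit 248)))))) (XT.nd (nat_lit 624) (nat_lit 1520) (nat_lit 0) (XT.nd (nat_lit 312) (nat_lit 760) (nat_lit 0) (XT.nd (nat_lit 156) (nat_lit 380) (nat_lit 0) (XT.nd (nat_lit 78) (nat_lit 380) (nat_lit 0) (XT.lf (nat_lit 0) (nat_lit 4435177093) (nat_lit 456) (nat_lit 20016562214) (nat_lit 76) (nat_lit 17130951725) (nat_lit 174) (nat_lit 5) (nat_lit 180) (nat_lit 5) (nat_lit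 175) (nat_lit 5) (nat_lit 497) (nat_lit 456) (nat_lit 247)) (XT.lf (nat_lit 0) (nat_lit 3632687272) (nat_lit 380) (nat_lit 8113287051) (nat_lit 456) (nat_lit 30581813152) (nat_lit 169) (nat_lit 5) (nat_lit 174) (nat_lit 5) (nat_lit 175) (nat_lit 5) (nat_lit 498) (nat_lit 456) (nat_lit 246))) (XT.nd (nat_lit 78) (nat_lit 380) (nat_lit 0) (XT.lf (nat_lit 0) (nat_lit 19561884010) (nat_lit 456) (nat_lit 14776084149) (nat_lit 76) (nat_lit 8748695339) (nat_lit 169) (nat_lit 5) (nat_lit 175) (nat_lit 5) (nat_lit 170) (nat_lit 5) (nat_lit 499) (nat_lit 456) (nat_lit 245)) (XT.lf (nat_lit 0) (nat_lit 9971978458) (nat_lit 380) (nat_lit 17814422810) (nat_lit 456) (nat_lit 16076680960) (nat_lit 164) (nat_lit 5) (nat_lit 169) (nat_lit 5) (nat_lit 170) (nat_lit 5) (nat_lit 500) (nat_lit 456) (nat_lit 244)))) (XT.nd (nat_lit 156) (nat_lit 380) (nat_lit 0) (XT.nd (nat_lit 78) (nat_lit 380) (nat_lit 0) (XT.lf (nat_lit 0) (nat_lit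 35762621900) (nat_lit 380) (nat_lit 642218958) (nat_lit 456) (nat_lit 8253537380) (nat_lit 164) (nat_lit 5) (nat_lit 169) (nat_lit 5) (nat_lit 170) (nat_lit 5) (nat_lit 501) (nat_lit 456) (nat_lit 243)) (XT.lf (nat_lit 0) (nat_lit 136776551) (nat_lit 380) (nat_lit 28454214696) (nat_lit 76) (nat_lit 16876738905) (nat_lit 159) (nat_lit 5) (nat_lit 164) (nat_lit 5) (nat_lit 160) (nat_lit 5) (nat_lit 502) (nat_lit 456) (nat_lit 242))) (XT.nd (nat_lit 78) (nat_lit 380) (nat_lit 0) (XT.lf (nat_lit 0) (nat_lit 8708031005) (nat_lit 380) (nat_lit 2507955153) (nat_lit 76) (nat_lit 35080071645) (nat_lit 159) (nat_lit 5) (nat_lit 164) (nat_lit 5) (nat_lit 160) (nat_lit 5) (nat_lit 503) (nat_lit 456) (nat_lit 241)) (XT.lf (nat_lit 0) (nat_lit 17838471888) (nat_lit 456) (nat_lit 22512791007) (nat_lit 76) (nat_lit 6788911214) (nat_lit 154) (nat_lit 5) (nat_lit 160) (nat_lit 5) (nat_lit 155) (nat_lit 5) (nat_lit 504) (nat_lit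 456) (nat_lit 240))))) (XT.nd (nat_lit 312) (nat_lit 836) (nat_lit 0) (XT.nd (nat_lit 156) (nat_lit 380) (nat_lit 0) (XT.nd (nat_lit 78) (nat_lit 0) (nat_lit 0) (XT.lf (nat_lit 0) (nat_lit 4595019169) (nat_lit 304) (nat_lit 22826723606) (nat_lit 380) (nat_lit 20582503904) (nat_lit 150) (nat_lit 5) (nat_lit 154) (nat_lit 5) (nat_lit 155) (nat_lit 5) (nat_lit 505) (nat_lit 456) (nat_lit 239)) (XT.lf (nat_lit 0) (nat_lit 32974896032) (nat_lit 304) (nat_lit 4543101080) (nat_lit 380) (nat_lit 11369480026) (nat_lit 150) (nat_lit 5) (nat_lit 154) (nat_lit 5) (nat_lit 155) (nat_lit 5) (nat_lit 506) (nat_lit 456) (nat_lit 238))) (XT.nd (nat_lit 78) (nat_lit 76) (nat_lit 0) (XT.lf (nat_lit 0) (nat_lit 12513159655) (nat_lit 304) (nat_lit 35659815078) (nat_lit 380) (nat_lit 1616554971) (nat_lit 146) (nat_lit 5) (nat_lit 150) (nat_lit 5) (nat_lit 151) (nat_lit 5) (nat_lit 507) (nat_lit 456) (nat_lit 237)) (XT.lf (nat_lit 0)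 (nat_lit 8469942823) (nat_lit 380) (nat_lit 8726191909) (nat_lit 76) (nat_lit 33513914706) (nat_lit 145) (nat_lit 5) (nat_lit 150) (nat_lit 5) (nat_lit 146) (nat_lit 5) (nat_lit 508) (nat_lit 456) (nat_lit 236)))) (XT.nd (nat_lit 156) (nat_lit 532) (nat_lit 0) (XT.nd (nat_lit 78) (nat_lit 0) (nat_lit 0) (XT.lf (nat_lit 0) (nat_lit 19047036009) (nat_lit 380) (nat_lit 30598206632) (nat_lit 76) (nat_lit 2005847448) (nat_lit 141) (nat_lit 5) (nat_lit 146) (nat_lit 5) (nat_lit 142) (nat_lit 5) (nat_lit 509) (nat_lit 456) (nat_lit 235)) (XT.lf (nat_lit 0) (nat_lit 30198967640) (nat_lit 380) (nat_lit 887219219) (nat_lit 76) (nat_lit 21526449568) (nat_lit 141) (nat_lit 5) (nat_lit 146) (nat_lit 5) (nat_lit 142) (nat_lit 5) (nat_lit 510) (nat_lit 456) (nat_lit 234))) (XT.nd (nat_lit 78) (nat_lit 228) (nat_lit 0) (XT.lf (nat_lit 0) (nat_lit 30303932778) (nat_lit 304) (nat_lit 11671151576) (nat_lit 380) (nat_lit 11619256212)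 (nat_lit 137) (nat_lit 5) (nat_lit 141) (nat_lit 5) (nat_lit 142) (nat_lit 5) (nat_lit 511) (nat_lit 456) (nat_lit 233)) (XT.lf (nat_lit 0) (nat_lit 7915593581) (nat_lit 228) (nat_lit 46352410312) (nat_lit 304) (nat_lit 332586580) (nat_lit 134) (nat_lit 5) (nat_lit 137) (nat_lit 5) (nat_lit 138) (nat_lit 5) (nat_lit 512) (nat_lit 456) (nat_lit 232))))))))
noncomputable def xc210 : XT := (XT.nd (nat_lit 2340) (nat_lit 152) (nat_lit 0) (XT.nd (nat_lit 1170) (nat_lit 1900) (nat_lit 0) (XT.nd (nat_lit 546) (nat_lit 988) (nat_lit 0) (XT.nd (nat_lit 234) (nat_lit 836) (nat_lit 0) (XT.nd (nat_lit 78) (nat_lit 304) (nat_lit 0) (XT.lf (nat_lit 0) (nat_lit 11423746175) (nat_lit 304) (nat_lit 15323732781) (nat_lit 76) (nat_lit 28875749842) (nat_lit 133) (nat_lit 5) (nat_lit 137) (nat_lit 5) (nat_lit 134) (nat_lit 5) (nat_lit 513) (nat_lit 456) (nat_lit 231)) (XT.nd (nat_lit 78) (nat_lit 0) (nat_lit 0) (XT.lf (nat_lit 0) (nat_lit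 17310409089) (nat_lit 304) (nat_lit 6380473367) (nat_lit 380) (nat_lit 32980621286) (nat_lit 129) (nat_lit 5) (nat_lit 133) (nat_lit 5) (nat_lit 134) (nat_lit 5) (nat_lit 514) (nat_lit 456) (nat_lit 230)) (XT.lf (nat_lit 0) (nat_lit 36621040039) (nat_lit 380) (nat_lit 6653211477) (nat_lit 76) (nat_lit 14468125398) (nat_lit 129) (nat_lit 5) (nat_lit 134) (nat_lit 5) (nat_lit 130) (nat_lit 5) (nat_lit 515) (nat_lit 456) (nat_lit 229)))) (XT.nd (nat_lit 156) (nat_lit 228) (nat_lit 0) (XT.nd (nat_lit 78) (nat_lit 380) (nat_lit 0) (XT.lf (nat_lit 0) (nat_lit 27507098868) (nat_lit 228) (nat_lit 22758052685) (nat_lit 304) (nat_lit 8570443441) (nat_lit 126) (nat_lit 5) (nat_lit 129) (nat_lit 5) (nat_lit 130) (nat_lit 5) (nat_lit 516) (nat_lit 456) (nat_lit 228)) (XT.lf (nat_lit 0) (nat_lit 2880259825) (nat_lit 304) (nat_lit 1485700989) (nat_lit 380) (nat_lit 55591572396) (nat_lit 121) (nat_lit 5) (nat_lit 125) (nat_lit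 5) (nat_lit 126) (nat_lit 5) (nat_lit 517) (nat_lit 456) (nat_lit 227))) (XT.nd (nat_lit 78) (nat_lit 228) (nat_lit 0) (XT.lf (nat_lit 0) (nat_lit 18032505539) (nat_lit 380) (nat_lit 22632900524) (nat_lit 76) (nat_lit 20429748833) (nat_lit 121) (nat_lit 5) (nat_lit 126) (nat_lit 5) (nat_lit 122) (nat_lit 5) (nat_lit 518) (nat_lit 456) (nat_lit 226)) (XT.lf (nat_lit 0) (nat_lit 13083041791) (nat_lit 228) (nat_lit 19165002427) (nat_lit 304) (nat_lit 30014691255) (nat_lit 118) (nat_lit 5) (nat_lit 121) (nat_lit 5) (nat_lit 122) (nat_lit 5) (nat_lit 519) (nat_lit 456) (nat_lit 225))))) (XT.nd (nat_lit 312) (nat_lit 456) (nat_lit 0) (XT.nd (nat_lit 156) (nat_lit 304) (nat_lit 0) (XT.nd (nat_lit 78) (nat_lit 228) (nat_lit 0) (XT.lf (nat_lit 0) (nat_lit 47148047087) (nat_lit 304) (nat_lit 13157346247) (nat_lit 76) (nat_lit 3152210357) (nat_lit 118) (nat_lit 5) (nat_lit 122) (nat_lit 5) (nat_lit 119) (nat_lit 5) (nat_lit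 520) (nat_lit 456) (nat_lit 224)) (XT.lf (nat_lit 0) (nat_lit 24226370176) (nat_lit 228) (nat_lit 38689891352) (nat_lit 304) (nat_lit 1759420243) (nat_lit 115) (nat_lit 5) (nat_lit 118) (nat_lit 5) (nat_lit 119) (nat_lit 5) (nat_lit 521) (nat_lit 456) (nat_lit 223))) (XT.nd (nat_lit 78) (nat_lit 228) (nat_lit 0) (XT.lf (nat_lit 0) (nat_lit 13101874187) (nat_lit 304) (nat_lit 3055767605) (nat_lit 76) (nat_lit 49764863165) (nat_lit 114) (nat_lit 5) (nat_lit 118) (nat_lit 5) (nat_lit 115) (nat_lit 5) (nat_lit 522) (nat_lit 456) (nat_lit 222)) (XT.lf (nat_lit 0) (nat_lit 28791100918) (nat_lit 304) (nat_lit 31121951563) (nat_lit 76) (nat_lit 7280634224) (nat_lit 111) (nat_lit 5) (nat_lit 115) (nat_lit 5) (nat_lit 112) (nat_lit 5) (nat_lit 523) (nat_lit 456) (nat_lit 221)))) (XT.nd (nat_lit 156) (nat_lit 228) (nat_lit 0) (XT.nd (nat_lit 78) (nat_lit 0) (nat_lit 0) (XT.lf (nat_lit 0) (nat_lit 7925760781) (nat_lit 228)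 (nat_lit 37291207886) (nat_lit 304) (nat_lit 23278056451) (nat_lit 108) (nat_lit 5) (nat_lit 111) (nat_lit 5) (nat_lit 112) (nat_lit 5) (nat_lit 524) (nat_lit 456) (nat_lit 220)) (XT.lf (nat_lit 0) (nat_lit 48780653756) (nat_lit 228) (nat_lit 13667885248) (nat_lit 304) (nat_lit 7377477021) (nat_lit 108) (nat_lit 5) (nat_lit 111) (nat_lit 5) (nat_lit 112) (nat_lit 5) (nat_lit 525) (nat_lit 456) (nat_lit 219))) (XT.nd (nat_lit 78) (nat_lit 0) (nat_lit 0) (XT.lf (nat_lit 0) (nat_lit 9120352917) (nat_lit 228) (nat_lit 51328729723) (nat_lit 76) (nat_lit 10736382973) (nat_lit 105) (nat_lit 5) (nat_lit 108) (nat_lit 5) (nat_lit 106) (nat_lit 5) (nat_lit 526) (nat_lit 456) (nat_lit 218)) (XT.lf (nat_lit 0) (nat_lit 26313475707) (nat_lit 228) (nat_lit 10374682349) (nat_lit 76) (nat_lit 35884890290) (nat_lit 105) (nat_lit 5) (nat_lit 108) (nat_lit 5) (nat_lit 106) (nat_lit 5) (nat_lit 527) (nat_lit 456) (nat_lit 217))))))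 (XT.nd (nat_lit 546) (nat_lit 988) (nat_lit 0) (XT.nd (nat_lit 234) (nat_lit 456) (nat_lit 0) (XT.nd (nat_lit 78) (nat_lit 228) (nat_lit 0) (XT.lf (nat_lit 0) (nat_lit 32438857821) (nat_lit 228) (nat_lit 11894085940) (nat_lit 304) (nat_lit 29659998375) (nat_lit 102) (nat_lit 5) (nat_lit 105) (nat_lit 5) (nat_lit 106) (nat_lit 5) (nat_lit 528) (nat_lit 456) (nat_lit 216)) (XT.nd (nat_lit 78) (nat_lit 76) (nat_lit 0) (XT.lf (nat_lit 0) (nat_lit 1186002212) (nat_lit 152) (nat_lit 61954086066) (nat_lit 228) (nat_lit 12307931809) (nat_lit 100) (nat_lit 5) (nat_lit 102) (nat_lit 5) (nat_lit 103) (nat_lit 5) (nat_lit 529) (nat_lit 456) (nat_lit 215)) (XT.lf (nat_lit 0) (nat_lit 5996384050) (nat_lit 228) (nat_lit 31051602165) (nat_lit 76) (nat_lit 39880951296) (nat_lit 99) (nat_lit 5) (nat_lit 102) (nat_lit 5) (nat_lit 100) (nat_lit 5) (nat_lit 530) (nat_lit 456) (nat_lit 214)))) (XT.nd (nat_lit 156) (nat_lit 228) (nat_lit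 0) (XT.nd (nat_lit 78) (nat_lit 0) (nat_lit 0) (XT.lf (nat_lit 0) (nat_lit 13596503952) (nat_lit 228) (nat_lit 11135424715) (nat_lit 304) (nat_lit 53714813782) (nat_lit 96) (nat_lit 5) (nat_lit 99) (nat_lit 5) (nat_lit 100) (nat_lit 5) (nat_lit 531) (nat_lit 456) (nat_lit 213)) (XT.lf (nat_lit 0) (nat_lit 44494510193) (nat_lit 304) (nat_lit 19934803956) (nat_lit 76) (nat_lit 15566818375) (nat_lit 96) (nat_lit 5) (nat_lit 100) (nat_lit 5) (nat_lit 97) (nat_lit 5) (nat_lit 532) (nat_lit 456) (nat_lit 212))) (XT.nd (nat_lit 78) (nat_lit 76) (nat_lit 0) (XT.lf (nat_lit 0) (nat_lit 26737562977) (nat_lit 152) (nat_lit 38478497298) (nat_lit 228) (nat_lit 16364961396) (nat_lit 94) (nat_lit 5) (nat_lit 96) (nat_lit 5) (nat_lit 97) (nat_lit 5) (nat_lit 533) (nat_lit 456) (nat_lit 211)) (XT.lf (nat_lit 0) (nat_lit 3482631295) (nat_lit 228) (nat_lit 8024857227) (nat_lit 76) (nat_lit 71698940594) (nat_lit 93) (nat_lit 5) (nat_lit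 96) (nat_lit 5) (nat_lit 94) (nat_lit 5) (nat_lit 534) (nat_lit 456) (nat_lit 210))))) (XT.nd (nat_lit 312) (nat_lit 380) (nat_lit 0) (XT.nd (nat_lit 156) (nat_lit 228) (nat_lit 0) (XT.nd (nat_lit 78) (nat_lit 152) (nat_lit 0) (XT.lf (nat_lit 0) (nat_lit 24149989666) (nat_lit 304) (nat_lit 44194837968) (nat_lit 76) (nat_lit 16514312642) (nat_lit 90) (nat_lit 5) (nat_lit 94) (nat_lit 5) (nat_lit 91) (nat_lit 5) (nat_lit 535) (nat_lit 456) (nat_lit 209)) (XT.lf (nat_lit 0) (nat_lit 4388559099) (nat_lit 152) (nat_lit 41285634168) (nat_lit 228) (nat_lit 40880134860) (nat_lit 88) (nat_lit 5) (nat_lit 90) (nat_lit 5) (nat_lit 91) (nat_lit 5) (nat_lit 536) (nat_lit 456) (nat_lit 208))) (XT.nd (nat_lit 78) (nat_lit 228) (nat_lit 0) (XT.lf (nat_lit 0) (nat_lit 55333452043) (nat_lit 152) (nat_lit 12955832147) (nat_lit 228) (nat_lit 19997732676) (nat_lit 88) (nat_lit 5) (nat_lit 90) (nat_lit 5) (nat_lit 91) (nat_lit 5) (nat_lit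 537) (nat_lit 456) (nat_lit 207)) (XT.lf (nat_lit 0) (nat_lit 1812076409) (nat_lit 228) (nat_lit 72152690001) (nat_lit 76) (nat_lit 16096571480) (nat_lit 85) (nat_lit 5) (nat_lit 88) (nat_lit 5) (nat_lit 86) (nat_lit 5) (nat_lit 538) (nat_lit 456) (nat_lit 206)))) (XT.nd (nat_lit 156) (nat_lit 228) (nat_lit 0) (XT.nd (nat_lit 78) (nat_lit 152) (nat_lit 0) (XT.lf (nat_lit 0) (nat_lit 24337489417) (nat_lit 228) (nat_lit 21238158169) (nat_lit 76) (nat_lit 46293403791) (nat_lit 85) (nat_lit 5) (nat_lit 88) (nat_lit 5) (nat_lit 86) (nat_lit 5) (nat_lit 539) (nat_lit 456) (nat_lit 205)) (XT.lf (nat_lit 0) (nat_lit 31822917775) (nat_lit 152) (nat_lit 16020587815) (nat_lit 228) (nat_lit 45878345533) (nat_lit 83) (nat_lit 5) (nat_lit 85) (nat_lit 5) (nat_lit 86) (nat_lit 5) (nat_lit 540) (nat_lit 456) (nat_lit 204))) (XT.nd (nat_lit 78) (nat_lit 228) (nat_lit 0) (XT.lf (nat_lit 0) (nat_lit 72408858823) (nat_lit 228) (nat_lit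 8855238594) (nat_lit 76) (nat_lit 14355512824) (nat_lit 83) (nat_lit 5) (nat_lit 86) (nat_lit 5) (nat_lit 84) (nat_lit 5) (nat_lit 541) (nat_lit 456) (nat_lit 203)) (XT.lf (nat_lit 0) (nat_lit 745031612) (nat_lit 228) (nat_lit 51036222122) (nat_lit 76) (nat_lit 45774684041) (nat_lit 80) (nat_lit 5) (nat_lit 83) (nat_lit 5) (nat_lit 81) (nat_lit 5) (nat_lit 542) (nat_lit 456) (nat_lit 202))))))) (XT.nd (nat_lit 56784) (nat_lit 0) (nat_lit 11096) (XT.nd (nat_lit 56160) (nat_lit 0) (nat_lit 15048) (XT.nd (nat_lit 55848) (nat_lit 0) (nat_lit 14896) (XT.nd (nat_lit 78) (nat_lit 0) (nat_lit 0) (XT.lf (nat_lit 0) (nat_lit 4036007110) (nat_lit 152) (nat_lit 21045048261) (nat_lit 228) (nat_lit 74458563141) (nat_lit 78) (nat_lit 5) (nat_lit 80) (nat_lit 5) (nat_lit 81) (nat_lit 5) (nat_lit 543) (nat_lit 456) (nat_lit 201)) (XT.nd (nat_lit 55692) (nat_lit 0) (nat_lit 14896) (XT.lf (nat_lit 0) (nat_lit 50768631864) (nat_lit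 228) (nat_lit 39869706255) (nat_lit 76) (nat_lit 10925827458) (nat_lit 78) (nat_lit 5) (nat_lit 81) (nat_lit 5) (nat_lit 79) (nat_lit 5) (nat_lit 544) (nat_lit 456) (nat_lit 200)) (XT.lf (nat_lit 0) (nat_lit 2934868200) (nat_lit 1292) (nat_lit 4034692365) (nat_lit 1292) (nat_lit 4034692365) (nat_lit 274) (nat_lit 3) (nat_lit 291) (nat_lit 3) (nat_lit 291) (nat_lit 5) (nat_lit 457) (nat_lit 457) (nat_lit 286)))) (XT.nd (nat_lit 156) (nat_lit 0) (nat_lit 76) (XT.nd (nat_lit 78) (nat_lit 0) (nat_lit 76) (XT.lf (nat_lit 76) (nat_lit 2768537939) (nat_lit 0) (nat_lit 3350756960) (nat_lit 1292) (nat_lit 16214461790) (nat_lit 275) (nat_lit 5) (nat_lit 274) (nat_lit 3) (nat_lit 291) (nat_lit 5) (nat_lit 458) (nat_lit 457) (nat_lit 285)) (XT.lf (nat_lit 0) (nat_lit 6525990597) (nat_lit 1216) (nat_lit 8645690451) (nat_lit 1292) (nat_lit 7492595708) (nat_lit 275) (nat_lit 5) (nat_lit 291) (nat_lit 5) (nat_lit 292) (nat_lit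 5) (nat_lit 459) (nat_lit 457) (nat_lit 284))) (XT.nd (nat_lit 78) (nat_lit 0) (nat_lit 76) (XT.lf (nat_lit 76) (nat_lit 2616439804) (nat_lit 0) (nat_lit 4381660337) (nat_lit 1292) (nat_lit 16005017083) (nat_lit 276) (nat_lit 5) (nat_lit 275) (nat_lit 5) (nat_lit 292) (nat_lit 5) (nat_lit 460) (nat_lit 457) (nat_lit 283)) (XT.lf (nat_lit 0) (nat_lit 7632283329) (nat_lit 1216) (nat_lit 9024426519) (nat_lit 1292) (nat_lit 6690976903) (nat_lit 276) (nat_lit 5) (nat_lit 292) (nat_lit 5) (nat_lit 293) (nat_lit 5) (nat_lit 461) (nat_lit 457) (nat_lit 282))))) (XT.nd (nat_lit 312) (nat_lit 0) (nat_lit 152) (XT.nd (nat_lit 156) (nat_lit 0) (nat_lit 76) (XT.nd (nat_lit 78) (nat_lit 0) (nat_lit 76) (XT.lf (nat_lit 76) (nat_lit 2684778638) (nat_lit 0) (nat_lit 5665077423) (nat_lit 1292) (nat_lit 15350807500) (nat_lit 277) (nat_lit 5) (nat_lit 276) (nat_lit 5) (nat_lit 293) (nat_lit 5) (nat_lit 462) (nat_lit 457) (nat_lit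 281)) (XT.lf (nat_lit 0) (nat_lit 9230662947) (nat_lit 1216) (nat_lit 9189569663) (nat_lit 1292) (nat_lit 5639746945) (nat_lit 277) (nat_lit 5) (nat_lit 293) (nat_lit 5) (nat_lit 294) (nat_lit 5) (nat_lit 463) (nat_lit 457) (nat_lit 280))) (XT.nd (nat_lit 78) (nat_lit 0) (nat_lit 76) (XT.lf (nat_lit 76) (nat_lit 2990844629) (nat_lit 0) (nat_lit 7227329731) (nat_lit 1292) (nat_lit 14209493318) (nat_lit 278) (nat_lit 5) (nat_lit 277) (nat_lit 5) (nat_lit 294) (nat_lit 5) (nat_lit 464) (nat_lit 457) (nat_lit 279)) (XT.lf (nat_lit 0) (nat_lit 11365933672) (nat_lit 1216) (nat_lit 9123903054) (nat_lit 1292) (nat_lit 4312632065) (nat_lit 278) (nat_lit 5) (nat_lit 294) (nat_lit 5) (nat_lit 295) (nat_lit 5) (nat_lit 465) (nat_lit 457) (nat_lit 278)))) (XT.nd (nat_lit 156) (nat_lit 0) (nat_lit 76) (XT.nd (nat_lit 78) (nat_lit 0) (nat_lit 76) (XT.lf (nat_lit 76) (nat_lit 3553189187) (nat_lit 0) (nat_lit 9096338886) (nat_lit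 1292) (nat_lit 12535944793) (nat_lit 279) (nat_lit 5) (nat_lit 278) (nat_lit 5) (nat_lit 295) (nat_lit 5) (nat_lit 466) (nat_lit 457) (nat_lit 277)) (XT.lf (nat_lit 0) (nat_lit 14085841632) (nat_lit 1216) (nat_lit 8808960544) (nat_lit 1292) (nat_lit 2681739513) (nat_lit 279) (nat_lit 5) (nat_lit 295) (nat_lit 5) (nat_lit 296) (nat_lit 5) (nat_lit 467) (nat_lit 457) (nat_lit 276))) (XT.nd (nat_lit 78) (nat_lit 0) (nat_lit 76) (XT.lf (nat_lit 76) (nat_lit 4391684285) (nat_lit 0) (nat_lit 11301759256) (nat_lit 1292) (nat_lit 10282054007) (nat_lit 280) (nat_lit 5) (nat_lit 279) (nat_lit 5) (nat_lit 296) (nat_lit 5) (nat_lit 468) (nat_lit 457) (nat_lit 275)) (XT.lf (nat_lit 0) (nat_lit 17441271079) (nat_lit 1216) (nat_lit 8224967415) (nat_lit 1292) (nat_lit 717424573) (nat_lit 280) (nat_lit 5) (nat_lit 296) (nat_lit 5) (nat_lit 297) (nat_lit 5) (nat_lit 469) (nat_lit 457) (nat_lit 274)))))) (XT.nd (nat_lit 546) (nat_lit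 2356) (nat_lit 0) (XT.nd (nat_lit 234) (nat_lit 1900) (nat_lit 0) (XT.nd (nat_lit 78) (nat_lit 0) (nat_lit 0) (XT.lf (nat_lit 76) (nat_lit 5527585451) (nat_lit 0) (nat_lit 13875117476) (nat_lit 1292) (nat_lit 7396536424) (nat_lit 281) (nat_lit 5) (nat_lit 280) (nat_lit 5) (nat_lit 297) (nat_lit 5) (nat_lit 470) (nat_lit 457) (nat_lit 273)) (XT.nd (nat_lit 78) (nat_lit 0) (nat_lit 76) (XT.lf (nat_lit 76) (nat_lit 19858325455) (nat_lit 0) (nat_lit 1643928427) (nat_lit 1292) (nat_lit 5722651617) (nat_lit 281) (nat_lit 5) (nat_lit 280) (nat_lit 5) (nat_lit 297) (nat_lit 5) (nat_lit 471) (nat_lit 457) (nat_lit 272)) (XT.lf (nat_lit 76) (nat_lit 6983598444) (nat_lit 0) (nat_lit 16849959521) (nat_lit 1292) (nat_lit 3824721503) (nat_lit 282) (nat_lit 5) (nat_lit 281) (nat_lit 5) (nat_lit 298) (nat_lit 5) (nat_lit 472) (nat_lit 457) (nat_lit 271)))) (XT.nd (nat_lit 156) (nat_lit 760) (nat_lit 0) (XT.nd (nat_lit 78) (nat_lit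 1216) (nat_lit 0) (XT.lf (nat_lit 76) (nat_lit 21895694847) (nat_lit 0) (nat_lit 4426026712) (nat_lit 1292) (nat_lit 1780326294) (nat_lit 282) (nat_lit 5) (nat_lit 281) (nat_lit 5) (nat_lit 298) (nat_lit 5) (nat_lit 473) (nat_lit 457) (nat_lit 270)) (XT.lf (nat_lit 0) (nat_lit 482074129) (nat_lit 1292) (nat_lit 19775063866) (nat_lit 76) (nat_lit 8297007526) (nat_lit 265) (nat_lit 5) (nat_lit 282) (nat_lit 5) (nat_lit 266) (nat_lit 5) (nat_lit 474) (nat_lit 457) (nat_lit 269))) (XT.nd (nat_lit 78) (nat_lit 760) (nat_lit 0) (XT.lf (nat_lit 0) (nat_lit 2880241711) (nat_lit 1292) (nat_lit 4741749680) (nat_lit 76) (nat_lit 21394176322) (nat_lit 265) (nat_lit 5) (nat_lit 282) (nat_lit 5) (nat_lit 266) (nat_lit 5) (nat_lit 475) (nat_lit 457) (nat_lit 268)) (XT.lf (nat_lit 0) (nat_lit 5505187179) (nat_lit 836) (nat_lit 18588537596) (nat_lit 76) (nat_lit 5393681529) (nat_lit 255) (nat_lit 5) (nat_lit 266) (nat_lit 5) (nat_lit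 256) (nat_lit 5) (nat_lit 476) (nat_lit 457) (nat_lit 267))))) (XT.nd (nat_lit 312) (nat_lit 1140) (nat_lit 0) (XT.nd (nat_lit 156) (nat_lit 608) (nat_lit 0) (XT.nd (nat_lit 78) (nat_lit 608) (nat_lit 0) (XT.lf (nat_lit 0) (nat_lit 8329438286) (nat_lit 836) (nat_lit 2944419450) (nat_lit 76) (nat_lit 18695308297) (nat_lit 255) (nat_lit 5) (nat_lit 266) (nat_lit 5) (nat_lit 256) (nat_lit 5) (nat_lit 477) (nat_lit 457) (nat_lit 266)) (XT.lf (nat_lit 0) (nat_lit 11384164928) (nat_lit 684) (nat_lit 17053340166) (nat_lit 76) (nat_lit 2023501699) (nat_lit 247) (nat_lit 5) (nat_lit 256) (nat_lit 5) (nat_lit 248) (nat_lit 5) (nat_lit 478) (nat_lit 457) (nat_lit 265))) (XT.nd (nat_lit 78) (nat_lit 608) (nat_lit 0) (XT.lf (nat_lit 0) (nat_lit 14669079555) (nat_lit 684) (nat_lit 770973944) (nat_lit 76) (nat_lit 15523393548) (nat_lit 247) (nat_lit 5) (nat_lit 256) (nat_lit 5) (nat_lit 248) (nat_lit 5) (nat_lit 479) (nat_lit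 457) (nat_lit 264)) (XT.lf (nat_lit 0) (nat_lit 16315302100) (nat_lit 608) (nat_lit 1891059162) (nat_lit 684) (nat_lit 13269985299) (nat_lit 239) (nat_lit 5) (nat_lit 247) (nat_lit 5) (nat_lit 248) (nat_lit 5) (nat_lit 480) (nat_lit 457) (nat_lit 263)))) (XT.nd (nat_lit 156) (nat_lit 608) (nat_lit 0) (XT.nd (nat_lit 78) (nat_lit 0) (nat_lit 0) (XT.lf (nat_lit 0) (nat_lit 1842484693) (nat_lit 532) (nat_lit 20145867982) (nat_lit 608) (nat_lit 10012123266) (nat_lit 232) (nat_lit 5) (nat_lit 239) (nat_lit 5) (nat_lit 240) (nat_lit 5) (nat_lit 481) (nat_lit 457) (nat_lit 262)) (XT.lf (nat_lit 0) (nat_lit 19644847186) (nat_lit 532) (nat_lit 6407698096) (nat_lit 608) (nat_lit 6482722281) (nat_lit 232) (nat_lit 5) (nat_lit 239) (nat_lit 5) (nat_lit 240) (nat_lit 5) (nat_lit 482) (nat_lit 457) (nat_lit 261))) (XT.nd (nat_lit 78) (nat_lit 76) (nat_lit 0) (XT.lf (nat_lit 0) (nat_lit 4913673245) (nat_lit 532) (nat_lit 25443838950)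 (nat_lit 608) (nat_lit 2725025868) (nat_lit 225) (nat_lit 5) (nat_lit 232) (nat_lit 5) (nat_lit 233) (nat_lit 5) (nat_lit 483) (nat_lit 457) (nat_lit 260)) (XT.lf (nat_lit 0) (nat_lit 1315164214) (nat_lit 608) (nat_lit 10204920656) (nat_lit 76) (nat_lit 22120048639) (nat_lit 224) (nat_lit 5) (nat_lit 232) (nat_lit 5) (nat_lit 225) (nat_lit 5) (nat_lit 484) (nat_lit 457) (nat_lit 259))))))))
noncomputable def xc211 : XT := (XT.nd (nat_lit 2340) (nat_lit 4180) (nat_lit 0) (XT.nd (nat_lit 1170) (nat_lit 2736) (nat_lit 0) (XT.nd (nat_lit 546) (nat_lit 2204) (nat_lit 0) (XT.nd (nat_lit 234) (nat_lit 912) (nat_lit 0) (XT.nd (nat_lit 78) (nat_lit 532) (nat_lit 0) (XT.lf (nat_lit 0) (nat_lit 5528333254) (nat_lit 608) (nat_lit 25806874963) (nat_lit 76) (nat_lit 2875243415) (nat_lit 217) (nat_lit 5) (nat_lit 225) (nat_lit 5) (nat_lit 218) (nat_lit 5) (nat_lit 485) (nat_lit 457) (nat_lit 258)) (XT.nd (nat_lit 78) (nat_lit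 532) (nat_lit 0) (XT.lf (nat_lit 0) (nat_lit 10083372148) (nat_lit 608) (nat_lit 7133299135) (nat_lit 76) (nat_lit 17574744293) (nat_lit 217) (nat_lit 5) (nat_lit 225) (nat_lit 5) (nat_lit 218) (nat_lit 5) (nat_lit 486) (nat_lit 457) (nat_lit 257)) (XT.lf (nat_lit 0) (nat_lit 12338385681) (nat_lit 532) (nat_lit 2552702535) (nat_lit 608) (nat_lit 20495239947) (nat_lit 210) (nat_lit 5) (nat_lit 217) (nat_lit 5) (nat_lit 218) (nat_lit 5) (nat_lit 487) (nat_lit 457) (nat_lit 256)))) (XT.nd (nat_lit 156) (nat_lit 456) (nat_lit 0) (XT.nd (nat_lit 78) (nat_lit 456) (nat_lit 0) (XT.lf (nat_lit 0) (nat_lit 20033897739) (nat_lit 608) (nat_lit 3580753339) (nat_lit 76) (nat_lit 12378711679) (nat_lit 210) (nat_lit 5) (nat_lit 218) (nat_lit 5) (nat_lit 211) (nat_lit 5) (nat_lit 488) (nat_lit 457) (nat_lit 255)) (XT.lf (nat_lit 0) (nat_lit 16769586995) (nat_lit 456) (nat_lit 8745418923) (nat_lit 532) (nat_lit 11098082517) (nat_lit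 204) (nat_lit 5) (nat_lit 210) (nat_lit 5) (nat_lit 211) (nat_lit 5) (nat_lit 489) (nat_lit 457) (nat_lit 254))) (XT.nd (nat_lit 78) (nat_lit 0) (nat_lit 0) (XT.lf (nat_lit 0) (nat_lit 496834806) (nat_lit 456) (nat_lit 30765740436) (nat_lit 532) (nat_lit 5985770266) (nat_lit 198) (nat_lit 5) (nat_lit 204) (nat_lit 5) (nat_lit 205) (nat_lit 5) (nat_lit 490) (nat_lit 457) (nat_lit 253)) (XT.lf (nat_lit 0) (nat_lit 21763003220) (nat_lit 456) (nat_lit 15703313054) (nat_lit 532) (nat_lit 427832127) (nat_lit 198) (nat_lit 5) (nat_lit 204) (nat_lit 5) (nat_lit 205) (nat_lit 5) (nat_lit 491) (nat_lit 457) (nat_lit 252))))) (XT.nd (nat_lit 312) (nat_lit 1216) (nat_lit 0) (XT.nd (nat_lit 156) (nat_lit 456) (nat_lit 0) (XT.nd (nat_lit 78) (nat_lit 0) (nat_lit 0) (XT.lf (nat_lit 0) (nat_lit 5154698773) (nat_lit 456) (nat_lit 86005686) (nat_lit 532) (nat_lit 33315677226) (nat_lit 191) (nat_lit 5) (nat_lit 197) (nat_lit 5) (nat_lit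 198) (nat_lit 5) (nat_lit 492) (nat_lit 457) (nat_lit 251)) (XT.lf (nat_lit 0) (nat_lit 11386711126) (nat_lit 532) (nat_lit 11986292957) (nat_lit 76) (nat_lit 15855870826) (nat_lit 191) (nat_lit 5) (nat_lit 198) (nat_lit 5) (nat_lit 192) (nat_lit 5) (nat_lit 493) (nat_lit 457) (nat_lit 250))) (XT.nd (nat_lit 78) (nat_lit 0) (nat_lit 0) (XT.lf (nat_lit 0) (nat_lit 10268322157) (nat_lit 456) (nat_lit 7546106731) (nat_lit 532) (nat_lit 22104194514) (nat_lit 185) (nat_lit 5) (nat_lit 191) (nat_lit 5) (nat_lit 192) (nat_lit 5) (nat_lit 494) (nat_lit 457) (nat_lit 249)) (XT.lf (nat_lit 0) (nat_lit 24639186135) (nat_lit 532) (nat_lit 7277303500) (nat_lit 76) (nat_lit 8706448863) (nat_lit 185) (nat_lit 5) (nat_lit 192) (nat_lit 5) (nat_lit 186) (nat_lit 5) (nat_lit 495) (nat_lit 457) (nat_lit 248)))) (XT.nd (nat_lit 156) (nat_lit 836) (nat_lit 0) (XT.nd (nat_lit 78) (nat_lit 0) (nat_lit 0) (XT.lf (nat_lit 0) (nat_lit 16001711851)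 (nat_lit 380) (nat_lit 15893377623) (nat_lit 456) (nat_lit 9446501847) (nat_lit 180) (nat_lit 5) (nat_lit 185) (nat_lit 5) (nat_lit 186) (nat_lit 5) (nat_lit 496) (nat_lit 457) (nat_lit 247)) (XT.lf (nat_lit 0) (nat_lit 39446653548) (nat_lit 456) (nat_lit 1960659614) (nat_lit 76) (nat_lit 672151422) (nat_lit 180) (nat_lit 5) (nat_lit 186) (nat_lit 5) (nat_lit 181) (nat_lit 5) (nat_lit 497) (nat_lit 457) (nat_lit 246))) (XT.nd (nat_lit 78) (nat_lit 380) (nat_lit 0) (XT.lf (nat_lit 0) (nat_lit 4674003134) (nat_lit 456) (nat_lit 20477217937) (nat_lit 76) (nat_lit 17675760130) (nat_lit 174) (nat_lit 5) (nat_lit 180) (nat_lit 5) (nat_lit 175) (nat_lit 5) (nat_lit 498) (nat_lit 457) (nat_lit 245)) (XT.lf (nat_lit 0) (nat_lit 3880138042) (nat_lit 380) (nat_lit 8322236598) (nat_lit 456) (nat_lit 31392108895) (nat_lit 169) (nat_lit 5) (nat_lit 174) (nat_lit 5) (nat_lit 175) (nat_lit 5) (nat_lit 499) (nat_lit 457) (nat_lit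 244)))))) (XT.nd (nat_lit 546) (nat_lit 1292) (nat_lit 0) (XT.nd (nat_lit 234) (nat_lit 1064) (nat_lit 0) (XT.nd (nat_lit 78) (nat_lit 380) (nat_lit 0) (XT.lf (nat_lit 0) (nat_lit 20250053378) (nat_lit 456) (nat_lit 15082204953) (nat_lit 76) (nat_lit 9043949248) (nat_lit 169) (nat_lit 5) (nat_lit 175) (nat_lit 5) (nat_lit 170) (nat_lit 5) (nat_lit 500) (nat_lit 457) (nat_lit 243)) (XT.nd (nat_lit 78) (nat_lit 0) (nat_lit 0) (XT.lf (nat_lit 0) (nat_lit 10406954809) (nat_lit 380) (nat_lit 18312706041) (nat_lit 456) (nat_lit 16456307859) (nat_lit 164) (nat_lit 5) (nat_lit 169) (nat_lit 5) (nat_lit 170) (nat_lit 5) (nat_lit 501) (nat_lit 457) (nat_lit 242)) (XT.lf (nat_lit 0) (nat_lit 36967361719) (nat_lit 380) (nat_lit 626388970) (nat_lit 456) (nat_lit 8401460462) (nat_lit 164) (nat_lit 5) (nat_lit 169) (nat_lit 5) (nat_lit 170) (nat_lit 5) (nat_lit 502) (nat_lit 457) (nat_lit 241)))) (XT.nd (nat_lit 156) (nat_lit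 684) (nat_lit 0) (XT.nd (nat_lit 78) (nat_lit 0) (nat_lit 0) (XT.lf (nat_lit 0) (nat_lit 237394105) (nat_lit 380) (nat_lit 29172781543) (nat_lit 76) (nat_lit 17418676376) (nat_lit 159) (nat_lit 5) (nat_lit 164) (nat_lit 5) (nat_lit 160) (nat_lit 5) (nat_lit 503) (nat_lit 457) (nat_lit 240)) (XT.lf (nat_lit 0) (nat_lit 9062975098) (nat_lit 380) (nat_lit 2452067988) (nat_lit 76) (nat_lit 36167071177) (nat_lit 159) (nat_lit 5) (nat_lit 164) (nat_lit 5) (nat_lit 160) (nat_lit 5) (nat_lit 504) (nat_lit 457) (nat_lit 239))) (XT.nd (nat_lit 78) (nat_lit 304) (nat_lit 0) (XT.lf (nat_lit 0) (nat_lit 18466209702) (nat_lit 456) (nat_lit 23055915645) (nat_lit 76) (nat_lit 7029462708) (nat_lit 154) (nat_lit 5) (nat_lit 160) (nat_lit 5) (nat_lit 155) (nat_lit 5) (nat_lit 505) (nat_lit 457) (nat_lit 238)) (XT.lf (nat_lit 0) (nat_lit 4863832178) (nat_lit 304) (nat_lit 23471708817) (nat_lit 380) (nat_lit 21106085339) (nat_lit 150)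 (nat_lit 5) (nat_lit 154) (nat_lit 5) (nat_lit 155) (nat_lit 5) (nat_lit 506) (nat_lit 457) (nat_lit 237))))) (XT.nd (nat_lit 312) (nat_lit 608) (nat_lit 0) (XT.nd (nat_lit 156) (nat_lit 380) (nat_lit 0) (XT.nd (nat_lit 78) (nat_lit 304) (nat_lit 0) (XT.lf (nat_lit 0) (nat_lit 34091290907) (nat_lit 304) (nat_lit 4640737319) (nat_lit 380) (nat_lit 11619405513) (nat_lit 150) (nat_lit 5) (nat_lit 154) (nat_lit 5) (nat_lit 155) (nat_lit 5) (nat_lit 507) (nat_lit 457) (nat_lit 236)) (XT.lf (nat_lit 0) (nat_lit 13016729499) (nat_lit 304) (nat_lit 36688941130) (nat_lit 380) (nat_lit 1574907167) (nat_lit 146) (nat_lit 5) (nat_lit 150) (nat_lit 5) (nat_lit 151) (nat_lit 5) (nat_lit 508) (nat_lit 457) (nat_lit 235))) (XT.nd (nat_lit 78) (nat_lit 304) (nat_lit 0) (XT.lf (nat_lit 0) (nat_lit 8809852185) (nat_lit 380) (nat_lit 8861816181) (nat_lit 76) (nat_lit 34557096346) (nat_lit 145) (nat_lit 5) (nat_lit 150) (nat_lit 5)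 (nat_lit 146) (nat_lit 5) (nat_lit 509) (nat_lit 457) (nat_lit 234)) (XT.lf (nat_lit 0) (nat_lit 19703348133) (nat_lit 380) (nat_lit 31389069781) (nat_lit 76) (nat_lit 2105646317) (nat_lit 141) (nat_lit 5) (nat_lit 146) (nat_lit 5) (nat_lit 142) (nat_lit 5) (nat_lit 510) (nat_lit 457) (nat_lit 233)))) (XT.nd (nat_lit 156) (nat_lit 304) (nat_lit 0) (XT.nd (nat_lit 78) (nat_lit 304) (nat_lit 0) (XT.lf (nat_lit 0) (nat_lit 31187364866) (nat_lit 380) (nat_lit 790454193) (nat_lit 76) (nat_lit 22210712420) (nat_lit 141) (nat_lit 5) (nat_lit 146) (nat_lit 5) (nat_lit 142) (nat_lit 5) (nat_lit 511) (nat_lit 457) (nat_lit 232)) (XT.lf (nat_lit 0) (nat_lit 31335222740) (nat_lit 304) (nat_lit 11980315913) (nat_lit 380) (nat_lit 11884185210) (nat_lit 137) (nat_lit 5) (nat_lit 141) (nat_lit 5) (nat_lit 142) (nat_lit 5) (nat_lit 512) (nat_lit 457) (nat_lit 231))) (XT.nd (nat_lit 78) (nat_lit 76) (nat_lit 0) (XT.lf (nat_lit 0)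 (nat_lit 8276068564) (nat_lit 228) (nat_lit 47700376892) (nat_lit 304) (nat_lit 259740134) (nat_lit 134) (nat_lit 5) (nat_lit 137) (nat_lit 5) (nat_lit 138) (nat_lit 5) (nat_lit 513) (nat_lit 457) (nat_lit 230)) (XT.lf (nat_lit 0) (nat_lit 11845301131) (nat_lit 304) (nat_lit 15662441255) (nat_lit 76) (nat_lit 29781808054) (nat_lit 133) (nat_lit 5) (nat_lit 137) (nat_lit 5) (nat_lit 134) (nat_lit 5) (nat_lit 514) (nat_lit 457) (nat_lit 229))))))) (XT.nd (nat_lit 1170) (nat_lit 1824) (nat_lit 0) (XT.nd (nat_lit 546) (nat_lit 1216) (nat_lit 0) (XT.nd (nat_lit 234) (nat_lit 608) (nat_lit 0) (XT.nd (nat_lit 78) (nat_lit 228) (nat_lit 0) (XT.lf (nat_lit 0) (nat_lit 17949538564) (nat_lit 304) (nat_lit 6529768307) (nat_lit 380) (nat_lit 33890001389) (nat_lit 129) (nat_lit 5) (nat_lit 133) (nat_lit 5) (nat_lit 134) (nat_lit 5) (nat_lit 515) (nat_lit 457) (nat_lit 228)) (XT.nd (nat_lit 78) (nat_lit 228) (nat_lit 0) (XT.lf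 (nat_lit 0) (nat_lit 37795499217) (nat_lit 380) (nat_lit 6734601103) (nat_lit 76) (nat_lit 14942263687) (nat_lit 129) (nat_lit 5) (nat_lit 134) (nat_lit 5) (nat_lit 130) (nat_lit 5) (nat_lit 516) (nat_lit 457) (nat_lit 227)) (XT.lf (nat_lit 0) (nat_lit 28449359663) (nat_lit 228) (nat_lit 23398490968) (nat_lit 304) (nat_lit 8750560776) (nat_lit 126) (nat_lit 5) (nat_lit 129) (nat_lit 5) (nat_lit 130) (nat_lit 5) (nat_lit 517) (nat_lit 457) (nat_lit 226)))) (XT.nd (nat_lit 156) (nat_lit 228) (nat_lit 0) (XT.nd (nat_lit 78) (nat_lit 0) (nat_lit 0) (XT.lf (nat_lit 0) (nat_lit 3084064409) (nat_lit 304) (nat_lit 1487298379) (nat_lit 380) (nat_lit 57182655143) (nat_lit 121) (nat_lit 5) (nat_lit 125) (nat_lit 5) (nat_lit 126) (nat_lit 5) (nat_lit 518) (nat_lit 457) (nat_lit 225)) (XT.lf (nat_lit 0) (nat_lit 18646137248) (nat_lit 380) (nat_lit 23196135137) (nat_lit 76) (nat_lit 21083549133) (nat_lit 121) (nat_lit 5) (nat_lit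 126) (nat_lit 5) (nat_lit 122) (nat_lit 5) (nat_lit 519) (nat_lit 457) (nat_lit 224))) (XT.nd (nat_lit 78) (nat_lit 0) (nat_lit 0) (XT.lf (nat_lit 0) (nat_lit 13590150620) (nat_lit 228) (nat_lit 19696977032) (nat_lit 304) (nat_lit 30841332536) (nat_lit 118) (nat_lit 5) (nat_lit 121) (nat_lit 5) (nat_lit 122) (nat_lit 5) (nat_lit 520) (nat_lit 457) (nat_lit 223)) (XT.lf (nat_lit 0) (nat_lit 48632445018) (nat_lit 304) (nat_lit 13439093995) (nat_lit 76) (nat_lit 3287686242) (nat_lit 118) (nat_lit 5) (nat_lit 122) (nat_lit 5) (nat_lit 119) (nat_lit 5) (nat_lit 521) (nat_lit 457) (nat_lit 222))))) (XT.nd (nat_lit 312) (nat_lit 456) (nat_lit 0) (XT.nd (nat_lit 156) (nat_lit 456) (nat_lit 0) (XT.nd (nat_lit 78) (nat_lit 76) (nat_lit 0) (XT.lf (nat_lit 0) (nat_lit 25065026346) (nat_lit 228) (nat_lit 39807717292) (nat_lit 304) (nat_lit 1741131135) (nat_lit 115) (nat_lit 5) (nat_lit 118) (nat_lit 5) (nat_lit 119) (nat_lit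 5) (nat_lit 522) (nat_lit 457) (nat_lit 221)) (XT.lf (nat_lit 0) (nat_lit 13562585607) (nat_lit 304) (nat_lit 3037480118) (nat_lit 76) (nat_lit 51298077540) (nat_lit 114) (nat_lit 5) (nat_lit 118) (nat_lit 5) (nat_lit 115) (nat_lit 5) (nat_lit 523) (nat_lit 457) (nat_lit 220))) (XT.nd (nat_lit 78) (nat_lit 228) (nat_lit 0) (XT.lf (nat_lit 0) (nat_lit 29721970428) (nat_lit 304) (nat_lit 31945123907) (nat_lit 76) (nat_lit 7540381900) (nat_lit 111) (nat_lit 5) (nat_lit 115) (nat_lit 5) (nat_lit 112) (nat_lit 5) (nat_lit 524) (nat_lit 457) (nat_lit 219)) (XT.lf (nat_lit 0) (nat_lit 8272936609) (nat_lit 228) (nat_lit 38366773818) (nat_lit 304) (nat_lit 23908171691) (nat_lit 108) (nat_lit 5) (nat_lit 111) (nat_lit 5) (nat_lit 112) (nat_lit 5) (nat_lit 525) (nat_lit 457) (nat_lit 218)))) (XT.nd (nat_lit 156) (nat_lit 228) (nat_lit 0) (XT.nd (nat_lit 78) (nat_lit 228) (nat_lit 0) (XT.lf (nat_lit 0) (nat_lit 50350289878)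 (nat_lit 228) (nat_lit 14036008888) (nat_lit 304) (nat_lit 7532562056) (nat_lit 108) (nat_lit 5) (nat_lit 111) (nat_lit 5) (nat_lit 112) (nat_lit 5) (nat_lit 526) (nat_lit 457) (nat_lit 217)) (XT.lf (nat_lit 0) (nat_lit 9458449344) (nat_lit 228) (nat_lit 52760609087) (nat_lit 76) (nat_lit 11100030377) (nat_lit 105) (nat_lit 5) (nat_lit 108) (nat_lit 5) (nat_lit 106) (nat_lit 5) (nat_lit 527) (nat_lit 457) (nat_lit 216))) (XT.nd (nat_lit 78) (nat_lit 228) (nat_lit 0) (XT.lf (nat_lit 0) (nat_lit 27165487589) (nat_lit 228) (nat_lit 10581085415) (nat_lit 76) (nat_lit 37001782547) (nat_lit 105) (nat_lit 5) (nat_lit 108) (nat_lit 5) (nat_lit 106) (nat_lit 5) (nat_lit 528) (nat_lit 457) (nat_lit 215)) (XT.lf (nat_lit 0) (nat_lit 33515833143) (nat_lit 228) (nat_lit 12208880901) (nat_lit 304) (nat_lit 30486157055) (nat_lit 102) (nat_lit 5) (nat_lit 105) (nat_lit 5) (nat_lit 106) (nat_lit 5) (nat_lit 529) (nat_lit 457) (nat_lit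 214)))))) (XT.nd (nat_lit 624) (nat_lit 760) (nat_lit 0) (XT.nd (nat_lit 312) (nat_lit 608) (nat_lit 0) (XT.nd (nat_lit 156) (nat_lit 228) (nat_lit 0) (XT.nd (nat_lit 78) (nat_lit 76) (nat_lit 0) (XT.lf (nat_lit 0) (nat_lit 1325815162) (nat_lit 152) (nat_lit 63769852437) (nat_lit 228) (nat_lit 12613946117) (nat_lit 100) (nat_lit 5) (nat_lit 102) (nat_lit 5) (nat_lit 103) (nat_lit 5) (nat_lit 530) (nat_lit 457) (nat_lit 213)) (XT.lf (nat_lit 0) (nat_lit 6236459964) (nat_lit 228) (nat_lit 31880750121) (nat_lit 76) (nat_lit 41117784673) (nat_lit 99) (nat_lit 5) (nat_lit 102) (nat_lit 5) (nat_lit 100) (nat_lit 5) (nat_lit 531) (nat_lit 457) (nat_lit 212))) (XT.nd (nat_lit 78) (nat_lit 0) (nat_lit 0) (XT.lf (nat_lit 0) (nat_lit 14105795257) (nat_lit 228) (nat_lit 11427497402) (nat_lit 304) (nat_lit 55265064690) (nat_lit 96) (nat_lit 5) (nat_lit 99) (nat_lit 5) (nat_lit 100) (nat_lit 5) (nat_lit 532) (nat_lit 457) (nat_lit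 211)) (XT.lf (nat_lit 0) (nat_lit 45887413233) (nat_lit 304) (nat_lit 20433061738) (nat_lit 76) (nat_lit 16073794458) (nat_lit 96) (nat_lit 5) (nat_lit 100) (nat_lit 5) (nat_lit 97) (nat_lit 5) (nat_lit 533) (nat_lit 457) (nat_lit 210)))) (XT.nd (nat_lit 156) (nat_lit 380) (nat_lit 0) (XT.nd (nat_lit 78) (nat_lit 76) (nat_lit 0) (XT.lf (nat_lit 0) (nat_lit 27638497906) (nat_lit 152) (nat_lit 39591370421) (nat_lit 228) (nat_lit 16796859314) (nat_lit 94) (nat_lit 5) (nat_lit 96) (nat_lit 5) (nat_lit 97) (nat_lit 5) (nat_lit 534) (nat_lit 457) (nat_lit 209)) (XT.lf (nat_lit 0) (nat_lit 3643322494) (nat_lit 228) (nat_lit 8168549462) (nat_lit 76) (nat_lit 73889059054) (nat_lit 93) (nat_lit 5) (nat_lit 96) (nat_lit 5) (nat_lit 94) (nat_lit 5) (nat_lit 535) (nat_lit 457) (nat_lit 208))) (XT.nd (nat_lit 78) (nat_lit 152) (nat_lit 0) (XT.lf (nat_lit 0) (nat_lit 24930378459) (nat_lit 304) (nat_lit 45423301991) (nat_lit 76)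 (nat_lit 17049552884) (nat_lit 90) (nat_lit 5) (nat_lit 94) (nat_lit 5) (nat_lit 91) (nat_lit 5) (nat_lit 536) (nat_lit 457) (nat_lit 207)) (XT.lf (nat_lit 0) (nat_lit 4616642271) (nat_lit 152) (nat_lit 42482964969) (nat_lit 228) (nat_lit 42049690739) (nat_lit 88) (nat_lit 5) (nat_lit 90) (nat_lit 5) (nat_lit 91) (nat_lit 5) (nat_lit 537) (nat_lit 457) (nat_lit 206))))) (XT.nd (nat_lit 312) (nat_lit 380) (nat_lit 0) (XT.nd (nat_lit 156) (nat_lit 152) (nat_lit 0) (XT.nd (nat_lit 78) (nat_lit 228) (nat_lit 0) (XT.lf (nat_lit 0) (nat_lit 57087073468) (nat_lit 152) (nat_lit 13304470001) (nat_lit 228) (nat_lit 20542472261) (nat_lit 88) (nat_lit 5) (nat_lit 90) (nat_lit 5) (nat_lit 91) (nat_lit 5) (nat_lit 538) (nat_lit 457) (nat_lit 205)) (XT.lf (nat_lit 0) (nat_lit 1920266974) (nat_lit 228) (nat_lit 74222280639) (nat_lit 76) (nat_lit 16619011588) (nat_lit 85) (nat_lit 5) (nat_lit 88) (nat_lit 5) (nat_lit 86) (nat_lit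 5) (nat_lit 539) (nat_lit 457) (nat_lit 204))) (XT.nd (nat_lit 78) (nat_lit 152) (nat_lit 0) (XT.lf (nat_lit 0) (nat_lit 25119874558) (nat_lit 228) (nat_lit 21783079553) (nat_lit 76) (nat_lit 47720597131) (nat_lit 85) (nat_lit 5) (nat_lit 88) (nat_lit 5) (nat_lit 86) (nat_lit 5) (nat_lit 540) (nat_lit 457) (nat_lit 203)) (XT.lf (nat_lit 0) (nat_lit 32868924519) (nat_lit 152) (nat_lit 16461502365) (nat_lit 228) (nat_lit 47201527540) (nat_lit 83) (nat_lit 5) (nat_lit 85) (nat_lit 5) (nat_lit 86) (nat_lit 5) (nat_lit 541) (nat_lit 457) (nat_lit 202)))) (XT.nd (nat_lit 156) (nat_lit 152) (nat_lit 0) (XT.nd (nat_lit 78) (nat_lit 228) (nat_lit 0) (XT.lf (nat_lit 0) (nat_lit 74631607865) (nat_lit 228) (nat_lit 9031099836) (nat_lit 76) (nat_lit 14823972709) (nat_lit 83) (nat_lit 5) (nat_lit 86) (nat_lit 5) (nat_lit 84) (nat_lit 5) (nat_lit 542) (nat_lit 457) (nat_lit 201)) (XT.lf (nat_lit 0) (nat_lit 817747366) (nat_lit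 228) (nat_lit 52477387432) (nat_lit 76) (nat_lit 47185966735) (nat_lit 80) (nat_lit 5) (nat_lit 83) (nat_lit 5) (nat_lit 81) (nat_lit 5) (nat_lit 543) (nat_lit 457) (nat_lit 200))) (XT.nd (nat_lit 55770) (nat_lit 0) (nat_lit 14896) (XT.lf (nat_lit 0) (nat_lit 4246127095) (nat_lit 152) (nat_lit 21637113711) (nat_lit 228) (nat_lit 76641070316) (nat_lit 78) (nat_lit 5) (nat_lit 80) (nat_lit 5) (nat_lit 81) (nat_lit 5) (nat_lit 544) (nat_lit 457) (nat_lit 199)) (XT.lf (nat_lit 0) (nat_lit 3156517082) (nat_lit 1292) (nat_lit 4086912134) (nat_lit 1292) (nat_lit 4086912134) (nat_lit 274) (nat_lit 3) (nat_lit 291) (nat_lit 3) (nat_lit 291) (nat_lit 5) (nat_lit 458) (nat_lit 458) (nat_lit 284))))))))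
noncomputable def xc212 : XT := (XT.nd (nat_lit 2340) (nat_lit 6384) (nat_lit 0) (XT.nd (nat_lit 1170) (nat_lit 4864) (nat_lit 0) (XT.nd (nat_lit 546) (nat_lit 0) (nat_lit 304) (XT.nd (nat_lit 234) (nat_lit 0) (nat_lit 152) (XT.nd (nat_lit 78) (nat_lit 0) (nat_lit 76) (XT.lf (nat_lit 76) (nat_lit 2987886649) (nat_lit 0) (nat_lit 3575720206) (nat_lit 1292) (nat_lit 16432280186) (nat_lit 275) (nat_lit 5) (nat_lit 274) (nat_lit 3) (nat_lit 291) (nat_lit 5) (nat_lit 459) (nat_lit 458) (nat_lit 283)) (XT.nd (nat_lit 78) (nat_lit 0) (nat_lit 0) (XT.lf (nat_lit 0) (nat_lit 6973747898) (nat_lit 1216) (nat_lit 8763924155) (nat_lit 1292) (nat_lit 7598915080) (nat_lit 275) (nat_lit 5) (nat_lit 291) (nat_lit 5) (nat_lit 292) (nat_lit 5) (nat_lit 460) (nat_lit 458) (nat_lit 282)) (XT.lf (nat_lit 76) (nat_lit 2834686310) (nat_lit 0) (nat_lit 4619338659) (nat_lit 1292) (nat_lit 16231749426) (nat_lit 276) (nat_lit 5) (nat_lit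 275) (nat_lit 5) (nat_lit 292) (nat_lit 5) (nat_lit 461) (nat_lit 458) (nat_lit 281)))) (XT.nd (nat_lit 156) (nat_lit 0) (nat_lit 76) (XT.nd (nat_lit 78) (nat_lit 0) (nat_lit 0) (XT.lf (nat_lit 0) (nat_lit 8099077742) (nat_lit 1216) (nat_lit 9151265342) (nat_lit 1292) (nat_lit 6790584257) (nat_lit 276) (nat_lit 5) (nat_lit 292) (nat_lit 5) (nat_lit 293) (nat_lit 5) (nat_lit 462) (nat_lit 458) (nat_lit 280)) (XT.lf (nat_lit 76) (nat_lit 2907805244) (nat_lit 0) (nat_lit 5924815081) (nat_lit 1292) (nat_lit 15572041461) (nat_lit 277) (nat_lit 5) (nat_lit 276) (nat_lit 5) (nat_lit 293) (nat_lit 5) (nat_lit 463) (nat_lit 458) (nat_lit 279))) (XT.nd (nat_lit 78) (nat_lit 0) (nat_lit 0) (XT.lf (nat_lit 0) (nat_lit 9732248379) (nat_lit 1216) (nat_lit 9319268403) (nat_lit 1292) (nat_lit 5723470131) (nat_lit 277) (nat_lit 5) (nat_lit 293) (nat_lit 5) (nat_lit 294) (nat_lit 5) (nat_lit 464) (nat_lit 458) (nat_lit 278)) (XT.lf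 (nat_lit 76) (nat_lit 3225127059) (nat_lit 0) (nat_lit 7519103989) (nat_lit 1292) (nat_lit 14409630769) (nat_lit 278) (nat_lit 5) (nat_lit 277) (nat_lit 5) (nat_lit 294) (nat_lit 5) (nat_lit 465) (nat_lit 458) (nat_lit 277))))) (XT.nd (nat_lit 312) (nat_lit 0) (nat_lit 152) (XT.nd (nat_lit 156) (nat_lit 0) (nat_lit 76) (XT.nd (nat_lit 78) (nat_lit 0) (nat_lit 0) (XT.lf (nat_lit 0) (nat_lit 11919330081) (nat_lit 1216) (nat_lit 9250131322) (nat_lit 1292) (nat_lit 4370659826) (nat_lit 278) (nat_lit 5) (nat_lit 294) (nat_lit 5) (nat_lit 295) (nat_lit 5) (nat_lit 466) (nat_lit 458) (nat_lit 276)) (XT.lf (nat_lit 76) (nat_lit 3805827718) (nat_lit 0) (nat_lit 9430821506) (nat_lit 1292) (nat_lit 12698111124) (nat_lit 279) (nat_lit 5) (nat_lit 278) (nat_lit 5) (nat_lit 295) (nat_lit 5) (nat_lit 467) (nat_lit 458) (nat_lit 275))) (XT.nd (nat_lit 78) (nat_lit 0) (nat_lit 0) (XT.lf (nat_lit 0) (nat_lit 14709429739) (nat_lit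 1216) (nat_lit 8924771473) (nat_lit 1292) (nat_lit 2703560085) (nat_lit 279) (nat_lit 5) (nat_lit 295) (nat_lit 5) (nat_lit 296) (nat_lit 5) (nat_lit 468) (nat_lit 458) (nat_lit 274)) (XT.lf (nat_lit 76) (nat_lit 4670437231) (nat_lit 0) (nat_lit 11690380809) (nat_lit 1292) (nat_lit 10388002389) (nat_lit 280) (nat_lit 5) (nat_lit 279) (nat_lit 5) (nat_lit 296) (nat_lit 5) (nat_lit 469) (nat_lit 458) (nat_lit 273)))) (XT.nd (nat_lit 156) (nat_lit 0) (nat_lit 0) (XT.nd (nat_lit 78) (nat_lit 0) (nat_lit 0) (XT.lf (nat_lit 0) (nat_lit 18154892422) (nat_lit 1216) (nat_lit 8322764060) (nat_lit 1292) (nat_lit 691761379) (nat_lit 280) (nat_lit 5) (nat_lit 296) (nat_lit 5) (nat_lit 297) (nat_lit 5) (nat_lit 470) (nat_lit 458) (nat_lit 272)) (XT.lf (nat_lit 76) (nat_lit 5840905074) (nat_lit 0) (nat_lit 14330134793) (nat_lit 1292) (nat_lit 7426546657) (nat_lit 281) (nat_lit 5) (nat_lit 280) (nat_lit 5) (nat_lit 297) (nat_lit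 5) (nat_lit 471) (nat_lit 458) (nat_lit 271))) (XT.nd (nat_lit 78) (nat_lit 0) (nat_lit 76) (XT.lf (nat_lit 76) (nat_lit 20597271393) (nat_lit 0) (nat_lit 1730881030) (nat_lit 1292) (nat_lit 5708034215) (nat_lit 281) (nat_lit 5) (nat_lit 280) (nat_lit 5) (nat_lit 297) (nat_lit 5) (nat_lit 472) (nat_lit 458) (nat_lit 270)) (XT.lf (nat_lit 76) (nat_lit 7340669347) (nat_lit 0) (nat_lit 17384526595) (nat_lit 1292) (nat_lit 3757493070) (nat_lit 282) (nat_lit 5) (nat_lit 281) (nat_lit 5) (nat_lit 298) (nat_lit 5) (nat_lit 473) (nat_lit 458) (nat_lit 269)))))) (XT.nd (nat_lit 546) (nat_lit 2812) (nat_lit 0) (XT.nd (nat_lit 234) (nat_lit 1368) (nat_lit 0) (XT.nd (nat_lit 78) (nat_lit 1216) (nat_lit 0) (XT.lf (nat_lit 76) (nat_lit 22695830693) (nat_lit 0) (nat_lit 4587029152) (nat_lit 1292) (nat_lit 1657066104) (nat_lit 282) (nat_lit 5) (nat_lit 281) (nat_lit 5) (nat_lit 298) (nat_lit 5) (nat_lit 474) (nat_lit 458) (nat_lit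 268)) (XT.nd (nat_lit 78) (nat_lit 0) (nat_lit 0) (XT.lf (nat_lit 0) (nat_lit 665877142) (nat_lit 1292) (nat_lit 20217647465) (nat_lit 76) (nat_lit 8522128541) (nat_lit 265) (nat_lit 5) (nat_lit 282) (nat_lit 5) (nat_lit 266) (nat_lit 5) (nat_lit 475) (nat_lit 458) (nat_lit 267)) (XT.lf (nat_lit 0) (nat_lit 3131057495) (nat_lit 1292) (nat_lit 4737722252) (nat_lit 76) (nat_lit 22012905290) (nat_lit 265) (nat_lit 5) (nat_lit 282) (nat_lit 5) (nat_lit 266) (nat_lit 5) (nat_lit 476) (nat_lit 458) (nat_lit 266)))) (XT.nd (nat_lit 156) (nat_lit 608) (nat_lit 0) (XT.nd (nat_lit 78) (nat_lit 0) (nat_lit 0) (XT.lf (nat_lit 0) (nat_lit 5831199674) (nat_lit 836) (nat_lit 18996327732) (nat_lit 76) (nat_lit 5539640962) (nat_lit 255) (nat_lit 5) (nat_lit 266) (nat_lit 5) (nat_lit 256) (nat_lit 5) (nat_lit 477) (nat_lit 458) (nat_lit 265)) (XT.lf (nat_lit 0) (nat_lit 8735493162) (nat_lit 836) (nat_lit 2887251070) (nat_lit 76)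 (nat_lit 19240778213) (nat_lit 255) (nat_lit 5) (nat_lit 266) (nat_lit 5) (nat_lit 256) (nat_lit 5) (nat_lit 478) (nat_lit 458) (nat_lit 264))) (XT.nd (nat_lit 78) (nat_lit 0) (nat_lit 0) (XT.lf (nat_lit 0) (nat_lit 11878611970) (nat_lit 684) (nat_lit 17416157331) (nat_lit 76) (nat_lit 2075447590) (nat_lit 247) (nat_lit 5) (nat_lit 256) (nat_lit 5) (nat_lit 248) (nat_lit 5) (nat_lit 479) (nat_lit 458) (nat_lit 263)) (XT.lf (nat_lit 0) (nat_lit 15257619995) (nat_lit 684) (nat_lit 649653609) (nat_lit 76) (nat_lit 15980591316) (nat_lit 247) (nat_lit 5) (nat_lit 256) (nat_lit 5) (nat_lit 248) (nat_lit 5) (nat_lit 480) (nat_lit 458) (nat_lit 262))))) (XT.nd (nat_lit 312) (nat_lit 1140) (nat_lit 0) (XT.nd (nat_lit 156) (nat_lit 532) (nat_lit 0) (XT.nd (nat_lit 78) (nat_lit 532) (nat_lit 0) (XT.lf (nat_lit 0) (nat_lit 16947794545) (nat_lit 608) (nat_lit 1950276220) (nat_lit 684) (nat_lit 13518170051) (nat_lit 239) (nat_lit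 5) (nat_lit 247) (nat_lit 5) (nat_lit 248) (nat_lit 5) (nat_lit 481) (nat_lit 458) (nat_lit 261)) (XT.lf (nat_lit 0) (nat_lit 2043767026) (nat_lit 532) (nat_lit 20746896809) (nat_lit 608) (nat_lit 10165516877) (nat_lit 232) (nat_lit 5) (nat_lit 239) (nat_lit 5) (nat_lit 240) (nat_lit 5) (nat_lit 482) (nat_lit 458) (nat_lit 260))) (XT.nd (nat_lit 78) (nat_lit 532) (nat_lit 0) (XT.lf (nat_lit 0) (nat_lit 20375947739) (nat_lit 532) (nat_lit 6596679318) (nat_lit 608) (nat_lit 6534514544) (nat_lit 232) (nat_lit 5) (nat_lit 239) (nat_lit 5) (nat_lit 240) (nat_lit 5) (nat_lit 483) (nat_lit 458) (nat_lit 259)) (XT.lf (nat_lit 0) (nat_lit 5205560860) (nat_lit 532) (nat_lit 26198567112) (nat_lit 608) (nat_lit 2666781533) (nat_lit 225) (nat_lit 5) (nat_lit 232) (nat_lit 5) (nat_lit 233) (nat_lit 5) (nat_lit 484) (nat_lit 458) (nat_lit 258)))) (XT.nd (nat_lit 156) (nat_lit 532) (nat_lit 0) (XT.nd (nat_lit 78) (nat_lit 532)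 (nat_lit 0) (XT.lf (nat_lit 0) (nat_lit 1487884482) (nat_lit 608) (nat_lit 10368120316) (nat_lit 76) (nat_lit 22789308375) (nat_lit 224) (nat_lit 5) (nat_lit 232) (nat_lit 5) (nat_lit 225) (nat_lit 5) (nat_lit 485) (nat_lit 458) (nat_lit 257)) (XT.lf (nat_lit 0) (nat_lit 5825031546) (nat_lit 608) (nat_lit 26435690594) (nat_lit 76) (nat_lit 2972091981) (nat_lit 217) (nat_lit 5) (nat_lit 225) (nat_lit 5) (nat_lit 218) (nat_lit 5) (nat_lit 486) (nat_lit 458) (nat_lit 256))) (XT.nd (nat_lit 78) (nat_lit 532) (nat_lit 0) (XT.lf (nat_lit 0) (nat_lit 10512910492) (nat_lit 608) (nat_lit 7206142169) (nat_lit 76) (nat_lit 18112269401) (nat_lit 217) (nat_lit 5) (nat_lit 225) (nat_lit 5) (nat_lit 218) (nat_lit 5) (nat_lit 487) (nat_lit 458) (nat_lit 255)) (XT.lf (nat_lit 0) (nat_lit 12848309309) (nat_lit 532) (nat_lit 2614192194) (nat_lit 608) (nat_lit 20981651943) (nat_lit 210) (nat_lit 5) (nat_lit 217) (nat_lit 5) (nat_lit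 218) (nat_lit 5) (nat_lit 488) (nat_lit 458) (nat_lit 254))))))) (XT.nd (nat_lit 1170) (nat_lit 2888) (nat_lit 0) (XT.nd (nat_lit 546) (nat_lit 1596) (nat_lit 0) (XT.nd (nat_lit 234) (nat_lit 988) (nat_lit 0) (XT.nd (nat_lit 78) (nat_lit 912) (nat_lit 0) (XT.lf (nat_lit 0) (nat_lit 20756104681) (nat_lit 608) (nat_lit 3548960842) (nat_lit 76) (nat_lit 12764438979) (nat_lit 210) (nat_lit 5) (nat_lit 218) (nat_lit 5) (nat_lit 211) (nat_lit 5) (nat_lit 489) (nat_lit 458) (nat_lit 253)) (XT.nd (nat_lit 78) (nat_lit 456) (nat_lit 0) (XT.lf (nat_lit 0) (nat_lit 17410524848) (nat_lit 456) (nat_lit 8988916551) (nat_lit 532) (nat_lit 11308447374) (nat_lit 204) (nat_lit 5) (nat_lit 210) (nat_lit 5) (nat_lit 211) (nat_lit 5) (nat_lit 490) (nat_lit 458) (nat_lit 252)) (XT.lf (nat_lit 0) (nat_lit 651616153) (nat_lit 456) (nat_lit 31665876694) (nat_lit 532) (nat_lit 6044769722) (nat_lit 198) (nat_lit 5) (nat_lit 204) (nat_lit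 5) (nat_lit 205) (nat_lit 5) (nat_lit 491) (nat_lit 458) (nat_lit 251)))) (XT.nd (nat_lit 156) (nat_lit 456) (nat_lit 0) (XT.nd (nat_lit 78) (nat_lit 532) (nat_lit 0) (XT.lf (nat_lit 0) (nat_lit 22551695553) (nat_lit 456) (nat_lit 16152241616) (nat_lit 532) (nat_lit 323605293) (nat_lit 198) (nat_lit 5) (nat_lit 204) (nat_lit 5) (nat_lit 205) (nat_lit 5) (nat_lit 492) (nat_lit 458) (nat_lit 250)) (XT.lf (nat_lit 0) (nat_lit 5446093101) (nat_lit 456) (nat_lit 64581516) (nat_lit 532) (nat_lit 34198995830) (nat_lit 191) (nat_lit 5) (nat_lit 197) (nat_lit 5) (nat_lit 198) (nat_lit 5) (nat_lit 493) (nat_lit 458) (nat_lit 249))) (XT.nd (nat_lit 78) (nat_lit 456) (nat_lit 0) (XT.lf (nat_lit 0) (nat_lit 11838001555) (nat_lit 532) (nat_lit 12210031932) (nat_lit 76) (nat_lit 16354397368) (nat_lit 191) (nat_lit 5) (nat_lit 198) (nat_lit 5) (nat_lit 192) (nat_lit 5) (nat_lit 494) (nat_lit 458) (nat_lit 248)) (XT.lf (nat_lit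 0) (nat_lit 10710889775) (nat_lit 456) (nat_lit 7745759316) (nat_lit 532) (nat_lit 22656280337) (nat_lit 185) (nat_lit 5) (nat_lit 191) (nat_lit 5) (nat_lit 192) (nat_lit 5) (nat_lit 495) (nat_lit 458) (nat_lit 247))))) (XT.nd (nat_lit 312) (nat_lit 760) (nat_lit 0) (XT.nd (nat_lit 156) (nat_lit 456) (nat_lit 0) (XT.nd (nat_lit 78) (nat_lit 380) (nat_lit 0) (XT.lf (nat_lit 0) (nat_lit 25483259085) (nat_lit 532) (nat_lit 7362114178) (nat_lit 76) (nat_lit 8993087966) (nat_lit 185) (nat_lit 5) (nat_lit 192) (nat_lit 5) (nat_lit 186) (nat_lit 5) (nat_lit 496) (nat_lit 458) (nat_lit 246)) (XT.lf (nat_lit 0) (nat_lit 16613962727) (nat_lit 380) (nat_lit 16341092317) (nat_lit 456) (nat_lit 9623672666) (nat_lit 180) (nat_lit 5) (nat_lit 185) (nat_lit 5) (nat_lit 186) (nat_lit 5) (nat_lit 497) (nat_lit 458) (nat_lit 245))) (XT.nd (nat_lit 78) (nat_lit 456) (nat_lit 0) (XT.lf (nat_lit 0) (nat_lit 40730434207) (nat_lit 456)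 (nat_lit 1888381080) (nat_lit 76) (nat_lit 720004363) (nat_lit 180) (nat_lit 5) (nat_lit 186) (nat_lit 5) (nat_lit 181) (nat_lit 5) (nat_lit 498) (nat_lit 458) (nat_lit 244)) (XT.lf (nat_lit 0) (nat_lit 4913922284) (nat_lit 456) (nat_lit 20959720785) (nat_lit 76) (nat_lit 18235140158) (nat_lit 174) (nat_lit 5) (nat_lit 180) (nat_lit 5) (nat_lit 175) (nat_lit 5) (nat_lit 499) (nat_lit 458) (nat_lit 243)))) (XT.nd (nat_lit 156) (nat_lit 380) (nat_lit 0) (XT.nd (nat_lit 78) (nat_lit 0) (nat_lit 0) (XT.lf (nat_lit 0) (nat_lit 4127063582) (nat_lit 380) (nat_lit 8539432148) (nat_lit 456) (nat_lit 32232864855) (nat_lit 169) (nat_lit 5) (nat_lit 174) (nat_lit 5) (nat_lit 175) (nat_lit 5) (nat_lit 500) (nat_lit 458) (nat_lit 242)) (XT.lf (nat_lit 0) (nat_lit 20953052055) (nat_lit 456) (nat_lit 15405383025) (nat_lit 76) (nat_lit 9346178318) (nat_lit 169) (nat_lit 5) (nat_lit 175) (nat_lit 5) (nat_lit 170) (nat_lit 5) (nat_lit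 501) (nat_lit 458) (nat_lit 241))) (XT.nd (nat_lit 78) (nat_lit 0) (nat_lit 0) (XT.lf (nat_lit 0) (nat_lit 10847183999) (nat_lit 380) (nat_lit 18828012895) (nat_lit 456) (nat_lit 16853217445) (nat_lit 164) (nat_lit 5) (nat_lit 169) (nat_lit 5) (nat_lit 170) (nat_lit 5) (nat_lit 502) (nat_lit 458) (nat_lit 240)) (XT.lf (nat_lit 0) (nat_lit 38200674363) (nat_lit 380) (nat_lit 612098769) (nat_lit 456) (nat_lit 8559543451) (nat_lit 164) (nat_lit 5) (nat_lit 169) (nat_lit 5) (nat_lit 170) (nat_lit 5) (nat_lit 503) (nat_lit 458) (nat_lit 239)))))) (XT.nd (nat_lit 546) (nat_lit 1444) (nat_lit 0) (XT.nd (nat_lit 234) (nat_lit 684) (nat_lit 0) (XT.nd (nat_lit 78) (nat_lit 380) (nat_lit 0) (XT.lf (nat_lit 0) (nat_lit 335489872) (nat_lit 380) (nat_lit 29920658368) (nat_lit 76) (nat_lit 17974826358) (nat_lit 159) (nat_lit 5) (nat_lit 164) (nat_lit 5) (nat_lit 160) (nat_lit 5) (nat_lit 504) (nat_lit 458) (nat_lit 238)) (XT.nd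 (nat_lit 78) (nat_lit 380) (nat_lit 0) (XT.lf (nat_lit 0) (nat_lit 9423188568) (nat_lit 380) (nat_lit 2402031367) (nat_lit 76) (nat_lit 37284694663) (nat_lit 159) (nat_lit 5) (nat_lit 164) (nat_lit 5) (nat_lit 160) (nat_lit 5) (nat_lit 505) (nat_lit 458) (nat_lit 237)) (XT.lf (nat_lit 0) (nat_lit 19107464970) (nat_lit 456) (nat_lit 23622926236) (nat_lit 76) (nat_lit 7275113444) (nat_lit 154) (nat_lit 5) (nat_lit 160) (nat_lit 5) (nat_lit 155) (nat_lit 5) (nat_lit 506) (nat_lit 458) (nat_lit 236)))) (XT.nd (nat_lit 156) (nat_lit 380) (nat_lit 0) (XT.nd (nat_lit 78) (nat_lit 0) (nat_lit 0) (XT.lf (nat_lit 0) (nat_lit 5133191798) (nat_lit 304) (nat_lit 24138329215) (nat_lit 380) (nat_lit 21650764099) (nat_lit 150) (nat_lit 5) (nat_lit 154) (nat_lit 5) (nat_lit 155) (nat_lit 5) (nat_lit 507) (nat_lit 458) (nat_lit 235)) (XT.lf (nat_lit 0) (nat_lit 35233878813) (nat_lit 304) (nat_lit 4743521704) (nat_lit 380) (nat_lit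 11882061658) (nat_lit 150) (nat_lit 5) (nat_lit 154) (nat_lit 5) (nat_lit 155) (nat_lit 5) (nat_lit 508) (nat_lit 458) (nat_lit 234))) (XT.nd (nat_lit 78) (nat_lit 76) (nat_lit 0) (XT.lf (nat_lit 0) (nat_lit 13528048666) (nat_lit 304) (nat_lit 37751275496) (nat_lit 380) (nat_lit 1537184589) (nat_lit 146) (nat_lit 5) (nat_lit 150) (nat_lit 5) (nat_lit 151) (nat_lit 5) (nat_lit 509) (nat_lit 458) (nat_lit 233)) (XT.lf (nat_lit 0) (nat_lit 9155032921) (nat_lit 380) (nat_lit 9008751366) (nat_lit 76) (nat_lit 35629405616) (nat_lit 145) (nat_lit 5) (nat_lit 150) (nat_lit 5) (nat_lit 146) (nat_lit 5) (nat_lit 510) (nat_lit 458) (nat_lit 232))))) (XT.nd (nat_lit 312) (nat_lit 608) (nat_lit 0) (XT.nd (nat_lit 156) (nat_lit 532) (nat_lit 0) (XT.nd (nat_lit 78) (nat_lit 0) (nat_lit 0) (XT.lf (nat_lit 0) (nat_lit 20374475952) (nat_lit 380) (nat_lit 32210953912) (nat_lit 76) (nat_lit 2206164605) (nat_lit 141) (nat_lit 5) (nat_lit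 146) (nat_lit 5) (nat_lit 142) (nat_lit 5) (nat_lit 511) (nat_lit 458) (nat_lit 231)) (XT.lf (nat_lit 0) (nat_lit 32200682293) (nat_lit 380) (nat_lit 697868826) (nat_lit 76) (nat_lit 22913294859) (nat_lit 141) (nat_lit 5) (nat_lit 146) (nat_lit 5) (nat_lit 142) (nat_lit 5) (nat_lit 512) (nat_lit 458) (nat_lit 230))) (XT.nd (nat_lit 78) (nat_lit 228) (nat_lit 0) (XT.lf (nat_lit 0) (nat_lit 32390438229) (nat_lit 304) (nat_lit 12301107037) (nat_lit 380) (nat_lit 12161863855) (nat_lit 137) (nat_lit 5) (nat_lit 141) (nat_lit 5) (nat_lit 142) (nat_lit 5) (nat_lit 513) (nat_lit 458) (nat_lit 229)) (XT.lf (nat_lit 0) (nat_lit 8640296682) (nat_lit 228) (nat_lit 49091228214) (nat_lit 304) (nat_lit 189462735) (nat_lit 134) (nat_lit 5) (nat_lit 137) (nat_lit 5) (nat_lit 138) (nat_lit 5) (nat_lit 514) (nat_lit 458) (nat_lit 228)))) (XT.nd (nat_lit 156) (nat_lit 228) (nat_lit 0) (XT.nd (nat_lit 78) (nat_lit 304) (nat_lit 0)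 (XT.lf (nat_lit 0) (nat_lit 12274976849) (nat_lit 304) (nat_lit 16018257078) (nat_lit 76) (nat_lit 30712764150) (nat_lit 133) (nat_lit 5) (nat_lit 137) (nat_lit 5) (nat_lit 134) (nat_lit 5) (nat_lit 515) (nat_lit 458) (nat_lit 227)) (XT.lf (nat_lit 0) (nat_lit 18600963924) (nat_lit 304) (nat_lit 6685959913) (nat_lit 380) (nat_lit 34831257435) (nat_lit 129) (nat_lit 5) (nat_lit 133) (nat_lit 5) (nat_lit 134) (nat_lit 5) (nat_lit 516) (nat_lit 458) (nat_lit 226))) (XT.nd (nat_lit 78) (nat_lit 228) (nat_lit 0) (XT.lf (nat_lit 0) (nat_lit 39000839335) (nat_lit 380) (nat_lit 6825217967) (nat_lit 76) (nat_lit 15428324534) (nat_lit 129) (nat_lit 5) (nat_lit 134) (nat_lit 5) (nat_lit 130) (nat_lit 5) (nat_lit 517) (nat_lit 458) (nat_lit 225)) (XT.lf (nat_lit 0) (nat_lit 29413169258) (nat_lit 228) (nat_lit 24060570781) (nat_lit 304) (nat_lit 8940501514) (nat_lit 126) (nat_lit 5) (nat_lit 129) (nat_lit 5) (nat_lit 130) (nat_lit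 5) (nat_lit 518) (nat_lit 458) (nat_lit 224))))))))
noncomputable def xc213 : XT := (XT.nd (nat_lit 58110) (nat_lit 0) (nat_lit 8968) (XT.nd (nat_lit 1170) (nat_lit 1216) (nat_lit 0) (XT.nd (nat_lit 546) (nat_lit 1140) (nat_lit 0) (XT.nd (nat_lit 234) (nat_lit 532) (nat_lit 0) (XT.nd (nat_lit 78) (nat_lit 228) (nat_lit 0) (XT.lf (nat_lit 0) (nat_lit 3287244075) (nat_lit 304) (nat_lit 1491410554) (nat_lit 380) (nat_lit 58825871225) (nat_lit 121) (nat_lit 5) (nat_lit 125) (nat_lit 5) (nat_lit 126) (nat_lit 5) (nat_lit 519) (nat_lit 458) (nat_lit 223)) (XT.nd (nat_lit 78) (nat_lit 228) (nat_lit 0) (XT.lf (nat_lit 0) (nat_lit 19274007125) (nat_lit 380) (nat_lit 23782911450) (nat_lit 76) (nat_lit 21754615164) (nat_lit 121) (nat_lit 5) (nat_lit 126) (nat_lit 5) (nat_lit 122) (nat_lit 5) (nat_lit 520) (nat_lit 458) (nat_lit 222)) (XT.lf (nat_lit 0) (nat_lit 14105893196) (nat_lit 228) (nat_lit 20247377842) (nat_lit 304)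 (nat_lit 31697009446) (nat_lit 118) (nat_lit 5) (nat_lit 121) (nat_lit 5) (nat_lit 122) (nat_lit 5) (nat_lit 521) (nat_lit 458) (nat_lit 221)))) (XT.nd (nat_lit 156) (nat_lit 304) (nat_lit 0) (XT.nd (nat_lit 78) (nat_lit 228) (nat_lit 0) (XT.lf (nat_lit 0) (nat_lit 50157359096) (nat_lit 304) (nat_lit 13735779267) (nat_lit 76) (nat_lit 3424878027) (nat_lit 118) (nat_lit 5) (nat_lit 122) (nat_lit 5) (nat_lit 119) (nat_lit 5) (nat_lit 522) (nat_lit 458) (nat_lit 220)) (XT.lf (nat_lit 0) (nat_lit 25922420689) (nat_lit 228) (nat_lit 40961538970) (nat_lit 304) (nat_lit 1726373160) (nat_lit 115) (nat_lit 5) (nat_lit 118) (nat_lit 5) (nat_lit 119) (nat_lit 5) (nat_lit 523) (nat_lit 458) (nat_lit 219))) (XT.nd (nat_lit 78) (nat_lit 228) (nat_lit 0) (XT.lf (nat_lit 0) (nat_lit 14033234685) (nat_lit 304) (nat_lit 3024956190) (nat_lit 76) (nat_lit 52874976770) (nat_lit 114) (nat_lit 5) (nat_lit 118) (nat_lit 5) (nat_lit 115)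 (nat_lit 5) (nat_lit 524) (nat_lit 458) (nat_lit 218)) (XT.lf (nat_lit 0) (nat_lit 30676912115) (nat_lit 304) (nat_lit 32799333781) (nat_lit 76) (nat_lit 7805549574) (nat_lit 111) (nat_lit 5) (nat_lit 115) (nat_lit 5) (nat_lit 112) (nat_lit 5) (nat_lit 525) (nat_lit 458) (nat_lit 217))))) (XT.nd (nat_lit 312) (nat_lit 684) (nat_lit 0) (XT.nd (nat_lit 156) (nat_lit 228) (nat_lit 0) (XT.nd (nat_lit 78) (nat_lit 0) (nat_lit 0) (XT.lf (nat_lit 0) (nat_lit 8624247532) (nat_lit 228) (nat_lit 39477084880) (nat_lit 304) (nat_lit 24561106866) (nat_lit 108) (nat_lit 5) (nat_lit 111) (nat_lit 5) (nat_lit 112) (nat_lit 5) (nat_lit 526) (nat_lit 458) (nat_lit 216)) (XT.lf (nat_lit 0) (nat_lit 51960917822) (nat_lit 228) (nat_lit 14417582210) (nat_lit 304) (nat_lit 7696102048) (nat_lit 108) (nat_lit 5) (nat_lit 111) (nat_lit 5) (nat_lit 112) (nat_lit 5) (nat_lit 527) (nat_lit 458) (nat_lit 215))) (XT.nd (nat_lit 78) (nat_lit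 0) (nat_lit 0) (XT.lf (nat_lit 0) (nat_lit 9802986913) (nat_lit 228) (nat_lit 54241643472) (nat_lit 76) (nat_lit 11472201723) (nat_lit 105) (nat_lit 5) (nat_lit 108) (nat_lit 5) (nat_lit 106) (nat_lit 5) (nat_lit 528) (nat_lit 458) (nat_lit 214)) (XT.lf (nat_lit 0) (nat_lit 28039465895) (nat_lit 228) (nat_lit 10799698668) (nat_lit 76) (nat_lit 38149865572) (nat_lit 105) (nat_lit 5) (nat_lit 108) (nat_lit 5) (nat_lit 106) (nat_lit 5) (nat_lit 529) (nat_lit 458) (nat_lit 213)))) (XT.nd (nat_lit 156) (nat_lit 304) (nat_lit 0) (XT.nd (nat_lit 78) (nat_lit 152) (nat_lit 0) (XT.lf (nat_lit 0) (nat_lit 34619158629) (nat_lit 228) (nat_lit 12535532268) (nat_lit 304) (nat_lit 31340753765) (nat_lit 102) (nat_lit 5) (nat_lit 105) (nat_lit 5) (nat_lit 106) (nat_lit 5) (nat_lit 530) (nat_lit 458) (nat_lit 212)) (XT.lf (nat_lit 0) (nat_lit 1463839108) (nat_lit 152) (nat_lit 65642551921) (nat_lit 228) (nat_lit 12932770151) (nat_lit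 100) (nat_lit 5) (nat_lit 102) (nat_lit 5) (nat_lit 103) (nat_lit 5) (nat_lit 531) (nat_lit 458) (nat_lit 211))) (XT.nd (nat_lit 78) (nat_lit 228) (nat_lit 0) (XT.lf (nat_lit 0) (nat_lit 6480283325) (nat_lit 228) (nat_lit 32740650701) (nat_lit 76) (nat_lit 42389403648) (nat_lit 99) (nat_lit 5) (nat_lit 102) (nat_lit 5) (nat_lit 100) (nat_lit 5) (nat_lit 532) (nat_lit 458) (nat_lit 210)) (XT.lf (nat_lit 0) (nat_lit 14624544745) (nat_lit 228) (nat_lit 11730742670) (nat_lit 304) (nat_lit 56865335882) (nat_lit 96) (nat_lit 5) (nat_lit 99) (nat_lit 5) (nat_lit 100) (nat_lit 5) (nat_lit 533) (nat_lit 458) (nat_lit 209)))))) (XT.nd (nat_lit 546) (nat_lit 380) (nat_lit 0) (XT.nd (nat_lit 234) (nat_lit 608) (nat_lit 0) (XT.nd (nat_lit 78) (nat_lit 228) (nat_lit 0) (XT.lf (nat_lit 0) (nat_lit 47318770038) (nat_lit 304) (nat_lit 20951995397) (nat_lit 76) (nat_lit 16593685294) (nat_lit 96) (nat_lit 5) (nat_lit 100) (nat_lit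 5) (nat_lit 97) (nat_lit 5) (nat_lit 534) (nat_lit 458) (nat_lit 208)) (XT.nd (nat_lit 78) (nat_lit 76) (nat_lit 0) (XT.lf (nat_lit 0) (nat_lit 28560788897) (nat_lit 152) (nat_lit 40740010963) (nat_lit 228) (nat_lit 17245103935) (nat_lit 94) (nat_lit 5) (nat_lit 96) (nat_lit 5) (nat_lit 97) (nat_lit 5) (nat_lit 535) (nat_lit 458) (nat_lit 207)) (XT.lf (nat_lit 0) (nat_lit 3805607615) (nat_lit 228) (nat_lit 8322123732) (nat_lit 76) (nat_lit 76142633684) (nat_lit 93) (nat_lit 5) (nat_lit 96) (nat_lit 5) (nat_lit 94) (nat_lit 5) (nat_lit 536) (nat_lit 458) (nat_lit 206)))) (XT.nd (nat_lit 156) (nat_lit 228) (nat_lit 0) (XT.nd (nat_lit 78) (nat_lit 152) (nat_lit 0) (XT.lf (nat_lit 0) (nat_lit 25730970653) (nat_lit 304) (nat_lit 46694210010) (nat_lit 76) (nat_lit 17598565026) (nat_lit 90) (nat_lit 5) (nat_lit 94) (nat_lit 5) (nat_lit 91) (nat_lit 5) (nat_lit 537) (nat_lit 458) (nat_lit 205)) (XT.lf (nat_lit 0) (nat_lit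 4846032668) (nat_lit 152) (nat_lit 43718582937) (nat_lit 228) (nat_lit 43257596612) (nat_lit 88) (nat_lit 5) (nat_lit 90) (nat_lit 5) (nat_lit 91) (nat_lit 5) (nat_lit 538) (nat_lit 458) (nat_lit 204))) (XT.nd (nat_lit 78) (nat_lit 228) (nat_lit 0) (XT.lf (nat_lit 0) (nat_lit 58887929486) (nat_lit 152) (nat_lit 13665865284) (nat_lit 228) (nat_lit 21106722303) (nat_lit 88) (nat_lit 5) (nat_lit 90) (nat_lit 5) (nat_lit 91) (nat_lit 5) (nat_lit 539) (nat_lit 458) (nat_lit 203)) (XT.lf (nat_lit 0) (nat_lit 2028613292) (nat_lit 228) (nat_lit 76359411815) (nat_lit 76) (nat_lit 17154854971) (nat_lit 85) (nat_lit 5) (nat_lit 88) (nat_lit 5) (nat_lit 86) (nat_lit 5) (nat_lit 540) (nat_lit 458) (nat_lit 202))))) (XT.nd (nat_lit 56082) (nat_lit 0) (nat_lit 14744) (XT.nd (nat_lit 156) (nat_lit 228) (nat_lit 0) (XT.nd (nat_lit 78) (nat_lit 152) (nat_lit 0) (XT.lf (nat_lit 0) (nat_lit 25922731289) (nat_lit 228) (nat_lit 22349642577)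 (nat_lit 76) (nat_lit 49188402458) (nat_lit 85) (nat_lit 5) (nat_lit 88) (nat_lit 5) (nat_lit 86) (nat_lit 5) (nat_lit 541) (nat_lit 458) (nat_lit 201)) (XT.lf (nat_lit 0) (nat_lit 33941069368) (nat_lit 152) (nat_lit 16917923470) (nat_lit 228) (nat_lit 48567457089) (nat_lit 83) (nat_lit 5) (nat_lit 85) (nat_lit 5) (nat_lit 86) (nat_lit 5) (nat_lit 542) (nat_lit 458) (nat_lit 200))) (XT.nd (nat_lit 78) (nat_lit 228) (nat_lit 0) (XT.lf (nat_lit 0) (nat_lit 76918141431) (nat_lit 228) (nat_lit 9217391568) (nat_lit 76) (nat_lit 15304316831) (nat_lit 83) (nat_lit 5) (nat_lit 86) (nat_lit 5) (nat_lit 84) (nat_lit 5) (nat_lit 543) (nat_lit 458) (nat_lit 199)) (XT.lf (nat_lit 0) (nat_lit 889753446) (nat_lit 228) (nat_lit 53966949555) (nat_lit 76) (nat_lit 48637404133) (nat_lit 80) (nat_lit 5) (nat_lit 83) (nat_lit 5) (nat_lit 81) (nat_lit 5) (nat_lit 544) (nat_lit 458) (nat_lit 198)))) (XT.nd (nat_lit 156) (nat_lit 0) (nat_lit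 76) (XT.nd (nat_lit 78) (nat_lit 0) (nat_lit 0) (XT.lf (nat_lit 0) (nat_lit 3377146080) (nat_lit 1292) (nat_lit 4144649103) (nat_lit 1292) (nat_lit 4144649103) (nat_lit 274) (nat_lit 3) (nat_lit 291) (nat_lit 3) (nat_lit 291) (nat_lit 5) (nat_lit 459) (nat_lit 459) (nat_lit 282)) (XT.lf (nat_lit 76) (nat_lit 3205992070) (nat_lit 0) (nat_lit 3800288954) (nat_lit 1292) (nat_lit 16672052760) (nat_lit 275) (nat_lit 5) (nat_lit 274) (nat_lit 3) (nat_lit 291) (nat_lit 5) (nat_lit 460) (nat_lit 459) (nat_lit 281))) (XT.nd (nat_lit 78) (nat_lit 0) (nat_lit 0) (XT.lf (nat_lit 0) (nat_lit 7420473374) (nat_lit 1216) (nat_lit 8893806713) (nat_lit 1292) (nat_lit 7715224036) (nat_lit 275) (nat_lit 5) (nat_lit 291) (nat_lit 5) (nat_lit 292) (nat_lit 5) (nat_lit 461) (nat_lit 459) (nat_lit 280)) (XT.lf (nat_lit 76) (nat_lit 3051457801) (nat_lit 0) (nat_lit 4858049380) (nat_lit 1292) (nat_lit 16479830978) (nat_lit 276) (nat_lit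 5) (nat_lit 275) (nat_lit 5) (nat_lit 292) (nat_lit 5) (nat_lit 462) (nat_lit 459) (nat_lit 279))))))) (XT.nd (nat_lit 1170) (nat_lit 5092) (nat_lit 0) (XT.nd (nat_lit 546) (nat_lit 836) (nat_lit 0) (XT.nd (nat_lit 234) (nat_lit 0) (nat_lit 76) (XT.nd (nat_lit 78) (nat_lit 0) (nat_lit 0) (XT.lf (nat_lit 0) (nat_lit 8566223808) (nat_lit 1216) (nat_lit 9290169433) (nat_lit 1292) (nat_lit 6898984646) (nat_lit 276) (nat_lit 5) (nat_lit 292) (nat_lit 5) (nat_lit 293) (nat_lit 5) (nat_lit 463) (nat_lit 459) (nat_lit 278)) (XT.nd (nat_lit 78) (nat_lit 0) (nat_lit 76) (XT.lf (nat_lit 76) (nat_lit 3129343527) (nat_lit 0) (nat_lit 6187190822) (nat_lit 1292) (nat_lit 15813648681) (nat_lit 277) (nat_lit 5) (nat_lit 276) (nat_lit 5) (nat_lit 293) (nat_lit 5) (nat_lit 464) (nat_lit 459) (nat_lit 277)) (XT.lf (nat_lit 0) (nat_lit 10235984653) (nat_lit 1216) (nat_lit 9461238434) (nat_lit 1292) (nat_lit 5814611295) (nat_lit 277)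 (nat_lit 5) (nat_lit 293) (nat_lit 5) (nat_lit 294) (nat_lit 5) (nat_lit 465) (nat_lit 459) (nat_lit 276)))) (XT.nd (nat_lit 156) (nat_lit 0) (nat_lit 76) (XT.nd (nat_lit 78) (nat_lit 0) (nat_lit 76) (XT.lf (nat_lit 76) (nat_lit 3458139795) (nat_lit 0) (nat_lit 7815328788) (nat_lit 1292) (nat_lit 14628754126) (nat_lit 278) (nat_lit 5) (nat_lit 277) (nat_lit 5) (nat_lit 294) (nat_lit 5) (nat_lit 466) (nat_lit 459) (nat_lit 275)) (XT.lf (nat_lit 0) (nat_lit 12477134697) (nat_lit 1216) (nat_lit 9388612899) (nat_lit 1292) (nat_lit 4434524271) (nat_lit 278) (nat_lit 5) (nat_lit 294) (nat_lit 5) (nat_lit 295) (nat_lit 5) (nat_lit 467) (nat_lit 459) (nat_lit 274))) (XT.nd (nat_lit 78) (nat_lit 0) (nat_lit 76) (XT.lf (nat_lit 76) (nat_lit 4057661947) (nat_lit 0) (nat_lit 9771802945) (nat_lit 1292) (nat_lit 12877421869) (nat_lit 279) (nat_lit 5) (nat_lit 278) (nat_lit 5) (nat_lit 295) (nat_lit 5) (nat_lit 468) (nat_lit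 459) (nat_lit 273)) (XT.lf (nat_lit 0) (nat_lit 15340186530) (nat_lit 1216) (nat_lit 9052578820) (nat_lit 1292) (nat_lit 2729400968) (nat_lit 279) (nat_lit 5) (nat_lit 295) (nat_lit 5) (nat_lit 296) (nat_lit 5) (nat_lit 469) (nat_lit 459) (nat_lit 272))))) (XT.nd (nat_lit 312) (nat_lit 1064) (nat_lit 0) (XT.nd (nat_lit 156) (nat_lit 0) (nat_lit 76) (XT.nd (nat_lit 78) (nat_lit 0) (nat_lit 76) (XT.lf (nat_lit 76) (nat_lit 4949114226) (nat_lit 0) (nat_lit 12087815557) (nat_lit 1292) (nat_lit 10508754311) (nat_lit 280) (nat_lit 5) (nat_lit 279) (nat_lit 5) (nat_lit 296) (nat_lit 5) (nat_lit 470) (nat_lit 459) (nat_lit 271)) (XT.lf (nat_lit 0) (nat_lit 18878993630) (nat_lit 1216) (nat_lit 8432045080) (nat_lit 1292) (nat_lit 668036955) (nat_lit 280) (nat_lit 5) (nat_lit 296) (nat_lit 5) (nat_lit 297) (nat_lit 5) (nat_lit 471) (nat_lit 459) (nat_lit 270))) (XT.nd (nat_lit 78) (nat_lit 0) (nat_lit 0) (XT.lf (nat_lit 76)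 (nat_lit 6155157639) (nat_lit 0) (nat_lit 14796577429) (nat_lit 1292) (nat_lit 7468472230) (nat_lit 281) (nat_lit 5) (nat_lit 280) (nat_lit 5) (nat_lit 297) (nat_lit 5) (nat_lit 472) (nat_lit 459) (nat_lit 269)) (XT.lf (nat_lit 76) (nat_lit 21350165663) (nat_lit 0) (nat_lit 1818281822) (nat_lit 1292) (nat_lit 5703672497) (nat_lit 281) (nat_lit 5) (nat_lit 280) (nat_lit 5) (nat_lit 297) (nat_lit 5) (nat_lit 473) (nat_lit 459) (nat_lit 268)))) (XT.nd (nat_lit 156) (nat_lit 1216) (nat_lit 0) (XT.nd (nat_lit 78) (nat_lit 0) (nat_lit 0) (XT.lf (nat_lit 76) (nat_lit 7699981661) (nat_lit 0) (nat_lit 17933462042) (nat_lit 1292) (nat_lit 3698693612) (nat_lit 282) (nat_lit 5) (nat_lit 281) (nat_lit 5) (nat_lit 298) (nat_lit 5) (nat_lit 474) (nat_lit 459) (nat_lit 267)) (XT.lf (nat_lit 76) (nat_lit 23511746617) (nat_lit 0) (nat_lit 4751241628) (nat_lit 1292) (nat_lit 1540249689) (nat_lit 282) (nat_lit 5) (nat_lit 281) (nat_lit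 5) (nat_lit 298) (nat_lit 5) (nat_lit 475) (nat_lit 459) (nat_lit 266))) (XT.nd (nat_lit 78) (nat_lit 0) (nat_lit 0) (XT.lf (nat_lit 0) (nat_lit 845473391) (nat_lit 1292) (nat_lit 20682157550) (nat_lit 76) (nat_lit 8755368783) (nat_lit 265) (nat_lit 5) (nat_lit 282) (nat_lit 5) (nat_lit 266) (nat_lit 5) (nat_lit 476) (nat_lit 459) (nat_lit 265)) (XT.lf (nat_lit 0) (nat_lit 3379960031) (nat_lit 1292) (nat_lit 4741971066) (nat_lit 76) (nat_lit 22651521950) (nat_lit 265) (nat_lit 5) (nat_lit 282) (nat_lit 5) (nat_lit 266) (nat_lit 5) (nat_lit 477) (nat_lit 459) (nat_lit 264)))))) (XT.nd (nat_lit 624) (nat_lit 2052) (nat_lit 0) (XT.nd (nat_lit 312) (nat_lit 1672) (nat_lit 0) (XT.nd (nat_lit 156) (nat_lit 608) (nat_lit 0) (XT.nd (nat_lit 78) (nat_lit 0) (nat_lit 0) (XT.lf (nat_lit 0) (nat_lit 6157758700) (nat_lit 836) (nat_lit 19424954492) (nat_lit 76) (nat_lit 5690889091) (nat_lit 255) (nat_lit 5) (nat_lit 266) (nat_lit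 5) (nat_lit 256) (nat_lit 5) (nat_lit 478) (nat_lit 459) (nat_lit 263)) (XT.lf (nat_lit 0) (nat_lit 9144764789) (nat_lit 836) (nat_lit 2836719989) (nat_lit 76) (nat_lit 19803495638) (nat_lit 255) (nat_lit 5) (nat_lit 266) (nat_lit 5) (nat_lit 256) (nat_lit 5) (nat_lit 479) (nat_lit 459) (nat_lit 262))) (XT.nd (nat_lit 78) (nat_lit 0) (nat_lit 0) (XT.lf (nat_lit 0) (nat_lit 12379114069) (nat_lit 684) (nat_lit 17798399765) (nat_lit 76) (nat_lit 2129454669) (nat_lit 247) (nat_lit 5) (nat_lit 256) (nat_lit 5) (nat_lit 248) (nat_lit 5) (nat_lit 480) (nat_lit 459) (nat_lit 261)) (XT.lf (nat_lit 0) (nat_lit 15855293974) (nat_lit 684) (nat_lit 532985658) (nat_lit 76) (nat_lit 16451993183) (nat_lit 247) (nat_lit 5) (nat_lit 256) (nat_lit 5) (nat_lit 248) (nat_lit 5) (nat_lit 481) (nat_lit 459) (nat_lit 260)))) (XT.nd (nat_lit 156) (nat_lit 532) (nat_lit 0) (XT.nd (nat_lit 78) (nat_lit 532) (nat_lit 0) (XT.lf (nat_lit 0)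 (nat_lit 17591051062) (nat_lit 608) (nat_lit 2011127124) (nat_lit 684) (nat_lit 13782406070) (nat_lit 239) (nat_lit 5) (nat_lit 247) (nat_lit 5) (nat_lit 248) (nat_lit 5) (nat_lit 482) (nat_lit 459) (nat_lit 259)) (XT.lf (nat_lit 0) (nat_lit 2242706384) (nat_lit 532) (nat_lit 21366148645) (nat_lit 608) (nat_lit 10331948980) (nat_lit 232) (nat_lit 5) (nat_lit 239) (nat_lit 5) (nat_lit 240) (nat_lit 5) (nat_lit 483) (nat_lit 459) (nat_lit 258))) (XT.nd (nat_lit 78) (nat_lit 532) (nat_lit 0) (XT.lf (nat_lit 0) (nat_lit 21120843984) (nat_lit 532) (nat_lit 6791516524) (nat_lit 608) (nat_lit 6596051531) (nat_lit 232) (nat_lit 5) (nat_lit 239) (nat_lit 5) (nat_lit 240) (nat_lit 5) (nat_lit 484) (nat_lit 459) (nat_lit 257)) (XT.lf (nat_lit 0) (nat_lit 5497911509) (nat_lit 532) (nat_lit 26976430049) (nat_lit 608) (nat_lit 2614826160) (nat_lit 225) (nat_lit 5) (nat_lit 232) (nat_lit 5) (nat_lit 233) (nat_lit 5) (nat_lit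 485) (nat_lit 459) (nat_lit 256))))) (XT.nd (nat_lit 312) (nat_lit 912) (nat_lit 0) (XT.nd (nat_lit 156) (nat_lit 532) (nat_lit 0) (XT.nd (nat_lit 78) (nat_lit 532) (nat_lit 0) (XT.lf (nat_lit 0) (nat_lit 1658136382) (nat_lit 608) (nat_lit 10544421764) (nat_lit 76) (nat_lit 23478321096) (nat_lit 224) (nat_lit 5) (nat_lit 232) (nat_lit 5) (nat_lit 225) (nat_lit 5) (nat_lit 486) (nat_lit 459) (nat_lit 255)) (XT.lf (nat_lit 0) (nat_lit 6123119560) (nat_lit 608) (nat_lit 27091716710) (nat_lit 76) (nat_lit 3071238022) (nat_lit 217) (nat_lit 5) (nat_lit 225) (nat_lit 5) (nat_lit 218) (nat_lit 5) (nat_lit 487) (nat_lit 459) (nat_lit 254))) (XT.nd (nat_lit 78) (nat_lit 532) (nat_lit 0) (XT.lf (nat_lit 0) (nat_lit 10948042532) (nat_lit 608) (nat_lit 7289273423) (nat_lit 76) (nat_lit 18665329990) (nat_lit 217) (nat_lit 5) (nat_lit 225) (nat_lit 5) (nat_lit 218) (nat_lit 5) (nat_lit 488) (nat_lit 459) (nat_lit 253)) (XT.lf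 (nat_lit 0) (nat_lit 13365507159) (nat_lit 532) (nat_lit 2678392853) (nat_lit 608) (nat_lit 21490029579) (nat_lit 210) (nat_lit 5) (nat_lit 217) (nat_lit 5) (nat_lit 218) (nat_lit 5) (nat_lit 489) (nat_lit 459) (nat_lit 252)))) (XT.nd (nat_lit 156) (nat_lit 456) (nat_lit 0) (XT.nd (nat_lit 78) (nat_lit 456) (nat_lit 0) (XT.lf (nat_lit 0) (nat_lit 21493021028) (nat_lit 608) (nat_lit 3524206085) (nat_lit 76) (nat_lit 13160913435) (nat_lit 210) (nat_lit 5) (nat_lit 218) (nat_lit 5) (nat_lit 211) (nat_lit 5) (nat_lit 490) (nat_lit 459) (nat_lit 251)) (XT.lf (nat_lit 0) (nat_lit 18062777670) (nat_lit 456) (nat_lit 9240802033) (nat_lit 532) (nat_lit 11532159633) (nat_lit 204) (nat_lit 5) (nat_lit 210) (nat_lit 5) (nat_lit 211) (nat_lit 5) (nat_lit 491) (nat_lit 459) (nat_lit 250))) (XT.nd (nat_lit 78) (nat_lit 0) (nat_lit 0) (XT.lf (nat_lit 0) (nat_lit 803011469) (nat_lit 456) (nat_lit 32594327918) (nat_lit 532) (nat_lit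 6112460583) (nat_lit 198) (nat_lit 5) (nat_lit 204) (nat_lit 5) (nat_lit 205) (nat_lit 5) (nat_lit 492) (nat_lit 459) (nat_lit 249)) (XT.lf (nat_lit 0) (nat_lit 23356253051) (nat_lit 456) (nat_lit 16615910731) (nat_lit 532) (nat_lit 222971480) (nat_lit 198) (nat_lit 5) (nat_lit 204) (nat_lit 5) (nat_lit 205) (nat_lit 5) (nat_lit 493) (nat_lit 459) (nat_lit 248))))))))
noncomputable def xc214 : XT := (XT.nd (nat_lit 2340) (nat_lit 2660) (nat_lit 0) (XT.nd (nat_lit 1170) (nat_lit 2432) (nat_lit 0) (XT.nd (nat_lit 546) (nat_lit 1824) (nat_lit 0) (XT.nd (nat_lit 234) (nat_lit 836) (nat_lit 0) (XT.nd (nat_lit 78) (nat_lit 456) (nat_lit 0) (XT.lf (nat_lit 0) (nat_lit 5738379055) (nat_lit 456) (nat_lit 43892569) (nat_lit 532) (nat_lit 35115481576) (nat_lit 191) (nat_lit 5) (nat_lit 197) (nat_lit 5) (nat_lit 198) (nat_lit 5) (nat_lit 494) (nat_lit 459) (nat_lit 247)) (XT.nd (nat_lit 78) (nat_lit 456) (nat_lit 0) (XT.lf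 (nat_lit 0) (nat_lit 12296534094) (nat_lit 532) (nat_lit 12448281411) (nat_lit 76) (nat_lit 16866567999) (nat_lit 191) (nat_lit 5) (nat_lit 198) (nat_lit 5) (nat_lit 192) (nat_lit 5) (nat_lit 495) (nat_lit 459) (nat_lit 246)) (XT.lf (nat_lit 0) (nat_lit 11159012540) (nat_lit 456) (nat_lit 7952935925) (nat_lit 532) (nat_lit 23231302884) (nat_lit 185) (nat_lit 5) (nat_lit 191) (nat_lit 5) (nat_lit 192) (nat_lit 5) (nat_lit 496) (nat_lit 459) (nat_lit 245)))) (XT.nd (nat_lit 156) (nat_lit 456) (nat_lit 0) (XT.nd (nat_lit 78) (nat_lit 380) (nat_lit 0) (XT.lf (nat_lit 0) (nat_lit 26346632686) (nat_lit 532) (nat_lit 7457133107) (nat_lit 76) (nat_lit 9286865558) (nat_lit 185) (nat_lit 5) (nat_lit 192) (nat_lit 5) (nat_lit 186) (nat_lit 5) (nat_lit 497) (nat_lit 459) (nat_lit 244)) (XT.lf (nat_lit 0) (nat_lit 17236992336) (nat_lit 380) (nat_lit 16803908143) (nat_lit 456) (nat_lit 9812256317) (nat_lit 180) (nat_lit 5) (nat_lit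 185) (nat_lit 5) (nat_lit 186) (nat_lit 5) (nat_lit 498) (nat_lit 459) (nat_lit 243))) (XT.nd (nat_lit 78) (nat_lit 456) (nat_lit 0) (XT.lf (nat_lit 0) (nat_lit 42046966002) (nat_lit 456) (nat_lit 1821459770) (nat_lit 76) (nat_lit 767703464) (nat_lit 180) (nat_lit 5) (nat_lit 186) (nat_lit 5) (nat_lit 181) (nat_lit 5) (nat_lit 499) (nat_lit 459) (nat_lit 242)) (XT.lf (nat_lit 0) (nat_lit 5155315874) (nat_lit 456) (nat_lit 21464265363) (nat_lit 76) (nat_lit 18809630713) (nat_lit 174) (nat_lit 5) (nat_lit 180) (nat_lit 5) (nat_lit 175) (nat_lit 5) (nat_lit 500) (nat_lit 459) (nat_lit 241))))) (XT.nd (nat_lit 312) (nat_lit 1064) (nat_lit 0) (XT.nd (nat_lit 156) (nat_lit 380) (nat_lit 0) (XT.nd (nat_lit 78) (nat_lit 0) (nat_lit 0) (XT.lf (nat_lit 0) (nat_lit 4373904427) (nat_lit 380) (nat_lit 8765007564) (nat_lit 456) (nat_lit 33104641726) (nat_lit 169) (nat_lit 5) (nat_lit 174) (nat_lit 5) (nat_lit 175) (nat_lit 5)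 (nat_lit 501) (nat_lit 459) (nat_lit 240)) (XT.lf (nat_lit 0) (nat_lit 21671658769) (nat_lit 456) (nat_lit 15745678105) (nat_lit 76) (nat_lit 9655699867) (nat_lit 169) (nat_lit 5) (nat_lit 175) (nat_lit 5) (nat_lit 170) (nat_lit 5) (nat_lit 502) (nat_lit 459) (nat_lit 239))) (XT.nd (nat_lit 78) (nat_lit 0) (nat_lit 0) (XT.lf (nat_lit 0) (nat_lit 11293271162) (nat_lit 380) (nat_lit 19360734960) (nat_lit 456) (nat_lit 17267589866) (nat_lit 164) (nat_lit 5) (nat_lit 169) (nat_lit 5) (nat_lit 170) (nat_lit 5) (nat_lit 503) (nat_lit 459) (nat_lit 238)) (XT.lf (nat_lit 0) (nat_lit 39463851529) (nat_lit 380) (nat_lit 599278895) (nat_lit 456) (nat_lit 8727762666) (nat_lit 164) (nat_lit 5) (nat_lit 169) (nat_lit 5) (nat_lit 170) (nat_lit 5) (nat_lit 504) (nat_lit 459) (nat_lit 237)))) (XT.nd (nat_lit 156) (nat_lit 684) (nat_lit 0) (XT.nd (nat_lit 78) (nat_lit 0) (nat_lit 0) (XT.lf (nat_lit 0) (nat_lit 431306236) (nat_lit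 380) (nat_lit 30698279419) (nat_lit 76) (nat_lit 18545732654) (nat_lit 159) (nat_lit 5) (nat_lit 164) (nat_lit 5) (nat_lit 160) (nat_lit 5) (nat_lit 505) (nat_lit 459) (nat_lit 236)) (XT.lf (nat_lit 0) (nat_lit 9789138272) (nat_lit 380) (nat_lit 2357588715) (nat_lit 76) (nat_lit 38433974828) (nat_lit 159) (nat_lit 5) (nat_lit 164) (nat_lit 5) (nat_lit 160) (nat_lit 5) (nat_lit 506) (nat_lit 459) (nat_lit 235))) (XT.nd (nat_lit 78) (nat_lit 304) (nat_lit 0) (XT.lf (nat_lit 0) (nat_lit 19762948300) (nat_lit 456) (nat_lit 24214103533) (nat_lit 76) (nat_lit 7526137944) (nat_lit 154) (nat_lit 5) (nat_lit 160) (nat_lit 5) (nat_lit 155) (nat_lit 5) (nat_lit 507) (nat_lit 459) (nat_lit 234)) (XT.lf (nat_lit 0) (nat_lit 5403545978) (nat_lit 304) (nat_lit 24827102649) (nat_lit 380) (nat_lit 22216863702) (nat_lit 150) (nat_lit 5) (nat_lit 154) (nat_lit 5) (nat_lit 155) (nat_lit 5) (nat_lit 508) (nat_lit 459) (nat_lit 233))))))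 (XT.nd (nat_lit 546) (nat_lit 1216) (nat_lit 0) (XT.nd (nat_lit 234) (nat_lit 836) (nat_lit 0) (XT.nd (nat_lit 78) (nat_lit 380) (nat_lit 0) (XT.lf (nat_lit 0) (nat_lit 36403864523) (nat_lit 304) (nat_lit 4851481295) (nat_lit 380) (nat_lit 12157529994) (nat_lit 150) (nat_lit 5) (nat_lit 154) (nat_lit 5) (nat_lit 155) (nat_lit 5) (nat_lit 509) (nat_lit 459) (nat_lit 232)) (XT.nd (nat_lit 78) (nat_lit 76) (nat_lit 0) (XT.lf (nat_lit 0) (nat_lit 14047772002) (nat_lit 304) (nat_lit 38847680414) (nat_lit 380) (nat_lit 1503207948) (nat_lit 146) (nat_lit 5) (nat_lit 150) (nat_lit 5) (nat_lit 151) (nat_lit 5) (nat_lit 510) (nat_lit 459) (nat_lit 231)) (XT.lf (nat_lit 0) (nat_lit 9505925940) (nat_lit 380) (nat_lit 9166921062) (nat_lit 76) (nat_lit 36731840787) (nat_lit 145) (nat_lit 5) (nat_lit 150) (nat_lit 5) (nat_lit 146) (nat_lit 5) (nat_lit 511) (nat_lit 459) (nat_lit 230)))) (XT.nd (nat_lit 156) (nat_lit 532) (nat_lit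 0) (XT.nd (nat_lit 78) (nat_lit 0) (nat_lit 0) (XT.lf (nat_lit 0) (nat_lit 21061143708) (nat_lit 380) (nat_lit 33064370885) (nat_lit 76) (nat_lit 2307554462) (nat_lit 141) (nat_lit 5) (nat_lit 146) (nat_lit 5) (nat_lit 142) (nat_lit 5) (nat_lit 512) (nat_lit 459) (nat_lit 229)) (XT.lf (nat_lit 0) (nat_lit 33239939148) (nat_lit 380) (nat_lit 609181935) (nat_lit 76) (nat_lit 23634873237) (nat_lit 141) (nat_lit 5) (nat_lit 146) (nat_lit 5) (nat_lit 142) (nat_lit 5) (nat_lit 513) (nat_lit 459) (nat_lit 228))) (XT.nd (nat_lit 78) (nat_lit 228) (nat_lit 0) (XT.lf (nat_lit 0) (nat_lit 33470699596) (nat_lit 304) (nat_lit 12633738746) (nat_lit 380) (nat_lit 12452398994) (nat_lit 137) (nat_lit 5) (nat_lit 141) (nat_lit 5) (nat_lit 142) (nat_lit 5) (nat_lit 514) (nat_lit 459) (nat_lit 227)) (XT.lf (nat_lit 0) (nat_lit 9008795865) (nat_lit 228) (nat_lit 50526110422) (nat_lit 304) (nat_lit 121558528) (nat_lit 134) (nat_lit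 5) (nat_lit 137) (nat_lit 5) (nat_lit 138) (nat_lit 5) (nat_lit 515) (nat_lit 459) (nat_lit 226))))) (XT.nd (nat_lit 312) (nat_lit 608) (nat_lit 0) (XT.nd (nat_lit 156) (nat_lit 228) (nat_lit 0) (XT.nd (nat_lit 78) (nat_lit 304) (nat_lit 0) (XT.lf (nat_lit 0) (nat_lit 12713276756) (nat_lit 304) (nat_lit 16391294739) (nat_lit 76) (nat_lit 31669496169) (nat_lit 133) (nat_lit 5) (nat_lit 137) (nat_lit 5) (nat_lit 134) (nat_lit 5) (nat_lit 516) (nat_lit 459) (nat_lit 225)) (XT.lf (nat_lit 0) (nat_lit 19265448874) (nat_lit 304) (nat_lit 6849116293) (nat_lit 380) (nat_lit 35805081956) (nat_lit 129) (nat_lit 5) (nat_lit 133) (nat_lit 5) (nat_lit 134) (nat_lit 5) (nat_lit 517) (nat_lit 459) (nat_lit 224))) (XT.nd (nat_lit 78) (nat_lit 228) (nat_lit 0) (XT.lf (nat_lit 0) (nat_lit 40238236691) (nat_lit 380) (nat_lit 6924949368) (nat_lit 76) (nat_lit 15926797737) (nat_lit 129) (nat_lit 5) (nat_lit 134) (nat_lit 5) (nat_lit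 130) (nat_lit 5) (nat_lit 518) (nat_lit 459) (nat_lit 223)) (XT.lf (nat_lit 0) (nat_lit 30399559815) (nat_lit 228) (nat_lit 24744801973) (nat_lit 304) (nat_lit 9140306638) (nat_lit 126) (nat_lit 5) (nat_lit 129) (nat_lit 5) (nat_lit 130) (nat_lit 5) (nat_lit 519) (nat_lit 459) (nat_lit 222)))) (XT.nd (nat_lit 156) (nat_lit 228) (nat_lit 0) (XT.nd (nat_lit 78) (nat_lit 0) (nat_lit 0) (XT.lf (nat_lit 0) (nat_lit 3490166925) (nat_lit 304) (nat_lit 1497971348) (nat_lit 380) (nat_lit 60522532014) (nat_lit 121) (nat_lit 5) (nat_lit 125) (nat_lit 5) (nat_lit 126) (nat_lit 5) (nat_lit 520) (nat_lit 459) (nat_lit 221)) (XT.lf (nat_lit 0) (nat_lit 19916781736) (nat_lit 380) (nat_lit 24393554282) (nat_lit 76) (nat_lit 22443599699) (nat_lit 121) (nat_lit 5) (nat_lit 126) (nat_lit 5) (nat_lit 122) (nat_lit 5) (nat_lit 521) (nat_lit 459) (nat_lit 220))) (XT.nd (nat_lit 78) (nat_lit 0) (nat_lit 0) (XT.lf (nat_lit 0) (nat_lit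 14630906223) (nat_lit 228) (nat_lit 20816616030) (nat_lit 304) (nat_lit 32582349867) (nat_lit 118) (nat_lit 5) (nat_lit 121) (nat_lit 5) (nat_lit 122) (nat_lit 5) (nat_lit 522) (nat_lit 459) (nat_lit 219)) (XT.lf (nat_lit 0) (nat_lit 51724235329) (nat_lit 304) (nat_lit 14047477918) (nat_lit 76) (nat_lit 3563971996) (nat_lit 118) (nat_lit 5) (nat_lit 122) (nat_lit 5) (nat_lit 119) (nat_lit 5) (nat_lit 523) (nat_lit 459) (nat_lit 218))))))) (XT.nd (nat_lit 1170) (nat_lit 532) (nat_lit 0) (XT.nd (nat_lit 546) (nat_lit 1140) (nat_lit 0) (XT.nd (nat_lit 234) (nat_lit 456) (nat_lit 0) (XT.nd (nat_lit 78) (nat_lit 304) (nat_lit 0) (XT.lf (nat_lit 0) (nat_lit 26799483971) (nat_lit 228) (nat_lit 42152294989) (nat_lit 304) (nat_lit 1715018056) (nat_lit 115) (nat_lit 5) (nat_lit 118) (nat_lit 5) (nat_lit 119) (nat_lit 5) (nat_lit 524) (nat_lit 459) (nat_lit 217)) (XT.nd (nat_lit 78) (nat_lit 228) (nat_lit 0) (XT.lf (nat_lit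 0) (nat_lit 14514342490) (nat_lit 304) (nat_lit 3018006383) (nat_lit 76) (nat_lit 54497004096) (nat_lit 114) (nat_lit 5) (nat_lit 118) (nat_lit 5) (nat_lit 115) (nat_lit 5) (nat_lit 525) (nat_lit 459) (nat_lit 216)) (XT.lf (nat_lit 0) (nat_lit 31656869373) (nat_lit 304) (nat_lit 33685148234) (nat_lit 76) (nat_lit 8076436031) (nat_lit 111) (nat_lit 5) (nat_lit 115) (nat_lit 5) (nat_lit 112) (nat_lit 5) (nat_lit 526) (nat_lit 459) (nat_lit 215)))) (XT.nd (nat_lit 156) (nat_lit 228) (nat_lit 0) (XT.nd (nat_lit 78) (nat_lit 0) (nat_lit 0) (XT.lf (nat_lit 0) (nat_lit 8980178111) (nat_lit 228) (nat_lit 40623041169) (nat_lit 304) (nat_lit 25237321752) (nat_lit 108) (nat_lit 5) (nat_lit 111) (nat_lit 5) (nat_lit 112) (nat_lit 5) (nat_lit 527) (nat_lit 459) (nat_lit 214)) (XT.lf (nat_lit 0) (nat_lit 53614117350) (nat_lit 228) (nat_lit 14812870592) (nat_lit 304) (nat_lit 7868132372) (nat_lit 108) (nat_lit 5) (nat_lit 111)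 (nat_lit 5) (nat_lit 112) (nat_lit 5) (nat_lit 528) (nat_lit 459) (nat_lit 213))) (XT.nd (nat_lit 78) (nat_lit 0) (nat_lit 0) (XT.lf (nat_lit 0) (nat_lit 10154371354) (nat_lit 228) (nat_lit 55772951699) (nat_lit 76) (nat_lit 11853289667) (nat_lit 105) (nat_lit 5) (nat_lit 108) (nat_lit 5) (nat_lit 106) (nat_lit 5) (nat_lit 529) (nat_lit 459) (nat_lit 212)) (XT.lf (nat_lit 0) (nat_lit 28936275924) (nat_lit 228) (nat_lit 11030542952) (nat_lit 76) (nat_lit 39330208036) (nat_lit 105) (nat_lit 5) (nat_lit 108) (nat_lit 5) (nat_lit 106) (nat_lit 5) (nat_lit 530) (nat_lit 459) (nat_lit 211))))) (XT.nd (nat_lit 312) (nat_lit 456) (nat_lit 0) (XT.nd (nat_lit 156) (nat_lit 304) (nat_lit 0) (XT.nd (nat_lit 78) (nat_lit 152) (nat_lit 0) (XT.lf (nat_lit 0) (nat_lit 35749966862) (nat_lit 228) (nat_lit 12874257242) (nat_lit 304) (nat_lit 32224431933) (nat_lit 102) (nat_lit 5) (nat_lit 105) (nat_lit 5) (nat_lit 106) (nat_lit 5)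 (nat_lit 531) (nat_lit 459) (nat_lit 210)) (XT.lf (nat_lit 0) (nat_lit 1600363849) (nat_lit 152) (nat_lit 67573751290) (nat_lit 228) (nat_lit 13264579865) (nat_lit 100) (nat_lit 5) (nat_lit 102) (nat_lit 5) (nat_lit 103) (nat_lit 5) (nat_lit 532) (nat_lit 459) (nat_lit 209))) (XT.nd (nat_lit 78) (nat_lit 228) (nat_lit 0) (XT.lf (nat_lit 0) (nat_lit 6728164879) (nat_lit 228) (nat_lit 33631889051) (nat_lit 76) (nat_lit 43696984933) (nat_lit 99) (nat_lit 5) (nat_lit 102) (nat_lit 5) (nat_lit 100) (nat_lit 5) (nat_lit 533) (nat_lit 459) (nat_lit 208)) (XT.lf (nat_lit 0) (nat_lit 15153370286) (nat_lit 228) (nat_lit 12045357330) (nat_lit 304) (nat_lit 58516926321) (nat_lit 96) (nat_lit 5) (nat_lit 99) (nat_lit 5) (nat_lit 100) (nat_lit 5) (nat_lit 534) (nat_lit 459) (nat_lit 207)))) (XT.nd (nat_lit 156) (nat_lit 304) (nat_lit 0) (XT.nd (nat_lit 78) (nat_lit 152) (nat_lit 0) (XT.lf (nat_lit 0) (nat_lit 48789925568) (nat_lit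 304) (nat_lit 21491896391) (nat_lit 76) (nat_lit 17127010041) (nat_lit 96) (nat_lit 5) (nat_lit 100) (nat_lit 5) (nat_lit 97) (nat_lit 5) (nat_lit 535) (nat_lit 459) (nat_lit 206)) (XT.lf (nat_lit 0) (nat_lit 29505402227) (nat_lit 152) (nat_lit 41925355253) (nat_lit 228) (nat_lit 17709991072) (nat_lit 94) (nat_lit 5) (nat_lit 96) (nat_lit 5) (nat_lit 97) (nat_lit 5) (nat_lit 536) (nat_lit 459) (nat_lit 205))) (XT.nd (nat_lit 78) (nat_lit 228) (nat_lit 0) (XT.lf (nat_lit 0) (nat_lit 3969719708) (nat_lit 228) (nat_lit 8485556683) (nat_lit 76) (nat_lit 78461697177) (nat_lit 93) (nat_lit 5) (nat_lit 96) (nat_lit 5) (nat_lit 94) (nat_lit 5) (nat_lit 537) (nat_lit 459) (nat_lit 204)) (XT.lf (nat_lit 0) (nat_lit 26552556517) (nat_lit 304) (nat_lit 48008514450) (nat_lit 76) (nat_lit 18161893412) (nat_lit 90) (nat_lit 5) (nat_lit 94) (nat_lit 5) (nat_lit 91) (nat_lit 5) (nat_lit 538) (nat_lit 459) (nat_lit 203)))))) (XT.nd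 (nat_lit 56628) (nat_lit 0) (nat_lit 14668) (XT.nd (nat_lit 56316) (nat_lit 0) (nat_lit 14516) (XT.nd (nat_lit 234) (nat_lit 380) (nat_lit 0) (XT.nd (nat_lit 78) (nat_lit 0) (nat_lit 0) (XT.lf (nat_lit 0) (nat_lit 5077087255) (nat_lit 152) (nat_lit 44993500797) (nat_lit 228) (nat_lit 44504815650) (nat_lit 88) (nat_lit 5) (nat_lit 90) (nat_lit 5) (nat_lit 91) (nat_lit 5) (nat_lit 539) (nat_lit 459) (nat_lit 202)) (XT.lf (nat_lit 0) (nat_lit 60737745630) (nat_lit 152) (nat_lit 14040268788) (nat_lit 228) (nat_lit 21690886244) (nat_lit 88) (nat_lit 5) (nat_lit 90) (nat_lit 5) (nat_lit 91) (nat_lit 5) (nat_lit 540) (nat_lit 459) (nat_lit 201))) (XT.nd (nat_lit 78) (nat_lit 152) (nat_lit 0) (XT.lf (nat_lit 0) (nat_lit 26746845968) (nat_lit 228) (nat_lit 22938192593) (nat_lit 76) (nat_lit 50698164639) (nat_lit 85) (nat_lit 5) (nat_lit 88) (nat_lit 5) (nat_lit 86) (nat_lit 5) (nat_lit 542) (nat_lit 459) (nat_lit 199))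 (XT.lf (nat_lit 0) (nat_lit 35040437385) (nat_lit 152) (nat_lit 17390185497) (nat_lit 228) (nat_lit 49977241404) (nat_lit 83) (nat_lit 5) (nat_lit 85) (nat_lit 5) (nat_lit 86) (nat_lit 5) (nat_lit 543) (nat_lit 459) (nat_lit 198)))) (XT.nd (nat_lit 156) (nat_lit 0) (nat_lit 76) (XT.nd (nat_lit 78) (nat_lit 0) (nat_lit 0) (XT.lf (nat_lit 0) (nat_lit 3597164852) (nat_lit 1292) (nat_lit 4207842007) (nat_lit 1292) (nat_lit 4207842007) (nat_lit 274) (nat_lit 3) (nat_lit 291) (nat_lit 3) (nat_lit 291) (nat_lit 5) (nat_lit 460) (nat_lit 460) (nat_lit 280)) (XT.lf (nat_lit 76) (nat_lit 3423266017) (nat_lit 0) (nat_lit 4024861428) (nat_lit 1292) (nat_lit 16933552988) (nat_lit 275) (nat_lit 5) (nat_lit 274) (nat_lit 3) (nat_lit 291) (nat_lit 5) (nat_lit 461) (nat_lit 460) (nat_lit 279))) (XT.nd (nat_lit 78) (nat_lit 0) (nat_lit 0) (XT.lf (nat_lit 0) (nat_lit 7866966395) (nat_lit 1216) (nat_lit 9035222510) (nat_lit 1292)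 (nat_lit 7841431915) (nat_lit 275) (nat_lit 5) (nat_lit 291) (nat_lit 5) (nat_lit 292) (nat_lit 5) (nat_lit 462) (nat_lit 460) (nat_lit 278)) (XT.lf (nat_lit 76) (nat_lit 3267170543) (nat_lit 0) (nat_lit 5098173518) (nat_lit 1292) (nat_lit 16749067146) (nat_lit 276) (nat_lit 5) (nat_lit 275) (nat_lit 5) (nat_lit 292) (nat_lit 5) (nat_lit 463) (nat_lit 460) (nat_lit 277))))) (XT.nd (nat_lit 312) (nat_lit 0) (nat_lit 152) (XT.nd (nat_lit 156) (nat_lit 0) (nat_lit 76) (XT.nd (nat_lit 78) (nat_lit 0) (nat_lit 0) (XT.lf (nat_lit 0) (nat_lit 9034515766) (nat_lit 1216) (nat_lit 9441026586) (nat_lit 1292) (nat_lit 7016108640) (nat_lit 276) (nat_lit 5) (nat_lit 292) (nat_lit 5) (nat_lit 293) (nat_lit 5) (nat_lit 464) (nat_lit 460) (nat_lit 276)) (XT.lf (nat_lit 76) (nat_lit 3349818352) (nat_lit 0) (nat_lit 6452579654) (nat_lit 1292) (nat_lit 16075451842) (nat_lit 277) (nat_lit 5) (nat_lit 276) (nat_lit 5) (nat_lit 293)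 (nat_lit 5) (nat_lit 465) (nat_lit 460) (nat_lit 275))) (XT.nd (nat_lit 78) (nat_lit 0) (nat_lit 0) (XT.lf (nat_lit 0) (nat_lit 10742676618) (nat_lit 1216) (nat_lit 9615366829) (nat_lit 1292) (nat_lit 5913111337) (nat_lit 277) (nat_lit 5) (nat_lit 293) (nat_lit 5) (nat_lit 294) (nat_lit 5) (nat_lit 466) (nat_lit 460) (nat_lit 274)) (XT.lf (nat_lit 76) (nat_lit 3690321092) (nat_lit 0) (nat_lit 8116384636) (nat_lit 1292) (nat_lit 14866687760) (nat_lit 278) (nat_lit 5) (nat_lit 277) (nat_lit 5) (nat_lit 294) (nat_lit 5) (nat_lit 467) (nat_lit 460) (nat_lit 273)))) (XT.nd (nat_lit 156) (nat_lit 0) (nat_lit 76) (XT.nd (nat_lit 78) (nat_lit 0) (nat_lit 0) (XT.lf (nat_lit 0) (nat_lit 13040179735) (nat_lit 1216) (nat_lit 9539229376) (nat_lit 1292) (nat_lit 4504165381) (nat_lit 278) (nat_lit 5) (nat_lit 294) (nat_lit 5) (nat_lit 295) (nat_lit 5) (nat_lit 468) (nat_lit 460) (nat_lit 272)) (XT.lf (nat_lit 76) (nat_lit 4309148991)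 (nat_lit 0) (nat_lit 10119681131) (nat_lit 1292) (nat_lit 13073686473) (nat_lit 279) (nat_lit 5) (nat_lit 278) (nat_lit 5) (nat_lit 295) (nat_lit 5) (nat_lit 469) (nat_lit 460) (nat_lit 271))) (XT.nd (nat_lit 78) (nat_lit 0) (nat_lit 0) (XT.lf (nat_lit 0) (nat_lit 15978989447) (nat_lit 1216) (nat_lit 9192253274) (nat_lit 1292) (nat_lit 2759189567) (nat_lit 279) (nat_lit 5) (nat_lit 295) (nat_lit 5) (nat_lit 296) (nat_lit 5) (nat_lit 470) (nat_lit 460) (nat_lit 270)) (XT.lf (nat_lit 76) (nat_lit 5228197397) (nat_lit 0) (nat_lit 12494491238) (nat_lit 1292) (nat_lit 10644086552) (nat_lit 280) (nat_lit 5) (nat_lit 279) (nat_lit 5) (nat_lit 296) (nat_lit 5) (nat_lit 471) (nat_lit 460) (nat_lit 269))))))))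
noncomputable def xc215 : XT := (XT.nd (nat_lit 2340) (nat_lit 5472) (nat_lit 0) (XT.nd (nat_lit 1170) (nat_lit 3876) (nat_lit 0) (XT.nd (nat_lit 546) (nat_lit 3040) (nat_lit 0) (XT.nd (nat_lit 234) (nat_lit 1140) (nat_lit 0) (XT.nd (nat_lit 78) (nat_lit 0) (nat_lit 0) (XT.lf (nat_lit 0) (nat_lit 19614516456) (nat_lit 1216) (nat_lit 8552664174) (nat_lit 1292) (nat_lit 646153975) (nat_lit 280) (nat_lit 5) (nat_lit 296) (nat_lit 5) (nat_lit 297) (nat_lit 5) (nat_lit 472) (nat_lit 460) (nat_lit 268)) (XT.nd (nat_lit 78) (nat_lit 0) (nat_lit 0) (XT.lf (nat_lit 76) (nat_lit 6470857153) (nat_lit 0) (nat_lit 15274915879) (nat_lit 1292) (nat_lit 7522038296) (nat_lit 281) (nat_lit 5) (nat_lit 280) (nat_lit 5) (nat_lit 297) (nat_lit 5) (nat_lit 473) (nat_lit 460) (nat_lit 267)) (XT.lf (nat_lit 76) (nat_lit 22117898580) (nat_lit 0) (nat_lit 1906268265) (nat_lit 1292) (nat_lit 5709260243) (nat_lit 281) (nat_lit 5) (nat_lit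 280) (nat_lit 5) (nat_lit 297) (nat_lit 5) (nat_lit 474) (nat_lit 460) (nat_lit 266)))) (XT.nd (nat_lit 156) (nat_lit 1216) (nat_lit 0) (XT.nd (nat_lit 78) (nat_lit 0) (nat_lit 0) (XT.lf (nat_lit 76) (nat_lit 8062088881) (nat_lit 0) (nat_lit 18497292701) (nat_lit 1292) (nat_lit 3647976363) (nat_lit 282) (nat_lit 5) (nat_lit 281) (nat_lit 5) (nat_lit 298) (nat_lit 5) (nat_lit 475) (nat_lit 460) (nat_lit 265)) (XT.lf (nat_lit 76) (nat_lit 24344388113) (nat_lit 0) (nat_lit 4918853438) (nat_lit 1292) (nat_lit 1429488192) (nat_lit 282) (nat_lit 5) (nat_lit 281) (nat_lit 5) (nat_lit 298) (nat_lit 5) (nat_lit 476) (nat_lit 460) (nat_lit 264))) (XT.nd (nat_lit 78) (nat_lit 0) (nat_lit 0) (XT.lf (nat_lit 0) (nat_lit 1021294691) (nat_lit 1292) (nat_lit 21168755428) (nat_lit 76) (nat_lit 8996893441) (nat_lit 265) (nat_lit 5) (nat_lit 282) (nat_lit 5) (nat_lit 266) (nat_lit 5) (nat_lit 477) (nat_lit 460) (nat_lit 263)) (XT.lf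 (nat_lit 0) (nat_lit 3627433684) (nat_lit 1292) (nat_lit 4754262384) (nat_lit 76) (nat_lit 23310546826) (nat_lit 265) (nat_lit 5) (nat_lit 282) (nat_lit 5) (nat_lit 266) (nat_lit 5) (nat_lit 478) (nat_lit 460) (nat_lit 262))))) (XT.nd (nat_lit 312) (nat_lit 1672) (nat_lit 0) (XT.nd (nat_lit 156) (nat_lit 608) (nat_lit 0) (XT.nd (nat_lit 78) (nat_lit 0) (nat_lit 0) (XT.lf (nat_lit 0) (nat_lit 6485410715) (nat_lit 836) (nat_lit 19874549133) (nat_lit 76) (nat_lit 5847532345) (nat_lit 255) (nat_lit 5) (nat_lit 266) (nat_lit 5) (nat_lit 256) (nat_lit 5) (nat_lit 479) (nat_lit 460) (nat_lit 261)) (XT.lf (nat_lit 0) (nat_lit 9557864289) (nat_lit 836) (nat_lit 2792545867) (nat_lit 76) (nat_lit 20383927284) (nat_lit 255) (nat_lit 5) (nat_lit 266) (nat_lit 5) (nat_lit 256) (nat_lit 5) (nat_lit 480) (nat_lit 460) (nat_lit 260))) (XT.nd (nat_lit 78) (nat_lit 0) (nat_lit 0) (XT.lf (nat_lit 0) (nat_lit 12886356792) (nat_lit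 684) (nat_lit 18200159954) (nat_lit 76) (nat_lit 2185555908) (nat_lit 247) (nat_lit 5) (nat_lit 256) (nat_lit 5) (nat_lit 248) (nat_lit 5) (nat_lit 481) (nat_lit 460) (nat_lit 259)) (XT.lf (nat_lit 0) (nat_lit 16462864735) (nat_lit 684) (nat_lit 420633670) (nat_lit 76) (nat_lit 16937997250) (nat_lit 247) (nat_lit 5) (nat_lit 256) (nat_lit 5) (nat_lit 248) (nat_lit 5) (nat_lit 482) (nat_lit 460) (nat_lit 258)))) (XT.nd (nat_lit 156) (nat_lit 532) (nat_lit 0) (XT.nd (nat_lit 78) (nat_lit 532) (nat_lit 0) (XT.lf (nat_lit 0) (nat_lit 18245865901) (nat_lit 608) (nat_lit 2073669079) (nat_lit 684) (nat_lit 14062680888) (nat_lit 239) (nat_lit 5) (nat_lit 247) (nat_lit 5) (nat_lit 248) (nat_lit 5) (nat_lit 483) (nat_lit 460) (nat_lit 257)) (XT.lf (nat_lit 0) (nat_lit 2439713607) (nat_lit 532) (nat_lit 22004159149) (nat_lit 608) (nat_lit 10511326431) (nat_lit 232) (nat_lit 5) (nat_lit 239) (nat_lit 5) (nat_lit 240) (nat_lit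 5) (nat_lit 484) (nat_lit 460) (nat_lit 256))) (XT.nd (nat_lit 78) (nat_lit 532) (nat_lit 0) (XT.lf (nat_lit 0) (nat_lit 21880416907) (nat_lit 532) (nat_lit 6992374685) (nat_lit 608) (nat_lit 6667155389) (nat_lit 232) (nat_lit 5) (nat_lit 239) (nat_lit 5) (nat_lit 240) (nat_lit 5) (nat_lit 485) (nat_lit 460) (nat_lit 255)) (XT.lf (nat_lit 0) (nat_lit 5791215169) (nat_lit 532) (nat_lit 27778093507) (nat_lit 608) (nat_lit 2568887102) (nat_lit 225) (nat_lit 5) (nat_lit 232) (nat_lit 5) (nat_lit 233) (nat_lit 5) (nat_lit 486) (nat_lit 460) (nat_lit 254)))))) (XT.nd (nat_lit 546) (nat_lit 1824) (nat_lit 0) (XT.nd (nat_lit 234) (nat_lit 1444) (nat_lit 0) (XT.nd (nat_lit 78) (nat_lit 532) (nat_lit 0) (XT.lf (nat_lit 0) (nat_lit 1826285003) (nat_lit 608) (nat_lit 10733747007) (nat_lit 76) (nat_lit 24187698035) (nat_lit 224) (nat_lit 5) (nat_lit 232) (nat_lit 5) (nat_lit 225) (nat_lit 5) (nat_lit 487) (nat_lit 460) (nat_lit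 253)) (XT.nd (nat_lit 78) (nat_lit 0) (nat_lit 0) (XT.lf (nat_lit 0) (nat_lit 6423070161) (nat_lit 608) (nat_lit 27775290530) (nat_lit 76) (nat_lit 3172785363) (nat_lit 217) (nat_lit 5) (nat_lit 225) (nat_lit 5) (nat_lit 218) (nat_lit 5) (nat_lit 488) (nat_lit 460) (nat_lit 252)) (XT.lf (nat_lit 0) (nat_lit 11389354696) (nat_lit 608) (nat_lit 7382536401) (nat_lit 76) (nat_lit 19234426006) (nat_lit 217) (nat_lit 5) (nat_lit 225) (nat_lit 5) (nat_lit 218) (nat_lit 5) (nat_lit 489) (nat_lit 460) (nat_lit 251)))) (XT.nd (nat_lit 156) (nat_lit 912) (nat_lit 0) (XT.nd (nat_lit 78) (nat_lit 0) (nat_lit 0) (XT.lf (nat_lit 0) (nat_lit 13890658037) (nat_lit 532) (nat_lit 2745336110) (nat_lit 608) (nat_lit 22020608568) (nat_lit 210) (nat_lit 5) (nat_lit 217) (nat_lit 5) (nat_lit 218) (nat_lit 5) (nat_lit 490) (nat_lit 460) (nat_lit 250)) (XT.lf (nat_lit 0) (nat_lit 22245487412) (nat_lit 608) (nat_lit 3506241457) (nat_lit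 76) (nat_lit 13568504799) (nat_lit 210) (nat_lit 5) (nat_lit 218) (nat_lit 5) (nat_lit 211) (nat_lit 5) (nat_lit 491) (nat_lit 460) (nat_lit 249))) (XT.nd (nat_lit 78) (nat_lit 456) (nat_lit 0) (XT.lf (nat_lit 0) (nat_lit 18727139156) (nat_lit 456) (nat_lit 9501264839) (nat_lit 532) (nat_lit 11769215796) (nat_lit 204) (nat_lit 5) (nat_lit 210) (nat_lit 5) (nat_lit 211) (nat_lit 5) (nat_lit 492) (nat_lit 460) (nat_lit 248)) (XT.lf (nat_lit 0) (nat_lit 951380096) (nat_lit 456) (nat_lit 33551868306) (nat_lit 532) (nat_lit 6188706272) (nat_lit 198) (nat_lit 5) (nat_lit 204) (nat_lit 5) (nat_lit 205) (nat_lit 5) (nat_lit 493) (nat_lit 460) (nat_lit 247))))) (XT.nd (nat_lit 312) (nat_lit 836) (nat_lit 0) (XT.nd (nat_lit 156) (nat_lit 456) (nat_lit 0) (XT.nd (nat_lit 78) (nat_lit 532) (nat_lit 0) (XT.lf (nat_lit 0) (nat_lit 24177599171) (nat_lit 456) (nat_lit 17094689559) (nat_lit 532) (nat_lit 125652733) (nat_lit 198)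 (nat_lit 5) (nat_lit 204) (nat_lit 5) (nat_lit 205) (nat_lit 5) (nat_lit 494) (nat_lit 460) (nat_lit 246)) (XT.lf (nat_lit 0) (nat_lit 6032034020) (nat_lit 456) (nat_lit 23881800) (nat_lit 532) (nat_lit 36065746732) (nat_lit 191) (nat_lit 5) (nat_lit 197) (nat_lit 5) (nat_lit 198) (nat_lit 5) (nat_lit 495) (nat_lit 460) (nat_lit 245))) (XT.nd (nat_lit 78) (nat_lit 456) (nat_lit 0) (XT.lf (nat_lit 0) (nat_lit 12762887457) (nat_lit 532) (nat_lit 12701029053) (nat_lit 76) (nat_lit 17392867338) (nat_lit 191) (nat_lit 5) (nat_lit 198) (nat_lit 5) (nat_lit 192) (nat_lit 5) (nat_lit 496) (nat_lit 460) (nat_lit 244)) (XT.lf (nat_lit 0) (nat_lit 11613300375) (nat_lit 456) (nat_lit 8167774196) (nat_lit 532) (nat_lit 23829584357) (nat_lit 185) (nat_lit 5) (nat_lit 191) (nat_lit 5) (nat_lit 192) (nat_lit 5) (nat_lit 497) (nat_lit 460) (nat_lit 243)))) (XT.nd (nat_lit 156) (nat_lit 456) (nat_lit 0) (XT.nd (nat_lit 78) (nat_lit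 380) (nat_lit 0) (XT.lf (nat_lit 0) (nat_lit 27230231618) (nat_lit 532) (nat_lit 7562226593) (nat_lit 76) (nat_lit 9588079644) (nat_lit 185) (nat_lit 5) (nat_lit 192) (nat_lit 5) (nat_lit 186) (nat_lit 5) (nat_lit 498) (nat_lit 460) (nat_lit 242)) (XT.lf (nat_lit 0) (nat_lit 17871559668) (nat_lit 380) (nat_lit 17282182289) (nat_lit 456) (nat_lit 10012245149) (nat_lit 180) (nat_lit 5) (nat_lit 185) (nat_lit 5) (nat_lit 186) (nat_lit 5) (nat_lit 499) (nat_lit 460) (nat_lit 241))) (XT.nd (nat_lit 78) (nat_lit 456) (nat_lit 0) (XT.lf (nat_lit 0) (nat_lit 43397562247) (nat_lit 456) (nat_lit 1759624402) (nat_lit 76) (nat_lit 815335351) (nat_lit 180) (nat_lit 5) (nat_lit 186) (nat_lit 5) (nat_lit 181) (nat_lit 5) (nat_lit 500) (nat_lit 460) (nat_lit 240)) (XT.lf (nat_lit 0) (nat_lit 5398556670) (nat_lit 456) (nat_lit 21991078568) (nat_lit 76) (nat_lit 19399781026) (nat_lit 174) (nat_lit 5) (nat_lit 180) (nat_lit 5) (nat_lit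 175) (nat_lit 5) (nat_lit 501) (nat_lit 460) (nat_lit 239))))))) (XT.nd (nat_lit 1170) (nat_lit 2432) (nat_lit 0) (XT.nd (nat_lit 546) (nat_lit 1520) (nat_lit 0) (XT.nd (nat_lit 234) (nat_lit 760) (nat_lit 0) (XT.nd (nat_lit 78) (nat_lit 380) (nat_lit 0) (XT.lf (nat_lit 0) (nat_lit 4621088132) (nat_lit 380) (nat_lit 8999107241) (nat_lit 456) (nat_lit 34008037294) (nat_lit 169) (nat_lit 5) (nat_lit 174) (nat_lit 5) (nat_lit 175) (nat_lit 5) (nat_lit 502) (nat_lit 460) (nat_lit 238)) (XT.nd (nat_lit 78) (nat_lit 380) (nat_lit 0) (XT.lf (nat_lit 0) (nat_lit 22406656447) (nat_lit 456) (nat_lit 16103177667) (nat_lit 76) (nat_lit 9972834525) (nat_lit 169) (nat_lit 5) (nat_lit 175) (nat_lit 5) (nat_lit 170) (nat_lit 5) (nat_lit 503) (nat_lit 460) (nat_lit 237)) (XT.lf (nat_lit 0) (nat_lit 11745813894) (nat_lit 380) (nat_lit 19911282411) (nat_lit 456) (nat_lit 17699630097) (nat_lit 164) (nat_lit 5) (nat_lit 169) (nat_lit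 5) (nat_lit 170) (nat_lit 5) (nat_lit 504) (nat_lit 460) (nat_lit 236)))) (XT.nd (nat_lit 156) (nat_lit 380) (nat_lit 0) (XT.nd (nat_lit 78) (nat_lit 380) (nat_lit 0) (XT.lf (nat_lit 0) (nat_lit 40758198722) (nat_lit 380) (nat_lit 587864448) (nat_lit 456) (nat_lit 8906112570) (nat_lit 164) (nat_lit 5) (nat_lit 169) (nat_lit 5) (nat_lit 170) (nat_lit 5) (nat_lit 505) (nat_lit 460) (nat_lit 235)) (XT.lf (nat_lit 0) (nat_lit 525074594) (nat_lit 380) (nat_lit 31506117518) (nat_lit 76) (nat_lit 19131948639) (nat_lit 159) (nat_lit 5) (nat_lit 164) (nat_lit 5) (nat_lit 160) (nat_lit 5) (nat_lit 506) (nat_lit 460) (nat_lit 234))) (XT.nd (nat_lit 78) (nat_lit 380) (nat_lit 0) (XT.lf (nat_lit 0) (nat_lit 10161287343) (nat_lit 380) (nat_lit 2318500567) (nat_lit 76) (nat_lit 39615968836) (nat_lit 159) (nat_lit 5) (nat_lit 164) (nat_lit 5) (nat_lit 160) (nat_lit 5) (nat_lit 507) (nat_lit 460) (nat_lit 233)) (XT.lf (nat_lit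 0) (nat_lit 20433374104) (nat_lit 456) (nat_lit 24829761732) (nat_lit 76) (nat_lit 7782811983) (nat_lit 154) (nat_lit 5) (nat_lit 160) (nat_lit 5) (nat_lit 155) (nat_lit 5) (nat_lit 508) (nat_lit 460) (nat_lit 232))))) (XT.nd (nat_lit 312) (nat_lit 836) (nat_lit 0) (XT.nd (nat_lit 156) (nat_lit 380) (nat_lit 0) (XT.nd (nat_lit 78) (nat_lit 0) (nat_lit 0) (XT.lf (nat_lit 0) (nat_lit 5675331334) (nat_lit 304) (nat_lit 25538570040) (nat_lit 380) (nat_lit 22804735133) (nat_lit 150) (nat_lit 5) (nat_lit 154) (nat_lit 5) (nat_lit 155) (nat_lit 5) (nat_lit 509) (nat_lit 460) (nat_lit 231)) (XT.lf (nat_lit 0) (nat_lit 37602464903) (nat_lit 304) (nat_lit 4964651278) (nat_lit 380) (nat_lit 12445911738) (nat_lit 150) (nat_lit 5) (nat_lit 154) (nat_lit 5) (nat_lit 155) (nat_lit 5) (nat_lit 510) (nat_lit 460) (nat_lit 230))) (XT.nd (nat_lit 78) (nat_lit 76) (nat_lit 0) (XT.lf (nat_lit 0) (nat_lit 14576549753) (nat_lit 304)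 (nat_lit 39979051681) (nat_lit 380) (nat_lit 1472809627) (nat_lit 146) (nat_lit 5) (nat_lit 150) (nat_lit 5) (nat_lit 151) (nat_lit 5) (nat_lit 511) (nat_lit 460) (nat_lit 229)) (XT.lf (nat_lit 0) (nat_lit 9862969145) (nat_lit 380) (nat_lit 9336270436) (nat_lit 76) (nat_lit 37865422933) (nat_lit 145) (nat_lit 5) (nat_lit 150) (nat_lit 5) (nat_lit 146) (nat_lit 5) (nat_lit 512) (nat_lit 460) (nat_lit 228)))) (XT.nd (nat_lit 156) (nat_lit 532) (nat_lit 0) (XT.nd (nat_lit 78) (nat_lit 0) (nat_lit 0) (XT.lf (nat_lit 0) (nat_lit 21764081306) (nat_lit 380) (nat_lit 33949871958) (nat_lit 76) (nat_lit 2409965108) (nat_lit 141) (nat_lit 5) (nat_lit 146) (nat_lit 5) (nat_lit 142) (nat_lit 5) (nat_lit 513) (nat_lit 460) (nat_lit 227)) (XT.lf (nat_lit 0) (nat_lit 34306169639) (nat_lit 380) (nat_lit 524127244) (nat_lit 76) (nat_lit 24376136922) (nat_lit 141) (nat_lit 5) (nat_lit 146) (nat_lit 5) (nat_lit 142) (nat_lit 5) (nat_lit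 514) (nat_lit 460) (nat_lit 226))) (XT.nd (nat_lit 78) (nat_lit 228) (nat_lit 0) (XT.lf (nat_lit 0) (nat_lit 34577137693) (nat_lit 304) (nat_lit 12978439002) (nat_lit 380) (nat_lit 12755916504) (nat_lit 137) (nat_lit 5) (nat_lit 141) (nat_lit 5) (nat_lit 142) (nat_lit 5) (nat_lit 515) (nat_lit 460) (nat_lit 225)) (XT.lf (nat_lit 0) (nat_lit 9382076315) (nat_lit 228) (nat_lit 52006212108) (nat_lit 304) (nat_lit 55841452) (nat_lit 134) (nat_lit 5) (nat_lit 137) (nat_lit 5) (nat_lit 138) (nat_lit 5) (nat_lit 516) (nat_lit 460) (nat_lit 224)))))) (XT.nd (nat_lit 624) (nat_lit 1216) (nat_lit 0) (XT.nd (nat_lit 312) (nat_lit 608) (nat_lit 0) (XT.nd (nat_lit 156) (nat_lit 228) (nat_lit 0) (XT.nd (nat_lit 78) (nat_lit 304) (nat_lit 0) (XT.lf (nat_lit 0) (nat_lit 13160704470) (nat_lit 304) (nat_lit 16781695046) (nat_lit 76) (nat_lit 32652900966) (nat_lit 133) (nat_lit 5) (nat_lit 137) (nat_lit 5) (nat_lit 134) (nat_lit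 5) (nat_lit 517) (nat_lit 460) (nat_lit 223)) (XT.lf (nat_lit 0) (nat_lit 19943757360) (nat_lit 304) (nat_lit 7019315564) (nat_lit 380) (nat_lit 36812203402) (nat_lit 129) (nat_lit 5) (nat_lit 133) (nat_lit 5) (nat_lit 134) (nat_lit 5) (nat_lit 518) (nat_lit 460) (nat_lit 222))) (XT.nd (nat_lit 78) (nat_lit 228) (nat_lit 0) (XT.lf (nat_lit 0) (nat_lit 41508888530) (nat_lit 380) (nat_lit 7033701583) (nat_lit 76) (nat_lit 16438180204) (nat_lit 129) (nat_lit 5) (nat_lit 134) (nat_lit 5) (nat_lit 130) (nat_lit 5) (nat_lit 519) (nat_lit 460) (nat_lit 221)) (XT.lf (nat_lit 0) (nat_lit 31409572324) (nat_lit 228) (nat_lit 25451717686) (nat_lit 304) (nat_lit 9350032926) (nat_lit 126) (nat_lit 5) (nat_lit 129) (nat_lit 5) (nat_lit 130) (nat_lit 5) (nat_lit 520) (nat_lit 460) (nat_lit 220)))) (XT.nd (nat_lit 156) (nat_lit 228) (nat_lit 0) (XT.nd (nat_lit 78) (nat_lit 0) (nat_lit 0) (XT.lf (nat_lit 0) (nat_lit 3693189896)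 (nat_lit 304) (nat_lit 1506920742) (nat_lit 380) (nat_lit 62274002727) (nat_lit 121) (nat_lit 5) (nat_lit 125) (nat_lit 5) (nat_lit 126) (nat_lit 5) (nat_lit 521) (nat_lit 460) (nat_lit 219)) (XT.lf (nat_lit 0) (nat_lit 20575133899) (nat_lit 380) (nat_lit 25028420096) (nat_lit 76) (nat_lit 23151167358) (nat_lit 121) (nat_lit 5) (nat_lit 126) (nat_lit 5) (nat_lit 122) (nat_lit 5) (nat_lit 522) (nat_lit 460) (nat_lit 218))) (XT.nd (nat_lit 78) (nat_lit 0) (nat_lit 0) (XT.lf (nat_lit 0) (nat_lit 15165823824) (nat_lit 228) (nat_lit 21405123233) (nat_lit 304) (nat_lit 33498014480) (nat_lit 118) (nat_lit 5) (nat_lit 121) (nat_lit 5) (nat_lit 122) (nat_lit 5) (nat_lit 523) (nat_lit 460) (nat_lit 217)) (XT.lf (nat_lit 0) (nat_lit 53334549871) (nat_lit 304) (nat_lit 14374289448) (nat_lit 76) (nat_lit 3705152280) (nat_lit 118) (nat_lit 5) (nat_lit 122) (nat_lit 5) (nat_lit 119) (nat_lit 5) (nat_lit 524) (nat_lit 460) (nat_lit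 216))))) (XT.nd (nat_lit 312) (nat_lit 456) (nat_lit 0) (XT.nd (nat_lit 156) (nat_lit 456) (nat_lit 0) (XT.nd (nat_lit 78) (nat_lit 76) (nat_lit 0) (XT.lf (nat_lit 0) (nat_lit 27697153721) (nat_lit 228) (nat_lit 43380960219) (nat_lit 304) (nat_lit 1706947155) (nat_lit 115) (nat_lit 5) (nat_lit 118) (nat_lit 5) (nat_lit 119) (nat_lit 5) (nat_lit 525) (nat_lit 460) (nat_lit 215)) (XT.lf (nat_lit 0) (nat_lit 15006432925) (nat_lit 304) (nat_lit 3016456374) (nat_lit 76) (nat_lit 56165638437) (nat_lit 114) (nat_lit 5) (nat_lit 118) (nat_lit 5) (nat_lit 115) (nat_lit 5) (nat_lit 526) (nat_lit 460) (nat_lit 214))) (XT.nd (nat_lit 78) (nat_lit 228) (nat_lit 0) (XT.lf (nat_lit 0) (nat_lit 32662801202) (nat_lit 304) (nat_lit 34603172226) (nat_lit 76) (nat_lit 8353341206) (nat_lit 111) (nat_lit 5) (nat_lit 115) (nat_lit 5) (nat_lit 112) (nat_lit 5) (nat_lit 527) (nat_lit 460) (nat_lit 213)) (XT.lf (nat_lit 0) (nat_lit 9341206748)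 (nat_lit 228) (nat_lit 41805577953) (nat_lit 304) (nat_lit 25937302824) (nat_lit 108) (nat_lit 5) (nat_lit 111) (nat_lit 5) (nat_lit 112) (nat_lit 5) (nat_lit 528) (nat_lit 460) (nat_lit 212)))) (XT.nd (nat_lit 156) (nat_lit 228) (nat_lit 0) (XT.nd (nat_lit 78) (nat_lit 228) (nat_lit 0) (XT.lf (nat_lit 0) (nat_lit 55311495525) (nat_lit 228) (nat_lit 15222155301) (nat_lit 304) (nat_lit 8048701993) (nat_lit 108) (nat_lit 5) (nat_lit 111) (nat_lit 5) (nat_lit 112) (nat_lit 5) (nat_lit 529) (nat_lit 460) (nat_lit 211)) (XT.lf (nat_lit 0) (nat_lit 10513008370) (nat_lit 228) (nat_lit 57355706584) (nat_lit 76) (nat_lit 12243690781) (nat_lit 105) (nat_lit 5) (nat_lit 108) (nat_lit 5) (nat_lit 106) (nat_lit 5) (nat_lit 530) (nat_lit 460) (nat_lit 210))) (XT.nd (nat_lit 78) (nat_lit 228) (nat_lit 0) (XT.lf (nat_lit 0) (nat_lit 29856797090) (nat_lit 228) (nat_lit 11273659564) (nat_lit 76) (nat_lit 40543903038) (nat_lit 105)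 (nat_lit 5) (nat_lit 108) (nat_lit 5) (nat_lit 106) (nat_lit 5) (nat_lit 531) (nat_lit 460) (nat_lit 209)) (XT.lf (nat_lit 0) (nat_lit 36909404763) (nat_lit 228) (nat_lit 13225287492) (nat_lit 304) (nat_lit 33137866329) (nat_lit 102) (nat_lit 5) (nat_lit 105) (nat_lit 5) (nat_lit 106) (nat_lit 5) (nat_lit 532) (nat_lit 460) (nat_lit 208))))))))
noncomputable def xc216 : XT := (XT.nd (nat_lit 58344) (nat_lit 0) (nat_lit 5244) (XT.nd (nat_lit 57174) (nat_lit 0) (nat_lit 13680) (XT.nd (nat_lit 546) (nat_lit 380) (nat_lit 0) (XT.nd (nat_lit 234) (nat_lit 456) (nat_lit 0) (XT.nd (nat_lit 78) (nat_lit 304) (nat_lit 0) (XT.lf (nat_lit 0) (nat_lit 1735668164) (nat_lit 152) (nat_lit 69565072427) (nat_lit 228) (nat_lit 13609568453) (nat_lit 100) (nat_lit 5) (nat_lit 102) (nat_lit 5) (nat_lit 103) (nat_lit 5) (nat_lit 533) (nat_lit 460) (nat_lit 207)) (XT.nd (nat_lit 78) (nat_lit 228) (nat_lit 0) (XT.lf (nat_lit 0) (nat_lit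 6980413306) (nat_lit 228) (nat_lit 34555087244) (nat_lit 76) (nat_lit 45041732897) (nat_lit 99) (nat_lit 5) (nat_lit 102) (nat_lit 5) (nat_lit 100) (nat_lit 5) (nat_lit 534) (nat_lit 460) (nat_lit 206)) (XT.lf (nat_lit 0) (nat_lit 15692889104) (nat_lit 228) (nat_lit 12371552040) (nat_lit 304) (nat_lit 60221185512) (nat_lit 96) (nat_lit 5) (nat_lit 99) (nat_lit 5) (nat_lit 100) (nat_lit 5) (nat_lit 535) (nat_lit 460) (nat_lit 205)))) (XT.nd (nat_lit 156) (nat_lit 304) (nat_lit 0) (XT.nd (nat_lit 78) (nat_lit 152) (nat_lit 0) (XT.lf (nat_lit 0) (nat_lit 50302254148) (nat_lit 304) (nat_lit 22053083797) (nat_lit 76) (nat_lit 17674295871) (nat_lit 96) (nat_lit 5) (nat_lit 100) (nat_lit 5) (nat_lit 97) (nat_lit 5) (nat_lit 536) (nat_lit 460) (nat_lit 204)) (XT.lf (nat_lit 0) (nat_lit 30473314471) (nat_lit 152) (nat_lit 43148375560) (nat_lit 228) (nat_lit 18191836585) (nat_lit 94) (nat_lit 5) (nat_lit 96) (nat_lit 5)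 (nat_lit 97) (nat_lit 5) (nat_lit 537) (nat_lit 460) (nat_lit 203))) (XT.nd (nat_lit 78) (nat_lit 228) (nat_lit 0) (XT.lf (nat_lit 0) (nat_lit 4135888182) (nat_lit 228) (nat_lit 8658842620) (nat_lit 76) (nat_lit 80848335804) (nat_lit 93) (nat_lit 5) (nat_lit 96) (nat_lit 5) (nat_lit 94) (nat_lit 5) (nat_lit 538) (nat_lit 460) (nat_lit 202)) (XT.lf (nat_lit 0) (nat_lit 27395939456) (nat_lit 304) (nat_lit 49367214732) (nat_lit 76) (nat_lit 18740091184) (nat_lit 90) (nat_lit 5) (nat_lit 94) (nat_lit 5) (nat_lit 91) (nat_lit 5) (nat_lit 539) (nat_lit 460) (nat_lit 201))))) (XT.nd (nat_lit 56316) (nat_lit 0) (nat_lit 14364) (XT.nd (nat_lit 156) (nat_lit 228) (nat_lit 0) (XT.nd (nat_lit 78) (nat_lit 0) (nat_lit 0) (XT.lf (nat_lit 0) (nat_lit 5310155463) (nat_lit 152) (nat_lit 46308769457) (nat_lit 228) (nat_lit 45792350675) (nat_lit 88) (nat_lit 5) (nat_lit 90) (nat_lit 5) (nat_lit 91) (nat_lit 5) (nat_lit 540) (nat_lit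 460) (nat_lit 200)) (XT.lf (nat_lit 0) (nat_lit 62638281485) (nat_lit 152) (nat_lit 14427946402) (nat_lit 228) (nat_lit 22295390069) (nat_lit 88) (nat_lit 5) (nat_lit 90) (nat_lit 5) (nat_lit 91) (nat_lit 5) (nat_lit 541) (nat_lit 460) (nat_lit 199))) (XT.nd (nat_lit 78) (nat_lit 0) (nat_lit 0) (XT.lf (nat_lit 0) (nat_lit 2246496666) (nat_lit 228) (nat_lit 80843217951) (nat_lit 76) (nat_lit 18268889661) (nat_lit 85) (nat_lit 5) (nat_lit 88) (nat_lit 5) (nat_lit 86) (nat_lit 5) (nat_lit 542) (nat_lit 460) (nat_lit 198)) (XT.lf (nat_lit 0) (nat_lit 27593018659) (nat_lit 228) (nat_lit 23549102758) (nat_lit 76) (nat_lit 52251261626) (nat_lit 85) (nat_lit 5) (nat_lit 88) (nat_lit 5) (nat_lit 86) (nat_lit 5) (nat_lit 543) (nat_lit 460) (nat_lit 197)))) (XT.nd (nat_lit 156) (nat_lit 0) (nat_lit 76) (XT.nd (nat_lit 78) (nat_lit 0) (nat_lit 0) (XT.lf (nat_lit 0) (nat_lit 3816970069) (nat_lit 1292) (nat_lit 4276440762) (nat_lit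 1292) (nat_lit 4276440762) (nat_lit 274) (nat_lit 3) (nat_lit 291) (nat_lit 3) (nat_lit 291) (nat_lit 5) (nat_lit 461) (nat_lit 461) (nat_lit 278)) (XT.lf (nat_lit 76) (nat_lit 3640106881) (nat_lit 0) (nat_lit 4249824261) (nat_lit 1292) (nat_lit 17216598361) (nat_lit 275) (nat_lit 5) (nat_lit 274) (nat_lit 3) (nat_lit 291) (nat_lit 5) (nat_lit 462) (nat_lit 461) (nat_lit 277))) (XT.nd (nat_lit 78) (nat_lit 0) (nat_lit 0) (XT.lf (nat_lit 0) (nat_lit 8314002645) (nat_lit 1216) (nat_lit 9188079163) (nat_lit 1292) (nat_lit 7977467744) (nat_lit 275) (nat_lit 5) (nat_lit 291) (nat_lit 5) (nat_lit 292) (nat_lit 5) (nat_lit 463) (nat_lit 461) (nat_lit 276)) (XT.lf (nat_lit 76) (nat_lit 3482226858) (nat_lit 0) (nat_lit 5340083430) (nat_lit 1292) (nat_lit 17039305433) (nat_lit 276) (nat_lit 5) (nat_lit 275) (nat_lit 5) (nat_lit 292) (nat_lit 5) (nat_lit 464) (nat_lit 461) (nat_lit 275)))))) (XT.nd (nat_lit 546) (nat_lit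 836) (nat_lit 0) (XT.nd (nat_lit 234) (nat_lit 0) (nat_lit 76) (XT.nd (nat_lit 78) (nat_lit 0) (nat_lit 0) (XT.lf (nat_lit 0) (nat_lit 9504726698) (nat_lit 1216) (nat_lit 9603748447) (nat_lit 1292) (nat_lit 7141903856) (nat_lit 276) (nat_lit 5) (nat_lit 292) (nat_lit 5) (nat_lit 293) (nat_lit 5) (nat_lit 465) (nat_lit 461) (nat_lit 274)) (XT.nd (nat_lit 78) (nat_lit 0) (nat_lit 76) (XT.lf (nat_lit 76) (nat_lit 3569640379) (nat_lit 0) (nat_lit 6721350848) (nat_lit 1292) (nat_lit 16357313568) (nat_lit 277) (nat_lit 5) (nat_lit 276) (nat_lit 5) (nat_lit 293) (nat_lit 5) (nat_lit 466) (nat_lit 461) (nat_lit 273)) (XT.lf (nat_lit 0) (nat_lit 11253110773) (nat_lit 1216) (nat_lit 9781564889) (nat_lit 1292) (nat_lit 6018925548) (nat_lit 277) (nat_lit 5) (nat_lit 293) (nat_lit 5) (nat_lit 294) (nat_lit 5) (nat_lit 467) (nat_lit 461) (nat_lit 272)))) (XT.nd (nat_lit 156) (nat_lit 0) (nat_lit 76) (XT.nd (nat_lit 78) (nat_lit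 0) (nat_lit 76) (XT.lf (nat_lit 76) (nat_lit 3922095013) (nat_lit 0) (nat_lit 8422649277) (nat_lit 1292) (nat_lit 15123293549) (nat_lit 278) (nat_lit 5) (nat_lit 277) (nat_lit 5) (nat_lit 294) (nat_lit 5) (nat_lit 468) (nat_lit 461) (nat_lit 271)) (XT.lf (nat_lit 0) (nat_lit 13609282192) (nat_lit 1216) (nat_lit 9701886688) (nat_lit 1292) (nat_lit 4579534835) (nat_lit 278) (nat_lit 5) (nat_lit 294) (nat_lit 5) (nat_lit 295) (nat_lit 5) (nat_lit 469) (nat_lit 461) (nat_lit 270))) (XT.nd (nat_lit 78) (nat_lit 0) (nat_lit 76) (XT.lf (nat_lit 76) (nat_lit 4560732053) (nat_lit 0) (nat_lit 10474854275) (nat_lit 1292) (nat_lit 13286749124) (nat_lit 279) (nat_lit 5) (nat_lit 278) (nat_lit 5) (nat_lit 295) (nat_lit 5) (nat_lit 470) (nat_lit 461) (nat_lit 269)) (XT.lf (nat_lit 0) (nat_lit 16626704235) (nat_lit 1216) (nat_lit 9343689729) (nat_lit 1292) (nat_lit 2792862200) (nat_lit 279) (nat_lit 5) (nat_lit 295) (nat_lit 5)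 (nat_lit 296) (nat_lit 5) (nat_lit 471) (nat_lit 461) (nat_lit 268))))) (XT.nd (nat_lit 312) (nat_lit 1064) (nat_lit 0) (XT.nd (nat_lit 156) (nat_lit 0) (nat_lit 76) (XT.nd (nat_lit 78) (nat_lit 0) (nat_lit 76) (XT.lf (nat_lit 76) (nat_lit 5508155529) (nat_lit 0) (nat_lit 12910839043) (nat_lit 1292) (nat_lit 10793807500) (nat_lit 280) (nat_lit 5) (nat_lit 279) (nat_lit 5) (nat_lit 296) (nat_lit 5) (nat_lit 472) (nat_lit 461) (nat_lit 267)) (XT.lf (nat_lit 0) (nat_lit 20362394891) (nat_lit 1216) (nat_lit 8684498828) (nat_lit 1292) (nat_lit 626021119) (nat_lit 280) (nat_lit 5) (nat_lit 296) (nat_lit 5) (nat_lit 297) (nat_lit 5) (nat_lit 473) (nat_lit 461) (nat_lit 266))) (XT.nd (nat_lit 78) (nat_lit 0) (nat_lit 0) (XT.lf (nat_lit 76) (nat_lit 6788505146) (nat_lit 0) (nat_lit 15765627422) (nat_lit 1292) (nat_lit 7586998058) (nat_lit 281) (nat_lit 5) (nat_lit 280) (nat_lit 5) (nat_lit 297) (nat_lit 5) (nat_lit 474)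 (nat_lit 461) (nat_lit 265)) (XT.lf (nat_lit 76) (nat_lit 22901360079) (nat_lit 0) (nat_lit 1994974823) (nat_lit 1292) (nat_lit 5724517287) (nat_lit 281) (nat_lit 5) (nat_lit 280) (nat_lit 5) (nat_lit 297) (nat_lit 5) (nat_lit 475) (nat_lit 461) (nat_lit 264)))) (XT.nd (nat_lit 156) (nat_lit 1216) (nat_lit 0) (XT.nd (nat_lit 78) (nat_lit 0) (nat_lit 0) (XT.lf (nat_lit 76) (nat_lit 8427533195) (nat_lit 0) (nat_lit 19076555716) (nat_lit 1292) (nat_lit 3605018579) (nat_lit 282) (nat_lit 5) (nat_lit 281) (nat_lit 5) (nat_lit 298) (nat_lit 5) (nat_lit 476) (nat_lit 461) (nat_lit 263)) (XT.lf (nat_lit 76) (nat_lit 25194701939) (nat_lit 0) (nat_lit 5090054220) (nat_lit 1292) (nat_lit 1324414512) (nat_lit 282) (nat_lit 5) (nat_lit 281) (nat_lit 5) (nat_lit 298) (nat_lit 5) (nat_lit 477) (nat_lit 461) (nat_lit 262))) (XT.nd (nat_lit 78) (nat_lit 0) (nat_lit 0) (XT.lf (nat_lit 0) (nat_lit 1193753776) (nat_lit 1292) (nat_lit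 21677635748) (nat_lit 76) (nat_lit 9246877154) (nat_lit 265) (nat_lit 5) (nat_lit 282) (nat_lit 5) (nat_lit 266) (nat_lit 5) (nat_lit 478) (nat_lit 461) (nat_lit 261)) (XT.lf (nat_lit 0) (nat_lit 3873946252) (nat_lit 1292) (nat_lit 4774383126) (nat_lit 76) (nat_lit 23990520424) (nat_lit 265) (nat_lit 5) (nat_lit 282) (nat_lit 5) (nat_lit 266) (nat_lit 5) (nat_lit 479) (nat_lit 461) (nat_lit 260))))))) (XT.nd (nat_lit 1170) (nat_lit 3344) (nat_lit 0) (XT.nd (nat_lit 546) (nat_lit 2584) (nat_lit 0) (XT.nd (nat_lit 234) (nat_lit 1140) (nat_lit 0) (XT.nd (nat_lit 78) (nat_lit 608) (nat_lit 0) (XT.lf (nat_lit 0) (nat_lit 6814688141) (nat_lit 836) (nat_lit 20345275198) (nat_lit 76) (nat_lit 6009683341) (nat_lit 255) (nat_lit 5) (nat_lit 266) (nat_lit 5) (nat_lit 256) (nat_lit 5) (nat_lit 480) (nat_lit 461) (nat_lit 259)) (XT.nd (nat_lit 78) (nat_lit 608) (nat_lit 0) (XT.lf (nat_lit 0) (nat_lit 9975391581) (nat_lit 836)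 (nat_lit 2754467477) (nat_lit 76) (nat_lit 20982556779) (nat_lit 255) (nat_lit 5) (nat_lit 266) (nat_lit 5) (nat_lit 256) (nat_lit 5) (nat_lit 481) (nat_lit 461) (nat_lit 258)) (XT.lf (nat_lit 0) (nat_lit 13401017342) (nat_lit 684) (nat_lit 18621561298) (nat_lit 76) (nat_lit 2243786927) (nat_lit 247) (nat_lit 5) (nat_lit 256) (nat_lit 5) (nat_lit 248) (nat_lit 5) (nat_lit 482) (nat_lit 461) (nat_lit 257)))) (XT.nd (nat_lit 156) (nat_lit 532) (nat_lit 0) (XT.nd (nat_lit 78) (nat_lit 608) (nat_lit 0) (XT.lf (nat_lit 0) (nat_lit 17081090333) (nat_lit 684) (nat_lit 312278453) (nat_lit 76) (nat_lit 17439015168) (nat_lit 247) (nat_lit 5) (nat_lit 256) (nat_lit 5) (nat_lit 248) (nat_lit 5) (nat_lit 483) (nat_lit 461) (nat_lit 256)) (XT.lf (nat_lit 0) (nat_lit 18913030084) (nat_lit 608) (nat_lit 2137960537) (nat_lit 684) (nat_lit 14359010025) (nat_lit 239) (nat_lit 5) (nat_lit 247) (nat_lit 5) (nat_lit 248) (nat_lit 5)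 (nat_lit 484) (nat_lit 461) (nat_lit 255))) (XT.nd (nat_lit 78) (nat_lit 0) (nat_lit 0) (XT.lf (nat_lit 0) (nat_lit 2635184242) (nat_lit 532) (nat_lit 22661480686) (nat_lit 608) (nat_lit 10703581090) (nat_lit 232) (nat_lit 5) (nat_lit 239) (nat_lit 5) (nat_lit 240) (nat_lit 5) (nat_lit 485) (nat_lit 461) (nat_lit 254)) (XT.lf (nat_lit 0) (nat_lit 22655547110) (nat_lit 532) (nat_lit 7199424335) (nat_lit 608) (nat_lit 6747669921) (nat_lit 232) (nat_lit 5) (nat_lit 239) (nat_lit 5) (nat_lit 240) (nat_lit 5) (nat_lit 486) (nat_lit 461) (nat_lit 253))))) (XT.nd (nat_lit 312) (nat_lit 1444) (nat_lit 0) (XT.nd (nat_lit 156) (nat_lit 532) (nat_lit 0) (XT.nd (nat_lit 78) (nat_lit 76) (nat_lit 0) (XT.lf (nat_lit 0) (nat_lit 6085949188) (nat_lit 532) (nat_lit 28604244829) (nat_lit 608) (nat_lit 2528710014) (nat_lit 225) (nat_lit 5) (nat_lit 232) (nat_lit 5) (nat_lit 233) (nat_lit 5) (nat_lit 487) (nat_lit 461) (nat_lit 252))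 (XT.lf (nat_lit 0) (nat_lit 1992681179) (nat_lit 608) (nat_lit 10936042751) (nat_lit 76) (nat_lit 24918067695) (nat_lit 224) (nat_lit 5) (nat_lit 232) (nat_lit 5) (nat_lit 225) (nat_lit 5) (nat_lit 488) (nat_lit 461) (nat_lit 251))) (XT.nd (nat_lit 78) (nat_lit 0) (nat_lit 0) (XT.lf (nat_lit 0) (nat_lit 6725345653) (nat_lit 608) (nat_lit 28486786892) (nat_lit 76) (nat_lit 3276838940) (nat_lit 217) (nat_lit 5) (nat_lit 225) (nat_lit 5) (nat_lit 218) (nat_lit 5) (nat_lit 489) (nat_lit 461) (nat_lit 250)) (XT.lf (nat_lit 0) (nat_lit 11837426974) (nat_lit 608) (nat_lit 7485796616) (nat_lit 76) (nat_lit 19820070453) (nat_lit 217) (nat_lit 5) (nat_lit 225) (nat_lit 5) (nat_lit 218) (nat_lit 5) (nat_lit 490) (nat_lit 461) (nat_lit 249)))) (XT.nd (nat_lit 156) (nat_lit 912) (nat_lit 0) (XT.nd (nat_lit 78) (nat_lit 0) (nat_lit 0) (XT.lf (nat_lit 0) (nat_lit 14424434676) (nat_lit 532) (nat_lit 2815057370) (nat_lit 608) (nat_lit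 22573655991) (nat_lit 210) (nat_lit 5) (nat_lit 217) (nat_lit 5) (nat_lit 218) (nat_lit 5) (nat_lit 491) (nat_lit 461) (nat_lit 248)) (XT.lf (nat_lit 0) (nat_lit 23014346759) (nat_lit 608) (nat_lit 3494838248) (nat_lit 76) (nat_lit 13987591200) (nat_lit 210) (nat_lit 5) (nat_lit 218) (nat_lit 5) (nat_lit 211) (nat_lit 5) (nat_lit 492) (nat_lit 461) (nat_lit 247))) (XT.nd (nat_lit 78) (nat_lit 456) (nat_lit 0) (XT.lf (nat_lit 0) (nat_lit 19404400740) (nat_lit 456) (nat_lit 9770503694) (nat_lit 532) (nat_lit 12019635444) (nat_lit 204) (nat_lit 5) (nat_lit 210) (nat_lit 5) (nat_lit 211) (nat_lit 5) (nat_lit 493) (nat_lit 461) (nat_lit 246)) (XT.lf (nat_lit 0) (nat_lit 1097065701) (nat_lit 456) (nat_lit 34539299603) (nat_lit 532) (nat_lit 6273388925) (nat_lit 198) (nat_lit 5) (nat_lit 204) (nat_lit 5) (nat_lit 205) (nat_lit 5) (nat_lit 494) (nat_lit 461) (nat_lit 245)))))) (XT.nd (nat_lit 546) (nat_lit 1976) (nat_lit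 0) (XT.nd (nat_lit 234) (nat_lit 836) (nat_lit 0) (XT.nd (nat_lit 78) (nat_lit 532) (nat_lit 0) (XT.lf (nat_lit 0) (nat_lit 25016659381) (nat_lit 456) (nat_lit 17588962525) (nat_lit 532) (nat_lit 31384902) (nat_lit 198) (nat_lit 5) (nat_lit 204) (nat_lit 5) (nat_lit 205) (nat_lit 5) (nat_lit 495) (nat_lit 461) (nat_lit 244)) (XT.nd (nat_lit 78) (nat_lit 0) (nat_lit 0) (XT.lf (nat_lit 0) (nat_lit 6327523830) (nat_lit 456) (nat_lit 4494997) (nat_lit 532) (nat_lit 37050443903) (nat_lit 191) (nat_lit 5) (nat_lit 197) (nat_lit 5) (nat_lit 198) (nat_lit 5) (nat_lit 496) (nat_lit 461) (nat_lit 243)) (XT.lf (nat_lit 0) (nat_lit 13237636972) (nat_lit 532) (nat_lit 12968287844) (nat_lit 76) (nat_lit 17933790223) (nat_lit 191) (nat_lit 5) (nat_lit 198) (nat_lit 5) (nat_lit 192) (nat_lit 5) (nat_lit 497) (nat_lit 461) (nat_lit 242)))) (XT.nd (nat_lit 156) (nat_lit 380) (nat_lit 0) (XT.nd (nat_lit 78) (nat_lit 0) (nat_lit 0)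 (XT.lf (nat_lit 0) (nat_lit 12074356054) (nat_lit 456) (nat_lit 8390420950) (nat_lit 532) (nat_lit 24451477625) (nat_lit 185) (nat_lit 5) (nat_lit 191) (nat_lit 5) (nat_lit 192) (nat_lit 5) (nat_lit 498) (nat_lit 461) (nat_lit 241)) (XT.lf (nat_lit 0) (nat_lit 28134988459) (nat_lit 532) (nat_lit 7677282185) (nat_lit 76) (nat_lit 9897032354) (nat_lit 185) (nat_lit 5) (nat_lit 192) (nat_lit 5) (nat_lit 186) (nat_lit 5) (nat_lit 499) (nat_lit 461) (nat_lit 240))) (XT.nd (nat_lit 78) (nat_lit 0) (nat_lit 0) (XT.lf (nat_lit 0) (nat_lit 18518421475) (nat_lit 380) (nat_lit 17776288159) (nat_lit 456) (nat_lit 10223651378) (nat_lit 180) (nat_lit 5) (nat_lit 185) (nat_lit 5) (nat_lit 186) (nat_lit 5) (nat_lit 500) (nat_lit 461) (nat_lit 239)) (XT.lf (nat_lit 0) (nat_lit 44783556666) (nat_lit 456) (nat_lit 1702620353) (nat_lit 76) (nat_lit 862984009) (nat_lit 180) (nat_lit 5) (nat_lit 186) (nat_lit 5) (nat_lit 181) (nat_lit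 5) (nat_lit 501) (nat_lit 461) (nat_lit 238))))) (XT.nd (nat_lit 312) (nat_lit 760) (nat_lit 0) (XT.nd (nat_lit 156) (nat_lit 380) (nat_lit 0) (XT.nd (nat_lit 78) (nat_lit 380) (nat_lit 0) (XT.lf (nat_lit 0) (nat_lit 5644009760) (nat_lit 456) (nat_lit 22540419034) (nat_lit 76) (nat_lit 20006151298) (nat_lit 174) (nat_lit 5) (nat_lit 180) (nat_lit 5) (nat_lit 175) (nat_lit 5) (nat_lit 502) (nat_lit 461) (nat_lit 237)) (XT.lf (nat_lit 0) (nat_lit 4869030393) (nat_lit 380) (nat_lit 9241886048) (nat_lit 456) (nat_lit 34943686383) (nat_lit 169) (nat_lit 5) (nat_lit 174) (nat_lit 5) (nat_lit 175) (nat_lit 5) (nat_lit 503) (nat_lit 461) (nat_lit 236))) (XT.nd (nat_lit 78) (nat_lit 380) (nat_lit 0) (XT.lf (nat_lit 0) (nat_lit 23158833437) (nat_lit 456) (nat_lit 16477996268) (nat_lit 76) (nat_lit 10297906695) (nat_lit 169) (nat_lit 5) (nat_lit 175) (nat_lit 5) (nat_lit 170) (nat_lit 5) (nat_lit 504) (nat_lit 461) (nat_lit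 235)) (XT.lf (nat_lit 0) (nat_lit 12205403503) (nat_lit 380) (nat_lit 20480084171) (nat_lit 456) (nat_lit 18149567567) (nat_lit 164) (nat_lit 5) (nat_lit 169) (nat_lit 5) (nat_lit 170) (nat_lit 5) (nat_lit 505) (nat_lit 461) (nat_lit 234)))) (XT.nd (nat_lit 156) (nat_lit 380) (nat_lit 0) (XT.nd (nat_lit 78) (nat_lit 380) (nat_lit 0) (XT.lf (nat_lit 0) (nat_lit 42085037103) (nat_lit 380) (nat_lit 577794836) (nat_lit 456) (nat_lit 9094605235) (nat_lit 164) (nat_lit 5) (nat_lit 169) (nat_lit 5) (nat_lit 170) (nat_lit 5) (nat_lit 506) (nat_lit 461) (nat_lit 233)) (XT.lf (nat_lit 0) (nat_lit 617016077) (nat_lit 380) (nat_lit 32344683753) (nat_lit 76) (nat_lit 19734037936) (nat_lit 159) (nat_lit 5) (nat_lit 164) (nat_lit 5) (nat_lit 160) (nat_lit 5) (nat_lit 507) (nat_lit 461) (nat_lit 232))) (XT.nd (nat_lit 78) (nat_lit 380) (nat_lit 0) (XT.lf (nat_lit 0) (nat_lit 10540096105) (nat_lit 380) (nat_lit 2284543651) (nat_lit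 76) (nat_lit 40831759394) (nat_lit 159) (nat_lit 5) (nat_lit 164) (nat_lit 5) (nat_lit 160) (nat_lit 5) (nat_lit 508) (nat_lit 461) (nat_lit 231)) (XT.lf (nat_lit 0) (nat_lit 21119461721) (nat_lit 456) (nat_lit 25470248035) (nat_lit 76) (nat_lit 8045413036) (nat_lit 154) (nat_lit 5) (nat_lit 160) (nat_lit 5) (nat_lit 155) (nat_lit 5) (nat_lit 509) (nat_lit 461) (nat_lit 230))))))))
noncomputable def xc217 : XT := (XT.nd (nat_lit 2340) (nat_lit 608) (nat_lit 0) (XT.nd (nat_lit 1170) (nat_lit 1900) (nat_lit 0) (XT.nd (nat_lit 546) (nat_lit 1444) (nat_lit 0) (XT.nd (nat_lit 234) (nat_lit 684) (nat_lit 0) (XT.nd (nat_lit 78) (nat_lit 304) (nat_lit 0) (XT.lf (nat_lit 0) (nat_lit 5948974229) (nat_lit 304) (nat_lit 26273295631) (nat_lit 380) (nat_lit 23414756648) (nat_lit 150) (nat_lit 5) (nat_lit 154) (nat_lit 5) (nat_lit 155) (nat_lit 5) (nat_lit 510) (nat_lit 461) (nat_lit 229)) (XT.nd (nat_lit 78) (nat_lit 304) (nat_lit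 0) (XT.lf (nat_lit 0) (nat_lit 38830910650) (nat_lit 304) (nat_lit 5083074787) (nat_lit 380) (nat_lit 12747327401) (nat_lit 150) (nat_lit 5) (nat_lit 154) (nat_lit 5) (nat_lit 155) (nat_lit 5) (nat_lit 511) (nat_lit 461) (nat_lit 228)) (XT.lf (nat_lit 0) (nat_lit 15115028817) (nat_lit 304) (nat_lit 41146319221) (nat_lit 380) (nat_lit 1445833052) (nat_lit 146) (nat_lit 5) (nat_lit 150) (nat_lit 5) (nat_lit 151) (nat_lit 5) (nat_lit 512) (nat_lit 461) (nat_lit 227)))) (XT.nd (nat_lit 156) (nat_lit 304) (nat_lit 0) (XT.nd (nat_lit 78) (nat_lit 304) (nat_lit 0) (XT.lf (nat_lit 0) (nat_lit 10226598276) (nat_lit 380) (nat_lit 9516765508) (nat_lit 76) (nat_lit 39031197028) (nat_lit 145) (nat_lit 5) (nat_lit 150) (nat_lit 5) (nat_lit 146) (nat_lit 5) (nat_lit 513) (nat_lit 461) (nat_lit 226)) (XT.lf (nat_lit 0) (nat_lit 22484025412) (nat_lit 380) (nat_lit 34868047583) (nat_lit 76) (nat_lit 2513543175) (nat_lit 141) (nat_lit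 5) (nat_lit 146) (nat_lit 5) (nat_lit 142) (nat_lit 5) (nat_lit 514) (nat_lit 461) (nat_lit 225))) (XT.nd (nat_lit 78) (nat_lit 304) (nat_lit 0) (XT.lf (nat_lit 0) (nat_lit 35400424308) (nat_lit 380) (nat_lit 442452485) (nat_lit 76) (nat_lit 25137789101) (nat_lit 141) (nat_lit 5) (nat_lit 146) (nat_lit 5) (nat_lit 142) (nat_lit 5) (nat_lit 515) (nat_lit 461) (nat_lit 224)) (XT.lf (nat_lit 0) (nat_lit 35710895512) (nat_lit 304) (nat_lit 13335449909) (nat_lit 380) (nat_lit 13072560952) (nat_lit 137) (nat_lit 5) (nat_lit 141) (nat_lit 5) (nat_lit 142) (nat_lit 5) (nat_lit 516) (nat_lit 461) (nat_lit 223))))) (XT.nd (nat_lit 312) (nat_lit 836) (nat_lit 0) (XT.nd (nat_lit 156) (nat_lit 304) (nat_lit 0) (XT.nd (nat_lit 78) (nat_lit 0) (nat_lit 0) (XT.lf (nat_lit 0) (nat_lit 7711886) (nat_lit 304) (nat_lit 53524975355) (nat_lit 76) (nat_lit 9752851844) (nat_lit 133) (nat_lit 5) (nat_lit 137) (nat_lit 5) (nat_lit 134)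 (nat_lit 5) (nat_lit 517) (nat_lit 461) (nat_lit 222)) (XT.lf (nat_lit 0) (nat_lit 13617764657) (nat_lit 304) (nat_lit 17189624609) (nat_lit 76) (nat_lit 33663895208) (nat_lit 133) (nat_lit 5) (nat_lit 137) (nat_lit 5) (nat_lit 134) (nat_lit 5) (nat_lit 518) (nat_lit 461) (nat_lit 221))) (XT.nd (nat_lit 78) (nat_lit 0) (nat_lit 0) (XT.lf (nat_lit 0) (nat_lit 20636654886) (nat_lit 304) (nat_lit 7196645698) (nat_lit 380) (nat_lit 37853386345) (nat_lit 129) (nat_lit 5) (nat_lit 133) (nat_lit 5) (nat_lit 134) (nat_lit 5) (nat_lit 519) (nat_lit 461) (nat_lit 220)) (XT.lf (nat_lit 0) (nat_lit 42814014491) (nat_lit 380) (nat_lit 7151399156) (nat_lit 76) (nat_lit 16962976600) (nat_lit 129) (nat_lit 5) (nat_lit 134) (nat_lit 5) (nat_lit 130) (nat_lit 5) (nat_lit 520) (nat_lit 461) (nat_lit 219)))) (XT.nd (nat_lit 156) (nat_lit 228) (nat_lit 0) (XT.nd (nat_lit 78) (nat_lit 380) (nat_lit 0) (XT.lf (nat_lit 0) (nat_lit 32444258130)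 (nat_lit 228) (nat_lit 26181874603) (nat_lit 304) (nat_lit 9569752585) (nat_lit 126) (nat_lit 5) (nat_lit 129) (nat_lit 5) (nat_lit 130) (nat_lit 5) (nat_lit 521) (nat_lit 461) (nat_lit 218)) (XT.lf (nat_lit 0) (nat_lit 3896659703) (nat_lit 304) (nat_lit 1518204576) (nat_lit 380) (nat_lit 64081703204) (nat_lit 121) (nat_lit 5) (nat_lit 125) (nat_lit 5) (nat_lit 126) (nat_lit 5) (nat_lit 522) (nat_lit 461) (nat_lit 217))) (XT.nd (nat_lit 78) (nat_lit 228) (nat_lit 0) (XT.lf (nat_lit 0) (nat_lit 21249743661) (nat_lit 380) (nat_lit 25687896683) (nat_lit 76) (nat_lit 23877995400) (nat_lit 121) (nat_lit 5) (nat_lit 126) (nat_lit 5) (nat_lit 122) (nat_lit 5) (nat_lit 523) (nat_lit 461) (nat_lit 216)) (XT.lf (nat_lit 0) (nat_lit 15711278712) (nat_lit 228) (nat_lit 22013351699) (nat_lit 304) (nat_lit 34444696941) (nat_lit 118) (nat_lit 5) (nat_lit 121) (nat_lit 5) (nat_lit 122) (nat_lit 5) (nat_lit 524) (nat_lit 461) (nat_lit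 215)))))) (XT.nd (nat_lit 546) (nat_lit 912) (nat_lit 0) (XT.nd (nat_lit 234) (nat_lit 684) (nat_lit 0) (XT.nd (nat_lit 78) (nat_lit 304) (nat_lit 0) (XT.lf (nat_lit 0) (nat_lit 54989810689) (nat_lit 304) (nat_lit 14716336487) (nat_lit 76) (nat_lit 3848601245) (nat_lit 118) (nat_lit 5) (nat_lit 122) (nat_lit 5) (nat_lit 119) (nat_lit 5) (nat_lit 525) (nat_lit 461) (nat_lit 214)) (XT.nd (nat_lit 78) (nat_lit 76) (nat_lit 0) (XT.lf (nat_lit 0) (nat_lit 28616375647) (nat_lit 228) (nat_lit 44648546420) (nat_lit 304) (nat_lit 1702050901) (nat_lit 115) (nat_lit 5) (nat_lit 118) (nat_lit 5) (nat_lit 119) (nat_lit 5) (nat_lit 526) (nat_lit 461) (nat_lit 213)) (XT.lf (nat_lit 0) (nat_lit 15510033548) (nat_lit 304) (nat_lit 3020146219) (nat_lit 76) (nat_lit 57882395900) (nat_lit 114) (nat_lit 5) (nat_lit 118) (nat_lit 5) (nat_lit 115) (nat_lit 5) (nat_lit 527) (nat_lit 461) (nat_lit 212)))) (XT.nd (nat_lit 156) (nat_lit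 228) (nat_lit 0) (XT.nd (nat_lit 78) (nat_lit 228) (nat_lit 0) (XT.lf (nat_lit 0) (nat_lit 33695683397) (nat_lit 304) (nat_lit 35554048564) (nat_lit 76) (nat_lit 8636566660) (nat_lit 111) (nat_lit 5) (nat_lit 115) (nat_lit 5) (nat_lit 112) (nat_lit 5) (nat_lit 528) (nat_lit 461) (nat_lit 211)) (XT.lf (nat_lit 0) (nat_lit 9707806693) (nat_lit 228) (nat_lit 43025666254) (nat_lit 304) (nat_lit 26661563316) (nat_lit 108) (nat_lit 5) (nat_lit 111) (nat_lit 5) (nat_lit 112) (nat_lit 5) (nat_lit 529) (nat_lit 461) (nat_lit 210))) (XT.nd (nat_lit 78) (nat_lit 228) (nat_lit 0) (XT.lf (nat_lit 0) (nat_lit 57054688684) (nat_lit 228) (nat_lit 15645733516) (nat_lit 304) (nat_lit 8237873157) (nat_lit 108) (nat_lit 5) (nat_lit 111) (nat_lit 5) (nat_lit 112) (nat_lit 5) (nat_lit 530) (nat_lit 461) (nat_lit 209)) (XT.lf (nat_lit 0) (nat_lit 10879304338) (nat_lit 228) (nat_lit 58991135377) (nat_lit 76) (nat_lit 12643806127) (nat_lit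 105) (nat_lit 5) (nat_lit 108) (nat_lit 5) (nat_lit 106) (nat_lit 5) (nat_lit 531) (nat_lit 461) (nat_lit 208))))) (XT.nd (nat_lit 312) (nat_lit 456) (nat_lit 0) (XT.nd (nat_lit 156) (nat_lit 228) (nat_lit 0) (XT.nd (nat_lit 78) (nat_lit 228) (nat_lit 0) (XT.lf (nat_lit 0) (nat_lit 30801924029) (nat_lit 228) (nat_lit 11529109736) (nat_lit 76) (nat_lit 41792069278) (nat_lit 105) (nat_lit 5) (nat_lit 108) (nat_lit 5) (nat_lit 106) (nat_lit 5) (nat_lit 532) (nat_lit 461) (nat_lit 207)) (XT.lf (nat_lit 0) (nat_lit 38098635152) (nat_lit 228) (nat_lit 13588869127) (nat_lit 304) (nat_lit 34081763312) (nat_lit 102) (nat_lit 5) (nat_lit 105) (nat_lit 5) (nat_lit 106) (nat_lit 5) (nat_lit 533) (nat_lit 461) (nat_lit 206))) (XT.nd (nat_lit 78) (nat_lit 76) (nat_lit 0) (XT.lf (nat_lit 0) (nat_lit 1870020611) (nat_lit 152) (nat_lit 71618193511) (nat_lit 228) (nat_lit 13967946177) (nat_lit 100) (nat_lit 5) (nat_lit 102) (nat_lit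 5) (nat_lit 103) (nat_lit 5) (nat_lit 534) (nat_lit 461) (nat_lit 205)) (XT.lf (nat_lit 0) (nat_lit 7237335821) (nat_lit 228) (nat_lit 35510904269) (nat_lit 76) (nat_lit 46424880836) (nat_lit 99) (nat_lit 5) (nat_lit 102) (nat_lit 5) (nat_lit 100) (nat_lit 5) (nat_lit 535) (nat_lit 461) (nat_lit 204)))) (XT.nd (nat_lit 156) (nat_lit 228) (nat_lit 0) (XT.nd (nat_lit 78) (nat_lit 0) (nat_lit 0) (XT.lf (nat_lit 0) (nat_lit 16243718863) (nat_lit 228) (nat_lit 12709551264) (nat_lit 304) (nat_lit 61979514359) (nat_lit 96) (nat_lit 5) (nat_lit 99) (nat_lit 5) (nat_lit 100) (nat_lit 5) (nat_lit 536) (nat_lit 461) (nat_lit 203)) (XT.lf (nat_lit 0) (nat_lit 51857160978) (nat_lit 304) (nat_lit 22635904055) (nat_lit 76) (nat_lit 18236078643) (nat_lit 96) (nat_lit 5) (nat_lit 100) (nat_lit 5) (nat_lit 97) (nat_lit 5) (nat_lit 537) (nat_lit 461) (nat_lit 202))) (XT.nd (nat_lit 78) (nat_lit 76) (nat_lit 0) (XT.lf (nat_lit 0)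 (nat_lit 31465513884) (nat_lit 152) (nat_lit 44410080714) (nat_lit 228) (nat_lit 18690976338) (nat_lit 94) (nat_lit 5) (nat_lit 96) (nat_lit 5) (nat_lit 97) (nat_lit 5) (nat_lit 538) (nat_lit 461) (nat_lit 201)) (XT.lf (nat_lit 0) (nat_lit 4304339304) (nat_lit 228) (nat_lit 8841992985) (nat_lit 76) (nat_lit 83304691441) (nat_lit 93) (nat_lit 5) (nat_lit 96) (nat_lit 5) (nat_lit 94) (nat_lit 5) (nat_lit 539) (nat_lit 461) (nat_lit 200))))))) (XT.nd (nat_lit 57252) (nat_lit 0) (nat_lit 10640) (XT.nd (nat_lit 56628) (nat_lit 0) (nat_lit 14440) (XT.nd (nat_lit 234) (nat_lit 228) (nat_lit 0) (XT.nd (nat_lit 78) (nat_lit 152) (nat_lit 0) (XT.lf (nat_lit 0) (nat_lit 28261937014) (nat_lit 304) (nat_lit 50771357622) (nat_lit 76) (nat_lit 19333720982) (nat_lit 90) (nat_lit 5) (nat_lit 94) (nat_lit 5) (nat_lit 91) (nat_lit 5) (nat_lit 540) (nat_lit 461) (nat_lit 199)) (XT.nd (nat_lit 78) (nat_lit 0) (nat_lit 0) (XT.lf (nat_lit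 0) (nat_lit 5545580017) (nat_lit 152) (nat_lit 47665478706) (nat_lit 228) (nat_lit 47121244727) (nat_lit 88) (nat_lit 5) (nat_lit 90) (nat_lit 5) (nat_lit 91) (nat_lit 5) (nat_lit 541) (nat_lit 461) (nat_lit 198)) (XT.lf (nat_lit 0) (nat_lit 64591332735) (nat_lit 152) (nat_lit 14829179129) (nat_lit 228) (nat_lit 22920682385) (nat_lit 88) (nat_lit 5) (nat_lit 90) (nat_lit 5) (nat_lit 91) (nat_lit 5) (nat_lit 542) (nat_lit 461) (nat_lit 197)))) (XT.nd (nat_lit 56238) (nat_lit 0) (nat_lit 14364) (XT.nd (nat_lit 56160) (nat_lit 0) (nat_lit 14364) (XT.lf (nat_lit 0) (nat_lit 2356384101) (nat_lit 228) (nat_lit 83193528457) (nat_lit 76) (nat_lit 18848171931) (nat_lit 85) (nat_lit 5) (nat_lit 88) (nat_lit 5) (nat_lit 86) (nat_lit 5) (nat_lit 543) (nat_lit 461) (nat_lit 196)) (XT.lf (nat_lit 0) (nat_lit 4036946483) (nat_lit 1292) (nat_lit 4350406051) (nat_lit 1292) (nat_lit 4350406051) (nat_lit 274) (nat_lit 3) (nat_lit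 291) (nat_lit 3) (nat_lit 291) (nat_lit 5) (nat_lit 462) (nat_lit 462) (nat_lit 276))) (XT.nd (nat_lit 78) (nat_lit 0) (nat_lit 76) (XT.lf (nat_lit 76) (nat_lit 3856900702) (nat_lit 0) (nat_lit 4475553499) (nat_lit 1292) (nat_lit 17521048789) (nat_lit 275) (nat_lit 5) (nat_lit 274) (nat_lit 3) (nat_lit 291) (nat_lit 5) (nat_lit 463) (nat_lit 462) (nat_lit 275)) (XT.lf (nat_lit 0) (nat_lit 8762336156) (nat_lit 1216) (nat_lit 9352306680) (nat_lit 1292) (nat_lit 8123279543) (nat_lit 275) (nat_lit 5) (nat_lit 291) (nat_lit 5) (nat_lit 292) (nat_lit 5) (nat_lit 464) (nat_lit 462) (nat_lit 274))))) (XT.nd (nat_lit 312) (nat_lit 0) (nat_lit 152) (XT.nd (nat_lit 156) (nat_lit 0) (nat_lit 76) (XT.nd (nat_lit 78) (nat_lit 0) (nat_lit 76) (XT.lf (nat_lit 76) (nat_lit 3697016219) (nat_lit 0) (nat_lit 5584143702) (nat_lit 1292) (nat_lit 17350433953) (nat_lit 276) (nat_lit 5) (nat_lit 275) (nat_lit 5) (nat_lit 292) (nat_lit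 5) (nat_lit 465) (nat_lit 462) (nat_lit 273)) (XT.lf (nat_lit 0) (nat_lit 9977610471) (nat_lit 1216) (nat_lit 9778269670) (nat_lit 1292) (nat_lit 7276334369) (nat_lit 276) (nat_lit 5) (nat_lit 292) (nat_lit 5) (nat_lit 293) (nat_lit 5) (nat_lit 466) (nat_lit 462) (nat_lit 272))) (XT.nd (nat_lit 78) (nat_lit 0) (nat_lit 76) (XT.lf (nat_lit 76) (nat_lit 3789207181) (nat_lit 0) (nat_lit 6993868746) (nat_lit 1292) (nat_lit 16659135032) (nat_lit 277) (nat_lit 5) (nat_lit 276) (nat_lit 5) (nat_lit 293) (nat_lit 5) (nat_lit 467) (nat_lit 462) (nat_lit 271)) (XT.lf (nat_lit 0) (nat_lit 11768057151) (nat_lit 1216) (nat_lit 9959767284) (nat_lit 1292) (nat_lit 6132023121) (nat_lit 277) (nat_lit 5) (nat_lit 293) (nat_lit 5) (nat_lit 294) (nat_lit 5) (nat_lit 468) (nat_lit 462) (nat_lit 270)))) (XT.nd (nat_lit 156) (nat_lit 0) (nat_lit 76) (XT.nd (nat_lit 78) (nat_lit 0) (nat_lit 76) (XT.lf (nat_lit 76) (nat_lit 4153872567)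 (nat_lit 0) (nat_lit 8734498424) (nat_lit 1292) (nat_lit 15398469550) (nat_lit 278) (nat_lit 5) (nat_lit 277) (nat_lit 5) (nat_lit 294) (nat_lit 5) (nat_lit 469) (nat_lit 462) (nat_lit 269)) (XT.lf (nat_lit 0) (nat_lit 14185245703) (nat_lit 1216) (nat_lit 9876514249) (nat_lit 1292) (nat_lit 4660595584) (nat_lit 278) (nat_lit 5) (nat_lit 294) (nat_lit 5) (nat_lit 295) (nat_lit 5) (nat_lit 470) (nat_lit 462) (nat_lit 268))) (XT.nd (nat_lit 78) (nat_lit 0) (nat_lit 76) (XT.lf (nat_lit 76) (nat_lit 4812841594) (nat_lit 0) (nat_lit 10837721554) (nat_lit 1292) (nat_lit 13516487479) (nat_lit 279) (nat_lit 5) (nat_lit 278) (nat_lit 5) (nat_lit 295) (nat_lit 5) (nat_lit 471) (nat_lit 462) (nat_lit 267)) (XT.lf (nat_lit 0) (nat_lit 17284186769) (nat_lit 1216) (nat_lit 9506806394) (nat_lit 1292) (nat_lit 2830363728) (nat_lit 279) (nat_lit 5) (nat_lit 295) (nat_lit 5) (nat_lit 296) (nat_lit 5) (nat_lit 472) (nat_lit 462) (nat_lit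 266)))))) (XT.nd (nat_lit 624) (nat_lit 3040) (nat_lit 0) (XT.nd (nat_lit 312) (nat_lit 1064) (nat_lit 0) (XT.nd (nat_lit 156) (nat_lit 0) (nat_lit 76) (XT.nd (nat_lit 78) (nat_lit 0) (nat_lit 76) (XT.lf (nat_lit 76) (nat_lit 5789445261) (nat_lit 0) (nat_lit 13337294263) (nat_lit 1292) (nat_lit 10957755904) (nat_lit 280) (nat_lit 5) (nat_lit 279) (nat_lit 5) (nat_lit 296) (nat_lit 5) (nat_lit 473) (nat_lit 462) (nat_lit 265)) (XT.lf (nat_lit 0) (nat_lit 21123557002) (nat_lit 1216) (nat_lit 8827449411) (nat_lit 1292) (nat_lit 607552743) (nat_lit 280) (nat_lit 5) (nat_lit 296) (nat_lit 5) (nat_lit 297) (nat_lit 5) (nat_lit 474) (nat_lit 462) (nat_lit 264))) (XT.nd (nat_lit 78) (nat_lit 0) (nat_lit 0) (XT.lf (nat_lit 76) (nat_lit 7108591895) (nat_lit 0) (nat_lit 16269196740) (nat_lit 1292) (nat_lit 7663131530) (nat_lit 281) (nat_lit 5) (nat_lit 280) (nat_lit 5) (nat_lit 297) (nat_lit 5) (nat_lit 475) (nat_lit 462)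 (nat_lit 263)) (XT.lf (nat_lit 76) (nat_lit 23701441264) (nat_lit 0) (nat_lit 2084533287) (nat_lit 1292) (nat_lit 5749188272) (nat_lit 281) (nat_lit 5) (nat_lit 280) (nat_lit 5) (nat_lit 297) (nat_lit 5) (nat_lit 476) (nat_lit 462) (nat_lit 262)))) (XT.nd (nat_lit 156) (nat_lit 1216) (nat_lit 0) (XT.nd (nat_lit 78) (nat_lit 0) (nat_lit 0) (XT.lf (nat_lit 76) (nat_lit 8796846747) (nat_lit 0) (nat_lit 19671799163) (nat_lit 1292) (nat_lit 3569520277) (nat_lit 282) (nat_lit 5) (nat_lit 281) (nat_lit 5) (nat_lit 298) (nat_lit 5) (nat_lit 477) (nat_lit 462) (nat_lit 261)) (XT.lf (nat_lit 76) (nat_lit 26063637711) (nat_lit 0) (nat_lit 5265034269) (nat_lit 1292) (nat_lit 1224682035) (nat_lit 282) (nat_lit 5) (nat_lit 281) (nat_lit 5) (nat_lit 298) (nat_lit 5) (nat_lit 478) (nat_lit 462) (nat_lit 260))) (XT.nd (nat_lit 78) (nat_lit 0) (nat_lit 0) (XT.lf (nat_lit 0) (nat_lit 1363245572) (nat_lit 1292) (nat_lit 22209025860)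 (nat_lit 76) (nat_lit 9505504045) (nat_lit 265) (nat_lit 5) (nat_lit 282) (nat_lit 5) (nat_lit 266) (nat_lit 5) (nat_lit 479) (nat_lit 462) (nat_lit 259)) (XT.lf (nat_lit 0) (nat_lit 4119950254) (nat_lit 1292) (nat_lit 4802139901) (nat_lit 76) (nat_lit 24692003587) (nat_lit 265) (nat_lit 5) (nat_lit 282) (nat_lit 5) (nat_lit 266) (nat_lit 5) (nat_lit 480) (nat_lit 462) (nat_lit 258))))) (XT.nd (nat_lit 312) (nat_lit 1672) (nat_lit 0) (XT.nd (nat_lit 156) (nat_lit 608) (nat_lit 0) (XT.nd (nat_lit 78) (nat_lit 0) (nat_lit 0) (XT.lf (nat_lit 0) (nat_lit 7146110691) (nat_lit 836) (nat_lit 20837327856) (nat_lit 76) (nat_lit 6177460906) (nat_lit 255) (nat_lit 5) (nat_lit 266) (nat_lit 5) (nat_lit 256) (nat_lit 5) (nat_lit 481) (nat_lit 462) (nat_lit 257)) (XT.lf (nat_lit 0) (nat_lit 10397936732) (nat_lit 836) (nat_lit 2722241697) (nat_lit 76) (nat_lit 21599885001) (nat_lit 255) (nat_lit 5) (nat_lit 266) (nat_lit 5) (nat_lit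 256) (nat_lit 5) (nat_lit 482) (nat_lit 462) (nat_lit 256))) (XT.nd (nat_lit 78) (nat_lit 0) (nat_lit 0) (XT.lf (nat_lit 0) (nat_lit 13923765975) (nat_lit 684) (nat_lit 19062757431) (nat_lit 76) (nat_lit 2304185973) (nat_lit 247) (nat_lit 5) (nat_lit 256) (nat_lit 5) (nat_lit 248) (nat_lit 5) (nat_lit 483) (nat_lit 462) (nat_lit 255)) (XT.lf (nat_lit 0) (nat_lit 17710725095) (nat_lit 684) (nat_lit 207616995) (nat_lit 76) (nat_lit 17955472456) (nat_lit 247) (nat_lit 5) (nat_lit 256) (nat_lit 5) (nat_lit 248) (nat_lit 5) (nat_lit 484) (nat_lit 462) (nat_lit 254)))) (XT.nd (nat_lit 156) (nat_lit 532) (nat_lit 0) (XT.nd (nat_lit 78) (nat_lit 532) (nat_lit 0) (XT.lf (nat_lit 0) (nat_lit 19593332859) (nat_lit 608) (nat_lit 2204061258) (nat_lit 684) (nat_lit 14671436194) (nat_lit 239) (nat_lit 5) (nat_lit 247) (nat_lit 5) (nat_lit 248) (nat_lit 5) (nat_lit 485) (nat_lit 462) (nat_lit 253)) (XT.lf (nat_lit 0) (nat_lit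 2829499668) (nat_lit 532) (nat_lit 23338682786) (nat_lit 608) (nat_lit 10908668979) (nat_lit 232) (nat_lit 5) (nat_lit 239) (nat_lit 5) (nat_lit 240) (nat_lit 5) (nat_lit 486) (nat_lit 462) (nat_lit 252))) (XT.nd (nat_lit 78) (nat_lit 532) (nat_lit 0) (XT.lf (nat_lit 0) (nat_lit 23447116338) (nat_lit 532) (nat_lit 7412841705) (nat_lit 608) (nat_lit 6837459684) (nat_lit 232) (nat_lit 5) (nat_lit 239) (nat_lit 5) (nat_lit 240) (nat_lit 5) (nat_lit 487) (nat_lit 462) (nat_lit 251)) (XT.lf (nat_lit 0) (nat_lit 6382579471) (nat_lit 532) (nat_lit 29455593512) (nat_lit 608) (nat_lit 2494057882) (nat_lit 225) (nat_lit 5) (nat_lit 232) (nat_lit 5) (nat_lit 233) (nat_lit 5) (nat_lit 488) (nat_lit 462) (nat_lit 250))))))))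
noncomputable def xc218 : XT := (XT.nd (nat_lit 2340) (nat_lit 3420) (nat_lit 0) (XT.nd (nat_lit 1170) (nat_lit 3116) (nat_lit 0) (XT.nd (nat_lit 546) (nat_lit 1824) (nat_lit 0) (XT.nd (nat_lit 234) (nat_lit 1444) (nat_lit 0) (XT.nd (nat_lit 78) (nat_lit 532) (nat_lit 0) (XT.lf (nat_lit 0) (nat_lit 2157662506) (nat_lit 608) (nat_lit 11151279595) (nat_lit 76) (nat_lit 25670076423) (nat_lit 224) (nat_lit 5) (nat_lit 232) (nat_lit 5) (nat_lit 225) (nat_lit 5) (nat_lit 489) (nat_lit 462) (nat_lit 249)) (XT.nd (nat_lit 78) (nat_lit 0) (nat_lit 0) (XT.lf (nat_lit 0) (nat_lit 7030398874) (nat_lit 608) (nat_lit 29226617803) (nat_lit 76) (nat_lit 3383504950) (nat_lit 217) (nat_lit 5) (nat_lit 225) (nat_lit 5) (nat_lit 218) (nat_lit 5) (nat_lit 490) (nat_lit 462) (nat_lit 248)) (XT.lf (nat_lit 0) (nat_lit 12292834105) (nat_lit 608) (nat_lit 7598940712) (nat_lit 76) (nat_lit 20422789888) (nat_lit 217) (nat_lit 5) (nat_lit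 225) (nat_lit 5) (nat_lit 218) (nat_lit 5) (nat_lit 491) (nat_lit 462) (nat_lit 247)))) (XT.nd (nat_lit 156) (nat_lit 912) (nat_lit 0) (XT.nd (nat_lit 78) (nat_lit 0) (nat_lit 0) (XT.lf (nat_lit 0) (nat_lit 14967505070) (nat_lit 532) (nat_lit 2887595787) (nat_lit 608) (nat_lit 23149469842) (nat_lit 210) (nat_lit 5) (nat_lit 217) (nat_lit 5) (nat_lit 218) (nat_lit 5) (nat_lit 492) (nat_lit 462) (nat_lit 246)) (XT.lf (nat_lit 0) (nat_lit 23800445674) (nat_lit 608) (nat_lit 3489785711) (nat_lit 76) (nat_lit 14418559549) (nat_lit 210) (nat_lit 5) (nat_lit 218) (nat_lit 5) (nat_lit 211) (nat_lit 5) (nat_lit 493) (nat_lit 462) (nat_lit 245))) (XT.nd (nat_lit 78) (nat_lit 456) (nat_lit 0) (XT.lf (nat_lit 0) (nat_lit 20095353017) (nat_lit 456) (nat_lit 10048726647) (nat_lit 532) (nat_lit 12283460603) (nat_lit 204) (nat_lit 5) (nat_lit 210) (nat_lit 5) (nat_lit 211) (nat_lit 5) (nat_lit 494) (nat_lit 462) (nat_lit 244))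 (XT.lf (nat_lit 0) (nat_lit 1240397318) (nat_lit 456) (nat_lit 35557451677) (nat_lit 532) (nat_lit 6366408639) (nat_lit 198) (nat_lit 5) (nat_lit 204) (nat_lit 5) (nat_lit 205) (nat_lit 5) (nat_lit 495) (nat_lit 462) (nat_lit 243))))) (XT.nd (nat_lit 312) (nat_lit 836) (nat_lit 0) (XT.nd (nat_lit 156) (nat_lit 456) (nat_lit 0) (XT.nd (nat_lit 78) (nat_lit 456) (nat_lit 0) (XT.lf (nat_lit 0) (nat_lit 58910774) (nat_lit 532) (nat_lit 18039623885) (nat_lit 76) (nat_lit 25814857044) (nat_lit 197) (nat_lit 5) (nat_lit 204) (nat_lit 5) (nat_lit 198) (nat_lit 5) (nat_lit 496) (nat_lit 462) (nat_lit 242)) (XT.lf (nat_lit 0) (nat_lit 6611122159) (nat_lit 532) (nat_lit 38056084232) (nat_lit 76) (nat_lit 14039977) (nat_lit 191) (nat_lit 5) (nat_lit 198) (nat_lit 5) (nat_lit 192) (nat_lit 5) (nat_lit 497) (nat_lit 462) (nat_lit 241))) (XT.nd (nat_lit 78) (nat_lit 456) (nat_lit 0) (XT.lf (nat_lit 0) (nat_lit 13721355665) (nat_lit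 532) (nat_lit 13250095382) (nat_lit 76) (nat_lit 18489842259) (nat_lit 191) (nat_lit 5) (nat_lit 198) (nat_lit 5) (nat_lit 192) (nat_lit 5) (nat_lit 498) (nat_lit 462) (nat_lit 240)) (XT.lf (nat_lit 0) (nat_lit 12542776450) (nat_lit 456) (nat_lit 8621032183) (nat_lit 532) (nat_lit 25097365942) (nat_lit 185) (nat_lit 5) (nat_lit 191) (nat_lit 5) (nat_lit 192) (nat_lit 5) (nat_lit 499) (nat_lit 462) (nat_lit 239)))) (XT.nd (nat_lit 156) (nat_lit 456) (nat_lit 0) (XT.nd (nat_lit 78) (nat_lit 380) (nat_lit 0) (XT.lf (nat_lit 0) (nat_lit 29061845062) (nat_lit 532) (nat_lit 7802207866) (nat_lit 76) (nat_lit 10214030346) (nat_lit 185) (nat_lit 5) (nat_lit 192) (nat_lit 5) (nat_lit 186) (nat_lit 5) (nat_lit 500) (nat_lit 462) (nat_lit 238)) (XT.lf (nat_lit 0) (nat_lit 19178333641) (nat_lit 380) (nat_lit 18286615546) (nat_lit 456) (nat_lit 10446506527) (nat_lit 180) (nat_lit 5) (nat_lit 185) (nat_lit 5) (nat_lit 186) (nat_lit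 5) (nat_lit 501) (nat_lit 462) (nat_lit 237))) (XT.nd (nat_lit 78) (nat_lit 456) (nat_lit 0) (XT.lf (nat_lit 0) (nat_lit 46206305096) (nat_lit 456) (nat_lit 1650208738) (nat_lit 76) (nat_lit 910731006) (nat_lit 180) (nat_lit 5) (nat_lit 186) (nat_lit 5) (nat_lit 181) (nat_lit 5) (nat_lit 502) (nat_lit 462) (nat_lit 236)) (XT.lf (nat_lit 0) (nat_lit 5892033408) (nat_lit 456) (nat_lit 23112576661) (nat_lit 76) (nat_lit 20629313348) (nat_lit 174) (nat_lit 5) (nat_lit 180) (nat_lit 5) (nat_lit 175) (nat_lit 5) (nat_lit 503) (nat_lit 462) (nat_lit 235)))))) (XT.nd (nat_lit 546) (nat_lit 1596) (nat_lit 0) (XT.nd (nat_lit 234) (nat_lit 760) (nat_lit 0) (XT.nd (nat_lit 78) (nat_lit 380) (nat_lit 0) (XT.lf (nat_lit 0) (nat_lit 5118136103) (nat_lit 380) (nat_lit 9493509290) (nat_lit 456) (nat_lit 35912260874) (nat_lit 169) (nat_lit 5) (nat_lit 174) (nat_lit 5) (nat_lit 175) (nat_lit 5) (nat_lit 504) (nat_lit 462) (nat_lit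 234)) (XT.nd (nat_lit 78) (nat_lit 380) (nat_lit 0) (XT.lf (nat_lit 0) (nat_lit 23928984713) (nat_lit 456) (nat_lit 16870274955) (nat_lit 76) (nat_lit 10631245004) (nat_lit 169) (nat_lit 5) (nat_lit 175) (nat_lit 5) (nat_lit 170) (nat_lit 5) (nat_lit 505) (nat_lit 462) (nat_lit 233)) (XT.lf (nat_lit 0) (nat_lit 12672626209) (nat_lit 380) (nat_lit 21067588107) (nat_lit 456) (nat_lit 18617655845) (nat_lit 164) (nat_lit 5) (nat_lit 169) (nat_lit 5) (nat_lit 170) (nat_lit 5) (nat_lit 506) (nat_lit 462) (nat_lit 232)))) (XT.nd (nat_lit 156) (nat_lit 380) (nat_lit 0) (XT.nd (nat_lit 78) (nat_lit 380) (nat_lit 0) (XT.lf (nat_lit 0) (nat_lit 43445705305) (nat_lit 380) (nat_lit 569013546) (nat_lit 456) (nat_lit 9293269850) (nat_lit 164) (nat_lit 5) (nat_lit 169) (nat_lit 5) (nat_lit 170) (nat_lit 5) (nat_lit 507) (nat_lit 462) (nat_lit 231)) (XT.lf (nat_lit 0) (nat_lit 707342231) (nat_lit 380) (nat_lit 33214527243) (nat_lit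 76) (nat_lit 20352575087) (nat_lit 159) (nat_lit 5) (nat_lit 164) (nat_lit 5) (nat_lit 160) (nat_lit 5) (nat_lit 508) (nat_lit 462) (nat_lit 230))) (XT.nd (nat_lit 78) (nat_lit 380) (nat_lit 0) (XT.lf (nat_lit 0) (nat_lit 10926022941) (nat_lit 380) (nat_lit 2255510037) (nat_lit 76) (nat_lit 42082455877) (nat_lit 159) (nat_lit 5) (nat_lit 164) (nat_lit 5) (nat_lit 160) (nat_lit 5) (nat_lit 509) (nat_lit 462) (nat_lit 229)) (XT.lf (nat_lit 0) (nat_lit 21821936509) (nat_lit 456) (nat_lit 26135942291) (nat_lit 76) (nat_lit 8314220704) (nat_lit 154) (nat_lit 5) (nat_lit 160) (nat_lit 5) (nat_lit 155) (nat_lit 5) (nat_lit 510) (nat_lit 462) (nat_lit 228))))) (XT.nd (nat_lit 312) (nat_lit 912) (nat_lit 0) (XT.nd (nat_lit 156) (nat_lit 380) (nat_lit 0) (XT.nd (nat_lit 78) (nat_lit 0) (nat_lit 0) (XT.lf (nat_lit 0) (nat_lit 6224891806) (nat_lit 304) (nat_lit 27031867287) (nat_lit 380) (nat_lit 24047333630) (nat_lit 150)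 (nat_lit 5) (nat_lit 154) (nat_lit 5) (nat_lit 155) (nat_lit 5) (nat_lit 511) (nat_lit 462) (nat_lit 227)) (XT.lf (nat_lit 0) (nat_lit 40090448019) (nat_lit 304) (nat_lit 5206802746) (nat_lit 380) (nat_lit 13061916430) (nat_lit 150) (nat_lit 5) (nat_lit 154) (nat_lit 5) (nat_lit 155) (nat_lit 5) (nat_lit 512) (nat_lit 462) (nat_lit 226))) (XT.nd (nat_lit 78) (nat_lit 76) (nat_lit 0) (XT.lf (nat_lit 0) (nat_lit 15663853960) (nat_lit 304) (nat_lit 42350447688) (nat_lit 380) (nat_lit 1422132104) (nat_lit 146) (nat_lit 5) (nat_lit 150) (nat_lit 5) (nat_lit 151) (nat_lit 5) (nat_lit 513) (nat_lit 462) (nat_lit 225)) (XT.lf (nat_lit 0) (nat_lit 10597247725) (nat_lit 380) (nat_lit 9708392479) (nat_lit 76) (nat_lit 40230233050) (nat_lit 145) (nat_lit 5) (nat_lit 150) (nat_lit 5) (nat_lit 146) (nat_lit 5) (nat_lit 514) (nat_lit 462) (nat_lit 224)))) (XT.nd (nat_lit 156) (nat_lit 608) (nat_lit 0) (XT.nd (nat_lit 78) (nat_lit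 0) (nat_lit 0) (XT.lf (nat_lit 0) (nat_lit 23221720524) (nat_lit 380) (nat_lit 35819527286) (nat_lit 76) (nat_lit 2618433035) (nat_lit 141) (nat_lit 5) (nat_lit 146) (nat_lit 5) (nat_lit 142) (nat_lit 5) (nat_lit 515) (nat_lit 462) (nat_lit 223)) (XT.lf (nat_lit 0) (nat_lit 36523771357) (nat_lit 380) (nat_lit 363918561) (nat_lit 76) (nat_lit 25920547595) (nat_lit 141) (nat_lit 5) (nat_lit 146) (nat_lit 5) (nat_lit 142) (nat_lit 5) (nat_lit 516) (nat_lit 462) (nat_lit 222))) (XT.nd (nat_lit 78) (nat_lit 304) (nat_lit 0) (XT.lf (nat_lit 0) (nat_lit 36873129803) (nat_lit 304) (nat_lit 13705027721) (nat_lit 380) (nat_lit 13402495301) (nat_lit 137) (nat_lit 5) (nat_lit 141) (nat_lit 5) (nat_lit 142) (nat_lit 5) (nat_lit 517) (nat_lit 462) (nat_lit 221)) (XT.lf (nat_lit 0) (nat_lit 68369507) (nat_lit 304) (nat_lit 55037985500) (nat_lit 76) (nat_lit 10075929838) (nat_lit 133) (nat_lit 5) (nat_lit 137) (nat_lit 5) (nat_lit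 134) (nat_lit 5) (nat_lit 518) (nat_lit 462) (nat_lit 220))))))) (XT.nd (nat_lit 1170) (nat_lit 1292) (nat_lit 0) (XT.nd (nat_lit 546) (nat_lit 988) (nat_lit 0) (XT.nd (nat_lit 234) (nat_lit 836) (nat_lit 0) (XT.nd (nat_lit 78) (nat_lit 304) (nat_lit 0) (XT.lf (nat_lit 0) (nat_lit 14084963874) (nat_lit 304) (nat_lit 17615275372) (nat_lit 76) (nat_lit 34703416374) (nat_lit 133) (nat_lit 5) (nat_lit 137) (nat_lit 5) (nat_lit 134) (nat_lit 5) (nat_lit 519) (nat_lit 462) (nat_lit 219)) (XT.nd (nat_lit 78) (nat_lit 0) (nat_lit 0) (XT.lf (nat_lit 0) (nat_lit 21344909783) (nat_lit 304) (nat_lit 7381204383) (nat_lit 380) (nat_lit 38929431749) (nat_lit 129) (nat_lit 5) (nat_lit 133) (nat_lit 5) (nat_lit 134) (nat_lit 5) (nat_lit 520) (nat_lit 462) (nat_lit 218)) (XT.lf (nat_lit 0) (nat_lit 44154858063) (nat_lit 380) (nat_lit 7277984231) (nat_lit 76) (nat_lit 17501699991) (nat_lit 129) (nat_lit 5) (nat_lit 134) (nat_lit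 5) (nat_lit 130) (nat_lit 5) (nat_lit 521) (nat_lit 462) (nat_lit 217)))) (XT.nd (nat_lit 156) (nat_lit 228) (nat_lit 0) (XT.nd (nat_lit 78) (nat_lit 380) (nat_lit 0) (XT.lf (nat_lit 0) (nat_lit 33504680451) (nat_lit 228) (nat_lit 26935853214) (nat_lit 304) (nat_lit 9799552930) (nat_lit 126) (nat_lit 5) (nat_lit 129) (nat_lit 5) (nat_lit 130) (nat_lit 5) (nat_lit 522) (nat_lit 462) (nat_lit 216)) (XT.lf (nat_lit 0) (nat_lit 4100913731) (nat_lit 304) (nat_lit 1531774289) (nat_lit 380) (nat_lit 65947108769) (nat_lit 121) (nat_lit 5) (nat_lit 125) (nat_lit 5) (nat_lit 126) (nat_lit 5) (nat_lit 523) (nat_lit 462) (nat_lit 215))) (XT.nd (nat_lit 78) (nat_lit 228) (nat_lit 0) (XT.lf (nat_lit 0) (nat_lit 21941299263) (nat_lit 380) (nat_lit 26372402925) (nat_lit 76) (nat_lit 24624774533) (nat_lit 121) (nat_lit 5) (nat_lit 126) (nat_lit 5) (nat_lit 122) (nat_lit 5) (nat_lit 524) (nat_lit 462) (nat_lit 214)) (XT.lf (nat_lit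 0) (nat_lit 16267903313) (nat_lit 228) (nat_lit 22641774465) (nat_lit 304) (nat_lit 35423124122) (nat_lit 118) (nat_lit 5) (nat_lit 121) (nat_lit 5) (nat_lit 122) (nat_lit 5) (nat_lit 525) (nat_lit 462) (nat_lit 213))))) (XT.nd (nat_lit 312) (nat_lit 456) (nat_lit 0) (XT.nd (nat_lit 156) (nat_lit 304) (nat_lit 0) (XT.nd (nat_lit 78) (nat_lit 228) (nat_lit 0) (XT.lf (nat_lit 0) (nat_lit 56691559229) (nat_lit 304) (nat_lit 15073764328) (nat_lit 76) (nat_lit 3994499848) (nat_lit 118) (nat_lit 5) (nat_lit 122) (nat_lit 5) (nat_lit 119) (nat_lit 5) (nat_lit 526) (nat_lit 462) (nat_lit 212)) (XT.lf (nat_lit 0) (nat_lit 29558105031) (nat_lit 228) (nat_lit 45956102911) (nat_lit 304) (nat_lit 1700228397) (nat_lit 115) (nat_lit 5) (nat_lit 118) (nat_lit 5) (nat_lit 119) (nat_lit 5) (nat_lit 527) (nat_lit 462) (nat_lit 211))) (XT.nd (nat_lit 78) (nat_lit 228) (nat_lit 0) (XT.lf (nat_lit 0) (nat_lit 16025676373) (nat_lit 304)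 (nat_lit 3028929655) (nat_lit 76) (nat_lit 59648831307) (nat_lit 114) (nat_lit 5) (nat_lit 118) (nat_lit 5) (nat_lit 115) (nat_lit 5) (nat_lit 528) (nat_lit 462) (nat_lit 210)) (XT.lf (nat_lit 0) (nat_lit 34756509747) (nat_lit 304) (nat_lit 36538457910) (nat_lit 76) (nat_lit 8926416057) (nat_lit 111) (nat_lit 5) (nat_lit 115) (nat_lit 5) (nat_lit 112) (nat_lit 5) (nat_lit 529) (nat_lit 462) (nat_lit 209)))) (XT.nd (nat_lit 156) (nat_lit 228) (nat_lit 0) (XT.nd (nat_lit 78) (nat_lit 0) (nat_lit 0) (XT.lf (nat_lit 0) (nat_lit 10080447004) (nat_lit 228) (nat_lit 44284313481) (nat_lit 304) (nat_lit 27410643327) (nat_lit 108) (nat_lit 5) (nat_lit 111) (nat_lit 5) (nat_lit 112) (nat_lit 5) (nat_lit 530) (nat_lit 462) (nat_lit 208)) (XT.lf (nat_lit 0) (nat_lit 58845364403) (nat_lit 228) (nat_lit 16083918375) (nat_lit 304) (nat_lit 8435721110) (nat_lit 108) (nat_lit 5) (nat_lit 111) (nat_lit 5) (nat_lit 112) (nat_lit 5)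 (nat_lit 531) (nat_lit 462) (nat_lit 207))) (XT.nd (nat_lit 78) (nat_lit 0) (nat_lit 0) (XT.lf (nat_lit 0) (nat_lit 11253666989) (nat_lit 228) (nat_lit 60680520298) (nat_lit 76) (nat_lit 13054041813) (nat_lit 105) (nat_lit 5) (nat_lit 108) (nat_lit 5) (nat_lit 106) (nat_lit 5) (nat_lit 532) (nat_lit 462) (nat_lit 206)) (XT.lf (nat_lit 0) (nat_lit 31772567693) (nat_lit 228) (nat_lit 11796974153) (nat_lit 76) (nat_lit 43075852233) (nat_lit 105) (nat_lit 5) (nat_lit 108) (nat_lit 5) (nat_lit 106) (nat_lit 5) (nat_lit 533) (nat_lit 462) (nat_lit 205)))))) (XT.nd (nat_lit 624) (nat_lit 152) (nat_lit 0) (XT.nd (nat_lit 312) (nat_lit 456) (nat_lit 0) (XT.nd (nat_lit 156) (nat_lit 304) (nat_lit 0) (XT.nd (nat_lit 78) (nat_lit 152) (nat_lit 0) (XT.lf (nat_lit 0) (nat_lit 39318838289) (nat_lit 228) (nat_lit 13965262707) (nat_lit 304) (nat_lit 35056861129) (nat_lit 102) (nat_lit 5) (nat_lit 105) (nat_lit 5) (nat_lit 106)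 (nat_lit 5) (nat_lit 534) (nat_lit 462) (nat_lit 204)) (XT.lf (nat_lit 0) (nat_lit 2003680284) (nat_lit 152) (nat_lit 73734850270) (nat_lit 228) (nat_lit 14339940233) (nat_lit 100) (nat_lit 5) (nat_lit 102) (nat_lit 5) (nat_lit 103) (nat_lit 5) (nat_lit 535) (nat_lit 462) (nat_lit 203))) (XT.nd (nat_lit 78) (nat_lit 228) (nat_lit 0) (XT.lf (nat_lit 0) (nat_lit 7499238736) (nat_lit 228) (nat_lit 36500036099) (nat_lit 76) (nat_lit 47847692255) (nat_lit 99) (nat_lit 5) (nat_lit 102) (nat_lit 5) (nat_lit 100) (nat_lit 5) (nat_lit 536) (nat_lit 462) (nat_lit 202)) (XT.lf (nat_lit 0) (nat_lit 16806478714) (nat_lit 228) (nat_lit 13059593258) (nat_lit 304) (nat_lit 63793366074) (nat_lit 96) (nat_lit 5) (nat_lit 99) (nat_lit 5) (nat_lit 100) (nat_lit 5) (nat_lit 537) (nat_lit 462) (nat_lit 201)))) (XT.nd (nat_lit 156) (nat_lit 304) (nat_lit 0) (XT.nd (nat_lit 78) (nat_lit 152) (nat_lit 0) (XT.lf (nat_lit 0) (nat_lit 53456083654)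 (nat_lit 304) (nat_lit 23240730771) (nat_lit 76) (nat_lit 18812903576) (nat_lit 96) (nat_lit 5) (nat_lit 100) (nat_lit 5) (nat_lit 97) (nat_lit 5) (nat_lit 538) (nat_lit 462) (nat_lit 200)) (XT.lf (nat_lit 0) (nat_lit 32483001761) (nat_lit 152) (nat_lit 45711516784) (nat_lit 228) (nat_lit 19207766195) (nat_lit 94) (nat_lit 5) (nat_lit 96) (nat_lit 5) (nat_lit 97) (nat_lit 5) (nat_lit 539) (nat_lit 462) (nat_lit 199))) (XT.nd (nat_lit 78) (nat_lit 228) (nat_lit 0) (XT.lf (nat_lit 0) (nat_lit 4475296684) (nat_lit 228) (nat_lit 9035035869) (nat_lit 76) (nat_lit 85832963641) (nat_lit 93) (nat_lit 5) (nat_lit 96) (nat_lit 5) (nat_lit 94) (nat_lit 5) (nat_lit 540) (nat_lit 462) (nat_lit 198)) (XT.lf (nat_lit 0) (nat_lit 29151381866) (nat_lit 304) (nat_lit 52222037655) (nat_lit 76) (nat_lit 19943355632) (nat_lit 90) (nat_lit 5) (nat_lit 94) (nat_lit 5) (nat_lit 91) (nat_lit 5) (nat_lit 541) (nat_lit 462) (nat_lit 197)))))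 (XT.nd (nat_lit 56472) (nat_lit 0) (nat_lit 14212) (XT.nd (nat_lit 56316) (nat_lit 0) (nat_lit 14136) (XT.nd (nat_lit 78) (nat_lit 0) (nat_lit 0) (XT.lf (nat_lit 0) (nat_lit 5783697714) (nat_lit 152) (nat_lit 49064757956) (nat_lit 228) (nat_lit 48492581694) (nat_lit 88) (nat_lit 5) (nat_lit 90) (nat_lit 5) (nat_lit 91) (nat_lit 5) (nat_lit 542) (nat_lit 462) (nat_lit 196)) (XT.lf (nat_lit 0) (nat_lit 66598733199) (nat_lit 152) (nat_lit 15244263132) (nat_lit 228) (nat_lit 23567234531) (nat_lit 88) (nat_lit 5) (nat_lit 90) (nat_lit 5) (nat_lit 91) (nat_lit 5) (nat_lit 543) (nat_lit 462) (nat_lit 195))) (XT.nd (nat_lit 78) (nat_lit 0) (nat_lit 0) (XT.lf (nat_lit 0) (nat_lit 4257467934) (nat_lit 1292) (nat_lit 4429708944) (nat_lit 1292) (nat_lit 4429708944) (nat_lit 274) (nat_lit 3) (nat_lit 291) (nat_lit 3) (nat_lit 291) (nat_lit 5) (nat_lit 463) (nat_lit 463) (nat_lit 274)) (XT.lf (nat_lit 76) (nat_lit 4074022197)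 (nat_lit 0) (nat_lit 4702415550) (nat_lit 1292) (nat_lit 17846805125) (nat_lit 275) (nat_lit 5) (nat_lit 274) (nat_lit 3) (nat_lit 291) (nat_lit 5) (nat_lit 464) (nat_lit 463) (nat_lit 273)))) (XT.nd (nat_lit 156) (nat_lit 0) (nat_lit 76) (XT.nd (nat_lit 78) (nat_lit 0) (nat_lit 0) (XT.lf (nat_lit 0) (nat_lit 9212701227) (nat_lit 1216) (nat_lit 9527856691) (nat_lit 1292) (nat_lit 8278833681) (nat_lit 275) (nat_lit 5) (nat_lit 291) (nat_lit 5) (nat_lit 292) (nat_lit 5) (nat_lit 465) (nat_lit 463) (nat_lit 272)) (XT.lf (nat_lit 76) (nat_lit 3911916295) (nat_lit 0) (nat_lit 5830712002) (nat_lit 1292) (nat_lit 17682380053) (nat_lit 276) (nat_lit 5) (nat_lit 275) (nat_lit 5) (nat_lit 292) (nat_lit 5) (nat_lit 466) (nat_lit 463) (nat_lit 271))) (XT.nd (nat_lit 78) (nat_lit 0) (nat_lit 0) (XT.lf (nat_lit 0) (nat_lit 10453903601) (nat_lit 1216) (nat_lit 9964547131) (nat_lit 1292) (nat_lit 7419380170) (nat_lit 276) (nat_lit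 5) (nat_lit 292) (nat_lit 5) (nat_lit 293) (nat_lit 5) (nat_lit 467) (nat_lit 463) (nat_lit 270)) (XT.lf (nat_lit 76) (nat_lit 4008904313) (nat_lit 0) (nat_lit 7270493529) (nat_lit 1292) (nat_lit 16980854654) (nat_lit 277) (nat_lit 5) (nat_lit 276) (nat_lit 5) (nat_lit 293) (nat_lit 5) (nat_lit 468) (nat_lit 463) (nat_lit 269))))))))
noncomputable def xc219 : XT := (XT.nd (nat_lit 2340) (nat_lit 5852) (nat_lit 0) (XT.nd (nat_lit 1170) (nat_lit 4864) (nat_lit 0) (XT.nd (nat_lit 546) (nat_lit 1672) (nat_lit 0) (XT.nd (nat_lit 234) (nat_lit 0) (nat_lit 76) (XT.nd (nat_lit 78) (nat_lit 0) (nat_lit 0) (XT.lf (nat_lit 0) (nat_lit 12288271129) (nat_lit 1216) (nat_lit 10149931260) (nat_lit 1292) (nat_lit 6252386686) (nat_lit 277) (nat_lit 5) (nat_lit 293) (nat_lit 5) (nat_lit 294) (nat_lit 5) (nat_lit 469) (nat_lit 463) (nat_lit 268)) (XT.nd (nat_lit 78) (nat_lit 0) (nat_lit 76) (XT.lf (nat_lit 76) (nat_lit 4386052796)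 (nat_lit 0) (nat_lit 9052306465) (nat_lit 1292) (nat_lit 15692148771) (nat_lit 278) (nat_lit 5) (nat_lit 277) (nat_lit 5) (nat_lit 294) (nat_lit 5) (nat_lit 470) (nat_lit 463) (nat_lit 267)) (XT.lf (nat_lit 0) (nat_lit 14768862313) (nat_lit 1216) (nat_lit 10063064140) (nat_lit 1292) (nat_lit 4747321457) (nat_lit 278) (nat_lit 5) (nat_lit 294) (nat_lit 5) (nat_lit 295) (nat_lit 5) (nat_lit 471) (nat_lit 463) (nat_lit 266)))) (XT.nd (nat_lit 156) (nat_lit 0) (nat_lit 76) (XT.nd (nat_lit 78) (nat_lit 0) (nat_lit 76) (XT.lf (nat_lit 76) (nat_lit 5065896442) (nat_lit 0) (nat_lit 11208683771) (nat_lit 1292) (nat_lit 13762811477) (nat_lit 279) (nat_lit 5) (nat_lit 278) (nat_lit 5) (nat_lit 295) (nat_lit 5) (nat_lit 472) (nat_lit 463) (nat_lit 265)) (XT.lf (nat_lit 0) (nat_lit 17952284817) (nat_lit 1216) (nat_lit 9681543975) (nat_lit 1292) (nat_lit 2871647213) (nat_lit 279) (nat_lit 5) (nat_lit 295) (nat_lit 5) (nat_lit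 296) (nat_lit 5) (nat_lit 473) (nat_lit 463) (nat_lit 264))) (XT.nd (nat_lit 78) (nat_lit 0) (nat_lit 76) (XT.lf (nat_lit 76) (nat_lit 6072512224) (nat_lit 0) (nat_lit 13774296914) (nat_lit 1292) (nat_lit 11135799714) (nat_lit 280) (nat_lit 5) (nat_lit 279) (nat_lit 5) (nat_lit 296) (nat_lit 5) (nat_lit 474) (nat_lit 463) (nat_lit 263)) (XT.lf (nat_lit 0) (nat_lit 21898926701) (nat_lit 1216) (nat_lit 8981438336) (nat_lit 1292) (nat_lit 590668561) (nat_lit 280) (nat_lit 5) (nat_lit 296) (nat_lit 5) (nat_lit 297) (nat_lit 5) (nat_lit 475) (nat_lit 463) (nat_lit 262))))) (XT.nd (nat_lit 312) (nat_lit 1900) (nat_lit 0) (XT.nd (nat_lit 156) (nat_lit 0) (nat_lit 76) (XT.nd (nat_lit 78) (nat_lit 0) (nat_lit 0) (XT.lf (nat_lit 76) (nat_lit 7431597596) (nat_lit 0) (nat_lit 16786116544) (nat_lit 1292) (nat_lit 7750244376) (nat_lit 281) (nat_lit 5) (nat_lit 280) (nat_lit 5) (nat_lit 297) (nat_lit 5) (nat_lit 476) (nat_lit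 463) (nat_lit 261)) (XT.lf (nat_lit 76) (nat_lit 24519035905) (nat_lit 0) (nat_lit 2175073074) (nat_lit 1292) (nat_lit 5783041492) (nat_lit 281) (nat_lit 5) (nat_lit 280) (nat_lit 5) (nat_lit 297) (nat_lit 5) (nat_lit 477) (nat_lit 463) (nat_lit 260))) (XT.nd (nat_lit 78) (nat_lit 0) (nat_lit 0) (XT.lf (nat_lit 76) (nat_lit 9170552843) (nat_lit 0) (nat_lit 20283582674) (nat_lit 1292) (nat_lit 3541203058) (nat_lit 282) (nat_lit 5) (nat_lit 281) (nat_lit 5) (nat_lit 298) (nat_lit 5) (nat_lit 478) (nat_lit 463) (nat_lit 259)) (XT.lf (nat_lit 76) (nat_lit 26952149457) (nat_lit 0) (nat_lit 5443984847) (nat_lit 1292) (nat_lit 1129963441) (nat_lit 282) (nat_lit 5) (nat_lit 281) (nat_lit 5) (nat_lit 298) (nat_lit 5) (nat_lit 479) (nat_lit 463) (nat_lit 258)))) (XT.nd (nat_lit 156) (nat_lit 760) (nat_lit 0) (XT.nd (nat_lit 78) (nat_lit 0) (nat_lit 0) (XT.lf (nat_lit 0) (nat_lit 1530148389) (nat_lit 1292) (nat_lit 22763185258)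 (nat_lit 76) (nat_lit 9772967759) (nat_lit 265) (nat_lit 5) (nat_lit 282) (nat_lit 5) (nat_lit 266) (nat_lit 5) (nat_lit 480) (nat_lit 463) (nat_lit 257)) (XT.lf (nat_lit 0) (nat_lit 4365884150) (nat_lit 1292) (nat_lit 4837358100) (nat_lit 76) (nat_lit 25415577863) (nat_lit 265) (nat_lit 5) (nat_lit 282) (nat_lit 5) (nat_lit 266) (nat_lit 5) (nat_lit 481) (nat_lit 463) (nat_lit 256))) (XT.nd (nat_lit 78) (nat_lit 0) (nat_lit 0) (XT.lf (nat_lit 0) (nat_lit 7480186636) (nat_lit 836) (nat_lit 21350933318) (nat_lit 76) (nat_lit 6350990091) (nat_lit 255) (nat_lit 5) (nat_lit 266) (nat_lit 5) (nat_lit 256) (nat_lit 5) (nat_lit 482) (nat_lit 463) (nat_lit 255)) (XT.lf (nat_lit 0) (nat_lit 10826081266) (nat_lit 836) (nat_lit 2695642566) (nat_lit 76) (nat_lit 22236430442) (nat_lit 255) (nat_lit 5) (nat_lit 266) (nat_lit 5) (nat_lit 256) (nat_lit 5) (nat_lit 483) (nat_lit 463) (nat_lit 254)))))) (XT.nd (nat_lit 546) (nat_lit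 2508) (nat_lit 0) (XT.nd (nat_lit 234) (nat_lit 1140) (nat_lit 0) (XT.nd (nat_lit 78) (nat_lit 608) (nat_lit 0) (XT.lf (nat_lit 0) (nat_lit 14455267354) (nat_lit 684) (nat_lit 19523931599) (nat_lit 76) (nat_lit 2366793914) (nat_lit 247) (nat_lit 5) (nat_lit 256) (nat_lit 5) (nat_lit 248) (nat_lit 5) (nat_lit 484) (nat_lit 463) (nat_lit 253)) (XT.nd (nat_lit 78) (nat_lit 608) (nat_lit 0) (XT.lf (nat_lit 0) (nat_lit 18352521023) (nat_lit 684) (nat_lit 106361471) (nat_lit 76) (nat_lit 18487808826) (nat_lit 247) (nat_lit 5) (nat_lit 256) (nat_lit 5) (nat_lit 248) (nat_lit 5) (nat_lit 485) (nat_lit 463) (nat_lit 252)) (XT.lf (nat_lit 0) (nat_lit 20287563114) (nat_lit 608) (nat_lit 2272032380) (nat_lit 684) (nat_lit 15000028584) (nat_lit 239) (nat_lit 5) (nat_lit 247) (nat_lit 5) (nat_lit 248) (nat_lit 5) (nat_lit 486) (nat_lit 463) (nat_lit 251)))) (XT.nd (nat_lit 156) (nat_lit 608) (nat_lit 0) (XT.nd (nat_lit 78) (nat_lit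 0) (nat_lit 0) (XT.lf (nat_lit 0) (nat_lit 3023028167) (nat_lit 532) (nat_lit 24036352629) (nat_lit 608) (nat_lit 11126569500) (nat_lit 232) (nat_lit 5) (nat_lit 239) (nat_lit 5) (nat_lit 240) (nat_lit 5) (nat_lit 487) (nat_lit 463) (nat_lit 250)) (XT.lf (nat_lit 0) (nat_lit 24256008964) (nat_lit 532) (nat_lit 7632808859) (nat_lit 608) (nat_lit 6936409157) (nat_lit 232) (nat_lit 5) (nat_lit 239) (nat_lit 5) (nat_lit 240) (nat_lit 5) (nat_lit 488) (nat_lit 463) (nat_lit 249))) (XT.nd (nat_lit 78) (nat_lit 76) (nat_lit 0) (XT.lf (nat_lit 0) (nat_lit 6681561623) (nat_lit 532) (nat_lit 30332871779) (nat_lit 608) (nat_lit 2464710108) (nat_lit 225) (nat_lit 5) (nat_lit 232) (nat_lit 5) (nat_lit 233) (nat_lit 5) (nat_lit 489) (nat_lit 463) (nat_lit 248)) (XT.lf (nat_lit 0) (nat_lit 2321554311) (nat_lit 608) (nat_lit 11379451276) (nat_lit 76) (nat_lit 26444389005) (nat_lit 224) (nat_lit 5) (nat_lit 232) (nat_lit 5) (nat_lit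 225) (nat_lit 5) (nat_lit 490) (nat_lit 463) (nat_lit 247))))) (XT.nd (nat_lit 312) (nat_lit 1444) (nat_lit 0) (XT.nd (nat_lit 156) (nat_lit 532) (nat_lit 0) (XT.nd (nat_lit 78) (nat_lit 0) (nat_lit 0) (XT.lf (nat_lit 0) (nat_lit 7338674260) (nat_lit 608) (nat_lit 29995232062) (nat_lit 76) (nat_lit 3492890993) (nat_lit 217) (nat_lit 5) (nat_lit 225) (nat_lit 5) (nat_lit 218) (nat_lit 5) (nat_lit 491) (nat_lit 463) (nat_lit 246)) (XT.lf (nat_lit 0) (nat_lit 12756146720) (nat_lit 608) (nat_lit 7721875658) (nat_lit 76) (nat_lit 21043124939) (nat_lit 217) (nat_lit 5) (nat_lit 225) (nat_lit 5) (nat_lit 218) (nat_lit 5) (nat_lit 492) (nat_lit 463) (nat_lit 245))) (XT.nd (nat_lit 78) (nat_lit 0) (nat_lit 0) (XT.lf (nat_lit 0) (nat_lit 15520533760) (nat_lit 532) (nat_lit 2962994229) (nat_lit 608) (nat_lit 23748378644) (nat_lit 210) (nat_lit 5) (nat_lit 217) (nat_lit 5) (nat_lit 218) (nat_lit 5) (nat_lit 493) (nat_lit 463)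 (nat_lit 244)) (XT.lf (nat_lit 0) (nat_lit 24604635793) (nat_lit 608) (nat_lit 3490890176) (nat_lit 76) (nat_lit 14861805952) (nat_lit 210) (nat_lit 5) (nat_lit 218) (nat_lit 5) (nat_lit 211) (nat_lit 5) (nat_lit 494) (nat_lit 463) (nat_lit 243)))) (XT.nd (nat_lit 156) (nat_lit 532) (nat_lit 0) (XT.nd (nat_lit 78) (nat_lit 456) (nat_lit 0) (XT.lf (nat_lit 0) (nat_lit 20800787135) (nat_lit 456) (nat_lit 10336151159) (nat_lit 532) (nat_lit 12560755161) (nat_lit 204) (nat_lit 5) (nat_lit 210) (nat_lit 5) (nat_lit 211) (nat_lit 5) (nat_lit 495) (nat_lit 463) (nat_lit 242)) (XT.lf (nat_lit 0) (nat_lit 1381690343) (nat_lit 456) (nat_lit 36607183133) (nat_lit 532) (nat_lit 6467682777) (nat_lit 198) (nat_lit 5) (nat_lit 204) (nat_lit 5) (nat_lit 205) (nat_lit 5) (nat_lit 496) (nat_lit 463) (nat_lit 241))) (XT.nd (nat_lit 78) (nat_lit 456) (nat_lit 0) (XT.lf (nat_lit 0) (nat_lit 146083337) (nat_lit 532) (nat_lit 18478047757)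 (nat_lit 76) (nat_lit 26604084707) (nat_lit 197) (nat_lit 5) (nat_lit 204) (nat_lit 5) (nat_lit 198) (nat_lit 5) (nat_lit 497) (nat_lit 463) (nat_lit 240)) (XT.lf (nat_lit 0) (nat_lit 6893523382) (nat_lit 532) (nat_lit 39093649189) (nat_lit 76) (nat_lit 31974119) (nat_lit 191) (nat_lit 5) (nat_lit 198) (nat_lit 5) (nat_lit 192) (nat_lit 5) (nat_lit 498) (nat_lit 463) (nat_lit 239))))))) (XT.nd (nat_lit 1170) (nat_lit 2736) (nat_lit 0) (XT.nd (nat_lit 546) (nat_lit 1444) (nat_lit 0) (XT.nd (nat_lit 234) (nat_lit 1216) (nat_lit 0) (XT.nd (nat_lit 78) (nat_lit 456) (nat_lit 0) (XT.lf (nat_lit 0) (nat_lit 14214615323) (nat_lit 532) (nat_lit 13546513223) (nat_lit 76) (nat_lit 19061540383) (nat_lit 191) (nat_lit 5) (nat_lit 198) (nat_lit 5) (nat_lit 192) (nat_lit 5) (nat_lit 499) (nat_lit 463) (nat_lit 238)) (XT.nd (nat_lit 78) (nat_lit 0) (nat_lit 0) (XT.lf (nat_lit 0) (nat_lit 13019153734) (nat_lit 456) (nat_lit 8859773059)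 (nat_lit 532) (nat_lit 25767662722) (nat_lit 185) (nat_lit 5) (nat_lit 191) (nat_lit 5) (nat_lit 192) (nat_lit 5) (nat_lit 500) (nat_lit 463) (nat_lit 237)) (XT.lf (nat_lit 0) (nat_lit 30011753905) (nat_lit 532) (nat_lit 7936931294) (nat_lit 76) (nat_lit 10539385200) (nat_lit 185) (nat_lit 5) (nat_lit 192) (nat_lit 5) (nat_lit 186) (nat_lit 5) (nat_lit 501) (nat_lit 463) (nat_lit 236)))) (XT.nd (nat_lit 156) (nat_lit 836) (nat_lit 0) (XT.nd (nat_lit 78) (nat_lit 0) (nat_lit 0) (XT.lf (nat_lit 0) (nat_lit 19852052509) (nat_lit 380) (nat_lit 18813570824) (nat_lit 456) (nat_lit 10680860916) (nat_lit 180) (nat_lit 5) (nat_lit 185) (nat_lit 5) (nat_lit 186) (nat_lit 5) (nat_lit 502) (nat_lit 463) (nat_lit 235)) (XT.lf (nat_lit 0) (nat_lit 47667187179) (nat_lit 456) (nat_lit 1602165536) (nat_lit 76) (nat_lit 958655705) (nat_lit 180) (nat_lit 5) (nat_lit 186) (nat_lit 5) (nat_lit 181) (nat_lit 5) (nat_lit 503) (nat_lit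 463) (nat_lit 234))) (XT.nd (nat_lit 78) (nat_lit 380) (nat_lit 0) (XT.lf (nat_lit 0) (nat_lit 6142979871) (nat_lit 456) (nat_lit 23707872196) (nat_lit 76) (nat_lit 21269851257) (nat_lit 174) (nat_lit 5) (nat_lit 180) (nat_lit 5) (nat_lit 175) (nat_lit 5) (nat_lit 504) (nat_lit 463) (nat_lit 233)) (XT.lf (nat_lit 0) (nat_lit 5368800364) (nat_lit 380) (nat_lit 9754152688) (nat_lit 456) (nat_lit 36914469777) (nat_lit 169) (nat_lit 5) (nat_lit 174) (nat_lit 5) (nat_lit 175) (nat_lit 5) (nat_lit 505) (nat_lit 463) (nat_lit 232))))) (XT.nd (nat_lit 312) (nat_lit 684) (nat_lit 0) (XT.nd (nat_lit 156) (nat_lit 380) (nat_lit 0) (XT.nd (nat_lit 78) (nat_lit 380) (nat_lit 0) (XT.lf (nat_lit 0) (nat_lit 24717913047) (nat_lit 456) (nat_lit 17280180733) (nat_lit 76) (nat_lit 10973182738) (nat_lit 169) (nat_lit 5) (nat_lit 175) (nat_lit 5) (nat_lit 170) (nat_lit 5) (nat_lit 506) (nat_lit 463) (nat_lit 231)) (XT.lf (nat_lit 0)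 (nat_lit 13148064304) (nat_lit 380) (nat_lit 21674261251) (nat_lit 456) (nat_lit 19104172372) (nat_lit 164) (nat_lit 5) (nat_lit 169) (nat_lit 5) (nat_lit 170) (nat_lit 5) (nat_lit 507) (nat_lit 463) (nat_lit 230))) (XT.nd (nat_lit 78) (nat_lit 380) (nat_lit 0) (XT.lf (nat_lit 0) (nat_lit 44841561230) (nat_lit 380) (nat_lit 561467934) (nat_lit 456) (nat_lit 9502152267) (nat_lit 164) (nat_lit 5) (nat_lit 169) (nat_lit 5) (nat_lit 170) (nat_lit 5) (nat_lit 508) (nat_lit 463) (nat_lit 229)) (XT.lf (nat_lit 0) (nat_lit 796255656) (nat_lit 380) (nat_lit 34116234979) (nat_lit 76) (nat_lit 20988146224) (nat_lit 159) (nat_lit 5) (nat_lit 164) (nat_lit 5) (nat_lit 160) (nat_lit 5) (nat_lit 509) (nat_lit 463) (nat_lit 228)))) (XT.nd (nat_lit 156) (nat_lit 304) (nat_lit 0) (XT.nd (nat_lit 78) (nat_lit 380) (nat_lit 0) (XT.lf (nat_lit 0) (nat_lit 11319525142) (nat_lit 380) (nat_lit 2231206326) (nat_lit 76) (nat_lit 43369195461)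 (nat_lit 159) (nat_lit 5) (nat_lit 164) (nat_lit 5) (nat_lit 160) (nat_lit 5) (nat_lit 510) (nat_lit 463) (nat_lit 227)) (XT.lf (nat_lit 0) (nat_lit 22541530919) (nat_lit 456) (nat_lit 26827256694) (nat_lit 76) (nat_lit 8589517131) (nat_lit 154) (nat_lit 5) (nat_lit 160) (nat_lit 5) (nat_lit 155) (nat_lit 5) (nat_lit 511) (nat_lit 463) (nat_lit 226))) (XT.nd (nat_lit 78) (nat_lit 0) (nat_lit 0) (XT.lf (nat_lit 0) (nat_lit 6503492976) (nat_lit 304) (nat_lit 27814896815) (nat_lit 380) (nat_lit 24702898500) (nat_lit 150) (nat_lit 5) (nat_lit 154) (nat_lit 5) (nat_lit 155) (nat_lit 5) (nat_lit 512) (nat_lit 463) (nat_lit 225)) (XT.lf (nat_lit 0) (nat_lit 41382340504) (nat_lit 304) (nat_lit 5335893732) (nat_lit 380) (nat_lit 13389836894) (nat_lit 150) (nat_lit 5) (nat_lit 154) (nat_lit 5) (nat_lit 155) (nat_lit 5) (nat_lit 513) (nat_lit 463) (nat_lit 224)))))) (XT.nd (nat_lit 624) (nat_lit 1140) (nat_lit 0) (XT.nd (nat_lit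 312) (nat_lit 912) (nat_lit 0) (XT.nd (nat_lit 156) (nat_lit 304) (nat_lit 0) (XT.nd (nat_lit 78) (nat_lit 76) (nat_lit 0) (XT.lf (nat_lit 0) (nat_lit 16223668983) (nat_lit 304) (nat_lit 43592437121) (nat_lit 380) (nat_lit 1401570562) (nat_lit 146) (nat_lit 5) (nat_lit 150) (nat_lit 5) (nat_lit 151) (nat_lit 5) (nat_lit 514) (nat_lit 463) (nat_lit 223)) (XT.lf (nat_lit 0) (nat_lit 10975351321) (nat_lit 380) (nat_lit 9911157126) (nat_lit 76) (nat_lit 41463627091) (nat_lit 145) (nat_lit 5) (nat_lit 150) (nat_lit 5) (nat_lit 146) (nat_lit 5) (nat_lit 515) (nat_lit 463) (nat_lit 222))) (XT.nd (nat_lit 78) (nat_lit 0) (nat_lit 0) (XT.lf (nat_lit 0) (nat_lit 23977920023) (nat_lit 380) (nat_lit 36804979611) (nat_lit 76) (nat_lit 2724777114) (nat_lit 141) (nat_lit 5) (nat_lit 146) (nat_lit 5) (nat_lit 142) (nat_lit 5) (nat_lit 516) (nat_lit 463) (nat_lit 221)) (XT.lf (nat_lit 0) (nat_lit 37677297977) (nat_lit 380) (nat_lit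 288298744) (nat_lit 76) (nat_lit 26725145661) (nat_lit 141) (nat_lit 5) (nat_lit 146) (nat_lit 5) (nat_lit 142) (nat_lit 5) (nat_lit 517) (nat_lit 463) (nat_lit 220)))) (XT.nd (nat_lit 156) (nat_lit 304) (nat_lit 0) (XT.nd (nat_lit 78) (nat_lit 304) (nat_lit 0) (XT.lf (nat_lit 0) (nat_lit 38065012664) (nat_lit 304) (nat_lit 14087442871) (nat_lit 380) (nat_lit 13745900653) (nat_lit 137) (nat_lit 5) (nat_lit 141) (nat_lit 5) (nat_lit 142) (nat_lit 5) (nat_lit 518) (nat_lit 463) (nat_lit 219)) (XT.lf (nat_lit 0) (nat_lit 127378143) (nat_lit 304) (nat_lit 56601709555) (nat_lit 76) (nat_lit 10406949782) (nat_lit 133) (nat_lit 5) (nat_lit 137) (nat_lit 5) (nat_lit 134) (nat_lit 5) (nat_lit 519) (nat_lit 463) (nat_lit 218))) (XT.nd (nat_lit 78) (nat_lit 304) (nat_lit 0) (XT.lf (nat_lit 0) (nat_lit 14562811382) (nat_lit 304) (nat_lit 18058864205) (nat_lit 76) (nat_lit 35772423767) (nat_lit 133) (nat_lit 5) (nat_lit 137)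 (nat_lit 5) (nat_lit 134) (nat_lit 5) (nat_lit 520) (nat_lit 463) (nat_lit 217)) (XT.lf (nat_lit 0) (nat_lit 22069294451) (nat_lit 304) (nat_lit 7573098913) (nat_lit 380) (nat_lit 40041177283) (nat_lit 129) (nat_lit 5) (nat_lit 133) (nat_lit 5) (nat_lit 134) (nat_lit 5) (nat_lit 521) (nat_lit 463) (nat_lit 216))))) (XT.nd (nat_lit 312) (nat_lit 532) (nat_lit 0) (XT.nd (nat_lit 156) (nat_lit 380) (nat_lit 0) (XT.nd (nat_lit 78) (nat_lit 228) (nat_lit 0) (XT.lf (nat_lit 0) (nat_lit 45532688022) (nat_lit 380) (nat_lit 7413415944) (nat_lit 76) (nat_lit 18054872485) (nat_lit 129) (nat_lit 5) (nat_lit 134) (nat_lit 5) (nat_lit 130) (nat_lit 5) (nat_lit 522) (nat_lit 463) (nat_lit 215)) (XT.lf (nat_lit 0) (nat_lit 34591915857) (nat_lit 228) (nat_lit 27714258129) (nat_lit 304) (nat_lit 10039536095) (nat_lit 126) (nat_lit 5) (nat_lit 129) (nat_lit 5) (nat_lit 130) (nat_lit 5) (nat_lit 523) (nat_lit 463) (nat_lit 214)))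 (XT.nd (nat_lit 78) (nat_lit 0) (nat_lit 0) (XT.lf (nat_lit 0) (nat_lit 4306280889) (nat_lit 304) (nat_lit 1547586672) (nat_lit 380) (nat_lit 67871751147) (nat_lit 121) (nat_lit 5) (nat_lit 125) (nat_lit 5) (nat_lit 126) (nat_lit 5) (nat_lit 524) (nat_lit 463) (nat_lit 213)) (XT.lf (nat_lit 0) (nat_lit 22650498078) (nat_lit 380) (nat_lit 27082388607) (nat_lit 76) (nat_lit 25392209701) (nat_lit 121) (nat_lit 5) (nat_lit 126) (nat_lit 5) (nat_lit 122) (nat_lit 5) (nat_lit 525) (nat_lit 463) (nat_lit 212)))) (XT.nd (nat_lit 156) (nat_lit 304) (nat_lit 0) (XT.nd (nat_lit 78) (nat_lit 0) (nat_lit 0) (XT.lf (nat_lit 0) (nat_lit 16836330874) (nat_lit 228) (nat_lit 23290885570) (nat_lit 304) (nat_lit 36434056392) (nat_lit 118) (nat_lit 5) (nat_lit 121) (nat_lit 5) (nat_lit 122) (nat_lit 5) (nat_lit 526) (nat_lit 463) (nat_lit 211)) (XT.lf (nat_lit 0) (nat_lit 58441372100) (nat_lit 304) (nat_lit 15446740521) (nat_lit 76)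 (nat_lit 4143027996) (nat_lit 118) (nat_lit 5) (nat_lit 122) (nat_lit 5) (nat_lit 119) (nat_lit 5) (nat_lit 527) (nat_lit 463) (nat_lit 210))) (XT.nd (nat_lit 78) (nat_lit 76) (nat_lit 0) (XT.lf (nat_lit 0) (nat_lit 30523308087) (nat_lit 228) (nat_lit 47304717282) (nat_lit 304) (nat_lit 1701386978) (nat_lit 115) (nat_lit 5) (nat_lit 118) (nat_lit 5) (nat_lit 119) (nat_lit 5) (nat_lit 528) (nat_lit 463) (nat_lit 209)) (XT.lf (nat_lit 0) (nat_lit 16553898656) (nat_lit 304) (nat_lit 3042673452) (nat_lit 76) (nat_lit 61466539748) (nat_lit 114) (nat_lit 5) (nat_lit 118) (nat_lit 5) (nat_lit 115) (nat_lit 5) (nat_lit 529) (nat_lit 463) (nat_lit 208))))))))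
noncomputable def xc220 : XT := (XT.nd (nat_lit 58578) (nat_lit 0) (nat_lit 5776) (XT.nd (nat_lit 57408) (nat_lit 0) (nat_lit 14136) (XT.nd (nat_lit 546) (nat_lit 912) (nat_lit 0) (XT.nd (nat_lit 234) (nat_lit 608) (nat_lit 0) (XT.nd (nat_lit 78) (nat_lit 228) (nat_lit 0) (XT.lf (nat_lit 0) (nat_lit 35846293218) (nat_lit 304) (nat_lit 37557118847) (nat_lit 76) (nat_lit 9223195622) (nat_lit 111) (nat_lit 5) (nat_lit 115) (nat_lit 5) (nat_lit 112) (nat_lit 5) (nat_lit 530) (nat_lit 463) (nat_lit 207)) (XT.nd (nat_lit 78) (nat_lit 0) (nat_lit 0) (XT.lf (nat_lit 0) (nat_lit 10459593480) (nat_lit 228) (nat_lit 45582564102) (nat_lit 304) (nat_lit 28185109965) (nat_lit 108) (nat_lit 5) (nat_lit 111) (nat_lit 5) (nat_lit 112) (nat_lit 5) (nat_lit 531) (nat_lit 463) (nat_lit 206)) (XT.lf (nat_lit 0) (nat_lit 60685223458) (nat_lit 228) (nat_lit 16537039049) (nat_lit 304) (nat_lit 8642333849) (nat_lit 108) (nat_lit 5) (nat_lit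 111) (nat_lit 5) (nat_lit 112) (nat_lit 5) (nat_lit 532) (nat_lit 463) (nat_lit 205)))) (XT.nd (nat_lit 156) (nat_lit 380) (nat_lit 0) (XT.nd (nat_lit 78) (nat_lit 0) (nat_lit 0) (XT.lf (nat_lit 0) (nat_lit 11636506069) (nat_lit 228) (nat_lit 62425199135) (nat_lit 76) (nat_lit 13474809550) (nat_lit 105) (nat_lit 5) (nat_lit 108) (nat_lit 5) (nat_lit 106) (nat_lit 5) (nat_lit 533) (nat_lit 463) (nat_lit 204)) (XT.lf (nat_lit 0) (nat_lit 32769656442) (nat_lit 228) (nat_lit 12077352531) (nat_lit 76) (nat_lit 44396425355) (nat_lit 105) (nat_lit 5) (nat_lit 108) (nat_lit 5) (nat_lit 106) (nat_lit 5) (nat_lit 534) (nat_lit 463) (nat_lit 203))) (XT.nd (nat_lit 78) (nat_lit 152) (nat_lit 0) (XT.lf (nat_lit 0) (nat_lit 40571213393) (nat_lit 228) (nat_lit 14354743263) (nat_lit 304) (nat_lit 36063930255) (nat_lit 102) (nat_lit 5) (nat_lit 105) (nat_lit 5) (nat_lit 106) (nat_lit 5) (nat_lit 535) (nat_lit 463) (nat_lit 202))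 (XT.lf (nat_lit 0) (nat_lit 2136897541) (nat_lit 152) (nat_lit 75916837294) (nat_lit 228) (nat_lit 14725794647) (nat_lit 100) (nat_lit 5) (nat_lit 102) (nat_lit 5) (nat_lit 103) (nat_lit 5) (nat_lit 536) (nat_lit 463) (nat_lit 201))))) (XT.nd (nat_lit 312) (nat_lit 456) (nat_lit 0) (XT.nd (nat_lit 156) (nat_lit 152) (nat_lit 0) (XT.nd (nat_lit 78) (nat_lit 228) (nat_lit 0) (XT.lf (nat_lit 0) (nat_lit 7766428021) (nat_lit 228) (nat_lit 37523215806) (nat_lit 76) (nat_lit 49311462163) (nat_lit 99) (nat_lit 5) (nat_lit 102) (nat_lit 5) (nat_lit 100) (nat_lit 5) (nat_lit 537) (nat_lit 463) (nat_lit 200)) (XT.lf (nat_lit 0) (nat_lit 17381790321) (nat_lit 228) (nat_lit 13421930076) (nat_lit 304) (nat_lit 65664247162) (nat_lit 96) (nat_lit 5) (nat_lit 99) (nat_lit 5) (nat_lit 100) (nat_lit 5) (nat_lit 538) (nat_lit 463) (nat_lit 199))) (XT.nd (nat_lit 78) (nat_lit 152) (nat_lit 0) (XT.lf (nat_lit 0) (nat_lit 55100493704)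 (nat_lit 304) (nat_lit 23867964565) (nat_lit 76) (nat_lit 19405325912) (nat_lit 96) (nat_lit 5) (nat_lit 100) (nat_lit 5) (nat_lit 97) (nat_lit 5) (nat_lit 539) (nat_lit 463) (nat_lit 198)) (XT.lf (nat_lit 0) (nat_lit 33526793785) (nat_lit 152) (nat_lit 47053767791) (nat_lit 228) (nat_lit 19742582051) (nat_lit 94) (nat_lit 5) (nat_lit 96) (nat_lit 5) (nat_lit 97) (nat_lit 5) (nat_lit 540) (nat_lit 463) (nat_lit 197)))) (XT.nd (nat_lit 156) (nat_lit 152) (nat_lit 0) (XT.nd (nat_lit 78) (nat_lit 228) (nat_lit 0) (XT.lf (nat_lit 0) (nat_lit 4648981732) (nat_lit 228) (nat_lit 9238015586) (nat_lit 76) (nat_lit 88435411742) (nat_lit 93) (nat_lit 5) (nat_lit 96) (nat_lit 5) (nat_lit 94) (nat_lit 5) (nat_lit 541) (nat_lit 463) (nat_lit 196)) (XT.lf (nat_lit 0) (nat_lit 30065122814) (nat_lit 304) (nat_lit 53720397630) (nat_lit 76) (nat_lit 20569578838) (nat_lit 90) (nat_lit 5) (nat_lit 94) (nat_lit 5) (nat_lit 91) (nat_lit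 5) (nat_lit 542) (nat_lit 463) (nat_lit 195))) (XT.nd (nat_lit 56316) (nat_lit 0) (nat_lit 14136) (XT.lf (nat_lit 0) (nat_lit 6024840181) (nat_lit 152) (nat_lit 50507777034) (nat_lit 228) (nat_lit 49907486984) (nat_lit 88) (nat_lit 5) (nat_lit 90) (nat_lit 5) (nat_lit 91) (nat_lit 5) (nat_lit 543) (nat_lit 463) (nat_lit 194)) (XT.lf (nat_lit 0) (nat_lit 4478898313) (nat_lit 1292) (nat_lit 4514330546) (nat_lit 1292) (nat_lit 4514330546) (nat_lit 274) (nat_lit 3) (nat_lit 291) (nat_lit 3) (nat_lit 291) (nat_lit 5) (nat_lit 464) (nat_lit 464) (nat_lit 272)))))) (XT.nd (nat_lit 546) (nat_lit 0) (nat_lit 304) (XT.nd (nat_lit 234) (nat_lit 0) (nat_lit 152) (XT.nd (nat_lit 78) (nat_lit 0) (nat_lit 76) (XT.lf (nat_lit 76) (nat_lit 4291835731) (nat_lit 0) (nat_lit 4930768106) (nat_lit 1292) (nat_lit 18193807802) (nat_lit 275) (nat_lit 5) (nat_lit 274) (nat_lit 3) (nat_lit 291) (nat_lit 5) (nat_lit 465) (nat_lit 464) (nat_lit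 271)) (XT.nd (nat_lit 78) (nat_lit 0) (nat_lit 0) (XT.lf (nat_lit 0) (nat_lit 9665814271) (nat_lit 1216) (nat_lit 9714701733) (nat_lit 1292) (nat_lit 8444114284) (nat_lit 275) (nat_lit 5) (nat_lit 291) (nat_lit 5) (nat_lit 292) (nat_lit 5) (nat_lit 466) (nat_lit 464) (nat_lit 270)) (XT.lf (nat_lit 76) (nat_lit 4127293946) (nat_lit 0) (nat_lit 6080139903) (nat_lit 1292) (nat_lit 18035109049) (nat_lit 276) (nat_lit 5) (nat_lit 275) (nat_lit 5) (nat_lit 292) (nat_lit 5) (nat_lit 467) (nat_lit 464) (nat_lit 269)))) (XT.nd (nat_lit 156) (nat_lit 0) (nat_lit 76) (XT.nd (nat_lit 78) (nat_lit 0) (nat_lit 0) (XT.lf (nat_lit 0) (nat_lit 10934327020) (nat_lit 1216) (nat_lit 10162559208) (nat_lit 1292) (nat_lit 7571036672) (nat_lit 276) (nat_lit 5) (nat_lit 292) (nat_lit 5) (nat_lit 293) (nat_lit 5) (nat_lit 468) (nat_lit 464) (nat_lit 268)) (XT.lf (nat_lit 76) (nat_lit 4229106325) (nat_lit 0) (nat_lit 7551581963) (nat_lit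 1292) (nat_lit 17322446917) (nat_lit 277) (nat_lit 5) (nat_lit 276) (nat_lit 5) (nat_lit 293) (nat_lit 5) (nat_lit 469) (nat_lit 464) (nat_lit 267))) (XT.nd (nat_lit 78) (nat_lit 0) (nat_lit 0) (XT.lf (nat_lit 0) (nat_lit 12814495155) (nat_lit 1216) (nat_lit 10352035906) (nat_lit 1292) (nat_lit 6380011893) (nat_lit 277) (nat_lit 5) (nat_lit 293) (nat_lit 5) (nat_lit 294) (nat_lit 5) (nat_lit 470) (nat_lit 464) (nat_lit 266)) (XT.lf (nat_lit 76) (nat_lit 4619023816) (nat_lit 0) (nat_lit 9376447144) (nat_lit 1292) (nat_lit 16004298034) (nat_lit 278) (nat_lit 5) (nat_lit 277) (nat_lit 5) (nat_lit 294) (nat_lit 5) (nat_lit 471) (nat_lit 464) (nat_lit 265))))) (XT.nd (nat_lit 312) (nat_lit 0) (nat_lit 152) (XT.nd (nat_lit 156) (nat_lit 0) (nat_lit 76) (XT.nd (nat_lit 78) (nat_lit 0) (nat_lit 0) (XT.lf (nat_lit 0) (nat_lit 15360914173) (nat_lit 1216) (nat_lit 10261510370) (nat_lit 1292) (nat_lit 4839696804) (nat_lit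 278) (nat_lit 5) (nat_lit 294) (nat_lit 5) (nat_lit 295) (nat_lit 5) (nat_lit 472) (nat_lit 464) (nat_lit 264)) (XT.lf (nat_lit 76) (nat_lit 5320304855) (nat_lit 0) (nat_lit 11588143991) (nat_lit 1292) (nat_lit 14025662239) (nat_lit 279) (nat_lit 5) (nat_lit 278) (nat_lit 5) (nat_lit 295) (nat_lit 5) (nat_lit 473) (nat_lit 464) (nat_lit 263))) (XT.nd (nat_lit 78) (nat_lit 0) (nat_lit 0) (XT.lf (nat_lit 0) (nat_lit 18631839736) (nat_lit 1216) (nat_lit 9867864919) (nat_lit 1292) (nat_lit 2916673595) (nat_lit 279) (nat_lit 5) (nat_lit 295) (nat_lit 5) (nat_lit 296) (nat_lit 5) (nat_lit 474) (nat_lit 464) (nat_lit 262)) (XT.lf (nat_lit 76) (nat_lit 6357792128) (nat_lit 0) (nat_lit 14222292363) (nat_lit 1292) (nat_lit 11327834994) (nat_lit 280) (nat_lit 5) (nat_lit 279) (nat_lit 5) (nat_lit 296) (nat_lit 5) (nat_lit 475) (nat_lit 464) (nat_lit 261)))) (XT.nd (nat_lit 156) (nat_lit 0) (nat_lit 0) (XT.nd (nat_lit 78)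 (nat_lit 0) (nat_lit 0) (XT.lf (nat_lit 0) (nat_lit 22689425455) (nat_lit 1216) (nat_lit 9146409285) (nat_lit 1292) (nat_lit 575293355) (nat_lit 280) (nat_lit 5) (nat_lit 296) (nat_lit 5) (nat_lit 297) (nat_lit 5) (nat_lit 476) (nat_lit 464) (nat_lit 260)) (XT.lf (nat_lit 76) (nat_lit 7757993487) (nat_lit 0) (nat_lit 17316888185) (nat_lit 1292) (nat_lit 7848166826) (nat_lit 281) (nat_lit 5) (nat_lit 280) (nat_lit 5) (nat_lit 297) (nat_lit 5) (nat_lit 477) (nat_lit 464) (nat_lit 259))) (XT.nd (nat_lit 78) (nat_lit 0) (nat_lit 76) (XT.lf (nat_lit 76) (nat_lit 25355041898) (nat_lit 0) (nat_lit 2266721523) (nat_lit 1292) (nat_lit 5825867804) (nat_lit 281) (nat_lit 5) (nat_lit 280) (nat_lit 5) (nat_lit 297) (nat_lit 5) (nat_lit 478) (nat_lit 464) (nat_lit 258)) (XT.lf (nat_lit 76) (nat_lit 9549167112) (nat_lit 0) (nat_lit 20912478067) (nat_lit 1292) (nat_lit 3519808998) (nat_lit 282) (nat_lit 5) (nat_lit 281) (nat_lit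 5) (nat_lit 298) (nat_lit 5) (nat_lit 479) (nat_lit 464) (nat_lit 257))))))) (XT.nd (nat_lit 1170) (nat_lit 3496) (nat_lit 0) (XT.nd (nat_lit 546) (nat_lit 2812) (nat_lit 0) (XT.nd (nat_lit 234) (nat_lit 1368) (nat_lit 0) (XT.nd (nat_lit 78) (nat_lit 1216) (nat_lit 0) (XT.lf (nat_lit 76) (nat_lit 27861197130) (nat_lit 0) (nat_lit 5627098482) (nat_lit 1292) (nat_lit 1039949576) (nat_lit 282) (nat_lit 5) (nat_lit 281) (nat_lit 5) (nat_lit 298) (nat_lit 5) (nat_lit 480) (nat_lit 464) (nat_lit 256)) (XT.nd (nat_lit 78) (nat_lit 0) (nat_lit 0) (XT.lf (nat_lit 0) (nat_lit 1694825063) (nat_lit 1292) (nat_lit 23340405090) (nat_lit 76) (nat_lit 10049471517) (nat_lit 265) (nat_lit 5) (nat_lit 282) (nat_lit 5) (nat_lit 266) (nat_lit 5) (nat_lit 481) (nat_lit 464) (nat_lit 255)) (XT.lf (nat_lit 0) (nat_lit 4612173512) (nat_lit 1292) (nat_lit 4879881051) (nat_lit 76) (nat_lit 26161845903) (nat_lit 265) (nat_lit 5) (nat_lit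 282) (nat_lit 5) (nat_lit 266) (nat_lit 5) (nat_lit 482) (nat_lit 464) (nat_lit 254)))) (XT.nd (nat_lit 156) (nat_lit 608) (nat_lit 0) (XT.nd (nat_lit 78) (nat_lit 0) (nat_lit 0) (XT.lf (nat_lit 0) (nat_lit 7817414014) (nat_lit 836) (nat_lit 21886348326) (nat_lit 76) (nat_lit 6530402212) (nat_lit 255) (nat_lit 5) (nat_lit 266) (nat_lit 5) (nat_lit 256) (nat_lit 5) (nat_lit 483) (nat_lit 464) (nat_lit 253)) (XT.lf (nat_lit 0) (nat_lit 11260399412) (nat_lit 836) (nat_lit 2674460395) (nat_lit 76) (nat_lit 22892729587) (nat_lit 255) (nat_lit 5) (nat_lit 266) (nat_lit 5) (nat_lit 256) (nat_lit 5) (nat_lit 484) (nat_lit 464) (nat_lit 252))) (XT.nd (nat_lit 78) (nat_lit 0) (nat_lit 0) (XT.lf (nat_lit 0) (nat_lit 14996181855) (nat_lit 684) (nat_lit 20005296116) (nat_lit 76) (nat_lit 2431654233) (nat_lit 247) (nat_lit 5) (nat_lit 256) (nat_lit 5) (nat_lit 248) (nat_lit 5) (nat_lit 485) (nat_lit 464) (nat_lit 251)) (XT.lf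 (nat_lit 0) (nat_lit 19007229158) (nat_lit 684) (nat_lit 8238304) (nat_lit 76) (nat_lit 19036478529) (nat_lit 247) (nat_lit 5) (nat_lit 256) (nat_lit 5) (nat_lit 248) (nat_lit 5) (nat_lit 486) (nat_lit 464) (nat_lit 250))))) (XT.nd (nat_lit 312) (nat_lit 1140) (nat_lit 0) (XT.nd (nat_lit 156) (nat_lit 532) (nat_lit 0) (XT.nd (nat_lit 78) (nat_lit 532) (nat_lit 0) (XT.lf (nat_lit 0) (nat_lit 20996510743) (nat_lit 608) (nat_lit 2341936479) (nat_lit 684) (nat_lit 15344882213) (nat_lit 239) (nat_lit 5) (nat_lit 247) (nat_lit 5) (nat_lit 248) (nat_lit 5) (nat_lit 487) (nat_lit 464) (nat_lit 249)) (XT.lf (nat_lit 0) (nat_lit 3216125940) (nat_lit 532) (nat_lit 24755095540) (nat_lit 608) (nat_lit 11357284723) (nat_lit 232) (nat_lit 5) (nat_lit 239) (nat_lit 5) (nat_lit 240) (nat_lit 5) (nat_lit 488) (nat_lit 464) (nat_lit 248))) (XT.nd (nat_lit 78) (nat_lit 532) (nat_lit 0) (XT.lf (nat_lit 0) (nat_lit 25083113434) (nat_lit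 532) (nat_lit 7859513836) (nat_lit 608) (nat_lit 7044421954) (nat_lit 232) (nat_lit 5) (nat_lit 239) (nat_lit 5) (nat_lit 240) (nat_lit 5) (nat_lit 489) (nat_lit 464) (nat_lit 247)) (XT.lf (nat_lit 0) (nat_lit 6983342026) (nat_lit 532) (nat_lit 31236835179) (nat_lit 608) (nat_lit 2440461657) (nat_lit 225) (nat_lit 5) (nat_lit 232) (nat_lit 5) (nat_lit 233) (nat_lit 5) (nat_lit 490) (nat_lit 464) (nat_lit 246)))) (XT.nd (nat_lit 156) (nat_lit 532) (nat_lit 0) (XT.nd (nat_lit 78) (nat_lit 532) (nat_lit 0) (XT.lf (nat_lit 0) (nat_lit 2484670569) (nat_lit 608) (nat_lit 11620573992) (nat_lit 76) (nat_lit 27241689278) (nat_lit 224) (nat_lit 5) (nat_lit 232) (nat_lit 5) (nat_lit 225) (nat_lit 5) (nat_lit 491) (nat_lit 464) (nat_lit 245)) (XT.lf (nat_lit 0) (nat_lit 7650608849) (nat_lit 608) (nat_lit 30793114970) (nat_lit 76) (nat_lit 3605106222) (nat_lit 217) (nat_lit 5) (nat_lit 225) (nat_lit 5) (nat_lit 218) (nat_lit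 5) (nat_lit 492) (nat_lit 464) (nat_lit 244))) (XT.nd (nat_lit 78) (nat_lit 532) (nat_lit 0) (XT.lf (nat_lit 0) (nat_lit 13227932443) (nat_lit 608) (nat_lit 7854527991) (nat_lit 76) (nat_lit 21681630822) (nat_lit 217) (nat_lit 5) (nat_lit 225) (nat_lit 5) (nat_lit 218) (nat_lit 5) (nat_lit 493) (nat_lit 464) (nat_lit 243)) (XT.lf (nat_lit 0) (nat_lit 16084183082) (nat_lit 532) (nat_lit 3041299240) (nat_lit 608) (nat_lit 24370741123) (nat_lit 210) (nat_lit 5) (nat_lit 217) (nat_lit 5) (nat_lit 218) (nat_lit 5) (nat_lit 494) (nat_lit 464) (nat_lit 242)))))) (XT.nd (nat_lit 546) (nat_lit 1596) (nat_lit 0) (XT.nd (nat_lit 234) (nat_lit 988) (nat_lit 0) (XT.nd (nat_lit 78) (nat_lit 912) (nat_lit 0) (XT.lf (nat_lit 0) (nat_lit 25427775101) (nat_lit 608) (nat_lit 3497974212) (nat_lit 76) (nat_lit 15317736119) (nat_lit 210) (nat_lit 5) (nat_lit 218) (nat_lit 5) (nat_lit 211) (nat_lit 5) (nat_lit 495) (nat_lit 464) (nat_lit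 241)) (XT.nd (nat_lit 78) (nat_lit 456) (nat_lit 0) (XT.lf (nat_lit 0) (nat_lit 21521496137) (nat_lit 456) (nat_lit 10633004205) (nat_lit 532) (nat_lit 12851604341) (nat_lit 204) (nat_lit 5) (nat_lit 210) (nat_lit 5) (nat_lit 211) (nat_lit 5) (nat_lit 496) (nat_lit 464) (nat_lit 240)) (XT.lf (nat_lit 0) (nat_lit 1521247478) (nat_lit 456) (nat_lit 37689381948) (nat_lit 532) (nat_lit 6577145327) (nat_lit 198) (nat_lit 5) (nat_lit 204) (nat_lit 5) (nat_lit 205) (nat_lit 5) (nat_lit 497) (nat_lit 464) (nat_lit 239)))) (XT.nd (nat_lit 156) (nat_lit 456) (nat_lit 0) (XT.nd (nat_lit 78) (nat_lit 456) (nat_lit 0) (XT.lf (nat_lit 0) (nat_lit 230968466) (nat_lit 532) (nat_lit 18935523468) (nat_lit 76) (nat_lit 27416140656) (nat_lit 197) (nat_lit 5) (nat_lit 204) (nat_lit 5) (nat_lit 198) (nat_lit 5) (nat_lit 498) (nat_lit 464) (nat_lit 238)) (XT.lf (nat_lit 0) (nat_lit 7179570819) (nat_lit 532) (nat_lit 40168317868) (nat_lit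 76) (nat_lit 49440969) (nat_lit 191) (nat_lit 5) (nat_lit 198) (nat_lit 5) (nat_lit 192) (nat_lit 5) (nat_lit 499) (nat_lit 464) (nat_lit 237))) (XT.nd (nat_lit 78) (nat_lit 456) (nat_lit 0) (XT.lf (nat_lit 0) (nat_lit 14717987508) (nat_lit 532) (nat_lit 13857626294) (nat_lit 76) (nat_lit 19649413417) (nat_lit 191) (nat_lit 5) (nat_lit 198) (nat_lit 5) (nat_lit 192) (nat_lit 5) (nat_lit 500) (nat_lit 464) (nat_lit 236)) (XT.lf (nat_lit 0) (nat_lit 13504076532) (nat_lit 456) (nat_lit 9106817934) (nat_lit 532) (nat_lit 26462811372) (nat_lit 185) (nat_lit 5) (nat_lit 191) (nat_lit 5) (nat_lit 192) (nat_lit 5) (nat_lit 501) (nat_lit 464) (nat_lit 235))))) (XT.nd (nat_lit 312) (nat_lit 760) (nat_lit 0) (XT.nd (nat_lit 156) (nat_lit 456) (nat_lit 0) (XT.nd (nat_lit 78) (nat_lit 380) (nat_lit 0) (XT.lf (nat_lit 0) (nat_lit 30985679425) (nat_lit 532) (nat_lit 8081399109) (nat_lit 76) (nat_lit 10873413814) (nat_lit 185)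 (nat_lit 5) (nat_lit 192) (nat_lit 5) (nat_lit 186) (nat_lit 5) (nat_lit 502) (nat_lit 464) (nat_lit 234)) (XT.lf (nat_lit 0) (nat_lit 20540336168) (nat_lit 380) (nat_lit 19357577169) (nat_lit 456) (nat_lit 10926783202) (nat_lit 180) (nat_lit 5) (nat_lit 185) (nat_lit 5) (nat_lit 186) (nat_lit 5) (nat_lit 503) (nat_lit 464) (nat_lit 233))) (XT.nd (nat_lit 78) (nat_lit 456) (nat_lit 0) (XT.lf (nat_lit 0) (nat_lit 49167608045) (nat_lit 456) (nat_lit 1558280777) (nat_lit 76) (nat_lit 1006835461) (nat_lit 180) (nat_lit 5) (nat_lit 186) (nat_lit 5) (nat_lit 181) (nat_lit 5) (nat_lit 504) (nat_lit 464) (nat_lit 232)) (XT.lf (nat_lit 0) (nat_lit 6397196179) (nat_lit 456) (nat_lit 24326656892) (nat_lit 76) (nat_lit 21928362016) (nat_lit 174) (nat_lit 5) (nat_lit 180) (nat_lit 5) (nat_lit 175) (nat_lit 5) (nat_lit 505) (nat_lit 464) (nat_lit 231)))) (XT.nd (nat_lit 156) (nat_lit 380) (nat_lit 0) (XT.nd (nat_lit 78) (nat_lit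 0) (nat_lit 0) (XT.lf (nat_lit 0) (nat_lit 5621409459) (nat_lit 380) (nat_lit 10024002378) (nat_lit 456) (nat_lit 37951059378) (nat_lit 169) (nat_lit 5) (nat_lit 174) (nat_lit 5) (nat_lit 175) (nat_lit 5) (nat_lit 506) (nat_lit 464) (nat_lit 230)) (XT.lf (nat_lit 0) (nat_lit 25526430166) (nat_lit 456) (nat_lit 17707906100) (nat_lit 76) (nat_lit 11324058289) (nat_lit 169) (nat_lit 5) (nat_lit 175) (nat_lit 5) (nat_lit 170) (nat_lit 5) (nat_lit 507) (nat_lit 464) (nat_lit 229))) (XT.nd (nat_lit 78) (nat_lit 0) (nat_lit 0) (XT.lf (nat_lit 0) (nat_lit 13632297269) (nat_lit 380) (nat_lit 22300590041) (nat_lit 456) (nat_lit 19609418244) (nat_lit 164) (nat_lit 5) (nat_lit 169) (nat_lit 5) (nat_lit 170) (nat_lit 5) (nat_lit 508) (nat_lit 464) (nat_lit 228)) (XT.lf (nat_lit 0) (nat_lit 46273983830) (nat_lit 380) (nat_lit 555109013) (nat_lit 456) (nat_lit 9721314603) (nat_lit 164) (nat_lit 5) (nat_lit 169) (nat_lit 5) (nat_lit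 170) (nat_lit 5) (nat_lit 509) (nat_lit 464) (nat_lit 227))))))))
noncomputable def xc221 : XT := (XT.nd (nat_lit 2418) (nat_lit 228) (nat_lit 0) (XT.nd (nat_lit 1170) (nat_lit 2280) (nat_lit 0) (XT.nd (nat_lit 546) (nat_lit 1444) (nat_lit 0) (XT.nd (nat_lit 234) (nat_lit 684) (nat_lit 0) (XT.nd (nat_lit 78) (nat_lit 380) (nat_lit 0) (XT.lf (nat_lit 0) (nat_lit 883950620) (nat_lit 380) (nat_lit 35050431726) (nat_lit 76) (nat_lit 21641349744) (nat_lit 159) (nat_lit 5) (nat_lit 164) (nat_lit 5) (nat_lit 160) (nat_lit 5) (nat_lit 510) (nat_lit 464) (nat_lit 226)) (XT.nd (nat_lit 78) (nat_lit 380) (nat_lit 0) (XT.lf (nat_lit 0) (nat_lit 11721059725) (nat_lit 380) (nat_lit 2211452902) (nat_lit 76) (nat_lit 44693144270) (nat_lit 159) (nat_lit 5) (nat_lit 164) (nat_lit 5) (nat_lit 160) (nat_lit 5) (nat_lit 511) (nat_lit 464) (nat_lit 225)) (XT.lf (nat_lit 0) (nat_lit 23278985551) (nat_lit 456) (nat_lit 27544635554) (nat_lit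 76) (nat_lit 8871587418) (nat_lit 154) (nat_lit 5) (nat_lit 160) (nat_lit 5) (nat_lit 155) (nat_lit 5) (nat_lit 512) (nat_lit 464) (nat_lit 224)))) (XT.nd (nat_lit 156) (nat_lit 380) (nat_lit 0) (XT.nd (nat_lit 78) (nat_lit 0) (nat_lit 0) (XT.lf (nat_lit 0) (nat_lit 6785179363) (nat_lit 304) (nat_lit 28623020325) (nat_lit 380) (nat_lit 25381910670) (nat_lit 150) (nat_lit 5) (nat_lit 154) (nat_lit 5) (nat_lit 155) (nat_lit 5) (nat_lit 513) (nat_lit 464) (nat_lit 223)) (XT.lf (nat_lit 0) (nat_lit 42707870522) (nat_lit 304) (nat_lit 5470413850) (nat_lit 380) (nat_lit 13731265220) (nat_lit 150) (nat_lit 5) (nat_lit 154) (nat_lit 5) (nat_lit 155) (nat_lit 5) (nat_lit 514) (nat_lit 464) (nat_lit 222))) (XT.nd (nat_lit 78) (nat_lit 76) (nat_lit 0) (XT.lf (nat_lit 0) (nat_lit 16795117863) (nat_lit 304) (nat_lit 44873323631) (nat_lit 380) (nat_lit 1384021576) (nat_lit 146) (nat_lit 5) (nat_lit 150) (nat_lit 5) (nat_lit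 151) (nat_lit 5) (nat_lit 515) (nat_lit 464) (nat_lit 221)) (XT.lf (nat_lit 0) (nat_lit 11361343092) (nat_lit 380) (nat_lit 10125084236) (nat_lit 76) (nat_lit 42732502489) (nat_lit 145) (nat_lit 5) (nat_lit 150) (nat_lit 5) (nat_lit 146) (nat_lit 5) (nat_lit 516) (nat_lit 464) (nat_lit 220))))) (XT.nd (nat_lit 312) (nat_lit 532) (nat_lit 0) (XT.nd (nat_lit 156) (nat_lit 608) (nat_lit 0) (XT.nd (nat_lit 78) (nat_lit 0) (nat_lit 0) (XT.lf (nat_lit 0) (nat_lit 24753387214) (nat_lit 380) (nat_lit 37825112132) (nat_lit 76) (nat_lit 2832716193) (nat_lit 141) (nat_lit 5) (nat_lit 146) (nat_lit 5) (nat_lit 142) (nat_lit 5) (nat_lit 517) (nat_lit 464) (nat_lit 219)) (XT.lf (nat_lit 0) (nat_lit 38862111665) (nat_lit 380) (nat_lit 215377933) (nat_lit 76) (nat_lit 27552332813) (nat_lit 141) (nat_lit 5) (nat_lit 146) (nat_lit 5) (nat_lit 142) (nat_lit 5) (nat_lit 518) (nat_lit 464) (nat_lit 218))) (XT.nd (nat_lit 78) (nat_lit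 304) (nat_lit 0) (XT.lf (nat_lit 0) (nat_lit 39287733115) (nat_lit 304) (nat_lit 14482980021) (nat_lit 380) (nat_lit 14102976035) (nat_lit 137) (nat_lit 5) (nat_lit 141) (nat_lit 5) (nat_lit 142) (nat_lit 5) (nat_lit 519) (nat_lit 464) (nat_lit 217)) (XT.lf (nat_lit 0) (nat_lit 184887441) (nat_lit 304) (nat_lit 58217363339) (nat_lit 76) (nat_lit 10746250413) (nat_lit 133) (nat_lit 5) (nat_lit 137) (nat_lit 5) (nat_lit 134) (nat_lit 5) (nat_lit 520) (nat_lit 464) (nat_lit 216)))) (XT.nd (nat_lit 156) (nat_lit 228) (nat_lit 0) (XT.nd (nat_lit 78) (nat_lit 304) (nat_lit 0) (XT.lf (nat_lit 0) (nat_lit 15051819951) (nat_lit 304) (nat_lit 18520632556) (nat_lit 76) (nat_lit 36871899526) (nat_lit 133) (nat_lit 5) (nat_lit 137) (nat_lit 5) (nat_lit 134) (nat_lit 5) (nat_lit 521) (nat_lit 464) (nat_lit 215)) (XT.lf (nat_lit 0) (nat_lit 22810586570) (nat_lit 304) (nat_lit 7772446087) (nat_lit 380) (nat_lit 41189497701) (nat_lit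 129) (nat_lit 5) (nat_lit 133) (nat_lit 5) (nat_lit 134) (nat_lit 5) (nat_lit 522) (nat_lit 464) (nat_lit 214))) (XT.nd (nat_lit 78) (nat_lit 228) (nat_lit 0) (XT.lf (nat_lit 0) (nat_lit 46948799889) (nat_lit 380) (nat_lit 7557669856) (nat_lit 76) (nat_lit 18623025865) (nat_lit 129) (nat_lit 5) (nat_lit 134) (nat_lit 5) (nat_lit 130) (nat_lit 5) (nat_lit 523) (nat_lit 464) (nat_lit 213)) (XT.lf (nat_lit 0) (nat_lit 35707055737) (nat_lit 228) (nat_lit 28517718409) (nat_lit 304) (nat_lit 10289818772) (nat_lit 126) (nat_lit 5) (nat_lit 129) (nat_lit 5) (nat_lit 130) (nat_lit 5) (nat_lit 524) (nat_lit 464) (nat_lit 212)))))) (XT.nd (nat_lit 546) (nat_lit 1140) (nat_lit 0) (XT.nd (nat_lit 234) (nat_lit 532) (nat_lit 0) (XT.nd (nat_lit 78) (nat_lit 228) (nat_lit 0) (XT.lf (nat_lit 0) (nat_lit 4513082424) (nat_lit 304) (nat_lit 1565603634) (nat_lit 380) (nat_lit 69857219466) (nat_lit 121) (nat_lit 5) (nat_lit 125) (nat_lit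 5) (nat_lit 126) (nat_lit 5) (nat_lit 525) (nat_lit 464) (nat_lit 211)) (XT.nd (nat_lit 78) (nat_lit 228) (nat_lit 0) (XT.lf (nat_lit 0) (nat_lit 23378047554) (nat_lit 380) (nat_lit 27818334290) (nat_lit 76) (nat_lit 26181020889) (nat_lit 121) (nat_lit 5) (nat_lit 126) (nat_lit 5) (nat_lit 122) (nat_lit 5) (nat_lit 526) (nat_lit 464) (nat_lit 210)) (XT.lf (nat_lit 0) (nat_lit 17417196520) (nat_lit 228) (nat_lit 23961200290) (nat_lit 304) (nat_lit 37478287948) (nat_lit 118) (nat_lit 5) (nat_lit 121) (nat_lit 5) (nat_lit 122) (nat_lit 5) (nat_lit 527) (nat_lit 464) (nat_lit 209)))) (XT.nd (nat_lit 156) (nat_lit 304) (nat_lit 0) (XT.nd (nat_lit 78) (nat_lit 228) (nat_lit 0) (XT.lf (nat_lit 0) (nat_lit 60240862762) (nat_lit 304) (nat_lit 15835454513) (nat_lit 76) (nat_lit 4294364884) (nat_lit 118) (nat_lit 5) (nat_lit 122) (nat_lit 5) (nat_lit 119) (nat_lit 5) (nat_lit 528) (nat_lit 464) (nat_lit 208)) (XT.lf (nat_lit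 0) (nat_lit 31512963316) (nat_lit 228) (nat_lit 48695516152) (nat_lit 304) (nat_lit 1705441811) (nat_lit 115) (nat_lit 5) (nat_lit 118) (nat_lit 5) (nat_lit 119) (nat_lit 5) (nat_lit 529) (nat_lit 464) (nat_lit 207))) (XT.nd (nat_lit 78) (nat_lit 228) (nat_lit 0) (XT.lf (nat_lit 0) (nat_lit 17095243670) (nat_lit 304) (nat_lit 3061256801) (nat_lit 76) (nat_lit 63337158149) (nat_lit 114) (nat_lit 5) (nat_lit 118) (nat_lit 5) (nat_lit 115) (nat_lit 5) (nat_lit 530) (nat_lit 464) (nat_lit 206)) (XT.lf (nat_lit 0) (nat_lit 36966067139) (nat_lit 304) (nat_lit 38610788017) (nat_lit 76) (nat_lit 9527214597) (nat_lit 111) (nat_lit 5) (nat_lit 115) (nat_lit 5) (nat_lit 112) (nat_lit 5) (nat_lit 531) (nat_lit 464) (nat_lit 205))))) (XT.nd (nat_lit 312) (nat_lit 684) (nat_lit 0) (XT.nd (nat_lit 156) (nat_lit 228) (nat_lit 0) (XT.nd (nat_lit 78) (nat_lit 0) (nat_lit 0) (XT.lf (nat_lit 0) (nat_lit 10845709559) (nat_lit 228)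 (nat_lit 46921500367) (nat_lit 304) (nat_lit 28985557541) (nat_lit 108) (nat_lit 5) (nat_lit 111) (nat_lit 5) (nat_lit 112) (nat_lit 5) (nat_lit 532) (nat_lit 464) (nat_lit 204)) (XT.lf (nat_lit 0) (nat_lit 62576001787) (nat_lit 228) (nat_lit 17005440844) (nat_lit 304) (nat_lit 8857811900) (nat_lit 108) (nat_lit 5) (nat_lit 111) (nat_lit 5) (nat_lit 112) (nat_lit 5) (nat_lit 533) (nat_lit 464) (nat_lit 203))) (XT.nd (nat_lit 78) (nat_lit 0) (nat_lit 0) (XT.lf (nat_lit 0) (nat_lit 12028233988) (nat_lit 228) (nat_lit 64226565937) (nat_lit 76) (nat_lit 13906527192) (nat_lit 105) (nat_lit 5) (nat_lit 108) (nat_lit 5) (nat_lit 106) (nat_lit 5) (nat_lit 534) (nat_lit 464) (nat_lit 202)) (XT.lf (nat_lit 0) (nat_lit 33794137142) (nat_lit 228) (nat_lit 12370363232) (nat_lit 76) (nat_lit 45754991276) (nat_lit 105) (nat_lit 5) (nat_lit 108) (nat_lit 5) (nat_lit 106) (nat_lit 5) (nat_lit 535) (nat_lit 464) (nat_lit 201))))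 (XT.nd (nat_lit 156) (nat_lit 304) (nat_lit 0) (XT.nd (nat_lit 78) (nat_lit 152) (nat_lit 0) (XT.lf (nat_lit 0) (nat_lit 41856980162) (nat_lit 228) (nat_lit 14757600354) (nat_lit 304) (nat_lit 37103773786) (nat_lit 102) (nat_lit 5) (nat_lit 105) (nat_lit 5) (nat_lit 106) (nat_lit 5) (nat_lit 536) (nat_lit 464) (nat_lit 200)) (XT.lf (nat_lit 0) (nat_lit 2269914683) (nat_lit 152) (nat_lit 78166009409) (nat_lit 228) (nat_lit 15125770208) (nat_lit 100) (nat_lit 5) (nat_lit 102) (nat_lit 5) (nat_lit 103) (nat_lit 5) (nat_lit 537) (nat_lit 464) (nat_lit 199))) (XT.nd (nat_lit 78) (nat_lit 228) (nat_lit 0) (XT.lf (nat_lit 0) (nat_lit 8039209835) (nat_lit 228) (nat_lit 38581213745) (nat_lit 76) (nat_lit 50817518386) (nat_lit 99) (nat_lit 5) (nat_lit 102) (nat_lit 5) (nat_lit 100) (nat_lit 5) (nat_lit 538) (nat_lit 464) (nat_lit 198)) (XT.lf (nat_lit 0) (nat_lit 17970278855) (nat_lit 228) (nat_lit 13796827605) (nat_lit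 304) (nat_lit 67593718461) (nat_lit 96) (nat_lit 5) (nat_lit 99) (nat_lit 5) (nat_lit 100) (nat_lit 5) (nat_lit 539) (nat_lit 464) (nat_lit 197))))))) (XT.nd (nat_lit 57564) (nat_lit 0) (nat_lit 9424) (XT.nd (nat_lit 56940) (nat_lit 0) (nat_lit 13908) (XT.nd (nat_lit 56628) (nat_lit 0) (nat_lit 13756) (XT.nd (nat_lit 78) (nat_lit 76) (nat_lit 0) (XT.lf (nat_lit 0) (nat_lit 34597921353) (nat_lit 152) (nat_lit 48437956471) (nat_lit 228) (nat_lit 20295819896) (nat_lit 94) (nat_lit 5) (nat_lit 96) (nat_lit 5) (nat_lit 97) (nat_lit 5) (nat_lit 541) (nat_lit 464) (nat_lit 195)) (XT.nd (nat_lit 56472) (nat_lit 0) (nat_lit 13756) (XT.lf (nat_lit 0) (nat_lit 4825614110) (nat_lit 228) (nat_lit 9450992269) (nat_lit 76) (nat_lit 91114357016) (nat_lit 93) (nat_lit 5) (nat_lit 96) (nat_lit 5) (nat_lit 94) (nat_lit 5) (nat_lit 542) (nat_lit 464) (nat_lit 194)) (XT.lf (nat_lit 0) (nat_lit 4701592476) (nat_lit 1292) (nat_lit 4604261673)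 (nat_lit 1292) (nat_lit 4604261673) (nat_lit 274) (nat_lit 3) (nat_lit 291) (nat_lit 3) (nat_lit 291) (nat_lit 5) (nat_lit 465) (nat_lit 465) (nat_lit 270)))) (XT.nd (nat_lit 156) (nat_lit 0) (nat_lit 76) (XT.nd (nat_lit 78) (nat_lit 0) (nat_lit 76) (XT.lf (nat_lit 76) (nat_lit 4510696249) (nat_lit 0) (nat_lit 5160961004) (nat_lit 1292) (nat_lit 18562035574) (nat_lit 275) (nat_lit 5) (nat_lit 274) (nat_lit 3) (nat_lit 291) (nat_lit 5) (nat_lit 466) (nat_lit 465) (nat_lit 269)) (XT.lf (nat_lit 0) (nat_lit 10122375566) (nat_lit 1216) (nat_lit 9912834595) (nat_lit 1292) (nat_lit 8619122689) (nat_lit 275) (nat_lit 5) (nat_lit 291) (nat_lit 5) (nat_lit 292) (nat_lit 5) (nat_lit 467) (nat_lit 465) (nat_lit 268))) (XT.nd (nat_lit 78) (nat_lit 0) (nat_lit 76) (XT.lf (nat_lit 76) (nat_lit 4343506168) (nat_lit 0) (nat_lit 6332773661) (nat_lit 1292) (nat_lit 18408623056) (nat_lit 276) (nat_lit 5) (nat_lit 275) (nat_lit 5)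 (nat_lit 292) (nat_lit 5) (nat_lit 468) (nat_lit 465) (nat_lit 267)) (XT.lf (nat_lit 0) (nat_lit 11419587777) (nat_lit 1216) (nat_lit 10372305118) (nat_lit 1292) (nat_lit 7731314249) (nat_lit 276) (nat_lit 5) (nat_lit 292) (nat_lit 5) (nat_lit 293) (nat_lit 5) (nat_lit 469) (nat_lit 465) (nat_lit 266))))) (XT.nd (nat_lit 312) (nat_lit 0) (nat_lit 152) (XT.nd (nat_lit 156) (nat_lit 0) (nat_lit 76) (XT.nd (nat_lit 78) (nat_lit 0) (nat_lit 76) (XT.lf (nat_lit 76) (nat_lit 4450177726) (nat_lit 0) (nat_lit 7837488105) (nat_lit 1292) (nat_lit 17683921270) (nat_lit 277) (nat_lit 5) (nat_lit 276) (nat_lit 5) (nat_lit 293) (nat_lit 5) (nat_lit 470) (nat_lit 465) (nat_lit 265)) (XT.lf (nat_lit 0) (nat_lit 13347460401) (nat_lit 1216) (nat_lit 10566081485) (nat_lit 1292) (nat_lit 6514907025) (nat_lit 277) (nat_lit 5) (nat_lit 293) (nat_lit 5) (nat_lit 294) (nat_lit 5) (nat_lit 471) (nat_lit 465) (nat_lit 264))) (XT.nd (nat_lit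 78) (nat_lit 0) (nat_lit 76) (XT.lf (nat_lit 76) (nat_lit 4853163797) (nat_lit 0) (nat_lit 9707294224) (nat_lit 1292) (nat_lit 16334916936) (nat_lit 278) (nat_lit 5) (nat_lit 277) (nat_lit 5) (nat_lit 294) (nat_lit 5) (nat_lit 472) (nat_lit 465) (nat_lit 263)) (XT.lf (nat_lit 0) (nat_lit 15962175185) (nat_lit 1216) (nat_lit 10471848193) (nat_lit 1292) (nat_lit 4937716158) (nat_lit 278) (nat_lit 5) (nat_lit 294) (nat_lit 5) (nat_lit 295) (nat_lit 5) (nat_lit 473) (nat_lit 465) (nat_lit 262)))) (XT.nd (nat_lit 156) (nat_lit 0) (nat_lit 76) (XT.nd (nat_lit 78) (nat_lit 0) (nat_lit 76) (XT.lf (nat_lit 76) (nat_lit 5576465533) (nat_lit 0) (nat_lit 11976508178) (nat_lit 1292) (nat_lit 14305011066) (nat_lit 279) (nat_lit 5) (nat_lit 278) (nat_lit 5) (nat_lit 295) (nat_lit 5) (nat_lit 474) (nat_lit 465) (nat_lit 261)) (XT.lf (nat_lit 0) (nat_lit 19323688108) (nat_lit 1216) (nat_lit 10065752714) (nat_lit 1292) (nat_lit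 2965411399) (nat_lit 279) (nat_lit 5) (nat_lit 295) (nat_lit 5) (nat_lit 296) (nat_lit 5) (nat_lit 475) (nat_lit 465) (nat_lit 260))) (XT.nd (nat_lit 78) (nat_lit 0) (nat_lit 76) (XT.lf (nat_lit 76) (nat_lit 6645711808) (nat_lit 0) (nat_lit 14681731933) (nat_lit 1292) (nat_lit 11533784937) (nat_lit 280) (nat_lit 5) (nat_lit 279) (nat_lit 5) (nat_lit 296) (nat_lit 5) (nat_lit 476) (nat_lit 465) (nat_lit 259)) (XT.lf (nat_lit 0) (nat_lit 23495973949) (nat_lit 1216) (nat_lit 9322326495) (nat_lit 1292) (nat_lit 561356696) (nat_lit 280) (nat_lit 5) (nat_lit 296) (nat_lit 5) (nat_lit 297) (nat_lit 5) (nat_lit 477) (nat_lit 465) (nat_lit 258)))))) (XT.nd (nat_lit 624) (nat_lit 2888) (nat_lit 0) (XT.nd (nat_lit 312) (nat_lit 1900) (nat_lit 0) (XT.nd (nat_lit 156) (nat_lit 0) (nat_lit 76) (XT.nd (nat_lit 78) (nat_lit 0) (nat_lit 0) (XT.lf (nat_lit 76) (nat_lit 8088242919) (nat_lit 0) (nat_lit 17862022263) (nat_lit 1292)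 (nat_lit 7956752672) (nat_lit 281) (nat_lit 5) (nat_lit 280) (nat_lit 5) (nat_lit 297) (nat_lit 5) (nat_lit 478) (nat_lit 465) (nat_lit 257)) (XT.lf (nat_lit 76) (nat_lit 26210362696) (nat_lit 0) (nat_lit 2359604172) (nat_lit 1292) (nat_lit 5877479606) (nat_lit 281) (nat_lit 5) (nat_lit 280) (nat_lit 5) (nat_lit 297) (nat_lit 5) (nat_lit 479) (nat_lit 465) (nat_lit 256))) (XT.nd (nat_lit 78) (nat_lit 0) (nat_lit 0) (XT.lf (nat_lit 76) (nat_lit 9933198620) (nat_lit 0) (nat_lit 21559069972) (nat_lit 1292) (nat_lit 3505099610) (nat_lit 282) (nat_lit 5) (nat_lit 281) (nat_lit 5) (nat_lit 298) (nat_lit 5) (nat_lit 480) (nat_lit 465) (nat_lit 255)) (XT.lf (nat_lit 76) (nat_lit 28791748086) (nat_lit 0) (nat_lit 5814569265) (nat_lit 1292) (nat_lit 954348395) (nat_lit 282) (nat_lit 5) (nat_lit 281) (nat_lit 5) (nat_lit 298) (nat_lit 5) (nat_lit 481) (nat_lit 465) (nat_lit 254)))) (XT.nd (nat_lit 156) (nat_lit 760) (nat_lit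 0) (XT.nd (nat_lit 78) (nat_lit 0) (nat_lit 0) (XT.lf (nat_lit 0) (nat_lit 1857624026) (nat_lit 1292) (nat_lit 23941007735) (nat_lit 76) (nat_lit 10335228192) (nat_lit 265) (nat_lit 5) (nat_lit 282) (nat_lit 5) (nat_lit 266) (nat_lit 5) (nat_lit 482) (nat_lit 465) (nat_lit 253)) (XT.lf (nat_lit 0) (nat_lit 4859232126) (nat_lit 1292) (nat_lit 4929569223) (nat_lit 76) (nat_lit 26931431890) (nat_lit 265) (nat_lit 5) (nat_lit 282) (nat_lit 5) (nat_lit 266) (nat_lit 5) (nat_lit 483) (nat_lit 465) (nat_lit 252))) (XT.nd (nat_lit 78) (nat_lit 0) (nat_lit 0) (XT.lf (nat_lit 0) (nat_lit 8158281782) (nat_lit 836) (nat_lit 22443859700) (nat_lit 76) (nat_lit 6715834892) (nat_lit 255) (nat_lit 5) (nat_lit 266) (nat_lit 5) (nat_lit 256) (nat_lit 5) (nat_lit 484) (nat_lit 465) (nat_lit 251)) (XT.lf (nat_lit 0) (nat_lit 11701459304) (nat_lit 836) (nat_lit 2658500929) (nat_lit 76) (nat_lit 23569337313) (nat_lit 255) (nat_lit 5)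 (nat_lit 266) (nat_lit 5) (nat_lit 256) (nat_lit 5) (nat_lit 485) (nat_lit 465) (nat_lit 250))))) (XT.nd (nat_lit 312) (nat_lit 1140) (nat_lit 0) (XT.nd (nat_lit 156) (nat_lit 532) (nat_lit 0) (XT.nd (nat_lit 78) (nat_lit 608) (nat_lit 0) (XT.lf (nat_lit 0) (nat_lit 15547166830) (nat_lit 684) (nat_lit 20507091882) (nat_lit 76) (nat_lit 2498813023) (nat_lit 247) (nat_lit 5) (nat_lit 256) (nat_lit 5) (nat_lit 248) (nat_lit 5) (nat_lit 486) (nat_lit 465) (nat_lit 249)) (XT.lf (nat_lit 0) (nat_lit 88744442) (nat_lit 608) (nat_lit 19587709530) (nat_lit 684) (nat_lit 19514059337) (nat_lit 239) (nat_lit 5) (nat_lit 247) (nat_lit 5) (nat_lit 248) (nat_lit 5) (nat_lit 487) (nat_lit 465) (nat_lit 248))) (XT.nd (nat_lit 78) (nat_lit 532) (nat_lit 0) (XT.lf (nat_lit 0) (nat_lit 21720967981) (nat_lit 608) (nat_lit 2413837638) (nat_lit 684) (nat_lit 15706117332) (nat_lit 239) (nat_lit 5) (nat_lit 247) (nat_lit 5) (nat_lit 248)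 (nat_lit 5) (nat_lit 488) (nat_lit 465) (nat_lit 247)) (XT.lf (nat_lit 0) (nat_lit 3409138069) (nat_lit 532) (nat_lit 25495535505) (nat_lit 608) (nat_lit 11600838723) (nat_lit 232) (nat_lit 5) (nat_lit 239) (nat_lit 5) (nat_lit 240) (nat_lit 5) (nat_lit 489) (nat_lit 465) (nat_lit 246)))) (XT.nd (nat_lit 156) (nat_lit 608) (nat_lit 0) (XT.nd (nat_lit 78) (nat_lit 532) (nat_lit 0) (XT.lf (nat_lit 0) (nat_lit 25929323682) (nat_lit 532) (nat_lit 8093150803) (nat_lit 608) (nat_lit 7161420106) (nat_lit 232) (nat_lit 5) (nat_lit 239) (nat_lit 5) (nat_lit 240) (nat_lit 5) (nat_lit 490) (nat_lit 465) (nat_lit 245)) (XT.lf (nat_lit 0) (nat_lit 7288358880) (nat_lit 532) (nat_lit 32168263212) (nat_lit 608) (nat_lit 2421122247) (nat_lit 225) (nat_lit 5) (nat_lit 232) (nat_lit 5) (nat_lit 233) (nat_lit 5) (nat_lit 491) (nat_lit 465) (nat_lit 244))) (XT.nd (nat_lit 78) (nat_lit 532) (nat_lit 0) (XT.lf (nat_lit 0) (nat_lit 2647314777)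 (nat_lit 608) (nat_lit 11874685770) (nat_lit 76) (nat_lit 28062680744) (nat_lit 224) (nat_lit 5) (nat_lit 232) (nat_lit 5) (nat_lit 225) (nat_lit 5) (nat_lit 492) (nat_lit 465) (nat_lit 243)) (XT.lf (nat_lit 0) (nat_lit 7966633251) (nat_lit 608) (nat_lit 31620788093) (nat_lit 76) (nat_lit 3720261481) (nat_lit 217) (nat_lit 5) (nat_lit 225) (nat_lit 5) (nat_lit 218) (nat_lit 5) (nat_lit 493) (nat_lit 465) (nat_lit 242))))))))
noncomputable def xc222 : XT := (XT.nd (nat_lit 2340) (nat_lit 2660) (nat_lit 0) (XT.nd (nat_lit 1170) (nat_lit 3040) (nat_lit 0) (XT.nd (nat_lit 546) (nat_lit 1672) (nat_lit 0) (XT.nd (nat_lit 234) (nat_lit 1444) (nat_lit 0) (XT.nd (nat_lit 78) (nat_lit 532) (nat_lit 0) (XT.lf (nat_lit 0) (nat_lit 13708756958) (nat_lit 608) (nat_lit 7996843126) (nat_lit 76) (nat_lit 22338877876) (nat_lit 217) (nat_lit 5) (nat_lit 225) (nat_lit 5) (nat_lit 218) (nat_lit 5) (nat_lit 494) (nat_lit 465) (nat_lit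 241)) (XT.nd (nat_lit 78) (nat_lit 0) (nat_lit 0) (XT.lf (nat_lit 0) (nat_lit 16659114371) (nat_lit 532) (nat_lit 3122561013) (nat_lit 608) (nat_lit 25016945947) (nat_lit 210) (nat_lit 5) (nat_lit 217) (nat_lit 5) (nat_lit 218) (nat_lit 5) (nat_lit 495) (nat_lit 465) (nat_lit 240)) (XT.lf (nat_lit 0) (nat_lit 26270729227) (nat_lit 608) (nat_lit 3510875859) (nat_lit 76) (nat_lit 15786765788) (nat_lit 210) (nat_lit 5) (nat_lit 218) (nat_lit 5) (nat_lit 211) (nat_lit 5) (nat_lit 496) (nat_lit 465) (nat_lit 239)))) (XT.nd (nat_lit 156) (nat_lit 532) (nat_lit 0) (XT.nd (nat_lit 78) (nat_lit 456) (nat_lit 0) (XT.lf (nat_lit 0) (nat_lit 22258276272) (nat_lit 456) (nat_lit 10939522383) (nat_lit 532) (nat_lit 13156114225) (nat_lit 204) (nat_lit 5) (nat_lit 210) (nat_lit 5) (nat_lit 211) (nat_lit 5) (nat_lit 497) (nat_lit 465) (nat_lit 238)) (XT.lf (nat_lit 0) (nat_lit 1659359617) (nat_lit 456) (nat_lit 38804966150) (nat_lit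 532) (nat_lit 6694746299) (nat_lit 198) (nat_lit 5) (nat_lit 204) (nat_lit 5) (nat_lit 205) (nat_lit 5) (nat_lit 498) (nat_lit 465) (nat_lit 237))) (XT.nd (nat_lit 78) (nat_lit 456) (nat_lit 0) (XT.lf (nat_lit 0) (nat_lit 313778970) (nat_lit 532) (nat_lit 19412283939) (nat_lit 76) (nat_lit 28251758449) (nat_lit 197) (nat_lit 5) (nat_lit 204) (nat_lit 5) (nat_lit 198) (nat_lit 5) (nat_lit 499) (nat_lit 465) (nat_lit 236)) (XT.lf (nat_lit 0) (nat_lit 7469650880) (nat_lit 532) (nat_lit 41280860292) (nat_lit 76) (nat_lit 66484221) (nat_lit 191) (nat_lit 5) (nat_lit 198) (nat_lit 5) (nat_lit 192) (nat_lit 5) (nat_lit 500) (nat_lit 465) (nat_lit 235))))) (XT.nd (nat_lit 312) (nat_lit 836) (nat_lit 0) (XT.nd (nat_lit 156) (nat_lit 380) (nat_lit 0) (XT.nd (nat_lit 78) (nat_lit 456) (nat_lit 0) (XT.lf (nat_lit 0) (nat_lit 15232044547) (nat_lit 532) (nat_lit 14183542352) (nat_lit 76) (nat_lit 20254002638) (nat_lit 191) (nat_lit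 5) (nat_lit 198) (nat_lit 5) (nat_lit 192) (nat_lit 5) (nat_lit 501) (nat_lit 465) (nat_lit 234)) (XT.lf (nat_lit 0) (nat_lit 13998131042) (nat_lit 456) (nat_lit 9362350385) (nat_lit 532) (nat_lit 27183285183) (nat_lit 185) (nat_lit 5) (nat_lit 191) (nat_lit 5) (nat_lit 192) (nat_lit 5) (nat_lit 502) (nat_lit 465) (nat_lit 233))) (XT.nd (nat_lit 78) (nat_lit 380) (nat_lit 0) (XT.lf (nat_lit 0) (nat_lit 31984599324) (nat_lit 532) (nat_lit 8235576284) (nat_lit 76) (nat_lit 11216438793) (nat_lit 185) (nat_lit 5) (nat_lit 192) (nat_lit 5) (nat_lit 186) (nat_lit 5) (nat_lit 503) (nat_lit 465) (nat_lit 232)) (XT.lf (nat_lit 0) (nat_lit 21243945710) (nat_lit 380) (nat_lit 19919074792) (nat_lit 456) (nat_lit 11184359964) (nat_lit 180) (nat_lit 5) (nat_lit 185) (nat_lit 5) (nat_lit 186) (nat_lit 5) (nat_lit 504) (nat_lit 465) (nat_lit 231)))) (XT.nd (nat_lit 156) (nat_lit 380) (nat_lit 0) (XT.nd (nat_lit 78) (nat_lit 456)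 (nat_lit 0) (XT.lf (nat_lit 0) (nat_lit 50708999988) (nat_lit 456) (nat_lit 1518357765) (nat_lit 76) (nat_lit 1055345818) (nat_lit 180) (nat_lit 5) (nat_lit 186) (nat_lit 5) (nat_lit 181) (nat_lit 5) (nat_lit 505) (nat_lit 465) (nat_lit 230)) (XT.lf (nat_lit 0) (nat_lit 6655024885) (nat_lit 456) (nat_lit 24969312221) (nat_lit 76) (nat_lit 22605456180) (nat_lit 174) (nat_lit 5) (nat_lit 180) (nat_lit 5) (nat_lit 175) (nat_lit 5) (nat_lit 506) (nat_lit 465) (nat_lit 229))) (XT.nd (nat_lit 78) (nat_lit 0) (nat_lit 0) (XT.lf (nat_lit 0) (nat_lit 5876341763) (nat_lit 380) (nat_lit 10303254931) (nat_lit 456) (nat_lit 39022813430) (nat_lit 169) (nat_lit 5) (nat_lit 174) (nat_lit 5) (nat_lit 175) (nat_lit 5) (nat_lit 507) (nat_lit 465) (nat_lit 228)) (XT.lf (nat_lit 0) (nat_lit 26355357888) (nat_lit 456) (nat_lit 18153668633) (nat_lit 76) (nat_lit 11684215581) (nat_lit 169) (nat_lit 5) (nat_lit 175) (nat_lit 5) (nat_lit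 170) (nat_lit 5) (nat_lit 508) (nat_lit 465) (nat_lit 227)))))) (XT.nd (nat_lit 546) (nat_lit 1596) (nat_lit 0) (XT.nd (nat_lit 234) (nat_lit 684) (nat_lit 0) (XT.nd (nat_lit 78) (nat_lit 380) (nat_lit 0) (XT.lf (nat_lit 0) (nat_lit 14125902849) (nat_lit 380) (nat_lit 22947080598) (nat_lit 456) (nat_lit 20133718042) (nat_lit 164) (nat_lit 5) (nat_lit 169) (nat_lit 5) (nat_lit 170) (nat_lit 5) (nat_lit 509) (nat_lit 465) (nat_lit 226)) (XT.nd (nat_lit 78) (nat_lit 380) (nat_lit 0) (XT.lf (nat_lit 0) (nat_lit 47744374861) (nat_lit 380) (nat_lit 549891270) (nat_lit 456) (nat_lit 9950834867) (nat_lit 164) (nat_lit 5) (nat_lit 169) (nat_lit 5) (nat_lit 170) (nat_lit 5) (nat_lit 510) (nat_lit 465) (nat_lit 225)) (XT.lf (nat_lit 0) (nat_lit 970613633) (nat_lit 380) (nat_lit 36017780003) (nat_lit 76) (nat_lit 22312796980) (nat_lit 159) (nat_lit 5) (nat_lit 164) (nat_lit 5) (nat_lit 160) (nat_lit 5) (nat_lit 511) (nat_lit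 465) (nat_lit 224)))) (XT.nd (nat_lit 156) (nat_lit 304) (nat_lit 0) (XT.nd (nat_lit 78) (nat_lit 380) (nat_lit 0) (XT.lf (nat_lit 0) (nat_lit 12131084230) (nat_lit 380) (nat_lit 2196083213) (nat_lit 76) (nat_lit 46055498542) (nat_lit 159) (nat_lit 5) (nat_lit 164) (nat_lit 5) (nat_lit 160) (nat_lit 5) (nat_lit 512) (nat_lit 465) (nat_lit 223)) (XT.lf (nat_lit 0) (nat_lit 24035050192) (nat_lit 456) (nat_lit 28288555127) (nat_lit 76) (nat_lit 9160720028) (nat_lit 154) (nat_lit 5) (nat_lit 160) (nat_lit 5) (nat_lit 155) (nat_lit 5) (nat_lit 513) (nat_lit 465) (nat_lit 222))) (XT.nd (nat_lit 78) (nat_lit 0) (nat_lit 0) (XT.lf (nat_lit 0) (nat_lit 7070346203) (nat_lit 304) (nat_lit 29456898610) (nat_lit 380) (nat_lit 26084856552) (nat_lit 150) (nat_lit 5) (nat_lit 154) (nat_lit 5) (nat_lit 155) (nat_lit 5) (nat_lit 514) (nat_lit 465) (nat_lit 221)) (XT.lf (nat_lit 0) (nat_lit 44068341064) (nat_lit 304) (nat_lit 5610436630)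 (nat_lit 380) (nat_lit 14086395955) (nat_lit 150) (nat_lit 5) (nat_lit 154) (nat_lit 5) (nat_lit 155) (nat_lit 5) (nat_lit 515) (nat_lit 465) (nat_lit 220))))) (XT.nd (nat_lit 312) (nat_lit 912) (nat_lit 0) (XT.nd (nat_lit 156) (nat_lit 304) (nat_lit 0) (XT.nd (nat_lit 78) (nat_lit 76) (nat_lit 0) (XT.lf (nat_lit 0) (nat_lit 17378845856) (nat_lit 304) (nat_lit 46194180137) (nat_lit 380) (nat_lit 1369367180) (nat_lit 146) (nat_lit 5) (nat_lit 150) (nat_lit 5) (nat_lit 151) (nat_lit 5) (nat_lit 516) (nat_lit 465) (nat_lit 219)) (XT.lf (nat_lit 0) (nat_lit 11755658011) (nat_lit 380) (nat_lit 10350217096) (nat_lit 76) (nat_lit 44038010964) (nat_lit 145) (nat_lit 5) (nat_lit 150) (nat_lit 5) (nat_lit 146) (nat_lit 5) (nat_lit 517) (nat_lit 465) (nat_lit 218))) (XT.nd (nat_lit 78) (nat_lit 0) (nat_lit 0) (XT.lf (nat_lit 0) (nat_lit 25548896354) (nat_lit 380) (nat_lit 38880671540) (nat_lit 76) (nat_lit 2942389701) (nat_lit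 141) (nat_lit 5) (nat_lit 146) (nat_lit 5) (nat_lit 142) (nat_lit 5) (nat_lit 518) (nat_lit 465) (nat_lit 217)) (XT.lf (nat_lit 0) (nat_lit 40079341542) (nat_lit 380) (nat_lit 144951935) (nat_lit 76) (nat_lit 28402875634) (nat_lit 141) (nat_lit 5) (nat_lit 146) (nat_lit 5) (nat_lit 142) (nat_lit 5) (nat_lit 519) (nat_lit 465) (nat_lit 216)))) (XT.nd (nat_lit 156) (nat_lit 304) (nat_lit 0) (XT.nd (nat_lit 78) (nat_lit 304) (nat_lit 0) (XT.lf (nat_lit 0) (nat_lit 40542498646) (nat_lit 304) (nat_lit 14891938141) (nat_lit 380) (nat_lit 14473938218) (nat_lit 137) (nat_lit 5) (nat_lit 141) (nat_lit 5) (nat_lit 142) (nat_lit 5) (nat_lit 520) (nat_lit 465) (nat_lit 215)) (XT.lf (nat_lit 0) (nat_lit 241040110) (nat_lit 304) (nat_lit 59886216690) (nat_lit 76) (nat_lit 11094174864) (nat_lit 133) (nat_lit 5) (nat_lit 137) (nat_lit 5) (nat_lit 134) (nat_lit 5) (nat_lit 521) (nat_lit 465) (nat_lit 214))) (XT.nd (nat_lit 78)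 (nat_lit 304) (nat_lit 0) (XT.lf (nat_lit 0) (nat_lit 15552506632) (nat_lit 304) (nat_lit 19000846146) (nat_lit 76) (nat_lit 38002849656) (nat_lit 133) (nat_lit 5) (nat_lit 137) (nat_lit 5) (nat_lit 134) (nat_lit 5) (nat_lit 522) (nat_lit 465) (nat_lit 213)) (XT.lf (nat_lit 0) (nat_lit 23569570286) (nat_lit 304) (nat_lit 7979372139) (nat_lit 380) (nat_lit 42375305263) (nat_lit 129) (nat_lit 5) (nat_lit 133) (nat_lit 5) (nat_lit 134) (nat_lit 5) (nat_lit 523) (nat_lit 465) (nat_lit 212))))))) (XT.nd (nat_lit 1170) (nat_lit 456) (nat_lit 0) (XT.nd (nat_lit 546) (nat_lit 1140) (nat_lit 0) (XT.nd (nat_lit 234) (nat_lit 456) (nat_lit 0) (XT.nd (nat_lit 78) (nat_lit 608) (nat_lit 0) (XT.lf (nat_lit 0) (nat_lit 48404517374) (nat_lit 380) (nat_lit 7710737433) (nat_lit 76) (nat_lit 19206702224) (nat_lit 129) (nat_lit 5) (nat_lit 134) (nat_lit 5) (nat_lit 130) (nat_lit 5) (nat_lit 524) (nat_lit 465) (nat_lit 211)) (XT.nd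 (nat_lit 78) (nat_lit 380) (nat_lit 0) (XT.lf (nat_lit 0) (nat_lit 36851207746) (nat_lit 228) (nat_lit 29346887945) (nat_lit 304) (nat_lit 10550531993) (nat_lit 126) (nat_lit 5) (nat_lit 129) (nat_lit 5) (nat_lit 130) (nat_lit 5) (nat_lit 525) (nat_lit 465) (nat_lit 210)) (XT.lf (nat_lit 0) (nat_lit 4721632695) (nat_lit 304) (nat_lit 1585791991) (nat_lit 380) (nat_lit 71905161316) (nat_lit 121) (nat_lit 5) (nat_lit 125) (nat_lit 5) (nat_lit 126) (nat_lit 5) (nat_lit 526) (nat_lit 465) (nat_lit 209)))) (XT.nd (nat_lit 156) (nat_lit 228) (nat_lit 0) (XT.nd (nat_lit 78) (nat_lit 228) (nat_lit 0) (XT.lf (nat_lit 0) (nat_lit 24124666136) (nat_lit 380) (nat_lit 28580751249) (nat_lit 76) (nat_lit 26991943926) (nat_lit 121) (nat_lit 5) (nat_lit 126) (nat_lit 5) (nat_lit 122) (nat_lit 5) (nat_lit 527) (nat_lit 465) (nat_lit 208)) (XT.lf (nat_lit 0) (nat_lit 18011138299) (nat_lit 228) (nat_lit 24653255408) (nat_lit 304)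 (nat_lit 38556647205) (nat_lit 118) (nat_lit 5) (nat_lit 121) (nat_lit 5) (nat_lit 122) (nat_lit 5) (nat_lit 528) (nat_lit 465) (nat_lit 207))) (XT.nd (nat_lit 78) (nat_lit 228) (nat_lit 0) (XT.lf (nat_lit 0) (nat_lit 62091683234) (nat_lit 304) (nat_lit 16240117334) (nat_lit 76) (nat_lit 4448689325) (nat_lit 118) (nat_lit 5) (nat_lit 122) (nat_lit 5) (nat_lit 119) (nat_lit 5) (nat_lit 529) (nat_lit 465) (nat_lit 206)) (XT.lf (nat_lit 0) (nat_lit 32528062826) (nat_lit 228) (nat_lit 50129665971) (nat_lit 304) (nat_lit 1712315522) (nat_lit 115) (nat_lit 5) (nat_lit 118) (nat_lit 5) (nat_lit 119) (nat_lit 5) (nat_lit 530) (nat_lit 465) (nat_lit 205))))) (XT.nd (nat_lit 312) (nat_lit 608) (nat_lit 0) (XT.nd (nat_lit 156) (nat_lit 228) (nat_lit 0) (XT.nd (nat_lit 78) (nat_lit 228) (nat_lit 0) (XT.lf (nat_lit 0) (nat_lit 17650261460) (nat_lit 304) (nat_lit 3084570747) (nat_lit 76) (nat_lit 65262366879) (nat_lit 114) (nat_lit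 5) (nat_lit 118) (nat_lit 5) (nat_lit 115) (nat_lit 5) (nat_lit 531) (nat_lit 465) (nat_lit 204)) (XT.lf (nat_lit 0) (nat_lit 38116886389) (nat_lit 304) (nat_lit 39700260308) (nat_lit 76) (nat_lit 9838785683) (nat_lit 111) (nat_lit 5) (nat_lit 115) (nat_lit 5) (nat_lit 112) (nat_lit 5) (nat_lit 532) (nat_lit 465) (nat_lit 203))) (XT.nd (nat_lit 78) (nat_lit 0) (nat_lit 0) (XT.lf (nat_lit 0) (nat_lit 11239257182) (nat_lit 228) (nat_lit 48302243072) (nat_lit 304) (nat_lit 29812607797) (nat_lit 108) (nat_lit 5) (nat_lit 111) (nat_lit 5) (nat_lit 112) (nat_lit 5) (nat_lit 533) (nat_lit 465) (nat_lit 202)) (XT.lf (nat_lit 0) (nat_lit 64519472458) (nat_lit 228) (nat_lit 17489485325) (nat_lit 304) (nat_lit 9082268131) (nat_lit 108) (nat_lit 5) (nat_lit 111) (nat_lit 5) (nat_lit 112) (nat_lit 5) (nat_lit 534) (nat_lit 465) (nat_lit 201)))) (XT.nd (nat_lit 156) (nat_lit 380) (nat_lit 0) (XT.nd (nat_lit 78) (nat_lit 0) (nat_lit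 0) (XT.lf (nat_lit 0) (nat_lit 12429266450) (nat_lit 228) (nat_lit 66086071775) (nat_lit 76) (nat_lit 14349619279) (nat_lit 105) (nat_lit 5) (nat_lit 108) (nat_lit 5) (nat_lit 106) (nat_lit 5) (nat_lit 535) (nat_lit 465) (nat_lit 200)) (XT.lf (nat_lit 0) (nat_lit 34846976250) (nat_lit 228) (nat_lit 12676142924) (nat_lit 76) (nat_lit 47152783026) (nat_lit 105) (nat_lit 5) (nat_lit 108) (nat_lit 5) (nat_lit 106) (nat_lit 5) (nat_lit 536) (nat_lit 465) (nat_lit 199))) (XT.nd (nat_lit 78) (nat_lit 152) (nat_lit 0) (XT.lf (nat_lit 0) (nat_lit 43177380269) (nat_lit 228) (nat_lit 15174138143) (nat_lit 304) (nat_lit 38177227863) (nat_lit 102) (nat_lit 5) (nat_lit 105) (nat_lit 5) (nat_lit 106) (nat_lit 5) (nat_lit 537) (nat_lit 465) (nat_lit 198)) (XT.lf (nat_lit 0) (nat_lit 2402966611) (nat_lit 152) (nat_lit 80484283117) (nat_lit 228) (nat_lit 15540144429) (nat_lit 100) (nat_lit 5) (nat_lit 102) (nat_lit 5) (nat_lit 103)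 (nat_lit 5) (nat_lit 538) (nat_lit 465) (nat_lit 197)))))) (XT.nd (nat_lit 57174) (nat_lit 0) (nat_lit 13832) (XT.nd (nat_lit 56862) (nat_lit 0) (nat_lit 13680) (XT.nd (nat_lit 234) (nat_lit 152) (nat_lit 0) (XT.nd (nat_lit 156) (nat_lit 228) (nat_lit 0) (XT.lf (nat_lit 0) (nat_lit 8317891054) (nat_lit 228) (nat_lit 39674837795) (nat_lit 76) (nat_lit 52367222897) (nat_lit 99) (nat_lit 5) (nat_lit 102) (nat_lit 5) (nat_lit 100) (nat_lit 5) (nat_lit 539) (nat_lit 465) (nat_lit 196)) (XT.lf (nat_lit 0) (nat_lit 58531840964) (nat_lit 304) (nat_lit 25191390421) (nat_lit 76) (nat_lit 20639237865) (nat_lit 96) (nat_lit 5) (nat_lit 100) (nat_lit 5) (nat_lit 97) (nat_lit 5) (nat_lit 541) (nat_lit 465) (nat_lit 194))) (XT.nd (nat_lit 56550) (nat_lit 0) (nat_lit 13680) (XT.lf (nat_lit 0) (nat_lit 35697432897) (nat_lit 152) (nat_lit 49865245081) (nat_lit 228) (nat_lit 20867895909) (nat_lit 94) (nat_lit 5) (nat_lit 96) (nat_lit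 5) (nat_lit 97) (nat_lit 5) (nat_lit 542) (nat_lit 465) (nat_lit 193)) (XT.lf (nat_lit 0) (nat_lit 4925897121) (nat_lit 1292) (nat_lit 4699502550) (nat_lit 1292) (nat_lit 4699502550) (nat_lit 274) (nat_lit 3) (nat_lit 291) (nat_lit 3) (nat_lit 291) (nat_lit 5) (nat_lit 466) (nat_lit 466) (nat_lit 268)))) (XT.nd (nat_lit 156) (nat_lit 0) (nat_lit 76) (XT.nd (nat_lit 78) (nat_lit 0) (nat_lit 76) (XT.lf (nat_lit 76) (nat_lit 4730950161) (nat_lit 0) (nat_lit 5393337063) (nat_lit 1292) (nat_lit 18951504368) (nat_lit 275) (nat_lit 5) (nat_lit 274) (nat_lit 3) (nat_lit 291) (nat_lit 5) (nat_lit 467) (nat_lit 466) (nat_lit 267)) (XT.lf (nat_lit 0) (nat_lit 10583070932) (nat_lit 1216) (nat_lit 10122267716) (nat_lit 1292) (nat_lit 8803876950) (nat_lit 275) (nat_lit 5) (nat_lit 291) (nat_lit 5) (nat_lit 292) (nat_lit 5) (nat_lit 468) (nat_lit 466) (nat_lit 266))) (XT.nd (nat_lit 78) (nat_lit 0) (nat_lit 76) (XT.lf (nat_lit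 76) (nat_lit 4560900997) (nat_lit 0) (nat_lit 6588954968) (nat_lit 1292) (nat_lit 18802959923) (nat_lit 276) (nat_lit 5) (nat_lit 275) (nat_lit 5) (nat_lit 292) (nat_lit 5) (nat_lit 469) (nat_lit 466) (nat_lit 265)) (XT.lf (nat_lit 0) (nat_lit 11910380657) (nat_lit 1216) (nat_lit 10593804305) (nat_lit 1292) (nat_lit 7900237819) (nat_lit 276) (nat_lit 5) (nat_lit 292) (nat_lit 5) (nat_lit 293) (nat_lit 5) (nat_lit 470) (nat_lit 466) (nat_lit 264))))) (XT.nd (nat_lit 312) (nat_lit 0) (nat_lit 152) (XT.nd (nat_lit 156) (nat_lit 0) (nat_lit 76) (XT.nd (nat_lit 78) (nat_lit 0) (nat_lit 76) (XT.lf (nat_lit 76) (nat_lit 4672473907) (nat_lit 0) (nat_lit 8128564001) (nat_lit 1292) (nat_lit 18065321127) (nat_lit 277) (nat_lit 5) (nat_lit 276) (nat_lit 5) (nat_lit 293) (nat_lit 5) (nat_lit 471) (nat_lit 466) (nat_lit 263)) (XT.lf (nat_lit 0) (nat_lit 13887888352) (nat_lit 1216) (nat_lit 10792088817) (nat_lit 1292) (nat_lit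 6657092642) (nat_lit 277) (nat_lit 5) (nat_lit 293) (nat_lit 5) (nat_lit 294) (nat_lit 5) (nat_lit 472) (nat_lit 466) (nat_lit 262))) (XT.nd (nat_lit 78) (nat_lit 0) (nat_lit 76) (XT.lf (nat_lit 76) (nat_lit 5088841912) (nat_lit 0) (nat_lit 10045222134) (nat_lit 1292) (nat_lit 16684036893) (nat_lit 278) (nat_lit 5) (nat_lit 277) (nat_lit 5) (nat_lit 294) (nat_lit 5) (nat_lit 473) (nat_lit 466) (nat_lit 261)) (XT.lf (nat_lit 0) (nat_lit 16573412564) (nat_lit 1216) (nat_lit 10694093480) (nat_lit 1292) (nat_lit 5041383934) (nat_lit 278) (nat_lit 5) (nat_lit 294) (nat_lit 5) (nat_lit 295) (nat_lit 5) (nat_lit 474) (nat_lit 466) (nat_lit 260)))) (XT.nd (nat_lit 156) (nat_lit 0) (nat_lit 76) (XT.nd (nat_lit 78) (nat_lit 0) (nat_lit 76) (XT.lf (nat_lit 76) (nat_lit 5834768578) (nat_lit 0) (nat_lit 12374185804) (nat_lit 1292) (nat_lit 14600858504) (nat_lit 279) (nat_lit 5) (nat_lit 278) (nat_lit 5) (nat_lit 295) (nat_lit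 5) (nat_lit 475) (nat_lit 466) (nat_lit 259)) (XT.lf (nat_lit 0) (nat_lit 20028663319) (nat_lit 1216) (nat_lit 10275211248) (nat_lit 1292) (nat_lit 3017836457) (nat_lit 279) (nat_lit 5) (nat_lit 295) (nat_lit 5) (nat_lit 296) (nat_lit 5) (nat_lit 476) (nat_lit 466) (nat_lit 258))) (XT.nd (nat_lit 78) (nat_lit 0) (nat_lit 76) (XT.lf (nat_lit 76) (nat_lit 6936690209) (nat_lit 0) (nat_lit 15153073513) (nat_lit 1292) (nat_lit 11753598930) (nat_lit 280) (nat_lit 5) (nat_lit 279) (nat_lit 5) (nat_lit 296) (nat_lit 5) (nat_lit 477) (nat_lit 466) (nat_lit 257)) (XT.lf (nat_lit 0) (nat_lit 24319493690) (nat_lit 1216) (nat_lit 9509174092) (nat_lit 1292) (nat_lit 548792685) (nat_lit 280) (nat_lit 5) (nat_lit 296) (nat_lit 5) (nat_lit 297) (nat_lit 5) (nat_lit 478) (nat_lit 466) (nat_lit 256))))))))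
noncomputable def xc223 : XT := (XT.nd (nat_lit 2340) (nat_lit 5244) (nat_lit 0) (XT.nd (nat_lit 1170) (nat_lit 4180) (nat_lit 0) (XT.nd (nat_lit 546) (nat_lit 2356) (nat_lit 0) (XT.nd (nat_lit 234) (nat_lit 1900) (nat_lit 0) (XT.nd (nat_lit 78) (nat_lit 0) (nat_lit 0) (XT.lf (nat_lit 76) (nat_lit 8422802382) (nat_lit 0) (nat_lit 18422039245) (nat_lit 1292) (nat_lit 8075878328) (nat_lit 281) (nat_lit 5) (nat_lit 280) (nat_lit 5) (nat_lit 297) (nat_lit 5) (nat_lit 479) (nat_lit 466) (nat_lit 255)) (XT.nd (nat_lit 78) (nat_lit 0) (nat_lit 76) (XT.lf (nat_lit 76) (nat_lit 27085908698) (nat_lit 0) (nat_lit 2453845029) (nat_lit 1292) (nat_lit 5937709893) (nat_lit 281) (nat_lit 5) (nat_lit 280) (nat_lit 5) (nat_lit 297) (nat_lit 5) (nat_lit 480) (nat_lit 466) (nat_lit 254)) (XT.lf (nat_lit 76) (nat_lit 10323150930) (nat_lit 0) (nat_lit 22223956467) (nat_lit 1292) (nat_lit 3496854862) (nat_lit 282) (nat_lit 5) (nat_lit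 281) (nat_lit 5) (nat_lit 298) (nat_lit 5) (nat_lit 481) (nat_lit 466) (nat_lit 253)))) (XT.nd (nat_lit 156) (nat_lit 760) (nat_lit 0) (XT.nd (nat_lit 78) (nat_lit 1216) (nat_lit 0) (XT.lf (nat_lit 76) (nat_lit 29744778541) (nat_lit 0) (nat_lit 6006593135) (nat_lit 1292) (nat_lit 872883957) (nat_lit 282) (nat_lit 5) (nat_lit 281) (nat_lit 5) (nat_lit 298) (nat_lit 5) (nat_lit 482) (nat_lit 466) (nat_lit 252)) (XT.lf (nat_lit 0) (nat_lit 2018880328) (nat_lit 1292) (nat_lit 24565346453) (nat_lit 76) (nat_lit 10630460387) (nat_lit 265) (nat_lit 5) (nat_lit 282) (nat_lit 5) (nat_lit 266) (nat_lit 5) (nat_lit 483) (nat_lit 466) (nat_lit 251))) (XT.nd (nat_lit 78) (nat_lit 760) (nat_lit 0) (XT.lf (nat_lit 0) (nat_lit 5107463052) (nat_lit 1292) (nat_lit 4986299491) (nat_lit 76) (nat_lit 27724981983) (nat_lit 265) (nat_lit 5) (nat_lit 282) (nat_lit 5) (nat_lit 266) (nat_lit 5) (nat_lit 484) (nat_lit 466) (nat_lit 250))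 (XT.lf (nat_lit 0) (nat_lit 8503270924) (nat_lit 836) (nat_lit 23023783959) (nat_lit 76) (nat_lit 6907432112) (nat_lit 255) (nat_lit 5) (nat_lit 266) (nat_lit 5) (nat_lit 256) (nat_lit 5) (nat_lit 485) (nat_lit 466) (nat_lit 249))))) (XT.nd (nat_lit 312) (nat_lit 1140) (nat_lit 0) (XT.nd (nat_lit 156) (nat_lit 608) (nat_lit 0) (XT.nd (nat_lit 78) (nat_lit 608) (nat_lit 0) (XT.lf (nat_lit 0) (nat_lit 12149824140) (nat_lit 836) (nat_lit 2647584567) (nat_lit 76) (nat_lit 24266827309) (nat_lit 255) (nat_lit 5) (nat_lit 266) (nat_lit 5) (nat_lit 256) (nat_lit 5) (nat_lit 486) (nat_lit 466) (nat_lit 248)) (XT.lf (nat_lit 0) (nat_lit 16108877828) (nat_lit 684) (nat_lit 21029587966) (nat_lit 76) (nat_lit 2568318994) (nat_lit 247) (nat_lit 5) (nat_lit 256) (nat_lit 5) (nat_lit 248) (nat_lit 5) (nat_lit 487) (nat_lit 466) (nat_lit 247))) (XT.nd (nat_lit 78) (nat_lit 0) (nat_lit 0) (XT.lf (nat_lit 0) (nat_lit 183214460) (nat_lit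 608) (nat_lit 20176936024) (nat_lit 684) (nat_lit 20003256508) (nat_lit 239) (nat_lit 5) (nat_lit 247) (nat_lit 5) (nat_lit 248) (nat_lit 5) (nat_lit 488) (nat_lit 466) (nat_lit 246)) (XT.lf (nat_lit 0) (nat_lit 22461730695) (nat_lit 608) (nat_lit 2487801513) (nat_lit 684) (nat_lit 16083878901) (nat_lit 239) (nat_lit 5) (nat_lit 247) (nat_lit 5) (nat_lit 248) (nat_lit 5) (nat_lit 489) (nat_lit 466) (nat_lit 245)))) (XT.nd (nat_lit 156) (nat_lit 608) (nat_lit 0) (XT.nd (nat_lit 78) (nat_lit 0) (nat_lit 0) (XT.lf (nat_lit 0) (nat_lit 3602399439) (nat_lit 532) (nat_lit 26258315698) (nat_lit 608) (nat_lit 11857276986) (nat_lit 232) (nat_lit 5) (nat_lit 239) (nat_lit 5) (nat_lit 240) (nat_lit 5) (nat_lit 490) (nat_lit 466) (nat_lit 244)) (XT.lf (nat_lit 0) (nat_lit 26795540508) (nat_lit 532) (nat_lit 8333920208) (nat_lit 608) (nat_lit 7287343390) (nat_lit 232) (nat_lit 5) (nat_lit 239) (nat_lit 5) (nat_lit 240) (nat_lit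 5) (nat_lit 491) (nat_lit 466) (nat_lit 243))) (XT.nd (nat_lit 78) (nat_lit 76) (nat_lit 0) (XT.lf (nat_lit 0) (nat_lit 7597043197) (nat_lit 532) (nat_lit 33127959970) (nat_lit 608) (nat_lit 2406515590) (nat_lit 225) (nat_lit 5) (nat_lit 232) (nat_lit 5) (nat_lit 233) (nat_lit 5) (nat_lit 492) (nat_lit 466) (nat_lit 242)) (XT.lf (nat_lit 0) (nat_lit 2809780775) (nat_lit 608) (nat_lit 12141845901) (nat_lit 76) (nat_lit 28908087218) (nat_lit 224) (nat_lit 5) (nat_lit 232) (nat_lit 5) (nat_lit 225) (nat_lit 5) (nat_lit 493) (nat_lit 466) (nat_lit 241)))))) (XT.nd (nat_lit 546) (nat_lit 2128) (nat_lit 0) (XT.nd (nat_lit 234) (nat_lit 988) (nat_lit 0) (XT.nd (nat_lit 78) (nat_lit 532) (nat_lit 0) (XT.lf (nat_lit 0) (nat_lit 8287172580) (nat_lit 608) (nat_lit 32478809109) (nat_lit 76) (nat_lit 3838469451) (nat_lit 217) (nat_lit 5) (nat_lit 225) (nat_lit 5) (nat_lit 218) (nat_lit 5) (nat_lit 494) (nat_lit 466) (nat_lit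 240)) (XT.nd (nat_lit 78) (nat_lit 532) (nat_lit 0) (XT.lf (nat_lit 0) (nat_lit 14199185037) (nat_lit 608) (nat_lit 8148784704) (nat_lit 76) (nat_lit 23015452100) (nat_lit 217) (nat_lit 5) (nat_lit 225) (nat_lit 5) (nat_lit 218) (nat_lit 5) (nat_lit 495) (nat_lit 466) (nat_lit 239)) (XT.lf (nat_lit 0) (nat_lit 17245989128) (nat_lit 532) (nat_lit 3206833372) (nat_lit 608) (nat_lit 25687411522) (nat_lit 210) (nat_lit 5) (nat_lit 217) (nat_lit 5) (nat_lit 218) (nat_lit 5) (nat_lit 496) (nat_lit 466) (nat_lit 238)))) (XT.nd (nat_lit 156) (nat_lit 532) (nat_lit 0) (XT.nd (nat_lit 78) (nat_lit 456) (nat_lit 0) (XT.lf (nat_lit 0) (nat_lit 27134372711) (nat_lit 608) (nat_lit 3529447888) (nat_lit 76) (nat_lit 16269321147) (nat_lit 210) (nat_lit 5) (nat_lit 218) (nat_lit 5) (nat_lit 211) (nat_lit 5) (nat_lit 497) (nat_lit 466) (nat_lit 237)) (XT.lf (nat_lit 0) (nat_lit 23011928274) (nat_lit 456) (nat_lit 11255952048) (nat_lit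 532) (nat_lit 13474411332) (nat_lit 204) (nat_lit 5) (nat_lit 210) (nat_lit 5) (nat_lit 211) (nat_lit 5) (nat_lit 498) (nat_lit 466) (nat_lit 236))) (XT.nd (nat_lit 78) (nat_lit 76) (nat_lit 0) (XT.lf (nat_lit 0) (nat_lit 1796306693) (nat_lit 456) (nat_lit 39954884523) (nat_lit 532) (nat_lit 6820451174) (nat_lit 198) (nat_lit 5) (nat_lit 204) (nat_lit 5) (nat_lit 205) (nat_lit 5) (nat_lit 499) (nat_lit 466) (nat_lit 235)) (XT.lf (nat_lit 0) (nat_lit 394717883) (nat_lit 532) (nat_lit 19908588517) (nat_lit 76) (nat_lit 29111690855) (nat_lit 197) (nat_lit 5) (nat_lit 204) (nat_lit 5) (nat_lit 198) (nat_lit 5) (nat_lit 500) (nat_lit 466) (nat_lit 234))))) (XT.nd (nat_lit 312) (nat_lit 1216) (nat_lit 0) (XT.nd (nat_lit 156) (nat_lit 456) (nat_lit 0) (XT.nd (nat_lit 78) (nat_lit 0) (nat_lit 0) (XT.lf (nat_lit 0) (nat_lit 7764145663) (nat_lit 532) (nat_lit 42432089274) (nat_lit 76) (nat_lit 83145560) (nat_lit 191) (nat_lit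 5) (nat_lit 198) (nat_lit 5) (nat_lit 192) (nat_lit 5) (nat_lit 501) (nat_lit 466) (nat_lit 233)) (XT.lf (nat_lit 0) (nat_lit 15757360501) (nat_lit 532) (nat_lit 14524391510) (nat_lit 76) (nat_lit 20875862341) (nat_lit 191) (nat_lit 5) (nat_lit 198) (nat_lit 5) (nat_lit 192) (nat_lit 5) (nat_lit 502) (nat_lit 466) (nat_lit 232))) (XT.nd (nat_lit 78) (nat_lit 0) (nat_lit 0) (XT.lf (nat_lit 0) (nat_lit 14501902114) (nat_lit 456) (nat_lit 9626563260) (nat_lit 532) (nat_lit 27929587274) (nat_lit 185) (nat_lit 5) (nat_lit 191) (nat_lit 5) (nat_lit 192) (nat_lit 5) (nat_lit 503) (nat_lit 466) (nat_lit 231)) (XT.lf (nat_lit 0) (nat_lit 33009505874) (nat_lit 532) (nat_lit 8399445535) (nat_lit 76) (nat_lit 11568788836) (nat_lit 185) (nat_lit 5) (nat_lit 192) (nat_lit 5) (nat_lit 186) (nat_lit 5) (nat_lit 504) (nat_lit 466) (nat_lit 230)))) (XT.nd (nat_lit 156) (nat_lit 836) (nat_lit 0) (XT.nd (nat_lit 78) (nat_lit 0) (nat_lit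 0) (XT.lf (nat_lit 0) (nat_lit 21963646452) (nat_lit 380) (nat_lit 20498521206) (nat_lit 456) (nat_lit 11453695331) (nat_lit 180) (nat_lit 5) (nat_lit 185) (nat_lit 5) (nat_lit 186) (nat_lit 5) (nat_lit 505) (nat_lit 466) (nat_lit 229)) (XT.lf (nat_lit 0) (nat_lit 52292824141) (nat_lit 456) (nat_lit 1482212358) (nat_lit 76) (nat_lit 1104260686) (nat_lit 180) (nat_lit 5) (nat_lit 186) (nat_lit 5) (nat_lit 181) (nat_lit 5) (nat_lit 506) (nat_lit 466) (nat_lit 228))) (XT.nd (nat_lit 78) (nat_lit 380) (nat_lit 0) (XT.lf (nat_lit 0) (nat_lit 6916804787) (nat_lit 456) (nat_lit 25636249654) (nat_lit 76) (nat_lit 23301758525) (nat_lit 174) (nat_lit 5) (nat_lit 180) (nat_lit 5) (nat_lit 175) (nat_lit 5) (nat_lit 507) (nat_lit 466) (nat_lit 227)) (XT.lf (nat_lit 0) (nat_lit 6133968637) (nat_lit 380) (nat_lit 10592117384) (nat_lit 456) (nat_lit 40130553419) (nat_lit 169) (nat_lit 5) (nat_lit 174) (nat_lit 5) (nat_lit 175)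 (nat_lit 5) (nat_lit 508) (nat_lit 466) (nat_lit 226))))))) (XT.nd (nat_lit 1170) (nat_lit 2508) (nat_lit 0) (XT.nd (nat_lit 546) (nat_lit 1292) (nat_lit 0) (XT.nd (nat_lit 234) (nat_lit 1064) (nat_lit 0) (XT.nd (nat_lit 78) (nat_lit 380) (nat_lit 0) (XT.lf (nat_lit 0) (nat_lit 27205529245) (nat_lit 456) (nat_lit 18617710638) (nat_lit 76) (nat_lit 12054004508) (nat_lit 169) (nat_lit 5) (nat_lit 175) (nat_lit 5) (nat_lit 170) (nat_lit 5) (nat_lit 509) (nat_lit 466) (nat_lit 225)) (XT.nd (nat_lit 78) (nat_lit 0) (nat_lit 0) (XT.lf (nat_lit 0) (nat_lit 14629458107) (nat_lit 380) (nat_lit 23614259022) (nat_lit 456) (nat_lit 20677419706) (nat_lit 164) (nat_lit 5) (nat_lit 169) (nat_lit 5) (nat_lit 170) (nat_lit 5) (nat_lit 510) (nat_lit 466) (nat_lit 224)) (XT.lf (nat_lit 0) (nat_lit 49254160643) (nat_lit 380) (nat_lit 545772480) (nat_lit 456) (nat_lit 10190806633) (nat_lit 164) (nat_lit 5) (nat_lit 169) (nat_lit 5)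 (nat_lit 170) (nat_lit 5) (nat_lit 511) (nat_lit 466) (nat_lit 223)))) (XT.nd (nat_lit 156) (nat_lit 684) (nat_lit 0) (XT.nd (nat_lit 78) (nat_lit 0) (nat_lit 0) (XT.lf (nat_lit 0) (nat_lit 1056423996) (nat_lit 380) (nat_lit 37018980126) (nat_lit 76) (nat_lit 23003112874) (nat_lit 159) (nat_lit 5) (nat_lit 164) (nat_lit 5) (nat_lit 160) (nat_lit 5) (nat_lit 512) (nat_lit 466) (nat_lit 222)) (XT.lf (nat_lit 0) (nat_lit 12550057489) (nat_lit 380) (nat_lit 2184943110) (nat_lit 76) (nat_lit 47457485814) (nat_lit 159) (nat_lit 5) (nat_lit 164) (nat_lit 5) (nat_lit 160) (nat_lit 5) (nat_lit 513) (nat_lit 466) (nat_lit 221))) (XT.nd (nat_lit 78) (nat_lit 304) (nat_lit 0) (XT.lf (nat_lit 0) (nat_lit 24810484839) (nat_lit 456) (nat_lit 29059523504) (nat_lit 76) (nat_lit 9457207184) (nat_lit 154) (nat_lit 5) (nat_lit 160) (nat_lit 5) (nat_lit 155) (nat_lit 5) (nat_lit 514) (nat_lit 466) (nat_lit 220)) (XT.lf (nat_lit 0)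 (nat_lit 7359383216) (nat_lit 304) (nat_lit 30317217573) (nat_lit 380) (nat_lit 26812249606) (nat_lit 150) (nat_lit 5) (nat_lit 154) (nat_lit 5) (nat_lit 155) (nat_lit 5) (nat_lit 515) (nat_lit 466) (nat_lit 219))))) (XT.nd (nat_lit 312) (nat_lit 608) (nat_lit 0) (XT.nd (nat_lit 156) (nat_lit 380) (nat_lit 0) (XT.nd (nat_lit 78) (nat_lit 304) (nat_lit 0) (XT.lf (nat_lit 0) (nat_lit 45465077342) (nat_lit 304) (nat_lit 5756042937) (nat_lit 380) (nat_lit 14455441579) (nat_lit 150) (nat_lit 5) (nat_lit 154) (nat_lit 5) (nat_lit 155) (nat_lit 5) (nat_lit 516) (nat_lit 466) (nat_lit 218)) (XT.lf (nat_lit 0) (nat_lit 17975500567) (nat_lit 304) (nat_lit 47556117142) (nat_lit 380) (nat_lit 1357497830) (nat_lit 146) (nat_lit 5) (nat_lit 150) (nat_lit 5) (nat_lit 151) (nat_lit 5) (nat_lit 517) (nat_lit 466) (nat_lit 217))) (XT.nd (nat_lit 78) (nat_lit 304) (nat_lit 0) (XT.lf (nat_lit 0) (nat_lit 12158732716) (nat_lit 380)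 (nat_lit 10586617033) (nat_lit 76) (nat_lit 45381333780) (nat_lit 145) (nat_lit 5) (nat_lit 150) (nat_lit 5) (nat_lit 146) (nat_lit 5) (nat_lit 518) (nat_lit 466) (nat_lit 216)) (XT.lf (nat_lit 0) (nat_lit 26365233659) (nat_lit 380) (nat_lit 39972443788) (nat_lit 76) (nat_lit 3053935990) (nat_lit 141) (nat_lit 5) (nat_lit 146) (nat_lit 5) (nat_lit 142) (nat_lit 5) (nat_lit 519) (nat_lit 466) (nat_lit 215)))) (XT.nd (nat_lit 156) (nat_lit 304) (nat_lit 0) (XT.nd (nat_lit 78) (nat_lit 304) (nat_lit 0) (XT.lf (nat_lit 0) (nat_lit 41330139667) (nat_lit 380) (nat_lit 76826806) (nat_lit 76) (nat_lit 29277558601) (nat_lit 141) (nat_lit 5) (nat_lit 146) (nat_lit 5) (nat_lit 142) (nat_lit 5) (nat_lit 520) (nat_lit 466) (nat_lit 214)) (XT.lf (nat_lit 0) (nat_lit 41830536767) (nat_lit 304) (nat_lit 15314630604) (nat_lit 380) (nat_lit 14859021576) (nat_lit 137) (nat_lit 5) (nat_lit 141) (nat_lit 5) (nat_lit 142) (nat_lit 5)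 (nat_lit 521) (nat_lit 466) (nat_lit 213))) (XT.nd (nat_lit 78) (nat_lit 0) (nat_lit 0) (XT.lf (nat_lit 0) (nat_lit 295972364) (nat_lit 304) (nat_lit 61609594077) (nat_lit 76) (nat_lit 11451071123) (nat_lit 133) (nat_lit 5) (nat_lit 137) (nat_lit 5) (nat_lit 134) (nat_lit 5) (nat_lit 522) (nat_lit 466) (nat_lit 212)) (XT.lf (nat_lit 0) (nat_lit 16065393532) (nat_lit 304) (nat_lit 19499794720) (nat_lit 76) (nat_lit 39166305061) (nat_lit 133) (nat_lit 5) (nat_lit 137) (nat_lit 5) (nat_lit 134) (nat_lit 5) (nat_lit 523) (nat_lit 466) (nat_lit 211)))))) (XT.nd (nat_lit 624) (nat_lit 1140) (nat_lit 0) (XT.nd (nat_lit 312) (nat_lit 456) (nat_lit 0) (XT.nd (nat_lit 156) (nat_lit 608) (nat_lit 0) (XT.nd (nat_lit 78) (nat_lit 0) (nat_lit 0) (XT.lf (nat_lit 0) (nat_lit 24347037372) (nat_lit 304) (nat_lit 8194012677) (nat_lit 380) (nat_lit 43599550217) (nat_lit 129) (nat_lit 5) (nat_lit 133) (nat_lit 5) (nat_lit 134) (nat_lit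 5) (nat_lit 524) (nat_lit 466) (nat_lit 210)) (XT.lf (nat_lit 0) (nat_lit 49901193841) (nat_lit 380) (nat_lit 7872625567) (nat_lit 76) (nat_lit 19806454599) (nat_lit 129) (nat_lit 5) (nat_lit 134) (nat_lit 5) (nat_lit 130) (nat_lit 5) (nat_lit 525) (nat_lit 466) (nat_lit 209))) (XT.nd (nat_lit 78) (nat_lit 380) (nat_lit 0) (XT.lf (nat_lit 0) (nat_lit 38025497242) (nat_lit 228) (nat_lit 30202445854) (nat_lit 304) (nat_lit 10821820936) (nat_lit 126) (nat_lit 5) (nat_lit 129) (nat_lit 5) (nat_lit 130) (nat_lit 5) (nat_lit 526) (nat_lit 466) (nat_lit 208)) (XT.lf (nat_lit 0) (nat_lit 4932239917) (nat_lit 304) (nat_lit 1608123267) (nat_lit 380) (nat_lit 74017283886) (nat_lit 121) (nat_lit 5) (nat_lit 125) (nat_lit 5) (nat_lit 126) (nat_lit 5) (nat_lit 527) (nat_lit 466) (nat_lit 207)))) (XT.nd (nat_lit 156) (nat_lit 228) (nat_lit 0) (XT.nd (nat_lit 78) (nat_lit 228) (nat_lit 0) (XT.lf (nat_lit 0) (nat_lit 24891084182)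 (nat_lit 380) (nat_lit 29370181449) (nat_lit 76) (nat_lit 27825731285) (nat_lit 121) (nat_lit 5) (nat_lit 126) (nat_lit 5) (nat_lit 122) (nat_lit 5) (nat_lit 528) (nat_lit 466) (nat_lit 206)) (XT.lf (nat_lit 0) (nat_lit 18618798194) (nat_lit 228) (nat_lit 25367609512) (nat_lit 304) (nat_lit 39669997218) (nat_lit 118) (nat_lit 5) (nat_lit 121) (nat_lit 5) (nat_lit 122) (nat_lit 5) (nat_lit 529) (nat_lit 466) (nat_lit 205))) (XT.nd (nat_lit 78) (nat_lit 228) (nat_lit 0) (XT.lf (nat_lit 0) (nat_lit 63995525813) (nat_lit 304) (nat_lit 16660961335) (nat_lit 76) (nat_lit 4606180069) (nat_lit 118) (nat_lit 5) (nat_lit 122) (nat_lit 5) (nat_lit 119) (nat_lit 5) (nat_lit 530) (nat_lit 466) (nat_lit 204)) (XT.lf (nat_lit 0) (nat_lit 33569613646) (nat_lit 228) (nat_lit 51608373874) (nat_lit 304) (nat_lit 1721937845) (nat_lit 115) (nat_lit 5) (nat_lit 118) (nat_lit 5) (nat_lit 119) (nat_lit 5) (nat_lit 531) (nat_lit 466) (nat_lit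 203))))) (XT.nd (nat_lit 312) (nat_lit 608) (nat_lit 0) (XT.nd (nat_lit 156) (nat_lit 228) (nat_lit 0) (XT.nd (nat_lit 78) (nat_lit 228) (nat_lit 0) (XT.lf (nat_lit 0) (nat_lit 18219509600) (nat_lit 304) (nat_lit 3112517656) (nat_lit 76) (nat_lit 67243891373) (nat_lit 114) (nat_lit 5) (nat_lit 118) (nat_lit 5) (nat_lit 115) (nat_lit 5) (nat_lit 532) (nat_lit 466) (nat_lit 202)) (XT.lf (nat_lit 0) (nat_lit 39299828589) (nat_lit 304) (nat_lit 40826369118) (nat_lit 76) (nat_lit 10158225480) (nat_lit 111) (nat_lit 5) (nat_lit 115) (nat_lit 5) (nat_lit 112) (nat_lit 5) (nat_lit 533) (nat_lit 466) (nat_lit 201))) (XT.nd (nat_lit 78) (nat_lit 0) (nat_lit 0) (XT.lf (nat_lit 0) (nat_lit 11640697632) (nat_lit 228) (nat_lit 49725952359) (nat_lit 304) (nat_lit 30666910180) (nat_lit 108) (nat_lit 5) (nat_lit 111) (nat_lit 5) (nat_lit 112) (nat_lit 5) (nat_lit 534) (nat_lit 466) (nat_lit 200)) (XT.lf (nat_lit 0) (nat_lit 66517447637)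 (nat_lit 228) (nat_lit 17989550463) (nat_lit 304) (nat_lit 9315827582) (nat_lit 108) (nat_lit 5) (nat_lit 111) (nat_lit 5) (nat_lit 112) (nat_lit 5) (nat_lit 535) (nat_lit 466) (nat_lit 199)))) (XT.nd (nat_lit 156) (nat_lit 380) (nat_lit 0) (XT.nd (nat_lit 78) (nat_lit 0) (nat_lit 0) (XT.lf (nat_lit 0) (nat_lit 12840023078) (nat_lit 228) (nat_lit 68005225574) (nat_lit 76) (nat_lit 14804517578) (nat_lit 105) (nat_lit 5) (nat_lit 108) (nat_lit 5) (nat_lit 106) (nat_lit 5) (nat_lit 536) (nat_lit 466) (nat_lit 198)) (XT.lf (nat_lit 0) (nat_lit 35929160910) (nat_lit 228) (nat_lit 12994846286) (nat_lit 76) (nat_lit 48591065274) (nat_lit 105) (nat_lit 5) (nat_lit 108) (nat_lit 5) (nat_lit 106) (nat_lit 5) (nat_lit 537) (nat_lit 466) (nat_lit 197))) (XT.nd (nat_lit 78) (nat_lit 152) (nat_lit 0) (XT.lf (nat_lit 0) (nat_lit 44533678869) (nat_lit 228) (nat_lit 15604675492) (nat_lit 304) (nat_lit 39285162160) (nat_lit 102)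 (nat_lit 5) (nat_lit 105) (nat_lit 5) (nat_lit 106) (nat_lit 5) (nat_lit 538) (nat_lit 466) (nat_lit 196)) (XT.lf (nat_lit 0) (nat_lit 2536281443) (nat_lit 152) (nat_lit 82873638104) (nat_lit 228) (nat_lit 15969211533) (nat_lit 100) (nat_lit 5) (nat_lit 102) (nat_lit 5) (nat_lit 103) (nat_lit 5) (nat_lit 539) (nat_lit 466) (nat_lit 195))))))))
noncomputable def xc224 : XT := (XT.nd (nat_lit 58890) (nat_lit 0) (nat_lit 2812) (XT.nd (nat_lit 57720) (nat_lit 0) (nat_lit 9728) (XT.nd (nat_lit 57096) (nat_lit 0) (nat_lit 13680) (XT.nd (nat_lit 56784) (nat_lit 0) (nat_lit 13528) (XT.nd (nat_lit 78) (nat_lit 0) (nat_lit 0) (XT.lf (nat_lit 0) (nat_lit 19189310764) (nat_lit 228) (nat_lit 14585437856) (nat_lit 304) (nat_lit 71634953396) (nat_lit 96) (nat_lit 5) (nat_lit 99) (nat_lit 5) (nat_lit 100) (nat_lit 5) (nat_lit 541) (nat_lit 466) (nat_lit 193)) (XT.nd (nat_lit 56628) (nat_lit 0) (nat_lit 13528) (XT.lf (nat_lit 0)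 (nat_lit 60321904866) (nat_lit 304) (nat_lit 25888518177) (nat_lit 76) (nat_lit 21281894063) (nat_lit 96) (nat_lit 5) (nat_lit 100) (nat_lit 5) (nat_lit 97) (nat_lit 5) (nat_lit 542) (nat_lit 466) (nat_lit 192)) (XT.lf (nat_lit 0) (nat_lit 5152151620) (nat_lit 1292) (nat_lit 4800062541) (nat_lit 1292) (nat_lit 4800062541) (nat_lit 274) (nat_lit 3) (nat_lit 291) (nat_lit 3) (nat_lit 291) (nat_lit 5) (nat_lit 467) (nat_lit 467) (nat_lit 266)))) (XT.nd (nat_lit 156) (nat_lit 0) (nat_lit 76) (XT.nd (nat_lit 78) (nat_lit 0) (nat_lit 76) (XT.lf (nat_lit 76) (nat_lit 4952936188) (nat_lit 0) (nat_lit 5628232875) (nat_lit 1292) (nat_lit 19362266228) (nat_lit 275) (nat_lit 5) (nat_lit 274) (nat_lit 3) (nat_lit 291) (nat_lit 5) (nat_lit 468) (nat_lit 467) (nat_lit 265)) (XT.lf (nat_lit 0) (nat_lit 11048573334) (nat_lit 1216) (nat_lit 10343032629) (nat_lit 1292) (nat_lit 8998411375) (nat_lit 275) (nat_lit 5) (nat_lit 291)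 (nat_lit 5) (nat_lit 292) (nat_lit 5) (nat_lit 469) (nat_lit 467) (nat_lit 264))) (XT.nd (nat_lit 78) (nat_lit 0) (nat_lit 76) (XT.lf (nat_lit 76) (nat_lit 4779818369) (nat_lit 0) (nat_lit 6849021672) (nat_lit 1292) (nat_lit 19218192254) (nat_lit 276) (nat_lit 5) (nat_lit 275) (nat_lit 5) (nat_lit 292) (nat_lit 5) (nat_lit 470) (nat_lit 467) (nat_lit 263)) (XT.lf (nat_lit 0) (nat_lit 12407389736) (nat_lit 1216) (nat_lit 10827095891) (nat_lit 1292) (nat_lit 8077846464) (nat_lit 276) (nat_lit 5) (nat_lit 292) (nat_lit 5) (nat_lit 293) (nat_lit 5) (nat_lit 471) (nat_lit 467) (nat_lit 262))))) (XT.nd (nat_lit 312) (nat_lit 0) (nat_lit 152) (XT.nd (nat_lit 156) (nat_lit 0) (nat_lit 76) (XT.nd (nat_lit 78) (nat_lit 0) (nat_lit 76) (XT.lf (nat_lit 76) (nat_lit 4896342015) (nat_lit 0) (nat_lit 8425160342) (nat_lit 1292) (nat_lit 18466722950) (nat_lit 277) (nat_lit 5) (nat_lit 276) (nat_lit 5) (nat_lit 293) (nat_lit 5)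 (nat_lit 472) (nat_lit 467) (nat_lit 261)) (XT.lf (nat_lit 0) (nat_lit 14436492332) (nat_lit 1216) (nat_lit 11030098712) (nat_lit 1292) (nat_lit 6806601260) (nat_lit 277) (nat_lit 5) (nat_lit 293) (nat_lit 5) (nat_lit 294) (nat_lit 5) (nat_lit 473) (nat_lit 467) (nat_lit 260))) (XT.nd (nat_lit 78) (nat_lit 0) (nat_lit 76) (XT.lf (nat_lit 76) (nat_lit 5326419225) (nat_lit 0) (nat_lit 10390606589) (nat_lit 1292) (nat_lit 17051720267) (nat_lit 278) (nat_lit 5) (nat_lit 277) (nat_lit 5) (nat_lit 294) (nat_lit 5) (nat_lit 474) (nat_lit 467) (nat_lit 259)) (XT.lf (nat_lit 0) (nat_lit 17195388363) (nat_lit 1216) (nat_lit 10928282144) (nat_lit 1292) (nat_lit 5150714141) (nat_lit 278) (nat_lit 5) (nat_lit 294) (nat_lit 5) (nat_lit 295) (nat_lit 5) (nat_lit 475) (nat_lit 467) (nat_lit 258)))) (XT.nd (nat_lit 156) (nat_lit 0) (nat_lit 76) (XT.nd (nat_lit 78) (nat_lit 0) (nat_lit 76) (XT.lf (nat_lit 76) (nat_lit 6095596422)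 (nat_lit 0) (nat_lit 12781590453) (nat_lit 1292) (nat_lit 14913233496) (nat_lit 279) (nat_lit 5) (nat_lit 278) (nat_lit 5) (nat_lit 295) (nat_lit 5) (nat_lit 476) (nat_lit 467) (nat_lit 257)) (XT.lf (nat_lit 0) (nat_lit 20747597088) (nat_lit 1216) (nat_lit 10496264223) (nat_lit 1292) (nat_lit 3073931657) (nat_lit 279) (nat_lit 5) (nat_lit 295) (nat_lit 5) (nat_lit 296) (nat_lit 5) (nat_lit 477) (nat_lit 467) (nat_lit 256))) (XT.nd (nat_lit 78) (nat_lit 0) (nat_lit 76) (XT.lf (nat_lit 76) (nat_lit 7231139343) (nat_lit 0) (nat_lit 15636782149) (nat_lit 1292) (nat_lit 11987251714) (nat_lit 280) (nat_lit 5) (nat_lit 279) (nat_lit 5) (nat_lit 296) (nat_lit 5) (nat_lit 478) (nat_lit 467) (nat_lit 255)) (XT.lf (nat_lit 0) (nat_lit 25160908572) (nat_lit 1216) (nat_lit 9706955492) (nat_lit 1292) (nat_lit 537539704) (nat_lit 280) (nat_lit 5) (nat_lit 296) (nat_lit 5) (nat_lit 297) (nat_lit 5) (nat_lit 479) (nat_lit 467)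 (nat_lit 254)))))) (XT.nd (nat_lit 546) (nat_lit 2356) (nat_lit 0) (XT.nd (nat_lit 234) (nat_lit 1900) (nat_lit 0) (XT.nd (nat_lit 78) (nat_lit 0) (nat_lit 0) (XT.lf (nat_lit 76) (nat_lit 8762122494) (nat_lit 0) (nat_lit 18997470065) (nat_lit 1292) (nat_lit 8205441958) (nat_lit 281) (nat_lit 5) (nat_lit 280) (nat_lit 5) (nat_lit 297) (nat_lit 5) (nat_lit 480) (nat_lit 467) (nat_lit 253)) (XT.nd (nat_lit 78) (nat_lit 0) (nat_lit 76) (XT.lf (nat_lit 76) (nat_lit 27982598620) (nat_lit 0) (nat_lit 2549566829) (nat_lit 1292) (nat_lit 6006411365) (nat_lit 281) (nat_lit 5) (nat_lit 280) (nat_lit 5) (nat_lit 297) (nat_lit 5) (nat_lit 481) (nat_lit 467) (nat_lit 252)) (XT.lf (nat_lit 76) (nat_lit 10719523140) (nat_lit 0) (nat_lit 22907749717) (nat_lit 1292) (nat_lit 3494872265) (nat_lit 282) (nat_lit 5) (nat_lit 281) (nat_lit 5) (nat_lit 298) (nat_lit 5) (nat_lit 482) (nat_lit 467) (nat_lit 251)))) (XT.nd (nat_lit 156)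 (nat_lit 760) (nat_lit 0) (XT.nd (nat_lit 78) (nat_lit 1216) (nat_lit 0) (XT.lf (nat_lit 76) (nat_lit 30721274986) (nat_lit 0) (nat_lit 6203368168) (nat_lit 1292) (nat_lit 795295483) (nat_lit 282) (nat_lit 5) (nat_lit 281) (nat_lit 5) (nat_lit 298) (nat_lit 5) (nat_lit 483) (nat_lit 467) (nat_lit 250)) (XT.lf (nat_lit 0) (nat_lit 2178916604) (nat_lit 1292) (nat_lit 25213805090) (nat_lit 76) (nat_lit 10935400544) (nat_lit 265) (nat_lit 5) (nat_lit 282) (nat_lit 5) (nat_lit 266) (nat_lit 5) (nat_lit 484) (nat_lit 467) (nat_lit 249))) (XT.nd (nat_lit 78) (nat_lit 760) (nat_lit 0) (XT.lf (nat_lit 0) (nat_lit 5357259629) (nat_lit 1292) (nat_lit 5049964440) (nat_lit 76) (nat_lit 28543164788) (nat_lit 265) (nat_lit 5) (nat_lit 282) (nat_lit 5) (nat_lit 266) (nat_lit 5) (nat_lit 485) (nat_lit 467) (nat_lit 248)) (XT.lf (nat_lit 0) (nat_lit 8852855515) (nat_lit 836) (nat_lit 23626467002) (nat_lit 76) (nat_lit 7105344276)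 (nat_lit 255) (nat_lit 5) (nat_lit 266) (nat_lit 5) (nat_lit 256) (nat_lit 5) (nat_lit 486) (nat_lit 467) (nat_lit 247))))) (XT.nd (nat_lit 312) (nat_lit 1140) (nat_lit 0) (XT.nd (nat_lit 156) (nat_lit 608) (nat_lit 0) (XT.nd (nat_lit 78) (nat_lit 608) (nat_lit 0) (XT.lf (nat_lit 0) (nat_lit 12606053295) (nat_lit 836) (nat_lit 2641545622) (nat_lit 76) (nat_lit 24985792517) (nat_lit 255) (nat_lit 5) (nat_lit 266) (nat_lit 5) (nat_lit 256) (nat_lit 5) (nat_lit 487) (nat_lit 467) (nat_lit 246)) (XT.lf (nat_lit 0) (nat_lit 16681969777) (nat_lit 684) (nat_lit 21573081250) (nat_lit 76) (nat_lit 2640223481) (nat_lit 247) (nat_lit 5) (nat_lit 256) (nat_lit 5) (nat_lit 248) (nat_lit 5) (nat_lit 488) (nat_lit 467) (nat_lit 245))) (XT.nd (nat_lit 78) (nat_lit 0) (nat_lit 0) (XT.lf (nat_lit 0) (nat_lit 275248442) (nat_lit 608) (nat_lit 20783747742) (nat_lit 684) (nat_lit 20512653280) (nat_lit 239) (nat_lit 5) (nat_lit 247)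 (nat_lit 5) (nat_lit 248) (nat_lit 5) (nat_lit 489) (nat_lit 467) (nat_lit 244)) (XT.lf (nat_lit 0) (nat_lit 23219599654) (nat_lit 608) (nat_lit 2563895401) (nat_lit 684) (nat_lit 16478336119) (nat_lit 239) (nat_lit 5) (nat_lit 247) (nat_lit 5) (nat_lit 248) (nat_lit 5) (nat_lit 490) (nat_lit 467) (nat_lit 243)))) (XT.nd (nat_lit 156) (nat_lit 608) (nat_lit 0) (XT.nd (nat_lit 78) (nat_lit 0) (nat_lit 0) (XT.lf (nat_lit 0) (nat_lit 3796235612) (nat_lit 532) (nat_lit 27044099034) (nat_lit 608) (nat_lit 12126665859) (nat_lit 232) (nat_lit 5) (nat_lit 239) (nat_lit 5) (nat_lit 240) (nat_lit 5) (nat_lit 491) (nat_lit 467) (nat_lit 242)) (XT.lf (nat_lit 0) (nat_lit 27682672926) (nat_lit 532) (nat_lit 8582028946) (nat_lit 608) (nat_lit 7422148704) (nat_lit 232) (nat_lit 5) (nat_lit 239) (nat_lit 5) (nat_lit 240) (nat_lit 5) (nat_lit 492) (nat_lit 467) (nat_lit 241))) (XT.nd (nat_lit 78) (nat_lit 76) (nat_lit 0) (XT.lf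 (nat_lit 0) (nat_lit 7909819749) (nat_lit 532) (nat_lit 34116754808) (nat_lit 608) (nat_lit 2396478684) (nat_lit 225) (nat_lit 5) (nat_lit 232) (nat_lit 5) (nat_lit 233) (nat_lit 5) (nat_lit 493) (nat_lit 467) (nat_lit 240)) (XT.lf (nat_lit 0) (nat_lit 2972353541) (nat_lit 608) (nat_lit 12422134418) (nat_lit 76) (nat_lit 29778653476) (nat_lit 224) (nat_lit 5) (nat_lit 232) (nat_lit 5) (nat_lit 225) (nat_lit 5) (nat_lit 494) (nat_lit 467) (nat_lit 239))))))) (XT.nd (nat_lit 1170) (nat_lit 2736) (nat_lit 0) (XT.nd (nat_lit 546) (nat_lit 2128) (nat_lit 0) (XT.nd (nat_lit 234) (nat_lit 988) (nat_lit 0) (XT.nd (nat_lit 78) (nat_lit 532) (nat_lit 0) (XT.lf (nat_lit 0) (nat_lit 8612647340) (nat_lit 608) (nat_lit 33367771717) (nat_lit 76) (nat_lit 3959844785) (nat_lit 217) (nat_lit 5) (nat_lit 225) (nat_lit 5) (nat_lit 218) (nat_lit 5) (nat_lit 495) (nat_lit 467) (nat_lit 238)) (XT.nd (nat_lit 78) (nat_lit 532) (nat_lit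 0) (XT.lf (nat_lit 0) (nat_lit 14699781542) (nat_lit 608) (nat_lit 8310334008) (nat_lit 76) (nat_lit 23711955713) (nat_lit 217) (nat_lit 5) (nat_lit 225) (nat_lit 5) (nat_lit 218) (nat_lit 5) (nat_lit 496) (nat_lit 467) (nat_lit 237)) (XT.lf (nat_lit 0) (nat_lit 17845470155) (nat_lit 532) (nat_lit 3294173756) (nat_lit 608) (nat_lit 26382585849) (nat_lit 210) (nat_lit 5) (nat_lit 217) (nat_lit 5) (nat_lit 218) (nat_lit 5) (nat_lit 497) (nat_lit 467) (nat_lit 236)))) (XT.nd (nat_lit 156) (nat_lit 532) (nat_lit 0) (XT.nd (nat_lit 78) (nat_lit 456) (nat_lit 0) (XT.lf (nat_lit 0) (nat_lit 28019590250) (nat_lit 608) (nat_lit 3553557127) (nat_lit 76) (nat_lit 16765839263) (nat_lit 210) (nat_lit 5) (nat_lit 218) (nat_lit 5) (nat_lit 211) (nat_lit 5) (nat_lit 498) (nat_lit 467) (nat_lit 235)) (XT.lf (nat_lit 0) (nat_lit 23783258613) (nat_lit 456) (nat_lit 11582549445) (nat_lit 532) (nat_lit 13806642240) (nat_lit 204) (nat_lit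 5) (nat_lit 210) (nat_lit 5) (nat_lit 211) (nat_lit 5) (nat_lit 499) (nat_lit 467) (nat_lit 234))) (XT.nd (nat_lit 78) (nat_lit 76) (nat_lit 0) (XT.lf (nat_lit 0) (nat_lit 1932358480) (nat_lit 456) (nat_lit 41140117342) (nat_lit 532) (nat_lit 6954240397) (nat_lit 198) (nat_lit 5) (nat_lit 204) (nat_lit 5) (nat_lit 205) (nat_lit 5) (nat_lit 500) (nat_lit 467) (nat_lit 233)) (XT.lf (nat_lit 0) (nat_lit 473979104) (nat_lit 532) (nat_lit 20424722656) (nat_lit 76) (nat_lit 29996710590) (nat_lit 197) (nat_lit 5) (nat_lit 204) (nat_lit 5) (nat_lit 198) (nat_lit 5) (nat_lit 501) (nat_lit 467) (nat_lit 232))))) (XT.nd (nat_lit 312) (nat_lit 1216) (nat_lit 0) (XT.nd (nat_lit 156) (nat_lit 456) (nat_lit 0) (XT.nd (nat_lit 78) (nat_lit 0) (nat_lit 0) (XT.lf (nat_lit 0) (nat_lit 8063433739) (nat_lit 532) (nat_lit 43622860581) (nat_lit 76) (nat_lit 99464805) (nat_lit 191) (nat_lit 5) (nat_lit 198) (nat_lit 5) (nat_lit 192) (nat_lit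 5) (nat_lit 502) (nat_lit 467) (nat_lit 231)) (XT.lf (nat_lit 0) (nat_lit 16294512099) (nat_lit 532) (nat_lit 14880325807) (nat_lit 76) (nat_lit 21515560423) (nat_lit 191) (nat_lit 5) (nat_lit 198) (nat_lit 5) (nat_lit 192) (nat_lit 5) (nat_lit 503) (nat_lit 467) (nat_lit 230))) (XT.nd (nat_lit 78) (nat_lit 0) (nat_lit 0) (XT.lf (nat_lit 0) (nat_lit 15015974298) (nat_lit 456) (nat_lit 9899658737) (nat_lit 532) (nat_lit 28702250587) (nat_lit 185) (nat_lit 5) (nat_lit 191) (nat_lit 5) (nat_lit 192) (nat_lit 5) (nat_lit 504) (nat_lit 467) (nat_lit 229)) (XT.lf (nat_lit 0) (nat_lit 34061407197) (nat_lit 532) (nat_lit 8573006771) (nat_lit 76) (nat_lit 11930799132) (nat_lit 185) (nat_lit 5) (nat_lit 192) (nat_lit 5) (nat_lit 186) (nat_lit 5) (nat_lit 505) (nat_lit 467) (nat_lit 228)))) (XT.nd (nat_lit 156) (nat_lit 836) (nat_lit 0) (XT.nd (nat_lit 78) (nat_lit 0) (nat_lit 0) (XT.lf (nat_lit 0) (nat_lit 22700209131) (nat_lit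 380) (nat_lit 21096391510) (nat_lit 456) (nat_lit 11734910648) (nat_lit 180) (nat_lit 5) (nat_lit 185) (nat_lit 5) (nat_lit 186) (nat_lit 5) (nat_lit 506) (nat_lit 467) (nat_lit 227)) (XT.lf (nat_lit 0) (nat_lit 53920572154) (nat_lit 456) (nat_lit 1449672281) (nat_lit 76) (nat_lit 1153652523) (nat_lit 180) (nat_lit 5) (nat_lit 186) (nat_lit 5) (nat_lit 181) (nat_lit 5) (nat_lit 507) (nat_lit 467) (nat_lit 226))) (XT.nd (nat_lit 78) (nat_lit 380) (nat_lit 0) (XT.lf (nat_lit 0) (nat_lit 7182871619) (nat_lit 456) (nat_lit 26327910493) (nat_lit 76) (nat_lit 24017908707) (nat_lit 174) (nat_lit 5) (nat_lit 180) (nat_lit 5) (nat_lit 175) (nat_lit 5) (nat_lit 508) (nat_lit 467) (nat_lit 225)) (XT.lf (nat_lit 0) (nat_lit 6394655262) (nat_lit 380) (nat_lit 10890807293) (nat_lit 456) (nat_lit 41275138874) (nat_lit 169) (nat_lit 5) (nat_lit 174) (nat_lit 5) (nat_lit 175) (nat_lit 5) (nat_lit 509) (nat_lit 467) (nat_lit 224))))))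 (XT.nd (nat_lit 546) (nat_lit 1292) (nat_lit 0) (XT.nd (nat_lit 234) (nat_lit 1064) (nat_lit 0) (XT.nd (nat_lit 78) (nat_lit 380) (nat_lit 0) (XT.lf (nat_lit 0) (nat_lit 28077789589) (nat_lit 456) (nat_lit 19100298838) (nat_lit 76) (nat_lit 12433781359) (nat_lit 169) (nat_lit 5) (nat_lit 175) (nat_lit 5) (nat_lit 170) (nat_lit 5) (nat_lit 510) (nat_lit 467) (nat_lit 223)) (XT.nd (nat_lit 78) (nat_lit 0) (nat_lit 0) (XT.lf (nat_lit 0) (nat_lit 15143540428) (nat_lit 380) (nat_lit 24302671717) (nat_lit 456) (nat_lit 21240894452) (nat_lit 164) (nat_lit 5) (nat_lit 169) (nat_lit 5) (nat_lit 170) (nat_lit 5) (nat_lit 511) (nat_lit 467) (nat_lit 222)) (XT.lf (nat_lit 0) (nat_lit 50804793791) (nat_lit 380) (nat_lit 542713542) (nat_lit 456) (nat_lit 10441338751) (nat_lit 164) (nat_lit 5) (nat_lit 169) (nat_lit 5) (nat_lit 170) (nat_lit 5) (nat_lit 512) (nat_lit 467) (nat_lit 221)))) (XT.nd (nat_lit 156) (nat_lit 684) (nat_lit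 0) (XT.nd (nat_lit 78) (nat_lit 0) (nat_lit 0) (XT.lf (nat_lit 0) (nat_lit 1141554320) (nat_lit 380) (nat_lit 38054770307) (nat_lit 76) (nat_lit 23712936664) (nat_lit 159) (nat_lit 5) (nat_lit 164) (nat_lit 5) (nat_lit 160) (nat_lit 5) (nat_lit 513) (nat_lit 467) (nat_lit 220)) (XT.lf (nat_lit 0) (nat_lit 12978440383) (nat_lit 380) (nat_lit 2177890217) (nat_lit 76) (nat_lit 48900366120) (nat_lit 159) (nat_lit 5) (nat_lit 164) (nat_lit 5) (nat_lit 160) (nat_lit 5) (nat_lit 514) (nat_lit 467) (nat_lit 219))) (XT.nd (nat_lit 78) (nat_lit 304) (nat_lit 0) (XT.lf (nat_lit 0) (nat_lit 25606060711) (nat_lit 456) (nat_lit 29858080557) (nat_lit 76) (nat_lit 9761345263) (nat_lit 154) (nat_lit 5) (nat_lit 160) (nat_lit 5) (nat_lit 155) (nat_lit 5) (nat_lit 515) (nat_lit 467) (nat_lit 218)) (XT.lf (nat_lit 0) (nat_lit 7652675437) (nat_lit 304) (nat_lit 31204688671) (nat_lit 380) (nat_lit 27564630439) (nat_lit 150) (nat_lit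 5) (nat_lit 154) (nat_lit 5) (nat_lit 155) (nat_lit 5) (nat_lit 516) (nat_lit 467) (nat_lit 217))))) (XT.nd (nat_lit 312) (nat_lit 608) (nat_lit 0) (XT.nd (nat_lit 156) (nat_lit 380) (nat_lit 0) (XT.nd (nat_lit 78) (nat_lit 304) (nat_lit 0) (XT.lf (nat_lit 0) (nat_lit 46899428424) (nat_lit 304) (nat_lit 5907320896) (nat_lit 380) (nat_lit 14838632346) (nat_lit 150) (nat_lit 5) (nat_lit 154) (nat_lit 5) (nat_lit 155) (nat_lit 5) (nat_lit 517) (nat_lit 467) (nat_lit 216)) (XT.lf (nat_lit 0) (nat_lit 18585733005) (nat_lit 304) (nat_lit 48960283549) (nat_lit 380) (nat_lit 1348311967) (nat_lit 146) (nat_lit 5) (nat_lit 150) (nat_lit 5) (nat_lit 151) (nat_lit 5) (nat_lit 518) (nat_lit 467) (nat_lit 215))) (XT.nd (nat_lit 78) (nat_lit 304) (nat_lit 0) (XT.lf (nat_lit 0) (nat_lit 12571006210) (nat_lit 380) (nat_lit 10834362989) (nat_lit 76) (nat_lit 46763682915) (nat_lit 145) (nat_lit 5) (nat_lit 150) (nat_lit 5) (nat_lit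 146) (nat_lit 5) (nat_lit 519) (nat_lit 467) (nat_lit 214)) (XT.lf (nat_lit 0) (nat_lit 27203198318) (nat_lit 380) (nat_lit 41101254298) (nat_lit 76) (nat_lit 3167492611) (nat_lit 141) (nat_lit 5) (nat_lit 146) (nat_lit 5) (nat_lit 142) (nat_lit 5) (nat_lit 520) (nat_lit 467) (nat_lit 213)))) (XT.nd (nat_lit 156) (nat_lit 304) (nat_lit 0) (XT.nd (nat_lit 78) (nat_lit 304) (nat_lit 0) (XT.lf (nat_lit 0) (nat_lit 42615682351) (nat_lit 380) (nat_lit 10818208) (nat_lit 76) (nat_lit 30177184914) (nat_lit 141) (nat_lit 5) (nat_lit 146) (nat_lit 5) (nat_lit 142) (nat_lit 5) (nat_lit 521) (nat_lit 467) (nat_lit 212)) (XT.lf (nat_lit 0) (nat_lit 43153096532) (nat_lit 304) (nat_lit 15751385310) (nat_lit 380) (nat_lit 15258477973) (nat_lit 137) (nat_lit 5) (nat_lit 141) (nat_lit 5) (nat_lit 142) (nat_lit 5) (nat_lit 522) (nat_lit 467) (nat_lit 211))) (XT.nd (nat_lit 78) (nat_lit 0) (nat_lit 0) (XT.lf (nat_lit 0) (nat_lit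 349814351) (nat_lit 304) (nat_lit 63388875288) (nat_lit 76) (nat_lit 11817292495) (nat_lit 133) (nat_lit 5) (nat_lit 137) (nat_lit 5) (nat_lit 134) (nat_lit 5) (nat_lit 523) (nat_lit 467) (nat_lit 210)) (XT.lf (nat_lit 0) (nat_lit 16591008557) (nat_lit 304) (nat_lit 20017791852) (nat_lit 76) (nat_lit 40363322600) (nat_lit 133) (nat_lit 5) (nat_lit 137) (nat_lit 5) (nat_lit 134) (nat_lit 5) (nat_lit 524) (nat_lit 467) (nat_lit 209))))))))
noncomputable def xc225 : XT := (XT.nd (nat_lit 59046) (nat_lit 0) (nat_lit 5548) (XT.nd (nat_lit 1248) (nat_lit 456) (nat_lit 0) (XT.nd (nat_lit 546) (nat_lit 1216) (nat_lit 0) (XT.nd (nat_lit 234) (nat_lit 608) (nat_lit 0) (XT.nd (nat_lit 78) (nat_lit 228) (nat_lit 0) (XT.lf (nat_lit 0) (nat_lit 25143788373) (nat_lit 304) (nat_lit 8416512644) (nat_lit 380) (nat_lit 44863221327) (nat_lit 129) (nat_lit 5) (nat_lit 133) (nat_lit 5) (nat_lit 134) (nat_lit 5) (nat_lit 525) (nat_lit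 467) (nat_lit 208)) (XT.nd (nat_lit 78) (nat_lit 228) (nat_lit 0) (XT.lf (nat_lit 0) (nat_lit 51440213769) (nat_lit 380) (nat_lit 8043356140) (nat_lit 76) (nat_lit 20422847604) (nat_lit 129) (nat_lit 5) (nat_lit 134) (nat_lit 5) (nat_lit 130) (nat_lit 5) (nat_lit 526) (nat_lit 467) (nat_lit 207)) (XT.lf (nat_lit 0) (nat_lit 39231068704) (nat_lit 228) (nat_lit 31085096920) (nat_lit 304) (nat_lit 11103844762) (nat_lit 126) (nat_lit 5) (nat_lit 129) (nat_lit 5) (nat_lit 130) (nat_lit 5) (nat_lit 527) (nat_lit 467) (nat_lit 206)))) (XT.nd (nat_lit 156) (nat_lit 228) (nat_lit 0) (XT.nd (nat_lit 78) (nat_lit 0) (nat_lit 0) (XT.lf (nat_lit 0) (nat_lit 5145206871) (nat_lit 304) (nat_lit 1632573502) (nat_lit 380) (nat_lit 76195355170) (nat_lit 121) (nat_lit 5) (nat_lit 125) (nat_lit 5) (nat_lit 126) (nat_lit 5) (nat_lit 528) (nat_lit 467) (nat_lit 205)) (XT.lf (nat_lit 0) (nat_lit 25678044873) (nat_lit 380) (nat_lit 30187197593)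 (nat_lit 76) (nat_lit 28683152899) (nat_lit 121) (nat_lit 5) (nat_lit 126) (nat_lit 5) (nat_lit 122) (nat_lit 5) (nat_lit 529) (nat_lit 467) (nat_lit 204))) (XT.nd (nat_lit 78) (nat_lit 0) (nat_lit 0) (XT.lf (nat_lit 0) (nat_lit 19240823112) (nat_lit 228) (nat_lit 26104843323) (nat_lit 304) (nat_lit 40819236165) (nat_lit 118) (nat_lit 5) (nat_lit 121) (nat_lit 5) (nat_lit 122) (nat_lit 5) (nat_lit 530) (nat_lit 467) (nat_lit 203)) (XT.lf (nat_lit 0) (nat_lit 65954124815) (nat_lit 304) (nat_lit 17098239963) (nat_lit 76) (nat_lit 4767016111) (nat_lit 118) (nat_lit 5) (nat_lit 122) (nat_lit 5) (nat_lit 119) (nat_lit 5) (nat_lit 531) (nat_lit 467) (nat_lit 202))))) (XT.nd (nat_lit 312) (nat_lit 456) (nat_lit 0) (XT.nd (nat_lit 156) (nat_lit 456) (nat_lit 0) (XT.nd (nat_lit 78) (nat_lit 76) (nat_lit 0) (XT.lf (nat_lit 0) (nat_lit 34638639030) (nat_lit 228) (nat_lit 53132888567) (nat_lit 304) (nat_lit 1734245295) (nat_lit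 115) (nat_lit 5) (nat_lit 118) (nat_lit 5) (nat_lit 119) (nat_lit 5) (nat_lit 532) (nat_lit 467) (nat_lit 201)) (XT.lf (nat_lit 0) (nat_lit 18803553929) (nat_lit 304) (nat_lit 3145010715) (nat_lit 76) (nat_lit 69283503795) (nat_lit 114) (nat_lit 5) (nat_lit 118) (nat_lit 5) (nat_lit 115) (nat_lit 5) (nat_lit 533) (nat_lit 467) (nat_lit 200))) (XT.nd (nat_lit 78) (nat_lit 228) (nat_lit 0) (XT.lf (nat_lit 0) (nat_lit 40515995289) (nat_lit 304) (nat_lit 41989986660) (nat_lit 76) (nat_lit 10485854915) (nat_lit 111) (nat_lit 5) (nat_lit 115) (nat_lit 5) (nat_lit 112) (nat_lit 5) (nat_lit 534) (nat_lit 467) (nat_lit 199)) (XT.lf (nat_lit 0) (nat_lit 12050492352) (nat_lit 228) (nat_lit 51193828579) (nat_lit 304) (nat_lit 31549142153) (nat_lit 108) (nat_lit 5) (nat_lit 111) (nat_lit 5) (nat_lit 112) (nat_lit 5) (nat_lit 535) (nat_lit 467) (nat_lit 198)))) (XT.nd (nat_lit 156) (nat_lit 228) (nat_lit 0) (XT.nd (nat_lit 78)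 (nat_lit 228) (nat_lit 0) (XT.lf (nat_lit 0) (nat_lit 68571780572) (nat_lit 228) (nat_lit 18506030811) (nat_lit 304) (nat_lit 9558627328) (nat_lit 108) (nat_lit 5) (nat_lit 111) (nat_lit 5) (nat_lit 112) (nat_lit 5) (nat_lit 536) (nat_lit 467) (nat_lit 197)) (XT.lf (nat_lit 0) (nat_lit 13260928017) (nat_lit 228) (nat_lit 69985595034) (nat_lit 76) (nat_lit 15271661607) (nat_lit 105) (nat_lit 5) (nat_lit 108) (nat_lit 5) (nat_lit 106) (nat_lit 5) (nat_lit 537) (nat_lit 467) (nat_lit 196))) (XT.nd (nat_lit 78) (nat_lit 228) (nat_lit 0) (XT.lf (nat_lit 0) (nat_lit 37041700054) (nat_lit 228) (nat_lit 13326645745) (nat_lit 76) (nat_lit 50071135584) (nat_lit 105) (nat_lit 5) (nat_lit 108) (nat_lit 5) (nat_lit 106) (nat_lit 5) (nat_lit 538) (nat_lit 467) (nat_lit 195)) (XT.lf (nat_lit 0) (nat_lit 45927166086) (nat_lit 228) (nat_lit 16049546084) (nat_lit 304) (nat_lit 40428480396) (nat_lit 102) (nat_lit 5) (nat_lit 105)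 (nat_lit 5) (nat_lit 106) (nat_lit 5) (nat_lit 539) (nat_lit 467) (nat_lit 194)))))) (XT.nd (nat_lit 57174) (nat_lit 0) (nat_lit 13680) (XT.nd (nat_lit 56862) (nat_lit 0) (nat_lit 13528) (XT.nd (nat_lit 78) (nat_lit 228) (nat_lit 0) (XT.lf (nat_lit 0) (nat_lit 8894185806) (nat_lit 228) (nat_lit 41972385209) (nat_lit 76) (nat_lit 55603203542) (nat_lit 99) (nat_lit 5) (nat_lit 102) (nat_lit 5) (nat_lit 100) (nat_lit 5) (nat_lit 541) (nat_lit 467) (nat_lit 192)) (XT.nd (nat_lit 56706) (nat_lit 0) (nat_lit 13528) (XT.lf (nat_lit 0) (nat_lit 19821130697) (nat_lit 228) (nat_lit 14999752117) (nat_lit 304) (nat_lit 73750120638) (nat_lit 96) (nat_lit 5) (nat_lit 99) (nat_lit 5) (nat_lit 100) (nat_lit 5) (nat_lit 542) (nat_lit 467) (nat_lit 191)) (XT.lf (nat_lit 0) (nat_lit 5380688819) (nat_lit 1292) (nat_lit 4905959897) (nat_lit 1292) (nat_lit 4905959897) (nat_lit 274) (nat_lit 3) (nat_lit 291) (nat_lit 3) (nat_lit 291)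 (nat_lit 5) (nat_lit 468) (nat_lit 468) (nat_lit 264)))) (XT.nd (nat_lit 156) (nat_lit 0) (nat_lit 76) (XT.nd (nat_lit 78) (nat_lit 0) (nat_lit 76) (XT.lf (nat_lit 76) (nat_lit 5176986166) (nat_lit 0) (nat_lit 5865979569) (nat_lit 1292) (nat_lit 19794408349) (nat_lit 275) (nat_lit 5) (nat_lit 274) (nat_lit 3) (nat_lit 291) (nat_lit 5) (nat_lit 469) (nat_lit 468) (nat_lit 263)) (XT.lf (nat_lit 0) (nat_lit 11519544412) (nat_lit 1216) (nat_lit 10575179468) (nat_lit 1292) (nat_lit 9202776117) (nat_lit 275) (nat_lit 5) (nat_lit 291) (nat_lit 5) (nat_lit 292) (nat_lit 5) (nat_lit 470) (nat_lit 468) (nat_lit 262))) (XT.nd (nat_lit 78) (nat_lit 0) (nat_lit 76) (XT.lf (nat_lit 76) (nat_lit 5000590941) (nat_lit 0) (nat_lit 7113308474) (nat_lit 1292) (nat_lit 19654426525) (nat_lit 276) (nat_lit 5) (nat_lit 275) (nat_lit 5) (nat_lit 292) (nat_lit 5) (nat_lit 471) (nat_lit 468) (nat_lit 261)) (XT.lf (nat_lit 0) (nat_lit 12911289870)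 (nat_lit 1216) (nat_lit 11072238164) (nat_lit 1292) (nat_lit 8264193084) (nat_lit 276) (nat_lit 5) (nat_lit 292) (nat_lit 5) (nat_lit 293) (nat_lit 5) (nat_lit 472) (nat_lit 468) (nat_lit 260))))) (XT.nd (nat_lit 312) (nat_lit 0) (nat_lit 152) (XT.nd (nat_lit 156) (nat_lit 0) (nat_lit 76) (XT.nd (nat_lit 78) (nat_lit 0) (nat_lit 76) (XT.lf (nat_lit 76) (nat_lit 5122121795) (nat_lit 0) (nat_lit 8727627115) (nat_lit 1292) (nat_lit 18888235422) (nat_lit 277) (nat_lit 5) (nat_lit 276) (nat_lit 5) (nat_lit 293) (nat_lit 5) (nat_lit 473) (nat_lit 468) (nat_lit 259)) (XT.lf (nat_lit 0) (nat_lit 14993978966) (nat_lit 1216) (nat_lit 11280171463) (nat_lit 1292) (nat_lit 6963477062) (nat_lit 277) (nat_lit 5) (nat_lit 293) (nat_lit 5) (nat_lit 294) (nat_lit 5) (nat_lit 474) (nat_lit 468) (nat_lit 258))) (XT.nd (nat_lit 78) (nat_lit 0) (nat_lit 76) (XT.lf (nat_lit 76) (nat_lit 5566249559) (nat_lit 0) (nat_lit 10743825202) (nat_lit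 1292) (nat_lit 17438059571) (nat_lit 278) (nat_lit 5) (nat_lit 277) (nat_lit 5) (nat_lit 294) (nat_lit 5) (nat_lit 475) (nat_lit 468) (nat_lit 257)) (XT.lf (nat_lit 0) (nat_lit 17828860931) (nat_lit 1216) (nat_lit 11174469623) (nat_lit 1292) (nat_lit 5265730135) (nat_lit 278) (nat_lit 5) (nat_lit 294) (nat_lit 5) (nat_lit 295) (nat_lit 5) (nat_lit 476) (nat_lit 468) (nat_lit 256)))) (XT.nd (nat_lit 156) (nat_lit 0) (nat_lit 76) (XT.nd (nat_lit 78) (nat_lit 0) (nat_lit 76) (XT.lf (nat_lit 76) (nat_lit 6359324702) (nat_lit 0) (nat_lit 13199140415) (nat_lit 1292) (nat_lit 15242192606) (nat_lit 279) (nat_lit 5) (nat_lit 278) (nat_lit 5) (nat_lit 295) (nat_lit 5) (nat_lit 477) (nat_lit 468) (nat_lit 255)) (XT.lf (nat_lit 0) (nat_lit 21481320947) (nat_lit 1216) (nat_lit 10728954617) (nat_lit 1292) (nat_lit 3133686703) (nat_lit 279) (nat_lit 5) (nat_lit 295) (nat_lit 5) (nat_lit 296) (nat_lit 5) (nat_lit 478) (nat_lit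 468) (nat_lit 254))) (XT.nd (nat_lit 78) (nat_lit 0) (nat_lit 76) (XT.lf (nat_lit 76) (nat_lit 7529465198) (nat_lit 0) (nat_lit 16133330642) (nat_lit 1292) (nat_lit 12234742596) (nat_lit 280) (nat_lit 5) (nat_lit 279) (nat_lit 5) (nat_lit 296) (nat_lit 5) (nat_lit 479) (nat_lit 468) (nat_lit 253)) (XT.lf (nat_lit 0) (nat_lit 26021146397) (nat_lit 1216) (nat_lit 9915692837) (nat_lit 1292) (nat_lit 527540189) (nat_lit 280) (nat_lit 5) (nat_lit 296) (nat_lit 5) (nat_lit 297) (nat_lit 5) (nat_lit 480) (nat_lit 468) (nat_lit 252))))))) (XT.nd (nat_lit 1170) (nat_lit 4180) (nat_lit 0) (XT.nd (nat_lit 546) (nat_lit 2356) (nat_lit 0) (XT.nd (nat_lit 234) (nat_lit 1900) (nat_lit 0) (XT.nd (nat_lit 78) (nat_lit 0) (nat_lit 0) (XT.lf (nat_lit 76) (nat_lit 9106648947) (nat_lit 0) (nat_lit 19588856739) (nat_lit 1292) (nat_lit 8345362669) (nat_lit 281) (nat_lit 5) (nat_lit 280) (nat_lit 5) (nat_lit 297) (nat_lit 5) (nat_lit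 481) (nat_lit 468) (nat_lit 251)) (XT.nd (nat_lit 78) (nat_lit 0) (nat_lit 76) (XT.lf (nat_lit 76) (nat_lit 28901360829) (nat_lit 0) (nat_lit 2646891282) (nat_lit 1292) (nat_lit 6083455601) (nat_lit 281) (nat_lit 5) (nat_lit 280) (nat_lit 5) (nat_lit 297) (nat_lit 5) (nat_lit 482) (nat_lit 468) (nat_lit 250)) (XT.lf (nat_lit 76) (nat_lit 11122810862) (nat_lit 0) (nat_lit 23611076615) (nat_lit 1292) (nat_lit 3498966013) (nat_lit 282) (nat_lit 5) (nat_lit 281) (nat_lit 5) (nat_lit 298) (nat_lit 5) (nat_lit 483) (nat_lit 468) (nat_lit 249)))) (XT.nd (nat_lit 156) (nat_lit 760) (nat_lit 0) (XT.nd (nat_lit 78) (nat_lit 1216) (nat_lit 0) (XT.lf (nat_lit 76) (nat_lit 31722235592) (nat_lit 0) (nat_lit 6405094850) (nat_lit 1292) (nat_lit 721336464) (nat_lit 282) (nat_lit 5) (nat_lit 281) (nat_lit 5) (nat_lit 298) (nat_lit 5) (nat_lit 484) (nat_lit 468) (nat_lit 248)) (XT.lf (nat_lit 0) (nat_lit 2338043991) (nat_lit 1292)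 (nat_lit 25886797849) (nat_lit 76) (nat_lit 11250291051) (nat_lit 265) (nat_lit 5) (nat_lit 282) (nat_lit 5) (nat_lit 266) (nat_lit 5) (nat_lit 485) (nat_lit 468) (nat_lit 247))) (XT.nd (nat_lit 78) (nat_lit 760) (nat_lit 0) (XT.lf (nat_lit 0) (nat_lit 5609006436) (nat_lit 1292) (nat_lit 5120471728) (nat_lit 76) (nat_lit 29386671858) (nat_lit 265) (nat_lit 5) (nat_lit 282) (nat_lit 5) (nat_lit 266) (nat_lit 5) (nat_lit 486) (nat_lit 468) (nat_lit 246)) (XT.lf (nat_lit 0) (nat_lit 9207503735) (nat_lit 836) (nat_lit 24252283845) (nat_lit 76) (nat_lit 7309728283) (nat_lit 255) (nat_lit 5) (nat_lit 266) (nat_lit 5) (nat_lit 256) (nat_lit 5) (nat_lit 487) (nat_lit 468) (nat_lit 245))))) (XT.nd (nat_lit 312) (nat_lit 1140) (nat_lit 0) (XT.nd (nat_lit 156) (nat_lit 608) (nat_lit 0) (XT.nd (nat_lit 78) (nat_lit 608) (nat_lit 0) (XT.lf (nat_lit 0) (nat_lit 13070703393) (nat_lit 836) (nat_lit 2640231635) (nat_lit 76) (nat_lit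 25726845592) (nat_lit 255) (nat_lit 5) (nat_lit 266) (nat_lit 5) (nat_lit 256) (nat_lit 5) (nat_lit 488) (nat_lit 468) (nat_lit 244)) (XT.lf (nat_lit 0) (nat_lit 17267098126) (nat_lit 684) (nat_lit 22137896125) (nat_lit 76) (nat_lit 2714580450) (nat_lit 247) (nat_lit 5) (nat_lit 256) (nat_lit 5) (nat_lit 248) (nat_lit 5) (nat_lit 489) (nat_lit 468) (nat_lit 243))) (XT.nd (nat_lit 78) (nat_lit 0) (nat_lit 0) (XT.lf (nat_lit 0) (nat_lit 365075834) (nat_lit 608) (nat_lit 21408677497) (nat_lit 684) (nat_lit 21042538559) (nat_lit 239) (nat_lit 5) (nat_lit 247) (nat_lit 5) (nat_lit 248) (nat_lit 5) (nat_lit 490) (nat_lit 468) (nat_lit 242)) (XT.lf (nat_lit 0) (nat_lit 23995381759) (nat_lit 608) (nat_lit 2642188304) (nat_lit 684) (nat_lit 16889682009) (nat_lit 239) (nat_lit 5) (nat_lit 247) (nat_lit 5) (nat_lit 248) (nat_lit 5) (nat_lit 491) (nat_lit 468) (nat_lit 241)))) (XT.nd (nat_lit 156) (nat_lit 608) (nat_lit 0)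 (XT.nd (nat_lit 78) (nat_lit 0) (nat_lit 0) (XT.lf (nat_lit 0) (nat_lit 3990963655) (nat_lit 532) (nat_lit 27853568735) (nat_lit 608) (nat_lit 12409092061) (nat_lit 232) (nat_lit 5) (nat_lit 239) (nat_lit 5) (nat_lit 240) (nat_lit 5) (nat_lit 492) (nat_lit 468) (nat_lit 240)) (XT.lf (nat_lit 0) (nat_lit 28591639497) (nat_lit 532) (nat_lit 8837690523) (nat_lit 608) (nat_lit 7565809501) (nat_lit 232) (nat_lit 5) (nat_lit 239) (nat_lit 5) (nat_lit 240) (nat_lit 5) (nat_lit 493) (nat_lit 468) (nat_lit 239))) (XT.nd (nat_lit 78) (nat_lit 76) (nat_lit 0) (XT.lf (nat_lit 0) (nat_lit 8227107985) (nat_lit 532) (nat_lit 35135503035) (nat_lit 608) (nat_lit 2390861146) (nat_lit 225) (nat_lit 5) (nat_lit 232) (nat_lit 5) (nat_lit 233) (nat_lit 5) (nat_lit 494) (nat_lit 468) (nat_lit 238)) (XT.lf (nat_lit 0) (nat_lit 3135309936) (nat_lit 608) (nat_lit 12715651631) (nat_lit 76) (nat_lit 30675145932) (nat_lit 224) (nat_lit 5)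 (nat_lit 232) (nat_lit 5) (nat_lit 225) (nat_lit 5) (nat_lit 495) (nat_lit 468) (nat_lit 237)))))) (XT.nd (nat_lit 624) (nat_lit 1672) (nat_lit 0) (XT.nd (nat_lit 312) (nat_lit 1444) (nat_lit 0) (XT.nd (nat_lit 156) (nat_lit 532) (nat_lit 0) (XT.nd (nat_lit 78) (nat_lit 0) (nat_lit 0) (XT.lf (nat_lit 0) (nat_lit 8943474288) (nat_lit 608) (nat_lit 34288305609) (nat_lit 76) (nat_lit 4084504255) (nat_lit 217) (nat_lit 5) (nat_lit 225) (nat_lit 5) (nat_lit 218) (nat_lit 5) (nat_lit 496) (nat_lit 468) (nat_lit 236)) (XT.lf (nat_lit 0) (nat_lit 15211112394) (nat_lit 608) (nat_lit 8481489407) (nat_lit 76) (nat_lit 24429007710) (nat_lit 217) (nat_lit 5) (nat_lit 225) (nat_lit 5) (nat_lit 218) (nat_lit 5) (nat_lit 497) (nat_lit 468) (nat_lit 235))) (XT.nd (nat_lit 78) (nat_lit 0) (nat_lit 0) (XT.lf (nat_lit 0) (nat_lit 18458222659) (nat_lit 532) (nat_lit 3384643218) (nat_lit 608) (nat_lit 27102946430) (nat_lit 210) (nat_lit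 5) (nat_lit 217) (nat_lit 5) (nat_lit 218) (nat_lit 5) (nat_lit 498) (nat_lit 468) (nat_lit 234)) (XT.lf (nat_lit 0) (nat_lit 28927277927) (nat_lit 608) (nat_lit 3583083817) (nat_lit 76) (nat_lit 17276768519) (nat_lit 210) (nat_lit 5) (nat_lit 218) (nat_lit 5) (nat_lit 211) (nat_lit 5) (nat_lit 499) (nat_lit 468) (nat_lit 233)))) (XT.nd (nat_lit 156) (nat_lit 532) (nat_lit 0) (XT.nd (nat_lit 78) (nat_lit 456) (nat_lit 0) (XT.lf (nat_lit 0) (nat_lit 24573080709) (nat_lit 456) (nat_lit 11919580869) (nat_lit 532) (nat_lit 14152973252) (nat_lit 204) (nat_lit 5) (nat_lit 210) (nat_lit 5) (nat_lit 211) (nat_lit 5) (nat_lit 500) (nat_lit 468) (nat_lit 232)) (XT.lf (nat_lit 0) (nat_lit 2067775352) (nat_lit 456) (nat_lit 42361677148) (nat_lit 532) (nat_lit 7096108901) (nat_lit 198) (nat_lit 5) (nat_lit 204) (nat_lit 5) (nat_lit 205) (nat_lit 5) (nat_lit 501) (nat_lit 468) (nat_lit 231))) (XT.nd (nat_lit 78) (nat_lit 456)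 (nat_lit 0) (XT.lf (nat_lit 0) (nat_lit 551747996) (nat_lit 532) (nat_lit 20960997640) (nat_lit 76) (nat_lit 30907611069) (nat_lit 197) (nat_lit 5) (nat_lit 204) (nat_lit 5) (nat_lit 198) (nat_lit 5) (nat_lit 502) (nat_lit 468) (nat_lit 230)) (XT.lf (nat_lit 0) (nat_lit 8367890909) (nat_lit 532) (nat_lit 44854073148) (nat_lit 76) (nat_lit 115480023) (nat_lit 191) (nat_lit 5) (nat_lit 198) (nat_lit 5) (nat_lit 192) (nat_lit 5) (nat_lit 503) (nat_lit 468) (nat_lit 229))))) (XT.nd (nat_lit 312) (nat_lit 836) (nat_lit 0) (XT.nd (nat_lit 156) (nat_lit 380) (nat_lit 0) (XT.nd (nat_lit 78) (nat_lit 456) (nat_lit 0) (XT.lf (nat_lit 0) (nat_lit 16844079654) (nat_lit 532) (nat_lit 15251518833) (nat_lit 76) (nat_lit 22173678957) (nat_lit 191) (nat_lit 5) (nat_lit 198) (nat_lit 5) (nat_lit 192) (nat_lit 5) (nat_lit 504) (nat_lit 468) (nat_lit 228)) (XT.lf (nat_lit 0) (nat_lit 15540932856) (nat_lit 456) (nat_lit 10181848405)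 (nat_lit 532) (nat_lit 29501837941) (nat_lit 185) (nat_lit 5) (nat_lit 191) (nat_lit 5) (nat_lit 192) (nat_lit 5) (nat_lit 505) (nat_lit 468) (nat_lit 227))) (XT.nd (nat_lit 78) (nat_lit 380) (nat_lit 0) (XT.lf (nat_lit 0) (nat_lit 35141328542) (nat_lit 532) (nat_lit 8756276595) (nat_lit 76) (nat_lit 12302811738) (nat_lit 185) (nat_lit 5) (nat_lit 192) (nat_lit 5) (nat_lit 186) (nat_lit 5) (nat_lit 506) (nat_lit 468) (nat_lit 226)) (XT.lf (nat_lit 0) (nat_lit 23454411074) (nat_lit 380) (nat_lit 21713178691) (nat_lit 456) (nat_lit 12028144184) (nat_lit 180) (nat_lit 5) (nat_lit 185) (nat_lit 5) (nat_lit 186) (nat_lit 5) (nat_lit 507) (nat_lit 468) (nat_lit 225)))) (XT.nd (nat_lit 156) (nat_lit 380) (nat_lit 0) (XT.nd (nat_lit 78) (nat_lit 456) (nat_lit 0) (XT.lf (nat_lit 0) (nat_lit 55593767873) (nat_lit 456) (nat_lit 1420576487) (nat_lit 76) (nat_lit 1203592493) (nat_lit 180) (nat_lit 5) (nat_lit 186) (nat_lit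 5) (nat_lit 181) (nat_lit 5) (nat_lit 508) (nat_lit 468) (nat_lit 224)) (XT.lf (nat_lit 0) (nat_lit 7453558717) (nat_lit 456) (nat_lit 27044765763) (nat_lit 76) (nat_lit 24754561933) (nat_lit 174) (nat_lit 5) (nat_lit 180) (nat_lit 5) (nat_lit 175) (nat_lit 5) (nat_lit 509) (nat_lit 468) (nat_lit 223))) (XT.nd (nat_lit 78) (nat_lit 0) (nat_lit 0) (XT.lf (nat_lit 0) (nat_lit 6658761454) (nat_lit 380) (nat_lit 11199552803) (nat_lit 456) (nat_lit 42457467743) (nat_lit 169) (nat_lit 5) (nat_lit 174) (nat_lit 5) (nat_lit 175) (nat_lit 5) (nat_lit 510) (nat_lit 468) (nat_lit 222)) (XT.lf (nat_lit 0) (nat_lit 28972997692) (nat_lit 456) (nat_lit 19601724130) (nat_lit 76) (nat_lit 12823909246) (nat_lit 169) (nat_lit 5) (nat_lit 175) (nat_lit 5) (nat_lit 170) (nat_lit 5) (nat_lit 511) (nat_lit 468) (nat_lit 221))))))))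
noncomputable def xc226 : XT := (XT.nd (nat_lit 59280) (nat_lit 0) (nat_lit 8360) (XT.nd (nat_lit 1170) (nat_lit 2204) (nat_lit 0) (XT.nd (nat_lit 546) (nat_lit 1596) (nat_lit 0) (XT.nd (nat_lit 234) (nat_lit 684) (nat_lit 0) (XT.nd (nat_lit 78) (nat_lit 380) (nat_lit 0) (XT.lf (nat_lit 0) (nat_lit 15668728514) (nat_lit 380) (nat_lit 25012885740) (nat_lit 456) (nat_lit 21824536741) (nat_lit 164) (nat_lit 5) (nat_lit 169) (nat_lit 5) (nat_lit 170) (nat_lit 5) (nat_lit 512) (nat_lit 468) (nat_lit 220)) (XT.nd (nat_lit 78) (nat_lit 380) (nat_lit 0) (XT.lf (nat_lit 0) (nat_lit 52397754956) (nat_lit 380) (nat_lit 540678318) (nat_lit 456) (nat_lit 10702555083) (nat_lit 164) (nat_lit 5) (nat_lit 169) (nat_lit 5) (nat_lit 170) (nat_lit 5) (nat_lit 513) (nat_lit 468) (nat_lit 219)) (XT.lf (nat_lit 0) (nat_lit 1226171017) (nat_lit 380) (nat_lit 39125926827) (nat_lit 76) (nat_lit 24442922561) (nat_lit 159) (nat_lit 5) (nat_lit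 164) (nat_lit 5) (nat_lit 160) (nat_lit 5) (nat_lit 514) (nat_lit 468) (nat_lit 218)))) (XT.nd (nat_lit 156) (nat_lit 304) (nat_lit 0) (XT.nd (nat_lit 78) (nat_lit 380) (nat_lit 0) (XT.lf (nat_lit 0) (nat_lit 13416696572) (nat_lit 380) (nat_lit 2174793341) (nat_lit 76) (nat_lit 50385433218) (nat_lit 159) (nat_lit 5) (nat_lit 164) (nat_lit 5) (nat_lit 160) (nat_lit 5) (nat_lit 515) (nat_lit 468) (nat_lit 217)) (XT.lf (nat_lit 0) (nat_lit 26422561249) (nat_lit 456) (nat_lit 30684797945) (nat_lit 76) (nat_lit 10073435186) (nat_lit 154) (nat_lit 5) (nat_lit 160) (nat_lit 5) (nat_lit 155) (nat_lit 5) (nat_lit 516) (nat_lit 468) (nat_lit 216))) (XT.nd (nat_lit 78) (nat_lit 0) (nat_lit 0) (XT.lf (nat_lit 0) (nat_lit 7950604013) (nat_lit 304) (nat_lit 32120049400) (nat_lit 380) (nat_lit 28342566944) (nat_lit 150) (nat_lit 5) (nat_lit 154) (nat_lit 5) (nat_lit 155) (nat_lit 5) (nat_lit 517) (nat_lit 468) (nat_lit 215))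 (XT.lf (nat_lit 0) (nat_lit 48372768862) (nat_lit 304) (nat_lit 6064365832) (nat_lit 380) (nat_lit 15236216162) (nat_lit 150) (nat_lit 5) (nat_lit 154) (nat_lit 5) (nat_lit 155) (nat_lit 5) (nat_lit 518) (nat_lit 468) (nat_lit 214))))) (XT.nd (nat_lit 312) (nat_lit 608) (nat_lit 0) (XT.nd (nat_lit 156) (nat_lit 608) (nat_lit 0) (XT.nd (nat_lit 78) (nat_lit 76) (nat_lit 0) (XT.lf (nat_lit 0) (nat_lit 19210198594) (nat_lit 304) (nat_lit 50407867522) (nat_lit 380) (nat_lit 1341715612) (nat_lit 146) (nat_lit 5) (nat_lit 150) (nat_lit 5) (nat_lit 151) (nat_lit 5) (nat_lit 519) (nat_lit 468) (nat_lit 213)) (XT.lf (nat_lit 0) (nat_lit 12992920554) (nat_lit 380) (nat_lit 11093551145) (nat_lit 76) (nat_lit 48186302254) (nat_lit 145) (nat_lit 5) (nat_lit 150) (nat_lit 5) (nat_lit 146) (nat_lit 5) (nat_lit 520) (nat_lit 468) (nat_lit 212))) (XT.nd (nat_lit 78) (nat_lit 304) (nat_lit 0) (XT.lf (nat_lit 0) (nat_lit 28063603485)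 (nat_lit 380) (nat_lit 42267968237) (nat_lit 76) (nat_lit 3283196569) (nat_lit 141) (nat_lit 5) (nat_lit 146) (nat_lit 5) (nat_lit 142) (nat_lit 5) (nat_lit 521) (nat_lit 468) (nat_lit 211)) (XT.lf (nat_lit 0) (nat_lit 54308940) (nat_lit 304) (nat_lit 43883384589) (nat_lit 380) (nat_lit 31048790444) (nat_lit 137) (nat_lit 5) (nat_lit 141) (nat_lit 5) (nat_lit 142) (nat_lit 5) (nat_lit 522) (nat_lit 468) (nat_lit 210)))) (XT.nd (nat_lit 156) (nat_lit 304) (nat_lit 0) (XT.nd (nat_lit 78) (nat_lit 304) (nat_lit 0) (XT.lf (nat_lit 0) (nat_lit 44511450067) (nat_lit 304) (nat_lit 16202544823) (nat_lit 380) (nat_lit 15672576689) (nat_lit 137) (nat_lit 5) (nat_lit 141) (nat_lit 5) (nat_lit 142) (nat_lit 5) (nat_lit 523) (nat_lit 468) (nat_lit 209)) (XT.lf (nat_lit 0) (nat_lit 402690548) (nat_lit 304) (nat_lit 65225496198) (nat_lit 76) (nat_lit 12193198054) (nat_lit 133) (nat_lit 5) (nat_lit 137) (nat_lit 5) (nat_lit 134)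 (nat_lit 5) (nat_lit 524) (nat_lit 468) (nat_lit 208))) (XT.nd (nat_lit 78) (nat_lit 304) (nat_lit 0) (XT.lf (nat_lit 0) (nat_lit 17129886160) (nat_lit 304) (nat_lit 20555174783) (nat_lit 76) (nat_lit 41594986146) (nat_lit 133) (nat_lit 5) (nat_lit 137) (nat_lit 5) (nat_lit 134) (nat_lit 5) (nat_lit 525) (nat_lit 468) (nat_lit 207)) (XT.lf (nat_lit 0) (nat_lit 25960633723) (nat_lit 304) (nat_lit 8647026297) (nat_lit 380) (nat_lit 46167346455) (nat_lit 129) (nat_lit 5) (nat_lit 133) (nat_lit 5) (nat_lit 134) (nat_lit 5) (nat_lit 526) (nat_lit 468) (nat_lit 206)))))) (XT.nd (nat_lit 546) (nat_lit 1140) (nat_lit 0) (XT.nd (nat_lit 234) (nat_lit 456) (nat_lit 0) (XT.nd (nat_lit 78) (nat_lit 608) (nat_lit 0) (XT.lf (nat_lit 0) (nat_lit 53022994235) (nat_lit 380) (nat_lit 8222965625) (nat_lit 76) (nat_lit 21056458065) (nat_lit 129) (nat_lit 5) (nat_lit 134) (nat_lit 5) (nat_lit 130) (nat_lit 5) (nat_lit 527) (nat_lit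 468) (nat_lit 205)) (XT.nd (nat_lit 78) (nat_lit 380) (nat_lit 0) (XT.lf (nat_lit 0) (nat_lit 40469087149) (nat_lit 228) (nat_lit 31995572053) (nat_lit 304) (nat_lit 11396776487) (nat_lit 126) (nat_lit 5) (nat_lit 129) (nat_lit 5) (nat_lit 130) (nat_lit 5) (nat_lit 528) (nat_lit 468) (nat_lit 204)) (XT.lf (nat_lit 0) (nat_lit 5360831581) (nat_lit 304) (nat_lit 1659123087) (nat_lit 380) (nat_lit 78441205237) (nat_lit 121) (nat_lit 5) (nat_lit 125) (nat_lit 5) (nat_lit 126) (nat_lit 5) (nat_lit 529) (nat_lit 468) (nat_lit 203)))) (XT.nd (nat_lit 156) (nat_lit 228) (nat_lit 0) (XT.nd (nat_lit 78) (nat_lit 228) (nat_lit 0) (XT.lf (nat_lit 0) (nat_lit 26486305124) (nat_lit 380) (nat_lit 31032403210) (nat_lit 76) (nat_lit 29564996978) (nat_lit 121) (nat_lit 5) (nat_lit 126) (nat_lit 5) (nat_lit 122) (nat_lit 5) (nat_lit 530) (nat_lit 468) (nat_lit 202)) (XT.lf (nat_lit 0) (nat_lit 19877865858) (nat_lit 228) (nat_lit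 26865560048) (nat_lit 304) (nat_lit 42005297866) (nat_lit 118) (nat_lit 5) (nat_lit 121) (nat_lit 5) (nat_lit 122) (nat_lit 5) (nat_lit 531) (nat_lit 468) (nat_lit 201))) (XT.nd (nat_lit 78) (nat_lit 228) (nat_lit 0) (XT.lf (nat_lit 0) (nat_lit 67969258342) (nat_lit 304) (nat_lit 17552227589) (nat_lit 76) (nat_lit 4931376994) (nat_lit 118) (nat_lit 5) (nat_lit 122) (nat_lit 5) (nat_lit 119) (nat_lit 5) (nat_lit 532) (nat_lit 468) (nat_lit 200)) (XT.lf (nat_lit 0) (nat_lit 35736179739) (nat_lit 228) (nat_lit 54704501275) (nat_lit 304) (nat_lit 1749180858) (nat_lit 115) (nat_lit 5) (nat_lit 118) (nat_lit 5) (nat_lit 119) (nat_lit 5) (nat_lit 533) (nat_lit 468) (nat_lit 199))))) (XT.nd (nat_lit 312) (nat_lit 608) (nat_lit 0) (XT.nd (nat_lit 156) (nat_lit 228) (nat_lit 0) (XT.nd (nat_lit 78) (nat_lit 228) (nat_lit 0) (XT.lf (nat_lit 0) (nat_lit 19402969286) (nat_lit 304) (nat_lit 3181973468) (nat_lit 76) (nat_lit 71383024727)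 (nat_lit 114) (nat_lit 5) (nat_lit 118) (nat_lit 5) (nat_lit 115) (nat_lit 5) (nat_lit 534) (nat_lit 468) (nat_lit 198)) (XT.lf (nat_lit 0) (nat_lit 41766513175) (nat_lit 304) (nat_lit 43192024339) (nat_lit 76) (nat_lit 10821999675) (nat_lit 111) (nat_lit 5) (nat_lit 115) (nat_lit 5) (nat_lit 112) (nat_lit 5) (nat_lit 535) (nat_lit 468) (nat_lit 197))) (XT.nd (nat_lit 78) (nat_lit 0) (nat_lit 0) (XT.lf (nat_lit 0) (nat_lit 12469103731) (nat_lit 228) (nat_lit 52707113178) (nat_lit 304) (nat_lit 32460009543) (nat_lit 108) (nat_lit 5) (nat_lit 111) (nat_lit 5) (nat_lit 112) (nat_lit 5) (nat_lit 536) (nat_lit 468) (nat_lit 196)) (XT.lf (nat_lit 0) (nat_lit 70684367589) (nat_lit 228) (nat_lit 19039337698) (nat_lit 304) (nat_lit 9810816367) (nat_lit 108) (nat_lit 5) (nat_lit 111) (nat_lit 5) (nat_lit 112) (nat_lit 5) (nat_lit 537) (nat_lit 468) (nat_lit 195)))) (XT.nd (nat_lit 57096) (nat_lit 0) (nat_lit 13224) (XT.nd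 (nat_lit 234) (nat_lit 380) (nat_lit 0) (XT.lf (nat_lit 0) (nat_lit 13692410533) (nat_lit 228) (nat_lit 72028807614) (nat_lit 76) (nat_lit 15751499176) (nat_lit 105) (nat_lit 5) (nat_lit 108) (nat_lit 5) (nat_lit 106) (nat_lit 5) (nat_lit 538) (nat_lit 468) (nat_lit 194)) (XT.lf (nat_lit 0) (nat_lit 2804581901) (nat_lit 152) (nat_lit 87873836031) (nat_lit 228) (nat_lit 16872685007) (nat_lit 100) (nat_lit 5) (nat_lit 102) (nat_lit 5) (nat_lit 103) (nat_lit 5) (nat_lit 541) (nat_lit 468) (nat_lit 191))) (XT.nd (nat_lit 78) (nat_lit 0) (nat_lit 0) (XT.lf (nat_lit 0) (nat_lit 5611835801) (nat_lit 1292) (nat_lit 5017221530) (nat_lit 1292) (nat_lit 5017221530) (nat_lit 274) (nat_lit 3) (nat_lit 291) (nat_lit 3) (nat_lit 291) (nat_lit 5) (nat_lit 469) (nat_lit 469) (nat_lit 262)) (XT.lf (nat_lit 76) (nat_lit 5403425823) (nat_lit 0) (nat_lit 6106903540) (nat_lit 1292) (nat_lit 20248052206) (nat_lit 275) (nat_lit 5) (nat_lit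 274) (nat_lit 3) (nat_lit 291) (nat_lit 5) (nat_lit 470) (nat_lit 469) (nat_lit 261))))))) (XT.nd (nat_lit 1170) (nat_lit 4940) (nat_lit 0) (XT.nd (nat_lit 546) (nat_lit 0) (nat_lit 228) (XT.nd (nat_lit 234) (nat_lit 0) (nat_lit 76) (XT.nd (nat_lit 78) (nat_lit 0) (nat_lit 0) (XT.lf (nat_lit 0) (nat_lit 11996635956) (nat_lit 1216) (nat_lit 10818776506) (nat_lit 1292) (nat_lit 9417036798) (nat_lit 275) (nat_lit 5) (nat_lit 291) (nat_lit 5) (nat_lit 292) (nat_lit 5) (nat_lit 471) (nat_lit 469) (nat_lit 260)) (XT.nd (nat_lit 78) (nat_lit 0) (nat_lit 76) (XT.lf (nat_lit 76) (nat_lit 5223544875) (nat_lit 0) (nat_lit 7382147592) (nat_lit 1292) (nat_lit 20111802279) (nat_lit 276) (nat_lit 5) (nat_lit 275) (nat_lit 5) (nat_lit 292) (nat_lit 5) (nat_lit 472) (nat_lit 469) (nat_lit 259)) (XT.lf (nat_lit 0) (nat_lit 13422748127) (nat_lit 1216) (nat_lit 11329308124) (nat_lit 1292) (nat_lit 8459344088) (nat_lit 276) (nat_lit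 5) (nat_lit 292) (nat_lit 5) (nat_lit 293) (nat_lit 5) (nat_lit 473) (nat_lit 469) (nat_lit 258)))) (XT.nd (nat_lit 156) (nat_lit 0) (nat_lit 76) (XT.nd (nat_lit 78) (nat_lit 0) (nat_lit 76) (XT.lf (nat_lit 76) (nat_lit 5350146386) (nat_lit 0) (nat_lit 9036314222) (nat_lit 1292) (nat_lit 19329998690) (nat_lit 277) (nat_lit 5) (nat_lit 276) (nat_lit 5) (nat_lit 293) (nat_lit 5) (nat_lit 474) (nat_lit 469) (nat_lit 257)) (XT.lf (nat_lit 0) (nat_lit 15561049598) (nat_lit 1216) (nat_lit 11542386382) (nat_lit 1292) (nat_lit 7127775627) (nat_lit 277) (nat_lit 5) (nat_lit 293) (nat_lit 5) (nat_lit 294) (nat_lit 5) (nat_lit 475) (nat_lit 469) (nat_lit 256))) (XT.nd (nat_lit 78) (nat_lit 0) (nat_lit 76) (XT.lf (nat_lit 76) (nat_lit 5808680308) (nat_lit 0) (nat_lit 11105258080) (nat_lit 1292) (nat_lit 17843176753) (nat_lit 278) (nat_lit 5) (nat_lit 277) (nat_lit 5) (nat_lit 294) (nat_lit 5) (nat_lit 476) (nat_lit 469) (nat_lit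 255)) (XT.lf (nat_lit 0) (nat_lit 18474586328) (nat_lit 1216) (nat_lit 11432730400) (nat_lit 1292) (nat_lit 5386464383) (nat_lit 278) (nat_lit 5) (nat_lit 294) (nat_lit 5) (nat_lit 295) (nat_lit 5) (nat_lit 477) (nat_lit 469) (nat_lit 254))))) (XT.nd (nat_lit 312) (nat_lit 0) (nat_lit 152) (XT.nd (nat_lit 156) (nat_lit 0) (nat_lit 76) (XT.nd (nat_lit 78) (nat_lit 0) (nat_lit 76) (XT.lf (nat_lit 76) (nat_lit 6626323115) (nat_lit 0) (nat_lit 13627259267) (nat_lit 1292) (nat_lit 15587819309) (nat_lit 279) (nat_lit 5) (nat_lit 278) (nat_lit 5) (nat_lit 295) (nat_lit 5) (nat_lit 478) (nat_lit 469) (nat_lit 253)) (XT.lf (nat_lit 0) (nat_lit 22230667679) (nat_lit 1216) (nat_lit 10973344198) (nat_lit 1292) (nat_lit 3197097905) (nat_lit 279) (nat_lit 5) (nat_lit 295) (nat_lit 5) (nat_lit 296) (nat_lit 5) (nat_lit 479) (nat_lit 469) (nat_lit 252))) (XT.nd (nat_lit 78) (nat_lit 0) (nat_lit 76) (XT.lf (nat_lit 76) (nat_lit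 7832068613) (nat_lit 0) (nat_lit 16643200133) (nat_lit 1292) (nat_lit 12496094734) (nat_lit 280) (nat_lit 5) (nat_lit 279) (nat_lit 5) (nat_lit 296) (nat_lit 5) (nat_lit 480) (nat_lit 469) (nat_lit 251)) (XT.lf (nat_lit 0) (nat_lit 26901140359) (nat_lit 1216) (nat_lit 10135426493) (nat_lit 1292) (nat_lit 518740411) (nat_lit 280) (nat_lit 5) (nat_lit 296) (nat_lit 5) (nat_lit 297) (nat_lit 5) (nat_lit 481) (nat_lit 469) (nat_lit 250)))) (XT.nd (nat_lit 156) (nat_lit 0) (nat_lit 76) (XT.nd (nat_lit 78) (nat_lit 0) (nat_lit 0) (XT.lf (nat_lit 76) (nat_lit 9456823415) (nat_lit 0) (nat_lit 20196752974) (nat_lit 1292) (nat_lit 8495579758) (nat_lit 281) (nat_lit 5) (nat_lit 280) (nat_lit 5) (nat_lit 297) (nat_lit 5) (nat_lit 482) (nat_lit 469) (nat_lit 249)) (XT.lf (nat_lit 76) (nat_lit 29843134664) (nat_lit 0) (nat_lit 2745939314) (nat_lit 1292) (nat_lit 6168732288) (nat_lit 281) (nat_lit 5) (nat_lit 280) (nat_lit 5)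 (nat_lit 297) (nat_lit 5) (nat_lit 483) (nat_lit 469) (nat_lit 248))) (XT.nd (nat_lit 78) (nat_lit 0) (nat_lit 0) (XT.lf (nat_lit 76) (nat_lit 11533507185) (nat_lit 0) (nat_lit 24334579435) (nat_lit 1292) (nat_lit 3508966175) (nat_lit 282) (nat_lit 5) (nat_lit 281) (nat_lit 5) (nat_lit 298) (nat_lit 5) (nat_lit 484) (nat_lit 469) (nat_lit 247)) (XT.lf (nat_lit 76) (nat_lit 32748671589) (nat_lit 0) (nat_lit 6611976357) (nat_lit 1292) (nat_lit 650773821) (nat_lit 282) (nat_lit 5) (nat_lit 281) (nat_lit 5) (nat_lit 298) (nat_lit 5) (nat_lit 485) (nat_lit 469) (nat_lit 246)))))) (XT.nd (nat_lit 546) (nat_lit 2204) (nat_lit 0) (XT.nd (nat_lit 234) (nat_lit 1216) (nat_lit 0) (XT.nd (nat_lit 78) (nat_lit 760) (nat_lit 0) (XT.lf (nat_lit 0) (nat_lit 2496562999) (nat_lit 1292) (nat_lit 26584769120) (nat_lit 76) (nat_lit 11575384372) (nat_lit 265) (nat_lit 5) (nat_lit 282) (nat_lit 5) (nat_lit 266) (nat_lit 5) (nat_lit 486)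 (nat_lit 469) (nat_lit 245)) (XT.nd (nat_lit 78) (nat_lit 760) (nat_lit 0) (XT.lf (nat_lit 0) (nat_lit 5863080209) (nat_lit 1292) (nat_lit 5197743487) (nat_lit 76) (nat_lit 30256218216) (nat_lit 265) (nat_lit 5) (nat_lit 282) (nat_lit 5) (nat_lit 266) (nat_lit 5) (nat_lit 487) (nat_lit 469) (nat_lit 244)) (XT.lf (nat_lit 0) (nat_lit 9567678846) (nat_lit 836) (nat_lit 24901638423) (nat_lit 76) (nat_lit 7520747607) (nat_lit 255) (nat_lit 5) (nat_lit 266) (nat_lit 5) (nat_lit 256) (nat_lit 5) (nat_lit 488) (nat_lit 469) (nat_lit 243)))) (XT.nd (nat_lit 156) (nat_lit 608) (nat_lit 0) (XT.nd (nat_lit 78) (nat_lit 608) (nat_lit 0) (XT.lf (nat_lit 0) (nat_lit 13544329348) (nat_lit 836) (nat_lit 2643502722) (nat_lit 76) (nat_lit 26490619383) (nat_lit 255) (nat_lit 5) (nat_lit 266) (nat_lit 5) (nat_lit 256) (nat_lit 5) (nat_lit 489) (nat_lit 469) (nat_lit 242)) (XT.lf (nat_lit 0) (nat_lit 17864919964) (nat_lit 684) (nat_lit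 22724384255) (nat_lit 76) (nat_lit 2791446524) (nat_lit 247) (nat_lit 5) (nat_lit 256) (nat_lit 5) (nat_lit 248) (nat_lit 5) (nat_lit 490) (nat_lit 469) (nat_lit 241))) (XT.nd (nat_lit 78) (nat_lit 0) (nat_lit 0) (XT.lf (nat_lit 0) (nat_lit 452915600) (nat_lit 608) (nat_lit 22052273784) (nat_lit 684) (nat_lit 21593228120) (nat_lit 239) (nat_lit 5) (nat_lit 247) (nat_lit 5) (nat_lit 248) (nat_lit 5) (nat_lit 491) (nat_lit 469) (nat_lit 240)) (XT.lf (nat_lit 0) (nat_lit 24789891261) (nat_lit 608) (nat_lit 2722751003) (nat_lit 684) (nat_lit 17318133057) (nat_lit 239) (nat_lit 5) (nat_lit 247) (nat_lit 5) (nat_lit 248) (nat_lit 5) (nat_lit 492) (nat_lit 469) (nat_lit 239))))) (XT.nd (nat_lit 312) (nat_lit 1064) (nat_lit 0) (XT.nd (nat_lit 156) (nat_lit 608) (nat_lit 0) (XT.nd (nat_lit 78) (nat_lit 0) (nat_lit 0) (XT.lf (nat_lit 0) (nat_lit 4186892936) (nat_lit 532) (nat_lit 28687428912) (nat_lit 608) (nat_lit 12704662236)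 (nat_lit 232) (nat_lit 5) (nat_lit 239) (nat_lit 5) (nat_lit 240) (nat_lit 5) (nat_lit 493) (nat_lit 469) (nat_lit 238)) (XT.lf (nat_lit 0) (nat_lit 29523369625) (nat_lit 532) (nat_lit 9101125233) (nat_lit 608) (nat_lit 7718315256) (nat_lit 232) (nat_lit 5) (nat_lit 239) (nat_lit 5) (nat_lit 240) (nat_lit 5) (nat_lit 494) (nat_lit 469) (nat_lit 237))) (XT.nd (nat_lit 78) (nat_lit 76) (nat_lit 0) (XT.lf (nat_lit 0) (nat_lit 8549322906) (nat_lit 532) (nat_lit 36185086632) (nat_lit 608) (nat_lit 2389524582) (nat_lit 225) (nat_lit 5) (nat_lit 232) (nat_lit 5) (nat_lit 233) (nat_lit 5) (nat_lit 495) (nat_lit 469) (nat_lit 236)) (XT.lf (nat_lit 0) (nat_lit 3298919417) (nat_lit 608) (nat_lit 13022517712) (nat_lit 76) (nat_lit 31598353322) (nat_lit 224) (nat_lit 5) (nat_lit 232) (nat_lit 5) (nat_lit 225) (nat_lit 5) (nat_lit 496) (nat_lit 469) (nat_lit 235)))) (XT.nd (nat_lit 156) (nat_lit 532) (nat_lit 0) (XT.nd (nat_lit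 78) (nat_lit 0) (nat_lit 0) (XT.lf (nat_lit 0) (nat_lit 9280067260) (nat_lit 608) (nat_lit 35241076504) (nat_lit 76) (nat_lit 4212566883) (nat_lit 217) (nat_lit 5) (nat_lit 225) (nat_lit 5) (nat_lit 218) (nat_lit 5) (nat_lit 497) (nat_lit 469) (nat_lit 234)) (XT.lf (nat_lit 0) (nat_lit 15733745516) (nat_lit 608) (nat_lit 8662265862) (nat_lit 76) (nat_lit 25167244448) (nat_lit 217) (nat_lit 5) (nat_lit 225) (nat_lit 5) (nat_lit 218) (nat_lit 5) (nat_lit 498) (nat_lit 469) (nat_lit 233))) (XT.nd (nat_lit 78) (nat_lit 0) (nat_lit 0) (XT.lf (nat_lit 0) (nat_lit 19084915328) (nat_lit 532) (nat_lit 3478306417) (nat_lit 608) (nat_lit 27849000235) (nat_lit 210) (nat_lit 5) (nat_lit 217) (nat_lit 5) (nat_lit 218) (nat_lit 5) (nat_lit 499) (nat_lit 469) (nat_lit 232)) (XT.lf (nat_lit 0) (nat_lit 29858344422) (nat_lit 608) (nat_lit 3617921016) (nat_lit 76) (nat_lit 17802569056) (nat_lit 210) (nat_lit 5) (nat_lit 218) (nat_lit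 5) (nat_lit 211) (nat_lit 5) (nat_lit 500) (nat_lit 469) (nat_lit 231))))))))
noncomputable def xc227 : XT := (XT.nd (nat_lit 2340) (nat_lit 1444) (nat_lit 0) (XT.nd (nat_lit 1170) (nat_lit 2888) (nat_lit 0) (XT.nd (nat_lit 546) (nat_lit 1976) (nat_lit 0) (XT.nd (nat_lit 234) (nat_lit 912) (nat_lit 0) (XT.nd (nat_lit 78) (nat_lit 532) (nat_lit 0) (XT.lf (nat_lit 0) (nat_lit 25382216138) (nat_lit 456) (nat_lit 12267322824) (nat_lit 532) (nat_lit 14513590110) (nat_lit 204) (nat_lit 5) (nat_lit 210) (nat_lit 5) (nat_lit 211) (nat_lit 5) (nat_lit 501) (nat_lit 469) (nat_lit 230)) (XT.nd (nat_lit 78) (nat_lit 76) (nat_lit 0) (XT.lf (nat_lit 0) (nat_lit 2202809007) (nat_lit 456) (nat_lit 43620609549) (nat_lit 532) (nat_lit 7246065683) (nat_lit 198) (nat_lit 5) (nat_lit 204) (nat_lit 5) (nat_lit 205) (nat_lit 5) (nat_lit 502) (nat_lit 469) (nat_lit 229)) (XT.lf (nat_lit 0) (nat_lit 628201953) (nat_lit 532) (nat_lit 21517750375)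 (nat_lit 76) (nat_lit 31845207165) (nat_lit 197) (nat_lit 5) (nat_lit 204) (nat_lit 5) (nat_lit 198) (nat_lit 5) (nat_lit 503) (nat_lit 469) (nat_lit 228)))) (XT.nd (nat_lit 156) (nat_lit 456) (nat_lit 0) (XT.nd (nat_lit 78) (nat_lit 0) (nat_lit 0) (XT.lf (nat_lit 0) (nat_lit 8677890930) (nat_lit 532) (nat_lit 46126669373) (nat_lit 76) (nat_lit 131227649) (nat_lit 191) (nat_lit 5) (nat_lit 198) (nat_lit 5) (nat_lit 192) (nat_lit 5) (nat_lit 504) (nat_lit 469) (nat_lit 227)) (XT.lf (nat_lit 0) (nat_lit 17406647960) (nat_lit 532) (nat_lit 15638165399) (nat_lit 76) (nat_lit 22850814787) (nat_lit 191) (nat_lit 5) (nat_lit 198) (nat_lit 5) (nat_lit 192) (nat_lit 5) (nat_lit 505) (nat_lit 469) (nat_lit 226))) (XT.nd (nat_lit 78) (nat_lit 0) (nat_lit 0) (XT.lf (nat_lit 0) (nat_lit 16077364752) (nat_lit 456) (nat_lit 10473353348) (nat_lit 532) (nat_lit 30328942129) (nat_lit 185) (nat_lit 5) (nat_lit 191) (nat_lit 5) (nat_lit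 192) (nat_lit 5) (nat_lit 506) (nat_lit 469) (nat_lit 225)) (XT.lf (nat_lit 0) (nat_lit 36250313547) (nat_lit 532) (nat_lit 8949287847) (nat_lit 76) (nat_lit 12685175977) (nat_lit 185) (nat_lit 5) (nat_lit 192) (nat_lit 5) (nat_lit 186) (nat_lit 5) (nat_lit 507) (nat_lit 469) (nat_lit 224))))) (XT.nd (nat_lit 312) (nat_lit 760) (nat_lit 0) (XT.nd (nat_lit 156) (nat_lit 836) (nat_lit 0) (XT.nd (nat_lit 78) (nat_lit 0) (nat_lit 0) (XT.lf (nat_lit 0) (nat_lit 24227037345) (nat_lit 380) (nat_lit 22349393955) (nat_lit 456) (nat_lit 12333550878) (nat_lit 180) (nat_lit 5) (nat_lit 185) (nat_lit 5) (nat_lit 186) (nat_lit 5) (nat_lit 508) (nat_lit 469) (nat_lit 223)) (XT.lf (nat_lit 0) (nat_lit 57313969028) (nat_lit 456) (nat_lit 1394774550) (nat_lit 76) (nat_lit 1254150635) (nat_lit 180) (nat_lit 5) (nat_lit 186) (nat_lit 5) (nat_lit 181) (nat_lit 5) (nat_lit 509) (nat_lit 469) (nat_lit 222))) (XT.nd (nat_lit 78) (nat_lit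 380) (nat_lit 0) (XT.lf (nat_lit 0) (nat_lit 7729197668) (nat_lit 456) (nat_lit 27787316160) (nat_lit 76) (nat_lit 25512389632) (nat_lit 174) (nat_lit 5) (nat_lit 180) (nat_lit 5) (nat_lit 175) (nat_lit 5) (nat_lit 510) (nat_lit 469) (nat_lit 221)) (XT.lf (nat_lit 0) (nat_lit 6926642437) (nat_lit 380) (nat_lit 11518592730) (nat_lit 456) (nat_lit 43678476819) (nat_lit 169) (nat_lit 5) (nat_lit 174) (nat_lit 5) (nat_lit 175) (nat_lit 5) (nat_lit 511) (nat_lit 469) (nat_lit 220)))) (XT.nd (nat_lit 156) (nat_lit 380) (nat_lit 0) (XT.nd (nat_lit 78) (nat_lit 380) (nat_lit 0) (XT.lf (nat_lit 0) (nat_lit 29892026831) (nat_lit 456) (nat_lit 20122301377) (nat_lit 76) (nat_lit 13224758530) (nat_lit 169) (nat_lit 5) (nat_lit 175) (nat_lit 5) (nat_lit 170) (nat_lit 5) (nat_lit 512) (nat_lit 469) (nat_lit 219)) (XT.lf (nat_lit 0) (nat_lit 16205603332) (nat_lit 380) (nat_lit 25745489176) (nat_lit 456) (nat_lit 22428764269) (nat_lit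 164) (nat_lit 5) (nat_lit 169) (nat_lit 5) (nat_lit 170) (nat_lit 5) (nat_lit 513) (nat_lit 469) (nat_lit 218))) (XT.nd (nat_lit 78) (nat_lit 380) (nat_lit 0) (XT.lf (nat_lit 0) (nat_lit 54034554559) (nat_lit 380) (nat_lit 539633487) (nat_lit 456) (nat_lit 10974594285) (nat_lit 164) (nat_lit 5) (nat_lit 169) (nat_lit 5) (nat_lit 170) (nat_lit 5) (nat_lit 514) (nat_lit 469) (nat_lit 217)) (XT.lf (nat_lit 0) (nat_lit 1310434767) (nat_lit 380) (nat_lit 40233264261) (nat_lit 76) (nat_lit 25193740446) (nat_lit 159) (nat_lit 5) (nat_lit 164) (nat_lit 5) (nat_lit 160) (nat_lit 5) (nat_lit 515) (nat_lit 469) (nat_lit 216)))))) (XT.nd (nat_lit 546) (nat_lit 1520) (nat_lit 0) (XT.nd (nat_lit 234) (nat_lit 684) (nat_lit 0) (XT.nd (nat_lit 78) (nat_lit 684) (nat_lit 0) (XT.lf (nat_lit 0) (nat_lit 13865293216) (nat_lit 380) (nat_lit 2175531927) (nat_lit 76) (nat_lit 51914015834) (nat_lit 159) (nat_lit 5) (nat_lit 164) (nat_lit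 5) (nat_lit 160) (nat_lit 5) (nat_lit 516) (nat_lit 469) (nat_lit 215)) (XT.nd (nat_lit 78) (nat_lit 304) (nat_lit 0) (XT.lf (nat_lit 0) (nat_lit 27260783111) (nat_lit 456) (nat_lit 31540279174) (nat_lit 76) (nat_lit 10393782803) (nat_lit 154) (nat_lit 5) (nat_lit 160) (nat_lit 5) (nat_lit 155) (nat_lit 5) (nat_lit 517) (nat_lit 469) (nat_lit 214)) (XT.lf (nat_lit 0) (nat_lit 8253546973) (nat_lit 304) (nat_lit 33064063804) (nat_lit 380) (nat_lit 29146654483) (nat_lit 150) (nat_lit 5) (nat_lit 154) (nat_lit 5) (nat_lit 155) (nat_lit 5) (nat_lit 518) (nat_lit 469) (nat_lit 213)))) (XT.nd (nat_lit 156) (nat_lit 380) (nat_lit 0) (XT.nd (nat_lit 78) (nat_lit 304) (nat_lit 0) (XT.lf (nat_lit 0) (nat_lit 49886500315) (nat_lit 304) (nat_lit 6227280227) (nat_lit 380) (nat_lit 15648458502) (nat_lit 150) (nat_lit 5) (nat_lit 154) (nat_lit 5) (nat_lit 155) (nat_lit 5) (nat_lit 519) (nat_lit 469) (nat_lit 212)) (XT.lf (nat_lit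 0) (nat_lit 19849558186) (nat_lit 304) (nat_lit 51900097390) (nat_lit 380) (nat_lit 1337621983) (nat_lit 146) (nat_lit 5) (nat_lit 150) (nat_lit 5) (nat_lit 151) (nat_lit 5) (nat_lit 520) (nat_lit 469) (nat_lit 211))) (XT.nd (nat_lit 78) (nat_lit 304) (nat_lit 0) (XT.lf (nat_lit 0) (nat_lit 13424921535) (nat_lit 380) (nat_lit 11364294589) (nat_lit 76) (nat_lit 49650468806) (nat_lit 145) (nat_lit 5) (nat_lit 150) (nat_lit 5) (nat_lit 146) (nat_lit 5) (nat_lit 521) (nat_lit 469) (nat_lit 210)) (XT.lf (nat_lit 0) (nat_lit 28947277277) (nat_lit 380) (nat_lit 43473490844) (nat_lit 76) (nat_lit 3401184576) (nat_lit 141) (nat_lit 5) (nat_lit 146) (nat_lit 5) (nat_lit 142) (nat_lit 5) (nat_lit 522) (nat_lit 469) (nat_lit 209))))) (XT.nd (nat_lit 312) (nat_lit 912) (nat_lit 0) (XT.nd (nat_lit 156) (nat_lit 304) (nat_lit 0) (XT.nd (nat_lit 78) (nat_lit 0) (nat_lit 0) (XT.lf (nat_lit 0) (nat_lit 117841742) (nat_lit 304) (nat_lit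 45179126859) (nat_lit 380) (nat_lit 31937870057) (nat_lit 137) (nat_lit 5) (nat_lit 141) (nat_lit 5) (nat_lit 142) (nat_lit 5) (nat_lit 523) (nat_lit 469) (nat_lit 208)) (XT.lf (nat_lit 0) (nat_lit 45906894087) (nat_lit 304) (nat_lit 16668466539) (nat_lit 380) (nat_lit 16101604378) (nat_lit 137) (nat_lit 5) (nat_lit 141) (nat_lit 5) (nat_lit 142) (nat_lit 5) (nat_lit 524) (nat_lit 469) (nat_lit 207))) (XT.nd (nat_lit 78) (nat_lit 0) (nat_lit 0) (XT.lf (nat_lit 0) (nat_lit 454720145) (nat_lit 304) (nat_lit 67120949603) (nat_lit 76) (nat_lit 12579153090) (nat_lit 133) (nat_lit 5) (nat_lit 137) (nat_lit 5) (nat_lit 134) (nat_lit 5) (nat_lit 525) (nat_lit 469) (nat_lit 206)) (XT.lf (nat_lit 0) (nat_lit 17682568065) (nat_lit 304) (nat_lit 21112304318) (nat_lit 76) (nat_lit 42862407667) (nat_lit 133) (nat_lit 5) (nat_lit 137) (nat_lit 5) (nat_lit 134) (nat_lit 5) (nat_lit 526) (nat_lit 469) (nat_lit 205)))) (XT.nd (nat_lit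 156) (nat_lit 608) (nat_lit 0) (XT.nd (nat_lit 78) (nat_lit 0) (nat_lit 0) (XT.lf (nat_lit 0) (nat_lit 26798394858) (nat_lit 304) (nat_lit 8885717200) (nat_lit 380) (nat_lit 47512993193) (nat_lit 129) (nat_lit 5) (nat_lit 133) (nat_lit 5) (nat_lit 134) (nat_lit 5) (nat_lit 527) (nat_lit 469) (nat_lit 204)) (XT.lf (nat_lit 0) (nat_lit 54650986402) (nat_lit 380) (nat_lit 8411504721) (nat_lit 76) (nat_lit 21707875657) (nat_lit 129) (nat_lit 5) (nat_lit 134) (nat_lit 5) (nat_lit 130) (nat_lit 5) (nat_lit 528) (nat_lit 469) (nat_lit 203))) (XT.nd (nat_lit 78) (nat_lit 380) (nat_lit 0) (XT.lf (nat_lit 0) (nat_lit 41740739539) (nat_lit 228) (nat_lit 32934628796) (nat_lit 304) (nat_lit 11700802867) (nat_lit 126) (nat_lit 5) (nat_lit 129) (nat_lit 5) (nat_lit 130) (nat_lit 5) (nat_lit 529) (nat_lit 469) (nat_lit 202)) (XT.lf (nat_lit 0) (nat_lit 5579407970) (nat_lit 304) (nat_lit 1687756596) (nat_lit 380) (nat_lit 80756727577)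 (nat_lit 121) (nat_lit 5) (nat_lit 125) (nat_lit 5) (nat_lit 126) (nat_lit 5) (nat_lit 530) (nat_lit 469) (nat_lit 201))))))) (XT.nd (nat_lit 58188) (nat_lit 0) (nat_lit 11020) (XT.nd (nat_lit 546) (nat_lit 456) (nat_lit 0) (XT.nd (nat_lit 234) (nat_lit 760) (nat_lit 0) (XT.nd (nat_lit 78) (nat_lit 228) (nat_lit 0) (XT.lf (nat_lit 0) (nat_lit 27316636483) (nat_lit 380) (nat_lit 31906432795) (nat_lit 76) (nat_lit 30472070831) (nat_lit 121) (nat_lit 5) (nat_lit 126) (nat_lit 5) (nat_lit 122) (nat_lit 5) (nat_lit 531) (nat_lit 469) (nat_lit 200)) (XT.nd (nat_lit 78) (nat_lit 0) (nat_lit 0) (XT.lf (nat_lit 0) (nat_lit 20530586086) (nat_lit 228) (nat_lit 27650385766) (nat_lit 304) (nat_lit 43229152360) (nat_lit 118) (nat_lit 5) (nat_lit 121) (nat_lit 5) (nat_lit 122) (nat_lit 5) (nat_lit 532) (nat_lit 469) (nat_lit 199)) (XT.lf (nat_lit 0) (nat_lit 70042750063) (nat_lit 304) (nat_lit 18023219364) (nat_lit 76) (nat_lit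 5099443104) (nat_lit 118) (nat_lit 5) (nat_lit 122) (nat_lit 5) (nat_lit 119) (nat_lit 5) (nat_lit 533) (nat_lit 469) (nat_lit 198)))) (XT.nd (nat_lit 156) (nat_lit 456) (nat_lit 0) (XT.nd (nat_lit 78) (nat_lit 76) (nat_lit 0) (XT.lf (nat_lit 0) (nat_lit 36863295331) (nat_lit 228) (nat_lit 56324546721) (nat_lit 304) (nat_lit 1766693709) (nat_lit 115) (nat_lit 5) (nat_lit 118) (nat_lit 5) (nat_lit 119) (nat_lit 5) (nat_lit 534) (nat_lit 469) (nat_lit 197)) (XT.lf (nat_lit 0) (nat_lit 20018340237) (nat_lit 304) (nat_lit 3223339385) (nat_lit 76) (nat_lit 73544324892) (nat_lit 114) (nat_lit 5) (nat_lit 118) (nat_lit 5) (nat_lit 115) (nat_lit 5) (nat_lit 535) (nat_lit 469) (nat_lit 196))) (XT.nd (nat_lit 78) (nat_lit 228) (nat_lit 0) (XT.lf (nat_lit 0) (nat_lit 43052535271) (nat_lit 304) (nat_lit 44433433178) (nat_lit 76) (nat_lit 11166990623) (nat_lit 111) (nat_lit 5) (nat_lit 115) (nat_lit 5) (nat_lit 112) (nat_lit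 5) (nat_lit 536) (nat_lit 469) (nat_lit 195)) (XT.lf (nat_lit 0) (nat_lit 12896995872) (nat_lit 228) (nat_lit 54267089644) (nat_lit 304) (nat_lit 33400246935) (nat_lit 108) (nat_lit 5) (nat_lit 111) (nat_lit 5) (nat_lit 112) (nat_lit 5) (nat_lit 537) (nat_lit 469) (nat_lit 194))))) (XT.nd (nat_lit 57330) (nat_lit 0) (nat_lit 13148) (XT.nd (nat_lit 57174) (nat_lit 0) (nat_lit 13072) (XT.nd (nat_lit 234) (nat_lit 456) (nat_lit 0) (XT.lf (nat_lit 0) (nat_lit 72857150101) (nat_lit 228) (nat_lit 19589899451) (nat_lit 304) (nat_lit 10072555524) (nat_lit 108) (nat_lit 5) (nat_lit 111) (nat_lit 5) (nat_lit 112) (nat_lit 5) (nat_lit 538) (nat_lit 469) (nat_lit 193)) (XT.lf (nat_lit 0) (nat_lit 48831000708) (nat_lit 228) (nat_lit 16983696722) (nat_lit 304) (nat_lit 42825057245) (nat_lit 102) (nat_lit 5) (nat_lit 105) (nat_lit 5) (nat_lit 106) (nat_lit 5) (nat_lit 541) (nat_lit 469) (nat_lit 190))) (XT.nd (nat_lit 78) (nat_lit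 0) (nat_lit 0) (XT.lf (nat_lit 0) (nat_lit 5845914618) (nat_lit 1292) (nat_lit 5133882803) (nat_lit 1292) (nat_lit 5133882803) (nat_lit 274) (nat_lit 3) (nat_lit 291) (nat_lit 3) (nat_lit 291) (nat_lit 5) (nat_lit 470) (nat_lit 470) (nat_lit 260)) (XT.lf (nat_lit 76) (nat_lit 5632575512) (nat_lit 0) (nat_lit 6351327144) (nat_lit 1292) (nat_lit 20723352767) (nat_lit 275) (nat_lit 5) (nat_lit 274) (nat_lit 3) (nat_lit 291) (nat_lit 5) (nat_lit 471) (nat_lit 470) (nat_lit 259)))) (XT.nd (nat_lit 156) (nat_lit 0) (nat_lit 76) (XT.nd (nat_lit 78) (nat_lit 0) (nat_lit 0) (XT.lf (nat_lit 0) (nat_lit 12480491308) (nat_lit 1216) (nat_lit 11073909745) (nat_lit 1292) (nat_lit 9641274170) (nat_lit 275) (nat_lit 5) (nat_lit 291) (nat_lit 5) (nat_lit 292) (nat_lit 5) (nat_lit 472) (nat_lit 470) (nat_lit 258)) (XT.lf (nat_lit 76) (nat_lit 5449000590) (nat_lit 0) (nat_lit 7655869408) (nat_lit 1292) (nat_lit 20590491400) (nat_lit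 276) (nat_lit 5) (nat_lit 275) (nat_lit 5) (nat_lit 292) (nat_lit 5) (nat_lit 473) (nat_lit 470) (nat_lit 257))) (XT.nd (nat_lit 78) (nat_lit 0) (nat_lit 0) (XT.lf (nat_lit 0) (nat_lit 13942425161) (nat_lit 1216) (nat_lit 11598401069) (nat_lit 1292) (nat_lit 8663379111) (nat_lit 276) (nat_lit 5) (nat_lit 292) (nat_lit 5) (nat_lit 293) (nat_lit 5) (nat_lit 474) (nat_lit 470) (nat_lit 256)) (XT.lf (nat_lit 76) (nat_lit 5580743094) (nat_lit 0) (nat_lit 9351572083) (nat_lit 1292) (nat_lit 19792183697) (nat_lit 277) (nat_lit 5) (nat_lit 276) (nat_lit 5) (nat_lit 293) (nat_lit 5) (nat_lit 475) (nat_lit 470) (nat_lit 255)))))) (XT.nd (nat_lit 624) (nat_lit 2280) (nat_lit 0) (XT.nd (nat_lit 312) (nat_lit 0) (nat_lit 152) (XT.nd (nat_lit 156) (nat_lit 0) (nat_lit 76) (XT.nd (nat_lit 78) (nat_lit 0) (nat_lit 0) (XT.lf (nat_lit 0) (nat_lit 16138401646) (nat_lit 1216) (nat_lit 11816841379) (nat_lit 1292) (nat_lit 7299563702)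 (nat_lit 277) (nat_lit 5) (nat_lit 293) (nat_lit 5) (nat_lit 294) (nat_lit 5) (nat_lit 476) (nat_lit 470) (nat_lit 254)) (XT.lf (nat_lit 76) (nat_lit 6054053227) (nat_lit 0) (nat_lit 11475288404) (nat_lit 1292) (nat_lit 18267222546) (nat_lit 278) (nat_lit 5) (nat_lit 277) (nat_lit 5) (nat_lit 294) (nat_lit 5) (nat_lit 477) (nat_lit 470) (nat_lit 253))) (XT.nd (nat_lit 78) (nat_lit 0) (nat_lit 0) (XT.lf (nat_lit 0) (nat_lit 19133319695) (nat_lit 1216) (nat_lit 11703157584) (nat_lit 1292) (nat_lit 5512958251) (nat_lit 278) (nat_lit 5) (nat_lit 294) (nat_lit 5) (nat_lit 295) (nat_lit 5) (nat_lit 478) (nat_lit 470) (nat_lit 252)) (XT.lf (nat_lit 76) (nat_lit 6896956216) (nat_lit 0) (nat_lit 14066376451) (nat_lit 1292) (nat_lit 15950223352) (nat_lit 279) (nat_lit 5) (nat_lit 278) (nat_lit 5) (nat_lit 295) (nat_lit 5) (nat_lit 479) (nat_lit 470) (nat_lit 251)))) (XT.nd (nat_lit 156) (nat_lit 0) (nat_lit 76) (XT.nd (nat_lit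 78) (nat_lit 0) (nat_lit 0) (XT.lf (nat_lit 0) (nat_lit 22996472716) (nat_lit 1216) (nat_lit 11229513081) (nat_lit 1292) (nat_lit 3264167973) (nat_lit 279) (nat_lit 5) (nat_lit 295) (nat_lit 5) (nat_lit 296) (nat_lit 5) (nat_lit 480) (nat_lit 470) (nat_lit 250)) (XT.lf (nat_lit 76) (nat_lit 8139346120) (nat_lit 0) (nat_lit 17166880689) (nat_lit 1292) (nat_lit 12771354482) (nat_lit 280) (nat_lit 5) (nat_lit 279) (nat_lit 5) (nat_lit 296) (nat_lit 5) (nat_lit 481) (nat_lit 470) (nat_lit 249))) (XT.nd (nat_lit 78) (nat_lit 0) (nat_lit 0) (XT.lf (nat_lit 0) (nat_lit 27801830494) (nat_lit 1216) (nat_lit 10366214588) (nat_lit 1292) (nat_lit 511090272) (nat_lit 280) (nat_lit 5) (nat_lit 296) (nat_lit 5) (nat_lit 297) (nat_lit 5) (nat_lit 482) (nat_lit 470) (nat_lit 248)) (XT.lf (nat_lit 76) (nat_lit 9813084438) (nat_lit 0) (nat_lit 20821724780) (nat_lit 1292) (nat_lit 8656052023) (nat_lit 281) (nat_lit 5) (nat_lit 280)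 (nat_lit 5) (nat_lit 297) (nat_lit 5) (nat_lit 483) (nat_lit 470) (nat_lit 247))))) (XT.nd (nat_lit 312) (nat_lit 1368) (nat_lit 0) (XT.nd (nat_lit 156) (nat_lit 1140) (nat_lit 0) (XT.nd (nat_lit 78) (nat_lit 0) (nat_lit 76) (XT.lf (nat_lit 76) (nat_lit 30808871733) (nat_lit 0) (nat_lit 2846831297) (nat_lit 1292) (nat_lit 6262148501) (nat_lit 281) (nat_lit 5) (nat_lit 280) (nat_lit 5) (nat_lit 297) (nat_lit 5) (nat_lit 484) (nat_lit 470) (nat_lit 246)) (XT.lf (nat_lit 76) (nat_lit 11952103594) (nat_lit 0) (nat_lit 25078916490) (nat_lit 1292) (nat_lit 3524717940) (nat_lit 282) (nat_lit 5) (nat_lit 281) (nat_lit 5) (nat_lit 298) (nat_lit 5) (nat_lit 485) (nat_lit 470) (nat_lit 245))) (XT.nd (nat_lit 78) (nat_lit 1216) (nat_lit 0) (XT.lf (nat_lit 76) (nat_lit 33801608624) (nat_lit 0) (nat_lit 6824218825) (nat_lit 1292) (nat_lit 583387114) (nat_lit 282) (nat_lit 5) (nat_lit 281) (nat_lit 5) (nat_lit 298) (nat_lit 5)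 (nat_lit 486) (nat_lit 470) (nat_lit 244)) (XT.lf (nat_lit 0) (nat_lit 2654764336) (nat_lit 1292) (nat_lit 27308193365) (nat_lit 76) (nat_lit 11910943187) (nat_lit 265) (nat_lit 5) (nat_lit 282) (nat_lit 5) (nat_lit 266) (nat_lit 5) (nat_lit 487) (nat_lit 470) (nat_lit 243)))) (XT.nd (nat_lit 156) (nat_lit 608) (nat_lit 0) (XT.nd (nat_lit 78) (nat_lit 760) (nat_lit 0) (XT.lf (nat_lit 0) (nat_lit 6119850720) (nat_lit 1292) (nat_lit 5281715764) (nat_lit 76) (nat_lit 31152542903) (nat_lit 265) (nat_lit 5) (nat_lit 282) (nat_lit 5) (nat_lit 266) (nat_lit 5) (nat_lit 488) (nat_lit 470) (nat_lit 242)) (XT.lf (nat_lit 0) (nat_lit 9933840137) (nat_lit 836) (nat_lit 25574963438) (nat_lit 76) (nat_lit 7738572387) (nat_lit 255) (nat_lit 5) (nat_lit 266) (nat_lit 5) (nat_lit 256) (nat_lit 5) (nat_lit 489) (nat_lit 470) (nat_lit 241))) (XT.nd (nat_lit 78) (nat_lit 608) (nat_lit 0) (XT.lf (nat_lit 0) (nat_lit 14027485370) (nat_lit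 836) (nat_lit 2651230971) (nat_lit 76) (nat_lit 27277767432) (nat_lit 255) (nat_lit 5) (nat_lit 266) (nat_lit 5) (nat_lit 256) (nat_lit 5) (nat_lit 490) (nat_lit 470) (nat_lit 240)) (XT.lf (nat_lit 0) (nat_lit 18476095100) (nat_lit 684) (nat_lit 23332924386) (nat_lit 76) (nat_lit 2870880993) (nat_lit 247) (nat_lit 5) (nat_lit 256) (nat_lit 5) (nat_lit 248) (nat_lit 5) (nat_lit 491) (nat_lit 470) (nat_lit 239))))))))
noncomputable def xc228 : XT := (XT.nd (nat_lit 2340) (nat_lit 3116) (nat_lit 0) (XT.nd (nat_lit 1170) (nat_lit 3420) (nat_lit 0) (XT.nd (nat_lit 546) (nat_lit 1976) (nat_lit 0) (XT.nd (nat_lit 234) (nat_lit 1140) (nat_lit 0) (XT.nd (nat_lit 78) (nat_lit 532) (nat_lit 0) (XT.lf (nat_lit 0) (nat_lit 538976903) (nat_lit 608) (nat_lit 22715101269) (nat_lit 684) (nat_lit 22165064368) (nat_lit 239) (nat_lit 5) (nat_lit 247) (nat_lit 5) (nat_lit 248) (nat_lit 5) (nat_lit 492) (nat_lit 470) (nat_lit 238))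 (XT.nd (nat_lit 78) (nat_lit 532) (nat_lit 0) (XT.lf (nat_lit 0) (nat_lit 25603950945) (nat_lit 608) (nat_lit 2805656128) (nat_lit 684) (nat_lit 17763928898) (nat_lit 239) (nat_lit 5) (nat_lit 247) (nat_lit 5) (nat_lit 248) (nat_lit 5) (nat_lit 493) (nat_lit 470) (nat_lit 237)) (XT.lf (nat_lit 0) (nat_lit 4384325882) (nat_lit 532) (nat_lit 29546405172) (nat_lit 608) (nat_lit 13013502559) (nat_lit 232) (nat_lit 5) (nat_lit 239) (nat_lit 5) (nat_lit 240) (nat_lit 5) (nat_lit 494) (nat_lit 470) (nat_lit 236)))) (XT.nd (nat_lit 156) (nat_lit 608) (nat_lit 0) (XT.nd (nat_lit 78) (nat_lit 532) (nat_lit 0) (XT.lf (nat_lit 0) (nat_lit 30478804848) (nat_lit 532) (nat_lit 9372560343) (nat_lit 608) (nat_lit 7879670982) (nat_lit 232) (nat_lit 5) (nat_lit 239) (nat_lit 5) (nat_lit 240) (nat_lit 5) (nat_lit 495) (nat_lit 470) (nat_lit 235)) (XT.lf (nat_lit 0) (nat_lit 8876875909) (nat_lit 532) (nat_lit 37266414993) (nat_lit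 608) (nat_lit 2392342002) (nat_lit 225) (nat_lit 5) (nat_lit 232) (nat_lit 5) (nat_lit 233) (nat_lit 5) (nat_lit 496) (nat_lit 470) (nat_lit 234))) (XT.nd (nat_lit 78) (nat_lit 532) (nat_lit 0) (XT.lf (nat_lit 0) (nat_lit 3463444717) (nat_lit 608) (nat_lit 13342872319) (nat_lit 76) (nat_lit 32549087420) (nat_lit 224) (nat_lit 5) (nat_lit 232) (nat_lit 5) (nat_lit 225) (nat_lit 5) (nat_lit 497) (nat_lit 470) (nat_lit 233)) (XT.lf (nat_lit 0) (nat_lit 9622837969) (nat_lit 608) (nat_lit 36226786249) (nat_lit 76) (nat_lit 4344154089) (nat_lit 217) (nat_lit 5) (nat_lit 225) (nat_lit 5) (nat_lit 218) (nat_lit 5) (nat_lit 498) (nat_lit 470) (nat_lit 232))))) (XT.nd (nat_lit 312) (nat_lit 988) (nat_lit 0) (XT.nd (nat_lit 156) (nat_lit 456) (nat_lit 0) (XT.nd (nat_lit 78) (nat_lit 532) (nat_lit 0) (XT.lf (nat_lit 0) (nat_lit 16268251756) (nat_lit 608) (nat_lit 8852694469) (nat_lit 76) (nat_lit 25927320227) (nat_lit 217)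 (nat_lit 5) (nat_lit 225) (nat_lit 5) (nat_lit 218) (nat_lit 5) (nat_lit 499) (nat_lit 470) (nat_lit 231)) (XT.lf (nat_lit 0) (nat_lit 19726221378) (nat_lit 532) (nat_lit 3575231633) (nat_lit 608) (nat_lit 28621283714) (nat_lit 210) (nat_lit 5) (nat_lit 217) (nat_lit 5) (nat_lit 218) (nat_lit 5) (nat_lit 500) (nat_lit 470) (nat_lit 230))) (XT.nd (nat_lit 78) (nat_lit 456) (nat_lit 0) (XT.lf (nat_lit 0) (nat_lit 30813712209) (nat_lit 608) (nat_lit 3657974043) (nat_lit 76) (nat_lit 18343713224) (nat_lit 210) (nat_lit 5) (nat_lit 218) (nat_lit 5) (nat_lit 211) (nat_lit 5) (nat_lit 501) (nat_lit 470) (nat_lit 229)) (XT.lf (nat_lit 0) (nat_lit 26211495808) (nat_lit 456) (nat_lit 12626062209) (nat_lit 532) (nat_lit 14888697747) (nat_lit 204) (nat_lit 5) (nat_lit 210) (nat_lit 5) (nat_lit 211) (nat_lit 5) (nat_lit 502) (nat_lit 470) (nat_lit 228)))) (XT.nd (nat_lit 156) (nat_lit 456) (nat_lit 0) (XT.nd (nat_lit 78) (nat_lit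 76) (nat_lit 0) (XT.lf (nat_lit 0) (nat_lit 2337703149) (nat_lit 456) (nat_lit 44917994059) (nat_lit 532) (nat_lit 7404133407) (nat_lit 198) (nat_lit 5) (nat_lit 204) (nat_lit 5) (nat_lit 205) (nat_lit 5) (nat_lit 503) (nat_lit 470) (nat_lit 227)) (XT.lf (nat_lit 0) (nat_lit 703510936) (nat_lit 532) (nat_lit 22095343217) (nat_lit 76) (nat_lit 32810335991) (nat_lit 197) (nat_lit 5) (nat_lit 204) (nat_lit 5) (nat_lit 198) (nat_lit 5) (nat_lit 504) (nat_lit 470) (nat_lit 226))) (XT.nd (nat_lit 78) (nat_lit 0) (nat_lit 0) (XT.lf (nat_lit 0) (nat_lit 8993806218) (nat_lit 532) (nat_lit 47441635475) (nat_lit 76) (nat_lit 146742596) (nat_lit 191) (nat_lit 5) (nat_lit 198) (nat_lit 5) (nat_lit 192) (nat_lit 5) (nat_lit 505) (nat_lit 470) (nat_lit 225)) (XT.lf (nat_lit 0) (nat_lit 17982807165) (nat_lit 532) (nat_lit 16040481254) (nat_lit 76) (nat_lit 23547580122) (nat_lit 191) (nat_lit 5) (nat_lit 198) (nat_lit 5) (nat_lit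 192) (nat_lit 5) (nat_lit 506) (nat_lit 470) (nat_lit 224)))))) (XT.nd (nat_lit 546) (nat_lit 1748) (nat_lit 0) (XT.nd (nat_lit 234) (nat_lit 836) (nat_lit 0) (XT.nd (nat_lit 78) (nat_lit 380) (nat_lit 0) (XT.lf (nat_lit 0) (nat_lit 16625859614) (nat_lit 456) (nat_lit 10774404257) (nat_lit 532) (nat_lit 31184186064) (nat_lit 185) (nat_lit 5) (nat_lit 191) (nat_lit 5) (nat_lit 192) (nat_lit 5) (nat_lit 507) (nat_lit 470) (nat_lit 223)) (XT.nd (nat_lit 78) (nat_lit 380) (nat_lit 0) (XT.lf (nat_lit 0) (nat_lit 37389425506) (nat_lit 532) (nat_lit 9152089183) (nat_lit 76) (nat_lit 13078248824) (nat_lit 185) (nat_lit 5) (nat_lit 192) (nat_lit 5) (nat_lit 186) (nat_lit 5) (nat_lit 508) (nat_lit 470) (nat_lit 222)) (XT.lf (nat_lit 0) (nat_lit 25018881869) (nat_lit 380) (nat_lit 23005567077) (nat_lit 456) (nat_lit 12651302119) (nat_lit 180) (nat_lit 5) (nat_lit 185) (nat_lit 5) (nat_lit 186) (nat_lit 5) (nat_lit 509) (nat_lit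 470) (nat_lit 221)))) (XT.nd (nat_lit 156) (nat_lit 380) (nat_lit 0) (XT.nd (nat_lit 78) (nat_lit 456) (nat_lit 0) (XT.lf (nat_lit 0) (nat_lit 59082768925) (nat_lit 456) (nat_lit 1372126100) (nat_lit 76) (nat_lit 1305396011) (nat_lit 180) (nat_lit 5) (nat_lit 186) (nat_lit 5) (nat_lit 181) (nat_lit 5) (nat_lit 510) (nat_lit 470) (nat_lit 220)) (XT.lf (nat_lit 0) (nat_lit 8010118927) (nat_lit 456) (nat_lit 28556092043) (nat_lit 76) (nat_lit 26292080147) (nat_lit 174) (nat_lit 5) (nat_lit 180) (nat_lit 5) (nat_lit 175) (nat_lit 5) (nat_lit 511) (nat_lit 470) (nat_lit 219))) (XT.nd (nat_lit 78) (nat_lit 0) (nat_lit 0) (XT.lf (nat_lit 0) (nat_lit 7198649590) (nat_lit 380) (nat_lit 11848176662) (nat_lit 456) (nat_lit 44939142222) (nat_lit 169) (nat_lit 5) (nat_lit 174) (nat_lit 5) (nat_lit 175) (nat_lit 5) (nat_lit 512) (nat_lit 470) (nat_lit 218)) (XT.lf (nat_lit 0) (nat_lit 30835765869) (nat_lit 456) (nat_lit 20662369251)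 (nat_lit 76) (nat_lit 13636707250) (nat_lit 169) (nat_lit 5) (nat_lit 175) (nat_lit 5) (nat_lit 170) (nat_lit 5) (nat_lit 513) (nat_lit 470) (nat_lit 217))))) (XT.nd (nat_lit 312) (nat_lit 988) (nat_lit 0) (XT.nd (nat_lit 156) (nat_lit 380) (nat_lit 0) (XT.nd (nat_lit 78) (nat_lit 0) (nat_lit 0) (XT.lf (nat_lit 0) (nat_lit 16754749057) (nat_lit 380) (nat_lit 26501091540) (nat_lit 456) (nat_lit 23054018023) (nat_lit 164) (nat_lit 5) (nat_lit 169) (nat_lit 5) (nat_lit 170) (nat_lit 5) (nat_lit 514) (nat_lit 470) (nat_lit 216)) (XT.lf (nat_lit 0) (nat_lit 55716734522) (nat_lit 380) (nat_lit 539548403) (nat_lit 456) (nat_lit 11257609614) (nat_lit 164) (nat_lit 5) (nat_lit 169) (nat_lit 5) (nat_lit 170) (nat_lit 5) (nat_lit 515) (nat_lit 470) (nat_lit 215))) (XT.nd (nat_lit 78) (nat_lit 0) (nat_lit 0) (XT.lf (nat_lit 0) (nat_lit 1394500962) (nat_lit 380) (nat_lit 41377635768) (nat_lit 76) (nat_lit 25966076562) (nat_lit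 159) (nat_lit 5) (nat_lit 164) (nat_lit 5) (nat_lit 160) (nat_lit 5) (nat_lit 516) (nat_lit 470) (nat_lit 214)) (XT.lf (nat_lit 0) (nat_lit 14324701675) (nat_lit 380) (nat_lit 2179995534) (nat_lit 76) (nat_lit 53487478932) (nat_lit 159) (nat_lit 5) (nat_lit 164) (nat_lit 5) (nat_lit 160) (nat_lit 5) (nat_lit 517) (nat_lit 470) (nat_lit 213)))) (XT.nd (nat_lit 156) (nat_lit 304) (nat_lit 0) (XT.nd (nat_lit 78) (nat_lit 304) (nat_lit 0) (XT.lf (nat_lit 0) (nat_lit 28121537158) (nat_lit 456) (nat_lit 32425159706) (nat_lit 76) (nat_lit 10722699276) (nat_lit 154) (nat_lit 5) (nat_lit 160) (nat_lit 5) (nat_lit 155) (nat_lit 5) (nat_lit 518) (nat_lit 470) (nat_lit 212)) (XT.lf (nat_lit 0) (nat_lit 8561879972) (nat_lit 304) (nat_lit 34037523019) (nat_lit 380) (nat_lit 29977516112) (nat_lit 150) (nat_lit 5) (nat_lit 154) (nat_lit 5) (nat_lit 155) (nat_lit 5) (nat_lit 519) (nat_lit 470) (nat_lit 211))) (XT.nd (nat_lit 78)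 (nat_lit 304) (nat_lit 0) (XT.lf (nat_lit 0) (nat_lit 51442053179) (nat_lit 304) (nat_lit 6396173683) (nat_lit 380) (nat_lit 16075642349) (nat_lit 150) (nat_lit 5) (nat_lit 154) (nat_lit 5) (nat_lit 155) (nat_lit 5) (nat_lit 520) (nat_lit 470) (nat_lit 210)) (XT.lf (nat_lit 0) (nat_lit 20504479028) (nat_lit 304) (nat_lit 53438242589) (nat_lit 380) (nat_lit 1335951135) (nat_lit 146) (nat_lit 5) (nat_lit 150) (nat_lit 5) (nat_lit 151) (nat_lit 5) (nat_lit 521) (nat_lit 470) (nat_lit 209))))))) (XT.nd (nat_lit 1170) (nat_lit 684) (nat_lit 0) (XT.nd (nat_lit 546) (nat_lit 1140) (nat_lit 0) (XT.nd (nat_lit 234) (nat_lit 608) (nat_lit 0) (XT.nd (nat_lit 78) (nat_lit 608) (nat_lit 0) (XT.lf (nat_lit 0) (nat_lit 13867459326) (nat_lit 380) (nat_lit 11646723011) (nat_lit 76) (nat_lit 51157493930) (nat_lit 145) (nat_lit 5) (nat_lit 150) (nat_lit 5) (nat_lit 146) (nat_lit 5) (nat_lit 522) (nat_lit 470) (nat_lit 208)) (XT.nd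 (nat_lit 78) (nat_lit 304) (nat_lit 0) (XT.lf (nat_lit 0) (nat_lit 29855063761) (nat_lit 380) (nat_lit 44718767829) (nat_lit 76) (nat_lit 3521593296) (nat_lit 141) (nat_lit 5) (nat_lit 146) (nat_lit 5) (nat_lit 142) (nat_lit 5) (nat_lit 523) (nat_lit 470) (nat_lit 207)) (XT.lf (nat_lit 0) (nat_lit 179727012) (nat_lit 304) (nat_lit 46514933064) (nat_lit 380) (nat_lit 32856055079) (nat_lit 137) (nat_lit 5) (nat_lit 141) (nat_lit 5) (nat_lit 142) (nat_lit 5) (nat_lit 524) (nat_lit 470) (nat_lit 206)))) (XT.nd (nat_lit 156) (nat_lit 304) (nat_lit 0) (XT.nd (nat_lit 78) (nat_lit 304) (nat_lit 0) (XT.lf (nat_lit 0) (nat_lit 47340751412) (nat_lit 304) (nat_lit 17149522864) (nat_lit 380) (nat_lit 16545865053) (nat_lit 137) (nat_lit 5) (nat_lit 141) (nat_lit 5) (nat_lit 142) (nat_lit 5) (nat_lit 525) (nat_lit 470) (nat_lit 205)) (XT.lf (nat_lit 0) (nat_lit 506017399) (nat_lit 304) (nat_lit 69076786141) (nat_lit 76) (nat_lit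 12975529563) (nat_lit 133) (nat_lit 5) (nat_lit 137) (nat_lit 5) (nat_lit 134) (nat_lit 5) (nat_lit 526) (nat_lit 470) (nat_lit 204))) (XT.nd (nat_lit 78) (nat_lit 304) (nat_lit 0) (XT.lf (nat_lit 0) (nat_lit 18249603991) (nat_lit 304) (nat_lit 21689564758) (nat_lit 76) (nat_lit 44166728324) (nat_lit 133) (nat_lit 5) (nat_lit 137) (nat_lit 5) (nat_lit 134) (nat_lit 5) (nat_lit 527) (nat_lit 470) (nat_lit 203)) (XT.lf (nat_lit 0) (nat_lit 27657905309) (nat_lit 304) (nat_lit 9132758237) (nat_lit 380) (nat_lit 48901269542) (nat_lit 129) (nat_lit 5) (nat_lit 133) (nat_lit 5) (nat_lit 134) (nat_lit 5) (nat_lit 528) (nat_lit 470) (nat_lit 202))))) (XT.nd (nat_lit 312) (nat_lit 532) (nat_lit 0) (XT.nd (nat_lit 156) (nat_lit 380) (nat_lit 0) (XT.nd (nat_lit 78) (nat_lit 228) (nat_lit 0) (XT.lf (nat_lit 0) (nat_lit 56325677027) (nat_lit 380) (nat_lit 8609038030) (nat_lit 76) (nat_lit 22377703547) (nat_lit 129) (nat_lit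 5) (nat_lit 134) (nat_lit 5) (nat_lit 130) (nat_lit 5) (nat_lit 529) (nat_lit 470) (nat_lit 201)) (XT.lf (nat_lit 0) (nat_lit 43047236187) (nat_lit 228) (nat_lit 33903051843) (nat_lit 304) (nat_lit 12016124328) (nat_lit 126) (nat_lit 5) (nat_lit 129) (nat_lit 5) (nat_lit 130) (nat_lit 5) (nat_lit 530) (nat_lit 470) (nat_lit 200))) (XT.nd (nat_lit 78) (nat_lit 0) (nat_lit 0) (XT.lf (nat_lit 0) (nat_lit 5801226482) (nat_lit 304) (nat_lit 1718462644) (nat_lit 380) (nat_lit 83143880516) (nat_lit 121) (nat_lit 5) (nat_lit 125) (nat_lit 5) (nat_lit 126) (nat_lit 5) (nat_lit 531) (nat_lit 470) (nat_lit 199)) (XT.lf (nat_lit 0) (nat_lit 28169826033) (nat_lit 380) (nat_lit 32809952000) (nat_lit 76) (nat_lit 31405201703) (nat_lit 121) (nat_lit 5) (nat_lit 126) (nat_lit 5) (nat_lit 122) (nat_lit 5) (nat_lit 532) (nat_lit 470) (nat_lit 198)))) (XT.nd (nat_lit 156) (nat_lit 304) (nat_lit 0) (XT.nd (nat_lit 78) (nat_lit 0) (nat_lit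 0) (XT.lf (nat_lit 0) (nat_lit 21199651234) (nat_lit 228) (nat_lit 28459969841) (nat_lit 304) (nat_lit 44491806511) (nat_lit 118) (nat_lit 5) (nat_lit 121) (nat_lit 5) (nat_lit 122) (nat_lit 5) (nat_lit 533) (nat_lit 470) (nat_lit 197)) (XT.lf (nat_lit 0) (nat_lit 72176471034) (nat_lit 304) (nat_lit 18511531127) (nat_lit 76) (nat_lit 5271395951) (nat_lit 118) (nat_lit 5) (nat_lit 122) (nat_lit 5) (nat_lit 119) (nat_lit 5) (nat_lit 534) (nat_lit 470) (nat_lit 196))) (XT.nd (nat_lit 78) (nat_lit 76) (nat_lit 0) (XT.lf (nat_lit 0) (nat_lit 38021065431) (nat_lit 228) (nat_lit 57994404159) (nat_lit 304) (nat_lit 1786738941) (nat_lit 115) (nat_lit 5) (nat_lit 118) (nat_lit 5) (nat_lit 119) (nat_lit 5) (nat_lit 535) (nat_lit 470) (nat_lit 195)) (XT.lf (nat_lit 0) (nat_lit 20650261801) (nat_lit 304) (nat_lit 3269051455) (nat_lit 76) (nat_lit 75769326921) (nat_lit 114) (nat_lit 5) (nat_lit 118) (nat_lit 5) (nat_lit 115)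 (nat_lit 5) (nat_lit 536) (nat_lit 470) (nat_lit 194)))))) (XT.nd (nat_lit 57564) (nat_lit 0) (nat_lit 12920) (XT.nd (nat_lit 312) (nat_lit 0) (nat_lit 0) (XT.nd (nat_lit 78) (nat_lit 456) (nat_lit 0) (XT.lf (nat_lit 0) (nat_lit 44375242162) (nat_lit 304) (nat_lit 45715204304) (nat_lit 76) (nat_lit 11521164219) (nat_lit 111) (nat_lit 5) (nat_lit 115) (nat_lit 5) (nat_lit 112) (nat_lit 5) (nat_lit 537) (nat_lit 470) (nat_lit 193)) (XT.nd (nat_lit 156) (nat_lit 228) (nat_lit 0) (XT.lf (nat_lit 0) (nat_lit 13334635344) (nat_lit 228) (nat_lit 55875084490) (nat_lit 304) (nat_lit 34370618097) (nat_lit 108) (nat_lit 5) (nat_lit 111) (nat_lit 5) (nat_lit 112) (nat_lit 5) (nat_lit 538) (nat_lit 470) (nat_lit 192)) (XT.lf (nat_lit 0) (nat_lit 14588854521) (nat_lit 228) (nat_lit 76310577214) (nat_lit 76) (nat_lit 16751090773) (nat_lit 105) (nat_lit 5) (nat_lit 108) (nat_lit 5) (nat_lit 106) (nat_lit 5) (nat_lit 540) (nat_lit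 470) (nat_lit 190)))) (XT.nd (nat_lit 57096) (nat_lit 0) (nat_lit 12844) (XT.nd (nat_lit 57018) (nat_lit 0) (nat_lit 12844) (XT.lf (nat_lit 0) (nat_lit 40571883670) (nat_lit 228) (nat_lit 14402606896) (nat_lit 76) (nat_lit 54775570899) (nat_lit 105) (nat_lit 5) (nat_lit 108) (nat_lit 5) (nat_lit 106) (nat_lit 5) (nat_lit 541) (nat_lit 470) (nat_lit 189)) (XT.lf (nat_lit 0) (nat_lit 6083242987) (nat_lit 1292) (nat_lit 5255987351) (nat_lit 1292) (nat_lit 5255987351) (nat_lit 274) (nat_lit 3) (nat_lit 291) (nat_lit 3) (nat_lit 291) (nat_lit 5) (nat_lit 471) (nat_lit 471) (nat_lit 258))) (XT.nd (nat_lit 78) (nat_lit 0) (nat_lit 76) (XT.lf (nat_lit 76) (nat_lit 5864750924) (nat_lit 0) (nat_lit 6599569380) (nat_lit 1292) (nat_lit 21220497779) (nat_lit 275) (nat_lit 5) (nat_lit 274) (nat_lit 3) (nat_lit 291) (nat_lit 5) (nat_lit 472) (nat_lit 471) (nat_lit 257)) (XT.lf (nat_lit 0) (nat_lit 12971746724) (nat_lit 1216)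 (nat_lit 11340682551) (nat_lit 1292) (nat_lit 9875583814) (nat_lit 275) (nat_lit 5) (nat_lit 291) (nat_lit 5) (nat_lit 292) (nat_lit 5) (nat_lit 473) (nat_lit 471) (nat_lit 256))))) (XT.nd (nat_lit 312) (nat_lit 0) (nat_lit 152) (XT.nd (nat_lit 156) (nat_lit 0) (nat_lit 76) (XT.nd (nat_lit 78) (nat_lit 0) (nat_lit 76) (XT.lf (nat_lit 76) (nat_lit 5677273482) (nat_lit 0) (nat_lit 7934803092) (nat_lit 1292) (nat_lit 21090697473) (nat_lit 276) (nat_lit 5) (nat_lit 275) (nat_lit 5) (nat_lit 292) (nat_lit 5) (nat_lit 474) (nat_lit 471) (nat_lit 255)) (XT.lf (nat_lit 0) (nat_lit 14470976538) (nat_lit 1216) (nat_lit 11879630225) (nat_lit 1292) (nat_lit 8876390768) (nat_lit 276) (nat_lit 5) (nat_lit 292) (nat_lit 5) (nat_lit 293) (nat_lit 5) (nat_lit 475) (nat_lit 471) (nat_lit 254))) (XT.nd (nat_lit 78) (nat_lit 0) (nat_lit 76) (XT.lf (nat_lit 76) (nat_lit 5814234117) (nat_lit 0) (nat_lit 9673752232) (nat_lit 1292) (nat_lit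 20274991575) (nat_lit 277) (nat_lit 5) (nat_lit 276) (nat_lit 5) (nat_lit 293) (nat_lit 5) (nat_lit 476) (nat_lit 471) (nat_lit 253)) (XT.lf (nat_lit 0) (nat_lit 16726729923) (nat_lit 1216) (nat_lit 12103652592) (nat_lit 1292) (nat_lit 7478918985) (nat_lit 277) (nat_lit 5) (nat_lit 293) (nat_lit 5) (nat_lit 294) (nat_lit 5) (nat_lit 477) (nat_lit 471) (nat_lit 252)))) (XT.nd (nat_lit 156) (nat_lit 0) (nat_lit 76) (XT.nd (nat_lit 78) (nat_lit 0) (nat_lit 76) (XT.lf (nat_lit 76) (nat_lit 6302705185) (nat_lit 0) (nat_lit 11854303001) (nat_lit 1292) (nat_lit 18710375889) (nat_lit 278) (nat_lit 5) (nat_lit 277) (nat_lit 5) (nat_lit 294) (nat_lit 5) (nat_lit 478) (nat_lit 471) (nat_lit 251)) (XT.lf (nat_lit 0) (nat_lit 19805816578) (nat_lit 1216) (nat_lit 11985862521) (nat_lit 1292) (nat_lit 5645261823) (nat_lit 278) (nat_lit 5) (nat_lit 294) (nat_lit 5) (nat_lit 295) (nat_lit 5) (nat_lit 479) (nat_lit 471) (nat_lit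 250))) (XT.nd (nat_lit 78) (nat_lit 0) (nat_lit 76) (XT.lf (nat_lit 76) (nat_lit 7171584204) (nat_lit 0) (nat_lit 14516927840) (nat_lit 1292) (nat_lit 16329540180) (nat_lit 279) (nat_lit 5) (nat_lit 278) (nat_lit 5) (nat_lit 295) (nat_lit 5) (nat_lit 480) (nat_lit 471) (nat_lit 249)) (XT.lf (nat_lit 0) (nat_lit 23779575500) (nat_lit 1216) (nat_lit 11497559334) (nat_lit 1292) (nat_lit 3334905841) (nat_lit 279) (nat_lit 5) (nat_lit 295) (nat_lit 5) (nat_lit 296) (nat_lit 5) (nat_lit 481) (nat_lit 471) (nat_lit 248))))))))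
noncomputable def xc229 : XT := (XT.nd (nat_lit 2340) (nat_lit 5700) (nat_lit 0) (XT.nd (nat_lit 1170) (nat_lit 3952) (nat_lit 0) (XT.nd (nat_lit 546) (nat_lit 2508) (nat_lit 0) (XT.nd (nat_lit 234) (nat_lit 1064) (nat_lit 0) (XT.nd (nat_lit 78) (nat_lit 0) (nat_lit 76) (XT.lf (nat_lit 76) (nat_lit 8451690750) (nat_lit 0) (nat_lit 17704871890) (nat_lit 1292) (nat_lit 13060590796) (nat_lit 280) (nat_lit 5) (nat_lit 279) (nat_lit 5) (nat_lit 296) (nat_lit 5) (nat_lit 482) (nat_lit 471) (nat_lit 247)) (XT.nd (nat_lit 78) (nat_lit 0) (nat_lit 0) (XT.lf (nat_lit 0) (nat_lit 28724165100) (nat_lit 1216) (nat_lit 10608132594) (nat_lit 1292) (nat_lit 504543113) (nat_lit 280) (nat_lit 5) (nat_lit 296) (nat_lit 5) (nat_lit 297) (nat_lit 5) (nat_lit 483) (nat_lit 471) (nat_lit 246)) (XT.lf (nat_lit 76) (nat_lit 10175868262) (nat_lit 0) (nat_lit 21464351090) (nat_lit 1292) (nat_lit 8826757122) (nat_lit 281) (nat_lit 5) (nat_lit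 280) (nat_lit 5) (nat_lit 297) (nat_lit 5) (nat_lit 484) (nat_lit 471) (nat_lit 245)))) (XT.nd (nat_lit 156) (nat_lit 1140) (nat_lit 0) (XT.nd (nat_lit 78) (nat_lit 0) (nat_lit 76) (XT.lf (nat_lit 76) (nat_lit 31799537196) (nat_lit 0) (nat_lit 2949687271) (nat_lit 1292) (nat_lit 6363628042) (nat_lit 281) (nat_lit 5) (nat_lit 280) (nat_lit 5) (nat_lit 297) (nat_lit 5) (nat_lit 485) (nat_lit 471) (nat_lit 244)) (XT.lf (nat_lit 76) (nat_lit 12379090864) (nat_lit 0) (nat_lit 25844762797) (nat_lit 1292) (nat_lit 3546080912) (nat_lit 282) (nat_lit 5) (nat_lit 281) (nat_lit 5) (nat_lit 298) (nat_lit 5) (nat_lit 486) (nat_lit 471) (nat_lit 243))) (XT.nd (nat_lit 78) (nat_lit 1216) (nat_lit 0) (XT.lf (nat_lit 76) (nat_lit 34882088108) (nat_lit 0) (nat_lit 7042031615) (nat_lit 1292) (nat_lit 518967790) (nat_lit 282) (nat_lit 5) (nat_lit 281) (nat_lit 5) (nat_lit 298) (nat_lit 5) (nat_lit 487) (nat_lit 471) (nat_lit 242))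 (XT.lf (nat_lit 0) (nat_lit 2812929697) (nat_lit 1292) (nat_lit 28057575062) (nat_lit 76) (nat_lit 12257240551) (nat_lit 265) (nat_lit 5) (nat_lit 282) (nat_lit 5) (nat_lit 266) (nat_lit 5) (nat_lit 488) (nat_lit 471) (nat_lit 241))))) (XT.nd (nat_lit 312) (nat_lit 1140) (nat_lit 0) (XT.nd (nat_lit 156) (nat_lit 608) (nat_lit 0) (XT.nd (nat_lit 78) (nat_lit 760) (nat_lit 0) (XT.lf (nat_lit 0) (nat_lit 6379681611) (nat_lit 1292) (nat_lit 5372338010) (nat_lit 76) (nat_lit 32076409547) (nat_lit 265) (nat_lit 5) (nat_lit 282) (nat_lit 5) (nat_lit 266) (nat_lit 5) (nat_lit 489) (nat_lit 471) (nat_lit 240)) (XT.lf (nat_lit 0) (nat_lit 10306443828) (nat_lit 836) (nat_lit 26272720271) (nat_lit 76) (nat_lit 7963379528) (nat_lit 255) (nat_lit 5) (nat_lit 266) (nat_lit 5) (nat_lit 256) (nat_lit 5) (nat_lit 490) (nat_lit 471) (nat_lit 239))) (XT.nd (nat_lit 78) (nat_lit 608) (nat_lit 0) (XT.lf (nat_lit 0) (nat_lit 14520725937)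 (nat_lit 836) (nat_lit 2663299871) (nat_lit 76) (nat_lit 28088964503) (nat_lit 255) (nat_lit 5) (nat_lit 266) (nat_lit 5) (nat_lit 256) (nat_lit 5) (nat_lit 491) (nat_lit 471) (nat_lit 238)) (XT.lf (nat_lit 0) (nat_lit 19101287122) (nat_lit 684) (nat_lit 23963922206) (nat_lit 76) (nat_lit 2952945847) (nat_lit 247) (nat_lit 5) (nat_lit 256) (nat_lit 5) (nat_lit 248) (nat_lit 5) (nat_lit 492) (nat_lit 471) (nat_lit 237)))) (XT.nd (nat_lit 156) (nat_lit 532) (nat_lit 0) (XT.nd (nat_lit 78) (nat_lit 0) (nat_lit 0) (XT.lf (nat_lit 0) (nat_lit 623459750) (nat_lit 608) (nat_lit 23397741293) (nat_lit 684) (nat_lit 22758416153) (nat_lit 239) (nat_lit 5) (nat_lit 247) (nat_lit 5) (nat_lit 248) (nat_lit 5) (nat_lit 493) (nat_lit 471) (nat_lit 236)) (XT.lf (nat_lit 0) (nat_lit 26438393298) (nat_lit 608) (nat_lit 2890978224) (nat_lit 684) (nat_lit 18227332059) (nat_lit 239) (nat_lit 5) (nat_lit 247) (nat_lit 5) (nat_lit 248)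 (nat_lit 5) (nat_lit 494) (nat_lit 471) (nat_lit 235))) (XT.nd (nat_lit 78) (nat_lit 0) (nat_lit 0) (XT.lf (nat_lit 0) (nat_lit 4583558702) (nat_lit 532) (nat_lit 30431245243) (nat_lit 608) (nat_lit 13335758381) (nat_lit 232) (nat_lit 5) (nat_lit 239) (nat_lit 5) (nat_lit 240) (nat_lit 5) (nat_lit 495) (nat_lit 471) (nat_lit 234)) (XT.lf (nat_lit 0) (nat_lit 31458900104) (nat_lit 532) (nat_lit 9652230275) (nat_lit 608) (nat_lit 8049896786) (nat_lit 232) (nat_lit 5) (nat_lit 239) (nat_lit 5) (nat_lit 240) (nat_lit 5) (nat_lit 496) (nat_lit 471) (nat_lit 233)))))) (XT.nd (nat_lit 546) (nat_lit 1824) (nat_lit 0) (XT.nd (nat_lit 234) (nat_lit 988) (nat_lit 0) (XT.nd (nat_lit 78) (nat_lit 608) (nat_lit 0) (XT.lf (nat_lit 0) (nat_lit 9210175603) (nat_lit 532) (nat_lit 38380425693) (nat_lit 608) (nat_lit 2399197267) (nat_lit 225) (nat_lit 5) (nat_lit 232) (nat_lit 5) (nat_lit 233) (nat_lit 5) (nat_lit 497) (nat_lit 471)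 (nat_lit 232)) (XT.nd (nat_lit 78) (nat_lit 532) (nat_lit 0) (XT.lf (nat_lit 0) (nat_lit 3629142494) (nat_lit 608) (nat_lit 13676874274) (nat_lit 76) (nat_lit 33528183756) (nat_lit 224) (nat_lit 5) (nat_lit 232) (nat_lit 5) (nat_lit 225) (nat_lit 5) (nat_lit 498) (nat_lit 471) (nat_lit 231)) (XT.lf (nat_lit 0) (nat_lit 9972196772) (nat_lit 608) (nat_lit 37246172974) (nat_lit 76) (nat_lit 4479389825) (nat_lit 217) (nat_lit 5) (nat_lit 225) (nat_lit 5) (nat_lit 218) (nat_lit 5) (nat_lit 499) (nat_lit 471) (nat_lit 230)))) (XT.nd (nat_lit 156) (nat_lit 456) (nat_lit 0) (XT.nd (nat_lit 78) (nat_lit 532) (nat_lit 0) (XT.lf (nat_lit 0) (nat_lit 16815205779) (nat_lit 608) (nat_lit 9052822038) (nat_lit 76) (nat_lit 26709907905) (nat_lit 217) (nat_lit 5) (nat_lit 225) (nat_lit 5) (nat_lit 218) (nat_lit 5) (nat_lit 500) (nat_lit 471) (nat_lit 229)) (XT.lf (nat_lit 0) (nat_lit 20382819586) (nat_lit 532) (nat_lit 3675490771)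 (nat_lit 608) (nat_lit 29420362863) (nat_lit 210) (nat_lit 5) (nat_lit 217) (nat_lit 5) (nat_lit 218) (nat_lit 5) (nat_lit 501) (nat_lit 471) (nat_lit 228))) (XT.nd (nat_lit 78) (nat_lit 456) (nat_lit 0) (XT.lf (nat_lit 0) (nat_lit 31794318743) (nat_lit 608) (nat_lit 3703159958) (nat_lit 76) (nat_lit 18900686036) (nat_lit 210) (nat_lit 5) (nat_lit 218) (nat_lit 5) (nat_lit 211) (nat_lit 5) (nat_lit 502) (nat_lit 471) (nat_lit 227)) (XT.lf (nat_lit 0) (nat_lit 27061761114) (nat_lit 456) (nat_lit 12996096502) (nat_lit 532) (nat_lit 15278520084) (nat_lit 204) (nat_lit 5) (nat_lit 210) (nat_lit 5) (nat_lit 211) (nat_lit 5) (nat_lit 503) (nat_lit 471) (nat_lit 226))))) (XT.nd (nat_lit 312) (nat_lit 836) (nat_lit 0) (XT.nd (nat_lit 156) (nat_lit 456) (nat_lit 0) (XT.nd (nat_lit 78) (nat_lit 76) (nat_lit 0) (XT.lf (nat_lit 0) (nat_lit 2472694148) (nat_lit 456) (nat_lit 46254944970) (nat_lit 532) (nat_lit 7570348042) (nat_lit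 198) (nat_lit 5) (nat_lit 204) (nat_lit 5) (nat_lit 205) (nat_lit 5) (nat_lit 504) (nat_lit 471) (nat_lit 225)) (XT.lf (nat_lit 0) (nat_lit 777837986) (nat_lit 532) (nat_lit 22694163860) (nat_lit 76) (nat_lit 33803857695) (nat_lit 197) (nat_lit 5) (nat_lit 204) (nat_lit 5) (nat_lit 198) (nat_lit 5) (nat_lit 505) (nat_lit 471) (nat_lit 224))) (XT.nd (nat_lit 78) (nat_lit 0) (nat_lit 0) (XT.lf (nat_lit 0) (nat_lit 9316008527) (nat_lit 532) (nat_lit 48800001911) (nat_lit 76) (nat_lit 162058360) (nat_lit 191) (nat_lit 5) (nat_lit 198) (nat_lit 5) (nat_lit 192) (nat_lit 5) (nat_lit 506) (nat_lit 471) (nat_lit 223)) (XT.lf (nat_lit 0) (nat_lit 18573153635) (nat_lit 532) (nat_lit 16458702849) (nat_lit 76) (nat_lit 24264603144) (nat_lit 191) (nat_lit 5) (nat_lit 198) (nat_lit 5) (nat_lit 192) (nat_lit 5) (nat_lit 507) (nat_lit 471) (nat_lit 222)))) (XT.nd (nat_lit 156) (nat_lit 380) (nat_lit 0) (XT.nd (nat_lit 78) (nat_lit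 0) (nat_lit 0) (XT.lf (nat_lit 0) (nat_lit 17187010668) (nat_lit 456) (nat_lit 11085241538) (nat_lit 532) (nat_lit 32068222978) (nat_lit 185) (nat_lit 5) (nat_lit 191) (nat_lit 5) (nat_lit 192) (nat_lit 5) (nat_lit 508) (nat_lit 471) (nat_lit 221)) (XT.lf (nat_lit 0) (nat_lit 38559748627) (nat_lit 532) (nat_lit 9364744705) (nat_lit 76) (nat_lit 13482395297) (nat_lit 185) (nat_lit 5) (nat_lit 192) (nat_lit 5) (nat_lit 186) (nat_lit 5) (nat_lit 509) (nat_lit 471) (nat_lit 220))) (XT.nd (nat_lit 78) (nat_lit 0) (nat_lit 0) (XT.lf (nat_lit 0) (nat_lit 25830748546) (nat_lit 380) (nat_lit 23682246770) (nat_lit 456) (nat_lit 12981585565) (nat_lit 180) (nat_lit 5) (nat_lit 185) (nat_lit 5) (nat_lit 186) (nat_lit 5) (nat_lit 510) (nat_lit 471) (nat_lit 219)) (XT.lf (nat_lit 0) (nat_lit 60901798158) (nat_lit 456) (nat_lit 1352500282) (nat_lit 76) (nat_lit 1357396856) (nat_lit 180) (nat_lit 5) (nat_lit 186) (nat_lit 5) (nat_lit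 181) (nat_lit 5) (nat_lit 511) (nat_lit 471) (nat_lit 218))))))) (XT.nd (nat_lit 1170) (nat_lit 2432) (nat_lit 0) (XT.nd (nat_lit 546) (nat_lit 1672) (nat_lit 0) (XT.nd (nat_lit 234) (nat_lit 760) (nat_lit 0) (XT.nd (nat_lit 78) (nat_lit 380) (nat_lit 0) (XT.lf (nat_lit 0) (nat_lit 8296652421) (nat_lit 456) (nat_lit 29351653491) (nat_lit 76) (nat_lit 27094339417) (nat_lit 174) (nat_lit 5) (nat_lit 180) (nat_lit 5) (nat_lit 175) (nat_lit 5) (nat_lit 512) (nat_lit 471) (nat_lit 217)) (XT.nd (nat_lit 78) (nat_lit 0) (nat_lit 0) (XT.lf (nat_lit 0) (nat_lit 7475131162) (nat_lit 380) (nat_lit 12188565076) (nat_lit 456) (nat_lit 46240479933) (nat_lit 169) (nat_lit 5) (nat_lit 174) (nat_lit 5) (nat_lit 175) (nat_lit 5) (nat_lit 513) (nat_lit 471) (nat_lit 216)) (XT.lf (nat_lit 0) (nat_lit 31805120335) (nat_lit 456) (nat_lit 21222290130) (nat_lit 76) (nat_lit 14060141546) (nat_lit 169) (nat_lit 5) (nat_lit 175) (nat_lit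 5) (nat_lit 170) (nat_lit 5) (nat_lit 514) (nat_lit 471) (nat_lit 215)))) (XT.nd (nat_lit 156) (nat_lit 380) (nat_lit 0) (XT.nd (nat_lit 78) (nat_lit 0) (nat_lit 0) (XT.lf (nat_lit 0) (nat_lit 17316753981) (nat_lit 380) (nat_lit 27280324201) (nat_lit 456) (nat_lit 23700762350) (nat_lit 164) (nat_lit 5) (nat_lit 169) (nat_lit 5) (nat_lit 170) (nat_lit 5) (nat_lit 515) (nat_lit 471) (nat_lit 214)) (XT.lf (nat_lit 0) (nat_lit 57445870006) (nat_lit 380) (nat_lit 540394966) (nat_lit 456) (nat_lit 11551768764) (nat_lit 164) (nat_lit 5) (nat_lit 169) (nat_lit 5) (nat_lit 170) (nat_lit 5) (nat_lit 516) (nat_lit 471) (nat_lit 213))) (XT.nd (nat_lit 78) (nat_lit 0) (nat_lit 0) (XT.lf (nat_lit 0) (nat_lit 1478520129) (nat_lit 380) (nat_lit 42559933432) (nat_lit 76) (nat_lit 26760634221) (nat_lit 159) (nat_lit 5) (nat_lit 164) (nat_lit 5) (nat_lit 160) (nat_lit 5) (nat_lit 517) (nat_lit 471) (nat_lit 212)) (XT.lf (nat_lit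 0) (nat_lit 14795398199) (nat_lit 380) (nat_lit 2188083352) (nat_lit 76) (nat_lit 55107225012) (nat_lit 159) (nat_lit 5) (nat_lit 164) (nat_lit 5) (nat_lit 160) (nat_lit 5) (nat_lit 518) (nat_lit 471) (nat_lit 211))))) (XT.nd (nat_lit 312) (nat_lit 684) (nat_lit 0) (XT.nd (nat_lit 156) (nat_lit 304) (nat_lit 0) (XT.nd (nat_lit 78) (nat_lit 304) (nat_lit 0) (XT.lf (nat_lit 0) (nat_lit 29005649437) (nat_lit 456) (nat_lit 33340107123) (nat_lit 76) (nat_lit 11060501462) (nat_lit 154) (nat_lit 5) (nat_lit 160) (nat_lit 5) (nat_lit 155) (nat_lit 5) (nat_lit 519) (nat_lit 471) (nat_lit 210)) (XT.lf (nat_lit 0) (nat_lit 8875977006) (nat_lit 304) (nat_lit 35041245844) (nat_lit 380) (nat_lit 30835802850) (nat_lit 150) (nat_lit 5) (nat_lit 154) (nat_lit 5) (nat_lit 155) (nat_lit 5) (nat_lit 520) (nat_lit 471) (nat_lit 209))) (XT.nd (nat_lit 78) (nat_lit 304) (nat_lit 0) (XT.lf (nat_lit 0) (nat_lit 53040888207) (nat_lit 304)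 (nat_lit 6571162907) (nat_lit 380) (nat_lit 16518068177) (nat_lit 150) (nat_lit 5) (nat_lit 154) (nat_lit 5) (nat_lit 155) (nat_lit 5) (nat_lit 521) (nat_lit 471) (nat_lit 208)) (XT.lf (nat_lit 0) (nat_lit 21175635736) (nat_lit 304) (nat_lit 55023614654) (nat_lit 380) (nat_lit 1336629624) (nat_lit 146) (nat_lit 5) (nat_lit 150) (nat_lit 5) (nat_lit 151) (nat_lit 5) (nat_lit 522) (nat_lit 471) (nat_lit 207)))) (XT.nd (nat_lit 156) (nat_lit 304) (nat_lit 0) (XT.nd (nat_lit 78) (nat_lit 304) (nat_lit 0) (XT.lf (nat_lit 0) (nat_lit 14320989133) (nat_lit 380) (nat_lit 11940982449) (nat_lit 76) (nat_lit 52708724602) (nat_lit 145) (nat_lit 5) (nat_lit 150) (nat_lit 5) (nat_lit 146) (nat_lit 5) (nat_lit 523) (nat_lit 471) (nat_lit 206)) (XT.lf (nat_lit 0) (nat_lit 30787823946) (nat_lit 380) (nat_lit 46004785817) (nat_lit 76) (nat_lit 3644559582) (nat_lit 141) (nat_lit 5) (nat_lit 146) (nat_lit 5) (nat_lit 142) (nat_lit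 5) (nat_lit 524) (nat_lit 471) (nat_lit 205))) (XT.nd (nat_lit 78) (nat_lit 0) (nat_lit 0) (XT.lf (nat_lit 0) (nat_lit 240119310) (nat_lit 304) (nat_lit 47891936715) (nat_lit 380) (nat_lit 33804079008) (nat_lit 137) (nat_lit 5) (nat_lit 141) (nat_lit 5) (nat_lit 142) (nat_lit 5) (nat_lit 525) (nat_lit 471) (nat_lit 204)) (XT.lf (nat_lit 0) (nat_lit 48814372486) (nat_lit 304) (nat_lit 17646101424) (nat_lit 380) (nat_lit 17005680108) (nat_lit 137) (nat_lit 5) (nat_lit 141) (nat_lit 5) (nat_lit 142) (nat_lit 5) (nat_lit 526) (nat_lit 471) (nat_lit 203)))))) (XT.nd (nat_lit 624) (nat_lit 988) (nat_lit 0) (XT.nd (nat_lit 312) (nat_lit 836) (nat_lit 0) (XT.nd (nat_lit 156) (nat_lit 304) (nat_lit 0) (XT.nd (nat_lit 78) (nat_lit 0) (nat_lit 0) (XT.lf (nat_lit 0) (nat_lit 556691984) (nat_lit 304) (nat_lit 71094615269) (nat_lit 76) (nat_lit 13382706544) (nat_lit 133) (nat_lit 5) (nat_lit 137) (nat_lit 5) (nat_lit 134) (nat_lit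 5) (nat_lit 527) (nat_lit 471) (nat_lit 202)) (XT.lf (nat_lit 0) (nat_lit 18831552365) (nat_lit 304) (nat_lit 22287363879) (nat_lit 76) (nat_lit 45509119586) (nat_lit 133) (nat_lit 5) (nat_lit 137) (nat_lit 5) (nat_lit 134) (nat_lit 5) (nat_lit 528) (nat_lit 471) (nat_lit 201))) (XT.nd (nat_lit 78) (nat_lit 0) (nat_lit 0) (XT.lf (nat_lit 0) (nat_lit 28540011781) (nat_lit 304) (nat_lit 9388331635) (nat_lit 380) (nat_lit 50333324646) (nat_lit 129) (nat_lit 5) (nat_lit 133) (nat_lit 5) (nat_lit 134) (nat_lit 5) (nat_lit 529) (nat_lit 471) (nat_lit 200)) (XT.lf (nat_lit 0) (nat_lit 58048589985) (nat_lit 380) (nat_lit 8815643763) (nat_lit 76) (nat_lit 23066559039) (nat_lit 129) (nat_lit 5) (nat_lit 134) (nat_lit 5) (nat_lit 130) (nat_lit 5) (nat_lit 530) (nat_lit 471) (nat_lit 199)))) (XT.nd (nat_lit 156) (nat_lit 228) (nat_lit 0) (XT.nd (nat_lit 78) (nat_lit 380) (nat_lit 0) (XT.lf (nat_lit 0) (nat_lit 44389812157)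 (nat_lit 228) (nat_lit 34901653611) (nat_lit 304) (nat_lit 12342954910) (nat_lit 126) (nat_lit 5) (nat_lit 129) (nat_lit 5) (nat_lit 130) (nat_lit 5) (nat_lit 531) (nat_lit 471) (nat_lit 198)) (XT.lf (nat_lit 0) (nat_lit 6026574684) (nat_lit 304) (nat_lit 1751233745) (nat_lit 380) (nat_lit 85604688694) (nat_lit 121) (nat_lit 5) (nat_lit 125) (nat_lit 5) (nat_lit 126) (nat_lit 5) (nat_lit 532) (nat_lit 471) (nat_lit 197))) (XT.nd (nat_lit 78) (nat_lit 228) (nat_lit 0) (XT.lf (nat_lit 0) (nat_lit 29046677300) (nat_lit 380) (nat_lit 33743657875) (nat_lit 76) (nat_lit 32365237618) (nat_lit 121) (nat_lit 5) (nat_lit 126) (nat_lit 5) (nat_lit 122) (nat_lit 5) (nat_lit 533) (nat_lit 471) (nat_lit 196)) (XT.lf (nat_lit 0) (nat_lit 21885737449) (nat_lit 228) (nat_lit 29294985358) (nat_lit 304) (nat_lit 45794304680) (nat_lit 118) (nat_lit 5) (nat_lit 121) (nat_lit 5) (nat_lit 122) (nat_lit 5) (nat_lit 534) (nat_lit 471)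 (nat_lit 195))))) (XT.nd (nat_lit 390) (nat_lit 456) (nat_lit 0) (XT.nd (nat_lit 156) (nat_lit 304) (nat_lit 0) (XT.nd (nat_lit 78) (nat_lit 228) (nat_lit 0) (XT.lf (nat_lit 0) (nat_lit 74372341532) (nat_lit 304) (nat_lit 19017499347) (nat_lit 76) (nat_lit 5447418454) (nat_lit 118) (nat_lit 5) (nat_lit 122) (nat_lit 5) (nat_lit 119) (nat_lit 5) (nat_lit 535) (nat_lit 471) (nat_lit 194)) (XT.lf (nat_lit 0) (nat_lit 39210591014) (nat_lit 228) (nat_lit 59715498453) (nat_lit 304) (nat_lit 1809277314) (nat_lit 115) (nat_lit 5) (nat_lit 118) (nat_lit 5) (nat_lit 119) (nat_lit 5) (nat_lit 536) (nat_lit 471) (nat_lit 193))) (XT.nd (nat_lit 78) (nat_lit 228) (nat_lit 0) (XT.lf (nat_lit 0) (nat_lit 21299340168) (nat_lit 304) (nat_lit 3319061814) (nat_lit 76) (nat_lit 78060007145) (nat_lit 114) (nat_lit 5) (nat_lit 118) (nat_lit 5) (nat_lit 115) (nat_lit 5) (nat_lit 537) (nat_lit 471) (nat_lit 192)) (XT.lf (nat_lit 0) (nat_lit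 45735843222) (nat_lit 304) (nat_lit 47038369482) (nat_lit 76) (nat_lit 11884862937) (nat_lit 111) (nat_lit 5) (nat_lit 115) (nat_lit 5) (nat_lit 112) (nat_lit 5) (nat_lit 538) (nat_lit 471) (nat_lit 191)))) (XT.nd (nat_lit 57174) (nat_lit 0) (nat_lit 12844) (XT.nd (nat_lit 78) (nat_lit 228) (nat_lit 0) (XT.lf (nat_lit 0) (nat_lit 77391304906) (nat_lit 228) (nat_lit 20744587322) (nat_lit 304) (nat_lit 10625386262) (nat_lit 108) (nat_lit 5) (nat_lit 111) (nat_lit 5) (nat_lit 112) (nat_lit 5) (nat_lit 540) (nat_lit 471) (nat_lit 189)) (XT.lf (nat_lit 0) (nat_lit 15054705418) (nat_lit 228) (nat_lit 78552697878) (nat_lit 76) (nat_lit 17271786620) (nat_lit 105) (nat_lit 5) (nat_lit 108) (nat_lit 5) (nat_lit 106) (nat_lit 5) (nat_lit 541) (nat_lit 471) (nat_lit 188))) (XT.nd (nat_lit 78) (nat_lit 0) (nat_lit 0) (XT.lf (nat_lit 0) (nat_lit 6324134970) (nat_lit 1292) (nat_lit 5383586912) (nat_lit 1292) (nat_lit 5383586912)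 (nat_lit 274) (nat_lit 3) (nat_lit 291) (nat_lit 3) (nat_lit 291) (nat_lit 5) (nat_lit 472) (nat_lit 472) (nat_lit 256)) (XT.lf (nat_lit 76) (nat_lit 6100263767) (nat_lit 0) (nat_lit 6851946527) (nat_lit 1292) (nat_lit 21739707140) (nat_lit 275) (nat_lit 5) (nat_lit 274) (nat_lit 3) (nat_lit 291) (nat_lit 5) (nat_lit 473) (nat_lit 472) (nat_lit 255))))))))
noncomputable def xc230 : XT := (XT.nd (nat_lit 2340) (nat_lit 6764) (nat_lit 0) (XT.nd (nat_lit 1170) (nat_lit 4940) (nat_lit 0) (XT.nd (nat_lit 546) (nat_lit 0) (nat_lit 228) (XT.nd (nat_lit 234) (nat_lit 0) (nat_lit 76) (XT.nd (nat_lit 78) (nat_lit 0) (nat_lit 0) (XT.lf (nat_lit 0) (nat_lit 13471032670) (nat_lit 1216) (nat_lit 11619215322) (nat_lit 1292) (nat_lit 10120075872) (nat_lit 275) (nat_lit 5) (nat_lit 291) (nat_lit 5) (nat_lit 292) (nat_lit 5) (nat_lit 474) (nat_lit 472) (nat_lit 254)) (XT.nd (nat_lit 78) (nat_lit 0) (nat_lit 76) (XT.lf (nat_lit 76)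 (nat_lit 5908674611) (nat_lit 0) (nat_lit 8219277197) (nat_lit 1292) (nat_lit 21612655206) (nat_lit 276) (nat_lit 5) (nat_lit 275) (nat_lit 5) (nat_lit 292) (nat_lit 5) (nat_lit 475) (nat_lit 472) (nat_lit 253)) (XT.lf (nat_lit 0) (nat_lit 15009054013) (nat_lit 1216) (nat_lit 12173126421) (nat_lit 1292) (nat_lit 9098484436) (nat_lit 276) (nat_lit 5) (nat_lit 292) (nat_lit 5) (nat_lit 293) (nat_lit 5) (nat_lit 476) (nat_lit 472) (nat_lit 252)))) (XT.nd (nat_lit 156) (nat_lit 0) (nat_lit 76) (XT.nd (nat_lit 78) (nat_lit 0) (nat_lit 76) (XT.lf (nat_lit 76) (nat_lit 6050937256) (nat_lit 0) (nat_lit 10003207882) (nat_lit 1292) (nat_lit 20778653110) (nat_lit 277) (nat_lit 5) (nat_lit 276) (nat_lit 5) (nat_lit 293) (nat_lit 5) (nat_lit 477) (nat_lit 472) (nat_lit 251)) (XT.lf (nat_lit 0) (nat_lit 17326727907) (nat_lit 1216) (nat_lit 12402954056) (nat_lit 1292) (nat_lit 7665929944) (nat_lit 277) (nat_lit 5) (nat_lit 293)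 (nat_lit 5) (nat_lit 294) (nat_lit 5) (nat_lit 478) (nat_lit 472) (nat_lit 250))) (XT.nd (nat_lit 78) (nat_lit 0) (nat_lit 76) (XT.lf (nat_lit 76) (nat_lit 6554968885) (nat_lit 0) (nat_lit 12242692902) (nat_lit 1292) (nat_lit 19172843417) (nat_lit 278) (nat_lit 5) (nat_lit 277) (nat_lit 5) (nat_lit 294) (nat_lit 5) (nat_lit 479) (nat_lit 472) (nat_lit 249)) (XT.lf (nat_lit 0) (nat_lit 20492834219) (nat_lit 1216) (nat_lit 12280974460) (nat_lit 1292) (nat_lit 5783433727) (nat_lit 278) (nat_lit 5) (nat_lit 294) (nat_lit 5) (nat_lit 295) (nat_lit 5) (nat_lit 480) (nat_lit 472) (nat_lit 248))))) (XT.nd (nat_lit 312) (nat_lit 0) (nat_lit 152) (XT.nd (nat_lit 156) (nat_lit 0) (nat_lit 76) (XT.nd (nat_lit 78) (nat_lit 0) (nat_lit 76) (XT.lf (nat_lit 76) (nat_lit 7450563667) (nat_lit 0) (nat_lit 14979356305) (nat_lit 1292) (nat_lit 16725930418) (nat_lit 279) (nat_lit 5) (nat_lit 278) (nat_lit 5) (nat_lit 295) (nat_lit 5)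 (nat_lit 481) (nat_lit 472) (nat_lit 247)) (XT.lf (nat_lit 0) (nat_lit 24580820812) (nat_lit 1216) (nat_lit 11777598622) (nat_lit 1292) (nat_lit 3409326501) (nat_lit 279) (nat_lit 5) (nat_lit 295) (nat_lit 5) (nat_lit 296) (nat_lit 5) (nat_lit 482) (nat_lit 472) (nat_lit 246))) (XT.nd (nat_lit 78) (nat_lit 0) (nat_lit 76) (XT.lf (nat_lit 76) (nat_lit 8769492812) (nat_lit 0) (nat_lit 18257683405) (nat_lit 1292) (nat_lit 13363894691) (nat_lit 280) (nat_lit 5) (nat_lit 279) (nat_lit 5) (nat_lit 296) (nat_lit 5) (nat_lit 483) (nat_lit 472) (nat_lit 245)) (XT.lf (nat_lit 0) (nat_lit 29669102128) (nat_lit 1216) (nat_lit 10861272950) (nat_lit 1292) (nat_lit 499055532) (nat_lit 280) (nat_lit 5) (nat_lit 296) (nat_lit 5) (nat_lit 297) (nat_lit 5) (nat_lit 484) (nat_lit 472) (nat_lit 244)))) (XT.nd (nat_lit 156) (nat_lit 0) (nat_lit 76) (XT.nd (nat_lit 78) (nat_lit 0) (nat_lit 0) (XT.lf (nat_lit 76) (nat_lit 10545609660)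 (nat_lit 0) (nat_lit 22125224375) (nat_lit 1292) (nat_lit 9007690987) (nat_lit 281) (nat_lit 5) (nat_lit 280) (nat_lit 5) (nat_lit 297) (nat_lit 5) (nat_lit 485) (nat_lit 472) (nat_lit 243)) (XT.lf (nat_lit 76) (nat_lit 32816111031) (nat_lit 0) (nat_lit 3054627163) (nat_lit 1292) (nat_lit 6473110817) (nat_lit 281) (nat_lit 5) (nat_lit 280) (nat_lit 5) (nat_lit 297) (nat_lit 5) (nat_lit 486) (nat_lit 472) (nat_lit 242))) (XT.nd (nat_lit 78) (nat_lit 0) (nat_lit 0) (XT.lf (nat_lit 76) (nat_lit 12814959925) (nat_lit 0) (nat_lit 26632810754) (nat_lit 1292) (nat_lit 3572928449) (nat_lit 282) (nat_lit 5) (nat_lit 281) (nat_lit 5) (nat_lit 298) (nat_lit 5) (nat_lit 487) (nat_lit 472) (nat_lit 241)) (XT.lf (nat_lit 76) (nat_lit 35991168552) (nat_lit 0) (nat_lit 7265627585) (nat_lit 1292) (nat_lit 457318483) (nat_lit 282) (nat_lit 5) (nat_lit 281) (nat_lit 5) (nat_lit 298) (nat_lit 5) (nat_lit 488) (nat_lit 472) (nat_lit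 240)))))) (XT.nd (nat_lit 546) (nat_lit 2204) (nat_lit 0) (XT.nd (nat_lit 234) (nat_lit 1216) (nat_lit 0) (XT.nd (nat_lit 78) (nat_lit 760) (nat_lit 0) (XT.lf (nat_lit 0) (nat_lit 2971332510) (nat_lit 1292) (nat_lit 28833448695) (nat_lit 76) (nat_lit 12614560056) (nat_lit 265) (nat_lit 5) (nat_lit 282) (nat_lit 5) (nat_lit 266) (nat_lit 5) (nat_lit 489) (nat_lit 472) (nat_lit 239)) (XT.nd (nat_lit 78) (nat_lit 760) (nat_lit 0) (XT.lf (nat_lit 0) (nat_lit 6642931207) (nat_lit 1292) (nat_lit 5469572598) (nat_lit 76) (nat_lit 33028606968) (nat_lit 265) (nat_lit 5) (nat_lit 282) (nat_lit 5) (nat_lit 266) (nat_lit 5) (nat_lit 490) (nat_lit 472) (nat_lit 238)) (XT.lf (nat_lit 0) (nat_lit 10685943945) (nat_lit 836) (nat_lit 26995398937) (nat_lit 76) (nat_lit 8195352804) (nat_lit 255) (nat_lit 5) (nat_lit 266) (nat_lit 5) (nat_lit 256) (nat_lit 5) (nat_lit 491) (nat_lit 472) (nat_lit 237)))) (XT.nd (nat_lit 156) (nat_lit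 608) (nat_lit 0) (XT.nd (nat_lit 78) (nat_lit 608) (nat_lit 0) (XT.lf (nat_lit 0) (nat_lit 15024606747) (nat_lit 836) (nat_lit 2679603778) (nat_lit 76) (nat_lit 28924907118) (nat_lit 255) (nat_lit 5) (nat_lit 266) (nat_lit 5) (nat_lit 256) (nat_lit 5) (nat_lit 492) (nat_lit 472) (nat_lit 236)) (XT.lf (nat_lit 0) (nat_lit 19741164428) (nat_lit 684) (nat_lit 24617810264) (nat_lit 76) (nat_lit 3037705797) (nat_lit 247) (nat_lit 5) (nat_lit 256) (nat_lit 5) (nat_lit 248) (nat_lit 5) (nat_lit 493) (nat_lit 472) (nat_lit 235))) (XT.nd (nat_lit 78) (nat_lit 0) (nat_lit 0) (XT.lf (nat_lit 0) (nat_lit 706555605) (nat_lit 608) (nat_lit 24100792379) (nat_lit 684) (nat_lit 23373678633) (nat_lit 239) (nat_lit 5) (nat_lit 247) (nat_lit 5) (nat_lit 248) (nat_lit 5) (nat_lit 494) (nat_lit 472) (nat_lit 234)) (XT.lf (nat_lit 0) (nat_lit 27294061663) (nat_lit 608) (nat_lit 2978793830) (nat_lit 684) (nat_lit 18708627744) (nat_lit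 239) (nat_lit 5) (nat_lit 247) (nat_lit 5) (nat_lit 248) (nat_lit 5) (nat_lit 495) (nat_lit 472) (nat_lit 233))))) (XT.nd (nat_lit 312) (nat_lit 1064) (nat_lit 0) (XT.nd (nat_lit 156) (nat_lit 608) (nat_lit 0) (XT.nd (nat_lit 78) (nat_lit 0) (nat_lit 0) (XT.lf (nat_lit 0) (nat_lit 4784882074) (nat_lit 532) (nat_lit 31342719611) (nat_lit 608) (nat_lit 13671593924) (nat_lit 232) (nat_lit 5) (nat_lit 239) (nat_lit 5) (nat_lit 240) (nat_lit 5) (nat_lit 496) (nat_lit 472) (nat_lit 232)) (XT.lf (nat_lit 0) (nat_lit 32464624982) (nat_lit 532) (nat_lit 9940376806) (nat_lit 608) (nat_lit 8229027468) (nat_lit 232) (nat_lit 5) (nat_lit 239) (nat_lit 5) (nat_lit 240) (nat_lit 5) (nat_lit 497) (nat_lit 472) (nat_lit 231))) (XT.nd (nat_lit 78) (nat_lit 76) (nat_lit 0) (XT.lf (nat_lit 0) (nat_lit 9549628592) (nat_lit 532) (nat_lit 39528085283) (nat_lit 608) (nat_lit 2409984577) (nat_lit 225) (nat_lit 5) (nat_lit 232) (nat_lit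 5) (nat_lit 233) (nat_lit 5) (nat_lit 498) (nat_lit 472) (nat_lit 230)) (XT.lf (nat_lit 0) (nat_lit 3796263952) (nat_lit 608) (nat_lit 14024701272) (nat_lit 76) (nat_lit 34536502370) (nat_lit 224) (nat_lit 5) (nat_lit 232) (nat_lit 5) (nat_lit 225) (nat_lit 5) (nat_lit 499) (nat_lit 472) (nat_lit 229)))) (XT.nd (nat_lit 156) (nat_lit 532) (nat_lit 0) (XT.nd (nat_lit 78) (nat_lit 0) (nat_lit 0) (XT.lf (nat_lit 0) (nat_lit 10328553423) (nat_lit 608) (nat_lit 38300011303) (nat_lit 76) (nat_lit 4618400715) (nat_lit 217) (nat_lit 5) (nat_lit 225) (nat_lit 5) (nat_lit 218) (nat_lit 5) (nat_lit 500) (nat_lit 472) (nat_lit 228)) (XT.lf (nat_lit 0) (nat_lit 17375186950) (nat_lit 608) (nat_lit 9262710720) (nat_lit 76) (nat_lit 27515699506) (nat_lit 217) (nat_lit 5) (nat_lit 225) (nat_lit 5) (nat_lit 218) (nat_lit 5) (nat_lit 501) (nat_lit 472) (nat_lit 227))) (XT.nd (nat_lit 78) (nat_lit 0) (nat_lit 0) (XT.lf (nat_lit 0)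 (nat_lit 21055395291) (nat_lit 532) (nat_lit 3779159387) (nat_lit 608) (nat_lit 30246833337) (nat_lit 210) (nat_lit 5) (nat_lit 217) (nat_lit 5) (nat_lit 218) (nat_lit 5) (nat_lit 502) (nat_lit 472) (nat_lit 226)) (XT.lf (nat_lit 0) (nat_lit 32801117641) (nat_lit 608) (nat_lit 3753407074) (nat_lit 76) (nat_lit 19473985640) (nat_lit 210) (nat_lit 5) (nat_lit 218) (nat_lit 5) (nat_lit 211) (nat_lit 5) (nat_lit 503) (nat_lit 472) (nat_lit 225))))))) (XT.nd (nat_lit 1170) (nat_lit 2888) (nat_lit 0) (XT.nd (nat_lit 546) (nat_lit 1976) (nat_lit 0) (XT.nd (nat_lit 234) (nat_lit 912) (nat_lit 0) (XT.nd (nat_lit 78) (nat_lit 532) (nat_lit 0) (XT.lf (nat_lit 0) (nat_lit 27933865084) (nat_lit 456) (nat_lit 13377733970) (nat_lit 532) (nat_lit 15683299859) (nat_lit 204) (nat_lit 5) (nat_lit 210) (nat_lit 5) (nat_lit 211) (nat_lit 5) (nat_lit 504) (nat_lit 472) (nat_lit 224)) (XT.nd (nat_lit 78) (nat_lit 76) (nat_lit 0) (XT.lf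 (nat_lit 0) (nat_lit 2608011653) (nat_lit 456) (nat_lit 47632612254) (nat_lit 532) (nat_lit 7744758543) (nat_lit 198) (nat_lit 5) (nat_lit 204) (nat_lit 5) (nat_lit 205) (nat_lit 5) (nat_lit 505) (nat_lit 472) (nat_lit 223)) (XT.lf (nat_lit 0) (nat_lit 851339703) (nat_lit 532) (nat_lit 23314625260) (nat_lit 76) (nat_lit 34826656265) (nat_lit 197) (nat_lit 5) (nat_lit 204) (nat_lit 5) (nat_lit 198) (nat_lit 5) (nat_lit 506) (nat_lit 472) (nat_lit 222)))) (XT.nd (nat_lit 156) (nat_lit 456) (nat_lit 0) (XT.nd (nat_lit 78) (nat_lit 0) (nat_lit 0) (XT.lf (nat_lit 0) (nat_lit 9644869613) (nat_lit 532) (nat_lit 50202843869) (nat_lit 76) (nat_lit 177207118) (nat_lit 191) (nat_lit 5) (nat_lit 198) (nat_lit 5) (nat_lit 192) (nat_lit 5) (nat_lit 507) (nat_lit 472) (nat_lit 221)) (XT.lf (nat_lit 0) (nat_lit 19178290798) (nat_lit 532) (nat_lit 16893087139) (nat_lit 76) (nat_lit 25002528624) (nat_lit 191) (nat_lit 5) (nat_lit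 198) (nat_lit 5) (nat_lit 192) (nat_lit 5) (nat_lit 508) (nat_lit 472) (nat_lit 220))) (XT.nd (nat_lit 78) (nat_lit 0) (nat_lit 0) (XT.lf (nat_lit 0) (nat_lit 17761415659) (nat_lit 456) (nat_lit 11406115453) (nat_lit 532) (nat_lit 32981736658) (nat_lit 185) (nat_lit 5) (nat_lit 191) (nat_lit 5) (nat_lit 192) (nat_lit 5) (nat_lit 509) (nat_lit 472) (nat_lit 219)) (XT.lf (nat_lit 0) (nat_lit 39762389286) (nat_lit 532) (nat_lit 9587333617) (nat_lit 76) (nat_lit 13897988852) (nat_lit 185) (nat_lit 5) (nat_lit 192) (nat_lit 5) (nat_lit 186) (nat_lit 5) (nat_lit 510) (nat_lit 472) (nat_lit 218))))) (XT.nd (nat_lit 312) (nat_lit 760) (nat_lit 0) (XT.nd (nat_lit 156) (nat_lit 836) (nat_lit 0) (XT.nd (nat_lit 78) (nat_lit 0) (nat_lit 0) (XT.lf (nat_lit 0) (nat_lit 26663452339) (nat_lit 380) (nat_lit 24380001081) (nat_lit 456) (nat_lit 13324604988) (nat_lit 180) (nat_lit 5) (nat_lit 185) (nat_lit 5) (nat_lit 186) (nat_lit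 5) (nat_lit 511) (nat_lit 472) (nat_lit 217)) (XT.lf (nat_lit 0) (nat_lit 62772726327) (nat_lit 456) (nat_lit 1335775261) (nat_lit 76) (nat_lit 1410220716) (nat_lit 180) (nat_lit 5) (nat_lit 186) (nat_lit 5) (nat_lit 181) (nat_lit 5) (nat_lit 512) (nat_lit 472) (nat_lit 216))) (XT.nd (nat_lit 78) (nat_lit 380) (nat_lit 0) (XT.lf (nat_lit 0) (nat_lit 8589128134) (nat_lit 456) (nat_lit 30174590396) (nat_lit 76) (nat_lit 27919891691) (nat_lit 174) (nat_lit 5) (nat_lit 180) (nat_lit 5) (nat_lit 175) (nat_lit 5) (nat_lit 513) (nat_lit 472) (nat_lit 215)) (XT.lf (nat_lit 0) (nat_lit 7756432967) (nat_lit 380) (nat_lit 12540029470) (nat_lit 456) (nat_lit 47583546385) (nat_lit 169) (nat_lit 5) (nat_lit 174) (nat_lit 5) (nat_lit 175) (nat_lit 5) (nat_lit 514) (nat_lit 472) (nat_lit 214)))) (XT.nd (nat_lit 156) (nat_lit 380) (nat_lit 0) (XT.nd (nat_lit 78) (nat_lit 380) (nat_lit 0) (XT.lf (nat_lit 0) (nat_lit 32801013497)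 (nat_lit 456) (nat_lit 21802450021) (nat_lit 76) (nat_lit 14495456095) (nat_lit 169) (nat_lit 5) (nat_lit 175) (nat_lit 5) (nat_lit 170) (nat_lit 5) (nat_lit 515) (nat_lit 472) (nat_lit 213)) (XT.lf (nat_lit 0) (nat_lit 17892211405) (nat_lit 380) (nat_lit 28083840830) (nat_lit 456) (nat_lit 24369485086) (nat_lit 164) (nat_lit 5) (nat_lit 169) (nat_lit 5) (nat_lit 170) (nat_lit 5) (nat_lit 516) (nat_lit 472) (nat_lit 212))) (XT.nd (nat_lit 78) (nat_lit 380) (nat_lit 0) (XT.lf (nat_lit 0) (nat_lit 59223571160) (nat_lit 380) (nat_lit 542147499) (nat_lit 456) (nat_lit 11857253734) (nat_lit 164) (nat_lit 5) (nat_lit 169) (nat_lit 5) (nat_lit 170) (nat_lit 5) (nat_lit 517) (nat_lit 472) (nat_lit 211)) (XT.lf (nat_lit 0) (nat_lit 1562638329) (nat_lit 380) (nat_lit 43781088670) (nat_lit 76) (nat_lit 27578134521) (nat_lit 159) (nat_lit 5) (nat_lit 164) (nat_lit 5) (nat_lit 160) (nat_lit 5) (nat_lit 518) (nat_lit 472) (nat_lit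 210)))))) (XT.nd (nat_lit 624) (nat_lit 1216) (nat_lit 0) (XT.nd (nat_lit 312) (nat_lit 988) (nat_lit 0) (XT.nd (nat_lit 156) (nat_lit 304) (nat_lit 0) (XT.nd (nat_lit 78) (nat_lit 380) (nat_lit 0) (XT.lf (nat_lit 0) (nat_lit 15277864607) (nat_lit 380) (nat_lit 2199703752) (nat_lit 76) (nat_lit 56774695425) (nat_lit 159) (nat_lit 5) (nat_lit 164) (nat_lit 5) (nat_lit 160) (nat_lit 5) (nat_lit 519) (nat_lit 472) (nat_lit 209)) (XT.lf (nat_lit 0) (nat_lit 29913962162) (nat_lit 456) (nat_lit 34285821342) (nat_lit 76) (nat_lit 11407512290) (nat_lit 154) (nat_lit 5) (nat_lit 160) (nat_lit 5) (nat_lit 155) (nat_lit 5) (nat_lit 520) (nat_lit 472) (nat_lit 208))) (XT.nd (nat_lit 78) (nat_lit 0) (nat_lit 0) (XT.lf (nat_lit 0) (nat_lit 9196211105) (nat_lit 304) (nat_lit 36076079350) (nat_lit 380) (nat_lit 31722193982) (nat_lit 150) (nat_lit 5) (nat_lit 154) (nat_lit 5) (nat_lit 155) (nat_lit 5) (nat_lit 521) (nat_lit 472)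 (nat_lit 207)) (XT.lf (nat_lit 0) (nat_lit 54684498144) (nat_lit 304) (nat_lit 6752371708) (nat_lit 380) (nat_lit 16976053957) (nat_lit 150) (nat_lit 5) (nat_lit 154) (nat_lit 5) (nat_lit 155) (nat_lit 5) (nat_lit 522) (nat_lit 472) (nat_lit 206)))) (XT.nd (nat_lit 156) (nat_lit 608) (nat_lit 0) (XT.nd (nat_lit 78) (nat_lit 76) (nat_lit 0) (XT.lf (nat_lit 0) (nat_lit 21863711234) (nat_lit 304) (nat_lit 56657568251) (nat_lit 380) (nat_lit 1339590192) (nat_lit 146) (nat_lit 5) (nat_lit 150) (nat_lit 5) (nat_lit 151) (nat_lit 5) (nat_lit 523) (nat_lit 472) (nat_lit 205)) (XT.lf (nat_lit 0) (nat_lit 14785971834) (nat_lit 380) (nat_lit 12247235061) (nat_lit 76) (nat_lit 54305544690) (nat_lit 145) (nat_lit 5) (nat_lit 150) (nat_lit 5) (nat_lit 146) (nat_lit 5) (nat_lit 524) (nat_lit 472) (nat_lit 204))) (XT.nd (nat_lit 78) (nat_lit 304) (nat_lit 0) (XT.lf (nat_lit 0) (nat_lit 31746436770) (nat_lit 380) (nat_lit 47332572858)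 (nat_lit 76) (nat_lit 3770220705) (nat_lit 141) (nat_lit 5) (nat_lit 146) (nat_lit 5) (nat_lit 142) (nat_lit 5) (nat_lit 525) (nat_lit 472) (nat_lit 203)) (XT.lf (nat_lit 0) (nat_lit 299166123) (nat_lit 304) (nat_lit 49311309256) (nat_lit 380) (nat_lit 34782705361) (nat_lit 137) (nat_lit 5) (nat_lit 141) (nat_lit 5) (nat_lit 142) (nat_lit 5) (nat_lit 526) (nat_lit 472) (nat_lit 202))))) (XT.nd (nat_lit 312) (nat_lit 608) (nat_lit 0) (XT.nd (nat_lit 156) (nat_lit 304) (nat_lit 0) (XT.nd (nat_lit 78) (nat_lit 304) (nat_lit 0) (XT.lf (nat_lit 0) (nat_lit 50329136898) (nat_lit 304) (nat_lit 18158605282) (nat_lit 380) (nat_lit 17481388359) (nat_lit 137) (nat_lit 5) (nat_lit 141) (nat_lit 5) (nat_lit 142) (nat_lit 5) (nat_lit 527) (nat_lit 472) (nat_lit 201)) (XT.lf (nat_lit 0) (nat_lit 606849301) (nat_lit 304) (nat_lit 73176106328) (nat_lit 76) (nat_lit 13801070665) (nat_lit 133) (nat_lit 5) (nat_lit 137) (nat_lit 5)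 (nat_lit 134) (nat_lit 5) (nat_lit 528) (nat_lit 472) (nat_lit 200))) (XT.nd (nat_lit 78) (nat_lit 304) (nat_lit 0) (XT.lf (nat_lit 0) (nat_lit 19428981031) (nat_lit 304) (nat_lit 22906132951) (nat_lit 76) (nat_lit 46890784362) (nat_lit 133) (nat_lit 5) (nat_lit 137) (nat_lit 5) (nat_lit 134) (nat_lit 5) (nat_lit 529) (nat_lit 472) (nat_lit 199)) (XT.lf (nat_lit 0) (nat_lit 29445575235) (nat_lit 304) (nat_lit 9652629006) (nat_lit 380) (nat_lit 51810349568) (nat_lit 129) (nat_lit 5) (nat_lit 133) (nat_lit 5) (nat_lit 134) (nat_lit 5) (nat_lit 530) (nat_lit 472) (nat_lit 198)))) (XT.nd (nat_lit 156) (nat_lit 380) (nat_lit 0) (XT.nd (nat_lit 78) (nat_lit 228) (nat_lit 0) (XT.lf (nat_lit 0) (nat_lit 59821287807) (nat_lit 380) (nat_lit 9031413473) (nat_lit 76) (nat_lit 23775074224) (nat_lit 129) (nat_lit 5) (nat_lit 134) (nat_lit 5) (nat_lit 130) (nat_lit 5) (nat_lit 531) (nat_lit 472) (nat_lit 197)) (XT.lf (nat_lit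 0) (nat_lit 45769728678) (nat_lit 228) (nat_lit 35931274820) (nat_lit 304) (nat_lit 12681522237) (nat_lit 126) (nat_lit 5) (nat_lit 129) (nat_lit 5) (nat_lit 130) (nat_lit 5) (nat_lit 532) (nat_lit 472) (nat_lit 196))) (XT.nd (nat_lit 78) (nat_lit 0) (nat_lit 0) (XT.lf (nat_lit 0) (nat_lit 6255737847) (nat_lit 304) (nat_lit 1786066186) (nat_lit 380) (nat_lit 88141244627) (nat_lit 121) (nat_lit 5) (nat_lit 125) (nat_lit 5) (nat_lit 126) (nat_lit 5) (nat_lit 533) (nat_lit 472) (nat_lit 195)) (XT.lf (nat_lit 0) (nat_lit 29948011152) (nat_lit 380) (nat_lit 34708279154) (nat_lit 76) (nat_lit 33353048232) (nat_lit 121) (nat_lit 5) (nat_lit 126) (nat_lit 5) (nat_lit 122) (nat_lit 5) (nat_lit 534) (nat_lit 472) (nat_lit 194))))))))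
noncomputable def xc231 : XT := (XT.nd (nat_lit 59670) (nat_lit 0) (nat_lit 1900) (XT.nd (nat_lit 58500) (nat_lit 0) (nat_lit 9424) (XT.nd (nat_lit 57876) (nat_lit 0) (nat_lit 12692) (XT.nd (nat_lit 390) (nat_lit 532) (nat_lit 0) (XT.nd (nat_lit 78) (nat_lit 228) (nat_lit 0) (XT.lf (nat_lit 0) (nat_lit 22589530496) (nat_lit 228) (nat_lit 30156129595) (nat_lit 304) (nat_lit 47137729421) (nat_lit 118) (nat_lit 5) (nat_lit 121) (nat_lit 5) (nat_lit 122) (nat_lit 5) (nat_lit 535) (nat_lit 472) (nat_lit 193)) (XT.nd (nat_lit 78) (nat_lit 228) (nat_lit 0) (XT.lf (nat_lit 0) (nat_lit 76632332938) (nat_lit 304) (nat_lit 19541481095) (nat_lit 76) (nat_lit 5627695211) (nat_lit 118) (nat_lit 5) (nat_lit 122) (nat_lit 5) (nat_lit 119) (nat_lit 5) (nat_lit 536) (nat_lit 472) (nat_lit 192)) (XT.lf (nat_lit 0) (nat_lit 40432995670) (nat_lit 228) (nat_lit 61489301205) (nat_lit 304) (nat_lit 1834275028) (nat_lit 115) (nat_lit 5)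 (nat_lit 118) (nat_lit 5) (nat_lit 119) (nat_lit 5) (nat_lit 537) (nat_lit 472) (nat_lit 191)))) (XT.nd (nat_lit 57330) (nat_lit 0) (nat_lit 12616) (XT.nd (nat_lit 57252) (nat_lit 0) (nat_lit 12616) (XT.lf (nat_lit 0) (nat_lit 14241039262) (nat_lit 228) (nat_lit 59240656743) (nat_lit 304) (nat_lit 36404965541) (nat_lit 108) (nat_lit 5) (nat_lit 111) (nat_lit 5) (nat_lit 112) (nat_lit 5) (nat_lit 540) (nat_lit 472) (nat_lit 188)) (XT.lf (nat_lit 0) (nat_lit 6568901618) (nat_lit 1292) (nat_lit 5516741178) (nat_lit 1292) (nat_lit 5516741178) (nat_lit 274) (nat_lit 3) (nat_lit 291) (nat_lit 3) (nat_lit 291) (nat_lit 5) (nat_lit 473) (nat_lit 473) (nat_lit 254))) (XT.nd (nat_lit 78) (nat_lit 0) (nat_lit 76) (XT.lf (nat_lit 76) (nat_lit 6339422415) (nat_lit 0) (nat_lit 7108772777) (nat_lit 1292) (nat_lit 22281232342) (nat_lit 275) (nat_lit 5) (nat_lit 274) (nat_lit 3) (nat_lit 291) (nat_lit 5) (nat_lit 474) (nat_lit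 473) (nat_lit 253)) (XT.lf (nat_lit 0) (nat_lit 13978975078) (nat_lit 1216) (nat_lit 11909645202) (nat_lit 1292) (nat_lit 10374874815) (nat_lit 275) (nat_lit 5) (nat_lit 291) (nat_lit 5) (nat_lit 292) (nat_lit 5) (nat_lit 475) (nat_lit 473) (nat_lit 252))))) (XT.nd (nat_lit 312) (nat_lit 0) (nat_lit 152) (XT.nd (nat_lit 156) (nat_lit 0) (nat_lit 76) (XT.nd (nat_lit 78) (nat_lit 0) (nat_lit 76) (XT.lf (nat_lit 76) (nat_lit 6143511364) (nat_lit 0) (nat_lit 8509620254) (nat_lit 1292) (nat_lit 22156629932) (nat_lit 276) (nat_lit 5) (nat_lit 275) (nat_lit 5) (nat_lit 292) (nat_lit 5) (nat_lit 476) (nat_lit 473) (nat_lit 251)) (XT.lf (nat_lit 0) (nat_lit 15557306761) (nat_lit 1216) (nat_lit 12479037803) (nat_lit 1292) (nat_lit 9329778064) (nat_lit 276) (nat_lit 5) (nat_lit 292) (nat_lit 5) (nat_lit 293) (nat_lit 5) (nat_lit 477) (nat_lit 473) (nat_lit 250))) (XT.nd (nat_lit 78) (nat_lit 0) (nat_lit 76) (XT.lf (nat_lit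 76) (nat_lit 6291166584) (nat_lit 0) (nat_lit 10340294487) (nat_lit 1292) (nat_lit 21303428283) (nat_lit 277) (nat_lit 5) (nat_lit 276) (nat_lit 5) (nat_lit 293) (nat_lit 5) (nat_lit 478) (nat_lit 473) (nat_lit 249)) (XT.lf (nat_lit 0) (nat_lit 17939088974) (nat_lit 1216) (nat_lit 12714897411) (nat_lit 1292) (nat_lit 7860695655) (nat_lit 277) (nat_lit 5) (nat_lit 293) (nat_lit 5) (nat_lit 294) (nat_lit 5) (nat_lit 479) (nat_lit 473) (nat_lit 248)))) (XT.nd (nat_lit 156) (nat_lit 0) (nat_lit 76) (XT.nd (nat_lit 78) (nat_lit 0) (nat_lit 76) (XT.lf (nat_lit 76) (nat_lit 6811173559) (nat_lit 0) (nat_lit 12640853896) (nat_lit 1292) (nat_lit 19654859006) (nat_lit 278) (nat_lit 5) (nat_lit 277) (nat_lit 5) (nat_lit 294) (nat_lit 5) (nat_lit 480) (nat_lit 473) (nat_lit 247)) (XT.lf (nat_lit 0) (nat_lit 21195132814) (nat_lit 1216) (nat_lit 12588640251) (nat_lit 1292) (nat_lit 5927540988) (nat_lit 278) (nat_lit 5) (nat_lit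 294) (nat_lit 5) (nat_lit 295) (nat_lit 5) (nat_lit 481) (nat_lit 473) (nat_lit 246))) (XT.nd (nat_lit 78) (nat_lit 0) (nat_lit 76) (XT.lf (nat_lit 76) (nat_lit 7734248300) (nat_lit 0) (nat_lit 15454112269) (nat_lit 1292) (nat_lit 17139579413) (nat_lit 279) (nat_lit 5) (nat_lit 278) (nat_lit 5) (nat_lit 295) (nat_lit 5) (nat_lit 482) (nat_lit 473) (nat_lit 245)) (XT.lf (nat_lit 0) (nat_lit 25401060073) (nat_lit 1216) (nat_lit 12069763897) (nat_lit 1292) (nat_lit 3487450847) (nat_lit 279) (nat_lit 5) (nat_lit 295) (nat_lit 5) (nat_lit 296) (nat_lit 5) (nat_lit 483) (nat_lit 473) (nat_lit 244)))))) (XT.nd (nat_lit 546) (nat_lit 2508) (nat_lit 0) (XT.nd (nat_lit 234) (nat_lit 1064) (nat_lit 0) (XT.nd (nat_lit 78) (nat_lit 0) (nat_lit 76) (XT.lf (nat_lit 76) (nat_lit 9093140646) (nat_lit 0) (nat_lit 18825835586) (nat_lit 1292) (nat_lit 13681378759) (nat_lit 280) (nat_lit 5) (nat_lit 279) (nat_lit 5) (nat_lit 296) (nat_lit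 5) (nat_lit 484) (nat_lit 473) (nat_lit 243)) (XT.nd (nat_lit 78) (nat_lit 0) (nat_lit 0) (XT.lf (nat_lit 0) (nat_lit 30637610554) (nat_lit 1216) (nat_lit 11125744731) (nat_lit 1292) (nat_lit 494587219) (nat_lit 280) (nat_lit 5) (nat_lit 296) (nat_lit 5) (nat_lit 297) (nat_lit 5) (nat_lit 485) (nat_lit 473) (nat_lit 242)) (XT.lf (nat_lit 76) (nat_lit 10922742726) (nat_lit 0) (nat_lit 22804951276) (nat_lit 1292) (nat_lit 9198867283) (nat_lit 281) (nat_lit 5) (nat_lit 280) (nat_lit 5) (nat_lit 297) (nat_lit 5) (nat_lit 486) (nat_lit 473) (nat_lit 241)))) (XT.nd (nat_lit 156) (nat_lit 1140) (nat_lit 0) (XT.nd (nat_lit 78) (nat_lit 0) (nat_lit 76) (XT.lf (nat_lit 76) (nat_lit 33859589290) (nat_lit 0) (nat_lit 3161770997) (nat_lit 1292) (nat_lit 6590552264) (nat_lit 281) (nat_lit 5) (nat_lit 280) (nat_lit 5) (nat_lit 297) (nat_lit 5) (nat_lit 487) (nat_lit 473) (nat_lit 240)) (XT.lf (nat_lit 76) (nat_lit 13260202704)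 (nat_lit 0) (nat_lit 27443770826) (nat_lit 1292) (nat_lit 3605147040) (nat_lit 282) (nat_lit 5) (nat_lit 281) (nat_lit 5) (nat_lit 298) (nat_lit 5) (nat_lit 488) (nat_lit 473) (nat_lit 239))) (XT.nd (nat_lit 78) (nat_lit 1216) (nat_lit 0) (XT.lf (nat_lit 76) (nat_lit 37129926892) (nat_lit 0) (nat_lit 7495223355) (nat_lit 1292) (nat_lit 398252345) (nat_lit 282) (nat_lit 5) (nat_lit 281) (nat_lit 5) (nat_lit 298) (nat_lit 5) (nat_lit 489) (nat_lit 473) (nat_lit 238)) (XT.lf (nat_lit 0) (nat_lit 3130238648) (nat_lit 1292) (nat_lit 29636378805) (nat_lit 76) (nat_lit 12983196017) (nat_lit 265) (nat_lit 5) (nat_lit 282) (nat_lit 5) (nat_lit 266) (nat_lit 5) (nat_lit 490) (nat_lit 473) (nat_lit 237))))) (XT.nd (nat_lit 312) (nat_lit 1140) (nat_lit 0) (XT.nd (nat_lit 156) (nat_lit 608) (nat_lit 0) (XT.nd (nat_lit 78) (nat_lit 760) (nat_lit 0) (XT.lf (nat_lit 0) (nat_lit 6909953282) (nat_lit 1292) (nat_lit 5573394386) (nat_lit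 76) (nat_lit 34009949799) (nat_lit 265) (nat_lit 5) (nat_lit 282) (nat_lit 5) (nat_lit 266) (nat_lit 5) (nat_lit 491) (nat_lit 473) (nat_lit 236)) (XT.lf (nat_lit 0) (nat_lit 11072793168) (nat_lit 836) (nat_lit 27743518101) (nat_lit 76) (nat_lit 8434682981) (nat_lit 255) (nat_lit 5) (nat_lit 266) (nat_lit 5) (nat_lit 256) (nat_lit 5) (nat_lit 492) (nat_lit 473) (nat_lit 235))) (XT.nd (nat_lit 78) (nat_lit 608) (nat_lit 0) (XT.lf (nat_lit 0) (nat_lit 15539685633) (nat_lit 836) (nat_lit 2700047421) (nat_lit 76) (nat_lit 29786314131) (nat_lit 255) (nat_lit 5) (nat_lit 266) (nat_lit 5) (nat_lit 256) (nat_lit 5) (nat_lit 493) (nat_lit 473) (nat_lit 234)) (XT.lf (nat_lit 0) (nat_lit 20396401239) (nat_lit 684) (nat_lit 25295047929) (nat_lit 76) (nat_lit 3125228312) (nat_lit 247) (nat_lit 5) (nat_lit 256) (nat_lit 5) (nat_lit 248) (nat_lit 5) (nat_lit 494) (nat_lit 473) (nat_lit 233)))) (XT.nd (nat_lit 156) (nat_lit 532)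 (nat_lit 0) (XT.nd (nat_lit 78) (nat_lit 0) (nat_lit 0) (XT.lf (nat_lit 0) (nat_lit 788447969) (nat_lit 608) (nat_lit 24824870771) (nat_lit 684) (nat_lit 24011273189) (nat_lit 239) (nat_lit 5) (nat_lit 247) (nat_lit 5) (nat_lit 248) (nat_lit 5) (nat_lit 495) (nat_lit 473) (nat_lit 232)) (XT.lf (nat_lit 0) (nat_lit 28171811373) (nat_lit 608) (nat_lit 3069181549) (nat_lit 684) (nat_lit 19208123662) (nat_lit 239) (nat_lit 5) (nat_lit 247) (nat_lit 5) (nat_lit 248) (nat_lit 5) (nat_lit 496) (nat_lit 473) (nat_lit 231))) (XT.nd (nat_lit 78) (nat_lit 0) (nat_lit 0) (XT.lf (nat_lit 0) (nat_lit 4988581814) (nat_lit 532) (nat_lit 32281622192) (nat_lit 608) (nat_lit 14021192012) (nat_lit 232) (nat_lit 5) (nat_lit 239) (nat_lit 5) (nat_lit 240) (nat_lit 5) (nat_lit 497) (nat_lit 473) (nat_lit 230)) (XT.lf (nat_lit 0) (nat_lit 33496964971) (nat_lit 532) (nat_lit 10237249268) (nat_lit 608) (nat_lit 8417112147) (nat_lit 232)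 (nat_lit 5) (nat_lit 239) (nat_lit 5) (nat_lit 240) (nat_lit 5) (nat_lit 498) (nat_lit 473) (nat_lit 229))))))) (XT.nd (nat_lit 1170) (nat_lit 3572) (nat_lit 0) (XT.nd (nat_lit 546) (nat_lit 1824) (nat_lit 0) (XT.nd (nat_lit 234) (nat_lit 988) (nat_lit 0) (XT.nd (nat_lit 78) (nat_lit 608) (nat_lit 0) (XT.lf (nat_lit 0) (nat_lit 9895640233) (nat_lit 532) (nat_lit 40710390109) (nat_lit 608) (nat_lit 2424607982) (nat_lit 225) (nat_lit 5) (nat_lit 232) (nat_lit 5) (nat_lit 233) (nat_lit 5) (nat_lit 499) (nat_lit 473) (nat_lit 228)) (XT.nd (nat_lit 78) (nat_lit 532) (nat_lit 0) (XT.lf (nat_lit 0) (nat_lit 3965055427) (nat_lit 608) (nat_lit 14386549644) (nat_lit 76) (nat_lit 35574928577) (nat_lit 224) (nat_lit 5) (nat_lit 232) (nat_lit 5) (nat_lit 225) (nat_lit 5) (nat_lit 500) (nat_lit 473) (nat_lit 227)) (XT.lf (nat_lit 0) (nat_lit 10692317790) (nat_lit 608) (nat_lit 39389112633) (nat_lit 76) (nat_lit 4761316197) (nat_lit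 217) (nat_lit 5) (nat_lit 225) (nat_lit 5) (nat_lit 218) (nat_lit 5) (nat_lit 501) (nat_lit 473) (nat_lit 226)))) (XT.nd (nat_lit 156) (nat_lit 456) (nat_lit 0) (XT.nd (nat_lit 78) (nat_lit 532) (nat_lit 0) (XT.lf (nat_lit 0) (nat_lit 17948780194) (nat_lit 608) (nat_lit 9482437663) (nat_lit 76) (nat_lit 28345406861) (nat_lit 217) (nat_lit 5) (nat_lit 225) (nat_lit 5) (nat_lit 218) (nat_lit 5) (nat_lit 502) (nat_lit 473) (nat_lit 225)) (XT.lf (nat_lit 0) (nat_lit 21744641387) (nat_lit 532) (nat_lit 3886316705) (nat_lit 608) (nat_lit 31101320614) (nat_lit 210) (nat_lit 5) (nat_lit 217) (nat_lit 5) (nat_lit 218) (nat_lit 5) (nat_lit 503) (nat_lit 473) (nat_lit 224))) (XT.nd (nat_lit 78) (nat_lit 456) (nat_lit 0) (XT.lf (nat_lit 0) (nat_lit 33835079850) (nat_lit 608) (nat_lit 3808654509) (nat_lit 76) (nat_lit 20064123790) (nat_lit 210) (nat_lit 5) (nat_lit 218) (nat_lit 5) (nat_lit 211) (nat_lit 5) (nat_lit 504) (nat_lit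 473) (nat_lit 223)) (XT.lf (nat_lit 0) (nat_lit 28828673512) (nat_lit 456) (nat_lit 13771293884) (nat_lit 532) (nat_lit 16103298499) (nat_lit 204) (nat_lit 5) (nat_lit 210) (nat_lit 5) (nat_lit 211) (nat_lit 5) (nat_lit 505) (nat_lit 473) (nat_lit 222))))) (XT.nd (nat_lit 312) (nat_lit 836) (nat_lit 0) (XT.nd (nat_lit 156) (nat_lit 456) (nat_lit 0) (XT.nd (nat_lit 78) (nat_lit 76) (nat_lit 0) (XT.lf (nat_lit 0) (nat_lit 2743879187) (nat_lit 456) (nat_lit 49052182511) (nat_lit 532) (nat_lit 7927426552) (nat_lit 198) (nat_lit 5) (nat_lit 204) (nat_lit 5) (nat_lit 205) (nat_lit 5) (nat_lit 506) (nat_lit 473) (nat_lit 221)) (XT.lf (nat_lit 0) (nat_lit 924166705) (nat_lit 532) (nat_lit 23957165615) (nat_lit 76) (nat_lit 35879640362) (nat_lit 197) (nat_lit 5) (nat_lit 204) (nat_lit 5) (nat_lit 198) (nat_lit 5) (nat_lit 507) (nat_lit 473) (nat_lit 220))) (XT.nd (nat_lit 78) (nat_lit 0) (nat_lit 0) (XT.lf (nat_lit 0) (nat_lit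 9980761870) (nat_lit 532) (nat_lit 51651281811) (nat_lit 76) (nat_lit 192219823) (nat_lit 191) (nat_lit 5) (nat_lit 198) (nat_lit 5) (nat_lit 192) (nat_lit 5) (nat_lit 508) (nat_lit 473) (nat_lit 219)) (XT.lf (nat_lit 0) (nat_lit 19798829977) (nat_lit 532) (nat_lit 17343911429) (nat_lit 76) (nat_lit 25762018552) (nat_lit 191) (nat_lit 5) (nat_lit 198) (nat_lit 5) (nat_lit 192) (nat_lit 5) (nat_lit 509) (nat_lit 473) (nat_lit 218)))) (XT.nd (nat_lit 156) (nat_lit 380) (nat_lit 0) (XT.nd (nat_lit 78) (nat_lit 0) (nat_lit 0) (XT.lf (nat_lit 0) (nat_lit 18349677744) (nat_lit 456) (nat_lit 11737286256) (nat_lit 532) (nat_lit 33925441743) (nat_lit 185) (nat_lit 5) (nat_lit 191) (nat_lit 5) (nat_lit 192) (nat_lit 5) (nat_lit 510) (nat_lit 473) (nat_lit 217)) (XT.lf (nat_lit 0) (nat_lit 40998477290) (nat_lit 532) (nat_lit 9819949921) (nat_lit 76) (nat_lit 14325411784) (nat_lit 185) (nat_lit 5) (nat_lit 192) (nat_lit 5)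 (nat_lit 186) (nat_lit 5) (nat_lit 511) (nat_lit 473) (nat_lit 216))) (XT.nd (nat_lit 78) (nat_lit 0) (nat_lit 0) (XT.lf (nat_lit 0) (nat_lit 27517820361) (nat_lit 380) (nat_lit 25099417805) (nat_lit 456) (nat_lit 13680580159) (nat_lit 180) (nat_lit 5) (nat_lit 185) (nat_lit 5) (nat_lit 186) (nat_lit 5) (nat_lit 512) (nat_lit 473) (nat_lit 215)) (XT.lf (nat_lit 0) (nat_lit 64697263781) (nat_lit 456) (nat_lit 1321837746) (nat_lit 76) (nat_lit 1463934591) (nat_lit 180) (nat_lit 5) (nat_lit 186) (nat_lit 5) (nat_lit 181) (nat_lit 5) (nat_lit 513) (nat_lit 473) (nat_lit 214)))))) (XT.nd (nat_lit 624) (nat_lit 1596) (nat_lit 0) (XT.nd (nat_lit 312) (nat_lit 760) (nat_lit 0) (XT.nd (nat_lit 156) (nat_lit 380) (nat_lit 0) (XT.nd (nat_lit 78) (nat_lit 380) (nat_lit 0) (XT.lf (nat_lit 0) (nat_lit 8887876669) (nat_lit 456) (nat_lit 31025522613) (nat_lit 76) (nat_lit 28769480232) (nat_lit 174) (nat_lit 5) (nat_lit 180) (nat_lit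 5) (nat_lit 175) (nat_lit 5) (nat_lit 514) (nat_lit 473) (nat_lit 213)) (XT.lf (nat_lit 0) (nat_lit 8042899044) (nat_lit 380) (nat_lit 12902852506) (nat_lit 456) (nat_lit 48969439104) (nat_lit 169) (nat_lit 5) (nat_lit 174) (nat_lit 5) (nat_lit 175) (nat_lit 5) (nat_lit 515) (nat_lit 473) (nat_lit 212))) (XT.nd (nat_lit 78) (nat_lit 380) (nat_lit 0) (XT.lf (nat_lit 0) (nat_lit 33824387432) (nat_lit 456) (nat_lit 22403258546) (nat_lit 76) (nat_lit 14943054533) (nat_lit 169) (nat_lit 5) (nat_lit 175) (nat_lit 5) (nat_lit 170) (nat_lit 5) (nat_lit 516) (nat_lit 473) (nat_lit 211)) (XT.lf (nat_lit 0) (nat_lit 18481720517) (nat_lit 380) (nat_lit 28912317884) (nat_lit 456) (nat_lit 25060697704) (nat_lit 164) (nat_lit 5) (nat_lit 169) (nat_lit 5) (nat_lit 170) (nat_lit 5) (nat_lit 517) (nat_lit 473) (nat_lit 210)))) (XT.nd (nat_lit 156) (nat_lit 380) (nat_lit 0) (XT.nd (nat_lit 78) (nat_lit 380) (nat_lit 0) (XT.lf (nat_lit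 0) (nat_lit 61051484867) (nat_lit 380) (nat_lit 544782631) (nat_lit 456) (nat_lit 12174260731) (nat_lit 164) (nat_lit 5) (nat_lit 169) (nat_lit 5) (nat_lit 170) (nat_lit 5) (nat_lit 518) (nat_lit 473) (nat_lit 209)) (XT.lf (nat_lit 0) (nat_lit 1646997539) (nat_lit 380) (nat_lit 45042072688) (nat_lit 76) (nat_lit 28419317065) (nat_lit 159) (nat_lit 5) (nat_lit 164) (nat_lit 5) (nat_lit 160) (nat_lit 5) (nat_lit 519) (nat_lit 473) (nat_lit 208))) (XT.nd (nat_lit 78) (nat_lit 380) (nat_lit 0) (XT.lf (nat_lit 0) (nat_lit 15772588954) (nat_lit 380) (nat_lit 2214773852) (nat_lit 76) (nat_lit 58491371733) (nat_lit 159) (nat_lit 5) (nat_lit 164) (nat_lit 5) (nat_lit 160) (nat_lit 5) (nat_lit 520) (nat_lit 473) (nat_lit 207)) (XT.lf (nat_lit 0) (nat_lit 30847334689) (nat_lit 456) (nat_lit 35263034879) (nat_lit 76) (nat_lit 11764061143) (nat_lit 154) (nat_lit 5) (nat_lit 160) (nat_lit 5) (nat_lit 155) (nat_lit 5) (nat_lit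 521) (nat_lit 473) (nat_lit 206))))) (XT.nd (nat_lit 312) (nat_lit 912) (nat_lit 0) (XT.nd (nat_lit 156) (nat_lit 380) (nat_lit 0) (XT.nd (nat_lit 78) (nat_lit 0) (nat_lit 0) (XT.lf (nat_lit 0) (nat_lit 9522955002) (nat_lit 304) (nat_lit 37142899510) (nat_lit 380) (nat_lit 32637397407) (nat_lit 150) (nat_lit 5) (nat_lit 154) (nat_lit 5) (nat_lit 155) (nat_lit 5) (nat_lit 522) (nat_lit 473) (nat_lit 205)) (XT.lf (nat_lit 0) (nat_lit 56374409363) (nat_lit 304) (nat_lit 6939930995) (nat_lit 380) (nat_lit 17449935193) (nat_lit 150) (nat_lit 5) (nat_lit 154) (nat_lit 5) (nat_lit 155) (nat_lit 5) (nat_lit 523) (nat_lit 473) (nat_lit 204))) (XT.nd (nat_lit 78) (nat_lit 76) (nat_lit 0) (XT.lf (nat_lit 0) (nat_lit 22569397691) (nat_lit 304) (nat_lit 58341502253) (nat_lit 380) (nat_lit 1344771468) (nat_lit 146) (nat_lit 5) (nat_lit 150) (nat_lit 5) (nat_lit 151) (nat_lit 5) (nat_lit 524) (nat_lit 473) (nat_lit 203)) (XT.lf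 (nat_lit 0) (nat_lit 15262874609) (nat_lit 380) (nat_lit 12565658936) (nat_lit 76) (nat_lit 55949376268) (nat_lit 145) (nat_lit 5) (nat_lit 150) (nat_lit 5) (nat_lit 146) (nat_lit 5) (nat_lit 525) (nat_lit 473) (nat_lit 202)))) (XT.nd (nat_lit 156) (nat_lit 304) (nat_lit 0) (XT.nd (nat_lit 78) (nat_lit 304) (nat_lit 0) (XT.lf (nat_lit 0) (nat_lit 32731800092) (nat_lit 380) (nat_lit 48703198989) (nat_lit 76) (nat_lit 3898714578) (nat_lit 141) (nat_lit 5) (nat_lit 146) (nat_lit 5) (nat_lit 142) (nat_lit 5) (nat_lit 526) (nat_lit 473) (nat_lit 201)) (XT.lf (nat_lit 0) (nat_lit 357008328) (nat_lit 304) (nat_lit 50774260976) (nat_lit 380) (nat_lit 35792728122) (nat_lit 137) (nat_lit 5) (nat_lit 141) (nat_lit 5) (nat_lit 142) (nat_lit 5) (nat_lit 527) (nat_lit 473) (nat_lit 200))) (XT.nd (nat_lit 78) (nat_lit 304) (nat_lit 0) (XT.lf (nat_lit 0) (nat_lit 51886454909) (nat_lit 304) (nat_lit 18687453190) (nat_lit 380) (nat_lit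 17973346126) (nat_lit 137) (nat_lit 5) (nat_lit 141) (nat_lit 5) (nat_lit 142) (nat_lit 5) (nat_lit 528) (nat_lit 473) (nat_lit 199)) (XT.lf (nat_lit 0) (nat_lit 656590795) (nat_lit 304) (nat_lit 75322989669) (nat_lit 76) (nat_lit 14231016560) (nat_lit 133) (nat_lit 5) (nat_lit 137) (nat_lit 5) (nat_lit 134) (nat_lit 5) (nat_lit 529) (nat_lit 473) (nat_lit 198))))))))
noncomputable def xc232 : XT := (XT.nd (nat_lit 59826) (nat_lit 0) (nat_lit 2660) (XT.nd (nat_lit 58656) (nat_lit 0) (nat_lit 10336) (XT.nd (nat_lit 780) (nat_lit 532) (nat_lit 0) (XT.nd (nat_lit 234) (nat_lit 836) (nat_lit 0) (XT.nd (nat_lit 78) (nat_lit 304) (nat_lit 0) (XT.lf (nat_lit 0) (nat_lit 20042467952) (nat_lit 304) (nat_lit 23546326795) (nat_lit 76) (nat_lit 48312958161) (nat_lit 133) (nat_lit 5) (nat_lit 137) (nat_lit 5) (nat_lit 134) (nat_lit 5) (nat_lit 530) (nat_lit 473) (nat_lit 197)) (XT.nd (nat_lit 78) (nat_lit 0) (nat_lit 0) (XT.lf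 (nat_lit 0) (nat_lit 30375471949) (nat_lit 304) (nat_lit 9925851407) (nat_lit 380) (nat_lit 53333578128) (nat_lit 129) (nat_lit 5) (nat_lit 133) (nat_lit 5) (nat_lit 134) (nat_lit 5) (nat_lit 531) (nat_lit 473) (nat_lit 196)) (XT.lf (nat_lit 0) (nat_lit 61645373253) (nat_lit 380) (nat_lit 9256451831) (nat_lit 76) (nat_lit 24503896641) (nat_lit 129) (nat_lit 5) (nat_lit 134) (nat_lit 5) (nat_lit 130) (nat_lit 5) (nat_lit 532) (nat_lit 473) (nat_lit 195)))) (XT.nd (nat_lit 156) (nat_lit 228) (nat_lit 0) (XT.nd (nat_lit 78) (nat_lit 380) (nat_lit 0) (XT.lf (nat_lit 0) (nat_lit 47188274545) (nat_lit 228) (nat_lit 36992785128) (nat_lit 304) (nat_lit 13032067518) (nat_lit 126) (nat_lit 5) (nat_lit 129) (nat_lit 5) (nat_lit 130) (nat_lit 5) (nat_lit 533) (nat_lit 473) (nat_lit 194)) (XT.lf (nat_lit 0) (nat_lit 6488999504) (nat_lit 304) (nat_lit 1822959916) (nat_lit 380) (nat_lit 90755710330) (nat_lit 121) (nat_lit 5)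 (nat_lit 125) (nat_lit 5) (nat_lit 126) (nat_lit 5) (nat_lit 534) (nat_lit 473) (nat_lit 193))) (XT.nd (nat_lit 78) (nat_lit 228) (nat_lit 0) (XT.lf (nat_lit 0) (nat_lit 30874666713) (nat_lit 380) (nat_lit 35704576584) (nat_lit 76) (nat_lit 34369525706) (nat_lit 121) (nat_lit 5) (nat_lit 126) (nat_lit 5) (nat_lit 122) (nat_lit 5) (nat_lit 535) (nat_lit 473) (nat_lit 192)) (XT.lf (nat_lit 0) (nat_lit 23311726660) (nat_lit 228) (nat_lit 31044124517) (nat_lit 304) (nat_lit 48523202241) (nat_lit 118) (nat_lit 5) (nat_lit 121) (nat_lit 5) (nat_lit 122) (nat_lit 5) (nat_lit 536) (nat_lit 473) (nat_lit 191))))) (XT.nd (nat_lit 57564) (nat_lit 0) (nat_lit 12464) (XT.nd (nat_lit 57408) (nat_lit 0) (nat_lit 12388) (XT.nd (nat_lit 57330) (nat_lit 0) (nat_lit 12388) (XT.lf (nat_lit 0) (nat_lit 48575716779) (nat_lit 304) (nat_lit 49813215881) (nat_lit 76) (nat_lit 12642238198) (nat_lit 111) (nat_lit 5) (nat_lit 115) (nat_lit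 5) (nat_lit 112) (nat_lit 5) (nat_lit 540) (nat_lit 473) (nat_lit 187)) (XT.lf (nat_lit 0) (nat_lit 6817851596) (nat_lit 1292) (nat_lit 5655517669) (nat_lit 1292) (nat_lit 5655517669) (nat_lit 274) (nat_lit 3) (nat_lit 291) (nat_lit 3) (nat_lit 291) (nat_lit 5) (nat_lit 474) (nat_lit 474) (nat_lit 252))) (XT.nd (nat_lit 78) (nat_lit 0) (nat_lit 76) (XT.lf (nat_lit 76) (nat_lit 6582532540) (nat_lit 0) (nat_lit 7370360829) (nat_lit 1292) (nat_lit 22845355982) (nat_lit 275) (nat_lit 5) (nat_lit 274) (nat_lit 3) (nat_lit 291) (nat_lit 5) (nat_lit 475) (nat_lit 474) (nat_lit 251)) (XT.lf (nat_lit 0) (nat_lit 14496196558) (nat_lit 1216) (nat_lit 12212125831) (nat_lit 1292) (nat_lit 10640119237) (nat_lit 275) (nat_lit 5) (nat_lit 291) (nat_lit 5) (nat_lit 292) (nat_lit 5) (nat_lit 476) (nat_lit 474) (nat_lit 250)))) (XT.nd (nat_lit 156) (nat_lit 0) (nat_lit 76) (XT.nd (nat_lit 78) (nat_lit 0) (nat_lit 76) (XT.lf (nat_lit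 76) (nat_lit 6382088091) (nat_lit 0) (nat_lit 8806161327) (nat_lit 1292) (nat_lit 22722917169) (nat_lit 276) (nat_lit 5) (nat_lit 275) (nat_lit 5) (nat_lit 292) (nat_lit 5) (nat_lit 477) (nat_lit 474) (nat_lit 249)) (XT.lf (nat_lit 0) (nat_lit 16116382574) (nat_lit 1216) (nat_lit 12797529578) (nat_lit 1292) (nat_lit 9570402006) (nat_lit 276) (nat_lit 5) (nat_lit 292) (nat_lit 5) (nat_lit 293) (nat_lit 5) (nat_lit 478) (nat_lit 474) (nat_lit 248))) (XT.nd (nat_lit 78) (nat_lit 0) (nat_lit 76) (XT.lf (nat_lit 76) (nat_lit 6535233103) (nat_lit 0) (nat_lit 10685370293) (nat_lit 1292) (nat_lit 21849605860) (nat_lit 277) (nat_lit 5) (nat_lit 276) (nat_lit 5) (nat_lit 293) (nat_lit 5) (nat_lit 479) (nat_lit 474) (nat_lit 247)) (XT.lf (nat_lit 0) (nat_lit 18564507594) (nat_lit 1216) (nat_lit 13039651650) (nat_lit 1292) (nat_lit 8063325660) (nat_lit 277) (nat_lit 5) (nat_lit 293) (nat_lit 5) (nat_lit 294) (nat_lit 5) (nat_lit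 480) (nat_lit 474) (nat_lit 246)))))) (XT.nd (nat_lit 546) (nat_lit 2280) (nat_lit 0) (XT.nd (nat_lit 234) (nat_lit 0) (nat_lit 152) (XT.nd (nat_lit 78) (nat_lit 0) (nat_lit 76) (XT.lf (nat_lit 76) (nat_lit 7071645638) (nat_lit 0) (nat_lit 13049187069) (nat_lit 1292) (nat_lit 20156683386) (nat_lit 278) (nat_lit 5) (nat_lit 277) (nat_lit 5) (nat_lit 294) (nat_lit 5) (nat_lit 481) (nat_lit 474) (nat_lit 245)) (XT.nd (nat_lit 78) (nat_lit 0) (nat_lit 0) (XT.lf (nat_lit 0) (nat_lit 21913476729) (nat_lit 1216) (nat_lit 12909024086) (nat_lit 1292) (nat_lit 6077658904) (nat_lit 278) (nat_lit 5) (nat_lit 294) (nat_lit 5) (nat_lit 295) (nat_lit 5) (nat_lit 482) (nat_lit 474) (nat_lit 244)) (XT.lf (nat_lit 76) (nat_lit 8022989598) (nat_lit 0) (nat_lit 15941654268) (nat_lit 1292) (nat_lit 17570696839) (nat_lit 279) (nat_lit 5) (nat_lit 278) (nat_lit 5) (nat_lit 295) (nat_lit 5) (nat_lit 483) (nat_lit 474) (nat_lit 243))))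 (XT.nd (nat_lit 156) (nat_lit 0) (nat_lit 76) (XT.nd (nat_lit 78) (nat_lit 0) (nat_lit 0) (XT.lf (nat_lit 0) (nat_lit 26241152612) (nat_lit 1216) (nat_lit 12374205118) (nat_lit 1292) (nat_lit 3569305546) (nat_lit 279) (nat_lit 5) (nat_lit 295) (nat_lit 5) (nat_lit 296) (nat_lit 5) (nat_lit 484) (nat_lit 474) (nat_lit 242)) (XT.lf (nat_lit 76) (nat_lit 9423021349) (nat_lit 0) (nat_lit 19409860045) (nat_lit 1292) (nat_lit 14013176732) (nat_lit 280) (nat_lit 5) (nat_lit 279) (nat_lit 5) (nat_lit 296) (nat_lit 5) (nat_lit 485) (nat_lit 474) (nat_lit 241))) (XT.nd (nat_lit 78) (nat_lit 0) (nat_lit 0) (XT.lf (nat_lit 0) (nat_lit 31630671722) (nat_lit 1216) (nat_lit 11401673349) (nat_lit 1292) (nat_lit 491100791) (nat_lit 280) (nat_lit 5) (nat_lit 296) (nat_lit 5) (nat_lit 297) (nat_lit 5) (nat_lit 486) (nat_lit 474) (nat_lit 240)) (XT.lf (nat_lit 76) (nat_lit 11307701637) (nat_lit 0) (nat_lit 23504153230) (nat_lit 1292)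 (nat_lit 9400316916) (nat_lit 281) (nat_lit 5) (nat_lit 280) (nat_lit 5) (nat_lit 297) (nat_lit 5) (nat_lit 487) (nat_lit 474) (nat_lit 239))))) (XT.nd (nat_lit 312) (nat_lit 1368) (nat_lit 0) (XT.nd (nat_lit 156) (nat_lit 1140) (nat_lit 0) (XT.nd (nat_lit 78) (nat_lit 0) (nat_lit 76) (XT.lf (nat_lit 76) (nat_lit 34930985347) (nat_lit 0) (nat_lit 3271239094) (nat_lit 1292) (nat_lit 6715922826) (nat_lit 281) (nat_lit 5) (nat_lit 280) (nat_lit 5) (nat_lit 297) (nat_lit 5) (nat_lit 488) (nat_lit 474) (nat_lit 238)) (XT.lf (nat_lit 76) (nat_lit 13715312944) (nat_lit 0) (nat_lit 28278372244) (nat_lit 1292) (nat_lit 3642635731) (nat_lit 282) (nat_lit 5) (nat_lit 281) (nat_lit 5) (nat_lit 298) (nat_lit 5) (nat_lit 489) (nat_lit 474) (nat_lit 237))) (XT.nd (nat_lit 78) (nat_lit 1216) (nat_lit 0) (XT.lf (nat_lit 76) (nat_lit 38299459804) (nat_lit 0) (nat_lit 7731039563) (nat_lit 1292) (nat_lit 341592420) (nat_lit 282) (nat_lit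 5) (nat_lit 281) (nat_lit 5) (nat_lit 298) (nat_lit 5) (nat_lit 490) (nat_lit 474) (nat_lit 236)) (XT.lf (nat_lit 0) (nat_lit 3289907107) (nat_lit 1292) (nat_lit 30466960082) (nat_lit 76) (nat_lit 13363453666) (nat_lit 265) (nat_lit 5) (nat_lit 282) (nat_lit 5) (nat_lit 266) (nat_lit 5) (nat_lit 491) (nat_lit 474) (nat_lit 235)))) (XT.nd (nat_lit 156) (nat_lit 608) (nat_lit 0) (XT.nd (nat_lit 78) (nat_lit 760) (nat_lit 0) (XT.lf (nat_lit 0) (nat_lit 7181097803) (nat_lit 1292) (nat_lit 5683790308) (nat_lit 76) (nat_lit 35021279136) (nat_lit 265) (nat_lit 5) (nat_lit 282) (nat_lit 5) (nat_lit 266) (nat_lit 5) (nat_lit 492) (nat_lit 474) (nat_lit 234)) (XT.lf (nat_lit 0) (nat_lit 11467443646) (nat_lit 836) (nat_lit 28517625129) (nat_lit 76) (nat_lit 8681567935) (nat_lit 255) (nat_lit 5) (nat_lit 266) (nat_lit 5) (nat_lit 256) (nat_lit 5) (nat_lit 493) (nat_lit 474) (nat_lit 233))) (XT.nd (nat_lit 78) (nat_lit 608)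 (nat_lit 0) (XT.lf (nat_lit 0) (nat_lit 16066523468) (nat_lit 836) (nat_lit 2724545431) (nat_lit 76) (nat_lit 30673927307) (nat_lit 255) (nat_lit 5) (nat_lit 266) (nat_lit 5) (nat_lit 256) (nat_lit 5) (nat_lit 494) (nat_lit 474) (nat_lit 232)) (XT.lf (nat_lit 0) (nat_lit 21067678589) (nat_lit 684) (nat_lit 25996121402) (nat_lit 76) (nat_lit 3215583656) (nat_lit 247) (nat_lit 5) (nat_lit 256) (nat_lit 5) (nat_lit 248) (nat_lit 5) (nat_lit 495) (nat_lit 474) (nat_lit 231))))))) (XT.nd (nat_lit 1170) (nat_lit 3420) (nat_lit 0) (XT.nd (nat_lit 546) (nat_lit 1976) (nat_lit 0) (XT.nd (nat_lit 234) (nat_lit 1140) (nat_lit 0) (XT.nd (nat_lit 78) (nat_lit 532) (nat_lit 0) (XT.lf (nat_lit 0) (nat_lit 869312922) (nat_lit 608) (nat_lit 25570610975) (nat_lit 684) (nat_lit 24671647389) (nat_lit 239) (nat_lit 5) (nat_lit 247) (nat_lit 5) (nat_lit 248) (nat_lit 5) (nat_lit 496) (nat_lit 474) (nat_lit 230)) (XT.nd (nat_lit 78)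 (nat_lit 532) (nat_lit 0) (XT.lf (nat_lit 0) (nat_lit 29072510873) (nat_lit 608) (nat_lit 3162222123) (nat_lit 684) (nat_lit 19726149900) (nat_lit 239) (nat_lit 5) (nat_lit 247) (nat_lit 5) (nat_lit 248) (nat_lit 5) (nat_lit 497) (nat_lit 474) (nat_lit 229)) (XT.lf (nat_lit 0) (nat_lit 5194939501) (nat_lit 532) (nat_lit 33248771011) (nat_lit 608) (nat_lit 14384753845) (nat_lit 232) (nat_lit 5) (nat_lit 239) (nat_lit 5) (nat_lit 240) (nat_lit 5) (nat_lit 498) (nat_lit 474) (nat_lit 228)))) (XT.nd (nat_lit 156) (nat_lit 608) (nat_lit 0) (XT.nd (nat_lit 78) (nat_lit 532) (nat_lit 0) (XT.lf (nat_lit 0) (nat_lit 34556922690) (nat_lit 532) (nat_lit 10543104759) (nat_lit 608) (nat_lit 8614213931) (nat_lit 232) (nat_lit 5) (nat_lit 239) (nat_lit 5) (nat_lit 240) (nat_lit 5) (nat_lit 499) (nat_lit 474) (nat_lit 227)) (XT.lf (nat_lit 0) (nat_lit 10248615372) (nat_lit 532) (nat_lit 41928367160) (nat_lit 608) (nat_lit 2442980935)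 (nat_lit 225) (nat_lit 5) (nat_lit 232) (nat_lit 5) (nat_lit 233) (nat_lit 5) (nat_lit 500) (nat_lit 474) (nat_lit 226))) (XT.nd (nat_lit 78) (nat_lit 532) (nat_lit 0) (XT.lf (nat_lit 0) (nat_lit 4135758957) (nat_lit 608) (nat_lit 14762634147) (nat_lit 76) (nat_lit 36644373753) (nat_lit 224) (nat_lit 5) (nat_lit 232) (nat_lit 5) (nat_lit 225) (nat_lit 5) (nat_lit 501) (nat_lit 474) (nat_lit 225)) (XT.lf (nat_lit 0) (nat_lit 11063900562) (nat_lit 608) (nat_lit 40514325451) (nat_lit 76) (nat_lit 4908268663) (nat_lit 217) (nat_lit 5) (nat_lit 225) (nat_lit 5) (nat_lit 218) (nat_lit 5) (nat_lit 502) (nat_lit 474) (nat_lit 224))))) (XT.nd (nat_lit 312) (nat_lit 988) (nat_lit 0) (XT.nd (nat_lit 156) (nat_lit 456) (nat_lit 0) (XT.nd (nat_lit 78) (nat_lit 532) (nat_lit 0) (XT.lf (nat_lit 0) (nat_lit 18536576841) (nat_lit 608) (nat_lit 9712094714) (nat_lit 76) (nat_lit 29199762251) (nat_lit 217) (nat_lit 5) (nat_lit 225)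 (nat_lit 5) (nat_lit 218) (nat_lit 5) (nat_lit 503) (nat_lit 474) (nat_lit 223)) (XT.lf (nat_lit 0) (nat_lit 22451259295) (nat_lit 532) (nat_lit 3997045650) (nat_lit 608) (nat_lit 31984480204) (nat_lit 210) (nat_lit 5) (nat_lit 217) (nat_lit 5) (nat_lit 218) (nat_lit 5) (nat_lit 504) (nat_lit 474) (nat_lit 222))) (XT.nd (nat_lit 78) (nat_lit 456) (nat_lit 0) (XT.lf (nat_lit 0) (nat_lit 34897194814) (nat_lit 608) (nat_lit 3868851766) (nat_lit 76) (nat_lit 20671626334) (nat_lit 210) (nat_lit 5) (nat_lit 218) (nat_lit 5) (nat_lit 211) (nat_lit 5) (nat_lit 505) (nat_lit 474) (nat_lit 221)) (XT.lf (nat_lit 0) (nat_lit 29747066072) (nat_lit 456) (nat_lit 14177106746) (nat_lit 532) (nat_lit 16538796026) (nat_lit 204) (nat_lit 5) (nat_lit 210) (nat_lit 5) (nat_lit 211) (nat_lit 5) (nat_lit 506) (nat_lit 474) (nat_lit 220)))) (XT.nd (nat_lit 156) (nat_lit 456) (nat_lit 0) (XT.nd (nat_lit 78) (nat_lit 76) (nat_lit 0) (XT.lf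 (nat_lit 0) (nat_lit 2880514712) (nat_lit 456) (nat_lit 50514879939) (nat_lit 532) (nat_lit 8118426134) (nat_lit 198) (nat_lit 5) (nat_lit 204) (nat_lit 5) (nat_lit 205) (nat_lit 5) (nat_lit 507) (nat_lit 474) (nat_lit 219)) (XT.lf (nat_lit 0) (nat_lit 996464060) (nat_lit 532) (nat_lit 24622248382) (nat_lit 76) (nat_lit 36963744162) (nat_lit 197) (nat_lit 5) (nat_lit 204) (nat_lit 5) (nat_lit 198) (nat_lit 5) (nat_lit 508) (nat_lit 474) (nat_lit 218))) (XT.nd (nat_lit 78) (nat_lit 0) (nat_lit 0) (XT.lf (nat_lit 0) (nat_lit 10324058954) (nat_lit 532) (nat_lit 53146482086) (nat_lit 76) (nat_lit 207126291) (nat_lit 191) (nat_lit 5) (nat_lit 198) (nat_lit 5) (nat_lit 192) (nat_lit 5) (nat_lit 509) (nat_lit 474) (nat_lit 217)) (XT.lf (nat_lit 0) (nat_lit 20435391214) (nat_lit 532) (nat_lit 17811473258) (nat_lit 76) (nat_lit 26543752772) (nat_lit 191) (nat_lit 5) (nat_lit 198) (nat_lit 5) (nat_lit 192) (nat_lit 5) (nat_lit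 510) (nat_lit 474) (nat_lit 216)))))) (XT.nd (nat_lit 546) (nat_lit 1748) (nat_lit 0) (XT.nd (nat_lit 234) (nat_lit 836) (nat_lit 0) (XT.nd (nat_lit 78) (nat_lit 380) (nat_lit 0) (XT.lf (nat_lit 0) (nat_lit 18952406379) (nat_lit 456) (nat_lit 12079024356) (nat_lit 532) (nat_lit 34900084046) (nat_lit 185) (nat_lit 5) (nat_lit 191) (nat_lit 5) (nat_lit 192) (nat_lit 5) (nat_lit 511) (nat_lit 474) (nat_lit 215)) (XT.nd (nat_lit 78) (nat_lit 380) (nat_lit 0) (XT.lf (nat_lit 0) (nat_lit 42269167141) (nat_lit 532) (nat_lit 10062702152) (nat_lit 76) (nat_lit 14765055620) (nat_lit 185) (nat_lit 5) (nat_lit 192) (nat_lit 5) (nat_lit 186) (nat_lit 5) (nat_lit 512) (nat_lit 474) (nat_lit 214)) (XT.lf (nat_lit 0) (nat_lit 28394692942) (nat_lit 380) (nat_lit 25841104922) (nat_lit 456) (nat_lit 14049746759) (nat_lit 180) (nat_lit 5) (nat_lit 185) (nat_lit 5) (nat_lit 186) (nat_lit 5) (nat_lit 513) (nat_lit 474) (nat_lit 213))))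 (XT.nd (nat_lit 156) (nat_lit 380) (nat_lit 0) (XT.nd (nat_lit 78) (nat_lit 456) (nat_lit 0) (XT.lf (nat_lit 0) (nat_lit 66677163375) (nat_lit 456) (nat_lit 1310582545) (nat_lit 76) (nat_lit 1518605059) (nat_lit 180) (nat_lit 5) (nat_lit 186) (nat_lit 5) (nat_lit 181) (nat_lit 5) (nat_lit 514) (nat_lit 474) (nat_lit 212)) (XT.lf (nat_lit 0) (nat_lit 9193229804) (nat_lit 456) (nat_lit 31905100154) (nat_lit 76) (nat_lit 29643868052) (nat_lit 174) (nat_lit 5) (nat_lit 180) (nat_lit 5) (nat_lit 175) (nat_lit 5) (nat_lit 515) (nat_lit 474) (nat_lit 211))) (XT.nd (nat_lit 78) (nat_lit 0) (nat_lit 0) (XT.lf (nat_lit 0) (nat_lit 8334872308) (nat_lit 380) (nat_lit 13277328177) (nat_lit 456) (nat_lit 50399297399) (nat_lit 169) (nat_lit 5) (nat_lit 174) (nat_lit 5) (nat_lit 175) (nat_lit 5) (nat_lit 516) (nat_lit 474) (nat_lit 210)) (XT.lf (nat_lit 0) (nat_lit 34876204106) (nat_lit 456) (nat_lit 23025148955) (nat_lit 76)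 (nat_lit 15403349897) (nat_lit 169) (nat_lit 5) (nat_lit 175) (nat_lit 5) (nat_lit 170) (nat_lit 5) (nat_lit 517) (nat_lit 474) (nat_lit 209))))) (XT.nd (nat_lit 312) (nat_lit 988) (nat_lit 0) (XT.nd (nat_lit 156) (nat_lit 380) (nat_lit 0) (XT.nd (nat_lit 78) (nat_lit 0) (nat_lit 0) (XT.lf (nat_lit 0) (nat_lit 19085887252) (nat_lit 380) (nat_lit 29766455097) (nat_lit 456) (nat_lit 25774935513) (nat_lit 164) (nat_lit 5) (nat_lit 169) (nat_lit 5) (nat_lit 170) (nat_lit 5) (nat_lit 518) (nat_lit 474) (nat_lit 208)) (XT.lf (nat_lit 0) (nat_lit 62931296519) (nat_lit 380) (nat_lit 548279194) (nat_lit 456) (nat_lit 12503000085) (nat_lit 164) (nat_lit 5) (nat_lit 169) (nat_lit 5) (nat_lit 170) (nat_lit 5) (nat_lit 519) (nat_lit 474) (nat_lit 207))) (XT.nd (nat_lit 78) (nat_lit 0) (nat_lit 0) (XT.lf (nat_lit 0) (nat_lit 1731736017) (nat_lit 380) (nat_lit 46343896993) (nat_lit 76) (nat_lit 29284940698) (nat_lit 159) (nat_lit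 5) (nat_lit 164) (nat_lit 5) (nat_lit 160) (nat_lit 5) (nat_lit 520) (nat_lit 474) (nat_lit 206)) (XT.lf (nat_lit 0) (nat_lit 16280066187) (nat_lit 380) (nat_lit 2233219130) (nat_lit 76) (nat_lit 60258777080) (nat_lit 159) (nat_lit 5) (nat_lit 164) (nat_lit 5) (nat_lit 160) (nat_lit 5) (nat_lit 521) (nat_lit 474) (nat_lit 205)))) (XT.nd (nat_lit 156) (nat_lit 304) (nat_lit 0) (XT.nd (nat_lit 78) (nat_lit 304) (nat_lit 0) (XT.lf (nat_lit 0) (nat_lit 31806644506) (nat_lit 456) (nat_lit 36272513159) (nat_lit 76) (nat_lit 12130484235) (nat_lit 154) (nat_lit 5) (nat_lit 160) (nat_lit 5) (nat_lit 155) (nat_lit 5) (nat_lit 522) (nat_lit 474) (nat_lit 204)) (XT.lf (nat_lit 0) (nat_lit 9856581783) (nat_lit 304) (nat_lit 38242611870) (nat_lit 380) (nat_lit 33582150026) (nat_lit 150) (nat_lit 5) (nat_lit 154) (nat_lit 5) (nat_lit 155) (nat_lit 5) (nat_lit 523) (nat_lit 474) (nat_lit 203))) (XT.nd (nat_lit 78) (nat_lit 304)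 (nat_lit 0) (XT.lf (nat_lit 0) (nat_lit 58112183518) (nat_lit 304) (nat_lit 7133978803) (nat_lit 380) (nat_lit 17940064993) (nat_lit 150) (nat_lit 5) (nat_lit 154) (nat_lit 5) (nat_lit 155) (nat_lit 5) (nat_lit 524) (nat_lit 474) (nat_lit 202)) (XT.lf (nat_lit 0) (nat_lit 23293397447) (nat_lit 304) (nat_lit 60076860860) (nat_lit 380) (nat_lit 1352117695) (nat_lit 146) (nat_lit 5) (nat_lit 150) (nat_lit 5) (nat_lit 151) (nat_lit 5) (nat_lit 525) (nat_lit 474) (nat_lit 201))))))))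
noncomputable def xc233 : XT := (XT.nd (nat_lit 59904) (nat_lit 0) (nat_lit 3040) (XT.nd (nat_lit 58734) (nat_lit 0) (nat_lit 11476) (XT.nd (nat_lit 546) (nat_lit 1140) (nat_lit 0) (XT.nd (nat_lit 234) (nat_lit 608) (nat_lit 0) (XT.nd (nat_lit 78) (nat_lit 608) (nat_lit 0) (XT.lf (nat_lit 0) (nat_lit 15752171554) (nat_lit 380) (nat_lit 12896447936) (nat_lit 76) (nat_lit 57641680948) (nat_lit 145) (nat_lit 5) (nat_lit 150) (nat_lit 5) (nat_lit 146) (nat_lit 5) (nat_lit 526) (nat_lit 474) (nat_lit 200)) (XT.nd (nat_lit 78) (nat_lit 304) (nat_lit 0) (XT.lf (nat_lit 0) (nat_lit 33744831689) (nat_lit 380) (nat_lit 50117776856) (nat_lit 76) (nat_lit 4030179975) (nat_lit 141) (nat_lit 5) (nat_lit 146) (nat_lit 5) (nat_lit 142) (nat_lit 5) (nat_lit 527) (nat_lit 474) (nat_lit 199)) (XT.lf (nat_lit 0) (nat_lit 413780620) (nat_lit 304) (nat_lit 52282041961) (nat_lit 380) (nat_lit 36834972214) (nat_lit 137) (nat_lit 5) (nat_lit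 141) (nat_lit 5) (nat_lit 142) (nat_lit 5) (nat_lit 528) (nat_lit 474) (nat_lit 198)))) (XT.nd (nat_lit 156) (nat_lit 304) (nat_lit 0) (XT.nd (nat_lit 78) (nat_lit 304) (nat_lit 0) (XT.lf (nat_lit 0) (nat_lit 53487768986) (nat_lit 304) (nat_lit 19233079849) (nat_lit 380) (nat_lit 18481927334) (nat_lit 137) (nat_lit 5) (nat_lit 141) (nat_lit 5) (nat_lit 142) (nat_lit 5) (nat_lit 529) (nat_lit 474) (nat_lit 197)) (XT.lf (nat_lit 0) (nat_lit 706014237) (nat_lit 304) (nat_lit 77537057860) (nat_lit 76) (nat_lit 14672947317) (nat_lit 133) (nat_lit 5) (nat_lit 137) (nat_lit 5) (nat_lit 134) (nat_lit 5) (nat_lit 530) (nat_lit 474) (nat_lit 196))) (XT.nd (nat_lit 78) (nat_lit 304) (nat_lit 0) (XT.lf (nat_lit 0) (nat_lit 20672601911) (nat_lit 304) (nat_lit 24208423881) (nat_lit 76) (nat_lit 49776910264) (nat_lit 133) (nat_lit 5) (nat_lit 137) (nat_lit 5) (nat_lit 134) (nat_lit 5) (nat_lit 531) (nat_lit 474) (nat_lit 195))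 (XT.lf (nat_lit 0) (nat_lit 31330594583) (nat_lit 304) (nat_lit 10208209409) (nat_lit 380) (nat_lit 54904287774) (nat_lit 129) (nat_lit 5) (nat_lit 133) (nat_lit 5) (nat_lit 134) (nat_lit 5) (nat_lit 532) (nat_lit 474) (nat_lit 194))))) (XT.nd (nat_lit 546) (nat_lit 532) (nat_lit 0) (XT.nd (nat_lit 156) (nat_lit 380) (nat_lit 0) (XT.nd (nat_lit 78) (nat_lit 228) (nat_lit 0) (XT.lf (nat_lit 0) (nat_lit 63522490895) (nat_lit 380) (nat_lit 9490876419) (nat_lit 76) (nat_lit 25253689937) (nat_lit 129) (nat_lit 5) (nat_lit 134) (nat_lit 5) (nat_lit 130) (nat_lit 5) (nat_lit 533) (nat_lit 474) (nat_lit 193)) (XT.lf (nat_lit 0) (nat_lit 48646767542) (nat_lit 228) (nat_lit 38087083775) (nat_lit 304) (nat_lit 13394845562) (nat_lit 126) (nat_lit 5) (nat_lit 129) (nat_lit 5) (nat_lit 130) (nat_lit 5) (nat_lit 534) (nat_lit 474) (nat_lit 192))) (XT.nd (nat_lit 78) (nat_lit 0) (nat_lit 0) (XT.lf (nat_lit 0) (nat_lit 6726641985)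 (nat_lit 304) (nat_lit 1861918432) (nat_lit 380) (nat_lit 93450319019) (nat_lit 121) (nat_lit 5) (nat_lit 125) (nat_lit 5) (nat_lit 126) (nat_lit 5) (nat_lit 535) (nat_lit 474) (nat_lit 191)) (XT.lf (nat_lit 0) (nat_lit 31827502271) (nat_lit 380) (nat_lit 36733343305) (nat_lit 76) (nat_lit 35415585582) (nat_lit 121) (nat_lit 5) (nat_lit 126) (nat_lit 5) (nat_lit 122) (nat_lit 5) (nat_lit 536) (nat_lit 474) (nat_lit 190)))) (XT.nd (nat_lit 57486) (nat_lit 0) (nat_lit 12160) (XT.nd (nat_lit 57408) (nat_lit 0) (nat_lit 12160) (XT.lf (nat_lit 0) (nat_lit 23355760644) (nat_lit 304) (nat_lit 3494533996) (nat_lit 76) (nat_lit 85346724789) (nat_lit 114) (nat_lit 5) (nat_lit 118) (nat_lit 5) (nat_lit 115) (nat_lit 5) (nat_lit 540) (nat_lit 474) (nat_lit 186)) (XT.lf (nat_lit 0) (nat_lit 7071291780) (nat_lit 1292) (nat_lit 5799991623) (nat_lit 1292) (nat_lit 5799991623) (nat_lit 274) (nat_lit 3) (nat_lit 291) (nat_lit 3)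 (nat_lit 291) (nat_lit 5) (nat_lit 475) (nat_lit 475) (nat_lit 250))) (XT.nd (nat_lit 78) (nat_lit 0) (nat_lit 76) (XT.lf (nat_lit 76) (nat_lit 6829897718) (nat_lit 0) (nat_lit 7637022478) (nat_lit 1292) (nat_lit 23432391343) (nat_lit 275) (nat_lit 5) (nat_lit 274) (nat_lit 3) (nat_lit 291) (nat_lit 5) (nat_lit 476) (nat_lit 475) (nat_lit 249)) (XT.lf (nat_lit 0) (nat_lit 15023317564) (nat_lit 1216) (nat_lit 12526827124) (nat_lit 1292) (nat_lit 10915961685) (nat_lit 275) (nat_lit 5) (nat_lit 291) (nat_lit 5) (nat_lit 292) (nat_lit 5) (nat_lit 477) (nat_lit 475) (nat_lit 248)))))) (XT.nd (nat_lit 546) (nat_lit 760) (nat_lit 0) (XT.nd (nat_lit 234) (nat_lit 0) (nat_lit 152) (XT.nd (nat_lit 78) (nat_lit 0) (nat_lit 76) (XT.lf (nat_lit 76) (nat_lit 6624706721) (nat_lit 0) (nat_lit 9109230572) (nat_lit 1292) (nat_lit 23311842256) (nat_lit 276) (nat_lit 5) (nat_lit 275) (nat_lit 5) (nat_lit 292) (nat_lit 5) (nat_lit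 478) (nat_lit 475) (nat_lit 247)) (XT.nd (nat_lit 78) (nat_lit 0) (nat_lit 0) (XT.lf (nat_lit 0) (nat_lit 16686929014) (nat_lit 1216) (nat_lit 13128783811) (nat_lit 1292) (nat_lit 9820498891) (nat_lit 276) (nat_lit 5) (nat_lit 292) (nat_lit 5) (nat_lit 293) (nat_lit 5) (nat_lit 479) (nat_lit 475) (nat_lit 246)) (XT.lf (nat_lit 76) (nat_lit 6783445362) (nat_lit 0) (nat_lit 11038796865) (nat_lit 1292) (nat_lit 22417503056) (nat_lit 277) (nat_lit 5) (nat_lit 276) (nat_lit 5) (nat_lit 293) (nat_lit 5) (nat_lit 480) (nat_lit 475) (nat_lit 245)))) (XT.nd (nat_lit 156) (nat_lit 0) (nat_lit 76) (XT.nd (nat_lit 78) (nat_lit 0) (nat_lit 0) (XT.lf (nat_lit 0) (nat_lit 19203680498) (nat_lit 1216) (nat_lit 13377402909) (nat_lit 1292) (nat_lit 8273939856) (nat_lit 277) (nat_lit 5) (nat_lit 293) (nat_lit 5) (nat_lit 294) (nat_lit 5) (nat_lit 481) (nat_lit 475) (nat_lit 244)) (XT.lf (nat_lit 76) (nat_lit 7336709394) (nat_lit 0)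 (nat_lit 13468099345) (nat_lit 1292) (nat_lit 20678603804) (nat_lit 278) (nat_lit 5) (nat_lit 277) (nat_lit 5) (nat_lit 294) (nat_lit 5) (nat_lit 482) (nat_lit 475) (nat_lit 243))) (XT.nd (nat_lit 78) (nat_lit 0) (nat_lit 0) (XT.lf (nat_lit 0) (nat_lit 22648635703) (nat_lit 1216) (nat_lit 13242307277) (nat_lit 1292) (nat_lit 6233870928) (nat_lit 278) (nat_lit 5) (nat_lit 294) (nat_lit 5) (nat_lit 295) (nat_lit 5) (nat_lit 483) (nat_lit 475) (nat_lit 242)) (XT.lf (nat_lit 76) (nat_lit 8317137529) (nat_lit 0) (nat_lit 16442449499) (nat_lit 1292) (nat_lit 18019516343) (nat_lit 279) (nat_lit 5) (nat_lit 278) (nat_lit 5) (nat_lit 295) (nat_lit 5) (nat_lit 484) (nat_lit 475) (nat_lit 241))))) (XT.nd (nat_lit 312) (nat_lit 1064) (nat_lit 0) (XT.nd (nat_lit 156) (nat_lit 0) (nat_lit 76) (XT.nd (nat_lit 78) (nat_lit 0) (nat_lit 0) (XT.lf (nat_lit 0) (nat_lit 27101966922) (nat_lit 1216) (nat_lit 12691089019) (nat_lit 1292)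 (nat_lit 3654922909) (nat_lit 279) (nat_lit 5) (nat_lit 295) (nat_lit 5) (nat_lit 296) (nat_lit 5) (nat_lit 485) (nat_lit 475) (nat_lit 240)) (XT.lf (nat_lit 76) (nat_lit 9759521474) (nat_lit 0) (nat_lit 20010300243) (nat_lit 1292) (nat_lit 14359443096) (nat_lit 280) (nat_lit 5) (nat_lit 279) (nat_lit 5) (nat_lit 296) (nat_lit 5) (nat_lit 486) (nat_lit 475) (nat_lit 239))) (XT.nd (nat_lit 78) (nat_lit 0) (nat_lit 0) (XT.lf (nat_lit 0) (nat_lit 32649280677) (nat_lit 1216) (nat_lit 11689200291) (nat_lit 1292) (nat_lit 488561646) (nat_lit 280) (nat_lit 5) (nat_lit 296) (nat_lit 5) (nat_lit 297) (nat_lit 5) (nat_lit 487) (nat_lit 475) (nat_lit 238)) (XT.lf (nat_lit 76) (nat_lit 11700921402) (nat_lit 0) (nat_lit 24223467116) (nat_lit 1292) (nat_lit 9612087583) (nat_lit 281) (nat_lit 5) (nat_lit 280) (nat_lit 5) (nat_lit 297) (nat_lit 5) (nat_lit 488) (nat_lit 475) (nat_lit 237)))) (XT.nd (nat_lit 156) (nat_lit 1140)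 (nat_lit 0) (XT.nd (nat_lit 78) (nat_lit 0) (nat_lit 76) (XT.lf (nat_lit 76) (nat_lit 36031331137) (nat_lit 0) (nat_lit 3383152275) (nat_lit 1292) (nat_lit 6849207462) (nat_lit 281) (nat_lit 5) (nat_lit 280) (nat_lit 5) (nat_lit 297) (nat_lit 5) (nat_lit 489) (nat_lit 475) (nat_lit 236)) (XT.lf (nat_lit 76) (nat_lit 14180786998) (nat_lit 0) (nat_lit 29137363710) (nat_lit 1292) (nat_lit 3685305584) (nat_lit 282) (nat_lit 5) (nat_lit 281) (nat_lit 5) (nat_lit 298) (nat_lit 5) (nat_lit 490) (nat_lit 475) (nat_lit 235))) (XT.nd (nat_lit 78) (nat_lit 1216) (nat_lit 0) (XT.lf (nat_lit 76) (nat_lit 39500885021) (nat_lit 0) (nat_lit 7973301137) (nat_lit 1292) (nat_lit 287171049) (nat_lit 282) (nat_lit 5) (nat_lit 281) (nat_lit 5) (nat_lit 298) (nat_lit 5) (nat_lit 491) (nat_lit 475) (nat_lit 234)) (XT.lf (nat_lit 0) (nat_lit 3450590652) (nat_lit 1292) (nat_lit 31325817515) (nat_lit 76) (nat_lit 13755649357) (nat_lit 265)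 (nat_lit 5) (nat_lit 282) (nat_lit 5) (nat_lit 266) (nat_lit 5) (nat_lit 492) (nat_lit 475) (nat_lit 233))))))) (XT.nd (nat_lit 1170) (nat_lit 3800) (nat_lit 0) (XT.nd (nat_lit 546) (nat_lit 2128) (nat_lit 0) (XT.nd (nat_lit 234) (nat_lit 1748) (nat_lit 0) (XT.nd (nat_lit 78) (nat_lit 760) (nat_lit 0) (XT.lf (nat_lit 0) (nat_lit 7456711642) (nat_lit 1292) (nat_lit 5800758999) (nat_lit 76) (nat_lit 36063463219) (nat_lit 265) (nat_lit 5) (nat_lit 282) (nat_lit 5) (nat_lit 266) (nat_lit 5) (nat_lit 493) (nat_lit 475) (nat_lit 232)) (XT.nd (nat_lit 78) (nat_lit 0) (nat_lit 0) (XT.lf (nat_lit 0) (nat_lit 11870347796) (nat_lit 836) (nat_lit 29318296200) (nat_lit 76) (nat_lit 8936212791) (nat_lit 255) (nat_lit 5) (nat_lit 266) (nat_lit 5) (nat_lit 256) (nat_lit 5) (nat_lit 494) (nat_lit 475) (nat_lit 231)) (XT.lf (nat_lit 0) (nat_lit 16605685036) (nat_lit 836) (nat_lit 2753021908) (nat_lit 76) (nat_lit 31588511939) (nat_lit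 255) (nat_lit 5) (nat_lit 266) (nat_lit 5) (nat_lit 256) (nat_lit 5) (nat_lit 495) (nat_lit 475) (nat_lit 230)))) (XT.nd (nat_lit 156) (nat_lit 532) (nat_lit 0) (XT.nd (nat_lit 78) (nat_lit 608) (nat_lit 0) (XT.lf (nat_lit 0) (nat_lit 21755685299) (nat_lit 684) (nat_lit 26721543771) (nat_lit 76) (nat_lit 3308844919) (nat_lit 247) (nat_lit 5) (nat_lit 256) (nat_lit 5) (nat_lit 248) (nat_lit 5) (nat_lit 496) (nat_lit 475) (nat_lit 229)) (XT.lf (nat_lit 0) (nat_lit 949319649) (nat_lit 608) (nat_lit 26338666321) (nat_lit 684) (nat_lit 25355274995) (nat_lit 239) (nat_lit 5) (nat_lit 247) (nat_lit 5) (nat_lit 248) (nat_lit 5) (nat_lit 497) (nat_lit 475) (nat_lit 228))) (XT.nd (nat_lit 78) (nat_lit 532) (nat_lit 0) (XT.lf (nat_lit 0) (nat_lit 29997042839) (nat_lit 608) (nat_lit 3257998512) (nat_lit 684) (nat_lit 20263058847) (nat_lit 239) (nat_lit 5) (nat_lit 247) (nat_lit 5) (nat_lit 248) (nat_lit 5) (nat_lit 498) (nat_lit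 475) (nat_lit 227)) (XT.lf (nat_lit 0) (nat_lit 5404233093) (nat_lit 532) (nat_lit 34245008912) (nat_lit 608) (nat_lit 14762498809) (nat_lit 232) (nat_lit 5) (nat_lit 239) (nat_lit 5) (nat_lit 240) (nat_lit 5) (nat_lit 499) (nat_lit 475) (nat_lit 226))))) (XT.nd (nat_lit 312) (nat_lit 988) (nat_lit 0) (XT.nd (nat_lit 156) (nat_lit 608) (nat_lit 0) (XT.nd (nat_lit 78) (nat_lit 532) (nat_lit 0) (XT.lf (nat_lit 0) (nat_lit 35645519116) (nat_lit 532) (nat_lit 10858208358) (nat_lit 608) (nat_lit 8820409620) (nat_lit 232) (nat_lit 5) (nat_lit 239) (nat_lit 5) (nat_lit 240) (nat_lit 5) (nat_lit 500) (nat_lit 475) (nat_lit 225)) (XT.lf (nat_lit 0) (nat_lit 10608959056) (nat_lit 532) (nat_lit 43183074945) (nat_lit 608) (nat_lit 2465025867) (nat_lit 225) (nat_lit 5) (nat_lit 232) (nat_lit 5) (nat_lit 233) (nat_lit 5) (nat_lit 501) (nat_lit 475) (nat_lit 224))) (XT.nd (nat_lit 78) (nat_lit 532) (nat_lit 0) (XT.lf (nat_lit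 0) (nat_lit 4308612824) (nat_lit 608) (nat_lit 15153187800) (nat_lit 76) (nat_lit 37745776149) (nat_lit 224) (nat_lit 5) (nat_lit 232) (nat_lit 5) (nat_lit 225) (nat_lit 5) (nat_lit 502) (nat_lit 475) (nat_lit 223)) (XT.lf (nat_lit 0) (nat_lit 11443713930) (nat_lit 608) (nat_lit 41676535720) (nat_lit 76) (nat_lit 5059393600) (nat_lit 217) (nat_lit 5) (nat_lit 225) (nat_lit 5) (nat_lit 218) (nat_lit 5) (nat_lit 503) (nat_lit 475) (nat_lit 222)))) (XT.nd (nat_lit 156) (nat_lit 456) (nat_lit 0) (XT.nd (nat_lit 78) (nat_lit 532) (nat_lit 0) (XT.lf (nat_lit 0) (nat_lit 19139175458) (nat_lit 608) (nat_lit 9951788143) (nat_lit 76) (nat_lit 30079519078) (nat_lit 217) (nat_lit 5) (nat_lit 225) (nat_lit 5) (nat_lit 218) (nat_lit 5) (nat_lit 504) (nat_lit 475) (nat_lit 221)) (XT.lf (nat_lit 0) (nat_lit 23175959923) (nat_lit 532) (nat_lit 4111432883) (nat_lit 608) (nat_lit 32896997899) (nat_lit 210) (nat_lit 5) (nat_lit 217)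 (nat_lit 5) (nat_lit 218) (nat_lit 5) (nat_lit 505) (nat_lit 475) (nat_lit 220))) (XT.nd (nat_lit 78) (nat_lit 456) (nat_lit 0) (XT.lf (nat_lit 0) (nat_lit 35988471643) (nat_lit 608) (nat_lit 3933958343) (nat_lit 76) (nat_lit 21297033707) (nat_lit 210) (nat_lit 5) (nat_lit 218) (nat_lit 5) (nat_lit 211) (nat_lit 5) (nat_lit 506) (nat_lit 475) (nat_lit 219)) (XT.lf (nat_lit 0) (nat_lit 30689937433) (nat_lit 456) (nat_lit 14595514533) (nat_lit 532) (nat_lit 16990090994) (nat_lit 204) (nat_lit 5) (nat_lit 210) (nat_lit 5) (nat_lit 211) (nat_lit 5) (nat_lit 507) (nat_lit 475) (nat_lit 218)))))) (XT.nd (nat_lit 624) (nat_lit 1976) (nat_lit 0) (XT.nd (nat_lit 312) (nat_lit 836) (nat_lit 0) (XT.nd (nat_lit 156) (nat_lit 456) (nat_lit 0) (XT.nd (nat_lit 78) (nat_lit 76) (nat_lit 0) (XT.lf (nat_lit 0) (nat_lit 3018131160) (nat_lit 456) (nat_lit 52021967353) (nat_lit 532) (nat_lit 8317843548) (nat_lit 198) (nat_lit 5) (nat_lit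 204) (nat_lit 5) (nat_lit 205) (nat_lit 5) (nat_lit 508) (nat_lit 475) (nat_lit 217)) (XT.lf (nat_lit 0) (nat_lit 1068371701) (nat_lit 532) (nat_lit 25310362340) (nat_lit 76) (nat_lit 38079928228) (nat_lit 197) (nat_lit 5) (nat_lit 204) (nat_lit 5) (nat_lit 198) (nat_lit 5) (nat_lit 509) (nat_lit 475) (nat_lit 216))) (XT.nd (nat_lit 78) (nat_lit 0) (nat_lit 0) (XT.lf (nat_lit 0) (nat_lit 10675136391) (nat_lit 532) (nat_lit 54689657603) (nat_lit 76) (nat_lit 221955287) (nat_lit 191) (nat_lit 5) (nat_lit 198) (nat_lit 5) (nat_lit 192) (nat_lit 5) (nat_lit 510) (nat_lit 475) (nat_lit 215)) (XT.lf (nat_lit 0) (nat_lit 21088604084) (nat_lit 532) (nat_lit 18296090324) (nat_lit 76) (nat_lit 27348429633) (nat_lit 191) (nat_lit 5) (nat_lit 198) (nat_lit 5) (nat_lit 192) (nat_lit 5) (nat_lit 511) (nat_lit 475) (nat_lit 214)))) (XT.nd (nat_lit 156) (nat_lit 380) (nat_lit 0) (XT.nd (nat_lit 78) (nat_lit 0) (nat_lit 0) (XT.lf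 (nat_lit 0) (nat_lit 19570218181) (nat_lit 456) (nat_lit 12431610480) (nat_lit 532) (nat_lit 35906440937) (nat_lit 185) (nat_lit 5) (nat_lit 191) (nat_lit 5) (nat_lit 192) (nat_lit 5) (nat_lit 512) (nat_lit 475) (nat_lit 213)) (XT.lf (nat_lit 0) (nat_lit 43575639301) (nat_lit 532) (nat_lit 10315713138) (nat_lit 76) (nat_lit 15217321535) (nat_lit 185) (nat_lit 5) (nat_lit 192) (nat_lit 5) (nat_lit 186) (nat_lit 5) (nat_lit 513) (nat_lit 475) (nat_lit 212))) (XT.nd (nat_lit 78) (nat_lit 0) (nat_lit 0) (XT.lf (nat_lit 0) (nat_lit 29294924690) (nat_lit 380) (nat_lit 26605691055) (nat_lit 456) (nat_lit 14432356322) (nat_lit 180) (nat_lit 5) (nat_lit 185) (nat_lit 5) (nat_lit 186) (nat_lit 5) (nat_lit 514) (nat_lit 475) (nat_lit 211)) (XT.lf (nat_lit 0) (nat_lit 68714222249) (nat_lit 456) (nat_lit 1301912149) (nat_lit 76) (nat_lit 1574298408) (nat_lit 180) (nat_lit 5) (nat_lit 186) (nat_lit 5) (nat_lit 181) (nat_lit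 5) (nat_lit 515) (nat_lit 475) (nat_lit 210))))) (XT.nd (nat_lit 312) (nat_lit 760) (nat_lit 0) (XT.nd (nat_lit 156) (nat_lit 380) (nat_lit 0) (XT.nd (nat_lit 78) (nat_lit 380) (nat_lit 0) (XT.lf (nat_lit 0) (nat_lit 9505521029) (nat_lit 456) (nat_lit 32814003430) (nat_lit 76) (nat_lit 30543838645) (nat_lit 174) (nat_lit 5) (nat_lit 180) (nat_lit 5) (nat_lit 175) (nat_lit 5) (nat_lit 516) (nat_lit 475) (nat_lit 209)) (XT.lf (nat_lit 0) (nat_lit 8632695170) (nat_lit 380) (nat_lit 13663761978) (nat_lit 456) (nat_lit 51874303111) (nat_lit 169) (nat_lit 5) (nat_lit 174) (nat_lit 5) (nat_lit 175) (nat_lit 5) (nat_lit 517) (nat_lit 475) (nat_lit 208))) (XT.nd (nat_lit 78) (nat_lit 380) (nat_lit 0) (XT.lf (nat_lit 0) (nat_lit 35957446447) (nat_lit 456) (nat_lit 23668578182) (nat_lit 76) (nat_lit 15876765059) (nat_lit 169) (nat_lit 5) (nat_lit 175) (nat_lit 5) (nat_lit 170) (nat_lit 5) (nat_lit 518) (nat_lit 475) (nat_lit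 207)) (XT.lf (nat_lit 0) (nat_lit 19705325138) (nat_lit 380) (nat_lit 30646976016) (nat_lit 456) (nat_lit 26512757882) (nat_lit 164) (nat_lit 5) (nat_lit 169) (nat_lit 5) (nat_lit 170) (nat_lit 5) (nat_lit 519) (nat_lit 475) (nat_lit 206)))) (XT.nd (nat_lit 156) (nat_lit 380) (nat_lit 0) (XT.nd (nat_lit 78) (nat_lit 380) (nat_lit 0) (XT.lf (nat_lit 0) (nat_lit 64864731791) (nat_lit 380) (nat_lit 552618120) (nat_lit 456) (nat_lit 12843696206) (nat_lit 164) (nat_lit 5) (nat_lit 169) (nat_lit 5) (nat_lit 170) (nat_lit 5) (nat_lit 520) (nat_lit 475) (nat_lit 205)) (XT.lf (nat_lit 0) (nat_lit 1816988646) (nat_lit 380) (nat_lit 47687613964) (nat_lit 76) (nat_lit 30175784254) (nat_lit 159) (nat_lit 5) (nat_lit 164) (nat_lit 5) (nat_lit 160) (nat_lit 5) (nat_lit 521) (nat_lit 475) (nat_lit 204))) (XT.nd (nat_lit 78) (nat_lit 380) (nat_lit 0) (XT.lf (nat_lit 0) (nat_lit 16800798802) (nat_lit 380) (nat_lit 2254973045) (nat_lit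 76) (nat_lit 62078477611) (nat_lit 159) (nat_lit 5) (nat_lit 164) (nat_lit 5) (nat_lit 160) (nat_lit 5) (nat_lit 522) (nat_lit 475) (nat_lit 203)) (XT.lf (nat_lit 0) (nat_lit 32792788205) (nat_lit 456) (nat_lit 37315054879) (nat_lit 76) (nat_lit 12507124992) (nat_lit 154) (nat_lit 5) (nat_lit 160) (nat_lit 5) (nat_lit 155) (nat_lit 5) (nat_lit 523) (nat_lit 475) (nat_lit 202))))))))
noncomputable def xc234 : XT := (XT.nd (nat_lit 60060) (nat_lit 0) (nat_lit 2888) (XT.nd (nat_lit 58890) (nat_lit 0) (nat_lit 11704) (XT.nd (nat_lit 546) (nat_lit 1216) (nat_lit 0) (XT.nd (nat_lit 234) (nat_lit 684) (nat_lit 0) (XT.nd (nat_lit 78) (nat_lit 304) (nat_lit 0) (XT.lf (nat_lit 0) (nat_lit 10197465523) (nat_lit 304) (nat_lit 39376152244) (nat_lit 380) (nat_lit 34557218162) (nat_lit 150) (nat_lit 5) (nat_lit 154) (nat_lit 5) (nat_lit 155) (nat_lit 5) (nat_lit 524) (nat_lit 475) (nat_lit 201)) (XT.nd (nat_lit 78) (nat_lit 304)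 (nat_lit 0) (XT.lf (nat_lit 0) (nat_lit 59899419205) (nat_lit 304) (nat_lit 7334660320) (nat_lit 380) (nat_lit 18446814162) (nat_lit 150) (nat_lit 5) (nat_lit 154) (nat_lit 5) (nat_lit 155) (nat_lit 5) (nat_lit 525) (nat_lit 475) (nat_lit 200)) (XT.lf (nat_lit 0) (nat_lit 24036423920) (nat_lit 304) (nat_lit 61865134769) (nat_lit 380) (nat_lit 1361578466) (nat_lit 146) (nat_lit 5) (nat_lit 150) (nat_lit 5) (nat_lit 151) (nat_lit 5) (nat_lit 526) (nat_lit 475) (nat_lit 199)))) (XT.nd (nat_lit 156) (nat_lit 304) (nat_lit 0) (XT.nd (nat_lit 78) (nat_lit 304) (nat_lit 0) (XT.lf (nat_lit 0) (nat_lit 16254344305) (nat_lit 380) (nat_lit 13239811571) (nat_lit 76) (nat_lit 59383961250) (nat_lit 145) (nat_lit 5) (nat_lit 150) (nat_lit 5) (nat_lit 146) (nat_lit 5) (nat_lit 527) (nat_lit 475) (nat_lit 198)) (XT.lf (nat_lit 0) (nat_lit 34786470252) (nat_lit 380) (nat_lit 51577462389) (nat_lit 76) (nat_lit 4164756748) (nat_lit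 141) (nat_lit 5) (nat_lit 146) (nat_lit 5) (nat_lit 142) (nat_lit 5) (nat_lit 528) (nat_lit 475) (nat_lit 197))) (XT.nd (nat_lit 78) (nat_lit 0) (nat_lit 0) (XT.lf (nat_lit 0) (nat_lit 469611932) (nat_lit 304) (nat_lit 53835943087) (nat_lit 380) (nat_lit 37910294026) (nat_lit 137) (nat_lit 5) (nat_lit 141) (nat_lit 5) (nat_lit 142) (nat_lit 5) (nat_lit 529) (nat_lit 475) (nat_lit 196)) (XT.lf (nat_lit 0) (nat_lit 55134555350) (nat_lit 304) (nat_lit 19795936193) (nat_lit 380) (nat_lit 19007523644) (nat_lit 137) (nat_lit 5) (nat_lit 141) (nat_lit 5) (nat_lit 142) (nat_lit 5) (nat_lit 530) (nat_lit 475) (nat_lit 195))))) (XT.nd (nat_lit 312) (nat_lit 608) (nat_lit 0) (XT.nd (nat_lit 156) (nat_lit 304) (nat_lit 0) (XT.nd (nat_lit 78) (nat_lit 0) (nat_lit 0) (XT.lf (nat_lit 0) (nat_lit 755214004) (nat_lit 304) (nat_lit 79820166957) (nat_lit 76) (nat_lit 15127274920) (nat_lit 133) (nat_lit 5) (nat_lit 137) (nat_lit 5)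 (nat_lit 134) (nat_lit 5) (nat_lit 531) (nat_lit 475) (nat_lit 194)) (XT.lf (nat_lit 0) (nat_lit 21319983212) (nat_lit 304) (nat_lit 24892926463) (nat_lit 76) (nat_lit 51283944935) (nat_lit 133) (nat_lit 5) (nat_lit 137) (nat_lit 5) (nat_lit 134) (nat_lit 5) (nat_lit 532) (nat_lit 475) (nat_lit 193))) (XT.nd (nat_lit 78) (nat_lit 0) (nat_lit 0) (XT.lf (nat_lit 0) (nat_lit 32311853240) (nat_lit 304) (nat_lit 10499923181) (nat_lit 380) (nat_lit 56523800517) (nat_lit 129) (nat_lit 5) (nat_lit 133) (nat_lit 5) (nat_lit 134) (nat_lit 5) (nat_lit 533) (nat_lit 475) (nat_lit 192)) (XT.lf (nat_lit 0) (nat_lit 65454328733) (nat_lit 380) (nat_lit 9734817561) (nat_lit 76) (nat_lit 26025134547) (nat_lit 129) (nat_lit 5) (nat_lit 134) (nat_lit 5) (nat_lit 130) (nat_lit 5) (nat_lit 534) (nat_lit 475) (nat_lit 191)))) (XT.nd (nat_lit 57876) (nat_lit 0) (nat_lit 11628) (XT.nd (nat_lit 78) (nat_lit 380) (nat_lit 0) (XT.lf (nat_lit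 0) (nat_lit 50146555864) (nat_lit 228) (nat_lit 39215100279) (nat_lit 304) (nat_lit 13770124823) (nat_lit 126) (nat_lit 5) (nat_lit 129) (nat_lit 5) (nat_lit 130) (nat_lit 5) (nat_lit 535) (nat_lit 475) (nat_lit 190)) (XT.lf (nat_lit 0) (nat_lit 6968946944) (nat_lit 304) (nat_lit 1902948686) (nat_lit 380) (nat_lit 96227376877) (nat_lit 121) (nat_lit 5) (nat_lit 125) (nat_lit 5) (nat_lit 126) (nat_lit 5) (nat_lit 536) (nat_lit 475) (nat_lit 189))) (XT.nd (nat_lit 78) (nat_lit 0) (nat_lit 0) (XT.lf (nat_lit 0) (nat_lit 7329527844) (nat_lit 1292) (nat_lit 5950245894) (nat_lit 1292) (nat_lit 5950245894) (nat_lit 274) (nat_lit 3) (nat_lit 291) (nat_lit 3) (nat_lit 291) (nat_lit 5) (nat_lit 476) (nat_lit 476) (nat_lit 248)) (XT.lf (nat_lit 76) (nat_lit 7081820006) (nat_lit 0) (nat_lit 7909069173) (nat_lit 1292) (nat_lit 24042682041) (nat_lit 275) (nat_lit 5) (nat_lit 274) (nat_lit 3) (nat_lit 291) (nat_lit 5) (nat_lit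 477) (nat_lit 476) (nat_lit 247)))))) (XT.nd (nat_lit 546) (nat_lit 0) (nat_lit 228) (XT.nd (nat_lit 234) (nat_lit 0) (nat_lit 76) (XT.nd (nat_lit 78) (nat_lit 0) (nat_lit 0) (XT.lf (nat_lit 0) (nat_lit 15560957527) (nat_lit 1216) (nat_lit 12853935093) (nat_lit 1292) (nat_lit 11202568512) (nat_lit 275) (nat_lit 5) (nat_lit 291) (nat_lit 5) (nat_lit 292) (nat_lit 5) (nat_lit 478) (nat_lit 476) (nat_lit 246)) (XT.nd (nat_lit 78) (nat_lit 0) (nat_lit 76) (XT.lf (nat_lit 76) (nat_lit 6871667347) (nat_lit 0) (nat_lit 9419159770) (nat_lit 1292) (nat_lit 23923760038) (nat_lit 276) (nat_lit 5) (nat_lit 275) (nat_lit 5) (nat_lit 292) (nat_lit 5) (nat_lit 479) (nat_lit 476) (nat_lit 245)) (XT.lf (nat_lit 0) (nat_lit 17269594536) (nat_lit 1216) (nat_lit 13472999239) (nat_lit 1292) (nat_lit 10080223506) (nat_lit 276) (nat_lit 5) (nat_lit 292) (nat_lit 5) (nat_lit 293) (nat_lit 5) (nat_lit 480) (nat_lit 476) (nat_lit 244))))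 (XT.nd (nat_lit 156) (nat_lit 0) (nat_lit 76) (XT.nd (nat_lit 78) (nat_lit 0) (nat_lit 76) (XT.lf (nat_lit 76) (nat_lit 7036110063) (nat_lit 0) (nat_lit 11400939623) (nat_lit 1292) (nat_lit 23007465247) (nat_lit 277) (nat_lit 5) (nat_lit 276) (nat_lit 5) (nat_lit 293) (nat_lit 5) (nat_lit 481) (nat_lit 476) (nat_lit 243)) (XT.lf (nat_lit 0) (nat_lit 19857307811) (nat_lit 1216) (nat_lit 13728354281) (nat_lit 1292) (nat_lit 8492668399) (nat_lit 277) (nat_lit 5) (nat_lit 293) (nat_lit 5) (nat_lit 294) (nat_lit 5) (nat_lit 482) (nat_lit 476) (nat_lit 242))) (XT.nd (nat_lit 78) (nat_lit 0) (nat_lit 76) (XT.lf (nat_lit 76) (nat_lit 7606687559) (nat_lit 0) (nat_lit 13898004012) (nat_lit 1292) (nat_lit 21220933750) (nat_lit 278) (nat_lit 5) (nat_lit 277) (nat_lit 5) (nat_lit 294) (nat_lit 5) (nat_lit 483) (nat_lit 476) (nat_lit 241)) (XT.lf (nat_lit 0) (nat_lit 23401386009) (nat_lit 1216) (nat_lit 13588688068) (nat_lit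 1292) (nat_lit 6396268578) (nat_lit 278) (nat_lit 5) (nat_lit 294) (nat_lit 5) (nat_lit 295) (nat_lit 5) (nat_lit 484) (nat_lit 476) (nat_lit 240))))) (XT.nd (nat_lit 312) (nat_lit 0) (nat_lit 152) (XT.nd (nat_lit 156) (nat_lit 0) (nat_lit 76) (XT.nd (nat_lit 78) (nat_lit 0) (nat_lit 76) (XT.lf (nat_lit 76) (nat_lit 8617041175) (nat_lit 0) (nat_lit 16956974378) (nat_lit 1292) (nat_lit 18486295253) (nat_lit 279) (nat_lit 5) (nat_lit 278) (nat_lit 5) (nat_lit 295) (nat_lit 5) (nat_lit 485) (nat_lit 476) (nat_lit 239)) (XT.lf (nat_lit 0) (nat_lit 27984381884) (nat_lit 1216) (nat_lit 13020598905) (nat_lit 1292) (nat_lit 3744340788) (nat_lit 279) (nat_lit 5) (nat_lit 295) (nat_lit 5) (nat_lit 296) (nat_lit 5) (nat_lit 486) (nat_lit 476) (nat_lit 238))) (XT.nd (nat_lit 78) (nat_lit 0) (nat_lit 76) (XT.lf (nat_lit 76) (nat_lit 10103027719) (nat_lit 0) (nat_lit 20627712085) (nat_lit 1292) (nat_lit 14720352755) (nat_lit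 280) (nat_lit 5) (nat_lit 279) (nat_lit 5) (nat_lit 296) (nat_lit 5) (nat_lit 487) (nat_lit 476) (nat_lit 237)) (XT.lf (nat_lit 0) (nat_lit 33694447478) (nat_lit 1216) (nat_lit 11988482900) (nat_lit 1292) (nat_lit 486937819) (nat_lit 280) (nat_lit 5) (nat_lit 296) (nat_lit 5) (nat_lit 297) (nat_lit 5) (nat_lit 488) (nat_lit 476) (nat_lit 236)))) (XT.nd (nat_lit 156) (nat_lit 0) (nat_lit 76) (XT.nd (nat_lit 78) (nat_lit 0) (nat_lit 0) (XT.lf (nat_lit 76) (nat_lit 12102838588) (nat_lit 0) (nat_lit 24963545894) (nat_lit 1292) (nat_lit 9834243367) (nat_lit 281) (nat_lit 5) (nat_lit 280) (nat_lit 5) (nat_lit 297) (nat_lit 5) (nat_lit 489) (nat_lit 476) (nat_lit 235)) (XT.lf (nat_lit 76) (nat_lit 37161678394) (nat_lit 0) (nat_lit 3497632052) (nat_lit 1292) (nat_lit 6990405197) (nat_lit 281) (nat_lit 5) (nat_lit 280) (nat_lit 5) (nat_lit 297) (nat_lit 5) (nat_lit 490) (nat_lit 476) (nat_lit 234))) (XT.nd (nat_lit 78)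 (nat_lit 0) (nat_lit 0) (XT.lf (nat_lit 76) (nat_lit 14657124610) (nat_lit 0) (nat_lit 30021514123) (nat_lit 1292) (nat_lit 3733079175) (nat_lit 282) (nat_lit 5) (nat_lit 281) (nat_lit 5) (nat_lit 298) (nat_lit 5) (nat_lit 491) (nat_lit 476) (nat_lit 233)) (XT.lf (nat_lit 76) (nat_lit 40735342642) (nat_lit 0) (nat_lit 8222237552) (nat_lit 1292) (nat_lit 234829309) (nat_lit 282) (nat_lit 5) (nat_lit 281) (nat_lit 5) (nat_lit 298) (nat_lit 5) (nat_lit 492) (nat_lit 476) (nat_lit 232))))))) (XT.nd (nat_lit 1170) (nat_lit 3876) (nat_lit 0) (XT.nd (nat_lit 546) (nat_lit 2204) (nat_lit 0) (XT.nd (nat_lit 234) (nat_lit 1216) (nat_lit 0) (XT.nd (nat_lit 78) (nat_lit 760) (nat_lit 0) (XT.lf (nat_lit 0) (nat_lit 3612536435) (nat_lit 1292) (nat_lit 32213606586) (nat_lit 76) (nat_lit 14160110788) (nat_lit 265) (nat_lit 5) (nat_lit 282) (nat_lit 5) (nat_lit 266) (nat_lit 5) (nat_lit 493) (nat_lit 476) (nat_lit 231)) (XT.nd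 (nat_lit 78) (nat_lit 760) (nat_lit 0) (XT.lf (nat_lit 0) (nat_lit 7737139266) (nat_lit 1292) (nat_lit 5924310454) (nat_lit 76) (nat_lit 37137398136) (nat_lit 265) (nat_lit 5) (nat_lit 282) (nat_lit 5) (nat_lit 266) (nat_lit 5) (nat_lit 494) (nat_lit 476) (nat_lit 230)) (XT.lf (nat_lit 0) (nat_lit 12281959069) (nat_lit 836) (nat_lit 30146136460) (nat_lit 76) (nat_lit 9198830061) (nat_lit 255) (nat_lit 5) (nat_lit 266) (nat_lit 5) (nat_lit 256) (nat_lit 5) (nat_lit 495) (nat_lit 476) (nat_lit 229)))) (XT.nd (nat_lit 156) (nat_lit 608) (nat_lit 0) (XT.nd (nat_lit 78) (nat_lit 608) (nat_lit 0) (XT.lf (nat_lit 0) (nat_lit 17157739897) (nat_lit 836) (nat_lit 2785410015) (nat_lit 76) (nat_lit 32530857479) (nat_lit 255) (nat_lit 5) (nat_lit 266) (nat_lit 5) (nat_lit 256) (nat_lit 5) (nat_lit 496) (nat_lit 476) (nat_lit 228)) (XT.lf (nat_lit 0) (nat_lit 22461118939) (nat_lit 684) (nat_lit 27471855111) (nat_lit 76) (nat_lit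 3405088073) (nat_lit 247) (nat_lit 5) (nat_lit 256) (nat_lit 5) (nat_lit 248) (nat_lit 5) (nat_lit 497) (nat_lit 476) (nat_lit 227))) (XT.nd (nat_lit 78) (nat_lit 0) (nat_lit 0) (XT.lf (nat_lit 0) (nat_lit 1028630927) (nat_lit 608) (nat_lit 27129709539) (nat_lit 684) (nat_lit 26062656011) (nat_lit 239) (nat_lit 5) (nat_lit 247) (nat_lit 5) (nat_lit 248) (nat_lit 5) (nat_lit 498) (nat_lit 476) (nat_lit 226)) (XT.lf (nat_lit 0) (nat_lit 30946305279) (nat_lit 608) (nat_lit 3356595970) (nat_lit 684) (nat_lit 20819225143) (nat_lit 239) (nat_lit 5) (nat_lit 247) (nat_lit 5) (nat_lit 248) (nat_lit 5) (nat_lit 499) (nat_lit 476) (nat_lit 225))))) (XT.nd (nat_lit 312) (nat_lit 1064) (nat_lit 0) (XT.nd (nat_lit 156) (nat_lit 608) (nat_lit 0) (XT.nd (nat_lit 78) (nat_lit 0) (nat_lit 0) (XT.lf (nat_lit 0) (nat_lit 5616737508) (nat_lit 532) (nat_lit 35271204282) (nat_lit 608) (nat_lit 15154664328) (nat_lit 232) (nat_lit 5)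 (nat_lit 239) (nat_lit 5) (nat_lit 240) (nat_lit 5) (nat_lit 500) (nat_lit 476) (nat_lit 224)) (XT.lf (nat_lit 0) (nat_lit 36763794808) (nat_lit 532) (nat_lit 11182833350) (nat_lit 608) (nat_lit 9035789437) (nat_lit 232) (nat_lit 5) (nat_lit 239) (nat_lit 5) (nat_lit 240) (nat_lit 5) (nat_lit 501) (nat_lit 476) (nat_lit 223))) (XT.nd (nat_lit 78) (nat_lit 76) (nat_lit 0) (XT.lf (nat_lit 0) (nat_lit 10977077221) (nat_lit 532) (nat_lit 44475604398) (nat_lit 608) (nat_lit 2490673791) (nat_lit 225) (nat_lit 5) (nat_lit 232) (nat_lit 5) (nat_lit 233) (nat_lit 5) (nat_lit 502) (nat_lit 476) (nat_lit 222)) (XT.lf (nat_lit 0) (nat_lit 4483852073) (nat_lit 608) (nat_lit 15558461753) (nat_lit 76) (nat_lit 38880101723) (nat_lit 224) (nat_lit 5) (nat_lit 232) (nat_lit 5) (nat_lit 225) (nat_lit 5) (nat_lit 503) (nat_lit 476) (nat_lit 221)))) (XT.nd (nat_lit 156) (nat_lit 532) (nat_lit 0) (XT.nd (nat_lit 78) (nat_lit 0) (nat_lit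 0) (XT.lf (nat_lit 0) (nat_lit 11832172252) (nat_lit 608) (nat_lit 42876667314) (nat_lit 76) (nat_lit 5214829738) (nat_lit 217) (nat_lit 5) (nat_lit 225) (nat_lit 5) (nat_lit 218) (nat_lit 5) (nat_lit 504) (nat_lit 476) (nat_lit 220)) (XT.lf (nat_lit 0) (nat_lit 19757182668) (nat_lit 608) (nat_lit 10201638411) (nat_lit 76) (nat_lit 30985452543) (nat_lit 217) (nat_lit 5) (nat_lit 225) (nat_lit 5) (nat_lit 218) (nat_lit 5) (nat_lit 505) (nat_lit 476) (nat_lit 219))) (XT.nd (nat_lit 78) (nat_lit 0) (nat_lit 0) (XT.lf (nat_lit 0) (nat_lit 23919464613) (nat_lit 532) (nat_lit 4229568842) (nat_lit 608) (nat_lit 33839590076) (nat_lit 210) (nat_lit 5) (nat_lit 217) (nat_lit 5) (nat_lit 218) (nat_lit 5) (nat_lit 506) (nat_lit 476) (nat_lit 218)) (XT.lf (nat_lit 0) (nat_lit 37109940275) (nat_lit 608) (nat_lit 4003943370) (nat_lit 76) (nat_lit 21940901437) (nat_lit 210) (nat_lit 5) (nat_lit 218) (nat_lit 5) (nat_lit 211) (nat_lit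 5) (nat_lit 507) (nat_lit 476) (nat_lit 217)))))) (XT.nd (nat_lit 624) (nat_lit 1596) (nat_lit 0) (XT.nd (nat_lit 312) (nat_lit 836) (nat_lit 0) (XT.nd (nat_lit 156) (nat_lit 532) (nat_lit 0) (XT.nd (nat_lit 78) (nat_lit 456) (nat_lit 0) (XT.lf (nat_lit 0) (nat_lit 31658198360) (nat_lit 456) (nat_lit 15026870953) (nat_lit 532) (nat_lit 17457500471) (nat_lit 204) (nat_lit 5) (nat_lit 210) (nat_lit 5) (nat_lit 211) (nat_lit 5) (nat_lit 508) (nat_lit 476) (nat_lit 216)) (XT.lf (nat_lit 0) (nat_lit 3156936955) (nat_lit 456) (nat_lit 53574747228) (nat_lit 532) (nat_lit 8525777035) (nat_lit 198) (nat_lit 5) (nat_lit 204) (nat_lit 5) (nat_lit 205) (nat_lit 5) (nat_lit 509) (nat_lit 476) (nat_lit 215))) (XT.nd (nat_lit 78) (nat_lit 456) (nat_lit 0) (XT.lf (nat_lit 0) (nat_lit 1140024811) (nat_lit 532) (nat_lit 26022021693) (nat_lit 76) (nat_lit 39229180389) (nat_lit 197) (nat_lit 5) (nat_lit 204) (nat_lit 5) (nat_lit 198)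 (nat_lit 5) (nat_lit 510) (nat_lit 476) (nat_lit 214)) (XT.lf (nat_lit 0) (nat_lit 11034372166) (nat_lit 532) (nat_lit 56282068563) (nat_lit 76) (nat_lit 236734604) (nat_lit 191) (nat_lit 5) (nat_lit 198) (nat_lit 5) (nat_lit 192) (nat_lit 5) (nat_lit 511) (nat_lit 476) (nat_lit 213)))) (XT.nd (nat_lit 156) (nat_lit 380) (nat_lit 0) (XT.nd (nat_lit 78) (nat_lit 456) (nat_lit 0) (XT.lf (nat_lit 0) (nat_lit 21759108501) (nat_lit 532) (nat_lit 18798100443) (nat_lit 76) (nat_lit 28176766657) (nat_lit 191) (nat_lit 5) (nat_lit 198) (nat_lit 5) (nat_lit 192) (nat_lit 5) (nat_lit 512) (nat_lit 476) (nat_lit 212)) (XT.lf (nat_lit 0) (nat_lit 20203737782) (nat_lit 456) (nat_lit 12795335865) (nat_lit 532) (nat_lit 36945321760) (nat_lit 185) (nat_lit 5) (nat_lit 191) (nat_lit 5) (nat_lit 192) (nat_lit 5) (nat_lit 513) (nat_lit 476) (nat_lit 211))) (XT.nd (nat_lit 78) (nat_lit 380) (nat_lit 0) (XT.lf (nat_lit 0) (nat_lit 44919101473)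 (nat_lit 532) (nat_lit 10579119796) (nat_lit 76) (nat_lit 15682620751) (nat_lit 185) (nat_lit 5) (nat_lit 192) (nat_lit 5) (nat_lit 186) (nat_lit 5) (nat_lit 514) (nat_lit 476) (nat_lit 210)) (XT.lf (nat_lit 0) (nat_lit 30219385552) (nat_lit 380) (nat_lit 27393825954) (nat_lit 456) (nat_lit 14828676206) (nat_lit 180) (nat_lit 5) (nat_lit 185) (nat_lit 5) (nat_lit 186) (nat_lit 5) (nat_lit 515) (nat_lit 476) (nat_lit 209))))) (XT.nd (nat_lit 312) (nat_lit 760) (nat_lit 0) (XT.nd (nat_lit 156) (nat_lit 380) (nat_lit 0) (XT.nd (nat_lit 78) (nat_lit 456) (nat_lit 0) (XT.lf (nat_lit 0) (nat_lit 70810283634) (nat_lit 456) (nat_lit 1295736342) (nat_lit 76) (nat_lit 1631080755) (nat_lit 180) (nat_lit 5) (nat_lit 186) (nat_lit 5) (nat_lit 181) (nat_lit 5) (nat_lit 516) (nat_lit 476) (nat_lit 208)) (XT.lf (nat_lit 0) (nat_lit 9825086067) (nat_lit 456) (nat_lit 33752943536) (nat_lit 76) (nat_lit 31470196740) (nat_lit 174)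 (nat_lit 5) (nat_lit 180) (nat_lit 5) (nat_lit 175) (nat_lit 5) (nat_lit 517) (nat_lit 476) (nat_lit 207))) (XT.nd (nat_lit 78) (nat_lit 0) (nat_lit 0) (XT.lf (nat_lit 0) (nat_lit 8936710140) (nat_lit 380) (nat_lit 14062471100) (nat_lit 456) (nat_lit 53395681409) (nat_lit 169) (nat_lit 5) (nat_lit 174) (nat_lit 5) (nat_lit 175) (nat_lit 5) (nat_lit 518) (nat_lit 476) (nat_lit 206)) (XT.lf (nat_lit 0) (nat_lit 37069119428) (nat_lit 456) (nat_lit 24334026949) (nat_lit 76) (nat_lit 16363733167) (nat_lit 169) (nat_lit 5) (nat_lit 175) (nat_lit 5) (nat_lit 170) (nat_lit 5) (nat_lit 519) (nat_lit 476) (nat_lit 205)))) (XT.nd (nat_lit 156) (nat_lit 380) (nat_lit 0) (XT.nd (nat_lit 78) (nat_lit 0) (nat_lit 0) (XT.lf (nat_lit 0) (nat_lit 20340656131) (nat_lit 380) (nat_lit 31554628549) (nat_lit 456) (nat_lit 27274748501) (nat_lit 164) (nat_lit 5) (nat_lit 169) (nat_lit 5) (nat_lit 170) (nat_lit 5) (nat_lit 520) (nat_lit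 476) (nat_lit 204)) (XT.lf (nat_lit 0) (nat_lit 66853558444) (nat_lit 380) (nat_lit 557782345) (nat_lit 456) (nat_lit 13196587561) (nat_lit 164) (nat_lit 5) (nat_lit 169) (nat_lit 5) (nat_lit 170) (nat_lit 5) (nat_lit 521) (nat_lit 476) (nat_lit 203))) (XT.nd (nat_lit 78) (nat_lit 0) (nat_lit 0) (XT.lf (nat_lit 0) (nat_lit 1902887266) (nat_lit 380) (nat_lit 49074317470) (nat_lit 76) (nat_lit 31092647314) (nat_lit 159) (nat_lit 5) (nat_lit 164) (nat_lit 5) (nat_lit 160) (nat_lit 5) (nat_lit 522) (nat_lit 476) (nat_lit 202)) (XT.lf (nat_lit 0) (nat_lit 17335297485) (nat_lit 380) (nat_lit 2279976690) (nat_lit 76) (nat_lit 63952083913) (nat_lit 159) (nat_lit 5) (nat_lit 164) (nat_lit 5) (nat_lit 160) (nat_lit 5) (nat_lit 523) (nat_lit 476) (nat_lit 201))))))))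
noncomputable def xc235 : XT := (XT.nd (nat_lit 60216) (nat_lit 0) (nat_lit 1900) (XT.nd (nat_lit 59046) (nat_lit 0) (nat_lit 10336) (XT.nd (nat_lit 546) (nat_lit 608) (nat_lit 0) (XT.nd (nat_lit 234) (nat_lit 988) (nat_lit 0) (XT.nd (nat_lit 78) (nat_lit 304) (nat_lit 0) (XT.lf (nat_lit 0) (nat_lit 33806682478) (nat_lit 456) (nat_lit 38391492410) (nat_lit 76) (nat_lit 12894334434) (nat_lit 154) (nat_lit 5) (nat_lit 160) (nat_lit 5) (nat_lit 155) (nat_lit 5) (nat_lit 524) (nat_lit 476) (nat_lit 200)) (XT.nd (nat_lit 78) (nat_lit 0) (nat_lit 0) (XT.lf (nat_lit 0) (nat_lit 10545981897) (nat_lit 304) (nat_lit 40544487445) (nat_lit 380) (nat_lit 35563398026) (nat_lit 150) (nat_lit 5) (nat_lit 154) (nat_lit 5) (nat_lit 155) (nat_lit 5) (nat_lit 525) (nat_lit 476) (nat_lit 199)) (XT.lf (nat_lit 0) (nat_lit 61737753634) (nat_lit 304) (nat_lit 7542127929) (nat_lit 380) (nat_lit 18970571324) (nat_lit 150) (nat_lit 5) (nat_lit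 154) (nat_lit 5) (nat_lit 155) (nat_lit 5) (nat_lit 526) (nat_lit 476) (nat_lit 198)))) (XT.nd (nat_lit 156) (nat_lit 608) (nat_lit 0) (XT.nd (nat_lit 78) (nat_lit 76) (nat_lit 0) (XT.lf (nat_lit 0) (nat_lit 24799202518) (nat_lit 304) (nat_lit 63707862384) (nat_lit 380) (nat_lit 1373108487) (nat_lit 146) (nat_lit 5) (nat_lit 150) (nat_lit 5) (nat_lit 151) (nat_lit 5) (nat_lit 527) (nat_lit 476) (nat_lit 197)) (XT.lf (nat_lit 0) (nat_lit 16769882641) (nat_lit 380) (nat_lit 13595974904) (nat_lit 76) (nat_lit 61177761993) (nat_lit 145) (nat_lit 5) (nat_lit 150) (nat_lit 5) (nat_lit 146) (nat_lit 5) (nat_lit 528) (nat_lit 476) (nat_lit 196))) (XT.nd (nat_lit 78) (nat_lit 304) (nat_lit 0) (XT.lf (nat_lit 0) (nat_lit 35857676399) (nat_lit 380) (nat_lit 53083455529) (nat_lit 76) (nat_lit 4302586032) (nat_lit 141) (nat_lit 5) (nat_lit 146) (nat_lit 5) (nat_lit 142) (nat_lit 5) (nat_lit 529) (nat_lit 476) (nat_lit 195))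 (XT.lf (nat_lit 0) (nat_lit 524625818) (nat_lit 304) (nat_lit 55437297058) (nat_lit 380) (nat_lit 39019581963) (nat_lit 137) (nat_lit 5) (nat_lit 141) (nat_lit 5) (nat_lit 142) (nat_lit 5) (nat_lit 530) (nat_lit 476) (nat_lit 194))))) (XT.nd (nat_lit 312) (nat_lit 0) (nat_lit 0) (XT.nd (nat_lit 156) (nat_lit 304) (nat_lit 0) (XT.nd (nat_lit 78) (nat_lit 304) (nat_lit 0) (XT.lf (nat_lit 0) (nat_lit 56828325533) (nat_lit 304) (nat_lit 20376489695) (nat_lit 380) (nat_lit 19550544612) (nat_lit 137) (nat_lit 5) (nat_lit 141) (nat_lit 5) (nat_lit 142) (nat_lit 5) (nat_lit 531) (nat_lit 476) (nat_lit 193)) (XT.lf (nat_lit 0) (nat_lit 804281340) (nat_lit 304) (nat_lit 82174237854) (nat_lit 76) (nat_lit 15594420704) (nat_lit 133) (nat_lit 5) (nat_lit 137) (nat_lit 5) (nat_lit 134) (nat_lit 5) (nat_lit 532) (nat_lit 476) (nat_lit 192))) (XT.nd (nat_lit 78) (nat_lit 304) (nat_lit 0) (XT.lf (nat_lit 0) (nat_lit 21985224374)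 (nat_lit 304) (nat_lit 25600360751) (nat_lit 76) (nat_lit 52835402639) (nat_lit 133) (nat_lit 5) (nat_lit 137) (nat_lit 5) (nat_lit 134) (nat_lit 5) (nat_lit 533) (nat_lit 476) (nat_lit 191)) (XT.lf (nat_lit 0) (nat_lit 33320176525) (nat_lit 304) (nat_lit 10801222591) (nat_lit 380) (nat_lit 58193483908) (nat_lit 129) (nat_lit 5) (nat_lit 133) (nat_lit 5) (nat_lit 134) (nat_lit 5) (nat_lit 534) (nat_lit 476) (nat_lit 190)))) (XT.nd (nat_lit 58032) (nat_lit 0) (nat_lit 11020) (XT.nd (nat_lit 57954) (nat_lit 0) (nat_lit 11020) (XT.lf (nat_lit 0) (nat_lit 67442619836) (nat_lit 380) (nat_lit 9988418172) (nat_lit 76) (nat_lit 26818928372) (nat_lit 129) (nat_lit 5) (nat_lit 134) (nat_lit 5) (nat_lit 130) (nat_lit 5) (nat_lit 535) (nat_lit 476) (nat_lit 189)) (XT.lf (nat_lit 0) (nat_lit 7592864815) (nat_lit 1292) (nat_lit 6106370882) (nat_lit 1292) (nat_lit 6106370882) (nat_lit 274) (nat_lit 3) (nat_lit 291) (nat_lit 3)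 (nat_lit 291) (nat_lit 5) (nat_lit 477) (nat_lit 477) (nat_lit 246))) (XT.nd (nat_lit 78) (nat_lit 0) (nat_lit 76) (XT.lf (nat_lit 76) (nat_lit 7338600515) (nat_lit 0) (nat_lit 8186812565) (nat_lit 1292) (nat_lit 24676601731) (nat_lit 275) (nat_lit 5) (nat_lit 274) (nat_lit 3) (nat_lit 291) (nat_lit 5) (nat_lit 478) (nat_lit 477) (nat_lit 245)) (XT.lf (nat_lit 0) (nat_lit 16109735953) (nat_lit 1216) (nat_lit 13193651700) (nat_lit 1292) (nat_lit 11500119766) (nat_lit 275) (nat_lit 5) (nat_lit 291) (nat_lit 5) (nat_lit 292) (nat_lit 5) (nat_lit 479) (nat_lit 477) (nat_lit 244)))))) (XT.nd (nat_lit 546) (nat_lit 760) (nat_lit 0) (XT.nd (nat_lit 234) (nat_lit 0) (nat_lit 152) (XT.nd (nat_lit 78) (nat_lit 0) (nat_lit 76) (XT.lf (nat_lit 76) (nat_lit 7123268800) (nat_lit 0) (nat_lit 9736282853) (nat_lit 1292) (nat_lit 24559054622) (nat_lit 276) (nat_lit 5) (nat_lit 275) (nat_lit 5) (nat_lit 292) (nat_lit 5) (nat_lit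 480) (nat_lit 477) (nat_lit 243)) (XT.nd (nat_lit 78) (nat_lit 0) (nat_lit 0) (XT.lf (nat_lit 0) (nat_lit 17865029579) (nat_lit 1216) (nat_lit 13830391134) (nat_lit 1292) (nat_lit 10349742707) (nat_lit 276) (nat_lit 5) (nat_lit 292) (nat_lit 5) (nat_lit 293) (nat_lit 5) (nat_lit 481) (nat_lit 477) (nat_lit 242)) (XT.lf (nat_lit 76) (nat_lit 7293532644) (nat_lit 0) (nat_lit 11772168351) (nat_lit 1292) (nat_lit 23619865753) (nat_lit 277) (nat_lit 5) (nat_lit 276) (nat_lit 5) (nat_lit 293) (nat_lit 5) (nat_lit 482) (nat_lit 477) (nat_lit 241)))) (XT.nd (nat_lit 156) (nat_lit 0) (nat_lit 76) (XT.nd (nat_lit 78) (nat_lit 0) (nat_lit 0) (XT.lf (nat_lit 0) (nat_lit 20526094155) (nat_lit 1216) (nat_lit 14092725680) (nat_lit 1292) (nat_lit 8719651624) (nat_lit 277) (nat_lit 5) (nat_lit 293) (nat_lit 5) (nat_lit 294) (nat_lit 5) (nat_lit 483) (nat_lit 477) (nat_lit 240)) (XT.lf (nat_lit 76) (nat_lit 7881901933) (nat_lit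 0) (nat_lit 14339321253) (nat_lit 1292) (nat_lit 21784012730) (nat_lit 278) (nat_lit 5) (nat_lit 277) (nat_lit 5) (nat_lit 294) (nat_lit 5) (nat_lit 484) (nat_lit 477) (nat_lit 239))) (XT.nd (nat_lit 78) (nat_lit 0) (nat_lit 0) (XT.lf (nat_lit 0) (nat_lit 24172511608) (nat_lit 1216) (nat_lit 13948381487) (nat_lit 1292) (nat_lit 6564951359) (nat_lit 278) (nat_lit 5) (nat_lit 294) (nat_lit 5) (nat_lit 295) (nat_lit 5) (nat_lit 485) (nat_lit 477) (nat_lit 238)) (XT.lf (nat_lit 76) (nat_lit 8923049367) (nat_lit 0) (nat_lit 17485715085) (nat_lit 1292) (nat_lit 18971314329) (nat_lit 279) (nat_lit 5) (nat_lit 278) (nat_lit 5) (nat_lit 295) (nat_lit 5) (nat_lit 486) (nat_lit 477) (nat_lit 237))))) (XT.nd (nat_lit 312) (nat_lit 1064) (nat_lit 0) (XT.nd (nat_lit 156) (nat_lit 0) (nat_lit 76) (XT.nd (nat_lit 78) (nat_lit 0) (nat_lit 0) (XT.lf (nat_lit 0) (nat_lit 28889287979) (nat_lit 1216) (nat_lit 13362934485) (nat_lit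 1292) (nat_lit 3837602477) (nat_lit 279) (nat_lit 5) (nat_lit 295) (nat_lit 5) (nat_lit 296) (nat_lit 5) (nat_lit 487) (nat_lit 477) (nat_lit 236)) (XT.lf (nat_lit 76) (nat_lit 10453927582) (nat_lit 0) (nat_lit 21262664509) (nat_lit 1292) (nat_lit 15096100737) (nat_lit 280) (nat_lit 5) (nat_lit 279) (nat_lit 5) (nat_lit 296) (nat_lit 5) (nat_lit 488) (nat_lit 477) (nat_lit 235))) (XT.nd (nat_lit 78) (nat_lit 0) (nat_lit 0) (XT.lf (nat_lit 0) (nat_lit 34767198502) (nat_lit 1216) (nat_lit 12299694178) (nat_lit 1292) (nat_lit 486199855) (nat_lit 280) (nat_lit 5) (nat_lit 296) (nat_lit 5) (nat_lit 297) (nat_lit 5) (nat_lit 489) (nat_lit 477) (nat_lit 234)) (XT.lf (nat_lit 76) (nat_lit 12513892020) (nat_lit 0) (nat_lit 25725059270) (nat_lit 1292) (nat_lit 10066864368) (nat_lit 281) (nat_lit 5) (nat_lit 280) (nat_lit 5) (nat_lit 297) (nat_lit 5) (nat_lit 490) (nat_lit 477) (nat_lit 233)))) (XT.nd (nat_lit 156) (nat_lit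 1140) (nat_lit 0) (XT.nd (nat_lit 78) (nat_lit 0) (nat_lit 76) (XT.lf (nat_lit 76) (nat_lit 38323099887) (nat_lit 0) (nat_lit 3614800819) (nat_lit 1292) (nat_lit 7139528712) (nat_lit 281) (nat_lit 5) (nat_lit 280) (nat_lit 5) (nat_lit 297) (nat_lit 5) (nat_lit 491) (nat_lit 477) (nat_lit 232)) (XT.lf (nat_lit 76) (nat_lit 15144829679) (nat_lit 0) (nat_lit 30931613314) (nat_lit 1292) (nat_lit 3785890122) (nat_lit 282) (nat_lit 5) (nat_lit 281) (nat_lit 5) (nat_lit 298) (nat_lit 5) (nat_lit 492) (nat_lit 477) (nat_lit 231))) (XT.nd (nat_lit 78) (nat_lit 1216) (nat_lit 0) (XT.lf (nat_lit 76) (nat_lit 42003996446) (nat_lit 0) (nat_lit 8478083093) (nat_lit 1292) (nat_lit 184416491) (nat_lit 282) (nat_lit 5) (nat_lit 281) (nat_lit 5) (nat_lit 298) (nat_lit 5) (nat_lit 493) (nat_lit 477) (nat_lit 230)) (XT.lf (nat_lit 0) (nat_lit 3775986581) (nat_lit 1292) (nat_lit 33131013507) (nat_lit 76) (nat_lit 14577177238) (nat_lit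 265) (nat_lit 5) (nat_lit 282) (nat_lit 5) (nat_lit 266) (nat_lit 5) (nat_lit 494) (nat_lit 477) (nat_lit 229))))))) (XT.nd (nat_lit 1170) (nat_lit 3800) (nat_lit 0) (XT.nd (nat_lit 546) (nat_lit 2128) (nat_lit 0) (XT.nd (nat_lit 234) (nat_lit 1748) (nat_lit 0) (XT.nd (nat_lit 78) (nat_lit 760) (nat_lit 0) (XT.lf (nat_lit 0) (nat_lit 8022723398) (nat_lit 1292) (nat_lit 6054465712) (nat_lit 76) (nat_lit 38244008552) (nat_lit 265) (nat_lit 5) (nat_lit 282) (nat_lit 5) (nat_lit 266) (nat_lit 5) (nat_lit 495) (nat_lit 477) (nat_lit 228)) (XT.nd (nat_lit 78) (nat_lit 0) (nat_lit 0) (XT.lf (nat_lit 0) (nat_lit 12702732705) (nat_lit 836) (nat_lit 31001780213) (nat_lit 76) (nat_lit 9469639799) (nat_lit 255) (nat_lit 5) (nat_lit 266) (nat_lit 5) (nat_lit 256) (nat_lit 5) (nat_lit 496) (nat_lit 477) (nat_lit 227)) (XT.lf (nat_lit 0) (nat_lit 17723263224) (nat_lit 836) (nat_lit 2821651597) (nat_lit 76) (nat_lit 33501778189)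 (nat_lit 255) (nat_lit 5) (nat_lit 266) (nat_lit 5) (nat_lit 256) (nat_lit 5) (nat_lit 497) (nat_lit 477) (nat_lit 226)))) (XT.nd (nat_lit 156) (nat_lit 532) (nat_lit 0) (XT.nd (nat_lit 78) (nat_lit 608) (nat_lit 0) (XT.lf (nat_lit 0) (nat_lit 23184686772) (nat_lit 684) (nat_lit 28247622629) (nat_lit 76) (nat_lit 3504392007) (nat_lit 247) (nat_lit 5) (nat_lit 256) (nat_lit 5) (nat_lit 248) (nat_lit 5) (nat_lit 498) (nat_lit 477) (nat_lit 225)) (XT.lf (nat_lit 0) (nat_lit 1107403598) (nat_lit 608) (nat_lit 27944433353) (nat_lit 684) (nat_lit 26794316789) (nat_lit 239) (nat_lit 5) (nat_lit 247) (nat_lit 5) (nat_lit 248) (nat_lit 5) (nat_lit 499) (nat_lit 477) (nat_lit 224))) (XT.nd (nat_lit 78) (nat_lit 532) (nat_lit 0) (XT.lf (nat_lit 0) (nat_lit 31921212634) (nat_lit 608) (nat_lit 3458102128) (nat_lit 684) (nat_lit 21395045682) (nat_lit 239) (nat_lit 5) (nat_lit 247) (nat_lit 5) (nat_lit 248) (nat_lit 5) (nat_lit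 500) (nat_lit 477) (nat_lit 223)) (XT.lf (nat_lit 0) (nat_lit 5832725186) (nat_lit 532) (nat_lit 36328251810) (nat_lit 608) (nat_lit 15561505742) (nat_lit 232) (nat_lit 5) (nat_lit 239) (nat_lit 5) (nat_lit 240) (nat_lit 5) (nat_lit 501) (nat_lit 477) (nat_lit 222))))) (XT.nd (nat_lit 312) (nat_lit 988) (nat_lit 0) (XT.nd (nat_lit 156) (nat_lit 608) (nat_lit 0) (XT.nd (nat_lit 78) (nat_lit 532) (nat_lit 0) (XT.lf (nat_lit 0) (nat_lit 37912811130) (nat_lit 532) (nat_lit 11517261456) (nat_lit 608) (nat_lit 9260456794) (nat_lit 232) (nat_lit 5) (nat_lit 239) (nat_lit 5) (nat_lit 240) (nat_lit 5) (nat_lit 502) (nat_lit 477) (nat_lit 221)) (XT.lf (nat_lit 0) (nat_lit 11353377373) (nat_lit 532) (nat_lit 45807079811) (nat_lit 608) (nat_lit 2519863933) (nat_lit 225) (nat_lit 5) (nat_lit 232) (nat_lit 5) (nat_lit 233) (nat_lit 5) (nat_lit 503) (nat_lit 477) (nat_lit 220))) (XT.nd (nat_lit 78) (nat_lit 532) (nat_lit 0) (XT.lf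 (nat_lit 0) (nat_lit 4661709010) (nat_lit 608) (nat_lit 15978725190) (nat_lit 76) (nat_lit 40048344995) (nat_lit 224) (nat_lit 5) (nat_lit 232) (nat_lit 5) (nat_lit 225) (nat_lit 5) (nat_lit 504) (nat_lit 477) (nat_lit 219)) (XT.lf (nat_lit 0) (nat_lit 12229692707) (nat_lit 608) (nat_lit 44115682502) (nat_lit 76) (nat_lit 5374719186) (nat_lit 217) (nat_lit 5) (nat_lit 225) (nat_lit 5) (nat_lit 218) (nat_lit 5) (nat_lit 505) (nat_lit 477) (nat_lit 218)))) (XT.nd (nat_lit 156) (nat_lit 456) (nat_lit 0) (XT.nd (nat_lit 78) (nat_lit 532) (nat_lit 0) (XT.lf (nat_lit 0) (nat_lit 20391213961) (nat_lit 608) (nat_lit 10461779961) (nat_lit 76) (nat_lit 31918360348) (nat_lit 217) (nat_lit 5) (nat_lit 225) (nat_lit 5) (nat_lit 218) (nat_lit 5) (nat_lit 506) (nat_lit 477) (nat_lit 217)) (XT.lf (nat_lit 0) (nat_lit 24682506080) (nat_lit 532) (nat_lit 4351547784) (nat_lit 608) (nat_lit 34813004040) (nat_lit 210) (nat_lit 5) (nat_lit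 217) (nat_lit 5) (nat_lit 218) (nat_lit 5) (nat_lit 507) (nat_lit 477) (nat_lit 216))) (XT.nd (nat_lit 78) (nat_lit 456) (nat_lit 0) (XT.lf (nat_lit 0) (nat_lit 38262652644) (nat_lit 608) (nat_lit 4078785281) (nat_lit 76) (nat_lit 22603800663) (nat_lit 210) (nat_lit 5) (nat_lit 218) (nat_lit 5) (nat_lit 211) (nat_lit 5) (nat_lit 508) (nat_lit 477) (nat_lit 215)) (XT.lf (nat_lit 0) (nat_lit 32652776815) (nat_lit 456) (nat_lit 15471541710) (nat_lit 532) (nat_lit 17941360038) (nat_lit 204) (nat_lit 5) (nat_lit 210) (nat_lit 5) (nat_lit 211) (nat_lit 5) (nat_lit 509) (nat_lit 477) (nat_lit 214)))))) (XT.nd (nat_lit 624) (nat_lit 1976) (nat_lit 0) (XT.nd (nat_lit 312) (nat_lit 836) (nat_lit 0) (XT.nd (nat_lit 156) (nat_lit 456) (nat_lit 0) (XT.nd (nat_lit 78) (nat_lit 76) (nat_lit 0) (XT.lf (nat_lit 0) (nat_lit 3297136496) (nat_lit 456) (nat_lit 55174562796) (nat_lit 532) (nat_lit 8742336641) (nat_lit 198) (nat_lit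 5) (nat_lit 204) (nat_lit 5) (nat_lit 205) (nat_lit 5) (nat_lit 510) (nat_lit 477) (nat_lit 213)) (XT.lf (nat_lit 0) (nat_lit 1211554200) (nat_lit 532) (nat_lit 26757766220) (nat_lit 76) (nat_lit 40412516648) (nat_lit 197) (nat_lit 5) (nat_lit 204) (nat_lit 5) (nat_lit 198) (nat_lit 5) (nat_lit 511) (nat_lit 477) (nat_lit 212))) (XT.nd (nat_lit 78) (nat_lit 0) (nat_lit 0) (XT.lf (nat_lit 0) (nat_lit 11402147306) (nat_lit 532) (nat_lit 57925023250) (nat_lit 76) (nat_lit 251491142) (nat_lit 191) (nat_lit 5) (nat_lit 198) (nat_lit 5) (nat_lit 192) (nat_lit 5) (nat_lit 512) (nat_lit 477) (nat_lit 211)) (XT.lf (nat_lit 0) (nat_lit 22447555519) (nat_lit 532) (nat_lit 19317861544) (nat_lit 76) (nat_lit 29029501210) (nat_lit 191) (nat_lit 5) (nat_lit 198) (nat_lit 5) (nat_lit 192) (nat_lit 5) (nat_lit 513) (nat_lit 477) (nat_lit 210)))) (XT.nd (nat_lit 156) (nat_lit 380) (nat_lit 0) (XT.nd (nat_lit 78) (nat_lit 0) (nat_lit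 0) (XT.lf (nat_lit 0) (nat_lit 20853598672) (nat_lit 456) (nat_lit 13170502445) (nat_lit 532) (nat_lit 38017568296) (nat_lit 185) (nat_lit 5) (nat_lit 191) (nat_lit 5) (nat_lit 192) (nat_lit 5) (nat_lit 514) (nat_lit 477) (nat_lit 209)) (XT.lf (nat_lit 0) (nat_lit 46300789884) (nat_lit 532) (nat_lit 10853072958) (nat_lit 76) (nat_lit 16161374960) (nat_lit 185) (nat_lit 5) (nat_lit 192) (nat_lit 5) (nat_lit 186) (nat_lit 5) (nat_lit 515) (nat_lit 477) (nat_lit 208))) (XT.nd (nat_lit 78) (nat_lit 0) (nat_lit 0) (XT.lf (nat_lit 0) (nat_lit 31168961860) (nat_lit 380) (nat_lit 28206180999) (nat_lit 456) (nat_lit 15238989593) (nat_lit 180) (nat_lit 5) (nat_lit 185) (nat_lit 5) (nat_lit 186) (nat_lit 5) (nat_lit 516) (nat_lit 477) (nat_lit 207)) (XT.lf (nat_lit 0) (nat_lit 72967238687) (nat_lit 456) (nat_lit 1291971829) (nat_lit 76) (nat_lit 1689018169) (nat_lit 180) (nat_lit 5) (nat_lit 186) (nat_lit 5) (nat_lit 181)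 (nat_lit 5) (nat_lit 517) (nat_lit 477) (nat_lit 206))))) (XT.nd (nat_lit 312) (nat_lit 760) (nat_lit 0) (XT.nd (nat_lit 156) (nat_lit 380) (nat_lit 0) (XT.nd (nat_lit 78) (nat_lit 380) (nat_lit 0) (XT.lf (nat_lit 0) (nat_lit 10152263389) (nat_lit 456) (nat_lit 34722662582) (nat_lit 76) (nat_lit 32423769073) (nat_lit 174) (nat_lit 5) (nat_lit 180) (nat_lit 5) (nat_lit 175) (nat_lit 5) (nat_lit 518) (nat_lit 477) (nat_lit 205)) (XT.lf (nat_lit 0) (nat_lit 9247260417) (nat_lit 380) (nat_lit 14473784637) (nat_lit 456) (nat_lit 54964701633) (nat_lit 169) (nat_lit 5) (nat_lit 174) (nat_lit 5) (nat_lit 175) (nat_lit 5) (nat_lit 519) (nat_lit 477) (nat_lit 204))) (XT.nd (nat_lit 78) (nat_lit 380) (nat_lit 0) (XT.lf (nat_lit 0) (nat_lit 38212251157) (nat_lit 456) (nat_lit 25021999894) (nat_lit 76) (nat_lit 16864698096) (nat_lit 169) (nat_lit 5) (nat_lit 175) (nat_lit 5) (nat_lit 170) (nat_lit 5) (nat_lit 520) (nat_lit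 477) (nat_lit 203)) (XT.lf (nat_lit 0) (nat_lit 20992511445) (nat_lit 380) (nat_lit 32490185544) (nat_lit 456) (nat_lit 28061515683) (nat_lit 164) (nat_lit 5) (nat_lit 169) (nat_lit 5) (nat_lit 170) (nat_lit 5) (nat_lit 521) (nat_lit 477) (nat_lit 202)))) (XT.nd (nat_lit 156) (nat_lit 380) (nat_lit 0) (XT.nd (nat_lit 78) (nat_lit 380) (nat_lit 0) (XT.lf (nat_lit 0) (nat_lit 68899588138) (nat_lit 380) (nat_lit 563756726) (nat_lit 456) (nat_lit 13561926671) (nat_lit 164) (nat_lit 5) (nat_lit 169) (nat_lit 5) (nat_lit 170) (nat_lit 5) (nat_lit 522) (nat_lit 477) (nat_lit 201)) (XT.lf (nat_lit 0) (nat_lit 1989560989) (nat_lit 380) (nat_lit 50505143552) (nat_lit 76) (nat_lit 32036350979) (nat_lit 159) (nat_lit 5) (nat_lit 164) (nat_lit 5) (nat_lit 160) (nat_lit 5) (nat_lit 523) (nat_lit 477) (nat_lit 200))) (XT.nd (nat_lit 78) (nat_lit 380) (nat_lit 0) (XT.lf (nat_lit 0) (nat_lit 17884081755) (nat_lit 380) (nat_lit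 2308178474) (nat_lit 76) (nat_lit 65881252494) (nat_lit 159) (nat_lit 5) (nat_lit 164) (nat_lit 5) (nat_lit 160) (nat_lit 5) (nat_lit 524) (nat_lit 477) (nat_lit 199)) (XT.lf (nat_lit 0) (nat_lit 34849265106) (nat_lit 456) (nat_lit 39502692253) (nat_lit 76) (nat_lit 13292471558) (nat_lit 154) (nat_lit 5) (nat_lit 160) (nat_lit 5) (nat_lit 155) (nat_lit 5) (nat_lit 525) (nat_lit 477) (nat_lit 198))))))))
noncomputable def xc236 : XT := (XT.nd (nat_lit 60216) (nat_lit 0) (nat_lit 2508) (XT.nd (nat_lit 59046) (nat_lit 0) (nat_lit 10944) (XT.nd (nat_lit 546) (nat_lit 1216) (nat_lit 0) (XT.nd (nat_lit 234) (nat_lit 684) (nat_lit 0) (XT.nd (nat_lit 78) (nat_lit 304) (nat_lit 0) (XT.lf (nat_lit 0) (nat_lit 10902508784) (nat_lit 304) (nat_lit 41748616049) (nat_lit 380) (nat_lit 36601516217) (nat_lit 150) (nat_lit 5) (nat_lit 154) (nat_lit 5) (nat_lit 155) (nat_lit 5) (nat_lit 526) (nat_lit 477) (nat_lit 197)) (XT.nd (nat_lit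 78) (nat_lit 304) (nat_lit 0) (XT.lf (nat_lit 0) (nat_lit 63628864330) (nat_lit 304) (nat_lit 7756541263) (nat_lit 380) (nat_lit 19511743075) (nat_lit 150) (nat_lit 5) (nat_lit 154) (nat_lit 5) (nat_lit 155) (nat_lit 5) (nat_lit 527) (nat_lit 477) (nat_lit 196)) (XT.lf (nat_lit 0) (nat_lit 25582471533) (nat_lit 304) (nat_lit 65606631080) (nat_lit 380) (nat_lit 1386667343) (nat_lit 146) (nat_lit 5) (nat_lit 150) (nat_lit 5) (nat_lit 151) (nat_lit 5) (nat_lit 528) (nat_lit 477) (nat_lit 195)))) (XT.nd (nat_lit 156) (nat_lit 304) (nat_lit 0) (XT.nd (nat_lit 78) (nat_lit 304) (nat_lit 0) (XT.lf (nat_lit 0) (nat_lit 17299285093) (nat_lit 380) (nat_lit 13965178484) (nat_lit 76) (nat_lit 63024671726) (nat_lit 145) (nat_lit 5) (nat_lit 150) (nat_lit 5) (nat_lit 146) (nat_lit 5) (nat_lit 529) (nat_lit 477) (nat_lit 194)) (XT.lf (nat_lit 0) (nat_lit 36959433687) (nat_lit 380) (nat_lit 54637001016) (nat_lit 76) (nat_lit 4443810451)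 (nat_lit 141) (nat_lit 5) (nat_lit 146) (nat_lit 5) (nat_lit 142) (nat_lit 5) (nat_lit 530) (nat_lit 477) (nat_lit 193))) (XT.nd (nat_lit 78) (nat_lit 0) (nat_lit 0) (XT.lf (nat_lit 0) (nat_lit 578940828) (nat_lit 304) (nat_lit 57087479480) (nat_lit 380) (nat_lit 40163757052) (nat_lit 137) (nat_lit 5) (nat_lit 141) (nat_lit 5) (nat_lit 142) (nat_lit 5) (nat_lit 531) (nat_lit 477) (nat_lit 192)) (XT.lf (nat_lit 0) (nat_lit 58570627954) (nat_lit 304) (nat_lit 20975224687) (nat_lit 380) (nat_lit 20111417873) (nat_lit 137) (nat_lit 5) (nat_lit 141) (nat_lit 5) (nat_lit 142) (nat_lit 5) (nat_lit 532) (nat_lit 477) (nat_lit 191))))) (XT.nd (nat_lit 58188) (nat_lit 0) (nat_lit 11628) (XT.nd (nat_lit 156) (nat_lit 912) (nat_lit 0) (XT.nd (nat_lit 78) (nat_lit 0) (nat_lit 0) (XT.lf (nat_lit 0) (nat_lit 853304601) (nat_lit 304) (nat_lit 84601257703) (nat_lit 76) (nat_lit 16074815806) (nat_lit 133) (nat_lit 5) (nat_lit 137)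 (nat_lit 5) (nat_lit 134) (nat_lit 5) (nat_lit 533) (nat_lit 477) (nat_lit 190)) (XT.lf (nat_lit 0) (nat_lit 22668950834) (nat_lit 304) (nat_lit 26331277120) (nat_lit 76) (nat_lit 54432661302) (nat_lit 133) (nat_lit 5) (nat_lit 137) (nat_lit 5) (nat_lit 134) (nat_lit 5) (nat_lit 534) (nat_lit 477) (nat_lit 189))) (XT.nd (nat_lit 312) (nat_lit 608) (nat_lit 0) (XT.lf (nat_lit 0) (nat_lit 34356512603) (nat_lit 304) (nat_lit 11112347321) (nat_lit 380) (nat_lit 59914752065) (nat_lit 129) (nat_lit 5) (nat_lit 133) (nat_lit 5) (nat_lit 134) (nat_lit 5) (nat_lit 535) (nat_lit 477) (nat_lit 188)) (XT.lf (nat_lit 0) (nat_lit 34851978694) (nat_lit 380) (nat_lit 40022885682) (nat_lit 76) (nat_lit 38740784693) (nat_lit 121) (nat_lit 5) (nat_lit 126) (nat_lit 5) (nat_lit 122) (nat_lit 5) (nat_lit 539) (nat_lit 477) (nat_lit 184)))) (XT.nd (nat_lit 156) (nat_lit 0) (nat_lit 76) (XT.nd (nat_lit 78) (nat_lit 0) (nat_lit 0) (XT.lf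 (nat_lit 0) (nat_lit 7861607623) (nat_lit 1292) (nat_lit 6268464459) (nat_lit 1292) (nat_lit 6268464459) (nat_lit 274) (nat_lit 3) (nat_lit 291) (nat_lit 3) (nat_lit 291) (nat_lit 5) (nat_lit 478) (nat_lit 478) (nat_lit 244)) (XT.lf (nat_lit 76) (nat_lit 7600539951) (nat_lit 0) (nat_lit 8470565040) (nat_lit 1292) (nat_lit 25334553876) (nat_lit 275) (nat_lit 5) (nat_lit 274) (nat_lit 3) (nat_lit 291) (nat_lit 5) (nat_lit 479) (nat_lit 478) (nat_lit 243))) (XT.nd (nat_lit 78) (nat_lit 0) (nat_lit 0) (XT.lf (nat_lit 0) (nat_lit 16670273484) (nat_lit 1216) (nat_lit 13546194735) (nat_lit 1292) (nat_lit 11808809096) (nat_lit 275) (nat_lit 5) (nat_lit 291) (nat_lit 5) (nat_lit 292) (nat_lit 5) (nat_lit 480) (nat_lit 478) (nat_lit 242)) (XT.lf (nat_lit 76) (nat_lit 7379809198) (nat_lit 0) (nat_lit 10060936416) (nat_lit 1292) (nat_lit 25218139188) (nat_lit 276) (nat_lit 5) (nat_lit 275) (nat_lit 5) (nat_lit 292) (nat_lit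 5) (nat_lit 481) (nat_lit 478) (nat_lit 241)))))) (XT.nd (nat_lit 546) (nat_lit 836) (nat_lit 0) (XT.nd (nat_lit 234) (nat_lit 0) (nat_lit 76) (XT.nd (nat_lit 78) (nat_lit 0) (nat_lit 0) (XT.lf (nat_lit 0) (nat_lit 18473887627) (nat_lit 1216) (nat_lit 14201191186) (nat_lit 1292) (nat_lit 10629235362) (nat_lit 276) (nat_lit 5) (nat_lit 292) (nat_lit 5) (nat_lit 293) (nat_lit 5) (nat_lit 482) (nat_lit 478) (nat_lit 240)) (XT.nd (nat_lit 78) (nat_lit 0) (nat_lit 76) (XT.lf (nat_lit 76) (nat_lit 7556017837) (nat_lit 0) (nat_lit 12152857710) (nat_lit 1292) (nat_lit 24255105658) (nat_lit 277) (nat_lit 5) (nat_lit 276) (nat_lit 5) (nat_lit 293) (nat_lit 5) (nat_lit 483) (nat_lit 478) (nat_lit 239)) (XT.lf (nat_lit 0) (nat_lit 21210749739) (nat_lit 1216) (nat_lit 14470753724) (nat_lit 1292) (nat_lit 8955039998) (nat_lit 277) (nat_lit 5) (nat_lit 293) (nat_lit 5) (nat_lit 294) (nat_lit 5) (nat_lit 484) (nat_lit 478) (nat_lit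 238)))) (XT.nd (nat_lit 156) (nat_lit 0) (nat_lit 76) (XT.nd (nat_lit 78) (nat_lit 0) (nat_lit 76) (XT.lf (nat_lit 76) (nat_lit 8162673956) (nat_lit 0) (nat_lit 14792478664) (nat_lit 1292) (nat_lit 22368206096) (nat_lit 278) (nat_lit 5) (nat_lit 277) (nat_lit 5) (nat_lit 294) (nat_lit 5) (nat_lit 485) (nat_lit 478) (nat_lit 237)) (XT.lf (nat_lit 0) (nat_lit 24962805270) (nat_lit 1216) (nat_lit 14321619224) (nat_lit 1292) (nat_lit 6740026701) (nat_lit 278) (nat_lit 5) (nat_lit 294) (nat_lit 5) (nat_lit 295) (nat_lit 5) (nat_lit 486) (nat_lit 478) (nat_lit 236))) (XT.nd (nat_lit 78) (nat_lit 0) (nat_lit 76) (XT.lf (nat_lit 76) (nat_lit 9235511284) (nat_lit 0) (nat_lit 18029168126) (nat_lit 1292) (nat_lit 19474877568) (nat_lit 279) (nat_lit 5) (nat_lit 278) (nat_lit 5) (nat_lit 295) (nat_lit 5) (nat_lit 487) (nat_lit 478) (nat_lit 235)) (XT.lf (nat_lit 0) (nat_lit 29817588486) (nat_lit 1216) (nat_lit 13718311738)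 (nat_lit 1292) (nat_lit 3934756629) (nat_lit 279) (nat_lit 5) (nat_lit 295) (nat_lit 5) (nat_lit 296) (nat_lit 5) (nat_lit 488) (nat_lit 478) (nat_lit 234))))) (XT.nd (nat_lit 312) (nat_lit 1064) (nat_lit 0) (XT.nd (nat_lit 156) (nat_lit 0) (nat_lit 76) (XT.nd (nat_lit 78) (nat_lit 0) (nat_lit 76) (XT.lf (nat_lit 76) (nat_lit 10812610006) (nat_lit 0) (nat_lit 21915740091) (nat_lit 1292) (nat_lit 15486901941) (nat_lit 280) (nat_lit 5) (nat_lit 279) (nat_lit 5) (nat_lit 296) (nat_lit 5) (nat_lit 489) (nat_lit 478) (nat_lit 233)) (XT.lf (nat_lit 0) (nat_lit 35868577732) (nat_lit 1216) (nat_lit 12623022633) (nat_lit 1292) (nat_lit 486320680) (nat_lit 280) (nat_lit 5) (nat_lit 296) (nat_lit 5) (nat_lit 297) (nat_lit 5) (nat_lit 490) (nat_lit 478) (nat_lit 232))) (XT.nd (nat_lit 78) (nat_lit 0) (nat_lit 0) (XT.lf (nat_lit 76) (nat_lit 12934523481) (nat_lit 0) (nat_lit 26508694354) (nat_lit 1292) (nat_lit 10310046376)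 (nat_lit 281) (nat_lit 5) (nat_lit 280) (nat_lit 5) (nat_lit 297) (nat_lit 5) (nat_lit 491) (nat_lit 478) (nat_lit 231)) (XT.lf (nat_lit 76) (nat_lit 39516690651) (nat_lit 0) (nat_lit 3734782034) (nat_lit 1292) (nat_lit 7296603969) (nat_lit 281) (nat_lit 5) (nat_lit 280) (nat_lit 5) (nat_lit 297) (nat_lit 5) (nat_lit 492) (nat_lit 478) (nat_lit 230)))) (XT.nd (nat_lit 156) (nat_lit 1216) (nat_lit 0) (XT.nd (nat_lit 78) (nat_lit 0) (nat_lit 0) (XT.lf (nat_lit 76) (nat_lit 15644411001) (nat_lit 0) (nat_lit 31868472796) (nat_lit 1292) (nat_lit 3843682653) (nat_lit 282) (nat_lit 5) (nat_lit 281) (nat_lit 5) (nat_lit 298) (nat_lit 5) (nat_lit 493) (nat_lit 478) (nat_lit 229)) (XT.lf (nat_lit 76) (nat_lit 43308035206) (nat_lit 0) (nat_lit 8741077123) (nat_lit 1292) (nat_lit 135789595) (nat_lit 282) (nat_lit 5) (nat_lit 281) (nat_lit 5) (nat_lit 298) (nat_lit 5) (nat_lit 494) (nat_lit 478) (nat_lit 228))) (XT.nd (nat_lit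 78) (nat_lit 0) (nat_lit 0) (XT.lf (nat_lit 0) (nat_lit 3941178756) (nat_lit 1292) (nat_lit 34078755509) (nat_lit 76) (nat_lit 15007199809) (nat_lit 265) (nat_lit 5) (nat_lit 282) (nat_lit 5) (nat_lit 266) (nat_lit 5) (nat_lit 495) (nat_lit 478) (nat_lit 227)) (XT.lf (nat_lit 0) (nat_lit 8313805661) (nat_lit 1292) (nat_lit 6191256573) (nat_lit 76) (nat_lit 39384248473) (nat_lit 265) (nat_lit 5) (nat_lit 282) (nat_lit 5) (nat_lit 266) (nat_lit 5) (nat_lit 496) (nat_lit 478) (nat_lit 226))))))) (XT.nd (nat_lit 1170) (nat_lit 3344) (nat_lit 0) (XT.nd (nat_lit 546) (nat_lit 2584) (nat_lit 0) (XT.nd (nat_lit 234) (nat_lit 1140) (nat_lit 0) (XT.nd (nat_lit 78) (nat_lit 608) (nat_lit 0) (XT.lf (nat_lit 0) (nat_lit 13133126463) (nat_lit 836) (nat_lit 31885891174) (nat_lit 76) (nat_lit 9748869757) (nat_lit 255) (nat_lit 5) (nat_lit 266) (nat_lit 5) (nat_lit 256) (nat_lit 5) (nat_lit 497) (nat_lit 478) (nat_lit 225)) (XT.nd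 (nat_lit 78) (nat_lit 608) (nat_lit 0) (XT.lf (nat_lit 0) (nat_lit 18302836632) (nat_lit 836) (nat_lit 2861696829) (nat_lit 76) (nat_lit 34502113830) (nat_lit 255) (nat_lit 5) (nat_lit 266) (nat_lit 5) (nat_lit 256) (nat_lit 5) (nat_lit 498) (nat_lit 478) (nat_lit 224)) (XT.lf (nat_lit 0) (nat_lit 23927106689) (nat_lit 684) (nat_lit 29049440849) (nat_lit 76) (nat_lit 3606838586) (nat_lit 247) (nat_lit 5) (nat_lit 256) (nat_lit 5) (nat_lit 248) (nat_lit 5) (nat_lit 499) (nat_lit 478) (nat_lit 223)))) (XT.nd (nat_lit 156) (nat_lit 532) (nat_lit 0) (XT.nd (nat_lit 78) (nat_lit 0) (nat_lit 0) (XT.lf (nat_lit 0) (nat_lit 1185789003) (nat_lit 608) (nat_lit 28783551090) (nat_lit 684) (nat_lit 27550810162) (nat_lit 239) (nat_lit 5) (nat_lit 247) (nat_lit 5) (nat_lit 248) (nat_lit 5) (nat_lit 500) (nat_lit 478) (nat_lit 222)) (XT.lf (nat_lit 0) (nat_lit 32922696875) (nat_lit 608) (nat_lit 3562607073) (nat_lit 684) (nat_lit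 21990939643) (nat_lit 239) (nat_lit 5) (nat_lit 247) (nat_lit 5) (nat_lit 248) (nat_lit 5) (nat_lit 501) (nat_lit 478) (nat_lit 221))) (XT.nd (nat_lit 78) (nat_lit 0) (nat_lit 0) (XT.lf (nat_lit 0) (nat_lit 6052466629) (nat_lit 532) (nat_lit 37417073253) (nat_lit 608) (nat_lit 15983296229) (nat_lit 232) (nat_lit 5) (nat_lit 239) (nat_lit 5) (nat_lit 240) (nat_lit 5) (nat_lit 502) (nat_lit 478) (nat_lit 220)) (XT.lf (nat_lit 0) (nat_lit 39093651471) (nat_lit 532) (nat_lit 11861783076) (nat_lit 608) (nat_lit 9494528084) (nat_lit 232) (nat_lit 5) (nat_lit 239) (nat_lit 5) (nat_lit 240) (nat_lit 5) (nat_lit 503) (nat_lit 478) (nat_lit 219))))) (XT.nd (nat_lit 312) (nat_lit 1444) (nat_lit 0) (XT.nd (nat_lit 156) (nat_lit 532) (nat_lit 0) (XT.nd (nat_lit 78) (nat_lit 76) (nat_lit 0) (XT.lf (nat_lit 0) (nat_lit 11738269235) (nat_lit 532) (nat_lit 47178659800) (nat_lit 608) (nat_lit 2552543392) (nat_lit 225) (nat_lit 5)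 (nat_lit 232) (nat_lit 5) (nat_lit 233) (nat_lit 5) (nat_lit 504) (nat_lit 478) (nat_lit 218)) (XT.lf (nat_lit 0) (nat_lit 4842413682) (nat_lit 608) (nat_lit 16414265271) (nat_lit 76) (nat_lit 41251529928) (nat_lit 224) (nat_lit 5) (nat_lit 232) (nat_lit 5) (nat_lit 225) (nat_lit 5) (nat_lit 505) (nat_lit 478) (nat_lit 217))) (XT.nd (nat_lit 78) (nat_lit 0) (nat_lit 0) (XT.lf (nat_lit 0) (nat_lit 12636695928) (nat_lit 608) (nat_lit 45394582489) (nat_lit 76) (nat_lit 5539207586) (nat_lit 217) (nat_lit 5) (nat_lit 225) (nat_lit 5) (nat_lit 218) (nat_lit 5) (nat_lit 506) (nat_lit 478) (nat_lit 216)) (XT.lf (nat_lit 0) (nat_lit 21041894496) (nat_lit 608) (nat_lit 10732361041) (nat_lit 76) (nat_lit 32879063415) (nat_lit 217) (nat_lit 5) (nat_lit 225) (nat_lit 5) (nat_lit 218) (nat_lit 5) (nat_lit 507) (nat_lit 478) (nat_lit 215)))) (XT.nd (nat_lit 156) (nat_lit 912) (nat_lit 0) (XT.nd (nat_lit 78) (nat_lit 0) (nat_lit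 0) (XT.lf (nat_lit 0) (nat_lit 25465829343) (nat_lit 532) (nat_lit 4477467840) (nat_lit 608) (nat_lit 35818018406) (nat_lit 210) (nat_lit 5) (nat_lit 217) (nat_lit 5) (nat_lit 218) (nat_lit 5) (nat_lit 508) (nat_lit 478) (nat_lit 214)) (XT.lf (nat_lit 0) (nat_lit 39447683849) (nat_lit 608) (nat_lit 4158471499) (nat_lit 76) (nat_lit 23286318663) (nat_lit 210) (nat_lit 5) (nat_lit 218) (nat_lit 5) (nat_lit 211) (nat_lit 5) (nat_lit 509) (nat_lit 478) (nat_lit 213))) (XT.nd (nat_lit 78) (nat_lit 456) (nat_lit 0) (XT.lf (nat_lit 0) (nat_lit 33674619055) (nat_lit 456) (nat_lit 15929904785) (nat_lit 532) (nat_lit 18442023832) (nat_lit 204) (nat_lit 5) (nat_lit 210) (nat_lit 5) (nat_lit 211) (nat_lit 5) (nat_lit 510) (nat_lit 478) (nat_lit 212)) (XT.lf (nat_lit 0) (nat_lit 3438930628) (nat_lit 456) (nat_lit 56822799162) (nat_lit 532) (nat_lit 8967644062) (nat_lit 198) (nat_lit 5) (nat_lit 204) (nat_lit 5) (nat_lit 205)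 (nat_lit 5) (nat_lit 511) (nat_lit 478) (nat_lit 211)))))) (XT.nd (nat_lit 546) (nat_lit 1976) (nat_lit 0) (XT.nd (nat_lit 234) (nat_lit 836) (nat_lit 0) (XT.nd (nat_lit 78) (nat_lit 456) (nat_lit 0) (XT.lf (nat_lit 0) (nat_lit 1283086654) (nat_lit 532) (nat_lit 27518161451) (nat_lit 76) (nat_lit 41630982116) (nat_lit 197) (nat_lit 5) (nat_lit 204) (nat_lit 5) (nat_lit 198) (nat_lit 5) (nat_lit 512) (nat_lit 478) (nat_lit 210)) (XT.nd (nat_lit 78) (nat_lit 0) (nat_lit 0) (XT.lf (nat_lit 0) (nat_lit 11778846446) (nat_lit 532) (nat_lit 59619878887) (nat_lit 76) (nat_lit 266250976) (nat_lit 191) (nat_lit 5) (nat_lit 198) (nat_lit 5) (nat_lit 192) (nat_lit 5) (nat_lit 513) (nat_lit 478) (nat_lit 209)) (XT.lf (nat_lit 0) (nat_lit 23154608127) (nat_lit 532) (nat_lit 19855751701) (nat_lit 76) (nat_lit 29907391198) (nat_lit 191) (nat_lit 5) (nat_lit 198) (nat_lit 5) (nat_lit 192) (nat_lit 5) (nat_lit 514) (nat_lit 478)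 (nat_lit 208)))) (XT.nd (nat_lit 156) (nat_lit 380) (nat_lit 0) (XT.nd (nat_lit 78) (nat_lit 0) (nat_lit 0) (XT.lf (nat_lit 0) (nat_lit 21520444031) (nat_lit 456) (nat_lit 13557423065) (nat_lit 532) (nat_lit 39124055269) (nat_lit 185) (nat_lit 5) (nat_lit 191) (nat_lit 5) (nat_lit 192) (nat_lit 5) (nat_lit 515) (nat_lit 478) (nat_lit 207)) (XT.lf (nat_lit 0) (nat_lit 47721970586) (nat_lit 532) (nat_lit 11137737226) (nat_lit 76) (nat_lit 16654016743) (nat_lit 185) (nat_lit 5) (nat_lit 192) (nat_lit 5) (nat_lit 186) (nat_lit 5) (nat_lit 516) (nat_lit 478) (nat_lit 206))) (XT.nd (nat_lit 78) (nat_lit 0) (nat_lit 0) (XT.lf (nat_lit 0) (nat_lit 32144557383) (nat_lit 380) (nat_lit 29043449722) (nat_lit 456) (nat_lit 15663595515) (nat_lit 180) (nat_lit 5) (nat_lit 185) (nat_lit 5) (nat_lit 186) (nat_lit 5) (nat_lit 517) (nat_lit 478) (nat_lit 205)) (XT.lf (nat_lit 0) (nat_lit 75187028346) (nat_lit 456) (nat_lit 1290541896)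 (nat_lit 76) (nat_lit 1748176782) (nat_lit 180) (nat_lit 5) (nat_lit 186) (nat_lit 5) (nat_lit 181) (nat_lit 5) (nat_lit 518) (nat_lit 478) (nat_lit 204))))) (XT.nd (nat_lit 312) (nat_lit 760) (nat_lit 0) (XT.nd (nat_lit 156) (nat_lit 380) (nat_lit 0) (XT.nd (nat_lit 78) (nat_lit 380) (nat_lit 0) (XT.lf (nat_lit 0) (nat_lit 10487394719) (nat_lit 456) (nat_lit 35723934071) (nat_lit 76) (nat_lit 33405405163) (nat_lit 174) (nat_lit 5) (nat_lit 180) (nat_lit 5) (nat_lit 175) (nat_lit 5) (nat_lit 519) (nat_lit 478) (nat_lit 203)) (XT.lf (nat_lit 0) (nat_lit 9564690457) (nat_lit 380) (nat_lit 14898043801) (nat_lit 456) (nat_lit 56582678201) (nat_lit 169) (nat_lit 5) (nat_lit 174) (nat_lit 5) (nat_lit 175) (nat_lit 5) (nat_lit 520) (nat_lit 478) (nat_lit 202))) (XT.nd (nat_lit 78) (nat_lit 380) (nat_lit 0) (XT.lf (nat_lit 0) (nat_lit 39387893973) (nat_lit 456) (nat_lit 25733025747) (nat_lit 76) (nat_lit 17380114892) (nat_lit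 169) (nat_lit 5) (nat_lit 175) (nat_lit 5) (nat_lit 170) (nat_lit 5) (nat_lit 521) (nat_lit 478) (nat_lit 201)) (XT.lf (nat_lit 0) (nat_lit 21661532362) (nat_lit 380) (nat_lit 33454445392) (nat_lit 456) (nat_lit 28873692690) (nat_lit 164) (nat_lit 5) (nat_lit 169) (nat_lit 5) (nat_lit 170) (nat_lit 5) (nat_lit 522) (nat_lit 478) (nat_lit 200)))) (XT.nd (nat_lit 156) (nat_lit 380) (nat_lit 0) (XT.nd (nat_lit 78) (nat_lit 380) (nat_lit 0) (XT.lf (nat_lit 0) (nat_lit 71004678282) (nat_lit 380) (nat_lit 570527954) (nat_lit 456) (nat_lit 13939980137) (nat_lit 164) (nat_lit 5) (nat_lit 169) (nat_lit 5) (nat_lit 170) (nat_lit 5) (nat_lit 523) (nat_lit 478) (nat_lit 199)) (XT.lf (nat_lit 0) (nat_lit 2077136504) (nat_lit 380) (nat_lit 51981271143) (nat_lit 76) (nat_lit 33007738658) (nat_lit 159) (nat_lit 5) (nat_lit 164) (nat_lit 5) (nat_lit 160) (nat_lit 5) (nat_lit 524) (nat_lit 478) (nat_lit 198))) (XT.nd (nat_lit 78)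 (nat_lit 380) (nat_lit 0) (XT.lf (nat_lit 0) (nat_lit 18447680601) (nat_lit 380) (nat_lit 2339533813) (nat_lit 76) (nat_lit 67867687302) (nat_lit 159) (nat_lit 5) (nat_lit 164) (nat_lit 5) (nat_lit 160) (nat_lit 5) (nat_lit 525) (nat_lit 478) (nat_lit 197)) (XT.lf (nat_lit 0) (nat_lit 35921495961) (nat_lit 456) (nat_lit 40649555536) (nat_lit 76) (nat_lit 13701903722) (nat_lit 154) (nat_lit 5) (nat_lit 160) (nat_lit 5) (nat_lit 155) (nat_lit 5) (nat_lit 526) (nat_lit 478) (nat_lit 196))))))))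
noncomputable def xc237 : XT := (XT.nd (nat_lit 60294) (nat_lit 0) (nat_lit 2204) (XT.nd (nat_lit 59124) (nat_lit 0) (nat_lit 10184) (XT.nd (nat_lit 546) (nat_lit 1216) (nat_lit 0) (XT.nd (nat_lit 234) (nat_lit 684) (nat_lit 0) (XT.nd (nat_lit 78) (nat_lit 304) (nat_lit 0) (XT.lf (nat_lit 0) (nat_lit 11267426851) (nat_lit 304) (nat_lit 42989569186) (nat_lit 380) (nat_lit 37672430258) (nat_lit 150) (nat_lit 5) (nat_lit 154) (nat_lit 5) (nat_lit 155) (nat_lit 5) (nat_lit 527) (nat_lit 478) (nat_lit 195)) (XT.nd (nat_lit 78) (nat_lit 304) (nat_lit 0) (XT.lf (nat_lit 0) (nat_lit 65574470846) (nat_lit 304) (nat_lit 7978067264) (nat_lit 380) (nat_lit 20070754158) (nat_lit 150) (nat_lit 5) (nat_lit 154) (nat_lit 5) (nat_lit 155) (nat_lit 5) (nat_lit 528) (nat_lit 478) (nat_lit 194)) (XT.lf (nat_lit 0) (nat_lit 26386983043) (nat_lit 304) (nat_lit 67563078503) (nat_lit 380) (nat_lit 1402219292) (nat_lit 146) (nat_lit 5)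 (nat_lit 150) (nat_lit 5) (nat_lit 151) (nat_lit 5) (nat_lit 529) (nat_lit 478) (nat_lit 193)))) (XT.nd (nat_lit 156) (nat_lit 304) (nat_lit 0) (XT.nd (nat_lit 78) (nat_lit 304) (nat_lit 0) (XT.lf (nat_lit 0) (nat_lit 17843059548) (nat_lit 380) (nat_lit 14347678314) (nat_lit 76) (nat_lit 64926324192) (nat_lit 145) (nat_lit 5) (nat_lit 150) (nat_lit 5) (nat_lit 146) (nat_lit 5) (nat_lit 530) (nat_lit 478) (nat_lit 192)) (XT.lf (nat_lit 0) (nat_lit 38092749637) (nat_lit 380) (nat_lit 56239389227) (nat_lit 76) (nat_lit 4588574325) (nat_lit 141) (nat_lit 5) (nat_lit 146) (nat_lit 5) (nat_lit 142) (nat_lit 5) (nat_lit 531) (nat_lit 478) (nat_lit 191))) (XT.nd (nat_lit 78) (nat_lit 0) (nat_lit 0) (XT.lf (nat_lit 0) (nat_lit 632670855) (nat_lit 304) (nat_lit 58787909982) (nat_lit 380) (nat_lit 41343773572) (nat_lit 137) (nat_lit 5) (nat_lit 141) (nat_lit 5) (nat_lit 142) (nat_lit 5) (nat_lit 532) (nat_lit 478) (nat_lit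 190)) (XT.lf (nat_lit 0) (nat_lit 60363049513) (nat_lit 304) (nat_lit 21592642708) (nat_lit 380) (nat_lit 20690589349) (nat_lit 137) (nat_lit 5) (nat_lit 141) (nat_lit 5) (nat_lit 142) (nat_lit 5) (nat_lit 533) (nat_lit 478) (nat_lit 189))))) (XT.nd (nat_lit 58266) (nat_lit 0) (nat_lit 11628) (XT.nd (nat_lit 390) (nat_lit 912) (nat_lit 0) (XT.nd (nat_lit 78) (nat_lit 0) (nat_lit 0) (XT.lf (nat_lit 0) (nat_lit 902369496) (nat_lit 304) (nat_lit 87103281401) (nat_lit 76) (nat_lit 16568901624) (nat_lit 133) (nat_lit 5) (nat_lit 137) (nat_lit 5) (nat_lit 134) (nat_lit 5) (nat_lit 534) (nat_lit 478) (nat_lit 188)) (XT.lf (nat_lit 0) (nat_lit 23371801647) (nat_lit 304) (nat_lit 27086250353) (nat_lit 76) (nat_lit 56077137591) (nat_lit 133) (nat_lit 5) (nat_lit 137) (nat_lit 5) (nat_lit 134) (nat_lit 5) (nat_lit 535) (nat_lit 478) (nat_lit 187))) (XT.nd (nat_lit 57798) (nat_lit 0) (nat_lit 11628) (XT.lf (nat_lit 0) (nat_lit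 7726653524) (nat_lit 304) (nat_lit 2038589401) (nat_lit 380) (nat_lit 105077441185) (nat_lit 121) (nat_lit 5) (nat_lit 125) (nat_lit 5) (nat_lit 126) (nat_lit 5) (nat_lit 539) (nat_lit 478) (nat_lit 183)) (XT.lf (nat_lit 0) (nat_lit 8136061623) (nat_lit 1292) (nat_lit 6436631930) (nat_lit 1292) (nat_lit 6436631930) (nat_lit 274) (nat_lit 3) (nat_lit 291) (nat_lit 3) (nat_lit 291) (nat_lit 5) (nat_lit 479) (nat_lit 479) (nat_lit 242)))) (XT.nd (nat_lit 156) (nat_lit 0) (nat_lit 76) (XT.nd (nat_lit 78) (nat_lit 0) (nat_lit 76) (XT.lf (nat_lit 76) (nat_lit 7867939145) (nat_lit 0) (nat_lit 8760640232) (nat_lit 1292) (nat_lit 26016971578) (nat_lit 275) (nat_lit 5) (nat_lit 274) (nat_lit 3) (nat_lit 291) (nat_lit 5) (nat_lit 480) (nat_lit 479) (nat_lit 241)) (XT.lf (nat_lit 0) (nat_lit 17243192935) (nat_lit 1216) (nat_lit 13911797737) (nat_lit 1292) (nat_lit 12128843692) (nat_lit 275) (nat_lit 5) (nat_lit 291) (nat_lit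 5) (nat_lit 292) (nat_lit 5) (nat_lit 481) (nat_lit 479) (nat_lit 240))) (XT.nd (nat_lit 78) (nat_lit 0) (nat_lit 76) (XT.lf (nat_lit 76) (nat_lit 7641586483) (nat_lit 0) (nat_lit 10393460217) (nat_lit 1292) (nat_lit 25901455846) (nat_lit 276) (nat_lit 5) (nat_lit 275) (nat_lit 5) (nat_lit 292) (nat_lit 5) (nat_lit 482) (nat_lit 479) (nat_lit 239)) (XT.lf (nat_lit 0) (nat_lit 19096826247) (nat_lit 1216) (nat_lit 14585647431) (nat_lit 1292) (nat_lit 10918892302) (nat_lit 276) (nat_lit 5) (nat_lit 292) (nat_lit 5) (nat_lit 293) (nat_lit 5) (nat_lit 483) (nat_lit 479) (nat_lit 238)))))) (XT.nd (nat_lit 546) (nat_lit 1596) (nat_lit 0) (XT.nd (nat_lit 234) (nat_lit 0) (nat_lit 152) (XT.nd (nat_lit 78) (nat_lit 0) (nat_lit 76) (XT.lf (nat_lit 76) (nat_lit 7823870220) (nat_lit 0) (nat_lit 12543387742) (nat_lit 1292) (nat_lit 24913613699) (nat_lit 277) (nat_lit 5) (nat_lit 276) (nat_lit 5) (nat_lit 293) (nat_lit 5) (nat_lit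 484) (nat_lit 479) (nat_lit 237)) (XT.nd (nat_lit 78) (nat_lit 0) (nat_lit 0) (XT.lf (nat_lit 0) (nat_lit 21911991413) (nat_lit 1216) (nat_lit 14862691655) (nat_lit 1292) (nat_lit 9198994078) (nat_lit 277) (nat_lit 5) (nat_lit 293) (nat_lit 5) (nat_lit 294) (nat_lit 5) (nat_lit 485) (nat_lit 479) (nat_lit 236)) (XT.lf (nat_lit 76) (nat_lit 8449325280) (nat_lit 0) (nat_lit 15257911780) (nat_lit 1292) (nat_lit 22973904916) (nat_lit 278) (nat_lit 5) (nat_lit 277) (nat_lit 5) (nat_lit 294) (nat_lit 5) (nat_lit 486) (nat_lit 479) (nat_lit 235)))) (XT.nd (nat_lit 156) (nat_lit 0) (nat_lit 76) (XT.nd (nat_lit 78) (nat_lit 0) (nat_lit 0) (XT.lf (nat_lit 0) (nat_lit 25773069683) (nat_lit 1216) (nat_lit 14708649545) (nat_lit 1292) (nat_lit 6921609915) (nat_lit 278) (nat_lit 5) (nat_lit 294) (nat_lit 5) (nat_lit 295) (nat_lit 5) (nat_lit 487) (nat_lit 479) (nat_lit 234)) (XT.lf (nat_lit 76) (nat_lit 9554777053) (nat_lit 0)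 (nat_lit 18587840877) (nat_lit 1292) (nat_lit 19997312046) (nat_lit 279) (nat_lit 5) (nat_lit 278) (nat_lit 5) (nat_lit 295) (nat_lit 5) (nat_lit 488) (nat_lit 479) (nat_lit 233))) (XT.nd (nat_lit 78) (nat_lit 0) (nat_lit 0) (XT.lf (nat_lit 0) (nat_lit 30770200660) (nat_lit 1216) (nat_lit 14086962815) (nat_lit 1292) (nat_lit 4035857182) (nat_lit 279) (nat_lit 5) (nat_lit 295) (nat_lit 5) (nat_lit 296) (nat_lit 5) (nat_lit 489) (nat_lit 479) (nat_lit 232)) (XT.lf (nat_lit 76) (nat_lit 11179466011) (nat_lit 0) (nat_lit 22587535649) (nat_lit 1292) (nat_lit 15892990931) (nat_lit 280) (nat_lit 5) (nat_lit 279) (nat_lit 5) (nat_lit 296) (nat_lit 5) (nat_lit 490) (nat_lit 479) (nat_lit 231))))) (XT.nd (nat_lit 312) (nat_lit 1900) (nat_lit 0) (XT.nd (nat_lit 156) (nat_lit 0) (nat_lit 0) (XT.nd (nat_lit 78) (nat_lit 0) (nat_lit 0) (XT.lf (nat_lit 0) (nat_lit 36999648049) (nat_lit 1216) (nat_lit 12958672149) (nat_lit 1292)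 (nat_lit 487275491) (nat_lit 280) (nat_lit 5) (nat_lit 296) (nat_lit 5) (nat_lit 297) (nat_lit 5) (nat_lit 491) (nat_lit 479) (nat_lit 230)) (XT.lf (nat_lit 76) (nat_lit 13365178377) (nat_lit 0) (nat_lit 27315156340) (nat_lit 1292) (nat_lit 10563900578) (nat_lit 281) (nat_lit 5) (nat_lit 280) (nat_lit 5) (nat_lit 297) (nat_lit 5) (nat_lit 492) (nat_lit 479) (nat_lit 229))) (XT.nd (nat_lit 78) (nat_lit 0) (nat_lit 76) (XT.lf (nat_lit 76) (nat_lit 40743569226) (nat_lit 0) (nat_lit 3857700403) (nat_lit 1292) (nat_lit 7461669866) (nat_lit 281) (nat_lit 5) (nat_lit 280) (nat_lit 5) (nat_lit 297) (nat_lit 5) (nat_lit 493) (nat_lit 479) (nat_lit 228)) (XT.lf (nat_lit 76) (nat_lit 16156383007) (nat_lit 0) (nat_lit 32832926530) (nat_lit 1292) (nat_lit 3906411200) (nat_lit 282) (nat_lit 5) (nat_lit 281) (nat_lit 5) (nat_lit 298) (nat_lit 5) (nat_lit 494) (nat_lit 479) (nat_lit 227)))) (XT.nd (nat_lit 156) (nat_lit 760) (nat_lit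 0) (XT.nd (nat_lit 78) (nat_lit 1216) (nat_lit 0) (XT.lf (nat_lit 76) (nat_lit 44648674005) (nat_lit 0) (nat_lit 9011464339) (nat_lit 1292) (nat_lit 88812863) (nat_lit 282) (nat_lit 5) (nat_lit 281) (nat_lit 5) (nat_lit 298) (nat_lit 5) (nat_lit 495) (nat_lit 479) (nat_lit 226)) (XT.lf (nat_lit 0) (nat_lit 4108346701) (nat_lit 1292) (nat_lit 35057581174) (nat_lit 76) (nat_lit 15450541692) (nat_lit 265) (nat_lit 5) (nat_lit 282) (nat_lit 5) (nat_lit 266) (nat_lit 5) (nat_lit 496) (nat_lit 479) (nat_lit 225))) (XT.nd (nat_lit 78) (nat_lit 760) (nat_lit 0) (XT.lf (nat_lit 0) (nat_lit 8610727193) (nat_lit 1292) (nat_lit 6334725339) (nat_lit 76) (nat_lit 40559102032) (nat_lit 265) (nat_lit 5) (nat_lit 282) (nat_lit 5) (nat_lit 266) (nat_lit 5) (nat_lit 497) (nat_lit 479) (nat_lit 224)) (XT.lf (nat_lit 0) (nat_lit 13573601335) (nat_lit 836) (nat_lit 32799162749) (nat_lit 76) (nat_lit 10036755553) (nat_lit 255) (nat_lit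 5) (nat_lit 266) (nat_lit 5) (nat_lit 256) (nat_lit 5) (nat_lit 498) (nat_lit 479) (nat_lit 223))))))) (XT.nd (nat_lit 1170) (nat_lit 3572) (nat_lit 0) (XT.nd (nat_lit 546) (nat_lit 2128) (nat_lit 0) (XT.nd (nat_lit 234) (nat_lit 1064) (nat_lit 0) (XT.nd (nat_lit 78) (nat_lit 1216) (nat_lit 0) (XT.lf (nat_lit 0) (nat_lit 18897048992) (nat_lit 836) (nat_lit 2905503889) (nat_lit 76) (nat_lit 35532730355) (nat_lit 255) (nat_lit 5) (nat_lit 266) (nat_lit 5) (nat_lit 256) (nat_lit 5) (nat_lit 499) (nat_lit 479) (nat_lit 222)) (XT.nd (nat_lit 78) (nat_lit 608) (nat_lit 0) (XT.lf (nat_lit 0) (nat_lit 24689108139) (nat_lit 684) (nat_lit 29877931842) (nat_lit 76) (nat_lit 3712512704) (nat_lit 247) (nat_lit 5) (nat_lit 256) (nat_lit 5) (nat_lit 248) (nat_lit 5) (nat_lit 500) (nat_lit 479) (nat_lit 221)) (XT.lf (nat_lit 0) (nat_lit 1263933413) (nat_lit 608) (nat_lit 29647797313) (nat_lit 684) (nat_lit 28332715622) (nat_lit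 239) (nat_lit 5) (nat_lit 247) (nat_lit 5) (nat_lit 248) (nat_lit 5) (nat_lit 501) (nat_lit 479) (nat_lit 220)))) (XT.nd (nat_lit 156) (nat_lit 532) (nat_lit 0) (XT.nd (nat_lit 78) (nat_lit 532) (nat_lit 0) (XT.lf (nat_lit 0) (nat_lit 33951708596) (nat_lit 608) (nat_lit 3670203430) (nat_lit 684) (nat_lit 22607348566) (nat_lit 239) (nat_lit 5) (nat_lit 247) (nat_lit 5) (nat_lit 248) (nat_lit 5) (nat_lit 502) (nat_lit 479) (nat_lit 219)) (XT.lf (nat_lit 0) (nat_lit 6276230926) (nat_lit 532) (nat_lit 38538618243) (nat_lit 608) (nat_lit 16420326753) (nat_lit 232) (nat_lit 5) (nat_lit 239) (nat_lit 5) (nat_lit 240) (nat_lit 5) (nat_lit 503) (nat_lit 479) (nat_lit 218))) (XT.nd (nat_lit 78) (nat_lit 532) (nat_lit 0) (XT.lf (nat_lit 0) (nat_lit 40307422470) (nat_lit 532) (nat_lit 12216697531) (nat_lit 608) (nat_lit 9738132507) (nat_lit 232) (nat_lit 5) (nat_lit 239) (nat_lit 5) (nat_lit 240) (nat_lit 5) (nat_lit 504)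 (nat_lit 479) (nat_lit 217)) (XT.lf (nat_lit 0) (nat_lit 12132165394) (nat_lit 532) (nat_lit 48591538299) (nat_lit 608) (nat_lit 2588666816) (nat_lit 225) (nat_lit 5) (nat_lit 232) (nat_lit 5) (nat_lit 233) (nat_lit 5) (nat_lit 505) (nat_lit 479) (nat_lit 216))))) (XT.nd (nat_lit 312) (nat_lit 988) (nat_lit 0) (XT.nd (nat_lit 156) (nat_lit 532) (nat_lit 0) (XT.nd (nat_lit 78) (nat_lit 532) (nat_lit 0) (XT.lf (nat_lit 0) (nat_lit 5026194342) (nat_lit 608) (nat_lit 16865387098) (nat_lit 76) (nat_lit 42490710838) (nat_lit 224) (nat_lit 5) (nat_lit 232) (nat_lit 5) (nat_lit 225) (nat_lit 5) (nat_lit 506) (nat_lit 479) (nat_lit 215)) (XT.lf (nat_lit 0) (nat_lit 13053606628) (nat_lit 608) (nat_lit 46714408003) (nat_lit 76) (nat_lit 5708444256) (nat_lit 217) (nat_lit 5) (nat_lit 225) (nat_lit 5) (nat_lit 218) (nat_lit 5) (nat_lit 507) (nat_lit 479) (nat_lit 214))) (XT.nd (nat_lit 78) (nat_lit 532) (nat_lit 0) (XT.lf (nat_lit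 0) (nat_lit 21709859895) (nat_lit 608) (nat_lit 11013543561) (nat_lit 76) (nat_lit 33868406621) (nat_lit 217) (nat_lit 5) (nat_lit 225) (nat_lit 5) (nat_lit 218) (nat_lit 5) (nat_lit 508) (nat_lit 479) (nat_lit 213)) (XT.lf (nat_lit 0) (nat_lit 26270192649) (nat_lit 532) (nat_lit 4607431072) (nat_lit 608) (nat_lit 36855443532) (nat_lit 210) (nat_lit 5) (nat_lit 217) (nat_lit 5) (nat_lit 218) (nat_lit 5) (nat_lit 509) (nat_lit 479) (nat_lit 212)))) (XT.nd (nat_lit 156) (nat_lit 532) (nat_lit 0) (XT.nd (nat_lit 78) (nat_lit 456) (nat_lit 0) (XT.lf (nat_lit 0) (nat_lit 40666133336) (nat_lit 608) (nat_lit 4242998157) (nat_lit 76) (nat_lit 23989059397) (nat_lit 210) (nat_lit 5) (nat_lit 218) (nat_lit 5) (nat_lit 211) (nat_lit 5) (nat_lit 510) (nat_lit 479) (nat_lit 211)) (XT.lf (nat_lit 0) (nat_lit 34724690726) (nat_lit 456) (nat_lit 16402350730) (nat_lit 532) (nat_lit 18959864613) (nat_lit 204) (nat_lit 5) (nat_lit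 210) (nat_lit 5) (nat_lit 211) (nat_lit 5) (nat_lit 511) (nat_lit 479) (nat_lit 210))) (XT.nd (nat_lit 78) (nat_lit 76) (nat_lit 0) (XT.lf (nat_lit 0) (nat_lit 3582517095) (nat_lit 456) (nat_lit 58520884477) (nat_lit 532) (nat_lit 9201832515) (nat_lit 198) (nat_lit 5) (nat_lit 204) (nat_lit 5) (nat_lit 205) (nat_lit 5) (nat_lit 512) (nat_lit 479) (nat_lit 209)) (XT.lf (nat_lit 0) (nat_lit 1354745271) (nat_lit 532) (nat_lit 28303798899) (nat_lit 76) (nat_lit 42885651959) (nat_lit 197) (nat_lit 5) (nat_lit 204) (nat_lit 5) (nat_lit 198) (nat_lit 5) (nat_lit 513) (nat_lit 479) (nat_lit 208)))))) (XT.nd (nat_lit 624) (nat_lit 1444) (nat_lit 0) (XT.nd (nat_lit 312) (nat_lit 1216) (nat_lit 0) (XT.nd (nat_lit 156) (nat_lit 456) (nat_lit 0) (XT.nd (nat_lit 78) (nat_lit 0) (nat_lit 0) (XT.lf (nat_lit 0) (nat_lit 12164858385) (nat_lit 532) (nat_lit 61368042545) (nat_lit 76) (nat_lit 281039430) (nat_lit 191) (nat_lit 5) (nat_lit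 198) (nat_lit 5) (nat_lit 192) (nat_lit 5) (nat_lit 514) (nat_lit 479) (nat_lit 207)) (XT.lf (nat_lit 0) (nat_lit 23880942046) (nat_lit 532) (nat_lit 20412169195) (nat_lit 76) (nat_lit 30811215773) (nat_lit 191) (nat_lit 5) (nat_lit 198) (nat_lit 5) (nat_lit 192) (nat_lit 5) (nat_lit 515) (nat_lit 479) (nat_lit 206))) (XT.nd (nat_lit 78) (nat_lit 0) (nat_lit 0) (XT.lf (nat_lit 0) (nat_lit 22204927555) (nat_lit 456) (nat_lit 13956421699) (nat_lit 532) (nat_lit 40265690891) (nat_lit 185) (nat_lit 5) (nat_lit 191) (nat_lit 5) (nat_lit 192) (nat_lit 5) (nat_lit 516) (nat_lit 479) (nat_lit 205)) (XT.lf (nat_lit 0) (nat_lit 49183940765) (nat_lit 532) (nat_lit 11433290851) (nat_lit 76) (nat_lit 17160989997) (nat_lit 185) (nat_lit 5) (nat_lit 192) (nat_lit 5) (nat_lit 186) (nat_lit 5) (nat_lit 517) (nat_lit 479) (nat_lit 204)))) (XT.nd (nat_lit 156) (nat_lit 836) (nat_lit 0) (XT.nd (nat_lit 78) (nat_lit 0) (nat_lit 0)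 (XT.lf (nat_lit 0) (nat_lit 33147094376) (nat_lit 380) (nat_lit 29906348362) (nat_lit 456) (nat_lit 16102808907) (nat_lit 180) (nat_lit 5) (nat_lit 185) (nat_lit 5) (nat_lit 186) (nat_lit 5) (nat_lit 518) (nat_lit 479) (nat_lit 203)) (XT.lf (nat_lit 0) (nat_lit 77471645227) (nat_lit 456) (nat_lit 1291376084) (nat_lit 76) (nat_lit 1808622903) (nat_lit 180) (nat_lit 5) (nat_lit 186) (nat_lit 5) (nat_lit 181) (nat_lit 5) (nat_lit 519) (nat_lit 479) (nat_lit 202))) (XT.nd (nat_lit 78) (nat_lit 380) (nat_lit 0) (XT.lf (nat_lit 0) (nat_lit 10830825522) (nat_lit 456) (nat_lit 36757563312) (nat_lit 76) (nat_lit 34415978119) (nat_lit 174) (nat_lit 5) (nat_lit 180) (nat_lit 5) (nat_lit 175) (nat_lit 5) (nat_lit 520) (nat_lit 479) (nat_lit 201)) (XT.lf (nat_lit 0) (nat_lit 9889346533) (nat_lit 380) (nat_lit 15335602161) (nat_lit 456) (nat_lit 58250971554) (nat_lit 169) (nat_lit 5) (nat_lit 174) (nat_lit 5) (nat_lit 175) (nat_lit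 5) (nat_lit 521) (nat_lit 479) (nat_lit 200))))) (XT.nd (nat_lit 312) (nat_lit 684) (nat_lit 0) (XT.nd (nat_lit 156) (nat_lit 380) (nat_lit 0) (XT.nd (nat_lit 78) (nat_lit 380) (nat_lit 0) (XT.lf (nat_lit 0) (nat_lit 40597125554) (nat_lit 456) (nat_lit 26467657537) (nat_lit 76) (nat_lit 17910450240) (nat_lit 169) (nat_lit 5) (nat_lit 175) (nat_lit 5) (nat_lit 170) (nat_lit 5) (nat_lit 522) (nat_lit 479) (nat_lit 199)) (XT.lf (nat_lit 0) (nat_lit 22348371051) (nat_lit 380) (nat_lit 34448232662) (nat_lit 456) (nat_lit 29711938098) (nat_lit 164) (nat_lit 5) (nat_lit 169) (nat_lit 5) (nat_lit 170) (nat_lit 5) (nat_lit 523) (nat_lit 479) (nat_lit 198))) (XT.nd (nat_lit 78) (nat_lit 380) (nat_lit 0) (XT.lf (nat_lit 0) (nat_lit 73170733890) (nat_lit 380) (nat_lit 578084481) (nat_lit 456) (nat_lit 14331028694) (nat_lit 164) (nat_lit 5) (nat_lit 169) (nat_lit 5) (nat_lit 170) (nat_lit 5) (nat_lit 524) (nat_lit 479) (nat_lit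 197)) (XT.lf (nat_lit 0) (nat_lit 2165738359) (nat_lit 380) (nat_lit 53503922855) (nat_lit 76) (nat_lit 34007676869) (nat_lit 159) (nat_lit 5) (nat_lit 164) (nat_lit 5) (nat_lit 160) (nat_lit 5) (nat_lit 525) (nat_lit 479) (nat_lit 196)))) (XT.nd (nat_lit 156) (nat_lit 304) (nat_lit 0) (XT.nd (nat_lit 78) (nat_lit 380) (nat_lit 0) (XT.lf (nat_lit 0) (nat_lit 19026633116) (nat_lit 380) (nat_lit 2374004855) (nat_lit 76) (nat_lit 69913141271) (nat_lit 159) (nat_lit 5) (nat_lit 164) (nat_lit 5) (nat_lit 160) (nat_lit 5) (nat_lit 526) (nat_lit 479) (nat_lit 195)) (XT.lf (nat_lit 0) (nat_lit 37024358015) (nat_lit 456) (nat_lit 41833018557) (nat_lit 76) (nat_lit 14123007037) (nat_lit 154) (nat_lit 5) (nat_lit 160) (nat_lit 5) (nat_lit 155) (nat_lit 5) (nat_lit 527) (nat_lit 479) (nat_lit 194))) (XT.nd (nat_lit 78) (nat_lit 0) (nat_lit 0) (XT.lf (nat_lit 0) (nat_lit 11641120128) (nat_lit 304) (nat_lit 44268411372) (nat_lit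 380) (nat_lit 38777029176) (nat_lit 150) (nat_lit 5) (nat_lit 154) (nat_lit 5) (nat_lit 155) (nat_lit 5) (nat_lit 528) (nat_lit 479) (nat_lit 193)) (XT.lf (nat_lit 0) (nat_lit 67576336497) (nat_lit 304) (nat_lit 8206880262) (nat_lit 380) (nat_lit 20648047667) (nat_lit 150) (nat_lit 5) (nat_lit 154) (nat_lit 5) (nat_lit 155) (nat_lit 5) (nat_lit 529) (nat_lit 479) (nat_lit 192))))))))
noncomputable def xc238 : XT := (XT.nd (nat_lit 60528) (nat_lit 0) (nat_lit 0) (XT.nd (nat_lit 59358) (nat_lit 0) (nat_lit 7220) (XT.nd (nat_lit 58734) (nat_lit 0) (nat_lit 10488) (XT.nd (nat_lit 234) (nat_lit 304) (nat_lit 0) (XT.nd (nat_lit 78) (nat_lit 380) (nat_lit 0) (XT.lf (nat_lit 0) (nat_lit 27213503803) (nat_lit 304) (nat_lit 69578893933) (nat_lit 380) (nat_lit 1419733065) (nat_lit 146) (nat_lit 5) (nat_lit 150) (nat_lit 5) (nat_lit 151) (nat_lit 5) (nat_lit 530) (nat_lit 479) (nat_lit 191)) (XT.nd (nat_lit 78) (nat_lit 304)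 (nat_lit 0) (XT.lf (nat_lit 0) (nat_lit 18401723851) (nat_lit 380) (nat_lit 14743745835) (nat_lit 76) (nat_lit 66884399820) (nat_lit 145) (nat_lit 5) (nat_lit 150) (nat_lit 5) (nat_lit 146) (nat_lit 5) (nat_lit 531) (nat_lit 479) (nat_lit 190)) (XT.lf (nat_lit 0) (nat_lit 39258656774) (nat_lit 380) (nat_lit 57891957067) (nat_lit 76) (nat_lit 4737023863) (nat_lit 141) (nat_lit 5) (nat_lit 146) (nat_lit 5) (nat_lit 142) (nat_lit 5) (nat_lit 532) (nat_lit 479) (nat_lit 189)))) (XT.nd (nat_lit 58344) (nat_lit 0) (nat_lit 10412) (XT.nd (nat_lit 78) (nat_lit 0) (nat_lit 0) (XT.lf (nat_lit 0) (nat_lit 685925466) (nat_lit 304) (nat_lit 60540053379) (nat_lit 380) (nat_lit 42560619730) (nat_lit 137) (nat_lit 5) (nat_lit 141) (nat_lit 5) (nat_lit 142) (nat_lit 5) (nat_lit 533) (nat_lit 479) (nat_lit 188)) (XT.lf (nat_lit 0) (nat_lit 62207217198) (nat_lit 304) (nat_lit 22229262859) (nat_lit 380) (nat_lit 21288523487) (nat_lit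 137) (nat_lit 5) (nat_lit 141) (nat_lit 5) (nat_lit 142) (nat_lit 5) (nat_lit 534) (nat_lit 479) (nat_lit 187))) (XT.nd (nat_lit 78) (nat_lit 0) (nat_lit 0) (XT.lf (nat_lit 0) (nat_lit 8416533115) (nat_lit 1292) (nat_lit 6610985989) (nat_lit 1292) (nat_lit 6610985989) (nat_lit 274) (nat_lit 3) (nat_lit 291) (nat_lit 3) (nat_lit 291) (nat_lit 5) (nat_lit 480) (nat_lit 480) (nat_lit 240)) (XT.lf (nat_lit 76) (nat_lit 8141099570) (nat_lit 0) (nat_lit 9057353530) (nat_lit 1292) (nat_lit 26724317455) (nat_lit 275) (nat_lit 5) (nat_lit 274) (nat_lit 3) (nat_lit 291) (nat_lit 5) (nat_lit 481) (nat_lit 480) (nat_lit 239))))) (XT.nd (nat_lit 312) (nat_lit 0) (nat_lit 152) (XT.nd (nat_lit 156) (nat_lit 0) (nat_lit 76) (XT.nd (nat_lit 78) (nat_lit 0) (nat_lit 0) (XT.lf (nat_lit 0) (nat_lit 17829120307) (nat_lit 1216) (nat_lit 14290709930) (nat_lit 1292) (nat_lit 12460444251) (nat_lit 275) (nat_lit 5) (nat_lit 291) (nat_lit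 5) (nat_lit 292) (nat_lit 5) (nat_lit 482) (nat_lit 480) (nat_lit 238)) (XT.lf (nat_lit 76) (nat_lit 7908898936) (nat_lit 0) (nat_lit 10734197673) (nat_lit 1292) (nat_lit 26609475562) (nat_lit 276) (nat_lit 5) (nat_lit 275) (nat_lit 5) (nat_lit 292) (nat_lit 5) (nat_lit 483) (nat_lit 480) (nat_lit 237))) (XT.nd (nat_lit 78) (nat_lit 0) (nat_lit 0) (XT.lf (nat_lit 0) (nat_lit 19734508103) (nat_lit 1216) (nat_lit 14984024197) (nat_lit 1292) (nat_lit 11218916305) (nat_lit 276) (nat_lit 5) (nat_lit 292) (nat_lit 5) (nat_lit 293) (nat_lit 5) (nat_lit 484) (nat_lit 480) (nat_lit 236)) (XT.lf (nat_lit 76) (nat_lit 8097394743) (nat_lit 0) (nat_lit 12944144366) (nat_lit 1292) (nat_lit 25595846195) (nat_lit 277) (nat_lit 5) (nat_lit 276) (nat_lit 5) (nat_lit 293) (nat_lit 5) (nat_lit 485) (nat_lit 480) (nat_lit 235)))) (XT.nd (nat_lit 156) (nat_lit 0) (nat_lit 76) (XT.nd (nat_lit 78) (nat_lit 0) (nat_lit 0) (XT.lf (nat_lit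 0) (nat_lit 22630543710) (nat_lit 1216) (nat_lit 15268809297) (nat_lit 1292) (nat_lit 9451684496) (nat_lit 277) (nat_lit 5) (nat_lit 293) (nat_lit 5) (nat_lit 294) (nat_lit 5) (nat_lit 486) (nat_lit 480) (nat_lit 234)) (XT.lf (nat_lit 76) (nat_lit 8742178311) (nat_lit 0) (nat_lit 15736064588) (nat_lit 1292) (nat_lit 23601525907) (nat_lit 278) (nat_lit 5) (nat_lit 277) (nat_lit 5) (nat_lit 294) (nat_lit 5) (nat_lit 487) (nat_lit 480) (nat_lit 233))) (XT.nd (nat_lit 78) (nat_lit 0) (nat_lit 0) (XT.lf (nat_lit 0) (nat_lit 26604118552) (nat_lit 1216) (nat_lit 15109737237) (nat_lit 1292) (nat_lit 7109824158) (nat_lit 278) (nat_lit 5) (nat_lit 294) (nat_lit 5) (nat_lit 295) (nat_lit 5) (nat_lit 488) (nat_lit 480) (nat_lit 232)) (XT.lf (nat_lit 76) (nat_lit 9881198317) (nat_lit 0) (nat_lit 19162252150) (nat_lit 1292) (nat_lit 20538967812) (nat_lit 279) (nat_lit 5) (nat_lit 278) (nat_lit 5) (nat_lit 295) (nat_lit 5) (nat_lit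 489) (nat_lit 480) (nat_lit 231)))))) (XT.nd (nat_lit 546) (nat_lit 3572) (nat_lit 0) (XT.nd (nat_lit 234) (nat_lit 0) (nat_lit 76) (XT.nd (nat_lit 78) (nat_lit 0) (nat_lit 0) (XT.lf (nat_lit 0) (nat_lit 31748056910) (nat_lit 1216) (nat_lit 14469135960) (nat_lit 1292) (nat_lit 4140963301) (nat_lit 279) (nat_lit 5) (nat_lit 295) (nat_lit 5) (nat_lit 296) (nat_lit 5) (nat_lit 490) (nat_lit 480) (nat_lit 230)) (XT.nd (nat_lit 78) (nat_lit 0) (nat_lit 76) (XT.lf (nat_lit 76) (nat_lit 11554889302) (nat_lit 0) (nat_lit 23278662854) (nat_lit 1292) (nat_lit 16314621767) (nat_lit 280) (nat_lit 5) (nat_lit 279) (nat_lit 5) (nat_lit 296) (nat_lit 5) (nat_lit 491) (nat_lit 480) (nat_lit 229)) (XT.lf (nat_lit 0) (nat_lit 38161492505) (nat_lit 1216) (nat_lit 13306861889) (nat_lit 1292) (nat_lit 489041639) (nat_lit 280) (nat_lit 5) (nat_lit 296) (nat_lit 5) (nat_lit 297) (nat_lit 5) (nat_lit 492) (nat_lit 480) (nat_lit 228))))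 (XT.nd (nat_lit 156) (nat_lit 0) (nat_lit 76) (XT.nd (nat_lit 78) (nat_lit 0) (nat_lit 0) (XT.lf (nat_lit 76) (nat_lit 13806306403) (nat_lit 0) (nat_lit 28145169194) (nat_lit 1292) (nat_lit 10828553302) (nat_lit 281) (nat_lit 5) (nat_lit 280) (nat_lit 5) (nat_lit 297) (nat_lit 5) (nat_lit 493) (nat_lit 480) (nat_lit 227)) (XT.lf (nat_lit 76) (nat_lit 42004878900) (nat_lit 0) (nat_lit 3983682059) (nat_lit 1292) (nat_lit 7634777929) (nat_lit 281) (nat_lit 5) (nat_lit 280) (nat_lit 5) (nat_lit 297) (nat_lit 5) (nat_lit 494) (nat_lit 480) (nat_lit 226))) (XT.nd (nat_lit 78) (nat_lit 0) (nat_lit 0) (XT.lf (nat_lit 76) (nat_lit 16681266481) (nat_lit 0) (nat_lit 33825831708) (nat_lit 1292) (nat_lit 3974040022) (nat_lit 282) (nat_lit 5) (nat_lit 281) (nat_lit 5) (nat_lit 298) (nat_lit 5) (nat_lit 495) (nat_lit 480) (nat_lit 225)) (XT.lf (nat_lit 76) (nat_lit 46027155569) (nat_lit 0) (nat_lit 9289495048) (nat_lit 1292)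 (nat_lit 43357332) (nat_lit 282) (nat_lit 5) (nat_lit 281) (nat_lit 5) (nat_lit 298) (nat_lit 5) (nat_lit 496) (nat_lit 480) (nat_lit 224))))) (XT.nd (nat_lit 312) (nat_lit 1748) (nat_lit 0) (XT.nd (nat_lit 156) (nat_lit 760) (nat_lit 0) (XT.nd (nat_lit 78) (nat_lit 0) (nat_lit 0) (XT.lf (nat_lit 0) (nat_lit 4277720755) (nat_lit 1292) (nat_lit 36068270811) (nat_lit 76) (nat_lit 15907578432) (nat_lit 265) (nat_lit 5) (nat_lit 282) (nat_lit 5) (nat_lit 266) (nat_lit 5) (nat_lit 497) (nat_lit 480) (nat_lit 223)) (XT.lf (nat_lit 0) (nat_lit 8913829253) (nat_lit 1292) (nat_lit 6484924577) (nat_lit 76) (nat_lit 41769584306) (nat_lit 265) (nat_lit 5) (nat_lit 282) (nat_lit 5) (nat_lit 266) (nat_lit 5) (nat_lit 498) (nat_lit 480) (nat_lit 222))) (XT.nd (nat_lit 78) (nat_lit 0) (nat_lit 0) (XT.lf (nat_lit 0) (nat_lit 14024622250) (nat_lit 836) (nat_lit 33742318364) (nat_lit 76) (nat_lit 10333540851) (nat_lit 255) (nat_lit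 5) (nat_lit 266) (nat_lit 5) (nat_lit 256) (nat_lit 5) (nat_lit 499) (nat_lit 480) (nat_lit 221)) (XT.lf (nat_lit 0) (nat_lit 19506497234) (nat_lit 836) (nat_lit 2953038649) (nat_lit 76) (nat_lit 36594520646) (nat_lit 255) (nat_lit 5) (nat_lit 266) (nat_lit 5) (nat_lit 256) (nat_lit 5) (nat_lit 500) (nat_lit 480) (nat_lit 220)))) (XT.nd (nat_lit 156) (nat_lit 532) (nat_lit 0) (XT.nd (nat_lit 78) (nat_lit 608) (nat_lit 0) (XT.lf (nat_lit 0) (nat_lit 25471433047) (nat_lit 684) (nat_lit 30733745496) (nat_lit 76) (nat_lit 3821502337) (nat_lit 247) (nat_lit 5) (nat_lit 256) (nat_lit 5) (nat_lit 248) (nat_lit 5) (nat_lit 501) (nat_lit 480) (nat_lit 219)) (XT.lf (nat_lit 0) (nat_lit 1341978420) (nat_lit 608) (nat_lit 30537928461) (nat_lit 684) (nat_lit 29140639551) (nat_lit 239) (nat_lit 5) (nat_lit 247) (nat_lit 5) (nat_lit 248) (nat_lit 5) (nat_lit 502) (nat_lit 480) (nat_lit 218))) (XT.nd (nat_lit 78) (nat_lit 532)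 (nat_lit 0) (XT.lf (nat_lit 0) (nat_lit 35009218111) (nat_lit 608) (nat_lit 3780986454) (nat_lit 684) (nat_lit 23244736460) (nat_lit 239) (nat_lit 5) (nat_lit 247) (nat_lit 5) (nat_lit 248) (nat_lit 5) (nat_lit 503) (nat_lit 480) (nat_lit 217)) (XT.lf (nat_lit 0) (nat_lit 6504286256) (nat_lit 532) (nat_lit 39693865104) (nat_lit 608) (nat_lit 16872906051) (nat_lit 232) (nat_lit 5) (nat_lit 239) (nat_lit 5) (nat_lit 240) (nat_lit 5) (nat_lit 504) (nat_lit 480) (nat_lit 216))))))) (XT.nd (nat_lit 1170) (nat_lit 3268) (nat_lit 0) (XT.nd (nat_lit 546) (nat_lit 2280) (nat_lit 0) (XT.nd (nat_lit 234) (nat_lit 1064) (nat_lit 0) (XT.nd (nat_lit 78) (nat_lit 608) (nat_lit 0) (XT.lf (nat_lit 0) (nat_lit 41555255243) (nat_lit 532) (nat_lit 12582313325) (nat_lit 608) (nat_lit 9991411915) (nat_lit 232) (nat_lit 5) (nat_lit 239) (nat_lit 5) (nat_lit 240) (nat_lit 5) (nat_lit 505) (nat_lit 480) (nat_lit 215)) (XT.nd (nat_lit 78)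 (nat_lit 76) (nat_lit 0) (XT.lf (nat_lit 0) (nat_lit 12535481928) (nat_lit 532) (nat_lit 50046945590) (nat_lit 608) (nat_lit 2628196102) (nat_lit 225) (nat_lit 5) (nat_lit 232) (nat_lit 5) (nat_lit 233) (nat_lit 5) (nat_lit 506) (nat_lit 480) (nat_lit 214)) (XT.lf (nat_lit 0) (nat_lit 5213277891) (nat_lit 608) (nat_lit 17332413721) (nat_lit 76) (nat_lit 43766973318) (nat_lit 224) (nat_lit 5) (nat_lit 232) (nat_lit 5) (nat_lit 225) (nat_lit 5) (nat_lit 507) (nat_lit 480) (nat_lit 213)))) (XT.nd (nat_lit 156) (nat_lit 532) (nat_lit 0) (XT.nd (nat_lit 78) (nat_lit 0) (nat_lit 0) (XT.lf (nat_lit 0) (nat_lit 13480854210) (nat_lit 608) (nat_lit 48076239942) (nat_lit 76) (nat_lit 5882582345) (nat_lit 217) (nat_lit 5) (nat_lit 225) (nat_lit 5) (nat_lit 218) (nat_lit 5) (nat_lit 508) (nat_lit 480) (nat_lit 212)) (XT.lf (nat_lit 0) (nat_lit 22395757035) (nat_lit 608) (nat_lit 11305502973) (nat_lit 76) (nat_lit 34887259559)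 (nat_lit 217) (nat_lit 5) (nat_lit 225) (nat_lit 5) (nat_lit 218) (nat_lit 5) (nat_lit 509) (nat_lit 480) (nat_lit 211))) (XT.nd (nat_lit 78) (nat_lit 0) (nat_lit 0) (XT.lf (nat_lit 0) (nat_lit 27096368393) (nat_lit 532) (nat_lit 4741543528) (nat_lit 608) (nat_lit 37926121989) (nat_lit 210) (nat_lit 5) (nat_lit 217) (nat_lit 5) (nat_lit 218) (nat_lit 5) (nat_lit 510) (nat_lit 480) (nat_lit 210)) (XT.lf (nat_lit 0) (nat_lit 41919126075) (nat_lit 608) (nat_lit 4332369837) (nat_lit 76) (nat_lit 24712644058) (nat_lit 210) (nat_lit 5) (nat_lit 218) (nat_lit 5) (nat_lit 211) (nat_lit 5) (nat_lit 511) (nat_lit 480) (nat_lit 209))))) (XT.nd (nat_lit 312) (nat_lit 836) (nat_lit 0) (XT.nd (nat_lit 156) (nat_lit 532) (nat_lit 0) (XT.nd (nat_lit 78) (nat_lit 456) (nat_lit 0) (XT.lf (nat_lit 0) (nat_lit 35803977964) (nat_lit 456) (nat_lit 16889282975) (nat_lit 532) (nat_lit 19495273867) (nat_lit 204) (nat_lit 5) (nat_lit 210)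 (nat_lit 5) (nat_lit 211) (nat_lit 5) (nat_lit 512) (nat_lit 480) (nat_lit 208)) (XT.lf (nat_lit 0) (nat_lit 3728090966) (nat_lit 456) (nat_lit 60270291141) (nat_lit 532) (nat_lit 9445046630) (nat_lit 198) (nat_lit 5) (nat_lit 204) (nat_lit 5) (nat_lit 205) (nat_lit 5) (nat_lit 513) (nat_lit 480) (nat_lit 207))) (XT.nd (nat_lit 78) (nat_lit 456) (nat_lit 0) (XT.lf (nat_lit 0) (nat_lit 1426649782) (nat_lit 532) (nat_lit 29115296319) (nat_lit 76) (nat_lit 44177632376) (nat_lit 197) (nat_lit 5) (nat_lit 204) (nat_lit 5) (nat_lit 198) (nat_lit 5) (nat_lit 514) (nat_lit 480) (nat_lit 206)) (XT.lf (nat_lit 0) (nat_lit 12560576638) (nat_lit 532) (nat_lit 63170972116) (nat_lit 76) (nat_lit 295881136) (nat_lit 191) (nat_lit 5) (nat_lit 198) (nat_lit 5) (nat_lit 192) (nat_lit 5) (nat_lit 515) (nat_lit 480) (nat_lit 205)))) (XT.nd (nat_lit 156) (nat_lit 380) (nat_lit 0) (XT.nd (nat_lit 78) (nat_lit 456) (nat_lit 0) (XT.lf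 (nat_lit 0) (nat_lit 24627246522) (nat_lit 532) (nat_lit 20987532615) (nat_lit 76) (nat_lit 31741776055) (nat_lit 191) (nat_lit 5) (nat_lit 198) (nat_lit 5) (nat_lit 192) (nat_lit 5) (nat_lit 516) (nat_lit 480) (nat_lit 204)) (XT.lf (nat_lit 0) (nat_lit 22907714276) (nat_lit 456) (nat_lit 14367833684) (nat_lit 532) (nat_lit 41443417452) (nat_lit 185) (nat_lit 5) (nat_lit 191) (nat_lit 5) (nat_lit 192) (nat_lit 5) (nat_lit 517) (nat_lit 480) (nat_lit 203))) (XT.nd (nat_lit 78) (nat_lit 380) (nat_lit 0) (XT.lf (nat_lit 0) (nat_lit 50688030070) (nat_lit 532) (nat_lit 11739925648) (nat_lit 76) (nat_lit 17682750370) (nat_lit 185) (nat_lit 5) (nat_lit 192) (nat_lit 5) (nat_lit 186) (nat_lit 5) (nat_lit 518) (nat_lit 480) (nat_lit 202)) (XT.lf (nat_lit 0) (nat_lit 34177514626) (nat_lit 380) (nat_lit 30795616434) (nat_lit 456) (nat_lit 16556960690) (nat_lit 180) (nat_lit 5) (nat_lit 185) (nat_lit 5) (nat_lit 186) (nat_lit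 5) (nat_lit 519) (nat_lit 480) (nat_lit 201)))))) (XT.nd (nat_lit 624) (nat_lit 1672) (nat_lit 0) (XT.nd (nat_lit 312) (nat_lit 760) (nat_lit 0) (XT.nd (nat_lit 156) (nat_lit 380) (nat_lit 0) (XT.nd (nat_lit 78) (nat_lit 456) (nat_lit 0) (XT.lf (nat_lit 0) (nat_lit 79823135550) (nat_lit 456) (nat_lit 1294409883) (nat_lit 76) (nat_lit 1870423129) (nat_lit 180) (nat_lit 5) (nat_lit 186) (nat_lit 5) (nat_lit 181) (nat_lit 5) (nat_lit 520) (nat_lit 480) (nat_lit 200)) (XT.lf (nat_lit 0) (nat_lit 11182905497) (nat_lit 456) (nat_lit 37824387882) (nat_lit 76) (nat_lit 35456385449) (nat_lit 174) (nat_lit 5) (nat_lit 180) (nat_lit 5) (nat_lit 175) (nat_lit 5) (nat_lit 521) (nat_lit 480) (nat_lit 199))) (XT.nd (nat_lit 78) (nat_lit 0) (nat_lit 0) (XT.lf (nat_lit 0) (nat_lit 10221577275) (nat_lit 380) (nat_lit 15786825893) (nat_lit 456) (nat_lit 59970989161) (nat_lit 169) (nat_lit 5) (nat_lit 174) (nat_lit 5) (nat_lit 175)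 (nat_lit 5) (nat_lit 522) (nat_lit 480) (nat_lit 198)) (XT.lf (nat_lit 0) (nat_lit 41841050029) (nat_lit 456) (nat_lit 27226472840) (nat_lit 76) (nat_lit 18456182921) (nat_lit 169) (nat_lit 5) (nat_lit 175) (nat_lit 5) (nat_lit 170) (nat_lit 5) (nat_lit 523) (nat_lit 480) (nat_lit 197)))) (XT.nd (nat_lit 156) (nat_lit 380) (nat_lit 0) (XT.nd (nat_lit 78) (nat_lit 0) (nat_lit 0) (XT.lf (nat_lit 0) (nat_lit 23053691367) (nat_lit 380) (nat_lit 35472398757) (nat_lit 456) (nat_lit 30576936196) (nat_lit 164) (nat_lit 5) (nat_lit 169) (nat_lit 5) (nat_lit 170) (nat_lit 5) (nat_lit 524) (nat_lit 480) (nat_lit 196)) (XT.lf (nat_lit 0) (nat_lit 75399709484) (nat_lit 380) (nat_lit 586416447) (nat_lit 456) (nat_lit 14735367278) (nat_lit 164) (nat_lit 5) (nat_lit 169) (nat_lit 5) (nat_lit 170) (nat_lit 5) (nat_lit 525) (nat_lit 480) (nat_lit 195))) (XT.nd (nat_lit 78) (nat_lit 0) (nat_lit 0) (XT.lf (nat_lit 0) (nat_lit 2255489245)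 (nat_lit 380) (nat_lit 55074365810) (nat_lit 76) (nat_lit 35037056059) (nat_lit 159) (nat_lit 5) (nat_lit 164) (nat_lit 5) (nat_lit 160) (nat_lit 5) (nat_lit 526) (nat_lit 480) (nat_lit 194)) (XT.lf (nat_lit 0) (nat_lit 19621489134) (nat_lit 380) (nat_lit 2411560213) (nat_lit 76) (nat_lit 72019417921) (nat_lit 159) (nat_lit 5) (nat_lit 164) (nat_lit 5) (nat_lit 160) (nat_lit 5) (nat_lit 527) (nat_lit 480) (nat_lit 193))))) (XT.nd (nat_lit 312) (nat_lit 684) (nat_lit 0) (XT.nd (nat_lit 156) (nat_lit 304) (nat_lit 0) (XT.nd (nat_lit 78) (nat_lit 304) (nat_lit 0) (XT.lf (nat_lit 0) (nat_lit 38158858362) (nat_lit 456) (nat_lit 43054053374) (nat_lit 76) (nat_lit 14556166759) (nat_lit 154) (nat_lit 5) (nat_lit 160) (nat_lit 5) (nat_lit 155) (nat_lit 5) (nat_lit 528) (nat_lit 480) (nat_lit 192)) (XT.lf (nat_lit 0) (nat_lit 12023976572) (nat_lit 304) (nat_lit 45586241364) (nat_lit 380) (nat_lit 39916234113) (nat_lit 150)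 (nat_lit 5) (nat_lit 154) (nat_lit 5) (nat_lit 155) (nat_lit 5) (nat_lit 529) (nat_lit 480) (nat_lit 191))) (XT.nd (nat_lit 78) (nat_lit 304) (nat_lit 0) (XT.lf (nat_lit 0) (nat_lit 69636270127) (nat_lit 304) (nat_lit 8443162059) (nat_lit 380) (nat_lit 21244085273) (nat_lit 150) (nat_lit 5) (nat_lit 154) (nat_lit 5) (nat_lit 155) (nat_lit 5) (nat_lit 530) (nat_lit 480) (nat_lit 190)) (XT.lf (nat_lit 0) (nat_lit 28062816135) (nat_lit 304) (nat_lit 71655819687) (nat_lit 380) (nat_lit 1439181683) (nat_lit 146) (nat_lit 5) (nat_lit 150) (nat_lit 5) (nat_lit 151) (nat_lit 5) (nat_lit 531) (nat_lit 480) (nat_lit 189)))) (XT.nd (nat_lit 156) (nat_lit 304) (nat_lit 0) (XT.nd (nat_lit 78) (nat_lit 304) (nat_lit 0) (XT.lf (nat_lit 0) (nat_lit 18975806405) (nat_lit 380) (nat_lit 15153667948) (nat_lit 76) (nat_lit 68900627264) (nat_lit 145) (nat_lit 5) (nat_lit 150) (nat_lit 5) (nat_lit 146) (nat_lit 5) (nat_lit 532) (nat_lit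 480) (nat_lit 188)) (XT.lf (nat_lit 0) (nat_lit 40458213676) (nat_lit 380) (nat_lit 59596088918) (nat_lit 76) (nat_lit 4889307365) (nat_lit 141) (nat_lit 5) (nat_lit 146) (nat_lit 5) (nat_lit 142) (nat_lit 5) (nat_lit 533) (nat_lit 480) (nat_lit 187))) (XT.nd (nat_lit 58344) (nat_lit 0) (nat_lit 10412) (XT.lf (nat_lit 0) (nat_lit 738810220) (nat_lit 304) (nat_lit 62345420874) (nat_lit 380) (nat_lit 43815318378) (nat_lit 137) (nat_lit 5) (nat_lit 141) (nat_lit 5) (nat_lit 142) (nat_lit 5) (nat_lit 534) (nat_lit 480) (nat_lit 186)) (XT.lf (nat_lit 0) (nat_lit 8703329836) (nat_lit 1292) (nat_lit 6791646703) (nat_lit 1292) (nat_lit 6791646703) (nat_lit 274) (nat_lit 3) (nat_lit 291) (nat_lit 3) (nat_lit 291) (nat_lit 5) (nat_lit 481) (nat_lit 481) (nat_lit 238))))))))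
noncomputable def xc239 : XT := (XT.nd (nat_lit 2340) (nat_lit 5244) (nat_lit 0) (XT.nd (nat_lit 1170) (nat_lit 4864) (nat_lit 0) (XT.nd (nat_lit 546) (nat_lit 0) (nat_lit 304) (XT.nd (nat_lit 234) (nat_lit 0) (nat_lit 152) (XT.nd (nat_lit 78) (nat_lit 0) (nat_lit 76) (XT.lf (nat_lit 76) (nat_lit 8420323839) (nat_lit 0) (nat_lit 9361022567) (nat_lit 1292) (nat_lit 27457083579) (nat_lit 275) (nat_lit 5) (nat_lit 274) (nat_lit 3) (nat_lit 291) (nat_lit 5) (nat_lit 482) (nat_lit 481) (nat_lit 237)) (XT.nd (nat_lit 78) (nat_lit 0) (nat_lit 0) (XT.lf (nat_lit 0) (nat_lit 18428685766) (nat_lit 1216) (nat_lit 14683196202) (nat_lit 1292) (nat_lit 12803844954) (nat_lit 275) (nat_lit 5) (nat_lit 291) (nat_lit 5) (nat_lit 292) (nat_lit 5) (nat_lit 483) (nat_lit 481) (nat_lit 236)) (XT.lf (nat_lit 76) (nat_lit 8182045684) (nat_lit 0) (nat_lit 11083496342) (nat_lit 1292) (nat_lit 27342698128) (nat_lit 276) (nat_lit 5) (nat_lit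 275) (nat_lit 5) (nat_lit 292) (nat_lit 5) (nat_lit 484) (nat_lit 481) (nat_lit 235)))) (XT.nd (nat_lit 156) (nat_lit 0) (nat_lit 76) (XT.nd (nat_lit 78) (nat_lit 0) (nat_lit 0) (XT.lf (nat_lit 0) (nat_lit 20387601945) (nat_lit 1216) (nat_lit 15396602084) (nat_lit 1292) (nat_lit 11529522095) (nat_lit 276) (nat_lit 5) (nat_lit 292) (nat_lit 5) (nat_lit 293) (nat_lit 5) (nat_lit 485) (nat_lit 481) (nat_lit 234)) (XT.lf (nat_lit 76) (nat_lit 8376897239) (nat_lit 0) (nat_lit 13355519872) (nat_lit 1292) (nat_lit 26302287029) (nat_lit 277) (nat_lit 5) (nat_lit 276) (nat_lit 5) (nat_lit 293) (nat_lit 5) (nat_lit 486) (nat_lit 481) (nat_lit 233))) (XT.nd (nat_lit 78) (nat_lit 0) (nat_lit 0) (XT.lf (nat_lit 0) (nat_lit 23367139873) (nat_lit 1216) (nat_lit 15689393034) (nat_lit 1292) (nat_lit 9713291959) (nat_lit 277) (nat_lit 5) (nat_lit 293) (nat_lit 5) (nat_lit 294) (nat_lit 5) (nat_lit 487) (nat_lit 481) (nat_lit 232))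 (XT.lf (nat_lit 76) (nat_lit 9041556746) (nat_lit 0) (nat_lit 16227390049) (nat_lit 1292) (nat_lit 24251511400) (nat_lit 278) (nat_lit 5) (nat_lit 277) (nat_lit 5) (nat_lit 294) (nat_lit 5) (nat_lit 488) (nat_lit 481) (nat_lit 231))))) (XT.nd (nat_lit 312) (nat_lit 0) (nat_lit 152) (XT.nd (nat_lit 156) (nat_lit 0) (nat_lit 76) (XT.nd (nat_lit 78) (nat_lit 0) (nat_lit 0) (XT.lf (nat_lit 0) (nat_lit 27456777671) (nat_lit 1216) (nat_lit 15525163585) (nat_lit 1292) (nat_lit 7304800423) (nat_lit 278) (nat_lit 5) (nat_lit 294) (nat_lit 5) (nat_lit 295) (nat_lit 5) (nat_lit 489) (nat_lit 481) (nat_lit 230)) (XT.lf (nat_lit 76) (nat_lit 10215128802) (nat_lit 0) (nat_lit 19752932747) (nat_lit 1292) (nat_lit 21100217818) (nat_lit 279) (nat_lit 5) (nat_lit 278) (nat_lit 5) (nat_lit 295) (nat_lit 5) (nat_lit 490) (nat_lit 481) (nat_lit 229))) (XT.nd (nat_lit 78) (nat_lit 0) (nat_lit 0) (XT.lf (nat_lit 0) (nat_lit 32752105961)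 (nat_lit 1216) (nat_lit 14865095476) (nat_lit 1292) (nat_lit 4250139323) (nat_lit 279) (nat_lit 5) (nat_lit 295) (nat_lit 5) (nat_lit 296) (nat_lit 5) (nat_lit 491) (nat_lit 481) (nat_lit 228)) (XT.lf (nat_lit 76) (nat_lit 11939276871) (nat_lit 0) (nat_lit 23989748854) (nat_lit 1292) (nat_lit 16752067874) (nat_lit 280) (nat_lit 5) (nat_lit 279) (nat_lit 5) (nat_lit 296) (nat_lit 5) (nat_lit 492) (nat_lit 481) (nat_lit 227)))) (XT.nd (nat_lit 156) (nat_lit 0) (nat_lit 0) (XT.nd (nat_lit 78) (nat_lit 0) (nat_lit 0) (XT.lf (nat_lit 0) (nat_lit 39355215605) (nat_lit 1216) (nat_lit 13667826229) (nat_lit 1292) (nat_lit 491598536) (nat_lit 280) (nat_lit 5) (nat_lit 296) (nat_lit 5) (nat_lit 297) (nat_lit 5) (nat_lit 493) (nat_lit 481) (nat_lit 226)) (XT.lf (nat_lit 76) (nat_lit 14258362195) (nat_lit 0) (nat_lit 28999476351) (nat_lit 1292) (nat_lit 11104145791) (nat_lit 281) (nat_lit 5) (nat_lit 280) (nat_lit 5) (nat_lit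 297) (nat_lit 5) (nat_lit 494) (nat_lit 481) (nat_lit 225))) (XT.nd (nat_lit 78) (nat_lit 0) (nat_lit 76) (XT.lf (nat_lit 76) (nat_lit 43301788956) (nat_lit 0) (nat_lit 4112854736) (nat_lit 1292) (nat_lit 7815992034) (nat_lit 281) (nat_lit 5) (nat_lit 280) (nat_lit 5) (nat_lit 297) (nat_lit 5) (nat_lit 495) (nat_lit 481) (nat_lit 224)) (XT.lf (nat_lit 76) (nat_lit 17219589275) (nat_lit 0) (nat_lit 34848069550) (nat_lit 1292) (nat_lit 4046542857) (nat_lit 282) (nat_lit 5) (nat_lit 281) (nat_lit 5) (nat_lit 298) (nat_lit 5) (nat_lit 496) (nat_lit 481) (nat_lit 223)))))) (XT.nd (nat_lit 546) (nat_lit 2204) (nat_lit 0) (XT.nd (nat_lit 234) (nat_lit 1900) (nat_lit 0) (XT.nd (nat_lit 78) (nat_lit 0) (nat_lit 76) (XT.lf (nat_lit 0) (nat_lit 685932) (nat_lit 1292) (nat_lit 9574732566) (nat_lit 1368) (nat_lit 47444058736) (nat_lit 264) (nat_lit 5) (nat_lit 281) (nat_lit 5) (nat_lit 282) (nat_lit 5) (nat_lit 497) (nat_lit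 481) (nat_lit 222)) (XT.nd (nat_lit 78) (nat_lit 0) (nat_lit 0) (XT.lf (nat_lit 0) (nat_lit 4449528344) (nat_lit 1292) (nat_lit 37111636875) (nat_lit 76) (nat_lit 16378698226) (nat_lit 265) (nat_lit 5) (nat_lit 282) (nat_lit 5) (nat_lit 266) (nat_lit 5) (nat_lit 498) (nat_lit 481) (nat_lit 221)) (XT.lf (nat_lit 0) (nat_lit 9223453807) (nat_lit 1292) (nat_lit 6641916915) (nat_lit 76) (nat_lit 43016742166) (nat_lit 265) (nat_lit 5) (nat_lit 282) (nat_lit 5) (nat_lit 266) (nat_lit 5) (nat_lit 499) (nat_lit 481) (nat_lit 220)))) (XT.nd (nat_lit 156) (nat_lit 1216) (nat_lit 0) (XT.nd (nat_lit 78) (nat_lit 0) (nat_lit 0) (XT.lf (nat_lit 0) (nat_lit 14486658755) (nat_lit 836) (nat_lit 34716111840) (nat_lit 76) (nat_lit 10639477543) (nat_lit 255) (nat_lit 5) (nat_lit 266) (nat_lit 5) (nat_lit 256) (nat_lit 5) (nat_lit 500) (nat_lit 481) (nat_lit 219)) (XT.lf (nat_lit 0) (nat_lit 20131787138) (nat_lit 836) (nat_lit 3004274396)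 (nat_lit 76) (nat_lit 37688405262) (nat_lit 255) (nat_lit 5) (nat_lit 266) (nat_lit 5) (nat_lit 256) (nat_lit 5) (nat_lit 501) (nat_lit 481) (nat_lit 218))) (XT.nd (nat_lit 78) (nat_lit 608) (nat_lit 0) (XT.lf (nat_lit 0) (nat_lit 26274836726) (nat_lit 684) (nat_lit 31617559819) (nat_lit 76) (nat_lit 3933898611) (nat_lit 247) (nat_lit 5) (nat_lit 256) (nat_lit 5) (nat_lit 248) (nat_lit 5) (nat_lit 502) (nat_lit 481) (nat_lit 217)) (XT.lf (nat_lit 0) (nat_lit 1420061323) (nat_lit 608) (nat_lit 31454723519) (nat_lit 684) (nat_lit 29975215473) (nat_lit 239) (nat_lit 5) (nat_lit 247) (nat_lit 5) (nat_lit 248) (nat_lit 5) (nat_lit 503) (nat_lit 481) (nat_lit 216))))) (XT.nd (nat_lit 312) (nat_lit 1140) (nat_lit 0) (XT.nd (nat_lit 156) (nat_lit 532) (nat_lit 0) (XT.nd (nat_lit 78) (nat_lit 532) (nat_lit 0) (XT.lf (nat_lit 0) (nat_lit 36096216548) (nat_lit 608) (nat_lit 3895054111) (nat_lit 684) (nat_lit 23903589947)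 (nat_lit 239) (nat_lit 5) (nat_lit 247) (nat_lit 5) (nat_lit 248) (nat_lit 5) (nat_lit 504) (nat_lit 481) (nat_lit 215)) (XT.lf (nat_lit 0) (nat_lit 6736900377) (nat_lit 532) (nat_lit 40883821705) (nat_lit 608) (nat_lit 17341360643) (nat_lit 232) (nat_lit 5) (nat_lit 239) (nat_lit 5) (nat_lit 240) (nat_lit 5) (nat_lit 505) (nat_lit 481) (nat_lit 214))) (XT.nd (nat_lit 78) (nat_lit 532) (nat_lit 0) (XT.lf (nat_lit 0) (nat_lit 42838306623) (nat_lit 532) (nat_lit 12958948402) (nat_lit 608) (nat_lit 10254520690) (nat_lit 232) (nat_lit 5) (nat_lit 239) (nat_lit 5) (nat_lit 240) (nat_lit 5) (nat_lit 506) (nat_lit 481) (nat_lit 213)) (XT.lf (nat_lit 0) (nat_lit 12948639017) (nat_lit 532) (nat_lit 51546149359) (nat_lit 608) (nat_lit 2671100127) (nat_lit 225) (nat_lit 5) (nat_lit 232) (nat_lit 5) (nat_lit 233) (nat_lit 5) (nat_lit 507) (nat_lit 481) (nat_lit 212)))) (XT.nd (nat_lit 156) (nat_lit 532) (nat_lit 0) (XT.nd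 (nat_lit 78) (nat_lit 532) (nat_lit 0) (XT.lf (nat_lit 0) (nat_lit 5403890309) (nat_lit 608) (nat_lit 17815686169) (nat_lit 76) (nat_lit 45081435204) (nat_lit 224) (nat_lit 5) (nat_lit 232) (nat_lit 5) (nat_lit 225) (nat_lit 5) (nat_lit 508) (nat_lit 481) (nat_lit 211)) (XT.lf (nat_lit 0) (nat_lit 13918873373) (nat_lit 608) (nat_lit 49481200057) (nat_lit 76) (nat_lit 6061778980) (nat_lit 217) (nat_lit 5) (nat_lit 225) (nat_lit 5) (nat_lit 218) (nat_lit 5) (nat_lit 509) (nat_lit 481) (nat_lit 210))) (XT.nd (nat_lit 78) (nat_lit 532) (nat_lit 0) (XT.lf (nat_lit 0) (nat_lit 23100244830) (nat_lit 608) (nat_lit 11608428176) (nat_lit 76) (nat_lit 35936517311) (nat_lit 217) (nat_lit 5) (nat_lit 225) (nat_lit 5) (nat_lit 218) (nat_lit 5) (nat_lit 510) (nat_lit 481) (nat_lit 209)) (XT.lf (nat_lit 0) (nat_lit 27945144038) (nat_lit 532) (nat_lit 4879915316) (nat_lit 608) (nat_lit 39030929074) (nat_lit 210) (nat_lit 5) (nat_lit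 217) (nat_lit 5) (nat_lit 218) (nat_lit 5) (nat_lit 511) (nat_lit 481) (nat_lit 208))))))) (XT.nd (nat_lit 1170) (nat_lit 1748) (nat_lit 0) (XT.nd (nat_lit 546) (nat_lit 1596) (nat_lit 0) (XT.nd (nat_lit 234) (nat_lit 988) (nat_lit 0) (XT.nd (nat_lit 78) (nat_lit 912) (nat_lit 0) (XT.lf (nat_lit 0) (nat_lit 43207813759) (nat_lit 608) (nat_lit 4426599332) (nat_lit 76) (nat_lit 25457711644) (nat_lit 210) (nat_lit 5) (nat_lit 218) (nat_lit 5) (nat_lit 211) (nat_lit 5) (nat_lit 512) (nat_lit 481) (nat_lit 207)) (XT.nd (nat_lit 78) (nat_lit 456) (nat_lit 0) (XT.lf (nat_lit 0) (nat_lit 36913488496) (nat_lit 456) (nat_lit 17391118145) (nat_lit 532) (nat_lit 20048661931) (nat_lit 204) (nat_lit 5) (nat_lit 210) (nat_lit 5) (nat_lit 211) (nat_lit 5) (nat_lit 513) (nat_lit 481) (nat_lit 206)) (XT.lf (nat_lit 0) (nat_lit 3875845052) (nat_lit 456) (nat_lit 62072537052) (nat_lit 532) (nat_lit 9697442368) (nat_lit 198) (nat_lit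 5) (nat_lit 204) (nat_lit 5) (nat_lit 205) (nat_lit 5) (nat_lit 514) (nat_lit 481) (nat_lit 205)))) (XT.nd (nat_lit 156) (nat_lit 456) (nat_lit 0) (XT.nd (nat_lit 78) (nat_lit 456) (nat_lit 0) (XT.lf (nat_lit 0) (nat_lit 1498916853) (nat_lit 532) (nat_lit 29953298005) (nat_lit 76) (nat_lit 45508061600) (nat_lit 197) (nat_lit 5) (nat_lit 204) (nat_lit 5) (nat_lit 198) (nat_lit 5) (nat_lit 515) (nat_lit 481) (nat_lit 204)) (XT.lf (nat_lit 0) (nat_lit 12966399970) (nat_lit 532) (nat_lit 65030177341) (nat_lit 76) (nat_lit 310800102) (nat_lit 191) (nat_lit 5) (nat_lit 198) (nat_lit 5) (nat_lit 192) (nat_lit 5) (nat_lit 516) (nat_lit 481) (nat_lit 203))) (XT.nd (nat_lit 78) (nat_lit 456) (nat_lit 0) (XT.lf (nat_lit 0) (nat_lit 25394225115) (nat_lit 532) (nat_lit 21582280984) (nat_lit 76) (nat_lit 32699895873) (nat_lit 191) (nat_lit 5) (nat_lit 198) (nat_lit 5) (nat_lit 192) (nat_lit 5) (nat_lit 517) (nat_lit 481) (nat_lit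 202)) (XT.lf (nat_lit 0) (nat_lit 23629481377) (nat_lit 456) (nat_lit 14792005969) (nat_lit 532) (nat_lit 42658211948) (nat_lit 185) (nat_lit 5) (nat_lit 191) (nat_lit 5) (nat_lit 192) (nat_lit 5) (nat_lit 518) (nat_lit 481) (nat_lit 201))))) (XT.nd (nat_lit 312) (nat_lit 760) (nat_lit 0) (XT.nd (nat_lit 156) (nat_lit 456) (nat_lit 0) (XT.nd (nat_lit 78) (nat_lit 380) (nat_lit 0) (XT.lf (nat_lit 0) (nat_lit 52235601958) (nat_lit 532) (nat_lit 12057846928) (nat_lit 76) (nat_lit 18219765706) (nat_lit 185) (nat_lit 5) (nat_lit 192) (nat_lit 5) (nat_lit 186) (nat_lit 5) (nat_lit 519) (nat_lit 481) (nat_lit 200)) (XT.lf (nat_lit 0) (nat_lit 35236780511) (nat_lit 380) (nat_lit 31712017326) (nat_lit 456) (nat_lit 17026397870) (nat_lit 180) (nat_lit 5) (nat_lit 185) (nat_lit 5) (nat_lit 186) (nat_lit 5) (nat_lit 520) (nat_lit 481) (nat_lit 199))) (XT.nd (nat_lit 78) (nat_lit 456) (nat_lit 0) (XT.lf (nat_lit 0) (nat_lit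 82243601100) (nat_lit 456) (nat_lit 1299584451) (nat_lit 76) (nat_lit 1933644446) (nat_lit 180) (nat_lit 5) (nat_lit 186) (nat_lit 5) (nat_lit 181) (nat_lit 5) (nat_lit 521) (nat_lit 481) (nat_lit 198)) (XT.lf (nat_lit 0) (nat_lit 11543989051) (nat_lit 456) (nat_lit 38925278129) (nat_lit 76) (nat_lit 36527549900) (nat_lit 174) (nat_lit 5) (nat_lit 180) (nat_lit 5) (nat_lit 175) (nat_lit 5) (nat_lit 522) (nat_lit 481) (nat_lit 197)))) (XT.nd (nat_lit 156) (nat_lit 380) (nat_lit 0) (XT.nd (nat_lit 78) (nat_lit 0) (nat_lit 0) (XT.lf (nat_lit 0) (nat_lit 10561734204) (nat_lit 380) (nat_lit 16252094037) (nat_lit 456) (nat_lit 61744186570) (nat_lit 169) (nat_lit 5) (nat_lit 174) (nat_lit 5) (nat_lit 175) (nat_lit 5) (nat_lit 523) (nat_lit 481) (nat_lit 196)) (XT.lf (nat_lit 0) (nat_lit 43120799117) (nat_lit 456) (nat_lit 28010074053) (nat_lit 76) (nat_lit 19017804287) (nat_lit 169) (nat_lit 5) (nat_lit 175) (nat_lit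 5) (nat_lit 170) (nat_lit 5) (nat_lit 524) (nat_lit 481) (nat_lit 195))) (XT.nd (nat_lit 78) (nat_lit 0) (nat_lit 0) (XT.lf (nat_lit 0) (nat_lit 23778169658) (nat_lit 380) (nat_lit 36527822595) (nat_lit 456) (nat_lit 31469397410) (nat_lit 164) (nat_lit 5) (nat_lit 169) (nat_lit 5) (nat_lit 170) (nat_lit 5) (nat_lit 525) (nat_lit 481) (nat_lit 194)) (XT.lf (nat_lit 0) (nat_lit 77693611011) (nat_lit 380) (nat_lit 595515616) (nat_lit 456) (nat_lit 15153305120) (nat_lit 164) (nat_lit 5) (nat_lit 169) (nat_lit 5) (nat_lit 170) (nat_lit 5) (nat_lit 526) (nat_lit 481) (nat_lit 193)))))) (XT.nd (nat_lit 58968) (nat_lit 0) (nat_lit 10108) (XT.nd (nat_lit 312) (nat_lit 684) (nat_lit 0) (XT.nd (nat_lit 156) (nat_lit 684) (nat_lit 0) (XT.nd (nat_lit 78) (nat_lit 0) (nat_lit 0) (XT.lf (nat_lit 0) (nat_lit 2346510257) (nat_lit 380) (nat_lit 56693912524) (nat_lit 76) (nat_lit 36096791442) (nat_lit 159) (nat_lit 5) (nat_lit 164)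 (nat_lit 5) (nat_lit 160) (nat_lit 5) (nat_lit 527) (nat_lit 481) (nat_lit 192)) (XT.lf (nat_lit 0) (nat_lit 20232809861) (nat_lit 380) (nat_lit 2452174728) (nat_lit 76) (nat_lit 74188372984) (nat_lit 159) (nat_lit 5) (nat_lit 164) (nat_lit 5) (nat_lit 160) (nat_lit 5) (nat_lit 528) (nat_lit 481) (nat_lit 191))) (XT.nd (nat_lit 78) (nat_lit 304) (nat_lit 0) (XT.lf (nat_lit 0) (nat_lit 39326029247) (nat_lit 456) (nat_lit 44313668434) (nat_lit 76) (nat_lit 15001777684) (nat_lit 154) (nat_lit 5) (nat_lit 160) (nat_lit 5) (nat_lit 155) (nat_lit 5) (nat_lit 529) (nat_lit 481) (nat_lit 190)) (XT.lf (nat_lit 0) (nat_lit 12416388621) (nat_lit 304) (nat_lit 46944193060) (nat_lit 380) (nat_lit 41090998979) (nat_lit 150) (nat_lit 5) (nat_lit 154) (nat_lit 5) (nat_lit 155) (nat_lit 5) (nat_lit 530) (nat_lit 481) (nat_lit 189)))) (XT.nd (nat_lit 156) (nat_lit 380) (nat_lit 0) (XT.nd (nat_lit 78) (nat_lit 304) (nat_lit 0) (XT.lf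 (nat_lit 0) (nat_lit 71756127893) (nat_lit 304) (nat_lit 8687102023) (nat_lit 380) (nat_lit 21859347484) (nat_lit 150) (nat_lit 5) (nat_lit 154) (nat_lit 5) (nat_lit 155) (nat_lit 5) (nat_lit 531) (nat_lit 481) (nat_lit 188)) (XT.lf (nat_lit 0) (nat_lit 28935718829) (nat_lit 304) (nat_lit 73795652574) (nat_lit 380) (nat_lit 1460542284) (nat_lit 146) (nat_lit 5) (nat_lit 150) (nat_lit 5) (nat_lit 151) (nat_lit 5) (nat_lit 532) (nat_lit 481) (nat_lit 187))) (XT.nd (nat_lit 78) (nat_lit 304) (nat_lit 0) (XT.lf (nat_lit 0) (nat_lit 19565846775) (nat_lit 380) (nat_lit 15577747059) (nat_lit 76) (nat_lit 70976784973) (nat_lit 145) (nat_lit 5) (nat_lit 150) (nat_lit 5) (nat_lit 146) (nat_lit 5) (nat_lit 533) (nat_lit 481) (nat_lit 186)) (XT.lf (nat_lit 0) (nat_lit 41692506037) (nat_lit 380) (nat_lit 61353217640) (nat_lit 76) (nat_lit 5045575412) (nat_lit 141) (nat_lit 5) (nat_lit 146) (nat_lit 5) (nat_lit 142) (nat_lit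 5) (nat_lit 534) (nat_lit 481) (nat_lit 185))))) (XT.nd (nat_lit 312) (nat_lit 0) (nat_lit 152) (XT.nd (nat_lit 156) (nat_lit 0) (nat_lit 76) (XT.nd (nat_lit 78) (nat_lit 0) (nat_lit 0) (XT.lf (nat_lit 0) (nat_lit 8996761457) (nat_lit 1292) (nat_lit 6978741505) (nat_lit 1292) (nat_lit 6978741505) (nat_lit 274) (nat_lit 3) (nat_lit 291) (nat_lit 3) (nat_lit 291) (nat_lit 5) (nat_lit 482) (nat_lit 482) (nat_lit 236)) (XT.lf (nat_lit 76) (nat_lit 8705916193) (nat_lit 0) (nat_lit 9671967705) (nat_lit 1292) (nat_lit 28215791467) (nat_lit 275) (nat_lit 5) (nat_lit 274) (nat_lit 3) (nat_lit 291) (nat_lit 5) (nat_lit 483) (nat_lit 482) (nat_lit 235))) (XT.nd (nat_lit 78) (nat_lit 0) (nat_lit 0) (XT.lf (nat_lit 0) (nat_lit 19042524612) (nat_lit 1216) (nat_lit 15089537102) (nat_lit 1292) (nat_lit 13159293488) (nat_lit 275) (nat_lit 5) (nat_lit 291) (nat_lit 5) (nat_lit 292) (nat_lit 5) (nat_lit 484) (nat_lit 482) (nat_lit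 234)) (XT.lf (nat_lit 76) (nat_lit 8461327189) (nat_lit 0) (nat_lit 11441708405) (nat_lit 1292) (nat_lit 28101652179) (nat_lit 276) (nat_lit 5) (nat_lit 275) (nat_lit 5) (nat_lit 292) (nat_lit 5) (nat_lit 485) (nat_lit 482) (nat_lit 233)))) (XT.nd (nat_lit 156) (nat_lit 0) (nat_lit 76) (XT.nd (nat_lit 78) (nat_lit 0) (nat_lit 0) (XT.lf (nat_lit 0) (nat_lit 21056783590) (nat_lit 1216) (nat_lit 15823677978) (nat_lit 1292) (nat_lit 11850936366) (nat_lit 276) (nat_lit 5) (nat_lit 292) (nat_lit 5) (nat_lit 293) (nat_lit 5) (nat_lit 486) (nat_lit 482) (nat_lit 232)) (XT.lf (nat_lit 76) (nat_lit 8662684931) (nat_lit 0) (nat_lit 13777913411) (nat_lit 1292) (nat_lit 27033447683) (nat_lit 277) (nat_lit 5) (nat_lit 276) (nat_lit 5) (nat_lit 293) (nat_lit 5) (nat_lit 487) (nat_lit 482) (nat_lit 231))) (XT.nd (nat_lit 78) (nat_lit 0) (nat_lit 0) (XT.lf (nat_lit 0) (nat_lit 24122522861) (nat_lit 1216) (nat_lit 16124745820) (nat_lit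 1292) (nat_lit 9984007268) (nat_lit 277) (nat_lit 5) (nat_lit 293) (nat_lit 5) (nat_lit 294) (nat_lit 5) (nat_lit 488) (nat_lit 482) (nat_lit 230)) (XT.lf (nat_lit 76) (nat_lit 9347786092) (nat_lit 0) (nat_lit 16732350617) (nat_lit 1292) (nat_lit 24924329354) (nat_lit 278) (nat_lit 5) (nat_lit 277) (nat_lit 5) (nat_lit 294) (nat_lit 5) (nat_lit 489) (nat_lit 482) (nat_lit 229))))))))
noncomputable def xc240 : XT := (XT.nd (nat_lit 2340) (nat_lit 2964) (nat_lit 0) (XT.nd (nat_lit 1170) (nat_lit 4104) (nat_lit 0) (XT.nd (nat_lit 546) (nat_lit 2964) (nat_lit 0) (XT.nd (nat_lit 234) (nat_lit 0) (nat_lit 76) (XT.nd (nat_lit 78) (nat_lit 0) (nat_lit 0) (XT.lf (nat_lit 0) (nat_lit 28331885999) (nat_lit 1216) (nat_lit 15955226374) (nat_lit 1292) (nat_lit 7506677531) (nat_lit 278) (nat_lit 5) (nat_lit 294) (nat_lit 5) (nat_lit 295) (nat_lit 5) (nat_lit 490) (nat_lit 482) (nat_lit 228)) (XT.nd (nat_lit 78) (nat_lit 0) (nat_lit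 76) (XT.lf (nat_lit 76) (nat_lit 10556924862) (nat_lit 0) (nat_lit 20360426029) (nat_lit 1292) (nat_lit 21681457902) (nat_lit 279) (nat_lit 5) (nat_lit 278) (nat_lit 5) (nat_lit 295) (nat_lit 5) (nat_lit 491) (nat_lit 482) (nat_lit 227)) (XT.lf (nat_lit 0) (nat_lit 33783314011) (nat_lit 1216) (nat_lit 15275121710) (nat_lit 1292) (nat_lit 4363454722) (nat_lit 279) (nat_lit 5) (nat_lit 295) (nat_lit 5) (nat_lit 296) (nat_lit 5) (nat_lit 492) (nat_lit 482) (nat_lit 226)))) (XT.nd (nat_lit 156) (nat_lit 0) (nat_lit 76) (XT.nd (nat_lit 78) (nat_lit 0) (nat_lit 76) (XT.lf (nat_lit 76) (nat_lit 12333029586) (nat_lit 0) (nat_lit 24721436904) (nat_lit 1292) (nat_lit 17205621950) (nat_lit 280) (nat_lit 5) (nat_lit 279) (nat_lit 5) (nat_lit 296) (nat_lit 5) (nat_lit 493) (nat_lit 482) (nat_lit 225)) (XT.lf (nat_lit 0) (nat_lit 40581944582) (nat_lit 1216) (nat_lit 14041814720) (nat_lit 1292) (nat_lit 494927553) (nat_lit 280)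 (nat_lit 5) (nat_lit 296) (nat_lit 5) (nat_lit 297) (nat_lit 5) (nat_lit 494) (nat_lit 482) (nat_lit 224))) (XT.nd (nat_lit 78) (nat_lit 0) (nat_lit 0) (XT.lf (nat_lit 76) (nat_lit 14721805962) (nat_lit 0) (nat_lit 29878841433) (nat_lit 1292) (nat_lit 11390834017) (nat_lit 281) (nat_lit 5) (nat_lit 280) (nat_lit 5) (nat_lit 297) (nat_lit 5) (nat_lit 495) (nat_lit 482) (nat_lit 223)) (XT.lf (nat_lit 76) (nat_lit 44635495927) (nat_lit 0) (nat_lit 4245347942) (nat_lit 1292) (nat_lit 8005388156) (nat_lit 281) (nat_lit 5) (nat_lit 280) (nat_lit 5) (nat_lit 297) (nat_lit 5) (nat_lit 496) (nat_lit 482) (nat_lit 222))))) (XT.nd (nat_lit 312) (nat_lit 1900) (nat_lit 0) (XT.nd (nat_lit 156) (nat_lit 0) (nat_lit 76) (XT.nd (nat_lit 78) (nat_lit 1292) (nat_lit 0) (XT.lf (nat_lit 76) (nat_lit 17771887010) (nat_lit 0) (nat_lit 35900546128) (nat_lit 1292) (nat_lit 4123902602) (nat_lit 282) (nat_lit 5) (nat_lit 281) (nat_lit 5)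 (nat_lit 298) (nat_lit 5) (nat_lit 497) (nat_lit 482) (nat_lit 221)) (XT.lf (nat_lit 0) (nat_lit 42626150) (nat_lit 1292) (nat_lit 9826461199) (nat_lit 1368) (nat_lit 48859707510) (nat_lit 264) (nat_lit 5) (nat_lit 281) (nat_lit 5) (nat_lit 282) (nat_lit 5) (nat_lit 498) (nat_lit 482) (nat_lit 220))) (XT.nd (nat_lit 78) (nat_lit 0) (nat_lit 0) (XT.lf (nat_lit 0) (nat_lit 4623994462) (nat_lit 1292) (nat_lit 38188524429) (nat_lit 76) (nat_lit 16864302212) (nat_lit 265) (nat_lit 5) (nat_lit 282) (nat_lit 5) (nat_lit 266) (nat_lit 5) (nat_lit 499) (nat_lit 482) (nat_lit 219)) (XT.lf (nat_lit 0) (nat_lit 9539944089) (nat_lit 1292) (nat_lit 6805774858) (nat_lit 76) (nat_lit 44301655149) (nat_lit 265) (nat_lit 5) (nat_lit 282) (nat_lit 5) (nat_lit 266) (nat_lit 5) (nat_lit 500) (nat_lit 482) (nat_lit 218)))) (XT.nd (nat_lit 156) (nat_lit 1216) (nat_lit 0) (XT.nd (nat_lit 78) (nat_lit 0) (nat_lit 0) (XT.lf (nat_lit 0)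 (nat_lit 14960185689) (nat_lit 836) (nat_lit 35721327805) (nat_lit 76) (nat_lit 10954825943) (nat_lit 255) (nat_lit 5) (nat_lit 266) (nat_lit 5) (nat_lit 256) (nat_lit 5) (nat_lit 501) (nat_lit 482) (nat_lit 217)) (XT.lf (nat_lit 0) (nat_lit 20773534123) (nat_lit 836) (nat_lit 3059191569) (nat_lit 76) (nat_lit 38815333219) (nat_lit 255) (nat_lit 5) (nat_lit 266) (nat_lit 5) (nat_lit 256) (nat_lit 5) (nat_lit 502) (nat_lit 482) (nat_lit 216))) (XT.nd (nat_lit 78) (nat_lit 608) (nat_lit 0) (XT.lf (nat_lit 0) (nat_lit 27100088791) (nat_lit 684) (nat_lit 32530081296) (nat_lit 76) (nat_lit 4049795863) (nat_lit 247) (nat_lit 5) (nat_lit 256) (nat_lit 5) (nat_lit 248) (nat_lit 5) (nat_lit 503) (nat_lit 482) (nat_lit 215)) (XT.lf (nat_lit 0) (nat_lit 1498315487) (nat_lit 608) (nat_lit 32398984703) (nat_lit 684) (nat_lit 30837104357) (nat_lit 239) (nat_lit 5) (nat_lit 247) (nat_lit 5) (nat_lit 248) (nat_lit 5) (nat_lit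 504) (nat_lit 482) (nat_lit 214)))))) (XT.nd (nat_lit 546) (nat_lit 2432) (nat_lit 0) (XT.nd (nat_lit 234) (nat_lit 1140) (nat_lit 0) (XT.nd (nat_lit 78) (nat_lit 532) (nat_lit 0) (XT.lf (nat_lit 0) (nat_lit 37213716951) (nat_lit 608) (nat_lit 4012507170) (nat_lit 684) (nat_lit 24584418443) (nat_lit 239) (nat_lit 5) (nat_lit 247) (nat_lit 5) (nat_lit 248) (nat_lit 5) (nat_lit 505) (nat_lit 482) (nat_lit 213)) (XT.nd (nat_lit 78) (nat_lit 0) (nat_lit 0) (XT.lf (nat_lit 0) (nat_lit 6974341099) (nat_lit 532) (nat_lit 42109526335) (nat_lit 608) (nat_lit 17826034877) (nat_lit 232) (nat_lit 5) (nat_lit 239) (nat_lit 5) (nat_lit 240) (nat_lit 5) (nat_lit 506) (nat_lit 482) (nat_lit 212)) (XT.lf (nat_lit 0) (nat_lit 44157760395) (nat_lit 532) (nat_lit 13346930426) (nat_lit 608) (nat_lit 10527625646) (nat_lit 232) (nat_lit 5) (nat_lit 239) (nat_lit 5) (nat_lit 240) (nat_lit 5) (nat_lit 507) (nat_lit 482) (nat_lit 211))))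 (XT.nd (nat_lit 156) (nat_lit 532) (nat_lit 0) (XT.nd (nat_lit 78) (nat_lit 76) (nat_lit 0) (XT.lf (nat_lit 0) (nat_lit 13372061549) (nat_lit 532) (nat_lit 53090455795) (nat_lit 608) (nat_lit 2717354482) (nat_lit 225) (nat_lit 5) (nat_lit 232) (nat_lit 5) (nat_lit 233) (nat_lit 5) (nat_lit 508) (nat_lit 482) (nat_lit 210)) (XT.lf (nat_lit 0) (nat_lit 5598257071) (nat_lit 608) (nat_lit 18315563520) (nat_lit 76) (nat_lit 46435247557) (nat_lit 224) (nat_lit 5) (nat_lit 232) (nat_lit 5) (nat_lit 225) (nat_lit 5) (nat_lit 509) (nat_lit 482) (nat_lit 209))) (XT.nd (nat_lit 78) (nat_lit 0) (nat_lit 0) (XT.lf (nat_lit 0) (nat_lit 14368104704) (nat_lit 608) (nat_lit 50930451704) (nat_lit 76) (nat_lit 6246195422) (nat_lit 217) (nat_lit 5) (nat_lit 225) (nat_lit 5) (nat_lit 218) (nat_lit 5) (nat_lit 510) (nat_lit 482) (nat_lit 208)) (XT.lf (nat_lit 0) (nat_lit 23823995020) (nat_lit 608) (nat_lit 11922521453) (nat_lit 76)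 (nat_lit 37017101251) (nat_lit 217) (nat_lit 5) (nat_lit 225) (nat_lit 5) (nat_lit 218) (nat_lit 5) (nat_lit 511) (nat_lit 482) (nat_lit 207))))) (XT.nd (nat_lit 312) (nat_lit 988) (nat_lit 0) (XT.nd (nat_lit 156) (nat_lit 912) (nat_lit 0) (XT.nd (nat_lit 78) (nat_lit 0) (nat_lit 0) (XT.lf (nat_lit 0) (nat_lit 28817323029) (nat_lit 532) (nat_lit 5022660670) (nat_lit 608) (nat_lit 40170773361) (nat_lit 210) (nat_lit 5) (nat_lit 217) (nat_lit 5) (nat_lit 218) (nat_lit 5) (nat_lit 512) (nat_lit 482) (nat_lit 206)) (XT.lf (nat_lit 0) (nat_lit 44533376009) (nat_lit 608) (nat_lit 4525707425) (nat_lit 76) (nat_lit 26224919536) (nat_lit 210) (nat_lit 5) (nat_lit 218) (nat_lit 5) (nat_lit 211) (nat_lit 5) (nat_lit 513) (nat_lit 482) (nat_lit 205))) (XT.nd (nat_lit 78) (nat_lit 456) (nat_lit 0) (XT.lf (nat_lit 0) (nat_lit 38054252745) (nat_lit 456) (nat_lit 17908286396) (nat_lit 532) (nat_lit 20620458152) (nat_lit 204) (nat_lit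 5) (nat_lit 210) (nat_lit 5) (nat_lit 211) (nat_lit 5) (nat_lit 514) (nat_lit 482) (nat_lit 204)) (XT.lf (nat_lit 0) (nat_lit 4025970301) (nat_lit 456) (nat_lit 63929186890) (nat_lit 532) (nat_lit 9959186960) (nat_lit 198) (nat_lit 5) (nat_lit 204) (nat_lit 5) (nat_lit 205) (nat_lit 5) (nat_lit 515) (nat_lit 482) (nat_lit 203)))) (XT.nd (nat_lit 156) (nat_lit 456) (nat_lit 0) (XT.nd (nat_lit 78) (nat_lit 456) (nat_lit 0) (XT.lf (nat_lit 0) (nat_lit 1571660376) (nat_lit 532) (nat_lit 30818475130) (nat_lit 76) (nat_lit 46878110926) (nat_lit 197) (nat_lit 5) (nat_lit 204) (nat_lit 5) (nat_lit 198) (nat_lit 5) (nat_lit 516) (nat_lit 482) (nat_lit 202)) (XT.lf (nat_lit 0) (nat_lit 13382732938) (nat_lit 532) (nat_lit 66947220905) (nat_lit 76) (nat_lit 325819772) (nat_lit 191) (nat_lit 5) (nat_lit 198) (nat_lit 5) (nat_lit 192) (nat_lit 5) (nat_lit 517) (nat_lit 482) (nat_lit 201))) (XT.nd (nat_lit 78) (nat_lit 456) (nat_lit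 0) (XT.lf (nat_lit 0) (nat_lit 26182596498) (nat_lit 532) (nat_lit 22196873921) (nat_lit 76) (nat_lit 33686422523) (nat_lit 191) (nat_lit 5) (nat_lit 198) (nat_lit 5) (nat_lit 192) (nat_lit 5) (nat_lit 518) (nat_lit 482) (nat_lit 200)) (XT.lf (nat_lit 0) (nat_lit 24370919001) (nat_lit 456) (nat_lit 15229297370) (nat_lit 532) (nat_lit 43911086756) (nat_lit 185) (nat_lit 5) (nat_lit 191) (nat_lit 5) (nat_lit 192) (nat_lit 5) (nat_lit 519) (nat_lit 482) (nat_lit 199))))))) (XT.nd (nat_lit 59670) (nat_lit 0) (nat_lit 9728) (XT.nd (nat_lit 546) (nat_lit 1368) (nat_lit 0) (XT.nd (nat_lit 234) (nat_lit 1216) (nat_lit 0) (XT.nd (nat_lit 78) (nat_lit 380) (nat_lit 0) (XT.lf (nat_lit 0) (nat_lit 53828055053) (nat_lit 532) (nat_lit 12387273457) (nat_lit 76) (nat_lit 18772516491) (nat_lit 185) (nat_lit 5) (nat_lit 192) (nat_lit 5) (nat_lit 186) (nat_lit 5) (nat_lit 520) (nat_lit 482) (nat_lit 198)) (XT.nd (nat_lit 78) (nat_lit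 0) (nat_lit 0) (XT.lf (nat_lit 0) (nat_lit 36325876051) (nat_lit 380) (nat_lit 32656338915) (nat_lit 456) (nat_lit 17511483668) (nat_lit 180) (nat_lit 5) (nat_lit 185) (nat_lit 5) (nat_lit 186) (nat_lit 5) (nat_lit 521) (nat_lit 482) (nat_lit 197)) (XT.lf (nat_lit 0) (nat_lit 84735201227) (nat_lit 456) (nat_lit 1306846348) (nat_lit 76) (nat_lit 1998354338) (nat_lit 180) (nat_lit 5) (nat_lit 186) (nat_lit 5) (nat_lit 181) (nat_lit 5) (nat_lit 522) (nat_lit 482) (nat_lit 196)))) (XT.nd (nat_lit 156) (nat_lit 380) (nat_lit 0) (XT.nd (nat_lit 78) (nat_lit 380) (nat_lit 0) (XT.lf (nat_lit 0) (nat_lit 11914435775) (nat_lit 456) (nat_lit 40061137718) (nat_lit 76) (nat_lit 37630420311) (nat_lit 174) (nat_lit 5) (nat_lit 180) (nat_lit 5) (nat_lit 175) (nat_lit 5) (nat_lit 523) (nat_lit 482) (nat_lit 195)) (XT.lf (nat_lit 0) (nat_lit 10910172252) (nat_lit 380) (nat_lit 16731798783) (nat_lit 456) (nat_lit 63572068520) (nat_lit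 169) (nat_lit 5) (nat_lit 174) (nat_lit 5) (nat_lit 175) (nat_lit 5) (nat_lit 524) (nat_lit 482) (nat_lit 194))) (XT.nd (nat_lit 78) (nat_lit 380) (nat_lit 0) (XT.lf (nat_lit 0) (nat_lit 44437533268) (nat_lit 456) (nat_lit 28819088715) (nat_lit 76) (nat_lit 19595818742) (nat_lit 169) (nat_lit 5) (nat_lit 175) (nat_lit 5) (nat_lit 170) (nat_lit 5) (nat_lit 525) (nat_lit 482) (nat_lit 193)) (XT.lf (nat_lit 0) (nat_lit 24522495567) (nat_lit 380) (nat_lit 37615411327) (nat_lit 456) (nat_lit 32390058773) (nat_lit 164) (nat_lit 5) (nat_lit 169) (nat_lit 5) (nat_lit 170) (nat_lit 5) (nat_lit 526) (nat_lit 482) (nat_lit 192))))) (XT.nd (nat_lit 312) (nat_lit 608) (nat_lit 0) (XT.nd (nat_lit 156) (nat_lit 380) (nat_lit 0) (XT.nd (nat_lit 78) (nat_lit 380) (nat_lit 0) (XT.lf (nat_lit 0) (nat_lit 80054497807) (nat_lit 380) (nat_lit 605375311) (nat_lit 456) (nat_lit 15585165867) (nat_lit 164) (nat_lit 5) (nat_lit 169) (nat_lit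 5) (nat_lit 170) (nat_lit 5) (nat_lit 527) (nat_lit 482) (nat_lit 191)) (XT.lf (nat_lit 0) (nat_lit 2438921150) (nat_lit 380) (nat_lit 58363921850) (nat_lit 76) (nat_lit 37187823850) (nat_lit 159) (nat_lit 5) (nat_lit 164) (nat_lit 5) (nat_lit 160) (nat_lit 5) (nat_lit 528) (nat_lit 482) (nat_lit 190))) (XT.nd (nat_lit 78) (nat_lit 380) (nat_lit 0) (XT.lf (nat_lit 0) (nat_lit 20861168512) (nat_lit 380) (nat_lit 2495829242) (nat_lit 76) (nat_lit 76421916081) (nat_lit 159) (nat_lit 5) (nat_lit 164) (nat_lit 5) (nat_lit 160) (nat_lit 5) (nat_lit 529) (nat_lit 482) (nat_lit 189)) (XT.lf (nat_lit 0) (nat_lit 40526929113) (nat_lit 456) (nat_lit 45612909251) (nat_lit 76) (nat_lit 15460244551) (nat_lit 154) (nat_lit 5) (nat_lit 160) (nat_lit 5) (nat_lit 155) (nat_lit 5) (nat_lit 530) (nat_lit 482) (nat_lit 188)))) (XT.nd (nat_lit 156) (nat_lit 304) (nat_lit 0) (XT.nd (nat_lit 78) (nat_lit 0) (nat_lit 0) (XT.lf (nat_lit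 0) (nat_lit 12818753738) (nat_lit 304) (nat_lit 48343436427) (nat_lit 380) (nat_lit 42302311134) (nat_lit 150) (nat_lit 5) (nat_lit 154) (nat_lit 5) (nat_lit 155) (nat_lit 5) (nat_lit 531) (nat_lit 482) (nat_lit 187)) (XT.lf (nat_lit 0) (nat_lit 73937815087) (nat_lit 304) (nat_lit 8938897196) (nat_lit 380) (nat_lit 22494333914) (nat_lit 150) (nat_lit 5) (nat_lit 154) (nat_lit 5) (nat_lit 155) (nat_lit 5) (nat_lit 532) (nat_lit 482) (nat_lit 186))) (XT.nd (nat_lit 58578) (nat_lit 0) (nat_lit 9728) (XT.lf (nat_lit 0) (nat_lit 29833028031) (nat_lit 304) (nat_lit 76000245401) (nat_lit 380) (nat_lit 1483795965) (nat_lit 146) (nat_lit 5) (nat_lit 150) (nat_lit 5) (nat_lit 151) (nat_lit 5) (nat_lit 533) (nat_lit 482) (nat_lit 185)) (XT.lf (nat_lit 0) (nat_lit 9297140054) (nat_lit 1292) (nat_lit 7172405192) (nat_lit 1292) (nat_lit 7172405192) (nat_lit 274) (nat_lit 3) (nat_lit 291) (nat_lit 3) (nat_lit 291) (nat_lit 5)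 (nat_lit 483) (nat_lit 483) (nat_lit 234)))))) (XT.nd (nat_lit 546) (nat_lit 0) (nat_lit 304) (XT.nd (nat_lit 234) (nat_lit 0) (nat_lit 152) (XT.nd (nat_lit 78) (nat_lit 0) (nat_lit 76) (XT.lf (nat_lit 76) (nat_lit 8998182980) (nat_lit 0) (nat_lit 9990512504) (nat_lit 1292) (nat_lit 29000992124) (nat_lit 275) (nat_lit 5) (nat_lit 274) (nat_lit 3) (nat_lit 291) (nat_lit 5) (nat_lit 484) (nat_lit 483) (nat_lit 233)) (XT.nd (nat_lit 78) (nat_lit 0) (nat_lit 0) (XT.lf (nat_lit 0) (nat_lit 19671278221) (nat_lit 1216) (nat_lit 15510028864) (nat_lit 1292) (nat_lit 13527051071) (nat_lit 275) (nat_lit 5) (nat_lit 291) (nat_lit 5) (nat_lit 292) (nat_lit 5) (nat_lit 485) (nat_lit 483) (nat_lit 232)) (XT.lf (nat_lit 76) (nat_lit 8747045725) (nat_lit 0) (nat_lit 11809191133) (nat_lit 1292) (nat_lit 28886895265) (nat_lit 276) (nat_lit 5) (nat_lit 275) (nat_lit 5) (nat_lit 292) (nat_lit 5) (nat_lit 486) (nat_lit 483) (nat_lit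 231)))) (XT.nd (nat_lit 156) (nat_lit 0) (nat_lit 76) (XT.nd (nat_lit 78) (nat_lit 0) (nat_lit 0) (XT.lf (nat_lit 0) (nat_lit 21742736872) (nat_lit 1216) (nat_lit 16265565083) (nat_lit 1292) (nat_lit 12183397824) (nat_lit 276) (nat_lit 5) (nat_lit 292) (nat_lit 5) (nat_lit 293) (nat_lit 5) (nat_lit 487) (nat_lit 483) (nat_lit 230)) (XT.lf (nat_lit 76) (nat_lit 8955066917) (nat_lit 0) (nat_lit 14211731484) (nat_lit 1292) (nat_lit 27789867310) (nat_lit 277) (nat_lit 5) (nat_lit 276) (nat_lit 5) (nat_lit 293) (nat_lit 5) (nat_lit 488) (nat_lit 483) (nat_lit 229))) (XT.nd (nat_lit 78) (nat_lit 0) (nat_lit 0) (XT.lf (nat_lit 0) (nat_lit 24897446348) (nat_lit 1216) (nat_lit 16575187218) (nat_lit 1292) (nat_lit 10264031352) (nat_lit 277) (nat_lit 5) (nat_lit 293) (nat_lit 5) (nat_lit 294) (nat_lit 5) (nat_lit 489) (nat_lit 483) (nat_lit 228)) (XT.lf (nat_lit 76) (nat_lit 9661194170) (nat_lit 0) (nat_lit 17251418758) (nat_lit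 1292) (nat_lit 25620473424) (nat_lit 278) (nat_lit 5) (nat_lit 277) (nat_lit 5) (nat_lit 294) (nat_lit 5) (nat_lit 490) (nat_lit 483) (nat_lit 227))))) (XT.nd (nat_lit 312) (nat_lit 0) (nat_lit 152) (XT.nd (nat_lit 156) (nat_lit 0) (nat_lit 76) (XT.nd (nat_lit 78) (nat_lit 0) (nat_lit 0) (XT.lf (nat_lit 0) (nat_lit 29230296720) (nat_lit 1216) (nat_lit 16400239921) (nat_lit 1292) (nat_lit 7715602143) (nat_lit 278) (nat_lit 5) (nat_lit 294) (nat_lit 5) (nat_lit 295) (nat_lit 5) (nat_lit 491) (nat_lit 483) (nat_lit 226)) (XT.lf (nat_lit 76) (nat_lit 10906946017) (nat_lit 0) (nat_lit 20985288485) (nat_lit 1292) (nat_lit 22283106795) (nat_lit 279) (nat_lit 5) (nat_lit 278) (nat_lit 5) (nat_lit 295) (nat_lit 5) (nat_lit 492) (nat_lit 483) (nat_lit 225))) (XT.nd (nat_lit 78) (nat_lit 0) (nat_lit 0) (XT.lf (nat_lit 0) (nat_lit 34842665887) (nat_lit 1216) (nat_lit 15699511066) (nat_lit 1292) (nat_lit 4480984077) (nat_lit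 279) (nat_lit 5) (nat_lit 295) (nat_lit 5) (nat_lit 296) (nat_lit 5) (nat_lit 493) (nat_lit 483) (nat_lit 224)) (XT.lf (nat_lit 76) (nat_lit 12736552766) (nat_lit 0) (nat_lit 25474387000) (nat_lit 1292) (nat_lit 17675595905) (nat_lit 280) (nat_lit 5) (nat_lit 279) (nat_lit 5) (nat_lit 296) (nat_lit 5) (nat_lit 494) (nat_lit 483) (nat_lit 223)))) (XT.nd (nat_lit 156) (nat_lit 0) (nat_lit 0) (XT.nd (nat_lit 78) (nat_lit 0) (nat_lit 0) (XT.lf (nat_lit 0) (nat_lit 41842830677) (nat_lit 1216) (nat_lit 14429092069) (nat_lit 1292) (nat_lit 499011935) (nat_lit 280) (nat_lit 5) (nat_lit 296) (nat_lit 5) (nat_lit 297) (nat_lit 5) (nat_lit 495) (nat_lit 483) (nat_lit 222)) (XT.lf (nat_lit 76) (nat_lit 15197104124) (nat_lit 0) (nat_lit 30784048971) (nat_lit 1292) (nat_lit 11688788515) (nat_lit 281) (nat_lit 5) (nat_lit 280) (nat_lit 5) (nat_lit 297) (nat_lit 5) (nat_lit 496) (nat_lit 483) (nat_lit 221))) (XT.nd (nat_lit 78)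 (nat_lit 0) (nat_lit 76) (XT.lf (nat_lit 76) (nat_lit 46007224866) (nat_lit 0) (nat_lit 4381293133) (nat_lit 1292) (nat_lit 8203054148) (nat_lit 281) (nat_lit 5) (nat_lit 280) (nat_lit 5) (nat_lit 297) (nat_lit 5) (nat_lit 497) (nat_lit 483) (nat_lit 220)) (XT.lf (nat_lit 76) (nat_lit 18338703774) (nat_lit 0) (nat_lit 36984193194) (nat_lit 1292) (nat_lit 4206111017) (nat_lit 282) (nat_lit 5) (nat_lit 281) (nat_lit 5) (nat_lit 298) (nat_lit 5) (nat_lit 498) (nat_lit 483) (nat_lit 219))))))))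
noncomputable def xc241 : XT := (XT.nd (nat_lit 2340) (nat_lit 1064) (nat_lit 0) (XT.nd (nat_lit 1170) (nat_lit 3496) (nat_lit 0) (XT.nd (nat_lit 546) (nat_lit 2204) (nat_lit 0) (XT.nd (nat_lit 234) (nat_lit 1900) (nat_lit 0) (XT.nd (nat_lit 78) (nat_lit 0) (nat_lit 76) (XT.lf (nat_lit 0) (nat_lit 83418215) (nat_lit 1292) (nat_lit 10087780303) (nat_lit 1368) (nat_lit 50318266209) (nat_lit 264) (nat_lit 5) (nat_lit 281) (nat_lit 5) (nat_lit 282) (nat_lit 5) (nat_lit 499) (nat_lit 483) (nat_lit 218)) (XT.nd (nat_lit 78) (nat_lit 0) (nat_lit 0) (XT.lf (nat_lit 0) (nat_lit 4801342129) (nat_lit 1292) (nat_lit 39299811652) (nat_lit 76) (nat_lit 17364804791) (nat_lit 265) (nat_lit 5) (nat_lit 282) (nat_lit 5) (nat_lit 266) (nat_lit 5) (nat_lit 500) (nat_lit 483) (nat_lit 217)) (XT.lf (nat_lit 0) (nat_lit 9863645162) (nat_lit 1292) (nat_lit 6976580618) (nat_lit 76) (nat_lit 45625436369) (nat_lit 265) (nat_lit 5) (nat_lit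 282) (nat_lit 5) (nat_lit 266) (nat_lit 5) (nat_lit 501) (nat_lit 483) (nat_lit 216)))) (XT.nd (nat_lit 156) (nat_lit 1216) (nat_lit 0) (XT.nd (nat_lit 78) (nat_lit 0) (nat_lit 0) (XT.lf (nat_lit 0) (nat_lit 15445683853) (nat_lit 836) (nat_lit 36758782145) (nat_lit 76) (nat_lit 11279854993) (nat_lit 255) (nat_lit 5) (nat_lit 266) (nat_lit 5) (nat_lit 256) (nat_lit 5) (nat_lit 502) (nat_lit 483) (nat_lit 215)) (XT.lf (nat_lit 0) (nat_lit 21432364023) (nat_lit 836) (nat_lit 3117777516) (nat_lit 76) (nat_lit 39976282800) (nat_lit 255) (nat_lit 5) (nat_lit 266) (nat_lit 5) (nat_lit 256) (nat_lit 5) (nat_lit 503) (nat_lit 483) (nat_lit 214))) (XT.nd (nat_lit 78) (nat_lit 608) (nat_lit 0) (XT.lf (nat_lit 0) (nat_lit 27947974067) (nat_lit 684) (nat_lit 33472045270) (nat_lit 76) (nat_lit 4169291712) (nat_lit 247) (nat_lit 5) (nat_lit 256) (nat_lit 5) (nat_lit 248) (nat_lit 5) (nat_lit 504) (nat_lit 483) (nat_lit 213))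 (XT.lf (nat_lit 0) (nat_lit 1576870686) (nat_lit 608) (nat_lit 33371538163) (nat_lit 684) (nat_lit 31726994961) (nat_lit 239) (nat_lit 5) (nat_lit 247) (nat_lit 5) (nat_lit 248) (nat_lit 5) (nat_lit 505) (nat_lit 483) (nat_lit 212))))) (XT.nd (nat_lit 312) (nat_lit 1140) (nat_lit 0) (XT.nd (nat_lit 156) (nat_lit 532) (nat_lit 0) (XT.nd (nat_lit 78) (nat_lit 532) (nat_lit 0) (XT.lf (nat_lit 0) (nat_lit 38362755387) (nat_lit 608) (nat_lit 4133449295) (nat_lit 684) (nat_lit 25287754367) (nat_lit 239) (nat_lit 5) (nat_lit 247) (nat_lit 5) (nat_lit 248) (nat_lit 5) (nat_lit 506) (nat_lit 483) (nat_lit 211)) (XT.lf (nat_lit 0) (nat_lit 7216876743) (nat_lit 532) (nat_lit 43372048602) (nat_lit 608) (nat_lit 18327291006) (nat_lit 232) (nat_lit 5) (nat_lit 239) (nat_lit 5) (nat_lit 240) (nat_lit 5) (nat_lit 507) (nat_lit 483) (nat_lit 210))) (XT.nd (nat_lit 78) (nat_lit 532) (nat_lit 0) (XT.lf (nat_lit 0) (nat_lit 45514828557)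 (nat_lit 532) (nat_lit 13746597054) (nat_lit 608) (nat_lit 10810905952) (nat_lit 232) (nat_lit 5) (nat_lit 239) (nat_lit 5) (nat_lit 240) (nat_lit 5) (nat_lit 508) (nat_lit 483) (nat_lit 209)) (XT.lf (nat_lit 0) (nat_lit 13806179718) (nat_lit 532) (nat_lit 54681210712) (nat_lit 608) (nat_lit 2766941240) (nat_lit 225) (nat_lit 5) (nat_lit 232) (nat_lit 5) (nat_lit 233) (nat_lit 5) (nat_lit 509) (nat_lit 483) (nat_lit 208)))) (XT.nd (nat_lit 156) (nat_lit 532) (nat_lit 0) (XT.nd (nat_lit 78) (nat_lit 532) (nat_lit 0) (XT.lf (nat_lit 0) (nat_lit 5796603551) (nat_lit 608) (nat_lit 18832422984) (nat_lit 76) (nat_lit 47829595677) (nat_lit 224) (nat_lit 5) (nat_lit 232) (nat_lit 5) (nat_lit 225) (nat_lit 5) (nat_lit 510) (nat_lit 483) (nat_lit 207)) (XT.lf (nat_lit 0) (nat_lit 14828995268) (nat_lit 608) (nat_lit 52425200626) (nat_lit 76) (nat_lit 6435997227) (nat_lit 217) (nat_lit 5) (nat_lit 225) (nat_lit 5) (nat_lit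 218) (nat_lit 5) (nat_lit 511) (nat_lit 483) (nat_lit 206))) (XT.nd (nat_lit 78) (nat_lit 532) (nat_lit 0) (XT.lf (nat_lit 0) (nat_lit 24567692951) (nat_lit 608) (nat_lit 12247998428) (nat_lit 76) (nat_lit 38129959863) (nat_lit 217) (nat_lit 5) (nat_lit 225) (nat_lit 5) (nat_lit 218) (nat_lit 5) (nat_lit 512) (nat_lit 483) (nat_lit 205)) (XT.lf (nat_lit 0) (nat_lit 29713725716) (nat_lit 532) (nat_lit 5169898032) (nat_lit 608) (nat_lit 41346597302) (nat_lit 210) (nat_lit 5) (nat_lit 217) (nat_lit 5) (nat_lit 218) (nat_lit 5) (nat_lit 513) (nat_lit 483) (nat_lit 204)))))) (XT.nd (nat_lit 546) (nat_lit 1596) (nat_lit 0) (XT.nd (nat_lit 234) (nat_lit 988) (nat_lit 0) (XT.nd (nat_lit 78) (nat_lit 912) (nat_lit 0) (XT.lf (nat_lit 0) (nat_lit 45897021588) (nat_lit 608) (nat_lit 4629722698) (nat_lit 76) (nat_lit 27014944097) (nat_lit 210) (nat_lit 5) (nat_lit 218) (nat_lit 5) (nat_lit 211) (nat_lit 5) (nat_lit 514) (nat_lit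 483) (nat_lit 203)) (XT.nd (nat_lit 78) (nat_lit 456) (nat_lit 0) (XT.lf (nat_lit 0) (nat_lit 39227324944) (nat_lit 456) (nat_lit 18441231762) (nat_lit 532) (nat_lit 21211111074) (nat_lit 204) (nat_lit 5) (nat_lit 210) (nat_lit 5) (nat_lit 211) (nat_lit 5) (nat_lit 515) (nat_lit 483) (nat_lit 202)) (XT.lf (nat_lit 0) (nat_lit 4178656185) (nat_lit 456) (nat_lit 65841853454) (nat_lit 532) (nat_lit 10230458865) (nat_lit 198) (nat_lit 5) (nat_lit 204) (nat_lit 5) (nat_lit 205) (nat_lit 5) (nat_lit 516) (nat_lit 483) (nat_lit 201)))) (XT.nd (nat_lit 156) (nat_lit 456) (nat_lit 0) (XT.nd (nat_lit 78) (nat_lit 456) (nat_lit 0) (XT.lf (nat_lit 0) (nat_lit 1644991747) (nat_lit 532) (nat_lit 31711526118) (nat_lit 76) (nat_lit 48288985762) (nat_lit 197) (nat_lit 5) (nat_lit 204) (nat_lit 5) (nat_lit 198) (nat_lit 5) (nat_lit 517) (nat_lit 483) (nat_lit 200)) (XT.lf (nat_lit 0) (nat_lit 13809986411) (nat_lit 532) (nat_lit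 68923719579) (nat_lit 76) (nat_lit 340963077) (nat_lit 191) (nat_lit 5) (nat_lit 198) (nat_lit 5) (nat_lit 192) (nat_lit 5) (nat_lit 518) (nat_lit 483) (nat_lit 199))) (XT.nd (nat_lit 78) (nat_lit 456) (nat_lit 0) (XT.lf (nat_lit 0) (nat_lit 26993095252) (nat_lit 532) (nat_lit 22831791835) (nat_lit 76) (nat_lit 34702227540) (nat_lit 191) (nat_lit 5) (nat_lit 198) (nat_lit 5) (nat_lit 192) (nat_lit 5) (nat_lit 519) (nat_lit 483) (nat_lit 198)) (XT.lf (nat_lit 0) (nat_lit 25132731069) (nat_lit 456) (nat_lit 15680078848) (nat_lit 532) (nat_lit 45203090346) (nat_lit 185) (nat_lit 5) (nat_lit 191) (nat_lit 5) (nat_lit 192) (nat_lit 5) (nat_lit 520) (nat_lit 483) (nat_lit 197))))) (XT.nd (nat_lit 312) (nat_lit 760) (nat_lit 0) (XT.nd (nat_lit 156) (nat_lit 456) (nat_lit 0) (XT.nd (nat_lit 78) (nat_lit 380) (nat_lit 0) (XT.lf (nat_lit 0) (nat_lit 55466824537) (nat_lit 532) (nat_lit 12728437443) (nat_lit 76) (nat_lit 19341496316)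 (nat_lit 185) (nat_lit 5) (nat_lit 192) (nat_lit 5) (nat_lit 186) (nat_lit 5) (nat_lit 521) (nat_lit 483) (nat_lit 196)) (XT.lf (nat_lit 0) (nat_lit 37445807979) (nat_lit 380) (nat_lit 33629394215) (nat_lit 456) (nat_lit 18012597678) (nat_lit 180) (nat_lit 5) (nat_lit 185) (nat_lit 5) (nat_lit 186) (nat_lit 5) (nat_lit 522) (nat_lit 483) (nat_lit 195))) (XT.nd (nat_lit 78) (nat_lit 456) (nat_lit 0) (XT.lf (nat_lit 0) (nat_lit 87300154893) (nat_lit 456) (nat_lit 1316147283) (nat_lit 76) (nat_lit 2064620888) (nat_lit 180) (nat_lit 5) (nat_lit 186) (nat_lit 5) (nat_lit 181) (nat_lit 5) (nat_lit 523) (nat_lit 483) (nat_lit 194)) (XT.lf (nat_lit 0) (nat_lit 12294610909) (nat_lit 456) (nat_lit 41232904213) (nat_lit 76) (nat_lit 38765972484) (nat_lit 174) (nat_lit 5) (nat_lit 180) (nat_lit 5) (nat_lit 175) (nat_lit 5) (nat_lit 524) (nat_lit 483) (nat_lit 193)))) (XT.nd (nat_lit 156) (nat_lit 380) (nat_lit 0) (XT.nd (nat_lit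 78) (nat_lit 0) (nat_lit 0) (XT.lf (nat_lit 0) (nat_lit 11267250275) (nat_lit 380) (nat_lit 17226345756) (nat_lit 456) (nat_lit 65456190094) (nat_lit 169) (nat_lit 5) (nat_lit 174) (nat_lit 5) (nat_lit 175) (nat_lit 5) (nat_lit 525) (nat_lit 483) (nat_lit 192)) (XT.lf (nat_lit 0) (nat_lit 45792442826) (nat_lit 456) (nat_lit 29654169851) (nat_lit 76) (nat_lit 20190744229) (nat_lit 169) (nat_lit 5) (nat_lit 175) (nat_lit 5) (nat_lit 170) (nat_lit 5) (nat_lit 526) (nat_lit 483) (nat_lit 191))) (XT.nd (nat_lit 78) (nat_lit 0) (nat_lit 0) (XT.lf (nat_lit 0) (nat_lit 25287372827) (nat_lit 380) (nat_lit 38736101072) (nat_lit 456) (nat_lit 33339684413) (nat_lit 164) (nat_lit 5) (nat_lit 169) (nat_lit 5) (nat_lit 170) (nat_lit 5) (nat_lit 527) (nat_lit 483) (nat_lit 190)) (XT.lf (nat_lit 0) (nat_lit 82484484579) (nat_lit 380) (nat_lit 615990362) (nat_lit 456) (nat_lit 16031287714) (nat_lit 164) (nat_lit 5) (nat_lit 169)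 (nat_lit 5) (nat_lit 170) (nat_lit 5) (nat_lit 528) (nat_lit 483) (nat_lit 189))))))) (XT.nd (nat_lit 59748) (nat_lit 0) (nat_lit 6232) (XT.nd (nat_lit 59124) (nat_lit 0) (nat_lit 9500) (XT.nd (nat_lit 234) (nat_lit 304) (nat_lit 0) (XT.nd (nat_lit 78) (nat_lit 380) (nat_lit 0) (XT.lf (nat_lit 0) (nat_lit 2532840586) (nat_lit 380) (nat_lit 60085799964) (nat_lit 76) (nat_lit 38311120612) (nat_lit 159) (nat_lit 5) (nat_lit 164) (nat_lit 5) (nat_lit 160) (nat_lit 5) (nat_lit 529) (nat_lit 483) (nat_lit 188)) (XT.nd (nat_lit 78) (nat_lit 380) (nat_lit 0) (XT.lf (nat_lit 0) (nat_lit 21507150946) (nat_lit 380) (nat_lit 2542510390) (nat_lit 76) (nat_lit 78722012443) (nat_lit 159) (nat_lit 5) (nat_lit 164) (nat_lit 5) (nat_lit 160) (nat_lit 5) (nat_lit 530) (nat_lit 483) (nat_lit 187)) (XT.lf (nat_lit 0) (nat_lit 41762643657) (nat_lit 456) (nat_lit 46952859131) (nat_lit 76) (nat_lit 15931982454) (nat_lit 154) (nat_lit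 5) (nat_lit 160) (nat_lit 5) (nat_lit 155) (nat_lit 5) (nat_lit 531) (nat_lit 483) (nat_lit 186)))) (XT.nd (nat_lit 58734) (nat_lit 0) (nat_lit 9424) (XT.nd (nat_lit 78) (nat_lit 0) (nat_lit 0) (XT.lf (nat_lit 0) (nat_lit 13231474950) (nat_lit 304) (nat_lit 49785178464) (nat_lit 380) (nat_lit 43551192125) (nat_lit 150) (nat_lit 5) (nat_lit 154) (nat_lit 5) (nat_lit 155) (nat_lit 5) (nat_lit 532) (nat_lit 483) (nat_lit 185)) (XT.lf (nat_lit 0) (nat_lit 76183287986) (nat_lit 304) (nat_lit 9198752406) (nat_lit 380) (nat_lit 23149563598) (nat_lit 150) (nat_lit 5) (nat_lit 154) (nat_lit 5) (nat_lit 155) (nat_lit 5) (nat_lit 533) (nat_lit 483) (nat_lit 184))) (XT.nd (nat_lit 78) (nat_lit 0) (nat_lit 0) (XT.lf (nat_lit 0) (nat_lit 9604780575) (nat_lit 1292) (nat_lit 7372779952) (nat_lit 1292) (nat_lit 7372779952) (nat_lit 274) (nat_lit 3) (nat_lit 291) (nat_lit 3) (nat_lit 291) (nat_lit 5) (nat_lit 484) (nat_lit 484)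 (nat_lit 232)) (XT.lf (nat_lit 76) (nat_lit 9297433117) (nat_lit 0) (nat_lit 10316984187) (nat_lit 1292) (nat_lit 29813266126) (nat_lit 275) (nat_lit 5) (nat_lit 274) (nat_lit 3) (nat_lit 291) (nat_lit 5) (nat_lit 485) (nat_lit 484) (nat_lit 231))))) (XT.nd (nat_lit 312) (nat_lit 0) (nat_lit 152) (XT.nd (nat_lit 156) (nat_lit 0) (nat_lit 76) (XT.nd (nat_lit 78) (nat_lit 0) (nat_lit 0) (XT.lf (nat_lit 0) (nat_lit 20315594973) (nat_lit 1216) (nat_lit 15944983466) (nat_lit 1292) (nat_lit 13907392509) (nat_lit 275) (nat_lit 5) (nat_lit 291) (nat_lit 5) (nat_lit 292) (nat_lit 5) (nat_lit 486) (nat_lit 484) (nat_lit 230)) (XT.lf (nat_lit 76) (nat_lit 9039505848) (nat_lit 0) (nat_lit 12186307357) (nat_lit 1292) (nat_lit 29699013973) (nat_lit 276) (nat_lit 5) (nat_lit 275) (nat_lit 5) (nat_lit 292) (nat_lit 5) (nat_lit 487) (nat_lit 484) (nat_lit 229))) (XT.nd (nat_lit 78) (nat_lit 0) (nat_lit 0) (XT.lf (nat_lit 0) (nat_lit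 22446154594) (nat_lit 1216) (nat_lit 16722592990) (nat_lit 1292) (nat_lit 12527157245) (nat_lit 276) (nat_lit 5) (nat_lit 292) (nat_lit 5) (nat_lit 293) (nat_lit 5) (nat_lit 488) (nat_lit 484) (nat_lit 228)) (XT.lf (nat_lit 76) (nat_lit 9254354646) (nat_lit 0) (nat_lit 14657388425) (nat_lit 1292) (nat_lit 28572112860) (nat_lit 277) (nat_lit 5) (nat_lit 276) (nat_lit 5) (nat_lit 293) (nat_lit 5) (nat_lit 489) (nat_lit 484) (nat_lit 227)))) (XT.nd (nat_lit 156) (nat_lit 0) (nat_lit 76) (XT.nd (nat_lit 78) (nat_lit 0) (nat_lit 0) (XT.lf (nat_lit 0) (nat_lit 25692675706) (nat_lit 1216) (nat_lit 17041053471) (nat_lit 1292) (nat_lit 10553575315) (nat_lit 277) (nat_lit 5) (nat_lit 293) (nat_lit 5) (nat_lit 294) (nat_lit 5) (nat_lit 490) (nat_lit 484) (nat_lit 226)) (XT.lf (nat_lit 76) (nat_lit 9982111621) (nat_lit 0) (nat_lit 17785077469) (nat_lit 1292) (nat_lit 26340463052) (nat_lit 278) (nat_lit 5) (nat_lit 277) (nat_lit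 5) (nat_lit 294) (nat_lit 5) (nat_lit 491) (nat_lit 484) (nat_lit 225))) (XT.nd (nat_lit 78) (nat_lit 0) (nat_lit 0) (XT.lf (nat_lit 0) (nat_lit 30152878296) (nat_lit 1216) (nat_lit 16860535133) (nat_lit 1292) (nat_lit 7931728786) (nat_lit 278) (nat_lit 5) (nat_lit 294) (nat_lit 5) (nat_lit 295) (nat_lit 5) (nat_lit 492) (nat_lit 484) (nat_lit 224)) (XT.lf (nat_lit 76) (nat_lit 11265555481) (nat_lit 0) (nat_lit 21628090305) (nat_lit 1292) (nat_lit 22905606178) (nat_lit 279) (nat_lit 5) (nat_lit 278) (nat_lit 5) (nat_lit 295) (nat_lit 5) (nat_lit 493) (nat_lit 484) (nat_lit 223)))))) (XT.nd (nat_lit 624) (nat_lit 2432) (nat_lit 0) (XT.nd (nat_lit 312) (nat_lit 1140) (nat_lit 0) (XT.nd (nat_lit 156) (nat_lit 0) (nat_lit 76) (XT.nd (nat_lit 78) (nat_lit 0) (nat_lit 0) (XT.lf (nat_lit 0) (nat_lit 35931166201) (nat_lit 1216) (nat_lit 16138576052) (nat_lit 1292) (nat_lit 4602807052) (nat_lit 279) (nat_lit 5) (nat_lit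 295) (nat_lit 5) (nat_lit 296) (nat_lit 5) (nat_lit 494) (nat_lit 484) (nat_lit 222)) (XT.lf (nat_lit 76) (nat_lit 13150256750) (nat_lit 0) (nat_lit 26249276531) (nat_lit 1292) (nat_lit 18162320844) (nat_lit 280) (nat_lit 5) (nat_lit 279) (nat_lit 5) (nat_lit 296) (nat_lit 5) (nat_lit 495) (nat_lit 484) (nat_lit 221))) (XT.nd (nat_lit 78) (nat_lit 0) (nat_lit 0) (XT.lf (nat_lit 0) (nat_lit 43139050425) (nat_lit 1216) (nat_lit 14829938164) (nat_lit 1292) (nat_lit 503836714) (nat_lit 280) (nat_lit 5) (nat_lit 296) (nat_lit 5) (nat_lit 297) (nat_lit 5) (nat_lit 496) (nat_lit 484) (nat_lit 220)) (XT.lf (nat_lit 76) (nat_lit 15684729929) (nat_lit 0) (nat_lit 31715905152) (nat_lit 1292) (nat_lit 11998194254) (nat_lit 281) (nat_lit 5) (nat_lit 280) (nat_lit 5) (nat_lit 297) (nat_lit 5) (nat_lit 497) (nat_lit 484) (nat_lit 219)))) (XT.nd (nat_lit 156) (nat_lit 1216) (nat_lit 0) (XT.nd (nat_lit 78) (nat_lit 0) (nat_lit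 76) (XT.lf (nat_lit 76) (nat_lit 47418230623) (nat_lit 0) (nat_lit 4520823880) (nat_lit 1292) (nat_lit 8409089543) (nat_lit 281) (nat_lit 5) (nat_lit 280) (nat_lit 5) (nat_lit 297) (nat_lit 5) (nat_lit 498) (nat_lit 484) (nat_lit 218)) (XT.lf (nat_lit 76) (nat_lit 18920592811) (nat_lit 0) (nat_lit 38099969044) (nat_lit 1292) (nat_lit 4293168452) (nat_lit 282) (nat_lit 5) (nat_lit 281) (nat_lit 5) (nat_lit 298) (nat_lit 5) (nat_lit 499) (nat_lit 484) (nat_lit 217))) (XT.nd (nat_lit 78) (nat_lit 0) (nat_lit 76) (XT.lf (nat_lit 0) (nat_lit 123165819) (nat_lit 1292) (nat_lit 10358860567) (nat_lit 1368) (nat_lit 51820996845) (nat_lit 264) (nat_lit 5) (nat_lit 281) (nat_lit 5) (nat_lit 282) (nat_lit 5) (nat_lit 500) (nat_lit 484) (nat_lit 216)) (XT.lf (nat_lit 0) (nat_lit 4981792830) (nat_lit 1292) (nat_lit 40446410385) (nat_lit 76) (nat_lit 17880633950) (nat_lit 265) (nat_lit 5) (nat_lit 282) (nat_lit 5) (nat_lit 266)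 (nat_lit 5) (nat_lit 501) (nat_lit 484) (nat_lit 215))))) (XT.nd (nat_lit 312) (nat_lit 1140) (nat_lit 0) (XT.nd (nat_lit 156) (nat_lit 608) (nat_lit 0) (XT.nd (nat_lit 78) (nat_lit 760) (nat_lit 0) (XT.lf (nat_lit 0) (nat_lit 10194904456) (nat_lit 1292) (nat_lit 7154425982) (nat_lit 76) (nat_lit 46989233455) (nat_lit 265) (nat_lit 5) (nat_lit 282) (nat_lit 5) (nat_lit 266) (nat_lit 5) (nat_lit 502) (nat_lit 484) (nat_lit 214)) (XT.lf (nat_lit 0) (nat_lit 15943640656) (nat_lit 836) (nat_lit 37829322503) (nat_lit 76) (nat_lit 11614842473) (nat_lit 255) (nat_lit 5) (nat_lit 266) (nat_lit 5) (nat_lit 256) (nat_lit 5) (nat_lit 503) (nat_lit 484) (nat_lit 213))) (XT.nd (nat_lit 78) (nat_lit 608) (nat_lit 0) (XT.lf (nat_lit 0) (nat_lit 22108913864) (nat_lit 836) (nat_lit 3180026272) (nat_lit 76) (nat_lit 41172262381) (nat_lit 255) (nat_lit 5) (nat_lit 266) (nat_lit 5) (nat_lit 256) (nat_lit 5) (nat_lit 504) (nat_lit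 484) (nat_lit 212)) (XT.lf (nat_lit 0) (nat_lit 28819293497) (nat_lit 684) (nat_lit 34444216370) (nat_lit 76) (nat_lit 4292487132) (nat_lit 247) (nat_lit 5) (nat_lit 256) (nat_lit 5) (nat_lit 248) (nat_lit 5) (nat_lit 505) (nat_lit 484) (nat_lit 211)))) (XT.nd (nat_lit 156) (nat_lit 532) (nat_lit 0) (XT.nd (nat_lit 78) (nat_lit 0) (nat_lit 0) (XT.lf (nat_lit 0) (nat_lit 1655853435) (nat_lit 608) (nat_lit 34373234706) (nat_lit 684) (nat_lit 32645604199) (nat_lit 239) (nat_lit 5) (nat_lit 247) (nat_lit 5) (nat_lit 248) (nat_lit 5) (nat_lit 506) (nat_lit 484) (nat_lit 210)) (XT.lf (nat_lit 0) (nat_lit 39544392057) (nat_lit 608) (nat_lit 4257987142) (nat_lit 684) (nat_lit 26014153396) (nat_lit 239) (nat_lit 5) (nat_lit 247) (nat_lit 5) (nat_lit 248) (nat_lit 5) (nat_lit 507) (nat_lit 484) (nat_lit 209))) (XT.nd (nat_lit 78) (nat_lit 0) (nat_lit 0) (XT.lf (nat_lit 0) (nat_lit 7464776590) (nat_lit 532) (nat_lit 44672490367)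 (nat_lit 608) (nat_lit 18845509287) (nat_lit 232) (nat_lit 5) (nat_lit 239) (nat_lit 5) (nat_lit 240) (nat_lit 5) (nat_lit 508) (nat_lit 484) (nat_lit 208)) (XT.lf (nat_lit 0) (nat_lit 46910752583) (nat_lit 532) (nat_lit 14158296235) (nat_lit 608) (nat_lit 11104553082) (nat_lit 232) (nat_lit 5) (nat_lit 239) (nat_lit 5) (nat_lit 240) (nat_lit 5) (nat_lit 509) (nat_lit 484) (nat_lit 207))))))))
noncomputable def xc242 : XT := (XT.nd (nat_lit 60996) (nat_lit 0) (nat_lit 3116) (XT.nd (nat_lit 1170) (nat_lit 2280) (nat_lit 0) (XT.nd (nat_lit 546) (nat_lit 1824) (nat_lit 0) (XT.nd (nat_lit 234) (nat_lit 988) (nat_lit 0) (XT.nd (nat_lit 78) (nat_lit 608) (nat_lit 0) (XT.lf (nat_lit 0) (nat_lit 14251429603) (nat_lit 532) (nat_lit 56319800717) (nat_lit 608) (nat_lit 2819848737) (nat_lit 225) (nat_lit 5) (nat_lit 232) (nat_lit 5) (nat_lit 233) (nat_lit 5) (nat_lit 510) (nat_lit 484) (nat_lit 206)) (XT.nd (nat_lit 78) (nat_lit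 532) (nat_lit 0) (XT.lf (nat_lit 0) (nat_lit 5999155412) (nat_lit 608) (nat_lit 19366660032) (nat_lit 76) (nat_lit 49265700149) (nat_lit 224) (nat_lit 5) (nat_lit 232) (nat_lit 5) (nat_lit 225) (nat_lit 5) (nat_lit 511) (nat_lit 484) (nat_lit 205)) (XT.lf (nat_lit 0) (nat_lit 15301999184) (nat_lit 608) (nat_lit 53966695801) (nat_lit 76) (nat_lit 6631354401) (nat_lit 217) (nat_lit 5) (nat_lit 225) (nat_lit 5) (nat_lit 218) (nat_lit 5) (nat_lit 512) (nat_lit 484) (nat_lit 204)))) (XT.nd (nat_lit 156) (nat_lit 456) (nat_lit 0) (XT.nd (nat_lit 78) (nat_lit 532) (nat_lit 0) (XT.lf (nat_lit 0) (nat_lit 25332038359) (nat_lit 608) (nat_lit 12585088047) (nat_lit 76) (nat_lit 39276069589) (nat_lit 217) (nat_lit 5) (nat_lit 225) (nat_lit 5) (nat_lit 218) (nat_lit 5) (nat_lit 513) (nat_lit 484) (nat_lit 203)) (XT.lf (nat_lit 0) (nat_lit 30635190269) (nat_lit 532) (nat_lit 5321750125) (nat_lit 608) (nat_lit 42559377859) (nat_lit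 210) (nat_lit 5) (nat_lit 217) (nat_lit 5) (nat_lit 218) (nat_lit 5) (nat_lit 514) (nat_lit 484) (nat_lit 202))) (XT.nd (nat_lit 78) (nat_lit 456) (nat_lit 0) (XT.lf (nat_lit 0) (nat_lit 47299989639) (nat_lit 608) (nat_lit 4738681351) (nat_lit 76) (nat_lit 27828481284) (nat_lit 210) (nat_lit 5) (nat_lit 218) (nat_lit 5) (nat_lit 211) (nat_lit 5) (nat_lit 515) (nat_lit 484) (nat_lit 201)) (XT.lf (nat_lit 0) (nat_lit 40433784259) (nat_lit 456) (nat_lit 18990412511) (nat_lit 532) (nat_lit 21821088650) (nat_lit 204) (nat_lit 5) (nat_lit 210) (nat_lit 5) (nat_lit 211) (nat_lit 5) (nat_lit 516) (nat_lit 484) (nat_lit 200))))) (XT.nd (nat_lit 312) (nat_lit 836) (nat_lit 0) (XT.nd (nat_lit 156) (nat_lit 456) (nat_lit 0) (XT.nd (nat_lit 78) (nat_lit 76) (nat_lit 0) (XT.lf (nat_lit 0) (nat_lit 4334091066) (nat_lit 456) (nat_lit 67812199035) (nat_lit 532) (nat_lit 10511447753) (nat_lit 198) (nat_lit 5) (nat_lit 204) (nat_lit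 5) (nat_lit 205) (nat_lit 5) (nat_lit 517) (nat_lit 484) (nat_lit 199)) (XT.lf (nat_lit 0) (nat_lit 1719020132) (nat_lit 532) (nat_lit 32633177052) (nat_lit 76) (nat_lit 49741926716) (nat_lit 197) (nat_lit 5) (nat_lit 204) (nat_lit 5) (nat_lit 198) (nat_lit 5) (nat_lit 518) (nat_lit 484) (nat_lit 198))) (XT.nd (nat_lit 78) (nat_lit 0) (nat_lit 0) (XT.lf (nat_lit 0) (nat_lit 14248578099) (nat_lit 532) (nat_lit 70961345434) (nat_lit 76) (nat_lit 356252496) (nat_lit 191) (nat_lit 5) (nat_lit 198) (nat_lit 5) (nat_lit 192) (nat_lit 5) (nat_lit 519) (nat_lit 484) (nat_lit 197)) (XT.lf (nat_lit 0) (nat_lit 27826472669) (nat_lit 532) (nat_lit 23487536141) (nat_lit 76) (nat_lit 35748207498) (nat_lit 191) (nat_lit 5) (nat_lit 198) (nat_lit 5) (nat_lit 192) (nat_lit 5) (nat_lit 520) (nat_lit 484) (nat_lit 196)))) (XT.nd (nat_lit 156) (nat_lit 380) (nat_lit 0) (XT.nd (nat_lit 78) (nat_lit 0) (nat_lit 0) (XT.lf (nat_lit 0)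 (nat_lit 25915636083) (nat_lit 456) (nat_lit 16144733789) (nat_lit 532) (nat_lit 46535308032) (nat_lit 185) (nat_lit 5) (nat_lit 191) (nat_lit 5) (nat_lit 192) (nat_lit 5) (nat_lit 521) (nat_lit 484) (nat_lit 195)) (XT.lf (nat_lit 0) (nat_lit 57153383549) (nat_lit 532) (nat_lit 13081584546) (nat_lit 76) (nat_lit 19927212343) (nat_lit 185) (nat_lit 5) (nat_lit 192) (nat_lit 5) (nat_lit 186) (nat_lit 5) (nat_lit 522) (nat_lit 484) (nat_lit 194))) (XT.nd (nat_lit 78) (nat_lit 0) (nat_lit 0) (XT.lf (nat_lit 0) (nat_lit 38597606808) (nat_lit 380) (nat_lit 34632022043) (nat_lit 456) (nat_lit 18530136038) (nat_lit 180) (nat_lit 5) (nat_lit 185) (nat_lit 5) (nat_lit 186) (nat_lit 5) (nat_lit 523) (nat_lit 484) (nat_lit 193)) (XT.lf (nat_lit 0) (nat_lit 89940742751) (nat_lit 456) (nat_lit 1327443884) (nat_lit 76) (nat_lit 2132512874) (nat_lit 180) (nat_lit 5) (nat_lit 186) (nat_lit 5) (nat_lit 181) (nat_lit 5) (nat_lit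 524) (nat_lit 484) (nat_lit 192)))))) (XT.nd (nat_lit 546) (nat_lit 684) (nat_lit 0) (XT.nd (nat_lit 234) (nat_lit 760) (nat_lit 0) (XT.nd (nat_lit 78) (nat_lit 380) (nat_lit 0) (XT.lf (nat_lit 0) (nat_lit 12684885809) (nat_lit 456) (nat_lit 42441549709) (nat_lit 76) (nat_lit 39935210084) (nat_lit 174) (nat_lit 5) (nat_lit 180) (nat_lit 5) (nat_lit 175) (nat_lit 5) (nat_lit 525) (nat_lit 484) (nat_lit 191)) (XT.nd (nat_lit 78) (nat_lit 0) (nat_lit 0) (XT.lf (nat_lit 0) (nat_lit 11633331555) (nat_lit 380) (nat_lit 17736154331) (nat_lit 456) (nat_lit 67398157933) (nat_lit 169) (nat_lit 5) (nat_lit 174) (nat_lit 5) (nat_lit 175) (nat_lit 5) (nat_lit 526) (nat_lit 484) (nat_lit 190)) (XT.lf (nat_lit 0) (nat_lit 47186749204) (nat_lit 456) (nat_lit 30515996355) (nat_lit 76) (nat_lit 20803112729) (nat_lit 169) (nat_lit 5) (nat_lit 175) (nat_lit 5) (nat_lit 170) (nat_lit 5) (nat_lit 527) (nat_lit 484) (nat_lit 189))))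 (XT.nd (nat_lit 156) (nat_lit 380) (nat_lit 0) (XT.nd (nat_lit 78) (nat_lit 0) (nat_lit 0) (XT.lf (nat_lit 0) (nat_lit 26073520067) (nat_lit 380) (nat_lit 39890857687) (nat_lit 456) (nat_lit 34319066082) (nat_lit 164) (nat_lit 5) (nat_lit 169) (nat_lit 5) (nat_lit 170) (nat_lit 5) (nat_lit 528) (nat_lit 484) (nat_lit 188)) (XT.lf (nat_lit 0) (nat_lit 84985743442) (nat_lit 380) (nat_lit 627357047) (nat_lit 456) (nat_lit 16492023565) (nat_lit 164) (nat_lit 5) (nat_lit 169) (nat_lit 5) (nat_lit 170) (nat_lit 5) (nat_lit 529) (nat_lit 484) (nat_lit 187))) (XT.nd (nat_lit 78) (nat_lit 0) (nat_lit 0) (XT.lf (nat_lit 0) (nat_lit 2628386366) (nat_lit 380) (nat_lit 61861001410) (nat_lit 76) (nat_lit 39467676444) (nat_lit 159) (nat_lit 5) (nat_lit 164) (nat_lit 5) (nat_lit 160) (nat_lit 5) (nat_lit 530) (nat_lit 484) (nat_lit 186)) (XT.lf (nat_lit 0) (nat_lit 22171356312) (nat_lit 380) (nat_lit 2592210407) (nat_lit 76) (nat_lit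 81090684675) (nat_lit 159) (nat_lit 5) (nat_lit 164) (nat_lit 5) (nat_lit 160) (nat_lit 5) (nat_lit 531) (nat_lit 484) (nat_lit 185))))) (XT.nd (nat_lit 58968) (nat_lit 0) (nat_lit 9500) (XT.nd (nat_lit 58812) (nat_lit 0) (nat_lit 9424) (XT.nd (nat_lit 78) (nat_lit 304) (nat_lit 0) (XT.lf (nat_lit 0) (nat_lit 43034286914) (nat_lit 456) (nat_lit 48334639931) (nat_lit 76) (nat_lit 16417417247) (nat_lit 154) (nat_lit 5) (nat_lit 160) (nat_lit 5) (nat_lit 155) (nat_lit 5) (nat_lit 532) (nat_lit 484) (nat_lit 184)) (XT.lf (nat_lit 0) (nat_lit 13654961380) (nat_lit 304) (nat_lit 51270664201) (nat_lit 380) (nat_lit 44838698439) (nat_lit 150) (nat_lit 5) (nat_lit 154) (nat_lit 5) (nat_lit 155) (nat_lit 5) (nat_lit 533) (nat_lit 484) (nat_lit 183))) (XT.nd (nat_lit 78) (nat_lit 0) (nat_lit 0) (XT.lf (nat_lit 0) (nat_lit 9920001304) (nat_lit 1292) (nat_lit 7580015385) (nat_lit 1292) (nat_lit 7580015385) (nat_lit 274) (nat_lit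 3) (nat_lit 291) (nat_lit 3) (nat_lit 291) (nat_lit 5) (nat_lit 485) (nat_lit 485) (nat_lit 230)) (XT.lf (nat_lit 76) (nat_lit 9603978551) (nat_lit 0) (nat_lit 10651714100) (nat_lit 1292) (nat_lit 30653223765) (nat_lit 275) (nat_lit 5) (nat_lit 274) (nat_lit 3) (nat_lit 291) (nat_lit 5) (nat_lit 486) (nat_lit 485) (nat_lit 229)))) (XT.nd (nat_lit 156) (nat_lit 0) (nat_lit 76) (XT.nd (nat_lit 78) (nat_lit 0) (nat_lit 0) (XT.lf (nat_lit 0) (nat_lit 20976131166) (nat_lit 1216) (nat_lit 16394728706) (nat_lit 1292) (nat_lit 14300606279) (nat_lit 275) (nat_lit 5) (nat_lit 291) (nat_lit 5) (nat_lit 292) (nat_lit 5) (nat_lit 487) (nat_lit 485) (nat_lit 228)) (XT.lf (nat_lit 76) (nat_lit 9339014853) (nat_lit 0) (nat_lit 12573425930) (nat_lit 1292) (nat_lit 30538624085) (nat_lit 276) (nat_lit 5) (nat_lit 275) (nat_lit 5) (nat_lit 292) (nat_lit 5) (nat_lit 488) (nat_lit 485) (nat_lit 227))) (XT.nd (nat_lit 78) (nat_lit 0)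 (nat_lit 0) (XT.lf (nat_lit 0) (nat_lit 23167739454) (nat_lit 1216) (nat_lit 17195107762) (nat_lit 1292) (nat_lit 12882477557) (nat_lit 276) (nat_lit 5) (nat_lit 292) (nat_lit 5) (nat_lit 293) (nat_lit 5) (nat_lit 489) (nat_lit 485) (nat_lit 226)) (XT.lf (nat_lit 76) (nat_lit 9560862392) (nat_lit 0) (nat_lit 15115306888) (nat_lit 1292) (nat_lit 29380779243) (nat_lit 277) (nat_lit 5) (nat_lit 276) (nat_lit 5) (nat_lit 293) (nat_lit 5) (nat_lit 490) (nat_lit 485) (nat_lit 225))))))) (XT.nd (nat_lit 1170) (nat_lit 4864) (nat_lit 0) (XT.nd (nat_lit 546) (nat_lit 1672) (nat_lit 0) (XT.nd (nat_lit 234) (nat_lit 0) (nat_lit 76) (XT.nd (nat_lit 78) (nat_lit 0) (nat_lit 0) (XT.lf (nat_lit 0) (nat_lit 26508988985) (nat_lit 1216) (nat_lit 17522697589) (nat_lit 1292) (nat_lit 10852860512) (nat_lit 277) (nat_lit 5) (nat_lit 293) (nat_lit 5) (nat_lit 294) (nat_lit 5) (nat_lit 491) (nat_lit 485) (nat_lit 224)) (XT.nd (nat_lit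 78) (nat_lit 0) (nat_lit 76) (XT.lf (nat_lit 76) (nat_lit 10310872382) (nat_lit 0) (nat_lit 18333820808) (nat_lit 1292) (nat_lit 27084843618) (nat_lit 278) (nat_lit 5) (nat_lit 277) (nat_lit 5) (nat_lit 294) (nat_lit 5) (nat_lit 492) (nat_lit 485) (nat_lit 223)) (XT.lf (nat_lit 0) (nat_lit 31100515521) (nat_lit 1216) (nat_lit 17336459600) (nat_lit 1292) (nat_lit 8155219888) (nat_lit 278) (nat_lit 5) (nat_lit 294) (nat_lit 5) (nat_lit 295) (nat_lit 5) (nat_lit 493) (nat_lit 485) (nat_lit 222)))) (XT.nd (nat_lit 156) (nat_lit 0) (nat_lit 76) (XT.nd (nat_lit 78) (nat_lit 0) (nat_lit 76) (XT.lf (nat_lit 76) (nat_lit 11633120678) (nat_lit 0) (nat_lit 22289415968) (nat_lit 1292) (nat_lit 23549420776) (nat_lit 279) (nat_lit 5) (nat_lit 278) (nat_lit 5) (nat_lit 295) (nat_lit 5) (nat_lit 494) (nat_lit 485) (nat_lit 221)) (XT.lf (nat_lit 0) (nat_lit 37049840501) (nat_lit 1216) (nat_lit 16592645346) (nat_lit 1292) (nat_lit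 4729008384) (nat_lit 279) (nat_lit 5) (nat_lit 295) (nat_lit 5) (nat_lit 296) (nat_lit 5) (nat_lit 495) (nat_lit 485) (nat_lit 220))) (XT.nd (nat_lit 78) (nat_lit 0) (nat_lit 76) (XT.lf (nat_lit 76) (nat_lit 13574557460) (nat_lit 0) (nat_lit 27046800939) (nat_lit 1292) (nat_lit 18666147074) (nat_lit 280) (nat_lit 5) (nat_lit 279) (nat_lit 5) (nat_lit 296) (nat_lit 5) (nat_lit 496) (nat_lit 485) (nat_lit 219)) (XT.lf (nat_lit 0) (nat_lit 44471806938) (nat_lit 1216) (nat_lit 15244648103) (nat_lit 1292) (nat_lit 509388634) (nat_lit 280) (nat_lit 5) (nat_lit 296) (nat_lit 5) (nat_lit 297) (nat_lit 5) (nat_lit 497) (nat_lit 485) (nat_lit 218))))) (XT.nd (nat_lit 312) (nat_lit 684) (nat_lit 0) (XT.nd (nat_lit 156) (nat_lit 1216) (nat_lit 0) (XT.nd (nat_lit 78) (nat_lit 0) (nat_lit 0) (XT.lf (nat_lit 76) (nat_lit 16185164070) (nat_lit 0) (nat_lit 32675238572) (nat_lit 1292) (nat_lit 12319250539) (nat_lit 281) (nat_lit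 5) (nat_lit 280) (nat_lit 5) (nat_lit 297) (nat_lit 5) (nat_lit 498) (nat_lit 485) (nat_lit 217)) (XT.lf (nat_lit 76) (nat_lit 48869799137) (nat_lit 0) (nat_lit 4664076038) (nat_lit 1292) (nat_lit 8623605391) (nat_lit 281) (nat_lit 5) (nat_lit 280) (nat_lit 5) (nat_lit 297) (nat_lit 5) (nat_lit 499) (nat_lit 485) (nat_lit 216))) (XT.nd (nat_lit 78) (nat_lit 1292) (nat_lit 0) (XT.lf (nat_lit 76) (nat_lit 19518117206) (nat_lit 0) (nat_lit 39248859391) (nat_lit 1292) (nat_lit 4385083596) (nat_lit 282) (nat_lit 5) (nat_lit 281) (nat_lit 5) (nat_lit 298) (nat_lit 5) (nat_lit 500) (nat_lit 485) (nat_lit 215)) (XT.lf (nat_lit 0) (nat_lit 161967832) (nat_lit 1292) (nat_lit 10639884518) (nat_lit 1368) (nat_lit 53369200744) (nat_lit 264) (nat_lit 5) (nat_lit 281) (nat_lit 5) (nat_lit 282) (nat_lit 5) (nat_lit 501) (nat_lit 485) (nat_lit 214)))) (XT.nd (nat_lit 156) (nat_lit 760) (nat_lit 0) (XT.nd (nat_lit 78) (nat_lit 0)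 (nat_lit 0) (XT.lf (nat_lit 0) (nat_lit 5165566944) (nat_lit 1292) (nat_lit 41629266721) (nat_lit 76) (nat_lit 18412231604) (nat_lit 265) (nat_lit 5) (nat_lit 282) (nat_lit 5) (nat_lit 266) (nat_lit 5) (nat_lit 502) (nat_lit 485) (nat_lit 213)) (XT.lf (nat_lit 0) (nat_lit 10534072298) (nat_lit 1292) (nat_lit 7339412183) (nat_lit 76) (nat_lit 48394229523) (nat_lit 265) (nat_lit 5) (nat_lit 282) (nat_lit 5) (nat_lit 266) (nat_lit 5) (nat_lit 503) (nat_lit 485) (nat_lit 212))) (XT.nd (nat_lit 78) (nat_lit 0) (nat_lit 0) (XT.lf (nat_lit 0) (nat_lit 16454550770) (nat_lit 836) (nat_lit 38933828809) (nat_lit 76) (nat_lit 11960075219) (nat_lit 255) (nat_lit 5) (nat_lit 266) (nat_lit 5) (nat_lit 256) (nat_lit 5) (nat_lit 504) (nat_lit 485) (nat_lit 211)) (XT.lf (nat_lit 0) (nat_lit 22803832633) (nat_lit 836) (nat_lit 3245938353) (nat_lit 76) (nat_lit 42404311293) (nat_lit 255) (nat_lit 5) (nat_lit 266) (nat_lit 5) (nat_lit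 256) (nat_lit 5) (nat_lit 505) (nat_lit 485) (nat_lit 210)))))) (XT.nd (nat_lit 546) (nat_lit 2508) (nat_lit 0) (XT.nd (nat_lit 234) (nat_lit 1140) (nat_lit 0) (XT.nd (nat_lit 78) (nat_lit 608) (nat_lit 0) (XT.lf (nat_lit 0) (nat_lit 29714865051) (nat_lit 684) (nat_lit 35447388975) (nat_lit 76) (nat_lit 4419486525) (nat_lit 247) (nat_lit 5) (nat_lit 256) (nat_lit 5) (nat_lit 248) (nat_lit 5) (nat_lit 506) (nat_lit 485) (nat_lit 209)) (XT.nd (nat_lit 78) (nat_lit 0) (nat_lit 0) (XT.lf (nat_lit 0) (nat_lit 1735387298) (nat_lit 608) (nat_lit 35404950551) (nat_lit 684) (nat_lit 33593677566) (nat_lit 239) (nat_lit 5) (nat_lit 247) (nat_lit 5) (nat_lit 248) (nat_lit 5) (nat_lit 507) (nat_lit 485) (nat_lit 208)) (XT.lf (nat_lit 0) (nat_lit 40759712420) (nat_lit 608) (nat_lit 4386230449) (nat_lit 684) (nat_lit 26764194736) (nat_lit 239) (nat_lit 5) (nat_lit 247) (nat_lit 5) (nat_lit 248) (nat_lit 5) (nat_lit 508) (nat_lit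 485) (nat_lit 207)))) (XT.nd (nat_lit 156) (nat_lit 608) (nat_lit 0) (XT.nd (nat_lit 78) (nat_lit 0) (nat_lit 0) (XT.lf (nat_lit 0) (nat_lit 7718311313) (nat_lit 532) (nat_lit 46011986698) (nat_lit 608) (nat_lit 19381088110) (nat_lit 232) (nat_lit 5) (nat_lit 239) (nat_lit 5) (nat_lit 240) (nat_lit 5) (nat_lit 509) (nat_lit 485) (nat_lit 206)) (XT.lf (nat_lit 0) (nat_lit 48346804700) (nat_lit 532) (nat_lit 14582386500) (nat_lit 608) (nat_lit 11408770786) (nat_lit 232) (nat_lit 5) (nat_lit 239) (nat_lit 5) (nat_lit 240) (nat_lit 5) (nat_lit 510) (nat_lit 485) (nat_lit 205))) (XT.nd (nat_lit 78) (nat_lit 76) (nat_lit 0) (XT.lf (nat_lit 0) (nat_lit 14708253757) (nat_lit 532) (nat_lit 58007654409) (nat_lit 608) (nat_lit 2876071364) (nat_lit 225) (nat_lit 5) (nat_lit 232) (nat_lit 5) (nat_lit 233) (nat_lit 5) (nat_lit 511) (nat_lit 485) (nat_lit 204)) (XT.lf (nat_lit 0) (nat_lit 6206138986) (nat_lit 608) (nat_lit 19918688544)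 (nat_lit 76) (nat_lit 50744817918) (nat_lit 224) (nat_lit 5) (nat_lit 232) (nat_lit 5) (nat_lit 225) (nat_lit 5) (nat_lit 512) (nat_lit 485) (nat_lit 203))))) (XT.nd (nat_lit 312) (nat_lit 1444) (nat_lit 0) (XT.nd (nat_lit 156) (nat_lit 532) (nat_lit 0) (XT.nd (nat_lit 78) (nat_lit 0) (nat_lit 0) (XT.lf (nat_lit 0) (nat_lit 15787578208) (nat_lit 608) (nat_lit 55556230331) (nat_lit 76) (nat_lit 6832441567) (nat_lit 217) (nat_lit 5) (nat_lit 225) (nat_lit 5) (nat_lit 218) (nat_lit 5) (nat_lit 513) (nat_lit 485) (nat_lit 202)) (XT.lf (nat_lit 0) (nat_lit 26117746158) (nat_lit 608) (nat_lit 12934032587) (nat_lit 76) (nat_lit 40456435689) (nat_lit 217) (nat_lit 5) (nat_lit 225) (nat_lit 5) (nat_lit 218) (nat_lit 5) (nat_lit 514) (nat_lit 485) (nat_lit 201))) (XT.nd (nat_lit 78) (nat_lit 0) (nat_lit 0) (XT.lf (nat_lit 0) (nat_lit 31582573606) (nat_lit 532) (nat_lit 5478344048) (nat_lit 608) (nat_lit 43810127182) (nat_lit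 210) (nat_lit 5) (nat_lit 217) (nat_lit 5) (nat_lit 218) (nat_lit 5) (nat_lit 515) (nat_lit 485) (nat_lit 200)) (XT.lf (nat_lit 0) (nat_lit 48743550930) (nat_lit 608) (nat_lit 4852627042) (nat_lit 76) (nat_lit 28666247272) (nat_lit 210) (nat_lit 5) (nat_lit 218) (nat_lit 5) (nat_lit 211) (nat_lit 5) (nat_lit 516) (nat_lit 485) (nat_lit 199)))) (XT.nd (nat_lit 156) (nat_lit 532) (nat_lit 0) (XT.nd (nat_lit 78) (nat_lit 456) (nat_lit 0) (XT.lf (nat_lit 0) (nat_lit 41674735921) (nat_lit 456) (nat_lit 19556301526) (nat_lit 532) (nat_lit 22450878480) (nat_lit 204) (nat_lit 5) (nat_lit 210) (nat_lit 5) (nat_lit 211) (nat_lit 5) (nat_lit 517) (nat_lit 485) (nat_lit 198)) (XT.lf (nat_lit 0) (nat_lit 4492462554) (nat_lit 456) (nat_lit 69841936839) (nat_lit 532) (nat_lit 10802354501) (nat_lit 198) (nat_lit 5) (nat_lit 204) (nat_lit 5) (nat_lit 205) (nat_lit 5) (nat_lit 518) (nat_lit 485) (nat_lit 197))) (XT.nd (nat_lit 78)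 (nat_lit 456) (nat_lit 0) (XT.lf (nat_lit 0) (nat_lit 1793852713) (nat_lit 532) (nat_lit 33584182120) (nat_lit 76) (nat_lit 51238210705) (nat_lit 197) (nat_lit 5) (nat_lit 204) (nat_lit 5) (nat_lit 198) (nat_lit 5) (nat_lit 519) (nat_lit 485) (nat_lit 196)) (XT.lf (nat_lit 0) (nat_lit 14698933073) (nat_lit 532) (nat_lit 73061827108) (nat_lit 76) (nat_lit 371710102) (nat_lit 191) (nat_lit 5) (nat_lit 198) (nat_lit 5) (nat_lit 192) (nat_lit 5) (nat_lit 520) (nat_lit 485) (nat_lit 195))))))))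
noncomputable def xc243 : XT := (XT.nd (nat_lit 61152) (nat_lit 0) (nat_lit 0) (XT.nd (nat_lit 59982) (nat_lit 0) (nat_lit 7980) (XT.nd (nat_lit 546) (nat_lit 760) (nat_lit 0) (XT.nd (nat_lit 234) (nat_lit 1216) (nat_lit 0) (XT.nd (nat_lit 78) (nat_lit 456) (nat_lit 0) (XT.lf (nat_lit 0) (nat_lit 28683497559) (nat_lit 532) (nat_lit 24164629518) (nat_lit 76) (nat_lit 36825284822) (nat_lit 191) (nat_lit 5) (nat_lit 198) (nat_lit 5) (nat_lit 192) (nat_lit 5) (nat_lit 521) (nat_lit 485) (nat_lit 194)) (XT.nd (nat_lit 78) (nat_lit 0) (nat_lit 0) (XT.lf (nat_lit 0) (nat_lit 26720367944) (nat_lit 456) (nat_lit 16623658304) (nat_lit 532) (nat_lit 47908862773) (nat_lit 185) (nat_lit 5) (nat_lit 191) (nat_lit 5) (nat_lit 192) (nat_lit 5) (nat_lit 522) (nat_lit 485) (nat_lit 193)) (XT.lf (nat_lit 0) (nat_lit 58889244624) (nat_lit 532) (nat_lit 13446973905) (nat_lit 76) (nat_lit 20530185785) (nat_lit 185) (nat_lit 5) (nat_lit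 192) (nat_lit 5) (nat_lit 186) (nat_lit 5) (nat_lit 523) (nat_lit 485) (nat_lit 192)))) (XT.nd (nat_lit 156) (nat_lit 836) (nat_lit 0) (XT.nd (nat_lit 78) (nat_lit 0) (nat_lit 0) (XT.lf (nat_lit 0) (nat_lit 39782327914) (nat_lit 380) (nat_lit 35665087710) (nat_lit 456) (nat_lit 19064511634) (nat_lit 180) (nat_lit 5) (nat_lit 185) (nat_lit 5) (nat_lit 186) (nat_lit 5) (nat_lit 524) (nat_lit 485) (nat_lit 191)) (XT.lf (nat_lit 0) (nat_lit 92659309280) (nat_lit 456) (nat_lit 1340697479) (nat_lit 76) (nat_lit 2202099873) (nat_lit 180) (nat_lit 5) (nat_lit 186) (nat_lit 5) (nat_lit 181) (nat_lit 5) (nat_lit 525) (nat_lit 485) (nat_lit 190))) (XT.nd (nat_lit 78) (nat_lit 380) (nat_lit 0) (XT.lf (nat_lit 0) (nat_lit 13085638410) (nat_lit 456) (nat_lit 43688081495) (nat_lit 76) (nat_lit 41139165553) (nat_lit 174) (nat_lit 5) (nat_lit 180) (nat_lit 5) (nat_lit 175) (nat_lit 5) (nat_lit 526) (nat_lit 485) (nat_lit 189))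 (XT.lf (nat_lit 0) (nat_lit 12008784298) (nat_lit 380) (nat_lit 18261657946) (nat_lit 456) (nat_lit 69399631501) (nat_lit 169) (nat_lit 5) (nat_lit 174) (nat_lit 5) (nat_lit 175) (nat_lit 5) (nat_lit 527) (nat_lit 485) (nat_lit 188))))) (XT.nd (nat_lit 312) (nat_lit 0) (nat_lit 0) (XT.nd (nat_lit 156) (nat_lit 380) (nat_lit 0) (XT.nd (nat_lit 78) (nat_lit 380) (nat_lit 0) (XT.lf (nat_lit 0) (nat_lit 48621706090) (nat_lit 456) (nat_lit 31405273408) (nat_lit 76) (nat_lit 21433470767) (nat_lit 169) (nat_lit 5) (nat_lit 175) (nat_lit 5) (nat_lit 170) (nat_lit 5) (nat_lit 528) (nat_lit 485) (nat_lit 187)) (XT.lf (nat_lit 0) (nat_lit 26881671617) (nat_lit 380) (nat_lit 41080677568) (nat_lit 456) (nat_lit 35329023715) (nat_lit 164) (nat_lit 5) (nat_lit 169) (nat_lit 5) (nat_lit 170) (nat_lit 5) (nat_lit 529) (nat_lit 485) (nat_lit 186))) (XT.nd (nat_lit 78) (nat_lit 380) (nat_lit 0) (XT.lf (nat_lit 0) (nat_lit 87560505986)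 (nat_lit 380) (nat_lit 639473049) (nat_lit 456) (nat_lit 16967741214) (nat_lit 164) (nat_lit 5) (nat_lit 169) (nat_lit 5) (nat_lit 170) (nat_lit 5) (nat_lit 530) (nat_lit 485) (nat_lit 185)) (XT.lf (nat_lit 0) (nat_lit 2725675663) (nat_lit 380) (nat_lit 63691030196) (nat_lit 76) (nat_lit 40658514366) (nat_lit 159) (nat_lit 5) (nat_lit 164) (nat_lit 5) (nat_lit 160) (nat_lit 5) (nat_lit 531) (nat_lit 485) (nat_lit 184)))) (XT.nd (nat_lit 58968) (nat_lit 0) (nat_lit 8740) (XT.nd (nat_lit 58890) (nat_lit 0) (nat_lit 8740) (XT.lf (nat_lit 0) (nat_lit 22854397687) (nat_lit 380) (nat_lit 2644926956) (nat_lit 76) (nat_lit 83530014563) (nat_lit 159) (nat_lit 5) (nat_lit 164) (nat_lit 5) (nat_lit 160) (nat_lit 5) (nat_lit 532) (nat_lit 485) (nat_lit 183)) (XT.lf (nat_lit 0) (nat_lit 10243124306) (nat_lit 1292) (nat_lit 7794268551) (nat_lit 1292) (nat_lit 7794268551) (nat_lit 274) (nat_lit 3) (nat_lit 291) (nat_lit 3) (nat_lit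 291) (nat_lit 5) (nat_lit 486) (nat_lit 486) (nat_lit 228))) (XT.nd (nat_lit 78) (nat_lit 0) (nat_lit 76) (XT.lf (nat_lit 76) (nat_lit 9918134708) (nat_lit 0) (nat_lit 10995038156) (nat_lit 1292) (nat_lit 31521505231) (nat_lit 275) (nat_lit 5) (nat_lit 274) (nat_lit 3) (nat_lit 291) (nat_lit 5) (nat_lit 487) (nat_lit 486) (nat_lit 227)) (XT.lf (nat_lit 0) (nat_lit 21653551913) (nat_lit 1216) (nat_lit 16859608306) (nat_lit 1292) (nat_lit 14706994619) (nat_lit 275) (nat_lit 5) (nat_lit 291) (nat_lit 5) (nat_lit 292) (nat_lit 5) (nat_lit 488) (nat_lit 486) (nat_lit 226)))))) (XT.nd (nat_lit 546) (nat_lit 836) (nat_lit 0) (XT.nd (nat_lit 234) (nat_lit 0) (nat_lit 152) (XT.nd (nat_lit 78) (nat_lit 0) (nat_lit 76) (XT.lf (nat_lit 76) (nat_lit 9645883225) (nat_lit 0) (nat_lit 12970922187) (nat_lit 1292) (nat_lit 31406370791) (nat_lit 276) (nat_lit 5) (nat_lit 275) (nat_lit 5) (nat_lit 292) (nat_lit 5) (nat_lit 489) (nat_lit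 486) (nat_lit 225)) (XT.nd (nat_lit 78) (nat_lit 0) (nat_lit 0) (XT.lf (nat_lit 0) (nat_lit 23908204970) (nat_lit 1216) (nat_lit 17683472053) (nat_lit 1292) (nat_lit 13249633942) (nat_lit 276) (nat_lit 5) (nat_lit 292) (nat_lit 5) (nat_lit 293) (nat_lit 5) (nat_lit 490) (nat_lit 486) (nat_lit 224)) (XT.lf (nat_lit 76) (nat_lit 9874907706) (nat_lit 0) (nat_lit 15585918334) (nat_lit 1292) (nat_lit 30216489545) (nat_lit 277) (nat_lit 5) (nat_lit 276) (nat_lit 5) (nat_lit 293) (nat_lit 5) (nat_lit 491) (nat_lit 486) (nat_lit 223)))) (XT.nd (nat_lit 156) (nat_lit 0) (nat_lit 76) (XT.nd (nat_lit 78) (nat_lit 0) (nat_lit 0) (XT.lf (nat_lit 0) (nat_lit 27347177881) (nat_lit 1216) (nat_lit 18020489473) (nat_lit 1292) (nat_lit 11162118621) (nat_lit 277) (nat_lit 5) (nat_lit 293) (nat_lit 5) (nat_lit 294) (nat_lit 5) (nat_lit 492) (nat_lit 486) (nat_lit 222)) (XT.lf (nat_lit 76) (nat_lit 10647814175) (nat_lit 0) (nat_lit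 18898154421) (nat_lit 1292) (nat_lit 27854186622) (nat_lit 278) (nat_lit 5) (nat_lit 277) (nat_lit 5) (nat_lit 294) (nat_lit 5) (nat_lit 493) (nat_lit 486) (nat_lit 221))) (XT.nd (nat_lit 78) (nat_lit 0) (nat_lit 0) (XT.lf (nat_lit 0) (nat_lit 32074110567) (nat_lit 1216) (nat_lit 17828377700) (nat_lit 1292) (nat_lit 8386245831) (nat_lit 278) (nat_lit 5) (nat_lit 294) (nat_lit 5) (nat_lit 295) (nat_lit 5) (nat_lit 494) (nat_lit 486) (nat_lit 220)) (XT.lf (nat_lit 76) (nat_lit 12010013755) (nat_lit 0) (nat_lit 22969864829) (nat_lit 1292) (nat_lit 24215038485) (nat_lit 279) (nat_lit 5) (nat_lit 278) (nat_lit 5) (nat_lit 295) (nat_lit 5) (nat_lit 495) (nat_lit 486) (nat_lit 219))))) (XT.nd (nat_lit 312) (nat_lit 1140) (nat_lit 0) (XT.nd (nat_lit 156) (nat_lit 0) (nat_lit 76) (XT.nd (nat_lit 78) (nat_lit 0) (nat_lit 0) (XT.lf (nat_lit 0) (nat_lit 38199736426) (nat_lit 1216) (nat_lit 17062063892) (nat_lit 1292) (nat_lit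 4859677881) (nat_lit 279) (nat_lit 5) (nat_lit 295) (nat_lit 5) (nat_lit 296) (nat_lit 5) (nat_lit 496) (nat_lit 486) (nat_lit 218)) (XT.lf (nat_lit 76) (nat_lit 14009876951) (nat_lit 0) (nat_lit 27867674392) (nat_lit 1292) (nat_lit 19187444149) (nat_lit 280) (nat_lit 5) (nat_lit 279) (nat_lit 5) (nat_lit 296) (nat_lit 5) (nat_lit 497) (nat_lit 486) (nat_lit 217))) (XT.nd (nat_lit 78) (nat_lit 0) (nat_lit 0) (XT.lf (nat_lit 0) (nat_lit 45842331210) (nat_lit 1216) (nat_lit 15673532266) (nat_lit 1292) (nat_lit 515656077) (nat_lit 280) (nat_lit 5) (nat_lit 296) (nat_lit 5) (nat_lit 297) (nat_lit 5) (nat_lit 498) (nat_lit 486) (nat_lit 216)) (XT.lf (nat_lit 76) (nat_lit 16698895298) (nat_lit 0) (nat_lit 33662901012) (nat_lit 1292) (nat_lit 12652170931) (nat_lit 281) (nat_lit 5) (nat_lit 280) (nat_lit 5) (nat_lit 297) (nat_lit 5) (nat_lit 499) (nat_lit 486) (nat_lit 215)))) (XT.nd (nat_lit 156) (nat_lit 1216) (nat_lit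 0) (XT.nd (nat_lit 78) (nat_lit 0) (nat_lit 76) (XT.lf (nat_lit 76) (nat_lit 50363248748) (nat_lit 0) (nat_lit 4811187915) (nat_lit 1292) (nat_lit 8846724112) (nat_lit 281) (nat_lit 5) (nat_lit 280) (nat_lit 5) (nat_lit 297) (nat_lit 5) (nat_lit 500) (nat_lit 486) (nat_lit 214)) (XT.lf (nat_lit 76) (nat_lit 20131850570) (nat_lit 0) (nat_lit 40431878265) (nat_lit 1292) (nat_lit 4481873252) (nat_lit 282) (nat_lit 5) (nat_lit 281) (nat_lit 5) (nat_lit 298) (nat_lit 5) (nat_lit 501) (nat_lit 486) (nat_lit 213))) (XT.nd (nat_lit 78) (nat_lit 0) (nat_lit 76) (XT.lf (nat_lit 0) (nat_lit 199918618) (nat_lit 1292) (nat_lit 10931046493) (nat_lit 1368) (nat_lit 54964219638) (nat_lit 264) (nat_lit 5) (nat_lit 281) (nat_lit 5) (nat_lit 282) (nat_lit 5) (nat_lit 502) (nat_lit 486) (nat_lit 212)) (XT.lf (nat_lit 0) (nat_lit 5352884154) (nat_lit 1292) (nat_lit 42849361637) (nat_lit 76) (nat_lit 18960053954) (nat_lit 265) (nat_lit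 5) (nat_lit 282) (nat_lit 5) (nat_lit 266) (nat_lit 5) (nat_lit 503) (nat_lit 486) (nat_lit 211))))))) (XT.nd (nat_lit 1170) (nat_lit 3420) (nat_lit 0) (XT.nd (nat_lit 546) (nat_lit 2128) (nat_lit 0) (XT.nd (nat_lit 234) (nat_lit 1748) (nat_lit 0) (XT.nd (nat_lit 78) (nat_lit 760) (nat_lit 0) (XT.lf (nat_lit 0) (nat_lit 10881502429) (nat_lit 1292) (nat_lit 7531649805) (nat_lit 76) (nat_lit 49841644178) (nat_lit 265) (nat_lit 5) (nat_lit 282) (nat_lit 5) (nat_lit 266) (nat_lit 5) (nat_lit 504) (nat_lit 486) (nat_lit 210)) (XT.nd (nat_lit 78) (nat_lit 0) (nat_lit 0) (XT.lf (nat_lit 0) (nat_lit 16978916762) (nat_lit 836) (nat_lit 40073213861) (nat_lit 76) (nat_lit 12315849360) (nat_lit 255) (nat_lit 5) (nat_lit 266) (nat_lit 5) (nat_lit 256) (nat_lit 5) (nat_lit 505) (nat_lit 486) (nat_lit 209)) (XT.lf (nat_lit 0) (nat_lit 23517782048) (nat_lit 836) (nat_lit 3315520569) (nat_lit 76) (nat_lit 43673500714) (nat_lit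 255) (nat_lit 5) (nat_lit 266) (nat_lit 5) (nat_lit 256) (nat_lit 5) (nat_lit 506) (nat_lit 486) (nat_lit 208)))) (XT.nd (nat_lit 156) (nat_lit 532) (nat_lit 0) (XT.nd (nat_lit 78) (nat_lit 608) (nat_lit 0) (XT.lf (nat_lit 0) (nat_lit 30635524641) (nat_lit 684) (nat_lit 36482387714) (nat_lit 76) (nat_lit 4550397805) (nat_lit 247) (nat_lit 5) (nat_lit 256) (nat_lit 5) (nat_lit 248) (nat_lit 5) (nat_lit 507) (nat_lit 486) (nat_lit 207)) (XT.lf (nat_lit 0) (nat_lit 1815593191) (nat_lit 608) (nat_lit 36467588089) (nat_lit 684) (nat_lit 34571989580) (nat_lit 239) (nat_lit 5) (nat_lit 247) (nat_lit 5) (nat_lit 248) (nat_lit 5) (nat_lit 508) (nat_lit 486) (nat_lit 206))) (XT.nd (nat_lit 78) (nat_lit 532) (nat_lit 0) (XT.lf (nat_lit 0) (nat_lit 42009828331) (nat_lit 608) (nat_lit 4518292141) (nat_lit 684) (nat_lit 27538481440) (nat_lit 239) (nat_lit 5) (nat_lit 247) (nat_lit 5) (nat_lit 248) (nat_lit 5) (nat_lit 509) (nat_lit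 486) (nat_lit 205)) (XT.lf (nat_lit 0) (nat_lit 7977753410) (nat_lit 532) (nat_lit 47391706860) (nat_lit 608) (nat_lit 19934444163) (nat_lit 232) (nat_lit 5) (nat_lit 239) (nat_lit 5) (nat_lit 240) (nat_lit 5) (nat_lit 510) (nat_lit 486) (nat_lit 204))))) (XT.nd (nat_lit 312) (nat_lit 988) (nat_lit 0) (XT.nd (nat_lit 156) (nat_lit 608) (nat_lit 0) (XT.nd (nat_lit 78) (nat_lit 532) (nat_lit 0) (XT.lf (nat_lit 0) (nat_lit 49824289188) (nat_lit 532) (nat_lit 15019237281) (nat_lit 608) (nat_lit 11723775084) (nat_lit 232) (nat_lit 5) (nat_lit 239) (nat_lit 5) (nat_lit 240) (nat_lit 5) (nat_lit 511) (nat_lit 486) (nat_lit 203)) (XT.lf (nat_lit 0) (nat_lit 15177101770) (nat_lit 532) (nat_lit 59746243613) (nat_lit 608) (nat_lit 2935609386) (nat_lit 225) (nat_lit 5) (nat_lit 232) (nat_lit 5) (nat_lit 233) (nat_lit 5) (nat_lit 512) (nat_lit 486) (nat_lit 202))) (XT.nd (nat_lit 78) (nat_lit 532) (nat_lit 0) (XT.lf (nat_lit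 0) (nat_lit 6417781645) (nat_lit 608) (nat_lit 20488940981) (nat_lit 76) (nat_lit 52268243391) (nat_lit 224) (nat_lit 5) (nat_lit 232) (nat_lit 5) (nat_lit 225) (nat_lit 5) (nat_lit 513) (nat_lit 486) (nat_lit 201)) (XT.lf (nat_lit 0) (nat_lit 16286202300) (nat_lit 608) (nat_lit 57195142386) (nat_lit 76) (nat_lit 7039438127) (nat_lit 217) (nat_lit 5) (nat_lit 225) (nat_lit 5) (nat_lit 218) (nat_lit 5) (nat_lit 514) (nat_lit 486) (nat_lit 200)))) (XT.nd (nat_lit 156) (nat_lit 456) (nat_lit 0) (XT.nd (nat_lit 78) (nat_lit 532) (nat_lit 0) (XT.lf (nat_lit 0) (nat_lit 26925547229) (nat_lit 608) (nat_lit 13295087686) (nat_lit 76) (nat_lit 41672093142) (nat_lit 217) (nat_lit 5) (nat_lit 225) (nat_lit 5) (nat_lit 218) (nat_lit 5) (nat_lit 515) (nat_lit 486) (nat_lit 199)) (XT.lf (nat_lit 0) (nat_lit 32556752322) (nat_lit 532) (nat_lit 5639811365) (nat_lit 608) (nat_lit 45099893328) (nat_lit 210) (nat_lit 5) (nat_lit 217)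 (nat_lit 5) (nat_lit 218) (nat_lit 5) (nat_lit 516) (nat_lit 486) (nat_lit 198))) (XT.nd (nat_lit 78) (nat_lit 456) (nat_lit 0) (XT.lf (nat_lit 0) (nat_lit 50229009123) (nat_lit 608) (nat_lit 4971610746) (nat_lit 76) (nat_lit 29528979105) (nat_lit 210) (nat_lit 5) (nat_lit 218) (nat_lit 5) (nat_lit 211) (nat_lit 5) (nat_lit 517) (nat_lit 486) (nat_lit 197)) (XT.lf (nat_lit 0) (nat_lit 42951312370) (nat_lit 456) (nat_lit 20139386687) (nat_lit 532) (nat_lit 23100988086) (nat_lit 204) (nat_lit 5) (nat_lit 210) (nat_lit 5) (nat_lit 211) (nat_lit 5) (nat_lit 518) (nat_lit 486) (nat_lit 196)))))) (XT.nd (nat_lit 624) (nat_lit 1596) (nat_lit 0) (XT.nd (nat_lit 312) (nat_lit 836) (nat_lit 0) (XT.nd (nat_lit 156) (nat_lit 456) (nat_lit 0) (XT.nd (nat_lit 78) (nat_lit 76) (nat_lit 0) (XT.lf (nat_lit 0) (nat_lit 4653957853) (nat_lit 456) (nat_lit 71932832453) (nat_lit 532) (nat_lit 11103391217) (nat_lit 198) (nat_lit 5) (nat_lit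 204) (nat_lit 5) (nat_lit 205) (nat_lit 5) (nat_lit 519) (nat_lit 486) (nat_lit 195)) (XT.lf (nat_lit 0) (nat_lit 1869594939) (nat_lit 532) (nat_lit 34565324094) (nat_lit 76) (nat_lit 52779152093) (nat_lit 197) (nat_lit 5) (nat_lit 204) (nat_lit 5) (nat_lit 198) (nat_lit 5) (nat_lit 520) (nat_lit 486) (nat_lit 194))) (XT.nd (nat_lit 78) (nat_lit 0) (nat_lit 0) (XT.lf (nat_lit 0) (nat_lit 15161484278) (nat_lit 532) (nat_lit 75226951138) (nat_lit 76) (nat_lit 387357617) (nat_lit 191) (nat_lit 5) (nat_lit 198) (nat_lit 5) (nat_lit 192) (nat_lit 5) (nat_lit 521) (nat_lit 486) (nat_lit 193)) (XT.lf (nat_lit 0) (nat_lit 29564957061) (nat_lit 532) (nat_lit 24863616186) (nat_lit 76) (nat_lit 37934408621) (nat_lit 191) (nat_lit 5) (nat_lit 198) (nat_lit 5) (nat_lit 192) (nat_lit 5) (nat_lit 522) (nat_lit 486) (nat_lit 192)))) (XT.nd (nat_lit 156) (nat_lit 380) (nat_lit 0) (XT.nd (nat_lit 78) (nat_lit 0) (nat_lit 0) (XT.lf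 (nat_lit 0) (nat_lit 27547676766) (nat_lit 456) (nat_lit 17117261540) (nat_lit 532) (nat_lit 49324916006) (nat_lit 185) (nat_lit 5) (nat_lit 191) (nat_lit 5) (nat_lit 192) (nat_lit 5) (nat_lit 523) (nat_lit 486) (nat_lit 191)) (XT.lf (nat_lit 0) (nat_lit 60675961146) (nat_lit 532) (nat_lit 13824878194) (nat_lit 76) (nat_lit 21150952394) (nat_lit 185) (nat_lit 5) (nat_lit 192) (nat_lit 5) (nat_lit 186) (nat_lit 5) (nat_lit 524) (nat_lit 486) (nat_lit 190))) (XT.nd (nat_lit 78) (nat_lit 0) (nat_lit 0) (XT.lf (nat_lit 0) (nat_lit 41001052630) (nat_lit 380) (nat_lit 36729483745) (nat_lit 456) (nat_lit 19616154320) (nat_lit 180) (nat_lit 5) (nat_lit 185) (nat_lit 5) (nat_lit 186) (nat_lit 5) (nat_lit 525) (nat_lit 486) (nat_lit 189)) (XT.lf (nat_lit 0) (nat_lit 95458264962) (nat_lit 456) (nat_lit 1355873893) (nat_lit 76) (nat_lit 2273452353) (nat_lit 180) (nat_lit 5) (nat_lit 186) (nat_lit 5) (nat_lit 181) (nat_lit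 5) (nat_lit 526) (nat_lit 486) (nat_lit 188))))) (XT.nd (nat_lit 312) (nat_lit 380) (nat_lit 0) (XT.nd (nat_lit 156) (nat_lit 380) (nat_lit 0) (XT.nd (nat_lit 78) (nat_lit 380) (nat_lit 0) (XT.lf (nat_lit 0) (nat_lit 13497253679) (nat_lit 456) (nat_lit 44973542769) (nat_lit 76) (nat_lit 42378901050) (nat_lit 174) (nat_lit 5) (nat_lit 180) (nat_lit 5) (nat_lit 175) (nat_lit 5) (nat_lit 527) (nat_lit 486) (nat_lit 187)) (XT.lf (nat_lit 0) (nat_lit 12393982124) (nat_lit 380) (nat_lit 18803304447) (nat_lit 456) (nat_lit 71462324405) (nat_lit 169) (nat_lit 5) (nat_lit 174) (nat_lit 5) (nat_lit 175) (nat_lit 5) (nat_lit 528) (nat_lit 486) (nat_lit 186))) (XT.nd (nat_lit 78) (nat_lit 380) (nat_lit 0) (XT.lf (nat_lit 0) (nat_lit 50098600660) (nat_lit 456) (nat_lit 32322732921) (nat_lit 76) (nat_lit 22082379929) (nat_lit 169) (nat_lit 5) (nat_lit 175) (nat_lit 5) (nat_lit 170) (nat_lit 5) (nat_lit 529) (nat_lit 486) (nat_lit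 185)) (XT.lf (nat_lit 0) (nat_lit 27712578310) (nat_lit 380) (nat_lit 42306588469) (nat_lit 456) (nat_lit 36370406021) (nat_lit 164) (nat_lit 5) (nat_lit 169) (nat_lit 5) (nat_lit 170) (nat_lit 5) (nat_lit 530) (nat_lit 486) (nat_lit 184)))) (XT.nd (nat_lit 59046) (nat_lit 0) (nat_lit 8740) (XT.nd (nat_lit 78) (nat_lit 380) (nat_lit 0) (XT.lf (nat_lit 0) (nat_lit 90211065383) (nat_lit 380) (nat_lit 652337410) (nat_lit 456) (nat_lit 17458823542) (nat_lit 164) (nat_lit 5) (nat_lit 169) (nat_lit 5) (nat_lit 170) (nat_lit 5) (nat_lit 531) (nat_lit 486) (nat_lit 183)) (XT.lf (nat_lit 0) (nat_lit 2824825239) (nat_lit 380) (nat_lit 65577440943) (nat_lit 76) (nat_lit 41884686640) (nat_lit 159) (nat_lit 5) (nat_lit 164) (nat_lit 5) (nat_lit 160) (nat_lit 5) (nat_lit 532) (nat_lit 486) (nat_lit 182))) (XT.nd (nat_lit 78) (nat_lit 0) (nat_lit 0) (XT.lf (nat_lit 0) (nat_lit 10574475876) (nat_lit 1292) (nat_lit 8015704022)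 (nat_lit 1292) (nat_lit 8015704022) (nat_lit 274) (nat_lit 3) (nat_lit 291) (nat_lit 3) (nat_lit 291) (nat_lit 5) (nat_lit 487) (nat_lit 487) (nat_lit 226)) (XT.lf (nat_lit 76) (nat_lit 10240220930) (nat_lit 0) (nat_lit 11347297288) (nat_lit 1292) (nat_lit 32418780847) (nat_lit 275) (nat_lit 5) (nat_lit 274) (nat_lit 3) (nat_lit 291) (nat_lit 5) (nat_lit 488) (nat_lit 487) (nat_lit 225))))))))
noncomputable def xc244 : XT := (XT.nd (nat_lit 2340) (nat_lit 3496) (nat_lit 0) (XT.nd (nat_lit 1170) (nat_lit 4104) (nat_lit 0) (XT.nd (nat_lit 546) (nat_lit 836) (nat_lit 0) (XT.nd (nat_lit 234) (nat_lit 0) (nat_lit 76) (XT.nd (nat_lit 78) (nat_lit 0) (nat_lit 0) (XT.lf (nat_lit 0) (nat_lit 22348532032) (nat_lit 1216) (nat_lit 17339982037) (nat_lit 1292) (nat_lit 15126873655) (nat_lit 275) (nat_lit 5) (nat_lit 291) (nat_lit 5) (nat_lit 292) (nat_lit 5) (nat_lit 489) (nat_lit 487) (nat_lit 224)) (XT.nd (nat_lit 78) (nat_lit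 0) (nat_lit 76) (XT.lf (nat_lit 76) (nat_lit 9960425077) (nat_lit 0) (nat_lit 13379178403) (nat_lit 1292) (nat_lit 32302928947) (nat_lit 276) (nat_lit 5) (nat_lit 275) (nat_lit 5) (nat_lit 292) (nat_lit 5) (nat_lit 490) (nat_lit 487) (nat_lit 223)) (XT.lf (nat_lit 0) (nat_lit 24668276392) (nat_lit 1216) (nat_lit 18188065251) (nat_lit 1292) (nat_lit 13628913947) (nat_lit 276) (nat_lit 5) (nat_lit 292) (nat_lit 5) (nat_lit 293) (nat_lit 5) (nat_lit 491) (nat_lit 487) (nat_lit 222)))) (XT.nd (nat_lit 156) (nat_lit 0) (nat_lit 76) (XT.nd (nat_lit 78) (nat_lit 0) (nat_lit 76) (XT.lf (nat_lit 76) (nat_lit 10196811871) (nat_lit 0) (nat_lit 16069663515) (nat_lit 1292) (nat_lit 31079895273) (nat_lit 277) (nat_lit 5) (nat_lit 276) (nat_lit 5) (nat_lit 293) (nat_lit 5) (nat_lit 492) (nat_lit 487) (nat_lit 221)) (XT.lf (nat_lit 0) (nat_lit 28208048705) (nat_lit 1216) (nat_lit 18534816059) (nat_lit 1292) (nat_lit 11481591751)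 (nat_lit 277) (nat_lit 5) (nat_lit 293) (nat_lit 5) (nat_lit 294) (nat_lit 5) (nat_lit 493) (nat_lit 487) (nat_lit 220))) (XT.nd (nat_lit 78) (nat_lit 0) (nat_lit 76) (XT.lf (nat_lit 76) (nat_lit 10993278972) (nat_lit 0) (nat_lit 19478596075) (nat_lit 1292) (nat_lit 28649089905) (nat_lit 278) (nat_lit 5) (nat_lit 277) (nat_lit 5) (nat_lit 294) (nat_lit 5) (nat_lit 494) (nat_lit 487) (nat_lit 219)) (XT.lf (nat_lit 0) (nat_lit 33074584030) (nat_lit 1216) (nat_lit 18336670742) (nat_lit 1292) (nat_lit 8624985007) (nat_lit 278) (nat_lit 5) (nat_lit 294) (nat_lit 5) (nat_lit 295) (nat_lit 5) (nat_lit 495) (nat_lit 487) (nat_lit 218))))) (XT.nd (nat_lit 312) (nat_lit 1064) (nat_lit 0) (XT.nd (nat_lit 156) (nat_lit 0) (nat_lit 76) (XT.nd (nat_lit 78) (nat_lit 0) (nat_lit 76) (XT.lf (nat_lit 76) (nat_lit 12396612080) (nat_lit 0) (nat_lit 23670051716) (nat_lit 1292) (nat_lit 24902970539) (nat_lit 279) (nat_lit 5) (nat_lit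 278) (nat_lit 5) (nat_lit 295) (nat_lit 5) (nat_lit 496) (nat_lit 487) (nat_lit 217)) (XT.lf (nat_lit 0) (nat_lit 39381924871) (nat_lit 1216) (nat_lit 17547193021) (nat_lit 1292) (nat_lit 4994910432) (nat_lit 279) (nat_lit 5) (nat_lit 295) (nat_lit 5) (nat_lit 296) (nat_lit 5) (nat_lit 497) (nat_lit 487) (nat_lit 216))) (XT.nd (nat_lit 78) (nat_lit 0) (nat_lit 76) (XT.lf (nat_lit 76) (nat_lit 14456643961) (nat_lit 0) (nat_lit 28712630465) (nat_lit 1292) (nat_lit 19726600948) (nat_lit 280) (nat_lit 5) (nat_lit 279) (nat_lit 5) (nat_lit 296) (nat_lit 5) (nat_lit 498) (nat_lit 487) (nat_lit 215)) (XT.lf (nat_lit 0) (nat_lit 47251883420) (nat_lit 1216) (nat_lit 16116916404) (nat_lit 1292) (nat_lit 522628997) (nat_lit 280) (nat_lit 5) (nat_lit 296) (nat_lit 5) (nat_lit 297) (nat_lit 5) (nat_lit 499) (nat_lit 487) (nat_lit 214)))) (XT.nd (nat_lit 156) (nat_lit 1216) (nat_lit 0) (XT.nd (nat_lit 78) (nat_lit 0) (nat_lit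 0) (XT.lf (nat_lit 76) (nat_lit 17226421028) (nat_lit 0) (nat_lit 34679768232) (nat_lit 1292) (nat_lit 12997183204) (nat_lit 281) (nat_lit 5) (nat_lit 280) (nat_lit 5) (nat_lit 297) (nat_lit 5) (nat_lit 500) (nat_lit 487) (nat_lit 213)) (XT.lf (nat_lit 76) (nat_lit 51899931522) (nat_lit 0) (nat_lit 4962300436) (nat_lit 1292) (nat_lit 9078579374) (nat_lit 281) (nat_lit 5) (nat_lit 280) (nat_lit 5) (nat_lit 297) (nat_lit 5) (nat_lit 501) (nat_lit 487) (nat_lit 212))) (XT.nd (nat_lit 78) (nat_lit 1292) (nat_lit 0) (XT.lf (nat_lit 76) (nat_lit 20762377724) (nat_lit 0) (nat_lit 41650068934) (nat_lit 1292) (nat_lit 4583562127) (nat_lit 282) (nat_lit 5) (nat_lit 281) (nat_lit 5) (nat_lit 298) (nat_lit 5) (nat_lit 502) (nat_lit 487) (nat_lit 211)) (XT.lf (nat_lit 0) (nat_lit 237108325) (nat_lit 1292) (nat_lit 11232552625) (nat_lit 1368) (nat_lit 56607436804) (nat_lit 264) (nat_lit 5) (nat_lit 281) (nat_lit 5) (nat_lit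 282) (nat_lit 5) (nat_lit 503) (nat_lit 487) (nat_lit 210)))))) (XT.nd (nat_lit 546) (nat_lit 2204) (nat_lit 0) (XT.nd (nat_lit 234) (nat_lit 1216) (nat_lit 0) (XT.nd (nat_lit 78) (nat_lit 760) (nat_lit 0) (XT.lf (nat_lit 0) (nat_lit 5543963847) (nat_lit 1292) (nat_lit 44107711667) (nat_lit 76) (nat_lit 19524571854) (nat_lit 265) (nat_lit 5) (nat_lit 282) (nat_lit 5) (nat_lit 266) (nat_lit 5) (nat_lit 504) (nat_lit 487) (nat_lit 209)) (XT.nd (nat_lit 78) (nat_lit 760) (nat_lit 0) (XT.lf (nat_lit 0) (nat_lit 11237552520) (nat_lit 1292) (nat_lit 7731258698) (nat_lit 76) (nat_lit 51332734552) (nat_lit 265) (nat_lit 5) (nat_lit 282) (nat_lit 5) (nat_lit 266) (nat_lit 5) (nat_lit 505) (nat_lit 487) (nat_lit 208)) (XT.lf (nat_lit 0) (nat_lit 17517249736) (nat_lit 836) (nat_lit 41248423932) (nat_lit 76) (nat_lit 12682470552) (nat_lit 255) (nat_lit 5) (nat_lit 266) (nat_lit 5) (nat_lit 256) (nat_lit 5) (nat_lit 506) (nat_lit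 487) (nat_lit 207)))) (XT.nd (nat_lit 156) (nat_lit 608) (nat_lit 0) (XT.nd (nat_lit 78) (nat_lit 608) (nat_lit 0) (XT.lf (nat_lit 0) (nat_lit 24251437327) (nat_lit 836) (nat_lit 3388785851) (nat_lit 76) (nat_lit 44980934581) (nat_lit 255) (nat_lit 5) (nat_lit 266) (nat_lit 5) (nat_lit 256) (nat_lit 5) (nat_lit 507) (nat_lit 487) (nat_lit 206)) (XT.lf (nat_lit 0) (nat_lit 31582127037) (nat_lit 684) (nat_lit 37550068008) (nat_lit 76) (nat_lit 4685332479) (nat_lit 247) (nat_lit 5) (nat_lit 256) (nat_lit 5) (nat_lit 248) (nat_lit 5) (nat_lit 508) (nat_lit 487) (nat_lit 205))) (XT.nd (nat_lit 78) (nat_lit 0) (nat_lit 0) (XT.lf (nat_lit 0) (nat_lit 1896589665) (nat_lit 608) (nat_lit 37562076682) (nat_lit 684) (nat_lit 35581344279) (nat_lit 239) (nat_lit 5) (nat_lit 247) (nat_lit 5) (nat_lit 248) (nat_lit 5) (nat_lit 509) (nat_lit 487) (nat_lit 204)) (XT.lf (nat_lit 0) (nat_lit 43295879178) (nat_lit 608) (nat_lit 4654288430)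 (nat_lit 684) (nat_lit 28337640749) (nat_lit 239) (nat_lit 5) (nat_lit 247) (nat_lit 5) (nat_lit 248) (nat_lit 5) (nat_lit 510) (nat_lit 487) (nat_lit 203))))) (XT.nd (nat_lit 312) (nat_lit 1064) (nat_lit 0) (XT.nd (nat_lit 156) (nat_lit 608) (nat_lit 0) (XT.nd (nat_lit 78) (nat_lit 0) (nat_lit 0) (XT.lf (nat_lit 0) (nat_lit 8243377612) (nat_lit 532) (nat_lit 48812855334) (nat_lit 608) (nat_lit 20506012609) (nat_lit 232) (nat_lit 5) (nat_lit 239) (nat_lit 5) (nat_lit 240) (nat_lit 5) (nat_lit 511) (nat_lit 487) (nat_lit 202)) (XT.lf (nat_lit 0) (nat_lit 51344543688) (nat_lit 532) (nat_lit 15469229223) (nat_lit 608) (nat_lit 12049794279) (nat_lit 232) (nat_lit 5) (nat_lit 239) (nat_lit 5) (nat_lit 240) (nat_lit 5) (nat_lit 512) (nat_lit 487) (nat_lit 201))) (XT.nd (nat_lit 78) (nat_lit 76) (nat_lit 0) (XT.lf (nat_lit 0) (nat_lit 15658430848) (nat_lit 532) (nat_lit 61537084660) (nat_lit 608) (nat_lit 2998468771)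 (nat_lit 225) (nat_lit 5) (nat_lit 232) (nat_lit 5) (nat_lit 233) (nat_lit 5) (nat_lit 513) (nat_lit 487) (nat_lit 200)) (XT.lf (nat_lit 0) (nat_lit 6634312163) (nat_lit 608) (nat_lit 21077868595) (nat_lit 76) (nat_lit 53837309577) (nat_lit 224) (nat_lit 5) (nat_lit 232) (nat_lit 5) (nat_lit 225) (nat_lit 5) (nat_lit 514) (nat_lit 487) (nat_lit 199)))) (XT.nd (nat_lit 156) (nat_lit 532) (nat_lit 0) (XT.nd (nat_lit 78) (nat_lit 0) (nat_lit 0) (XT.lf (nat_lit 0) (nat_lit 16798350200) (nat_lit 608) (nat_lit 58884816193) (nat_lit 76) (nat_lit 7252528438) (nat_lit 217) (nat_lit 5) (nat_lit 225) (nat_lit 5) (nat_lit 218) (nat_lit 5) (nat_lit 515) (nat_lit 487) (nat_lit 198)) (XT.lf (nat_lit 0) (nat_lit 27756189210) (nat_lit 608) (nat_lit 13668522390) (nat_lit 76) (nat_lit 42924107555) (nat_lit 217) (nat_lit 5) (nat_lit 225) (nat_lit 5) (nat_lit 218) (nat_lit 5) (nat_lit 516) (nat_lit 487) (nat_lit 197))) (XT.nd (nat_lit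 78) (nat_lit 0) (nat_lit 0) (XT.lf (nat_lit 0) (nat_lit 33558623623) (nat_lit 532) (nat_lit 5806288197) (nat_lit 608) (nat_lit 46429761022) (nat_lit 210) (nat_lit 5) (nat_lit 217) (nat_lit 5) (nat_lit 218) (nat_lit 5) (nat_lit 517) (nat_lit 487) (nat_lit 196)) (XT.lf (nat_lit 0) (nat_lit 51757702062) (nat_lit 608) (nat_lit 5095690628) (nat_lit 76) (nat_lit 30417435352) (nat_lit 210) (nat_lit 5) (nat_lit 218) (nat_lit 5) (nat_lit 211) (nat_lit 5) (nat_lit 518) (nat_lit 487) (nat_lit 195))))))) (XT.nd (nat_lit 60138) (nat_lit 0) (nat_lit 8360) (XT.nd (nat_lit 546) (nat_lit 1596) (nat_lit 0) (XT.nd (nat_lit 234) (nat_lit 912) (nat_lit 0) (XT.nd (nat_lit 78) (nat_lit 532) (nat_lit 0) (XT.lf (nat_lit 0) (nat_lit 44264674412) (nat_lit 456) (nat_lit 20740171281) (nat_lit 532) (nat_lit 23771945197) (nat_lit 204) (nat_lit 5) (nat_lit 210) (nat_lit 5) (nat_lit 211) (nat_lit 5) (nat_lit 519) (nat_lit 487) (nat_lit 194)) (XT.nd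 (nat_lit 78) (nat_lit 76) (nat_lit 0) (XT.lf (nat_lit 0) (nat_lit 4818764091) (nat_lit 456) (nat_lit 74086705360) (nat_lit 532) (nat_lit 11414781276) (nat_lit 198) (nat_lit 5) (nat_lit 204) (nat_lit 5) (nat_lit 205) (nat_lit 5) (nat_lit 520) (nat_lit 487) (nat_lit 193)) (XT.lf (nat_lit 0) (nat_lit 1946350753) (nat_lit 532) (nat_lit 35577414848) (nat_lit 76) (nat_lit 54366103870) (nat_lit 197) (nat_lit 5) (nat_lit 204) (nat_lit 5) (nat_lit 198) (nat_lit 5) (nat_lit 521) (nat_lit 487) (nat_lit 192)))) (XT.nd (nat_lit 156) (nat_lit 456) (nat_lit 0) (XT.nd (nat_lit 78) (nat_lit 0) (nat_lit 0) (XT.lf (nat_lit 0) (nat_lit 15636673054) (nat_lit 532) (nat_lit 77458563345) (nat_lit 76) (nat_lit 403216456) (nat_lit 191) (nat_lit 5) (nat_lit 198) (nat_lit 5) (nat_lit 192) (nat_lit 5) (nat_lit 522) (nat_lit 487) (nat_lit 191)) (XT.lf (nat_lit 0) (nat_lit 30471657470) (nat_lit 532) (nat_lit 25585062218) (nat_lit 76) (nat_lit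 39076555550) (nat_lit 191) (nat_lit 5) (nat_lit 198) (nat_lit 5) (nat_lit 192) (nat_lit 5) (nat_lit 523) (nat_lit 487) (nat_lit 190))) (XT.nd (nat_lit 78) (nat_lit 0) (nat_lit 0) (XT.lf (nat_lit 0) (nat_lit 28398329694) (nat_lit 456) (nat_lit 17625966009) (nat_lit 532) (nat_lit 50784668529) (nat_lit 185) (nat_lit 5) (nat_lit 191) (nat_lit 5) (nat_lit 192) (nat_lit 5) (nat_lit 524) (nat_lit 487) (nat_lit 189)) (XT.lf (nat_lit 0) (nat_lit 62515128831) (nat_lit 532) (nat_lit 14215583700) (nat_lit 76) (nat_lit 21790062957) (nat_lit 185) (nat_lit 5) (nat_lit 192) (nat_lit 5) (nat_lit 186) (nat_lit 5) (nat_lit 525) (nat_lit 487) (nat_lit 188))))) (XT.nd (nat_lit 312) (nat_lit 380) (nat_lit 0) (XT.nd (nat_lit 156) (nat_lit 836) (nat_lit 0) (XT.nd (nat_lit 78) (nat_lit 0) (nat_lit 0) (XT.lf (nat_lit 0) (nat_lit 42254889355) (nat_lit 380) (nat_lit 37826130631) (nat_lit 456) (nat_lit 20185511169) (nat_lit 180) (nat_lit 5)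 (nat_lit 185) (nat_lit 5) (nat_lit 186) (nat_lit 5) (nat_lit 526) (nat_lit 487) (nat_lit 187)) (XT.lf (nat_lit 0) (nat_lit 98340088510) (nat_lit 456) (nat_lit 1372943257) (nat_lit 76) (nat_lit 2346641769) (nat_lit 180) (nat_lit 5) (nat_lit 186) (nat_lit 5) (nat_lit 181) (nat_lit 5) (nat_lit 527) (nat_lit 487) (nat_lit 186))) (XT.nd (nat_lit 78) (nat_lit 380) (nat_lit 0) (XT.lf (nat_lit 0) (nat_lit 13920124082) (nat_lit 456) (nat_lit 46299013382) (nat_lit 76) (nat_lit 43655509414) (nat_lit 174) (nat_lit 5) (nat_lit 180) (nat_lit 5) (nat_lit 175) (nat_lit 5) (nat_lit 528) (nat_lit 487) (nat_lit 185)) (XT.lf (nat_lit 0) (nat_lit 12789304555) (nat_lit 380) (nat_lit 19361556434) (nat_lit 456) (nat_lit 73588005768) (nat_lit 169) (nat_lit 5) (nat_lit 174) (nat_lit 5) (nat_lit 175) (nat_lit 5) (nat_lit 529) (nat_lit 487) (nat_lit 184)))) (XT.nd (nat_lit 156) (nat_lit 0) (nat_lit 0) (XT.nd (nat_lit 78) (nat_lit 380) (nat_lit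 0) (XT.lf (nat_lit 0) (nat_lit 51618754823) (nat_lit 456) (nat_lit 33269134027) (nat_lit 76) (nat_lit 22750417392) (nat_lit 169) (nat_lit 5) (nat_lit 175) (nat_lit 5) (nat_lit 170) (nat_lit 5) (nat_lit 530) (nat_lit 487) (nat_lit 183)) (XT.lf (nat_lit 0) (nat_lit 28567008298) (nat_lit 380) (nat_lit 43569650364) (nat_lit 456) (nat_lit 37444091106) (nat_lit 164) (nat_lit 5) (nat_lit 169) (nat_lit 5) (nat_lit 170) (nat_lit 5) (nat_lit 531) (nat_lit 487) (nat_lit 182))) (XT.nd (nat_lit 59046) (nat_lit 0) (nat_lit 8360) (XT.lf (nat_lit 0) (nat_lit 92939778548) (nat_lit 380) (nat_lit 665950485) (nat_lit 456) (nat_lit 17965668738) (nat_lit 164) (nat_lit 5) (nat_lit 169) (nat_lit 5) (nat_lit 170) (nat_lit 5) (nat_lit 532) (nat_lit 487) (nat_lit 181)) (XT.lf (nat_lit 0) (nat_lit 10914386974) (nat_lit 1292) (nat_lit 8244493941) (nat_lit 1292) (nat_lit 8244493941) (nat_lit 274) (nat_lit 3) (nat_lit 291) (nat_lit 3) (nat_lit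 291) (nat_lit 5) (nat_lit 488) (nat_lit 488) (nat_lit 224)))))) (XT.nd (nat_lit 546) (nat_lit 0) (nat_lit 304) (XT.nd (nat_lit 234) (nat_lit 0) (nat_lit 152) (XT.nd (nat_lit 78) (nat_lit 0) (nat_lit 76) (XT.lf (nat_lit 76) (nat_lit 10570560917) (nat_lit 0) (nat_lit 11708837884) (nat_lit 1292) (nat_lit 33345751341) (nat_lit 275) (nat_lit 5) (nat_lit 274) (nat_lit 3) (nat_lit 291) (nat_lit 5) (nat_lit 489) (nat_lit 488) (nat_lit 223)) (XT.nd (nat_lit 78) (nat_lit 0) (nat_lit 0) (XT.lf (nat_lit 0) (nat_lit 23061756927) (nat_lit 1216) (nat_lit 17836225877) (nat_lit 1292) (nat_lit 15560573537) (nat_lit 275) (nat_lit 5) (nat_lit 291) (nat_lit 5) (nat_lit 292) (nat_lit 5) (nat_lit 490) (nat_lit 488) (nat_lit 222)) (XT.lf (nat_lit 76) (nat_lit 10282958591) (nat_lit 0) (nat_lit 13798584249) (nat_lit 1292) (nat_lit 33229003367) (nat_lit 276) (nat_lit 5) (nat_lit 275) (nat_lit 5) (nat_lit 292) (nat_lit 5) (nat_lit 491) (nat_lit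 488) (nat_lit 221)))) (XT.nd (nat_lit 156) (nat_lit 0) (nat_lit 76) (XT.nd (nat_lit 78) (nat_lit 0) (nat_lit 0) (XT.lf (nat_lit 0) (nat_lit 25448691611) (nat_lit 1216) (nat_lit 18709283640) (nat_lit 1292) (nat_lit 14020617623) (nat_lit 276) (nat_lit 5) (nat_lit 292) (nat_lit 5) (nat_lit 293) (nat_lit 5) (nat_lit 492) (nat_lit 488) (nat_lit 220)) (XT.lf (nat_lit 76) (nat_lit 10526900349) (nat_lit 0) (nat_lit 16566992962) (nat_lit 1292) (nat_lit 31971676655) (nat_lit 277) (nat_lit 5) (nat_lit 276) (nat_lit 5) (nat_lit 293) (nat_lit 5) (nat_lit 493) (nat_lit 488) (nat_lit 219))) (XT.nd (nat_lit 78) (nat_lit 0) (nat_lit 0) (XT.lf (nat_lit 0) (nat_lit 29092423343) (nat_lit 1216) (nat_lit 19066081487) (nat_lit 1292) (nat_lit 11811532548) (nat_lit 277) (nat_lit 5) (nat_lit 293) (nat_lit 5) (nat_lit 294) (nat_lit 5) (nat_lit 494) (nat_lit 488) (nat_lit 218)) (XT.lf (nat_lit 76) (nat_lit 11347613463) (nat_lit 0) (nat_lit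 20075676193) (nat_lit 1292) (nat_lit 29470177914) (nat_lit 278) (nat_lit 5) (nat_lit 277) (nat_lit 5) (nat_lit 294) (nat_lit 5) (nat_lit 495) (nat_lit 488) (nat_lit 217))))) (XT.nd (nat_lit 312) (nat_lit 0) (nat_lit 152) (XT.nd (nat_lit 156) (nat_lit 0) (nat_lit 76) (XT.nd (nat_lit 78) (nat_lit 0) (nat_lit 0) (XT.lf (nat_lit 0) (nat_lit 34102875982) (nat_lit 1216) (nat_lit 18861737131) (nat_lit 1292) (nat_lit 8871623897) (nat_lit 278) (nat_lit 5) (nat_lit 294) (nat_lit 5) (nat_lit 295) (nat_lit 5) (nat_lit 496) (nat_lit 488) (nat_lit 216)) (XT.lf (nat_lit 76) (nat_lit 12793298748) (nat_lit 0) (nat_lit 24390607545) (nat_lit 1292) (nat_lit 25613751708) (nat_lit 279) (nat_lit 5) (nat_lit 278) (nat_lit 5) (nat_lit 295) (nat_lit 5) (nat_lit 497) (nat_lit 488) (nat_lit 215))) (XT.nd (nat_lit 78) (nat_lit 0) (nat_lit 0) (XT.lf (nat_lit 0) (nat_lit 40597501151) (nat_lit 1216) (nat_lit 18048410596) (nat_lit 1292) (nat_lit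 5134806020) (nat_lit 279) (nat_lit 5) (nat_lit 295) (nat_lit 5) (nat_lit 296) (nat_lit 5) (nat_lit 498) (nat_lit 488) (nat_lit 214)) (XT.lf (nat_lit 76) (nat_lit 14915294454) (nat_lit 0) (nat_lit 29582422840) (nat_lit 1292) (nat_lit 20284025779) (nat_lit 280) (nat_lit 5) (nat_lit 279) (nat_lit 5) (nat_lit 296) (nat_lit 5) (nat_lit 499) (nat_lit 488) (nat_lit 213)))) (XT.nd (nat_lit 156) (nat_lit 0) (nat_lit 0) (XT.nd (nat_lit 78) (nat_lit 0) (nat_lit 0) (XT.lf (nat_lit 0) (nat_lit 48701754253) (nat_lit 1216) (nat_lit 16575141749) (nat_lit 1292) (nat_lit 530298853) (nat_lit 280) (nat_lit 5) (nat_lit 296) (nat_lit 5) (nat_lit 297) (nat_lit 5) (nat_lit 500) (nat_lit 488) (nat_lit 212)) (XT.lf (nat_lit 76) (nat_lit 17768247942) (nat_lit 0) (nat_lit 35726740777) (nat_lit 1292) (nat_lit 13354529320) (nat_lit 281) (nat_lit 5) (nat_lit 280) (nat_lit 5) (nat_lit 297) (nat_lit 5) (nat_lit 501) (nat_lit 488) (nat_lit 211)))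 (XT.nd (nat_lit 78) (nat_lit 0) (nat_lit 76) (XT.lf (nat_lit 76) (nat_lit 53481234597) (nat_lit 0) (nat_lit 5117557311) (nat_lit 1292) (nat_lit 9319315998) (nat_lit 281) (nat_lit 5) (nat_lit 280) (nat_lit 5) (nat_lit 297) (nat_lit 5) (nat_lit 502) (nat_lit 488) (nat_lit 210)) (XT.lf (nat_lit 76) (nat_lit 21410295371) (nat_lit 0) (nat_lit 42904504853) (nat_lit 1292) (nat_lit 4690182648) (nat_lit 282) (nat_lit 5) (nat_lit 281) (nat_lit 5) (nat_lit 298) (nat_lit 5) (nat_lit 503) (nat_lit 488) (nat_lit 209))))))))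
noncomputable def xc245 : XT := (XT.nd (nat_lit 61464) (nat_lit 0) (nat_lit 2660) (XT.nd (nat_lit 1170) (nat_lit 3116) (nat_lit 0) (XT.nd (nat_lit 546) (nat_lit 2204) (nat_lit 0) (XT.nd (nat_lit 234) (nat_lit 1900) (nat_lit 0) (XT.nd (nat_lit 78) (nat_lit 0) (nat_lit 76) (XT.lf (nat_lit 0) (nat_lit 273623167) (nat_lit 1292) (nat_lit 11544620859) (nat_lit 1368) (nat_lit 58300278229) (nat_lit 264) (nat_lit 5) (nat_lit 281) (nat_lit 5) (nat_lit 282) (nat_lit 5) (nat_lit 504) (nat_lit 488) (nat_lit 208)) (XT.nd (nat_lit 78) (nat_lit 0) (nat_lit 0) (XT.lf (nat_lit 0) (nat_lit 5739025497) (nat_lit 1292) (nat_lit 45405369618) (nat_lit 76) (nat_lit 20106271193) (nat_lit 265) (nat_lit 5) (nat_lit 282) (nat_lit 5) (nat_lit 266) (nat_lit 5) (nat_lit 505) (nat_lit 488) (nat_lit 207)) (XT.lf (nat_lit 0) (nat_lit 11602584664) (nat_lit 1292) (nat_lit 7938367916) (nat_lit 76) (nat_lit 52868796379) (nat_lit 265) (nat_lit 5) (nat_lit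 282) (nat_lit 5) (nat_lit 266) (nat_lit 5) (nat_lit 506) (nat_lit 488) (nat_lit 206)))) (XT.nd (nat_lit 156) (nat_lit 1216) (nat_lit 0) (XT.nd (nat_lit 78) (nat_lit 0) (nat_lit 0) (XT.lf (nat_lit 0) (nat_lit 18070069964) (nat_lit 836) (nat_lit 42460439432) (nat_lit 76) (nat_lit 13060254227) (nat_lit 255) (nat_lit 5) (nat_lit 266) (nat_lit 5) (nat_lit 256) (nat_lit 5) (nat_lit 507) (nat_lit 488) (nat_lit 205)) (XT.lf (nat_lit 0) (nat_lit 25005487956) (nat_lit 836) (nat_lit 3465753098) (nat_lit 76) (nat_lit 46327750539) (nat_lit 255) (nat_lit 5) (nat_lit 266) (nat_lit 5) (nat_lit 256) (nat_lit 5) (nat_lit 508) (nat_lit 488) (nat_lit 204))) (XT.nd (nat_lit 78) (nat_lit 608) (nat_lit 0) (XT.lf (nat_lit 0) (nat_lit 32555546787) (nat_lit 684) (nat_lit 38651316643) (nat_lit 76) (nat_lit 4824405734) (nat_lit 247) (nat_lit 5) (nat_lit 256) (nat_lit 5) (nat_lit 248) (nat_lit 5) (nat_lit 509) (nat_lit 488) (nat_lit 203))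 (XT.lf (nat_lit 0) (nat_lit 1978493177) (nat_lit 608) (nat_lit 38689373473) (nat_lit 684) (nat_lit 36622575739) (nat_lit 239) (nat_lit 5) (nat_lit 247) (nat_lit 5) (nat_lit 248) (nat_lit 5) (nat_lit 510) (nat_lit 488) (nat_lit 202))))) (XT.nd (nat_lit 312) (nat_lit 1140) (nat_lit 0) (XT.nd (nat_lit 156) (nat_lit 532) (nat_lit 0) (XT.nd (nat_lit 78) (nat_lit 532) (nat_lit 0) (XT.lf (nat_lit 0) (nat_lit 44619033051) (nat_lit 608) (nat_lit 4794338918) (nat_lit 684) (nat_lit 29162324468) (nat_lit 239) (nat_lit 5) (nat_lit 247) (nat_lit 5) (nat_lit 248) (nat_lit 5) (nat_lit 511) (nat_lit 488) (nat_lit 201)) (XT.lf (nat_lit 0) (nat_lit 8515461294) (nat_lit 532) (nat_lit 50276672861) (nat_lit 608) (nat_lit 21096247300) (nat_lit 232) (nat_lit 5) (nat_lit 239) (nat_lit 5) (nat_lit 240) (nat_lit 5) (nat_lit 512) (nat_lit 488) (nat_lit 200))) (XT.nd (nat_lit 78) (nat_lit 532) (nat_lit 0) (XT.lf (nat_lit 0) (nat_lit 52908940536)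 (nat_lit 532) (nat_lit 15932754514) (nat_lit 608) (nat_lit 12387068993) (nat_lit 232) (nat_lit 5) (nat_lit 239) (nat_lit 5) (nat_lit 240) (nat_lit 5) (nat_lit 513) (nat_lit 488) (nat_lit 199)) (XT.lf (nat_lit 0) (nat_lit 16152706372) (nat_lit 532) (nat_lit 63381739701) (nat_lit 608) (nat_lit 3064661032) (nat_lit 225) (nat_lit 5) (nat_lit 232) (nat_lit 5) (nat_lit 233) (nat_lit 5) (nat_lit 514) (nat_lit 488) (nat_lit 198)))) (XT.nd (nat_lit 156) (nat_lit 532) (nat_lit 0) (XT.nd (nat_lit 78) (nat_lit 532) (nat_lit 0) (XT.lf (nat_lit 0) (nat_lit 6855961066) (nat_lit 608) (nat_lit 21685941654) (nat_lit 76) (nat_lit 55453389262) (nat_lit 224) (nat_lit 5) (nat_lit 232) (nat_lit 5) (nat_lit 225) (nat_lit 5) (nat_lit 515) (nat_lit 488) (nat_lit 197)) (XT.lf (nat_lit 0) (nat_lit 17324509991) (nat_lit 608) (nat_lit 60626683080) (nat_lit 76) (nat_lit 7471901979) (nat_lit 217) (nat_lit 5) (nat_lit 225) (nat_lit 5) (nat_lit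 218) (nat_lit 5) (nat_lit 516) (nat_lit 488) (nat_lit 196))) (XT.nd (nat_lit 78) (nat_lit 532) (nat_lit 0) (XT.lf (nat_lit 0) (nat_lit 28610437299) (nat_lit 608) (nat_lit 14054619228) (nat_lit 76) (nat_lit 44213576110) (nat_lit 217) (nat_lit 5) (nat_lit 225) (nat_lit 5) (nat_lit 218) (nat_lit 5) (nat_lit 517) (nat_lit 488) (nat_lit 195)) (XT.lf (nat_lit 0) (nat_lit 34589106275) (nat_lit 532) (nat_lit 5977915330) (nat_lit 608) (nat_lit 47800852451) (nat_lit 210) (nat_lit 5) (nat_lit 217) (nat_lit 5) (nat_lit 218) (nat_lit 5) (nat_lit 518) (nat_lit 488) (nat_lit 194)))))) (XT.nd (nat_lit 546) (nat_lit 1216) (nat_lit 0) (XT.nd (nat_lit 234) (nat_lit 988) (nat_lit 0) (XT.nd (nat_lit 78) (nat_lit 912) (nat_lit 0) (XT.lf (nat_lit 0) (nat_lit 53331003078) (nat_lit 608) (nat_lit 5224931938) (nat_lit 76) (nat_lit 31332396790) (nat_lit 210) (nat_lit 5) (nat_lit 218) (nat_lit 5) (nat_lit 211) (nat_lit 5) (nat_lit 519) (nat_lit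 488) (nat_lit 193)) (XT.nd (nat_lit 78) (nat_lit 456) (nat_lit 0) (XT.lf (nat_lit 0) (nat_lit 45616012392) (nat_lit 456) (nat_lit 21359174415) (nat_lit 532) (nat_lit 24464298075) (nat_lit 204) (nat_lit 5) (nat_lit 210) (nat_lit 5) (nat_lit 211) (nat_lit 5) (nat_lit 520) (nat_lit 488) (nat_lit 192)) (XT.lf (nat_lit 0) (nat_lit 4987068651) (nat_lit 456) (nat_lit 76305430503) (nat_lit 532) (nat_lit 11736759376) (nat_lit 198) (nat_lit 5) (nat_lit 204) (nat_lit 5) (nat_lit 205) (nat_lit 5) (nat_lit 521) (nat_lit 488) (nat_lit 191)))) (XT.nd (nat_lit 156) (nat_lit 456) (nat_lit 0) (XT.nd (nat_lit 78) (nat_lit 456) (nat_lit 0) (XT.lf (nat_lit 0) (nat_lit 2024222815) (nat_lit 532) (nat_lit 36621295904) (nat_lit 76) (nat_lit 56000458854) (nat_lit 197) (nat_lit 5) (nat_lit 204) (nat_lit 5) (nat_lit 198) (nat_lit 5) (nat_lit 522) (nat_lit 488) (nat_lit 190)) (XT.lf (nat_lit 0) (nat_lit 16124949651) (nat_lit 532) (nat_lit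 79758570290) (nat_lit 76) (nat_lit 419307776) (nat_lit 191) (nat_lit 5) (nat_lit 198) (nat_lit 5) (nat_lit 192) (nat_lit 5) (nat_lit 523) (nat_lit 488) (nat_lit 189))) (XT.nd (nat_lit 78) (nat_lit 456) (nat_lit 0) (XT.lf (nat_lit 0) (nat_lit 31404425063) (nat_lit 532) (nat_lit 26329555876) (nat_lit 76) (nat_lit 40252730688) (nat_lit 191) (nat_lit 5) (nat_lit 198) (nat_lit 5) (nat_lit 192) (nat_lit 5) (nat_lit 524) (nat_lit 488) (nat_lit 188)) (XT.lf (nat_lit 0) (nat_lit 29273111733) (nat_lit 456) (nat_lit 18150207919) (nat_lit 532) (nat_lit 52289361421) (nat_lit 185) (nat_lit 5) (nat_lit 191) (nat_lit 5) (nat_lit 192) (nat_lit 5) (nat_lit 525) (nat_lit 488) (nat_lit 187))))) (XT.nd (nat_lit 312) (nat_lit 380) (nat_lit 0) (XT.nd (nat_lit 156) (nat_lit 456) (nat_lit 0) (XT.nd (nat_lit 78) (nat_lit 380) (nat_lit 0) (XT.lf (nat_lit 0) (nat_lit 64408387251) (nat_lit 532) (nat_lit 14619390413) (nat_lit 76) (nat_lit 22448083813)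 (nat_lit 185) (nat_lit 5) (nat_lit 192) (nat_lit 5) (nat_lit 186) (nat_lit 5) (nat_lit 526) (nat_lit 488) (nat_lit 186)) (XT.lf (nat_lit 0) (nat_lit 43544974669) (nat_lit 380) (nat_lit 38955977586) (nat_lit 456) (nat_lit 20773046737) (nat_lit 180) (nat_lit 5) (nat_lit 185) (nat_lit 5) (nat_lit 186) (nat_lit 5) (nat_lit 527) (nat_lit 488) (nat_lit 185))) (XT.nd (nat_lit 78) (nat_lit 456) (nat_lit 0) (XT.lf (nat_lit 0) (nat_lit 101307329152) (nat_lit 456) (nat_lit 1391879831) (nat_lit 76) (nat_lit 2421740659) (nat_lit 180) (nat_lit 5) (nat_lit 186) (nat_lit 5) (nat_lit 181) (nat_lit 5) (nat_lit 528) (nat_lit 488) (nat_lit 184)) (XT.lf (nat_lit 0) (nat_lit 14354650034) (nat_lit 456) (nat_lit 47665610639) (nat_lit 76) (nat_lit 44970115156) (nat_lit 174) (nat_lit 5) (nat_lit 180) (nat_lit 5) (nat_lit 175) (nat_lit 5) (nat_lit 529) (nat_lit 488) (nat_lit 183)))) (XT.nd (nat_lit 59280) (nat_lit 0) (nat_lit 7980) (XT.nd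 (nat_lit 78) (nat_lit 0) (nat_lit 0) (XT.lf (nat_lit 0) (nat_lit 13195137492) (nat_lit 380) (nat_lit 19936891631) (nat_lit 456) (nat_lit 75778501659) (nat_lit 169) (nat_lit 5) (nat_lit 174) (nat_lit 5) (nat_lit 175) (nat_lit 5) (nat_lit 530) (nat_lit 488) (nat_lit 182)) (XT.lf (nat_lit 0) (nat_lit 53183526481) (nat_lit 456) (nat_lit 34245263583) (nat_lit 76) (nat_lit 23438176464) (nat_lit 169) (nat_lit 5) (nat_lit 175) (nat_lit 5) (nat_lit 170) (nat_lit 5) (nat_lit 531) (nat_lit 488) (nat_lit 181))) (XT.nd (nat_lit 78) (nat_lit 0) (nat_lit 0) (XT.lf (nat_lit 0) (nat_lit 11263193663) (nat_lit 1292) (nat_lit 8480818107) (nat_lit 1292) (nat_lit 8480818107) (nat_lit 274) (nat_lit 3) (nat_lit 291) (nat_lit 3) (nat_lit 291) (nat_lit 5) (nat_lit 489) (nat_lit 489) (nat_lit 222)) (XT.lf (nat_lit 76) (nat_lit 10909483155) (nat_lit 0) (nat_lit 12080012226) (nat_lit 1292) (nat_lit 34303148170) (nat_lit 275) (nat_lit 5) (nat_lit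 274) (nat_lit 3) (nat_lit 291) (nat_lit 5) (nat_lit 490) (nat_lit 489) (nat_lit 221))))))) (XT.nd (nat_lit 1170) (nat_lit 4560) (nat_lit 0) (XT.nd (nat_lit 546) (nat_lit 836) (nat_lit 0) (XT.nd (nat_lit 234) (nat_lit 0) (nat_lit 76) (XT.nd (nat_lit 78) (nat_lit 0) (nat_lit 0) (XT.lf (nat_lit 0) (nat_lit 23793923457) (nat_lit 1216) (nat_lit 18348732184) (nat_lit 1292) (nat_lit 16008438602) (nat_lit 275) (nat_lit 5) (nat_lit 291) (nat_lit 5) (nat_lit 292) (nat_lit 5) (nat_lit 491) (nat_lit 489) (nat_lit 220)) (XT.nd (nat_lit 78) (nat_lit 0) (nat_lit 76) (XT.lf (nat_lit 76) (nat_lit 10613806442) (nat_lit 0) (nat_lit 14229537246) (nat_lit 1292) (nat_lit 34185329166) (nat_lit 276) (nat_lit 5) (nat_lit 275) (nat_lit 5) (nat_lit 292) (nat_lit 5) (nat_lit 492) (nat_lit 489) (nat_lit 219)) (XT.lf (nat_lit 0) (nat_lit 26250202060) (nat_lit 1216) (nat_lit 19247540593) (nat_lit 1292) (nat_lit 14425057680) (nat_lit 276) (nat_lit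 5) (nat_lit 292) (nat_lit 5) (nat_lit 293) (nat_lit 5) (nat_lit 493) (nat_lit 489) (nat_lit 218)))) (XT.nd (nat_lit 156) (nat_lit 0) (nat_lit 76) (XT.nd (nat_lit 78) (nat_lit 0) (nat_lit 76) (XT.lf (nat_lit 76) (nat_lit 10865503214) (nat_lit 0) (nat_lit 17078367482) (nat_lit 1292) (nat_lit 32892542973) (nat_lit 277) (nat_lit 5) (nat_lit 276) (nat_lit 5) (nat_lit 293) (nat_lit 5) (nat_lit 494) (nat_lit 489) (nat_lit 217)) (XT.lf (nat_lit 0) (nat_lit 30001140220) (nat_lit 1216) (nat_lit 19614707297) (nat_lit 1292) (nat_lit 12152204328) (nat_lit 277) (nat_lit 5) (nat_lit 293) (nat_lit 5) (nat_lit 294) (nat_lit 5) (nat_lit 495) (nat_lit 489) (nat_lit 216))) (XT.nd (nat_lit 78) (nat_lit 0) (nat_lit 76) (XT.lf (nat_lit 76) (nat_lit 11711169515) (nat_lit 0) (nat_lit 20689938407) (nat_lit 1292) (nat_lit 30318102001) (nat_lit 278) (nat_lit 5) (nat_lit 277) (nat_lit 5) (nat_lit 294) (nat_lit 5) (nat_lit 496) (nat_lit 489)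 (nat_lit 215)) (XT.lf (nat_lit 0) (nat_lit 35159947021) (nat_lit 1216) (nat_lit 19403992549) (nat_lit 1292) (nat_lit 9126357155) (nat_lit 278) (nat_lit 5) (nat_lit 294) (nat_lit 5) (nat_lit 295) (nat_lit 5) (nat_lit 497) (nat_lit 489) (nat_lit 214))))) (XT.nd (nat_lit 312) (nat_lit 1064) (nat_lit 0) (XT.nd (nat_lit 156) (nat_lit 0) (nat_lit 76) (XT.nd (nat_lit 78) (nat_lit 0) (nat_lit 76) (XT.lf (nat_lit 76) (nat_lit 13200463065) (nat_lit 0) (nat_lit 25132179931) (nat_lit 1292) (nat_lit 26347940537) (nat_lit 279) (nat_lit 5) (nat_lit 278) (nat_lit 5) (nat_lit 295) (nat_lit 5) (nat_lit 498) (nat_lit 489) (nat_lit 213)) (XT.lf (nat_lit 0) (nat_lit 41847586176) (nat_lit 1216) (nat_lit 18566111179) (nat_lit 1292) (nat_lit 5279469746) (nat_lit 279) (nat_lit 5) (nat_lit 295) (nat_lit 5) (nat_lit 296) (nat_lit 5) (nat_lit 499) (nat_lit 489) (nat_lit 212))) (XT.nd (nat_lit 78) (nat_lit 0) (nat_lit 76) (XT.lf (nat_lit 76)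 (nat_lit 15386272163) (nat_lit 0) (nat_lit 30477826020) (nat_lit 1292) (nat_lit 20860146517) (nat_lit 280) (nat_lit 5) (nat_lit 279) (nat_lit 5) (nat_lit 296) (nat_lit 5) (nat_lit 500) (nat_lit 489) (nat_lit 211)) (XT.lf (nat_lit 0) (nat_lit 50193266237) (nat_lit 1216) (nat_lit 17048565153) (nat_lit 1292) (nat_lit 538658555) (nat_lit 280) (nat_lit 5) (nat_lit 296) (nat_lit 5) (nat_lit 297) (nat_lit 5) (nat_lit 501) (nat_lit 489) (nat_lit 210)))) (XT.nd (nat_lit 156) (nat_lit 1216) (nat_lit 0) (XT.nd (nat_lit 78) (nat_lit 0) (nat_lit 0) (XT.lf (nat_lit 76) (nat_lit 18324892593) (nat_lit 0) (nat_lit 36804744809) (nat_lit 1292) (nat_lit 13724465435) (nat_lit 281) (nat_lit 5) (nat_lit 280) (nat_lit 5) (nat_lit 297) (nat_lit 5) (nat_lit 502) (nat_lit 489) (nat_lit 209)) (XT.lf (nat_lit 76) (nat_lit 55108581550) (nat_lit 0) (nat_lit 5277105203) (nat_lit 1292) (nat_lit 9569089882) (nat_lit 281) (nat_lit 5) (nat_lit 280)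 (nat_lit 5) (nat_lit 297) (nat_lit 5) (nat_lit 503) (nat_lit 489) (nat_lit 208))) (XT.nd (nat_lit 78) (nat_lit 1292) (nat_lit 0) (XT.lf (nat_lit 76) (nat_lit 22076212787) (nat_lit 0) (nat_lit 44196290626) (nat_lit 1292) (nat_lit 4801774786) (nat_lit 282) (nat_lit 5) (nat_lit 281) (nat_lit 5) (nat_lit 298) (nat_lit 5) (nat_lit 504) (nat_lit 489) (nat_lit 207)) (XT.lf (nat_lit 0) (nat_lit 309545682) (nat_lit 1292) (nat_lit 11867480982) (nat_lit 1368) (nat_lit 60044213827) (nat_lit 264) (nat_lit 5) (nat_lit 281) (nat_lit 5) (nat_lit 282) (nat_lit 5) (nat_lit 505) (nat_lit 489) (nat_lit 206)))))) (XT.nd (nat_lit 624) (nat_lit 2128) (nat_lit 0) (XT.nd (nat_lit 312) (nat_lit 1748) (nat_lit 0) (XT.nd (nat_lit 156) (nat_lit 760) (nat_lit 0) (XT.nd (nat_lit 78) (nat_lit 0) (nat_lit 0) (XT.lf (nat_lit 0) (nat_lit 5938289047) (nat_lit 1292) (nat_lit 46743425325) (nat_lit 76) (nat_lit 20705653300) (nat_lit 265) (nat_lit 5)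 (nat_lit 282) (nat_lit 5) (nat_lit 266) (nat_lit 5) (nat_lit 506) (nat_lit 489) (nat_lit 205)) (XT.lf (nat_lit 0) (nat_lit 11976965878) (nat_lit 1292) (nat_lit 8153115671) (nat_lit 76) (nat_lit 54451165096) (nat_lit 265) (nat_lit 5) (nat_lit 282) (nat_lit 5) (nat_lit 266) (nat_lit 5) (nat_lit 507) (nat_lit 489) (nat_lit 204))) (XT.nd (nat_lit 78) (nat_lit 0) (nat_lit 0) (XT.lf (nat_lit 0) (nat_lit 18637907509) (nat_lit 836) (nat_lit 43710275597) (nat_lit 76) (nat_lit 13449525855) (nat_lit 255) (nat_lit 5) (nat_lit 266) (nat_lit 5) (nat_lit 256) (nat_lit 5) (nat_lit 508) (nat_lit 489) (nat_lit 203)) (XT.lf (nat_lit 0) (nat_lit 25780638465) (nat_lit 836) (nat_lit 3546447033) (nat_lit 76) (nat_lit 47715120921) (nat_lit 255) (nat_lit 5) (nat_lit 266) (nat_lit 5) (nat_lit 256) (nat_lit 5) (nat_lit 509) (nat_lit 489) (nat_lit 202)))) (XT.nd (nat_lit 156) (nat_lit 532) (nat_lit 0) (XT.nd (nat_lit 78) (nat_lit 608) (nat_lit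 0) (XT.lf (nat_lit 0) (nat_lit 33556679154) (nat_lit 684) (nat_lit 39787052386) (nat_lit 76) (nat_lit 4967736530) (nat_lit 247) (nat_lit 5) (nat_lit 256) (nat_lit 5) (nat_lit 248) (nat_lit 5) (nat_lit 510) (nat_lit 489) (nat_lit 201)) (XT.lf (nat_lit 0) (nat_lit 2061418359) (nat_lit 608) (nat_lit 39850464225) (nat_lit 684) (nat_lit 37696548639) (nat_lit 239) (nat_lit 5) (nat_lit 247) (nat_lit 5) (nat_lit 248) (nat_lit 5) (nat_lit 511) (nat_lit 489) (nat_lit 200))) (XT.nd (nat_lit 78) (nat_lit 532) (nat_lit 0) (XT.lf (nat_lit 0) (nat_lit 45980487913) (nat_lit 608) (nat_lit 4938566705) (nat_lit 684) (nat_lit 30013209375) (nat_lit 239) (nat_lit 5) (nat_lit 247) (nat_lit 5) (nat_lit 248) (nat_lit 5) (nat_lit 512) (nat_lit 489) (nat_lit 199)) (XT.lf (nat_lit 0) (nat_lit 8794284878) (nat_lit 532) (nat_lit 51784437528) (nat_lit 608) (nat_lit 21705621016) (nat_lit 232) (nat_lit 5) (nat_lit 239) (nat_lit 5) (nat_lit 240)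 (nat_lit 5) (nat_lit 513) (nat_lit 489) (nat_lit 198))))) (XT.nd (nat_lit 312) (nat_lit 988) (nat_lit 0) (XT.nd (nat_lit 156) (nat_lit 608) (nat_lit 0) (XT.nd (nat_lit 78) (nat_lit 532) (nat_lit 0) (XT.lf (nat_lit 0) (nat_lit 54518888117) (nat_lit 532) (nat_lit 16410217228) (nat_lit 608) (nat_lit 12735852226) (nat_lit 232) (nat_lit 5) (nat_lit 239) (nat_lit 5) (nat_lit 240) (nat_lit 5) (nat_lit 514) (nat_lit 489) (nat_lit 197)) (XT.lf (nat_lit 0) (nat_lit 16660402465) (nat_lit 532) (nat_lit 65281818060) (nat_lit 608) (nat_lit 3134203085) (nat_lit 225) (nat_lit 5) (nat_lit 232) (nat_lit 5) (nat_lit 233) (nat_lit 5) (nat_lit 515) (nat_lit 489) (nat_lit 196))) (XT.nd (nat_lit 78) (nat_lit 532) (nat_lit 0) (XT.lf (nat_lit 0) (nat_lit 7082960982) (nat_lit 608) (nat_lit 22313649700) (nat_lit 76) (nat_lit 57117896206) (nat_lit 224) (nat_lit 5) (nat_lit 232) (nat_lit 5) (nat_lit 225) (nat_lit 5) (nat_lit 516) (nat_lit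 489) (nat_lit 195)) (XT.lf (nat_lit 0) (nat_lit 17865179672) (nat_lit 608) (nat_lit 62422222569) (nat_lit 76) (nat_lit 7697753532) (nat_lit 217) (nat_lit 5) (nat_lit 225) (nat_lit 5) (nat_lit 218) (nat_lit 5) (nat_lit 517) (nat_lit 489) (nat_lit 194)))) (XT.nd (nat_lit 156) (nat_lit 456) (nat_lit 0) (XT.nd (nat_lit 78) (nat_lit 532) (nat_lit 0) (XT.lf (nat_lit 0) (nat_lit 29489075060) (nat_lit 608) (nat_lit 14453674306) (nat_lit 76) (nat_lit 45541628532) (nat_lit 217) (nat_lit 5) (nat_lit 225) (nat_lit 5) (nat_lit 218) (nat_lit 5) (nat_lit 518) (nat_lit 489) (nat_lit 193)) (XT.lf (nat_lit 0) (nat_lit 35649141555) (nat_lit 532) (nat_lit 6154838318) (nat_lit 608) (nat_lit 49214328113) (nat_lit 210) (nat_lit 5) (nat_lit 217) (nat_lit 5) (nat_lit 218) (nat_lit 5) (nat_lit 519) (nat_lit 489) (nat_lit 192))) (XT.nd (nat_lit 78) (nat_lit 456) (nat_lit 0) (XT.lf (nat_lit 0) (nat_lit 54950322326) (nat_lit 608) (nat_lit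 5359406913) (nat_lit 76) (nat_lit 32274667098) (nat_lit 210) (nat_lit 5) (nat_lit 218) (nat_lit 5) (nat_lit 211) (nat_lit 5) (nat_lit 520) (nat_lit 489) (nat_lit 191)) (XT.lf (nat_lit 0) (nat_lit 47006547385) (nat_lit 456) (nat_lit 21996931451) (nat_lit 532) (nat_lit 25178615859) (nat_lit 204) (nat_lit 5) (nat_lit 210) (nat_lit 5) (nat_lit 211) (nat_lit 5) (nat_lit 521) (nat_lit 489) (nat_lit 190))))))))
noncomputable def xc246 : XT := (XT.nd (nat_lit 61542) (nat_lit 0) (nat_lit 380) (XT.nd (nat_lit 60372) (nat_lit 0) (nat_lit 6536) (XT.nd (nat_lit 546) (nat_lit 836) (nat_lit 0) (XT.nd (nat_lit 234) (nat_lit 836) (nat_lit 0) (XT.nd (nat_lit 78) (nat_lit 532) (nat_lit 0) (XT.lf (nat_lit 0) (nat_lit 5159059481) (nat_lit 456) (nat_lit 78590939901) (nat_lit 532) (nat_lit 12069571613) (nat_lit 198) (nat_lit 5) (nat_lit 204) (nat_lit 5) (nat_lit 205) (nat_lit 5) (nat_lit 522) (nat_lit 489) (nat_lit 189)) (XT.nd (nat_lit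 78) (nat_lit 456) (nat_lit 0) (XT.lf (nat_lit 0) (nat_lit 2103312720) (nat_lit 532) (nat_lit 37697839025) (nat_lit 76) (nat_lit 57683650929) (nat_lit 197) (nat_lit 5) (nat_lit 204) (nat_lit 5) (nat_lit 198) (nat_lit 5) (nat_lit 523) (nat_lit 489) (nat_lit 188)) (XT.lf (nat_lit 0) (nat_lit 16626773742) (nat_lit 532) (nat_lit 82128940789) (nat_lit 76) (nat_lit 435652516) (nat_lit 191) (nat_lit 5) (nat_lit 198) (nat_lit 5) (nat_lit 192) (nat_lit 5) (nat_lit 524) (nat_lit 489) (nat_lit 187)))) (XT.nd (nat_lit 156) (nat_lit 380) (nat_lit 0) (XT.nd (nat_lit 78) (nat_lit 456) (nat_lit 0) (XT.lf (nat_lit 0) (nat_lit 32364106943) (nat_lit 532) (nat_lit 27097707979) (nat_lit 76) (nat_lit 41463968441) (nat_lit 191) (nat_lit 5) (nat_lit 198) (nat_lit 5) (nat_lit 192) (nat_lit 5) (nat_lit 525) (nat_lit 489) (nat_lit 186)) (XT.lf (nat_lit 0) (nat_lit 30172826574) (nat_lit 456) (nat_lit 18690437533) (nat_lit 532) (nat_lit 53840277003)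 (nat_lit 185) (nat_lit 5) (nat_lit 191) (nat_lit 5) (nat_lit 192) (nat_lit 5) (nat_lit 526) (nat_lit 489) (nat_lit 185))) (XT.nd (nat_lit 78) (nat_lit 380) (nat_lit 0) (XT.lf (nat_lit 0) (nat_lit 66357421368) (nat_lit 532) (nat_lit 15036612150) (nat_lit 76) (nat_lit 23125597368) (nat_lit 185) (nat_lit 5) (nat_lit 192) (nat_lit 5) (nat_lit 186) (nat_lit 5) (nat_lit 527) (nat_lit 489) (nat_lit 184)) (XT.lf (nat_lit 0) (nat_lit 44872474473) (nat_lit 380) (nat_lit 40120003351) (nat_lit 456) (nat_lit 21379243353) (nat_lit 180) (nat_lit 5) (nat_lit 185) (nat_lit 5) (nat_lit 186) (nat_lit 5) (nat_lit 528) (nat_lit 489) (nat_lit 183))))) (XT.nd (nat_lit 59514) (nat_lit 0) (nat_lit 7980) (XT.nd (nat_lit 156) (nat_lit 380) (nat_lit 0) (XT.nd (nat_lit 78) (nat_lit 456) (nat_lit 0) (XT.lf (nat_lit 0) (nat_lit 104362608962) (nat_lit 456) (nat_lit 1412661843) (nat_lit 76) (nat_lit 2498822738) (nat_lit 180) (nat_lit 5) (nat_lit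 186) (nat_lit 5) (nat_lit 181) (nat_lit 5) (nat_lit 529) (nat_lit 489) (nat_lit 182)) (XT.lf (nat_lit 0) (nat_lit 14801240358) (nat_lit 456) (nat_lit 49074490123) (nat_lit 76) (nat_lit 46323875467) (nat_lit 174) (nat_lit 5) (nat_lit 180) (nat_lit 5) (nat_lit 175) (nat_lit 5) (nat_lit 530) (nat_lit 489) (nat_lit 181))) (XT.nd (nat_lit 59280) (nat_lit 0) (nat_lit 7980) (XT.lf (nat_lit 0) (nat_lit 13611873698) (nat_lit 380) (nat_lit 20529803266) (nat_lit 456) (nat_lit 78035696578) (nat_lit 169) (nat_lit 5) (nat_lit 174) (nat_lit 5) (nat_lit 175) (nat_lit 5) (nat_lit 531) (nat_lit 489) (nat_lit 180)) (XT.lf (nat_lit 0) (nat_lit 11621237536) (nat_lit 1292) (nat_lit 8724864054) (nat_lit 1292) (nat_lit 8724864054) (nat_lit 274) (nat_lit 3) (nat_lit 291) (nat_lit 3) (nat_lit 291) (nat_lit 5) (nat_lit 490) (nat_lit 490) (nat_lit 220)))) (XT.nd (nat_lit 156) (nat_lit 0) (nat_lit 76) (XT.nd (nat_lit 78) (nat_lit 0) (nat_lit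 76) (XT.lf (nat_lit 76) (nat_lit 11257321339) (nat_lit 0) (nat_lit 12461178929) (nat_lit 1292) (nat_lit 35291733886) (nat_lit 275) (nat_lit 5) (nat_lit 274) (nat_lit 3) (nat_lit 291) (nat_lit 5) (nat_lit 491) (nat_lit 490) (nat_lit 219)) (XT.lf (nat_lit 0) (nat_lit 24545740804) (nat_lit 1216) (nat_lit 18877909891) (nat_lit 1292) (nat_lit 16470827549) (nat_lit 275) (nat_lit 5) (nat_lit 291) (nat_lit 5) (nat_lit 292) (nat_lit 5) (nat_lit 492) (nat_lit 490) (nat_lit 218))) (XT.nd (nat_lit 78) (nat_lit 0) (nat_lit 76) (XT.lf (nat_lit 76) (nat_lit 10953296225) (nat_lit 0) (nat_lit 14672443224) (nat_lit 1292) (nat_lit 35172672149) (nat_lit 276) (nat_lit 5) (nat_lit 275) (nat_lit 5) (nat_lit 292) (nat_lit 5) (nat_lit 493) (nat_lit 490) (nat_lit 217)) (XT.lf (nat_lit 0) (nat_lit 27073573614) (nat_lit 1216) (nat_lit 19803266787) (nat_lit 1292) (nat_lit 14842559648) (nat_lit 276) (nat_lit 5) (nat_lit 292) (nat_lit 5) (nat_lit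 293) (nat_lit 5) (nat_lit 494) (nat_lit 490) (nat_lit 216)))))) (XT.nd (nat_lit 546) (nat_lit 1596) (nat_lit 0) (XT.nd (nat_lit 234) (nat_lit 0) (nat_lit 152) (XT.nd (nat_lit 78) (nat_lit 0) (nat_lit 76) (XT.lf (nat_lit 76) (nat_lit 11212955590) (nat_lit 0) (nat_lit 17604258642) (nat_lit 1292) (nat_lit 33843232938) (nat_lit 277) (nat_lit 5) (nat_lit 276) (nat_lit 5) (nat_lit 293) (nat_lit 5) (nat_lit 495) (nat_lit 490) (nat_lit 215)) (XT.nd (nat_lit 78) (nat_lit 0) (nat_lit 0) (XT.lf (nat_lit 0) (nat_lit 30935055260) (nat_lit 1216) (nat_lit 20181132648) (nat_lit 1292) (nat_lit 12503881216) (nat_lit 277) (nat_lit 5) (nat_lit 293) (nat_lit 5) (nat_lit 294) (nat_lit 5) (nat_lit 496) (nat_lit 490) (nat_lit 214)) (XT.lf (nat_lit 76) (nat_lit 12084304627) (nat_lit 0) (nat_lit 21321940101) (nat_lit 1292) (nat_lit 31193540763) (nat_lit 278) (nat_lit 5) (nat_lit 277) (nat_lit 5) (nat_lit 294) (nat_lit 5) (nat_lit 497) (nat_lit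 490) (nat_lit 213)))) (XT.nd (nat_lit 156) (nat_lit 0) (nat_lit 76) (XT.nd (nat_lit 78) (nat_lit 0) (nat_lit 0) (XT.lf (nat_lit 0) (nat_lit 36246779327) (nat_lit 1216) (nat_lit 19963870178) (nat_lit 1292) (nat_lit 9389387706) (nat_lit 278) (nat_lit 5) (nat_lit 294) (nat_lit 5) (nat_lit 295) (nat_lit 5) (nat_lit 498) (nat_lit 490) (nat_lit 212)) (XT.lf (nat_lit 76) (nat_lit 13618501045) (nat_lit 0) (nat_lit 25895433819) (nat_lit 1292) (nat_lit 27106119612) (nat_lit 279) (nat_lit 5) (nat_lit 278) (nat_lit 5) (nat_lit 295) (nat_lit 5) (nat_lit 499) (nat_lit 490) (nat_lit 211))) (XT.nd (nat_lit 78) (nat_lit 0) (nat_lit 0) (XT.lf (nat_lit 0) (nat_lit 43133327636) (nat_lit 1216) (nat_lit 19100706226) (nat_lit 1292) (nat_lit 5429011859) (nat_lit 279) (nat_lit 5) (nat_lit 295) (nat_lit 5) (nat_lit 296) (nat_lit 5) (nat_lit 500) (nat_lit 490) (nat_lit 210)) (XT.lf (nat_lit 76) (nat_lit 15870029123) (nat_lit 0) (nat_lit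 31399636052) (nat_lit 1292) (nat_lit 21455410772) (nat_lit 280) (nat_lit 5) (nat_lit 279) (nat_lit 5) (nat_lit 296) (nat_lit 5) (nat_lit 501) (nat_lit 490) (nat_lit 209))))) (XT.nd (nat_lit 312) (nat_lit 1900) (nat_lit 0) (XT.nd (nat_lit 156) (nat_lit 0) (nat_lit 0) (XT.nd (nat_lit 78) (nat_lit 0) (nat_lit 0) (XT.lf (nat_lit 0) (nat_lit 51727775088) (nat_lit 1216) (nat_lit 17537559247) (nat_lit 1292) (nat_lit 547702406) (nat_lit 280) (nat_lit 5) (nat_lit 296) (nat_lit 5) (nat_lit 297) (nat_lit 5) (nat_lit 502) (nat_lit 490) (nat_lit 208)) (XT.lf (nat_lit 76) (nat_lit 18896882007) (nat_lit 0) (nat_lit 37914732952) (nat_lit 1292) (nat_lit 14107261926) (nat_lit 281) (nat_lit 5) (nat_lit 280) (nat_lit 5) (nat_lit 297) (nat_lit 5) (nat_lit 503) (nat_lit 490) (nat_lit 207))) (XT.nd (nat_lit 78) (nat_lit 0) (nat_lit 76) (XT.lf (nat_lit 76) (nat_lit 56783433789) (nat_lit 0) (nat_lit 5441093892) (nat_lit 1292) (nat_lit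 9828067945) (nat_lit 281) (nat_lit 5) (nat_lit 280) (nat_lit 5) (nat_lit 297) (nat_lit 5) (nat_lit 504) (nat_lit 490) (nat_lit 206)) (XT.lf (nat_lit 76) (nat_lit 22760752497) (nat_lit 0) (nat_lit 45526563007) (nat_lit 1292) (nat_lit 4918385913) (nat_lit 282) (nat_lit 5) (nat_lit 281) (nat_lit 5) (nat_lit 298) (nat_lit 5) (nat_lit 505) (nat_lit 490) (nat_lit 205)))) (XT.nd (nat_lit 156) (nat_lit 684) (nat_lit 0) (XT.nd (nat_lit 78) (nat_lit 0) (nat_lit 76) (XT.lf (nat_lit 0) (nat_lit 344954986) (nat_lit 1292) (nat_lit 12201374670) (nat_lit 1368) (nat_lit 61840758690) (nat_lit 264) (nat_lit 5) (nat_lit 281) (nat_lit 5) (nat_lit 282) (nat_lit 5) (nat_lit 506) (nat_lit 490) (nat_lit 204)) (XT.lf (nat_lit 0) (nat_lit 6141975267) (nat_lit 1292) (nat_lit 48123006451) (nat_lit 76) (nat_lit 21323235351) (nat_lit 265) (nat_lit 5) (nat_lit 282) (nat_lit 5) (nat_lit 266) (nat_lit 5) (nat_lit 507) (nat_lit 490) (nat_lit 203)))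 (XT.nd (nat_lit 78) (nat_lit 760) (nat_lit 0) (XT.lf (nat_lit 0) (nat_lit 12361068591) (nat_lit 1292) (nat_lit 8375649302) (nat_lit 76) (nat_lit 56081216993) (nat_lit 265) (nat_lit 5) (nat_lit 282) (nat_lit 5) (nat_lit 266) (nat_lit 5) (nat_lit 508) (nat_lit 490) (nat_lit 202)) (XT.lf (nat_lit 0) (nat_lit 19221302861) (nat_lit 836) (nat_lit 44998983226) (nat_lit 76) (nat_lit 13850621208) (nat_lit 255) (nat_lit 5) (nat_lit 266) (nat_lit 5) (nat_lit 256) (nat_lit 5) (nat_lit 509) (nat_lit 490) (nat_lit 201))))))) (XT.nd (nat_lit 1170) (nat_lit 1748) (nat_lit 0) (XT.nd (nat_lit 546) (nat_lit 2128) (nat_lit 0) (XT.nd (nat_lit 234) (nat_lit 1064) (nat_lit 0) (XT.nd (nat_lit 78) (nat_lit 1216) (nat_lit 0) (XT.lf (nat_lit 0) (nat_lit 26577609199) (nat_lit 836) (nat_lit 3630898077) (nat_lit 76) (nat_lit 49144253750) (nat_lit 255) (nat_lit 5) (nat_lit 266) (nat_lit 5) (nat_lit 256) (nat_lit 5) (nat_lit 510) (nat_lit 490)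 (nat_lit 200)) (XT.nd (nat_lit 78) (nat_lit 608) (nat_lit 0) (XT.lf (nat_lit 0) (nat_lit 34586441044) (nat_lit 684) (nat_lit 40958226634) (nat_lit 76) (nat_lit 5115447695) (nat_lit 247) (nat_lit 5) (nat_lit 256) (nat_lit 5) (nat_lit 248) (nat_lit 5) (nat_lit 511) (nat_lit 490) (nat_lit 199)) (XT.lf (nat_lit 0) (nat_lit 2145478259) (nat_lit 608) (nat_lit 41046364190) (nat_lit 684) (nat_lit 38804158858) (nat_lit 239) (nat_lit 5) (nat_lit 247) (nat_lit 5) (nat_lit 248) (nat_lit 5) (nat_lit 512) (nat_lit 490) (nat_lit 198)))) (XT.nd (nat_lit 156) (nat_lit 532) (nat_lit 0) (XT.nd (nat_lit 78) (nat_lit 532) (nat_lit 0) (XT.lf (nat_lit 0) (nat_lit 47381472793) (nat_lit 608) (nat_lit 5087098501) (nat_lit 684) (nat_lit 30890997656) (nat_lit 239) (nat_lit 5) (nat_lit 247) (nat_lit 5) (nat_lit 248) (nat_lit 5) (nat_lit 513) (nat_lit 490) (nat_lit 197)) (XT.lf (nat_lit 0) (nat_lit 9080132224) (nat_lit 532) (nat_lit 53337465875)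 (nat_lit 608) (nat_lit 22334625727) (nat_lit 232) (nat_lit 5) (nat_lit 239) (nat_lit 5) (nat_lit 240) (nat_lit 5) (nat_lit 514) (nat_lit 490) (nat_lit 196))) (XT.nd (nat_lit 78) (nat_lit 532) (nat_lit 0) (XT.lf (nat_lit 0) (nat_lit 56175832236) (nat_lit 532) (nat_lit 16902033668) (nat_lit 608) (nat_lit 13096409424) (nat_lit 232) (nat_lit 5) (nat_lit 239) (nat_lit 5) (nat_lit 240) (nat_lit 5) (nat_lit 515) (nat_lit 490) (nat_lit 195)) (XT.lf (nat_lit 0) (nat_lit 17182002550) (nat_lit 532) (nat_lit 67238977632) (nat_lit 608) (nat_lit 3207117123) (nat_lit 225) (nat_lit 5) (nat_lit 232) (nat_lit 5) (nat_lit 233) (nat_lit 5) (nat_lit 516) (nat_lit 490) (nat_lit 194))))) (XT.nd (nat_lit 312) (nat_lit 988) (nat_lit 0) (XT.nd (nat_lit 156) (nat_lit 532) (nat_lit 0) (XT.nd (nat_lit 78) (nat_lit 532) (nat_lit 0) (XT.lf (nat_lit 0) (nat_lit 7315546978) (nat_lit 608) (nat_lit 22961501831) (nat_lit 76) (nat_lit 58832286392)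 (nat_lit 224) (nat_lit 5) (nat_lit 232) (nat_lit 5) (nat_lit 225) (nat_lit 5) (nat_lit 517) (nat_lit 490) (nat_lit 193)) (XT.lf (nat_lit 0) (nat_lit 18420867725) (nat_lit 608) (nat_lit 64272963519) (nat_lit 76) (nat_lit 7930283360) (nat_lit 217) (nat_lit 5) (nat_lit 225) (nat_lit 5) (nat_lit 218) (nat_lit 5) (nat_lit 518) (nat_lit 490) (nat_lit 192))) (XT.nd (nat_lit 78) (nat_lit 532) (nat_lit 0) (XT.lf (nat_lit 0) (nat_lit 30392905237) (nat_lit 608) (nat_lit 14865997422) (nat_lit 76) (nat_lit 46909428089) (nat_lit 217) (nat_lit 5) (nat_lit 225) (nat_lit 5) (nat_lit 218) (nat_lit 5) (nat_lit 519) (nat_lit 490) (nat_lit 191)) (XT.lf (nat_lit 0) (nat_lit 36739694218) (nat_lit 532) (nat_lit 6337207597) (nat_lit 608) (nat_lit 50671387694) (nat_lit 210) (nat_lit 5) (nat_lit 217) (nat_lit 5) (nat_lit 218) (nat_lit 5) (nat_lit 520) (nat_lit 490) (nat_lit 190)))) (XT.nd (nat_lit 156) (nat_lit 532) (nat_lit 0) (XT.nd (nat_lit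 78) (nat_lit 456) (nat_lit 0) (XT.lf (nat_lit 0) (nat_lit 56617108134) (nat_lit 608) (nat_lit 5499194696) (nat_lit 76) (nat_lit 33245073578) (nat_lit 210) (nat_lit 5) (nat_lit 218) (nat_lit 5) (nat_lit 211) (nat_lit 5) (nat_lit 521) (nat_lit 490) (nat_lit 189)) (XT.lf (nat_lit 0) (nat_lit 48437532403) (nat_lit 456) (nat_lit 22653994455) (nat_lit 532) (nat_lit 25915488937) (nat_lit 204) (nat_lit 5) (nat_lit 210) (nat_lit 5) (nat_lit 211) (nat_lit 5) (nat_lit 522) (nat_lit 490) (nat_lit 188))) (XT.nd (nat_lit 78) (nat_lit 76) (nat_lit 0) (XT.lf (nat_lit 0) (nat_lit 5334925402) (nat_lit 456) (nat_lit 80945224307) (nat_lit 532) (nat_lit 12413475573) (nat_lit 198) (nat_lit 5) (nat_lit 204) (nat_lit 5) (nat_lit 205) (nat_lit 5) (nat_lit 523) (nat_lit 490) (nat_lit 187)) (XT.lf (nat_lit 0) (nat_lit 2183721197) (nat_lit 532) (nat_lit 38807946825) (nat_lit 76) (nat_lit 59417156318) (nat_lit 197) (nat_lit 5) (nat_lit 204)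 (nat_lit 5) (nat_lit 198) (nat_lit 5) (nat_lit 524) (nat_lit 490) (nat_lit 186)))))) (XT.nd (nat_lit 59904) (nat_lit 0) (nat_lit 7600) (XT.nd (nat_lit 312) (nat_lit 836) (nat_lit 0) (XT.nd (nat_lit 156) (nat_lit 456) (nat_lit 0) (XT.nd (nat_lit 78) (nat_lit 0) (nat_lit 0) (XT.lf (nat_lit 0) (nat_lit 17142614942) (nat_lit 532) (nat_lit 84571707485) (nat_lit 76) (nat_lit 452271443) (nat_lit 191) (nat_lit 5) (nat_lit 198) (nat_lit 5) (nat_lit 192) (nat_lit 5) (nat_lit 525) (nat_lit 490) (nat_lit 185)) (XT.lf (nat_lit 0) (nat_lit 33351571886) (nat_lit 532) (nat_lit 27890152299) (nat_lit 76) (nat_lit 42711333466) (nat_lit 191) (nat_lit 5) (nat_lit 198) (nat_lit 5) (nat_lit 192) (nat_lit 5) (nat_lit 526) (nat_lit 490) (nat_lit 184))) (XT.nd (nat_lit 78) (nat_lit 0) (nat_lit 0) (XT.lf (nat_lit 0) (nat_lit 31098297439) (nat_lit 456) (nat_lit 19247119530) (nat_lit 532) (nat_lit 55438739851) (nat_lit 185) (nat_lit 5) (nat_lit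 191) (nat_lit 5) (nat_lit 192) (nat_lit 5) (nat_lit 527) (nat_lit 490) (nat_lit 183)) (XT.lf (nat_lit 0) (nat_lit 68363963125) (nat_lit 532) (nat_lit 15467576689) (nat_lit 76) (nat_lit 23823202635) (nat_lit 185) (nat_lit 5) (nat_lit 192) (nat_lit 5) (nat_lit 186) (nat_lit 5) (nat_lit 528) (nat_lit 490) (nat_lit 182)))) (XT.nd (nat_lit 156) (nat_lit 456) (nat_lit 0) (XT.nd (nat_lit 78) (nat_lit 0) (nat_lit 0) (XT.lf (nat_lit 0) (nat_lit 46238585142) (nat_lit 380) (nat_lit 41319217023) (nat_lit 456) (nat_lit 22004601439) (nat_lit 180) (nat_lit 5) (nat_lit 185) (nat_lit 5) (nat_lit 186) (nat_lit 5) (nat_lit 529) (nat_lit 490) (nat_lit 181)) (XT.lf (nat_lit 0) (nat_lit 107508625261) (nat_lit 456) (nat_lit 1435271330) (nat_lit 76) (nat_lit 2577962987) (nat_lit 180) (nat_lit 5) (nat_lit 186) (nat_lit 5) (nat_lit 181) (nat_lit 5) (nat_lit 530) (nat_lit 490) (nat_lit 180))) (XT.nd (nat_lit 59358) (nat_lit 0) (nat_lit 7600)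 (XT.lf (nat_lit 0) (nat_lit 15260312750) (nat_lit 456) (nat_lit 50526846577) (nat_lit 76) (nat_lit 47717981265) (nat_lit 174) (nat_lit 5) (nat_lit 180) (nat_lit 5) (nat_lit 175) (nat_lit 5) (nat_lit 531) (nat_lit 490) (nat_lit 179)) (XT.lf (nat_lit 0) (nat_lit 11988866144) (nat_lit 1292) (nat_lit 8976827153) (nat_lit 1292) (nat_lit 8976827153) (nat_lit 274) (nat_lit 3) (nat_lit 291) (nat_lit 3) (nat_lit 291) (nat_lit 5) (nat_lit 491) (nat_lit 491) (nat_lit 218))))) (XT.nd (nat_lit 312) (nat_lit 0) (nat_lit 152) (XT.nd (nat_lit 156) (nat_lit 0) (nat_lit 76) (XT.nd (nat_lit 78) (nat_lit 0) (nat_lit 76) (XT.lf (nat_lit 76) (nat_lit 11614414804) (nat_lit 0) (nat_lit 12852703369) (nat_lit 1292) (nat_lit 36312302540) (nat_lit 275) (nat_lit 5) (nat_lit 274) (nat_lit 3) (nat_lit 291) (nat_lit 5) (nat_lit 492) (nat_lit 491) (nat_lit 217)) (XT.lf (nat_lit 0) (nat_lit 25317931337) (nat_lit 1216) (nat_lit 19424184732) (nat_lit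 1292) (nat_lit 16948113643) (nat_lit 275) (nat_lit 5) (nat_lit 291) (nat_lit 5) (nat_lit 292) (nat_lit 5) (nat_lit 493) (nat_lit 491) (nat_lit 216))) (XT.nd (nat_lit 78) (nat_lit 0) (nat_lit 76) (XT.lf (nat_lit 76) (nat_lit 11301760876) (nat_lit 0) (nat_lit 15127716775) (nat_lit 1292) (nat_lit 36191829227) (nat_lit 276) (nat_lit 5) (nat_lit 275) (nat_lit 5) (nat_lit 292) (nat_lit 5) (nat_lit 494) (nat_lit 491) (nat_lit 215)) (XT.lf (nat_lit 0) (nat_lit 27919587488) (nat_lit 1216) (nat_lit 20376910436) (nat_lit 1292) (nat_lit 15273462074) (nat_lit 276) (nat_lit 5) (nat_lit 292) (nat_lit 5) (nat_lit 293) (nat_lit 5) (nat_lit 495) (nat_lit 491) (nat_lit 214)))) (XT.nd (nat_lit 156) (nat_lit 0) (nat_lit 76) (XT.nd (nat_lit 78) (nat_lit 0) (nat_lit 76) (XT.lf (nat_lit 76) (nat_lit 11569598078) (nat_lit 0) (nat_lit 18145149278) (nat_lit 1292) (nat_lit 34824515105) (nat_lit 277) (nat_lit 5) (nat_lit 276) (nat_lit 5) (nat_lit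 293) (nat_lit 5) (nat_lit 496) (nat_lit 491) (nat_lit 213)) (XT.lf (nat_lit 0) (nat_lit 31895042854) (nat_lit 1216) (nat_lit 20765814560) (nat_lit 1292) (nat_lit 12866848306) (nat_lit 277) (nat_lit 5) (nat_lit 293) (nat_lit 5) (nat_lit 294) (nat_lit 5) (nat_lit 497) (nat_lit 491) (nat_lit 212))) (XT.nd (nat_lit 78) (nat_lit 0) (nat_lit 76) (XT.lf (nat_lit 76) (nat_lit 12467382381) (nat_lit 0) (nat_lit 21972252977) (nat_lit 1292) (nat_lit 32097200414) (nat_lit 278) (nat_lit 5) (nat_lit 277) (nat_lit 5) (nat_lit 294) (nat_lit 5) (nat_lit 498) (nat_lit 491) (nat_lit 211)) (XT.lf (nat_lit 0) (nat_lit 37364377725) (nat_lit 1216) (nat_lit 20541820925) (nat_lit 1292) (nat_lit 9660926850) (nat_lit 278) (nat_lit 5) (nat_lit 294) (nat_lit 5) (nat_lit 295) (nat_lit 5) (nat_lit 499) (nat_lit 491) (nat_lit 210))))))))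
noncomputable def xc247 : XT := (XT.nd (nat_lit 2340) (nat_lit 380) (nat_lit 0) (XT.nd (nat_lit 1170) (nat_lit 4104) (nat_lit 0) (XT.nd (nat_lit 546) (nat_lit 2964) (nat_lit 0) (XT.nd (nat_lit 234) (nat_lit 0) (nat_lit 152) (XT.nd (nat_lit 78) (nat_lit 0) (nat_lit 76) (XT.lf (nat_lit 76) (nat_lit 14047815892) (nat_lit 0) (nat_lit 26681052126) (nat_lit 1292) (nat_lit 27888895867) (nat_lit 279) (nat_lit 5) (nat_lit 278) (nat_lit 5) (nat_lit 295) (nat_lit 5) (nat_lit 500) (nat_lit 491) (nat_lit 209)) (XT.nd (nat_lit 78) (nat_lit 0) (nat_lit 0) (XT.lf (nat_lit 0) (nat_lit 44455901200) (nat_lit 1216) (nat_lit 19652624303) (nat_lit 1292) (nat_lit 5583547802) (nat_lit 279) (nat_lit 5) (nat_lit 295) (nat_lit 5) (nat_lit 296) (nat_lit 5) (nat_lit 501) (nat_lit 491) (nat_lit 208)) (XT.lf (nat_lit 76) (nat_lit 16367026213) (nat_lit 0) (nat_lit 32348671275) (nat_lit 1292) (nat_lit 22070286083) (nat_lit 280) (nat_lit 5) (nat_lit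 279) (nat_lit 5) (nat_lit 296) (nat_lit 5) (nat_lit 502) (nat_lit 491) (nat_lit 207)))) (XT.nd (nat_lit 156) (nat_lit 0) (nat_lit 0) (XT.nd (nat_lit 78) (nat_lit 0) (nat_lit 0) (XT.lf (nat_lit 0) (nat_lit 53306671084) (nat_lit 1216) (nat_lit 18042512624) (nat_lit 1292) (nat_lit 557426055) (nat_lit 280) (nat_lit 5) (nat_lit 296) (nat_lit 5) (nat_lit 297) (nat_lit 5) (nat_lit 503) (nat_lit 491) (nat_lit 206)) (XT.lf (nat_lit 76) (nat_lit 19484754286) (nat_lit 0) (nat_lit 39057685167) (nat_lit 1292) (nat_lit 14503203441) (nat_lit 281) (nat_lit 5) (nat_lit 280) (nat_lit 5) (nat_lit 297) (nat_lit 5) (nat_lit 504) (nat_lit 491) (nat_lit 205))) (XT.nd (nat_lit 78) (nat_lit 0) (nat_lit 76) (XT.lf (nat_lit 76) (nat_lit 58507291966) (nat_lit 0) (nat_lit 5609676443) (nat_lit 1292) (nat_lit 10096428097) (nat_lit 281) (nat_lit 5) (nat_lit 280) (nat_lit 5) (nat_lit 297) (nat_lit 5) (nat_lit 505) (nat_lit 491) (nat_lit 204))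 (XT.lf (nat_lit 76) (nat_lit 23464550967) (nat_lit 0) (nat_lit 46896491919) (nat_lit 1292) (nat_lit 5040070664) (nat_lit 282) (nat_lit 5) (nat_lit 281) (nat_lit 5) (nat_lit 298) (nat_lit 5) (nat_lit 506) (nat_lit 491) (nat_lit 203))))) (XT.nd (nat_lit 312) (nat_lit 1216) (nat_lit 0) (XT.nd (nat_lit 156) (nat_lit 684) (nat_lit 0) (XT.nd (nat_lit 78) (nat_lit 0) (nat_lit 76) (XT.lf (nat_lit 0) (nat_lit 379927007) (nat_lit 1292) (nat_lit 12546555564) (nat_lit 1368) (nat_lit 63691474379) (nat_lit 264) (nat_lit 5) (nat_lit 281) (nat_lit 5) (nat_lit 282) (nat_lit 5) (nat_lit 507) (nat_lit 491) (nat_lit 202)) (XT.lf (nat_lit 0) (nat_lit 6350306113) (nat_lit 1292) (nat_lit 49545279326) (nat_lit 76) (nat_lit 21959550804) (nat_lit 265) (nat_lit 5) (nat_lit 282) (nat_lit 5) (nat_lit 266) (nat_lit 5) (nat_lit 508) (nat_lit 491) (nat_lit 201))) (XT.nd (nat_lit 78) (nat_lit 760) (nat_lit 0) (XT.lf (nat_lit 0) (nat_lit 12755271122)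 (nat_lit 1292) (nat_lit 8606125268) (nat_lit 76) (nat_lit 57760370389) (nat_lit 265) (nat_lit 5) (nat_lit 282) (nat_lit 5) (nat_lit 266) (nat_lit 5) (nat_lit 509) (nat_lit 491) (nat_lit 200)) (XT.lf (nat_lit 0) (nat_lit 19820807558) (nat_lit 836) (nat_lit 46327649454) (nat_lit 76) (nat_lit 14263886642) (nat_lit 255) (nat_lit 5) (nat_lit 266) (nat_lit 5) (nat_lit 256) (nat_lit 5) (nat_lit 510) (nat_lit 491) (nat_lit 199)))) (XT.nd (nat_lit 156) (nat_lit 608) (nat_lit 0) (XT.nd (nat_lit 78) (nat_lit 608) (nat_lit 0) (XT.lf (nat_lit 0) (nat_lit 27397137097) (nat_lit 836) (nat_lit 3719142233) (nat_lit 76) (nat_lit 50616393787) (nat_lit 255) (nat_lit 5) (nat_lit 266) (nat_lit 5) (nat_lit 256) (nat_lit 5) (nat_lit 511) (nat_lit 491) (nat_lit 198)) (XT.lf (nat_lit 0) (nat_lit 35645771966) (nat_lit 684) (nat_lit 42165824104) (nat_lit 76) (nat_lit 5267666022) (nat_lit 247) (nat_lit 5) (nat_lit 256) (nat_lit 5) (nat_lit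 248) (nat_lit 5) (nat_lit 512) (nat_lit 491) (nat_lit 197))) (XT.nd (nat_lit 78) (nat_lit 0) (nat_lit 0) (XT.lf (nat_lit 0) (nat_lit 2230784590) (nat_lit 608) (nat_lit 42278118995) (nat_lit 684) (nat_lit 39946334110) (nat_lit 239) (nat_lit 5) (nat_lit 247) (nat_lit 5) (nat_lit 248) (nat_lit 5) (nat_lit 513) (nat_lit 491) (nat_lit 196)) (XT.lf (nat_lit 0) (nat_lit 48823248999) (nat_lit 608) (nat_lit 5240064736) (nat_lit 684) (nat_lit 31796417377) (nat_lit 239) (nat_lit 5) (nat_lit 247) (nat_lit 5) (nat_lit 248) (nat_lit 5) (nat_lit 514) (nat_lit 491) (nat_lit 195)))))) (XT.nd (nat_lit 546) (nat_lit 1900) (nat_lit 0) (XT.nd (nat_lit 234) (nat_lit 1140) (nat_lit 0) (XT.nd (nat_lit 78) (nat_lit 532) (nat_lit 0) (XT.lf (nat_lit 0) (nat_lit 9373291022) (nat_lit 532) (nat_lit 54937114049) (nat_lit 608) (nat_lit 22983772879) (nat_lit 232) (nat_lit 5) (nat_lit 239) (nat_lit 5) (nat_lit 240) (nat_lit 5) (nat_lit 515) (nat_lit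 491) (nat_lit 194)) (XT.nd (nat_lit 78) (nat_lit 532) (nat_lit 0) (XT.lf (nat_lit 0) (nat_lit 57881257524) (nat_lit 532) (nat_lit 17408632735) (nat_lit 608) (nat_lit 13469018580) (nat_lit 232) (nat_lit 5) (nat_lit 239) (nat_lit 5) (nat_lit 240) (nat_lit 5) (nat_lit 516) (nat_lit 491) (nat_lit 193)) (XT.lf (nat_lit 0) (nat_lit 17717999917) (nat_lit 532) (nat_lit 69254926329) (nat_lit 608) (nat_lit 3283430501) (nat_lit 225) (nat_lit 5) (nat_lit 232) (nat_lit 5) (nat_lit 233) (nat_lit 5) (nat_lit 517) (nat_lit 491) (nat_lit 192)))) (XT.nd (nat_lit 156) (nat_lit 532) (nat_lit 0) (XT.nd (nat_lit 78) (nat_lit 532) (nat_lit 0) (XT.lf (nat_lit 0) (nat_lit 7553956895) (nat_lit 608) (nat_lit 23630027007) (nat_lit 76) (nat_lit 60598059301) (nat_lit 224) (nat_lit 5) (nat_lit 232) (nat_lit 5) (nat_lit 225) (nat_lit 5) (nat_lit 518) (nat_lit 491) (nat_lit 191)) (XT.lf (nat_lit 0) (nat_lit 18992093684) (nat_lit 608) (nat_lit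 66180485324) (nat_lit 76) (nat_lit 8169697396) (nat_lit 217) (nat_lit 5) (nat_lit 225) (nat_lit 5) (nat_lit 218) (nat_lit 5) (nat_lit 519) (nat_lit 491) (nat_lit 190))) (XT.nd (nat_lit 78) (nat_lit 532) (nat_lit 0) (XT.lf (nat_lit 0) (nat_lit 31322750575) (nat_lit 608) (nat_lit 15291912198) (nat_lit 76) (nat_lit 48318172617) (nat_lit 217) (nat_lit 5) (nat_lit 225) (nat_lit 5) (nat_lit 218) (nat_lit 5) (nat_lit 520) (nat_lit 491) (nat_lit 189)) (XT.lf (nat_lit 0) (nat_lit 37861753474) (nat_lit 532) (nat_lit 6525178598) (nat_lit 608) (nat_lit 52173270995) (nat_lit 210) (nat_lit 5) (nat_lit 217) (nat_lit 5) (nat_lit 218) (nat_lit 5) (nat_lit 521) (nat_lit 491) (nat_lit 188))))) (XT.nd (nat_lit 312) (nat_lit 912) (nat_lit 0) (XT.nd (nat_lit 156) (nat_lit 532) (nat_lit 0) (XT.nd (nat_lit 78) (nat_lit 456) (nat_lit 0) (XT.lf (nat_lit 0) (nat_lit 58332848391) (nat_lit 608) (nat_lit 5644381279) (nat_lit 76) (nat_lit 34244467887)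 (nat_lit 210) (nat_lit 5) (nat_lit 218) (nat_lit 5) (nat_lit 211) (nat_lit 5) (nat_lit 522) (nat_lit 491) (nat_lit 187)) (XT.lf (nat_lit 0) (nat_lit 49910253621) (nat_lit 456) (nat_lit 23330932660) (nat_lit 532) (nat_lit 26675529345) (nat_lit 204) (nat_lit 5) (nat_lit 210) (nat_lit 5) (nat_lit 211) (nat_lit 5) (nat_lit 523) (nat_lit 491) (nat_lit 186))) (XT.nd (nat_lit 78) (nat_lit 76) (nat_lit 0) (XT.lf (nat_lit 0) (nat_lit 5514856412) (nat_lit 456) (nat_lit 83370334933) (nat_lit 532) (nat_lit 12768740442) (nat_lit 198) (nat_lit 5) (nat_lit 204) (nat_lit 5) (nat_lit 205) (nat_lit 5) (nat_lit 524) (nat_lit 491) (nat_lit 185)) (XT.lf (nat_lit 0) (nat_lit 2265548316) (nat_lit 532) (nat_lit 39952553436) (nat_lit 76) (nat_lit 61202494894) (nat_lit 197) (nat_lit 5) (nat_lit 204) (nat_lit 5) (nat_lit 198) (nat_lit 5) (nat_lit 525) (nat_lit 491) (nat_lit 184)))) (XT.nd (nat_lit 156) (nat_lit 456) (nat_lit 0) (XT.nd (nat_lit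 78) (nat_lit 0) (nat_lit 0) (XT.lf (nat_lit 0) (nat_lit 17672953327) (nat_lit 532) (nat_lit 87088968496) (nat_lit 76) (nat_lit 469185190) (nat_lit 191) (nat_lit 5) (nat_lit 198) (nat_lit 5) (nat_lit 192) (nat_lit 5) (nat_lit 526) (nat_lit 491) (nat_lit 183)) (XT.lf (nat_lit 0) (nat_lit 34367711215) (nat_lit 532) (nat_lit 28707545981) (nat_lit 76) (nat_lit 43995921629) (nat_lit 191) (nat_lit 5) (nat_lit 198) (nat_lit 5) (nat_lit 192) (nat_lit 5) (nat_lit 527) (nat_lit 491) (nat_lit 182))) (XT.nd (nat_lit 78) (nat_lit 0) (nat_lit 0) (XT.lf (nat_lit 0) (nat_lit 32050367926) (nat_lit 456) (nat_lit 19820733391) (nat_lit 532) (nat_lit 57086117843) (nat_lit 185) (nat_lit 5) (nat_lit 191) (nat_lit 5) (nat_lit 192) (nat_lit 5) (nat_lit 528) (nat_lit 491) (nat_lit 181)) (XT.lf (nat_lit 0) (nat_lit 70429793052) (nat_lit 532) (nat_lit 15912625929) (nat_lit 76) (nat_lit 24541515780) (nat_lit 185) (nat_lit 5) (nat_lit 192) (nat_lit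 5) (nat_lit 186) (nat_lit 5) (nat_lit 529) (nat_lit 491) (nat_lit 180))))))) (XT.nd (nat_lit 60606) (nat_lit 0) (nat_lit 2812) (XT.nd (nat_lit 59982) (nat_lit 0) (nat_lit 7372) (XT.nd (nat_lit 59670) (nat_lit 0) (nat_lit 7220) (XT.nd (nat_lit 59514) (nat_lit 0) (nat_lit 7144) (XT.lf (nat_lit 0) (nat_lit 47644534698) (nat_lit 380) (nat_lit 42554658903) (nat_lit 456) (nat_lit 22649639835) (nat_lit 180) (nat_lit 5) (nat_lit 185) (nat_lit 5) (nat_lit 186) (nat_lit 5) (nat_lit 530) (nat_lit 491) (nat_lit 179)) (XT.nd (nat_lit 78) (nat_lit 0) (nat_lit 0) (XT.lf (nat_lit 0) (nat_lit 12366433421) (nat_lit 1292) (nat_lit 9236910720) (nat_lit 1292) (nat_lit 9236910720) (nat_lit 274) (nat_lit 3) (nat_lit 291) (nat_lit 3) (nat_lit 291) (nat_lit 5) (nat_lit 492) (nat_lit 492) (nat_lit 216)) (XT.lf (nat_lit 76) (nat_lit 11981108936) (nat_lit 0) (nat_lit 13254958117) (nat_lit 1292) (nat_lit 37365680135) (nat_lit 275) (nat_lit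 5) (nat_lit 274) (nat_lit 3) (nat_lit 291) (nat_lit 5) (nat_lit 493) (nat_lit 492) (nat_lit 215)))) (XT.nd (nat_lit 156) (nat_lit 0) (nat_lit 76) (XT.nd (nat_lit 78) (nat_lit 0) (nat_lit 0) (XT.lf (nat_lit 0) (nat_lit 26111231469) (nat_lit 1216) (nat_lit 19987999486) (nat_lit 1292) (nat_lit 17440684932) (nat_lit 275) (nat_lit 5) (nat_lit 291) (nat_lit 5) (nat_lit 292) (nat_lit 5) (nat_lit 494) (nat_lit 492) (nat_lit 214)) (XT.lf (nat_lit 76) (nat_lit 11659539090) (nat_lit 0) (nat_lit 15595781716) (nat_lit 1292) (nat_lit 37243628890) (nat_lit 276) (nat_lit 5) (nat_lit 275) (nat_lit 5) (nat_lit 292) (nat_lit 5) (nat_lit 495) (nat_lit 492) (nat_lit 213))) (XT.nd (nat_lit 78) (nat_lit 0) (nat_lit 0) (XT.lf (nat_lit 0) (nat_lit 28789041138) (nat_lit 1216) (nat_lit 20968937559) (nat_lit 1292) (nat_lit 15718116720) (nat_lit 276) (nat_lit 5) (nat_lit 292) (nat_lit 5) (nat_lit 293) (nat_lit 5) (nat_lit 496) (nat_lit 492)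 (nat_lit 212)) (XT.lf (nat_lit 76) (nat_lit 11935777190) (nat_lit 0) (nat_lit 18701533992) (nat_lit 1292) (nat_lit 35837188326) (nat_lit 277) (nat_lit 5) (nat_lit 276) (nat_lit 5) (nat_lit 293) (nat_lit 5) (nat_lit 497) (nat_lit 492) (nat_lit 211))))) (XT.nd (nat_lit 312) (nat_lit 0) (nat_lit 152) (XT.nd (nat_lit 156) (nat_lit 0) (nat_lit 76) (XT.nd (nat_lit 78) (nat_lit 0) (nat_lit 0) (XT.lf (nat_lit 0) (nat_lit 32881996821) (nat_lit 1216) (nat_lit 21369228183) (nat_lit 1292) (nat_lit 13241401830) (nat_lit 277) (nat_lit 5) (nat_lit 293) (nat_lit 5) (nat_lit 294) (nat_lit 5) (nat_lit 498) (nat_lit 492) (nat_lit 210)) (XT.lf (nat_lit 76) (nat_lit 12860772894) (nat_lit 0) (nat_lit 22641463617) (nat_lit 1292) (nat_lit 33029815199) (nat_lit 278) (nat_lit 5) (nat_lit 277) (nat_lit 5) (nat_lit 294) (nat_lit 5) (nat_lit 499) (nat_lit 492) (nat_lit 209))) (XT.nd (nat_lit 78) (nat_lit 0) (nat_lit 0) (XT.lf (nat_lit 0) (nat_lit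 38513770758) (nat_lit 1216) (nat_lit 21138313692) (nat_lit 1292) (nat_lit 9941194389) (nat_lit 278) (nat_lit 5) (nat_lit 294) (nat_lit 5) (nat_lit 295) (nat_lit 5) (nat_lit 500) (nat_lit 492) (nat_lit 208)) (XT.lf (nat_lit 76) (nat_lit 14488818486) (nat_lit 0) (nat_lit 27489736393) (nat_lit 1292) (nat_lit 28696900914) (nat_lit 279) (nat_lit 5) (nat_lit 278) (nat_lit 5) (nat_lit 295) (nat_lit 5) (nat_lit 501) (nat_lit 492) (nat_lit 207)))) (XT.nd (nat_lit 156) (nat_lit 0) (nat_lit 76) (XT.nd (nat_lit 78) (nat_lit 0) (nat_lit 0) (XT.lf (nat_lit 0) (nat_lit 45816511722) (nat_lit 1216) (nat_lit 20222311328) (nat_lit 1292) (nat_lit 5743198252) (nat_lit 279) (nat_lit 5) (nat_lit 295) (nat_lit 5) (nat_lit 296) (nat_lit 5) (nat_lit 502) (nat_lit 492) (nat_lit 206)) (XT.lf (nat_lit 76) (nat_lit 16877733687) (nat_lit 0) (nat_lit 33325773077) (nat_lit 1292) (nat_lit 22705260146) (nat_lit 280) (nat_lit 5) (nat_lit 279) (nat_lit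 5) (nat_lit 296) (nat_lit 5) (nat_lit 503) (nat_lit 492) (nat_lit 205))) (XT.nd (nat_lit 78) (nat_lit 0) (nat_lit 0) (XT.lf (nat_lit 0) (nat_lit 54931380447) (nat_lit 1216) (nat_lit 18563830042) (nat_lit 1292) (nat_lit 567826447) (nat_lit 280) (nat_lit 5) (nat_lit 296) (nat_lit 5) (nat_lit 297) (nat_lit 5) (nat_lit 504) (nat_lit 492) (nat_lit 204)) (XT.lf (nat_lit 76) (nat_lit 20089059208) (nat_lit 0) (nat_lit 40234609639) (nat_lit 1292) (nat_lit 14912588975) (nat_lit 281) (nat_lit 5) (nat_lit 280) (nat_lit 5) (nat_lit 297) (nat_lit 5) (nat_lit 505) (nat_lit 492) (nat_lit 203)))))) (XT.nd (nat_lit 624) (nat_lit 2280) (nat_lit 0) (XT.nd (nat_lit 312) (nat_lit 1292) (nat_lit 0) (XT.nd (nat_lit 156) (nat_lit 1216) (nat_lit 0) (XT.nd (nat_lit 78) (nat_lit 0) (nat_lit 76) (XT.lf (nat_lit 76) (nat_lit 60281697418) (nat_lit 0) (nat_lit 5783009374) (nat_lit 1292) (nat_lit 10374359223) (nat_lit 281) (nat_lit 5) (nat_lit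 280) (nat_lit 5) (nat_lit 297) (nat_lit 5) (nat_lit 506) (nat_lit 492) (nat_lit 202)) (XT.lf (nat_lit 76) (nat_lit 24188259289) (nat_lit 0) (nat_lit 48307281503) (nat_lit 1292) (nat_lit 5166890819) (nat_lit 282) (nat_lit 5) (nat_lit 281) (nat_lit 5) (nat_lit 298) (nat_lit 5) (nat_lit 507) (nat_lit 492) (nat_lit 201))) (XT.nd (nat_lit 78) (nat_lit 0) (nat_lit 76) (XT.lf (nat_lit 0) (nat_lit 414534705) (nat_lit 1292) (nat_lit 12903289353) (nat_lit 1368) (nat_lit 65597970263) (nat_lit 264) (nat_lit 5) (nat_lit 281) (nat_lit 5) (nat_lit 282) (nat_lit 5) (nat_lit 508) (nat_lit 492) (nat_lit 200)) (XT.lf (nat_lit 0) (nat_lit 6563505077) (nat_lit 1292) (nat_lit 51011449828) (nat_lit 76) (nat_lit 22615149838) (nat_lit 265) (nat_lit 5) (nat_lit 282) (nat_lit 5) (nat_lit 266) (nat_lit 5) (nat_lit 509) (nat_lit 492) (nat_lit 199)))) (XT.nd (nat_lit 156) (nat_lit 608) (nat_lit 0) (XT.nd (nat_lit 78) (nat_lit 760) (nat_lit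 0) (XT.lf (nat_lit 0) (nat_lit 13159958169) (nat_lit 1292) (nat_lit 8844709145) (nat_lit 76) (nat_lit 59490086850) (nat_lit 265) (nat_lit 5) (nat_lit 282) (nat_lit 5) (nat_lit 266) (nat_lit 5) (nat_lit 510) (nat_lit 492) (nat_lit 198)) (XT.lf (nat_lit 0) (nat_lit 20436984816) (nat_lit 836) (nat_lit 47697398562) (nat_lit 76) (nat_lit 14689679382) (nat_lit 255) (nat_lit 5) (nat_lit 266) (nat_lit 5) (nat_lit 256) (nat_lit 5) (nat_lit 511) (nat_lit 492) (nat_lit 197))) (XT.nd (nat_lit 78) (nat_lit 608) (nat_lit 0) (XT.lf (nat_lit 0) (nat_lit 28239976483) (nat_lit 836) (nat_lit 3811220991) (nat_lit 76) (nat_lit 52132823602) (nat_lit 255) (nat_lit 5) (nat_lit 266) (nat_lit 5) (nat_lit 256) (nat_lit 5) (nat_lit 512) (nat_lit 492) (nat_lit 196)) (XT.lf (nat_lit 0) (nat_lit 36735634984) (nat_lit 684) (nat_lit 43410863556) (nat_lit 76) (nat_lit 5424522373) (nat_lit 247) (nat_lit 5) (nat_lit 256) (nat_lit 5) (nat_lit 248)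 (nat_lit 5) (nat_lit 513) (nat_lit 492) (nat_lit 195))))) (XT.nd (nat_lit 312) (nat_lit 1140) (nat_lit 0) (XT.nd (nat_lit 156) (nat_lit 532) (nat_lit 0) (XT.nd (nat_lit 78) (nat_lit 0) (nat_lit 0) (XT.lf (nat_lit 0) (nat_lit 2317447955) (nat_lit 608) (nat_lit 43546805555) (nat_lit 684) (nat_lit 41124034610) (nat_lit 239) (nat_lit 5) (nat_lit 247) (nat_lit 5) (nat_lit 248) (nat_lit 5) (nat_lit 514) (nat_lit 492) (nat_lit 194)) (XT.lf (nat_lit 0) (nat_lit 50307111350) (nat_lit 608) (nat_lit 5397599678) (nat_lit 684) (nat_lit 32730222983) (nat_lit 239) (nat_lit 5) (nat_lit 247) (nat_lit 5) (nat_lit 248) (nat_lit 5) (nat_lit 515) (nat_lit 492) (nat_lit 193))) (XT.nd (nat_lit 78) (nat_lit 0) (nat_lit 0) (XT.lf (nat_lit 0) (nat_lit 9674053171) (nat_lit 532) (nat_lit 56584778981) (nat_lit 608) (nat_lit 23653593709) (nat_lit 232) (nat_lit 5) (nat_lit 239) (nat_lit 5) (nat_lit 240) (nat_lit 5) (nat_lit 516) (nat_lit 492)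 (nat_lit 192)) (XT.lf (nat_lit 0) (nat_lit 59636688861) (nat_lit 532) (nat_lit 17930456290) (nat_lit 608) (nat_lit 13853970345) (nat_lit 232) (nat_lit 5) (nat_lit 239) (nat_lit 5) (nat_lit 240) (nat_lit 5) (nat_lit 517) (nat_lit 492) (nat_lit 191)))) (XT.nd (nat_lit 156) (nat_lit 532) (nat_lit 0) (XT.nd (nat_lit 78) (nat_lit 76) (nat_lit 0) (XT.lf (nat_lit 0) (nat_lit 18268898280) (nat_lit 532) (nat_lit 71331423555) (nat_lit 608) (nat_lit 3363175630) (nat_lit 225) (nat_lit 5) (nat_lit 232) (nat_lit 5) (nat_lit 233) (nat_lit 5) (nat_lit 518) (nat_lit 492) (nat_lit 190)) (XT.lf (nat_lit 0) (nat_lit 7798431674) (nat_lit 608) (nat_lit 24319774381) (nat_lit 76) (nat_lit 62416759227) (nat_lit 224) (nat_lit 5) (nat_lit 232) (nat_lit 5) (nat_lit 225) (nat_lit 5) (nat_lit 519) (nat_lit 492) (nat_lit 189))) (XT.nd (nat_lit 78) (nat_lit 0) (nat_lit 0) (XT.lf (nat_lit 0) (nat_lit 19579388709) (nat_lit 608) (nat_lit 68146419159)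 (nat_lit 76) (nat_lit 8416207430) (nat_lit 217) (nat_lit 5) (nat_lit 225) (nat_lit 5) (nat_lit 218) (nat_lit 5) (nat_lit 520) (nat_lit 492) (nat_lit 188)) (XT.lf (nat_lit 0) (nat_lit 32279454660) (nat_lit 608) (nat_lit 15731756240) (nat_lit 76) (nat_lit 49769095573) (nat_lit 217) (nat_lit 5) (nat_lit 225) (nat_lit 5) (nat_lit 218) (nat_lit 5) (nat_lit 521) (nat_lit 492) (nat_lit 187))))))))
noncomputable def xc248 : XT := (XT.nd (nat_lit 61854) (nat_lit 0) (nat_lit 456) (XT.nd (nat_lit 60684) (nat_lit 0) (nat_lit 5320) (XT.nd (nat_lit 546) (nat_lit 456) (nat_lit 0) (XT.nd (nat_lit 234) (nat_lit 988) (nat_lit 0) (XT.nd (nat_lit 78) (nat_lit 456) (nat_lit 0) (XT.lf (nat_lit 0) (nat_lit 39016333978) (nat_lit 532) (nat_lit 6718911874) (nat_lit 608) (nat_lit 53721258898) (nat_lit 210) (nat_lit 5) (nat_lit 217) (nat_lit 5) (nat_lit 218) (nat_lit 5) (nat_lit 522) (nat_lit 492) (nat_lit 186)) (XT.nd (nat_lit 78) (nat_lit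 456) (nat_lit 0) (XT.lf (nat_lit 0) (nat_lit 60099071955) (nat_lit 608) (nat_lit 5795059444) (nat_lit 76) (nat_lit 35273726801) (nat_lit 210) (nat_lit 5) (nat_lit 218) (nat_lit 5) (nat_lit 211) (nat_lit 5) (nat_lit 523) (nat_lit 492) (nat_lit 185)) (XT.lf (nat_lit 0) (nat_lit 51426031627) (nat_lit 456) (nat_lit 24028332948) (nat_lit 532) (nat_lit 27459371189) (nat_lit 204) (nat_lit 5) (nat_lit 210) (nat_lit 5) (nat_lit 211) (nat_lit 5) (nat_lit 524) (nat_lit 492) (nat_lit 184)))) (XT.nd (nat_lit 156) (nat_lit 456) (nat_lit 0) (XT.nd (nat_lit 78) (nat_lit 76) (nat_lit 0) (XT.lf (nat_lit 0) (nat_lit 5699043972) (nat_lit 456) (nat_lit 85868385217) (nat_lit 532) (nat_lit 13135647128) (nat_lit 198) (nat_lit 5) (nat_lit 204) (nat_lit 5) (nat_lit 205) (nat_lit 5) (nat_lit 525) (nat_lit 492) (nat_lit 183)) (XT.lf (nat_lit 0) (nat_lit 2348893673) (nat_lit 532) (nat_lit 41132625191) (nat_lit 76) (nat_lit 63041231524) (nat_lit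 197) (nat_lit 5) (nat_lit 204) (nat_lit 5) (nat_lit 198) (nat_lit 5) (nat_lit 526) (nat_lit 492) (nat_lit 182))) (XT.nd (nat_lit 78) (nat_lit 0) (nat_lit 0) (XT.lf (nat_lit 0) (nat_lit 18218279958) (nat_lit 532) (nat_lit 89682889117) (nat_lit 76) (nat_lit 486414298) (nat_lit 191) (nat_lit 5) (nat_lit 198) (nat_lit 5) (nat_lit 192) (nat_lit 5) (nat_lit 527) (nat_lit 492) (nat_lit 181)) (XT.lf (nat_lit 0) (nat_lit 35413439669) (nat_lit 532) (nat_lit 29550569998) (nat_lit 76) (nat_lit 45318860980) (nat_lit 191) (nat_lit 5) (nat_lit 198) (nat_lit 5) (nat_lit 192) (nat_lit 5) (nat_lit 528) (nat_lit 492) (nat_lit 180))))) (XT.nd (nat_lit 59826) (nat_lit 0) (nat_lit 6840) (XT.nd (nat_lit 59670) (nat_lit 0) (nat_lit 6764) (XT.nd (nat_lit 78) (nat_lit 0) (nat_lit 0) (XT.lf (nat_lit 0) (nat_lit 33029902873) (nat_lit 456) (nat_lit 20411773788) (nat_lit 532) (nat_lit 58783823253) (nat_lit 185) (nat_lit 5) (nat_lit 191) (nat_lit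 5) (nat_lit 192) (nat_lit 5) (nat_lit 529) (nat_lit 492) (nat_lit 179)) (XT.lf (nat_lit 0) (nat_lit 72556741923) (nat_lit 532) (nat_lit 16372116063) (nat_lit 76) (nat_lit 25281170686) (nat_lit 185) (nat_lit 5) (nat_lit 192) (nat_lit 5) (nat_lit 186) (nat_lit 5) (nat_lit 530) (nat_lit 492) (nat_lit 178))) (XT.nd (nat_lit 78) (nat_lit 0) (nat_lit 0) (XT.lf (nat_lit 0) (nat_lit 12754300109) (nat_lit 1292) (nat_lit 9505326131) (nat_lit 1292) (nat_lit 9505326131) (nat_lit 274) (nat_lit 3) (nat_lit 291) (nat_lit 3) (nat_lit 291) (nat_lit 5) (nat_lit 493) (nat_lit 493) (nat_lit 214)) (XT.lf (nat_lit 76) (nat_lit 12357755596) (nat_lit 0) (nat_lit 13668323372) (nat_lit 1292) (nat_lit 38452725116) (nat_lit 275) (nat_lit 5) (nat_lit 274) (nat_lit 3) (nat_lit 291) (nat_lit 5) (nat_lit 494) (nat_lit 493) (nat_lit 213)))) (XT.nd (nat_lit 156) (nat_lit 0) (nat_lit 76) (XT.nd (nat_lit 78) (nat_lit 0) (nat_lit 0) (XT.lf (nat_lit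 0) (nat_lit 26926392516) (nat_lit 1216) (nat_lit 20569814239) (nat_lit 1292) (nat_lit 17948944484) (nat_lit 275) (nat_lit 5) (nat_lit 291) (nat_lit 5) (nat_lit 292) (nat_lit 5) (nat_lit 495) (nat_lit 493) (nat_lit 212)) (XT.lf (nat_lit 76) (nat_lit 12026975737) (nat_lit 0) (nat_lit 16077071548) (nat_lit 1292) (nat_lit 38328931711) (nat_lit 276) (nat_lit 5) (nat_lit 275) (nat_lit 5) (nat_lit 292) (nat_lit 5) (nat_lit 496) (nat_lit 493) (nat_lit 211))) (XT.nd (nat_lit 78) (nat_lit 0) (nat_lit 0) (XT.lf (nat_lit 0) (nat_lit 29682749157) (nat_lit 1216) (nat_lit 21579832257) (nat_lit 1292) (nat_lit 16176888786) (nat_lit 276) (nat_lit 5) (nat_lit 292) (nat_lit 5) (nat_lit 293) (nat_lit 5) (nat_lit 497) (nat_lit 493) (nat_lit 210)) (XT.lf (nat_lit 76) (nat_lit 12311845763) (nat_lit 0) (nat_lit 19273919662) (nat_lit 1292) (nat_lit 36882082248) (nat_lit 277) (nat_lit 5) (nat_lit 276) (nat_lit 5) (nat_lit 293) (nat_lit 5)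 (nat_lit 498) (nat_lit 493) (nat_lit 209)))))) (XT.nd (nat_lit 546) (nat_lit 1672) (nat_lit 0) (XT.nd (nat_lit 234) (nat_lit 0) (nat_lit 76) (XT.nd (nat_lit 78) (nat_lit 0) (nat_lit 0) (XT.lf (nat_lit 0) (nat_lit 33896831391) (nat_lit 1216) (nat_lit 21991867085) (nat_lit 1292) (nat_lit 13627849348) (nat_lit 277) (nat_lit 5) (nat_lit 293) (nat_lit 5) (nat_lit 294) (nat_lit 5) (nat_lit 499) (nat_lit 493) (nat_lit 208)) (XT.nd (nat_lit 78) (nat_lit 0) (nat_lit 76) (XT.lf (nat_lit 76) (nat_lit 13264853259) (nat_lit 0) (nat_lit 23330174064) (nat_lit 1292) (nat_lit 33992147842) (nat_lit 278) (nat_lit 5) (nat_lit 277) (nat_lit 5) (nat_lit 294) (nat_lit 5) (nat_lit 500) (nat_lit 493) (nat_lit 207)) (XT.lf (nat_lit 0) (nat_lit 39696011764) (nat_lit 1216) (nat_lit 21753835654) (nat_lit 1292) (nat_lit 10230418752) (nat_lit 278) (nat_lit 5) (nat_lit 294) (nat_lit 5) (nat_lit 295) (nat_lit 5) (nat_lit 501) (nat_lit 493) (nat_lit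 206)))) (XT.nd (nat_lit 156) (nat_lit 0) (nat_lit 76) (XT.nd (nat_lit 78) (nat_lit 0) (nat_lit 76) (XT.lf (nat_lit 76) (nat_lit 14941927867) (nat_lit 0) (nat_lit 28322207449) (nat_lit 1292) (nat_lit 29530791419) (nat_lit 279) (nat_lit 5) (nat_lit 278) (nat_lit 5) (nat_lit 295) (nat_lit 5) (nat_lit 502) (nat_lit 493) (nat_lit 205)) (XT.lf (nat_lit 0) (nat_lit 47216394466) (nat_lit 1216) (nat_lit 20810230829) (nat_lit 1292) (nat_lit 5908089182) (nat_lit 279) (nat_lit 5) (nat_lit 295) (nat_lit 5) (nat_lit 296) (nat_lit 5) (nat_lit 503) (nat_lit 493) (nat_lit 204))) (XT.nd (nat_lit 78) (nat_lit 0) (nat_lit 76) (XT.lf (nat_lit 76) (nat_lit 17402631715) (nat_lit 0) (nat_lit 34331806675) (nat_lit 1292) (nat_lit 23360841063) (nat_lit 280) (nat_lit 5) (nat_lit 279) (nat_lit 5) (nat_lit 296) (nat_lit 5) (nat_lit 504) (nat_lit 493) (nat_lit 203)) (XT.lf (nat_lit 0) (nat_lit 56603366758) (nat_lit 1216) (nat_lit 19101932652)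 (nat_lit 1292) (nat_lit 578901782) (nat_lit 280) (nat_lit 5) (nat_lit 296) (nat_lit 5) (nat_lit 297) (nat_lit 5) (nat_lit 505) (nat_lit 493) (nat_lit 202))))) (XT.nd (nat_lit 312) (nat_lit 684) (nat_lit 0) (XT.nd (nat_lit 156) (nat_lit 1216) (nat_lit 0) (XT.nd (nat_lit 78) (nat_lit 0) (nat_lit 0) (XT.lf (nat_lit 76) (nat_lit 20710358842) (nat_lit 0) (nat_lit 41446543693) (nat_lit 1292) (nat_lit 15335731967) (nat_lit 281) (nat_lit 5) (nat_lit 280) (nat_lit 5) (nat_lit 297) (nat_lit 5) (nat_lit 506) (nat_lit 493) (nat_lit 201)) (XT.lf (nat_lit 76) (nat_lit 62108233640) (nat_lit 0) (nat_lit 5961252825) (nat_lit 1292) (nat_lit 10662061186) (nat_lit 281) (nat_lit 5) (nat_lit 280) (nat_lit 5) (nat_lit 297) (nat_lit 5) (nat_lit 507) (nat_lit 493) (nat_lit 200))) (XT.nd (nat_lit 78) (nat_lit 1292) (nat_lit 0) (XT.lf (nat_lit 76) (nat_lit 24932543879) (nat_lit 0) (nat_lit 49760171197) (nat_lit 1292) (nat_lit 5298915204)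 (nat_lit 282) (nat_lit 5) (nat_lit 281) (nat_lit 5) (nat_lit 298) (nat_lit 5) (nat_lit 508) (nat_lit 493) (nat_lit 199)) (XT.lf (nat_lit 0) (nat_lit 448848292) (nat_lit 1292) (nat_lit 13271853886) (nat_lit 1368) (nat_lit 67561904896) (nat_lit 264) (nat_lit 5) (nat_lit 281) (nat_lit 5) (nat_lit 282) (nat_lit 5) (nat_lit 509) (nat_lit 493) (nat_lit 198)))) (XT.nd (nat_lit 156) (nat_lit 760) (nat_lit 0) (XT.nd (nat_lit 78) (nat_lit 0) (nat_lit 0) (XT.lf (nat_lit 0) (nat_lit 6781797524) (nat_lit 1292) (nat_lit 52522764313) (nat_lit 76) (nat_lit 23290599819) (nat_lit 265) (nat_lit 5) (nat_lit 282) (nat_lit 5) (nat_lit 266) (nat_lit 5) (nat_lit 510) (nat_lit 493) (nat_lit 197)) (XT.lf (nat_lit 0) (nat_lit 13575521278) (nat_lit 1292) (nat_lit 9091575652) (nat_lit 76) (nat_lit 61271872451) (nat_lit 265) (nat_lit 5) (nat_lit 282) (nat_lit 5) (nat_lit 266) (nat_lit 5) (nat_lit 511) (nat_lit 493) (nat_lit 196))) (XT.nd (nat_lit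 78) (nat_lit 0) (nat_lit 0) (XT.lf (nat_lit 0) (nat_lit 21070410159) (nat_lit 836) (nat_lit 49109392840) (nat_lit 76) (nat_lit 15128367823) (nat_lit 255) (nat_lit 5) (nat_lit 266) (nat_lit 5) (nat_lit 256) (nat_lit 5) (nat_lit 512) (nat_lit 493) (nat_lit 195)) (XT.lf (nat_lit 0) (nat_lit 29106899854) (nat_lit 836) (nat_lit 3907181233) (nat_lit 76) (nat_lit 53694864678) (nat_lit 255) (nat_lit 5) (nat_lit 266) (nat_lit 5) (nat_lit 256) (nat_lit 5) (nat_lit 513) (nat_lit 493) (nat_lit 194))))))) (XT.nd (nat_lit 1170) (nat_lit 0) (nat_lit 0) (XT.nd (nat_lit 546) (nat_lit 2508) (nat_lit 0) (XT.nd (nat_lit 234) (nat_lit 1140) (nat_lit 0) (XT.nd (nat_lit 78) (nat_lit 608) (nat_lit 0) (XT.lf (nat_lit 0) (nat_lit 37857017690) (nat_lit 684) (nat_lit 44694398557) (nat_lit 76) (nat_lit 5586151785) (nat_lit 247) (nat_lit 5) (nat_lit 256) (nat_lit 5) (nat_lit 248) (nat_lit 5) (nat_lit 514) (nat_lit 493) (nat_lit 193)) (XT.nd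 (nat_lit 78) (nat_lit 0) (nat_lit 0) (XT.lf (nat_lit 0) (nat_lit 2405578075) (nat_lit 608) (nat_lit 44853533023) (nat_lit 684) (nat_lit 42338253789) (nat_lit 239) (nat_lit 5) (nat_lit 247) (nat_lit 5) (nat_lit 248) (nat_lit 5) (nat_lit 515) (nat_lit 493) (nat_lit 192)) (XT.lf (nat_lit 0) (nat_lit 51834389429) (nat_lit 608) (nat_lit 5559841553) (nat_lit 684) (nat_lit 33693195829) (nat_lit 239) (nat_lit 5) (nat_lit 247) (nat_lit 5) (nat_lit 248) (nat_lit 5) (nat_lit 516) (nat_lit 493) (nat_lit 191)))) (XT.nd (nat_lit 156) (nat_lit 608) (nat_lit 0) (XT.nd (nat_lit 78) (nat_lit 0) (nat_lit 0) (XT.lf (nat_lit 0) (nat_lit 9982715165) (nat_lit 532) (nat_lit 58281899607) (nat_lit 608) (nat_lit 24344639587) (nat_lit 232) (nat_lit 5) (nat_lit 239) (nat_lit 5) (nat_lit 240) (nat_lit 5) (nat_lit 517) (nat_lit 493) (nat_lit 190)) (XT.lf (nat_lit 0) (nat_lit 61443692826) (nat_lit 532) (nat_lit 18467959548) (nat_lit 608) (nat_lit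 14251568161) (nat_lit 232) (nat_lit 5) (nat_lit 239) (nat_lit 5) (nat_lit 240) (nat_lit 5) (nat_lit 518) (nat_lit 493) (nat_lit 189))) (XT.nd (nat_lit 78) (nat_lit 76) (nat_lit 0) (XT.lf (nat_lit 0) (nat_lit 18835212345) (nat_lit 532) (nat_lit 73470281746) (nat_lit 608) (nat_lit 3446389886) (nat_lit 225) (nat_lit 5) (nat_lit 232) (nat_lit 5) (nat_lit 233) (nat_lit 5) (nat_lit 519) (nat_lit 493) (nat_lit 188)) (XT.lf (nat_lit 0) (nat_lit 8049215685) (nat_lit 608) (nat_lit 25031313663) (nat_lit 76) (nat_lit 64289976629) (nat_lit 224) (nat_lit 5) (nat_lit 232) (nat_lit 5) (nat_lit 225) (nat_lit 5) (nat_lit 520) (nat_lit 493) (nat_lit 187))))) (XT.nd (nat_lit 312) (nat_lit 1444) (nat_lit 0) (XT.nd (nat_lit 156) (nat_lit 532) (nat_lit 0) (XT.nd (nat_lit 78) (nat_lit 0) (nat_lit 0) (XT.lf (nat_lit 0) (nat_lit 20183296164) (nat_lit 608) (nat_lit 70172449283) (nat_lit 76) (nat_lit 8670031301) (nat_lit 217) (nat_lit 5)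 (nat_lit 225) (nat_lit 5) (nat_lit 218) (nat_lit 5) (nat_lit 521) (nat_lit 493) (nat_lit 186)) (XT.lf (nat_lit 0) (nat_lit 33263882760) (nat_lit 608) (nat_lit 16185881304) (nat_lit 76) (nat_lit 51263467128) (nat_lit 217) (nat_lit 5) (nat_lit 225) (nat_lit 5) (nat_lit 218) (nat_lit 5) (nat_lit 522) (nat_lit 493) (nat_lit 185))) (XT.nd (nat_lit 78) (nat_lit 0) (nat_lit 0) (XT.lf (nat_lit 0) (nat_lit 40204476839) (nat_lit 532) (nat_lit 6918573225) (nat_lit 608) (nat_lit 55316674375) (nat_lit 210) (nat_lit 5) (nat_lit 217) (nat_lit 5) (nat_lit 218) (nat_lit 5) (nat_lit 523) (nat_lit 493) (nat_lit 184)) (XT.lf (nat_lit 0) (nat_lit 61917350092) (nat_lit 608) (nat_lit 5951328729) (nat_lit 76) (nat_lit 36333752987) (nat_lit 210) (nat_lit 5) (nat_lit 218) (nat_lit 5) (nat_lit 211) (nat_lit 5) (nat_lit 524) (nat_lit 493) (nat_lit 183)))) (XT.nd (nat_lit 156) (nat_lit 532) (nat_lit 0) (XT.nd (nat_lit 78) (nat_lit 456) (nat_lit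 0) (XT.lf (nat_lit 0) (nat_lit 52986222698) (nat_lit 456) (nat_lit 24746800345) (nat_lit 532) (nat_lit 28267671095) (nat_lit 204) (nat_lit 5) (nat_lit 210) (nat_lit 5) (nat_lit 211) (nat_lit 5) (nat_lit 525) (nat_lit 493) (nat_lit 182)) (XT.lf (nat_lit 0) (nat_lit 5887681299) (nat_lit 456) (nat_lit 88441552653) (nat_lit 532) (nat_lit 13514488408) (nat_lit 198) (nat_lit 5) (nat_lit 204) (nat_lit 5) (nat_lit 205) (nat_lit 5) (nat_lit 526) (nat_lit 493) (nat_lit 181))) (XT.nd (nat_lit 78) (nat_lit 456) (nat_lit 0) (XT.lf (nat_lit 0) (nat_lit 2433856578) (nat_lit 532) (nat_lit 42349161352) (nat_lit 76) (nat_lit 64934977456) (nat_lit 197) (nat_lit 5) (nat_lit 204) (nat_lit 5) (nat_lit 198) (nat_lit 5) (nat_lit 527) (nat_lit 493) (nat_lit 180)) (XT.lf (nat_lit 0) (nat_lit 18779097404) (nat_lit 532) (nat_lit 92355703594) (nat_lit 76) (nat_lit 503979253) (nat_lit 191) (nat_lit 5) (nat_lit 198) (nat_lit 5) (nat_lit 192)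 (nat_lit 5) (nat_lit 528) (nat_lit 493) (nat_lit 179)))))) (XT.nd (nat_lit 60216) (nat_lit 0) (nat_lit 6536) (XT.nd (nat_lit 59904) (nat_lit 0) (nat_lit 6384) (XT.nd (nat_lit 59748) (nat_lit 0) (nat_lit 6308) (XT.lf (nat_lit 0) (nat_lit 36489696303) (nat_lit 532) (nat_lit 30419929625) (nat_lit 76) (nat_lit 46681312756) (nat_lit 191) (nat_lit 5) (nat_lit 198) (nat_lit 5) (nat_lit 192) (nat_lit 5) (nat_lit 529) (nat_lit 493) (nat_lit 178)) (XT.nd (nat_lit 78) (nat_lit 0) (nat_lit 0) (XT.lf (nat_lit 0) (nat_lit 13152834179) (nat_lit 1292) (nat_lit 9782292955) (nat_lit 1292) (nat_lit 9782292955) (nat_lit 274) (nat_lit 3) (nat_lit 291) (nat_lit 3) (nat_lit 291) (nat_lit 5) (nat_lit 494) (nat_lit 494) (nat_lit 212)) (XT.lf (nat_lit 76) (nat_lit 12744713536) (nat_lit 0) (nat_lit 14093187392) (nat_lit 1292) (nat_lit 39574328905) (nat_lit 275) (nat_lit 5) (nat_lit 274) (nat_lit 3) (nat_lit 291) (nat_lit 5) (nat_lit 495)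 (nat_lit 494) (nat_lit 211)))) (XT.nd (nat_lit 156) (nat_lit 0) (nat_lit 76) (XT.nd (nat_lit 78) (nat_lit 0) (nat_lit 0) (XT.lf (nat_lit 0) (nat_lit 27764181561) (nat_lit 1216) (nat_lit 21170106676) (nat_lit 1292) (nat_lit 18473310645) (nat_lit 275) (nat_lit 5) (nat_lit 291) (nat_lit 5) (nat_lit 292) (nat_lit 5) (nat_lit 496) (nat_lit 494) (nat_lit 210)) (XT.lf (nat_lit 76) (nat_lit 12404422274) (nat_lit 0) (nat_lit 16572029920) (nat_lit 1292) (nat_lit 39448630895) (nat_lit 276) (nat_lit 5) (nat_lit 275) (nat_lit 5) (nat_lit 292) (nat_lit 5) (nat_lit 497) (nat_lit 494) (nat_lit 209))) (XT.nd (nat_lit 78) (nat_lit 0) (nat_lit 0) (XT.lf (nat_lit 0) (nat_lit 30601544182) (nat_lit 1216) (nat_lit 22210097025) (nat_lit 1292) (nat_lit 16650157147) (nat_lit 276) (nat_lit 5) (nat_lit 292) (nat_lit 5) (nat_lit 293) (nat_lit 5) (nat_lit 498) (nat_lit 494) (nat_lit 208)) (XT.lf (nat_lit 76) (nat_lit 12698163393) (nat_lit 0)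 (nat_lit 19862825960) (nat_lit 1292) (nat_lit 37960057838) (nat_lit 277) (nat_lit 5) (nat_lit 276) (nat_lit 5) (nat_lit 293) (nat_lit 5) (nat_lit 499) (nat_lit 494) (nat_lit 207))))) (XT.nd (nat_lit 312) (nat_lit 0) (nat_lit 152) (XT.nd (nat_lit 156) (nat_lit 0) (nat_lit 76) (XT.nd (nat_lit 78) (nat_lit 0) (nat_lit 0) (XT.lf (nat_lit 0) (nat_lit 34940482176) (nat_lit 1216) (nat_lit 22634243568) (nat_lit 1292) (nat_lit 14026509942) (nat_lit 277) (nat_lit 5) (nat_lit 293) (nat_lit 5) (nat_lit 294) (nat_lit 5) (nat_lit 500) (nat_lit 494) (nat_lit 206)) (XT.lf (nat_lit 76) (nat_lit 13680008000) (nat_lit 0) (nat_lit 24039002406) (nat_lit 1292) (nat_lit 34984990029) (nat_lit 278) (nat_lit 5) (nat_lit 277) (nat_lit 5) (nat_lit 294) (nat_lit 5) (nat_lit 501) (nat_lit 494) (nat_lit 205))) (XT.nd (nat_lit 78) (nat_lit 0) (nat_lit 0) (XT.lf (nat_lit 0) (nat_lit 40912179969) (nat_lit 1216) (nat_lit 22388892566) (nat_lit 1292)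 (nat_lit 10528837142) (nat_lit 278) (nat_lit 5) (nat_lit 294) (nat_lit 5) (nat_lit 295) (nat_lit 5) (nat_lit 502) (nat_lit 494) (nat_lit 204)) (XT.lf (nat_lit 76) (nat_lit 15407571722) (nat_lit 0) (nat_lit 29179206092) (nat_lit 1292) (nat_lit 30391249499) (nat_lit 279) (nat_lit 5) (nat_lit 278) (nat_lit 5) (nat_lit 295) (nat_lit 5) (nat_lit 503) (nat_lit 494) (nat_lit 203)))) (XT.nd (nat_lit 156) (nat_lit 0) (nat_lit 76) (XT.nd (nat_lit 78) (nat_lit 0) (nat_lit 0) (XT.lf (nat_lit 0) (nat_lit 48656816354) (nat_lit 1216) (nat_lit 21416864232) (nat_lit 1292) (nat_lit 6078351918) (nat_lit 279) (nat_lit 5) (nat_lit 295) (nat_lit 5) (nat_lit 296) (nat_lit 5) (nat_lit 504) (nat_lit 494) (nat_lit 202)) (XT.lf (nat_lit 76) (nat_lit 17942210918) (nat_lit 0) (nat_lit 35367661907) (nat_lit 1292) (nat_lit 24037557626) (nat_lit 280) (nat_lit 5) (nat_lit 279) (nat_lit 5) (nat_lit 296) (nat_lit 5) (nat_lit 505) (nat_lit 494) (nat_lit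 201))) (XT.nd (nat_lit 78) (nat_lit 0) (nat_lit 0) (XT.lf (nat_lit 0) (nat_lit 58324132382) (nat_lit 1216) (nat_lit 19657258242) (nat_lit 1292) (nat_lit 590651475) (nat_lit 280) (nat_lit 5) (nat_lit 296) (nat_lit 5) (nat_lit 297) (nat_lit 5) (nat_lit 506) (nat_lit 494) (nat_lit 200)) (XT.lf (nat_lit 76) (nat_lit 21349228150) (nat_lit 0) (nat_lit 42694554731) (nat_lit 1292) (nat_lit 15772960418) (nat_lit 281) (nat_lit 5) (nat_lit 280) (nat_lit 5) (nat_lit 297) (nat_lit 5) (nat_lit 507) (nat_lit 494) (nat_lit 199))))))))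
noncomputable def xc249 : XT := (XT.nd (nat_lit 62088) (nat_lit 0) (nat_lit 532) (XT.nd (nat_lit 1170) (nat_lit 1976) (nat_lit 0) (XT.nd (nat_lit 546) (nat_lit 2888) (nat_lit 0) (XT.nd (nat_lit 234) (nat_lit 684) (nat_lit 0) (XT.nd (nat_lit 78) (nat_lit 1216) (nat_lit 0) (XT.lf (nat_lit 76) (nat_lit 63988527777) (nat_lit 0) (nat_lit 6144570728) (nat_lit 1292) (nat_lit 10959744859) (nat_lit 281) (nat_lit 5) (nat_lit 280) (nat_lit 5) (nat_lit 297) (nat_lit 5) (nat_lit 508) (nat_lit 494) (nat_lit 198)) (XT.nd (nat_lit 78) (nat_lit 1292) (nat_lit 0) (XT.lf (nat_lit 76) (nat_lit 25698087177) (nat_lit 0) (nat_lit 51256436836) (nat_lit 1292) (nat_lit 5436219600) (nat_lit 282) (nat_lit 5) (nat_lit 281) (nat_lit 5) (nat_lit 298) (nat_lit 5) (nat_lit 509) (nat_lit 494) (nat_lit 197)) (XT.lf (nat_lit 0) (nat_lit 482935426) (nat_lit 1292) (nat_lit 13652539291) (nat_lit 1368) (nat_lit 69584987441) (nat_lit 264) (nat_lit 5)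 (nat_lit 281) (nat_lit 5) (nat_lit 282) (nat_lit 5) (nat_lit 510) (nat_lit 494) (nat_lit 196)))) (XT.nd (nat_lit 156) (nat_lit 760) (nat_lit 0) (XT.nd (nat_lit 78) (nat_lit 0) (nat_lit 0) (XT.lf (nat_lit 0) (nat_lit 7005411026) (nat_lit 1292) (nat_lit 54080510574) (nat_lit 76) (nat_lit 23986485770) (nat_lit 265) (nat_lit 5) (nat_lit 282) (nat_lit 5) (nat_lit 266) (nat_lit 5) (nat_lit 511) (nat_lit 494) (nat_lit 195)) (XT.lf (nat_lit 0) (nat_lit 14002359321) (nat_lit 1292) (nat_lit 9346908681) (nat_lit 76) (nat_lit 63107279068) (nat_lit 265) (nat_lit 5) (nat_lit 282) (nat_lit 5) (nat_lit 266) (nat_lit 5) (nat_lit 512) (nat_lit 494) (nat_lit 194))) (XT.nd (nat_lit 78) (nat_lit 0) (nat_lit 0) (XT.lf (nat_lit 0) (nat_lit 21721672053) (nat_lit 836) (nat_lit 50564833472) (nat_lit 76) (nat_lit 15580331836) (nat_lit 255) (nat_lit 5) (nat_lit 266) (nat_lit 5) (nat_lit 256) (nat_lit 5) (nat_lit 513) (nat_lit 494) (nat_lit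 193)) (XT.lf (nat_lit 0) (nat_lit 29998698684) (nat_lit 836) (nat_lit 4007075162) (nat_lit 76) (nat_lit 55303878558) (nat_lit 255) (nat_lit 5) (nat_lit 266) (nat_lit 5) (nat_lit 256) (nat_lit 5) (nat_lit 514) (nat_lit 494) (nat_lit 192))))) (XT.nd (nat_lit 312) (nat_lit 1140) (nat_lit 0) (XT.nd (nat_lit 156) (nat_lit 532) (nat_lit 0) (XT.nd (nat_lit 78) (nat_lit 608) (nat_lit 0) (XT.lf (nat_lit 0) (nat_lit 39010933195) (nat_lit 684) (nat_lit 46017518284) (nat_lit 76) (nat_lit 5752693584) (nat_lit 247) (nat_lit 5) (nat_lit 256) (nat_lit 5) (nat_lit 248) (nat_lit 5) (nat_lit 515) (nat_lit 494) (nat_lit 191)) (XT.lf (nat_lit 0) (nat_lit 2495283998) (nat_lit 608) (nat_lit 46199443756) (nat_lit 684) (nat_lit 43590019030) (nat_lit 239) (nat_lit 5) (nat_lit 247) (nat_lit 5) (nat_lit 248) (nat_lit 5) (nat_lit 516) (nat_lit 494) (nat_lit 190))) (XT.nd (nat_lit 78) (nat_lit 532) (nat_lit 0) (XT.lf (nat_lit 0) (nat_lit 53406448861)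 (nat_lit 608) (nat_lit 5726932666) (nat_lit 684) (nat_lit 34686144740) (nat_lit 239) (nat_lit 5) (nat_lit 247) (nat_lit 5) (nat_lit 248) (nat_lit 5) (nat_lit 517) (nat_lit 494) (nat_lit 189)) (XT.lf (nat_lit 0) (nat_lit 10299578464) (nat_lit 532) (nat_lit 60029958118) (nat_lit 608) (nat_lit 25057482371) (nat_lit 232) (nat_lit 5) (nat_lit 239) (nat_lit 5) (nat_lit 240) (nat_lit 5) (nat_lit 518) (nat_lit 494) (nat_lit 188)))) (XT.nd (nat_lit 156) (nat_lit 608) (nat_lit 0) (XT.nd (nat_lit 78) (nat_lit 532) (nat_lit 0) (XT.lf (nat_lit 0) (nat_lit 63303879188) (nat_lit 532) (nat_lit 19021611464) (nat_lit 608) (nat_lit 14662128407) (nat_lit 232) (nat_lit 5) (nat_lit 239) (nat_lit 5) (nat_lit 240) (nat_lit 5) (nat_lit 519) (nat_lit 494) (nat_lit 187)) (XT.lf (nat_lit 0) (nat_lit 19417468372) (nat_lit 532) (nat_lit 75673367938) (nat_lit 608) (nat_lit 3533115532) (nat_lit 225) (nat_lit 5) (nat_lit 232) (nat_lit 5) (nat_lit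 233) (nat_lit 5) (nat_lit 520) (nat_lit 494) (nat_lit 186))) (XT.nd (nat_lit 78) (nat_lit 532) (nat_lit 0) (XT.lf (nat_lit 0) (nat_lit 8306557044) (nat_lit 608) (nat_lit 25765235494) (nat_lit 76) (nat_lit 66219349531) (nat_lit 224) (nat_lit 5) (nat_lit 232) (nat_lit 5) (nat_lit 225) (nat_lit 5) (nat_lit 521) (nat_lit 494) (nat_lit 185)) (XT.lf (nat_lit 0) (nat_lit 20804372195) (nat_lit 608) (nat_lit 72260314390) (nat_lit 76) (nat_lit 8931393102) (nat_lit 217) (nat_lit 5) (nat_lit 225) (nat_lit 5) (nat_lit 218) (nat_lit 5) (nat_lit 522) (nat_lit 494) (nat_lit 184)))))) (XT.nd (nat_lit 60294) (nat_lit 0) (nat_lit 6308) (XT.nd (nat_lit 234) (nat_lit 1444) (nat_lit 0) (XT.nd (nat_lit 78) (nat_lit 532) (nat_lit 0) (XT.lf (nat_lit 0) (nat_lit 34276922686) (nat_lit 608) (nat_lit 16654653500) (nat_lit 76) (nat_lit 52802595280) (nat_lit 217) (nat_lit 5) (nat_lit 225) (nat_lit 5) (nat_lit 218) (nat_lit 5) (nat_lit 523) (nat_lit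 494) (nat_lit 183)) (XT.nd (nat_lit 78) (nat_lit 0) (nat_lit 0) (XT.lf (nat_lit 0) (nat_lit 41427250641) (nat_lit 532) (nat_lit 7124333828) (nat_lit 608) (nat_lit 56960883542) (nat_lit 210) (nat_lit 5) (nat_lit 217) (nat_lit 5) (nat_lit 218) (nat_lit 5) (nat_lit 524) (nat_lit 494) (nat_lit 182)) (XT.lf (nat_lit 0) (nat_lit 63789297947) (nat_lit 608) (nat_lit 6113295399) (nat_lit 76) (nat_lit 37425475805) (nat_lit 210) (nat_lit 5) (nat_lit 218) (nat_lit 5) (nat_lit 211) (nat_lit 5) (nat_lit 525) (nat_lit 494) (nat_lit 181)))) (XT.nd (nat_lit 156) (nat_lit 532) (nat_lit 0) (XT.nd (nat_lit 78) (nat_lit 456) (nat_lit 0) (XT.lf (nat_lit 0) (nat_lit 54592220089) (nat_lit 456) (nat_lit 25486958533) (nat_lit 532) (nat_lit 29101108684) (nat_lit 204) (nat_lit 5) (nat_lit 210) (nat_lit 5) (nat_lit 211) (nat_lit 5) (nat_lit 526) (nat_lit 494) (nat_lit 180)) (XT.lf (nat_lit 0) (nat_lit 6080963644) (nat_lit 456) (nat_lit 91092080672)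 (nat_lit 532) (nat_lit 13905569083) (nat_lit 198) (nat_lit 5) (nat_lit 204) (nat_lit 5) (nat_lit 205) (nat_lit 5) (nat_lit 527) (nat_lit 494) (nat_lit 179))) (XT.nd (nat_lit 78) (nat_lit 456) (nat_lit 0) (XT.lf (nat_lit 0) (nat_lit 2520536236) (nat_lit 532) (nat_lit 43603194874) (nat_lit 76) (nat_lit 66885391741) (nat_lit 197) (nat_lit 5) (nat_lit 204) (nat_lit 5) (nat_lit 198) (nat_lit 5) (nat_lit 528) (nat_lit 494) (nat_lit 178)) (XT.lf (nat_lit 0) (nat_lit 19355920270) (nat_lit 532) (nat_lit 95109716961) (nat_lit 76) (nat_lit 521900521) (nat_lit 191) (nat_lit 5) (nat_lit 198) (nat_lit 5) (nat_lit 192) (nat_lit 5) (nat_lit 529) (nat_lit 494) (nat_lit 177))))) (XT.nd (nat_lit 312) (nat_lit 0) (nat_lit 152) (XT.nd (nat_lit 156) (nat_lit 0) (nat_lit 76) (XT.nd (nat_lit 78) (nat_lit 0) (nat_lit 0) (XT.lf (nat_lit 0) (nat_lit 13562411255) (nat_lit 1292) (nat_lit 10068039093) (nat_lit 1292) (nat_lit 10068039093) (nat_lit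 274) (nat_lit 3) (nat_lit 291) (nat_lit 3) (nat_lit 291) (nat_lit 5) (nat_lit 495) (nat_lit 495) (nat_lit 210)) (XT.lf (nat_lit 76) (nat_lit 13142348818) (nat_lit 0) (nat_lit 14529946931) (nat_lit 1292) (nat_lit 40731416473) (nat_lit 275) (nat_lit 5) (nat_lit 274) (nat_lit 3) (nat_lit 291) (nat_lit 5) (nat_lit 496) (nat_lit 495) (nat_lit 209))) (XT.nd (nat_lit 78) (nat_lit 0) (nat_lit 0) (XT.lf (nat_lit 0) (nat_lit 28625382312) (nat_lit 1216) (nat_lit 21789372389) (nat_lit 1292) (nat_lit 19014217314) (nat_lit 275) (nat_lit 5) (nat_lit 291) (nat_lit 5) (nat_lit 292) (nat_lit 5) (nat_lit 497) (nat_lit 495) (nat_lit 208)) (XT.lf (nat_lit 76) (nat_lit 12792237160) (nat_lit 0) (nat_lit 17081111098) (nat_lit 1292) (nat_lit 40603652865) (nat_lit 276) (nat_lit 5) (nat_lit 275) (nat_lit 5) (nat_lit 292) (nat_lit 5) (nat_lit 498) (nat_lit 495) (nat_lit 207)))) (XT.nd (nat_lit 156) (nat_lit 0) (nat_lit 76) (XT.nd (nat_lit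 78) (nat_lit 0) (nat_lit 0) (XT.lf (nat_lit 0) (nat_lit 31546277802) (nat_lit 1216) (nat_lit 22860253080) (nat_lit 1292) (nat_lit 17138314606) (nat_lit 276) (nat_lit 5) (nat_lit 292) (nat_lit 5) (nat_lit 293) (nat_lit 5) (nat_lit 499) (nat_lit 495) (nat_lit 206)) (XT.lf (nat_lit 76) (nat_lit 13095096848) (nat_lit 0) (nat_lit 20468785872) (nat_lit 1292) (nat_lit 39072007958) (nat_lit 277) (nat_lit 5) (nat_lit 276) (nat_lit 5) (nat_lit 293) (nat_lit 5) (nat_lit 500) (nat_lit 495) (nat_lit 205))) (XT.nd (nat_lit 78) (nat_lit 0) (nat_lit 0) (XT.lf (nat_lit 0) (nat_lit 36013907163) (nat_lit 1216) (nat_lit 23296889001) (nat_lit 1292) (nat_lit 14437714434) (nat_lit 277) (nat_lit 5) (nat_lit 293) (nat_lit 5) (nat_lit 294) (nat_lit 5) (nat_lit 501) (nat_lit 495) (nat_lit 204)) (XT.lf (nat_lit 76) (nat_lit 14106629507) (nat_lit 0) (nat_lit 24768583375) (nat_lit 1292) (nat_lit 36009162929) (nat_lit 278) (nat_lit 5) (nat_lit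 277) (nat_lit 5) (nat_lit 294) (nat_lit 5) (nat_lit 502) (nat_lit 495) (nat_lit 203))))))) (XT.nd (nat_lit 1170) (nat_lit 3116) (nat_lit 0) (XT.nd (nat_lit 546) (nat_lit 2964) (nat_lit 0) (XT.nd (nat_lit 234) (nat_lit 0) (nat_lit 76) (XT.nd (nat_lit 78) (nat_lit 0) (nat_lit 0) (XT.lf (nat_lit 0) (nat_lit 42163381595) (nat_lit 1216) (nat_lit 23044009096) (nat_lit 1292) (nat_lit 10836695683) (nat_lit 278) (nat_lit 5) (nat_lit 294) (nat_lit 5) (nat_lit 295) (nat_lit 5) (nat_lit 503) (nat_lit 495) (nat_lit 202)) (XT.nd (nat_lit 78) (nat_lit 0) (nat_lit 76) (XT.lf (nat_lit 76) (nat_lit 15886186863) (nat_lit 0) (nat_lit 30061493784) (nat_lit 1292) (nat_lit 31278983153) (nat_lit 279) (nat_lit 5) (nat_lit 278) (nat_lit 5) (nat_lit 295) (nat_lit 5) (nat_lit 504) (nat_lit 495) (nat_lit 201)) (XT.lf (nat_lit 0) (nat_lit 50139077214) (nat_lit 1216) (nat_lit 22042711170) (nat_lit 1292) (nat_lit 6254123212) (nat_lit 279) (nat_lit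 5) (nat_lit 295) (nat_lit 5) (nat_lit 296) (nat_lit 5) (nat_lit 505) (nat_lit 495) (nat_lit 200)))) (XT.nd (nat_lit 156) (nat_lit 0) (nat_lit 76) (XT.nd (nat_lit 78) (nat_lit 0) (nat_lit 76) (XT.lf (nat_lit 76) (nat_lit 18496972911) (nat_lit 0) (nat_lit 36434254054) (nat_lit 1292) (nat_lit 24735959621) (nat_lit 280) (nat_lit 5) (nat_lit 279) (nat_lit 5) (nat_lit 296) (nat_lit 5) (nat_lit 506) (nat_lit 495) (nat_lit 199)) (XT.lf (nat_lit 0) (nat_lit 60095219933) (nat_lit 1216) (nat_lit 20230261511) (nat_lit 1292) (nat_lit 603076117) (nat_lit 280) (nat_lit 5) (nat_lit 296) (nat_lit 5) (nat_lit 297) (nat_lit 5) (nat_lit 507) (nat_lit 495) (nat_lit 198))) (XT.nd (nat_lit 78) (nat_lit 0) (nat_lit 0) (XT.lf (nat_lit 76) (nat_lit 22006255605) (nat_lit 0) (nat_lit 43979741196) (nat_lit 1292) (nat_lit 16224617033) (nat_lit 281) (nat_lit 5) (nat_lit 280) (nat_lit 5) (nat_lit 297) (nat_lit 5) (nat_lit 508) (nat_lit 495) (nat_lit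 197)) (XT.lf (nat_lit 76) (nat_lit 65924252164) (nat_lit 0) (nat_lit 6333130979) (nat_lit 1292) (nat_lit 11267632159) (nat_lit 281) (nat_lit 5) (nat_lit 280) (nat_lit 5) (nat_lit 297) (nat_lit 5) (nat_lit 509) (nat_lit 495) (nat_lit 196))))) (XT.nd (nat_lit 312) (nat_lit 1900) (nat_lit 0) (XT.nd (nat_lit 156) (nat_lit 0) (nat_lit 76) (XT.nd (nat_lit 78) (nat_lit 1292) (nat_lit 0) (XT.lf (nat_lit 76) (nat_lit 26485588357) (nat_lit 0) (nat_lit 52797391797) (nat_lit 1292) (nat_lit 5578886676) (nat_lit 282) (nat_lit 5) (nat_lit 281) (nat_lit 5) (nat_lit 298) (nat_lit 5) (nat_lit 510) (nat_lit 495) (nat_lit 195)) (XT.lf (nat_lit 0) (nat_lit 516861404) (nat_lit 1292) (nat_lit 14045648120) (nat_lit 1368) (nat_lit 71668979141) (nat_lit 264) (nat_lit 5) (nat_lit 281) (nat_lit 5) (nat_lit 282) (nat_lit 5) (nat_lit 511) (nat_lit 495) (nat_lit 194))) (XT.nd (nat_lit 78) (nat_lit 0) (nat_lit 0) (XT.lf (nat_lit 0) (nat_lit 7234575691)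 (nat_lit 1292) (nat_lit 55686018862) (nat_lit 76) (nat_lit 24703410871) (nat_lit 265) (nat_lit 5) (nat_lit 282) (nat_lit 5) (nat_lit 266) (nat_lit 5) (nat_lit 512) (nat_lit 495) (nat_lit 193)) (XT.lf (nat_lit 0) (nat_lit 14440878968) (nat_lit 1292) (nat_lit 9610901350) (nat_lit 76) (nat_lit 64997905720) (nat_lit 265) (nat_lit 5) (nat_lit 282) (nat_lit 5) (nat_lit 266) (nat_lit 5) (nat_lit 513) (nat_lit 495) (nat_lit 192)))) (XT.nd (nat_lit 156) (nat_lit 1216) (nat_lit 0) (XT.nd (nat_lit 78) (nat_lit 0) (nat_lit 0) (XT.lf (nat_lit 0) (nat_lit 22391372539) (nat_lit 836) (nat_lit 52064961479) (nat_lit 76) (nat_lit 16045963092) (nat_lit 255) (nat_lit 5) (nat_lit 266) (nat_lit 5) (nat_lit 256) (nat_lit 5) (nat_lit 514) (nat_lit 495) (nat_lit 191)) (XT.lf (nat_lit 0) (nat_lit 30916184231) (nat_lit 836) (nat_lit 4110960235) (nat_lit 76) (nat_lit 56961268023) (nat_lit 255) (nat_lit 5) (nat_lit 266) (nat_lit 5) (nat_lit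 256) (nat_lit 5) (nat_lit 515) (nat_lit 495) (nat_lit 190))) (XT.nd (nat_lit 78) (nat_lit 608) (nat_lit 0) (XT.lf (nat_lit 0) (nat_lit 40198421124) (nat_lit 684) (nat_lit 47381348356) (nat_lit 76) (nat_lit 5924291495) (nat_lit 247) (nat_lit 5) (nat_lit 256) (nat_lit 5) (nat_lit 248) (nat_lit 5) (nat_lit 516) (nat_lit 495) (nat_lit 189)) (XT.lf (nat_lit 0) (nat_lit 2586674312) (nat_lit 608) (nat_lit 47585714317) (nat_lit 684) (nat_lit 44880392451) (nat_lit 239) (nat_lit 5) (nat_lit 247) (nat_lit 5) (nat_lit 248) (nat_lit 5) (nat_lit 517) (nat_lit 495) (nat_lit 188)))))) (XT.nd (nat_lit 624) (nat_lit 912) (nat_lit 0) (XT.nd (nat_lit 312) (nat_lit 1140) (nat_lit 0) (XT.nd (nat_lit 156) (nat_lit 532) (nat_lit 0) (XT.nd (nat_lit 78) (nat_lit 532) (nat_lit 0) (XT.lf (nat_lit 0) (nat_lit 55024692612) (nat_lit 608) (nat_lit 5899019529) (nat_lit 684) (nat_lit 35709906607) (nat_lit 239) (nat_lit 5) (nat_lit 247) (nat_lit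 5) (nat_lit 248) (nat_lit 5) (nat_lit 518) (nat_lit 495) (nat_lit 187)) (XT.lf (nat_lit 0) (nat_lit 10624949873) (nat_lit 532) (nat_lit 61830481259) (nat_lit 608) (nat_lit 25792714805) (nat_lit 232) (nat_lit 5) (nat_lit 239) (nat_lit 5) (nat_lit 240) (nat_lit 5) (nat_lit 519) (nat_lit 495) (nat_lit 186))) (XT.nd (nat_lit 78) (nat_lit 532) (nat_lit 0) (XT.lf (nat_lit 0) (nat_lit 65218902413) (nat_lit 532) (nat_lit 19591895145) (nat_lit 608) (nat_lit 15085980572) (nat_lit 232) (nat_lit 5) (nat_lit 239) (nat_lit 5) (nat_lit 240) (nat_lit 5) (nat_lit 520) (nat_lit 495) (nat_lit 185)) (XT.lf (nat_lit 0) (nat_lit 20016204750) (nat_lit 532) (nat_lit 77942605397) (nat_lit 608) (nat_lit 3623399647) (nat_lit 225) (nat_lit 5) (nat_lit 232) (nat_lit 5) (nat_lit 233) (nat_lit 5) (nat_lit 521) (nat_lit 495) (nat_lit 184)))) (XT.nd (nat_lit 156) (nat_lit 532) (nat_lit 0) (XT.nd (nat_lit 78) (nat_lit 532) (nat_lit 0) (XT.lf (nat_lit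 0) (nat_lit 8570707935) (nat_lit 608) (nat_lit 26522151858) (nat_lit 76) (nat_lit 68206564953) (nat_lit 224) (nat_lit 5) (nat_lit 232) (nat_lit 5) (nat_lit 225) (nat_lit 5) (nat_lit 522) (nat_lit 495) (nat_lit 183)) (XT.lf (nat_lit 0) (nat_lit 21443186315) (nat_lit 608) (nat_lit 74411809022) (nat_lit 76) (nat_lit 9200523379) (nat_lit 217) (nat_lit 5) (nat_lit 225) (nat_lit 5) (nat_lit 218) (nat_lit 5) (nat_lit 523) (nat_lit 495) (nat_lit 182))) (XT.nd (nat_lit 78) (nat_lit 532) (nat_lit 0) (XT.lf (nat_lit 0) (nat_lit 35319485661) (nat_lit 608) (nat_lit 17138453493) (nat_lit 76) (nat_lit 54387827006) (nat_lit 217) (nat_lit 5) (nat_lit 225) (nat_lit 5) (nat_lit 218) (nat_lit 5) (nat_lit 524) (nat_lit 495) (nat_lit 181)) (XT.lf (nat_lit 0) (nat_lit 42685752481) (nat_lit 532) (nat_lit 7336370381) (nat_lit 608) (nat_lit 58655296754) (nat_lit 210) (nat_lit 5) (nat_lit 217) (nat_lit 5) (nat_lit 218) (nat_lit 5) (nat_lit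 525) (nat_lit 495) (nat_lit 180))))) (XT.nd (nat_lit 60216) (nat_lit 0) (nat_lit 5776) (XT.nd (nat_lit 156) (nat_lit 456) (nat_lit 0) (XT.nd (nat_lit 78) (nat_lit 456) (nat_lit 0) (XT.lf (nat_lit 0) (nat_lit 65716576049) (nat_lit 608) (nat_lit 6281072438) (nat_lit 76) (nat_lit 38549852134) (nat_lit 210) (nat_lit 5) (nat_lit 218) (nat_lit 5) (nat_lit 211) (nat_lit 5) (nat_lit 526) (nat_lit 495) (nat_lit 179)) (XT.lf (nat_lit 0) (nat_lit 56245455359) (nat_lit 456) (nat_lit 26249450387) (nat_lit 532) (nat_lit 29960387073) (nat_lit 204) (nat_lit 5) (nat_lit 210) (nat_lit 5) (nat_lit 211) (nat_lit 5) (nat_lit 527) (nat_lit 495) (nat_lit 178))) (XT.nd (nat_lit 59982) (nat_lit 0) (nat_lit 5776) (XT.lf (nat_lit 0) (nat_lit 6279088573) (nat_lit 456) (nat_lit 93822280588) (nat_lit 532) (nat_lit 14309206156) (nat_lit 198) (nat_lit 5) (nat_lit 204) (nat_lit 5) (nat_lit 205) (nat_lit 5) (nat_lit 528) (nat_lit 495) (nat_lit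 177)) (XT.lf (nat_lit 0) (nat_lit 13983415039) (nat_lit 1292) (nat_lit 10362800928) (nat_lit 1292) (nat_lit 10362800928) (nat_lit 274) (nat_lit 3) (nat_lit 291) (nat_lit 3) (nat_lit 291) (nat_lit 5) (nat_lit 496) (nat_lit 496) (nat_lit 208)))) (XT.nd (nat_lit 156) (nat_lit 0) (nat_lit 76) (XT.nd (nat_lit 78) (nat_lit 0) (nat_lit 76) (XT.lf (nat_lit 76) (nat_lit 13551035228) (nat_lit 0) (nat_lit 14979007669) (nat_lit 1292) (nat_lit 41924946960) (nat_lit 275) (nat_lit 5) (nat_lit 274) (nat_lit 3) (nat_lit 291) (nat_lit 5) (nat_lit 497) (nat_lit 496) (nat_lit 207)) (XT.lf (nat_lit 0) (nat_lit 29510795967) (nat_lit 1216) (nat_lit 22428125210) (nat_lit 1292) (nat_lit 19572114235) (nat_lit 275) (nat_lit 5) (nat_lit 291) (nat_lit 5) (nat_lit 292) (nat_lit 5) (nat_lit 498) (nat_lit 496) (nat_lit 206))) (XT.nd (nat_lit 78) (nat_lit 0) (nat_lit 76) (XT.lf (nat_lit 76) (nat_lit 13190786270) (nat_lit 0) (nat_lit 17604780439)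 (nat_lit 1292) (nat_lit 41794957891) (nat_lit 276) (nat_lit 5) (nat_lit 275) (nat_lit 5) (nat_lit 292) (nat_lit 5) (nat_lit 499) (nat_lit 496) (nat_lit 205)) (XT.lf (nat_lit 0) (nat_lit 32517821471) (nat_lit 1216) (nat_lit 23530840712) (nat_lit 1292) (nat_lit 17641768168) (nat_lit 276) (nat_lit 5) (nat_lit 292) (nat_lit 5) (nat_lit 293) (nat_lit 5) (nat_lit 500) (nat_lit 496) (nat_lit 204))))))))
noncomputable def xc250 : XT := (XT.nd (nat_lit 62322) (nat_lit 0) (nat_lit 456) (XT.nd (nat_lit 1170) (nat_lit 3876) (nat_lit 0) (XT.nd (nat_lit 546) (nat_lit 1596) (nat_lit 0) (XT.nd (nat_lit 234) (nat_lit 0) (nat_lit 152) (XT.nd (nat_lit 78) (nat_lit 0) (nat_lit 76) (XT.lf (nat_lit 76) (nat_lit 13503020499) (nat_lit 0) (nat_lit 21092346227) (nat_lit 1292) (nat_lit 40218857975) (nat_lit 277) (nat_lit 5) (nat_lit 276) (nat_lit 5) (nat_lit 293) (nat_lit 5) (nat_lit 501) (nat_lit 496) (nat_lit 203)) (XT.nd (nat_lit 78)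 (nat_lit 0) (nat_lit 0) (XT.lf (nat_lit 0) (nat_lit 37118087713) (nat_lit 1216) (nat_lit 23980354184) (nat_lit 1292) (nat_lit 14861805612) (nat_lit 277) (nat_lit 5) (nat_lit 293) (nat_lit 5) (nat_lit 294) (nat_lit 5) (nat_lit 502) (nat_lit 496) (nat_lit 202)) (XT.lf (nat_lit 76) (nat_lit 14545118492) (nat_lit 0) (nat_lit 25519568954) (nat_lit 1292) (nat_lit 37065517748) (nat_lit 278) (nat_lit 5) (nat_lit 277) (nat_lit 5) (nat_lit 294) (nat_lit 5) (nat_lit 503) (nat_lit 496) (nat_lit 201)))) (XT.nd (nat_lit 156) (nat_lit 0) (nat_lit 76) (XT.nd (nat_lit 78) (nat_lit 0) (nat_lit 0) (XT.lf (nat_lit 0) (nat_lit 43450750972) (nat_lit 1216) (nat_lit 23719729173) (nat_lit 1292) (nat_lit 11154249591) (nat_lit 278) (nat_lit 5) (nat_lit 294) (nat_lit 5) (nat_lit 295) (nat_lit 5) (nat_lit 504) (nat_lit 496) (nat_lit 200)) (XT.lf (nat_lit 76) (nat_lit 16378219721) (nat_lit 0) (nat_lit 30969853358) (nat_lit 1292) (nat_lit 32194726736)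 (nat_lit 279) (nat_lit 5) (nat_lit 278) (nat_lit 5) (nat_lit 295) (nat_lit 5) (nat_lit 505) (nat_lit 496) (nat_lit 199))) (XT.nd (nat_lit 78) (nat_lit 0) (nat_lit 0) (XT.lf (nat_lit 0) (nat_lit 51664511073) (nat_lit 1216) (nat_lit 22688289810) (nat_lit 1292) (nat_lit 6435545323) (nat_lit 279) (nat_lit 5) (nat_lit 295) (nat_lit 5) (nat_lit 296) (nat_lit 5) (nat_lit 506) (nat_lit 496) (nat_lit 198)) (XT.lf (nat_lit 76) (nat_lit 19067430846) (nat_lit 0) (nat_lit 37532524666) (nat_lit 1292) (nat_lit 25456618170) (nat_lit 280) (nat_lit 5) (nat_lit 279) (nat_lit 5) (nat_lit 296) (nat_lit 5) (nat_lit 507) (nat_lit 496) (nat_lit 197))))) (XT.nd (nat_lit 312) (nat_lit 1900) (nat_lit 0) (XT.nd (nat_lit 156) (nat_lit 0) (nat_lit 0) (XT.nd (nat_lit 78) (nat_lit 0) (nat_lit 0) (XT.lf (nat_lit 0) (nat_lit 61918213753) (nat_lit 1216) (nat_lit 20821414358) (nat_lit 1292) (nat_lit 616177448) (nat_lit 280) (nat_lit 5) (nat_lit 296)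 (nat_lit 5) (nat_lit 297) (nat_lit 5) (nat_lit 508) (nat_lit 496) (nat_lit 196)) (XT.lf (nat_lit 76) (nat_lit 22682043811) (nat_lit 0) (nat_lit 45303233558) (nat_lit 1292) (nat_lit 16691059384) (nat_lit 281) (nat_lit 5) (nat_lit 280) (nat_lit 5) (nat_lit 297) (nat_lit 5) (nat_lit 509) (nat_lit 496) (nat_lit 195))) (XT.nd (nat_lit 78) (nat_lit 0) (nat_lit 76) (XT.lf (nat_lit 76) (nat_lit 67917125882) (nat_lit 0) (nat_lit 6527105613) (nat_lit 1292) (nat_lit 11585956113) (nat_lit 281) (nat_lit 5) (nat_lit 280) (nat_lit 5) (nat_lit 297) (nat_lit 5) (nat_lit 510) (nat_lit 496) (nat_lit 194)) (XT.lf (nat_lit 76) (nat_lit 27295764044) (nat_lit 0) (nat_lit 54384388164) (nat_lit 1292) (nat_lit 5727005928) (nat_lit 282) (nat_lit 5) (nat_lit 281) (nat_lit 5) (nat_lit 298) (nat_lit 5) (nat_lit 511) (nat_lit 496) (nat_lit 193)))) (XT.nd (nat_lit 156) (nat_lit 684) (nat_lit 0) (XT.nd (nat_lit 78) (nat_lit 0) (nat_lit 76) (XT.lf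 (nat_lit 0) (nat_lit 550689347) (nat_lit 1292) (nat_lit 14451495507) (nat_lit 1368) (nat_lit 73815694830) (nat_lit 264) (nat_lit 5) (nat_lit 281) (nat_lit 5) (nat_lit 282) (nat_lit 5) (nat_lit 512) (nat_lit 496) (nat_lit 192)) (XT.lf (nat_lit 0) (nat_lit 7469524484) (nat_lit 1292) (nat_lit 57340662931) (nat_lit 76) (nat_lit 25441996964) (nat_lit 265) (nat_lit 5) (nat_lit 282) (nat_lit 5) (nat_lit 266) (nat_lit 5) (nat_lit 513) (nat_lit 496) (nat_lit 191))) (XT.nd (nat_lit 78) (nat_lit 760) (nat_lit 0) (XT.lf (nat_lit 0) (nat_lit 14891495165) (nat_lit 1292) (nat_lit 9883756063) (nat_lit 76) (nat_lit 66945399946) (nat_lit 265) (nat_lit 5) (nat_lit 282) (nat_lit 5) (nat_lit 266) (nat_lit 5) (nat_lit 514) (nat_lit 496) (nat_lit 190)) (XT.lf (nat_lit 0) (nat_lit 23080127877) (nat_lit 836) (nat_lit 53611058690) (nat_lit 76) (nat_lit 16525665391) (nat_lit 255) (nat_lit 5) (nat_lit 266) (nat_lit 5) (nat_lit 256) (nat_lit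 5) (nat_lit 515) (nat_lit 496) (nat_lit 189)))))) (XT.nd (nat_lit 546) (nat_lit 1596) (nat_lit 0) (XT.nd (nat_lit 234) (nat_lit 1064) (nat_lit 0) (XT.nd (nat_lit 78) (nat_lit 1216) (nat_lit 0) (XT.lf (nat_lit 0) (nat_lit 31860188362) (nat_lit 836) (nat_lit 4218899107) (nat_lit 76) (nat_lit 58668478303) (nat_lit 255) (nat_lit 5) (nat_lit 266) (nat_lit 5) (nat_lit 256) (nat_lit 5) (nat_lit 516) (nat_lit 496) (nat_lit 188)) (XT.nd (nat_lit 78) (nat_lit 608) (nat_lit 0) (XT.lf (nat_lit 0) (nat_lit 41420548641) (nat_lit 684) (nat_lit 48787051720) (nat_lit 76) (nat_lit 6101093765) (nat_lit 247) (nat_lit 5) (nat_lit 256) (nat_lit 5) (nat_lit 248) (nat_lit 5) (nat_lit 517) (nat_lit 496) (nat_lit 187)) (XT.lf (nat_lit 0) (nat_lit 2679857344) (nat_lit 608) (nat_lit 49013556506) (nat_lit 684) (nat_lit 46210471724) (nat_lit 239) (nat_lit 5) (nat_lit 247) (nat_lit 5) (nat_lit 248) (nat_lit 5) (nat_lit 518) (nat_lit 496) (nat_lit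 186)))) (XT.nd (nat_lit 156) (nat_lit 532) (nat_lit 0) (XT.nd (nat_lit 78) (nat_lit 532) (nat_lit 0) (XT.lf (nat_lit 0) (nat_lit 56690562325) (nat_lit 608) (nat_lit 6076252988) (nat_lit 684) (nat_lit 36765347008) (nat_lit 239) (nat_lit 5) (nat_lit 247) (nat_lit 5) (nat_lit 248) (nat_lit 5) (nat_lit 519) (nat_lit 496) (nat_lit 185)) (XT.lf (nat_lit 0) (nat_lit 10959141913) (nat_lit 532) (nat_lit 63685041655) (nat_lit 608) (nat_lit 26550950921) (nat_lit 232) (nat_lit 5) (nat_lit 239) (nat_lit 5) (nat_lit 240) (nat_lit 5) (nat_lit 520) (nat_lit 496) (nat_lit 184))) (XT.nd (nat_lit 78) (nat_lit 532) (nat_lit 0) (XT.lf (nat_lit 0) (nat_lit 67190463217) (nat_lit 532) (nat_lit 20179308269) (nat_lit 608) (nat_lit 15523467438) (nat_lit 232) (nat_lit 5) (nat_lit 239) (nat_lit 5) (nat_lit 240) (nat_lit 5) (nat_lit 521) (nat_lit 496) (nat_lit 183)) (XT.lf (nat_lit 0) (nat_lit 20631972565) (nat_lit 532) (nat_lit 80279975294)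 (nat_lit 608) (nat_lit 3717294067) (nat_lit 225) (nat_lit 5) (nat_lit 232) (nat_lit 5) (nat_lit 233) (nat_lit 5) (nat_lit 522) (nat_lit 496) (nat_lit 182))))) (XT.nd (nat_lit 312) (nat_lit 456) (nat_lit 0) (XT.nd (nat_lit 156) (nat_lit 532) (nat_lit 0) (XT.nd (nat_lit 78) (nat_lit 532) (nat_lit 0) (XT.lf (nat_lit 0) (nat_lit 8841924922) (nat_lit 608) (nat_lit 27302696515) (nat_lit 76) (nat_lit 70253360389) (nat_lit 224) (nat_lit 5) (nat_lit 232) (nat_lit 5) (nat_lit 225) (nat_lit 5) (nat_lit 523) (nat_lit 496) (nat_lit 181)) (XT.lf (nat_lit 0) (nat_lit 22100321997) (nat_lit 608) (nat_lit 76628785028) (nat_lit 76) (nat_lit 9477659340) (nat_lit 217) (nat_lit 5) (nat_lit 225) (nat_lit 5) (nat_lit 218) (nat_lit 5) (nat_lit 524) (nat_lit 496) (nat_lit 180))) (XT.nd (nat_lit 78) (nat_lit 532) (nat_lit 0) (XT.lf (nat_lit 0) (nat_lit 36392507214) (nat_lit 608) (nat_lit 17637676744) (nat_lit 76) (nat_lit 56020549447) (nat_lit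 217) (nat_lit 5) (nat_lit 225) (nat_lit 5) (nat_lit 218) (nat_lit 5) (nat_lit 525) (nat_lit 496) (nat_lit 179)) (XT.lf (nat_lit 0) (nat_lit 43981109033) (nat_lit 532) (nat_lit 7554865242) (nat_lit 608) (nat_lit 60401369744) (nat_lit 210) (nat_lit 5) (nat_lit 217) (nat_lit 5) (nat_lit 218) (nat_lit 5) (nat_lit 526) (nat_lit 496) (nat_lit 178)))) (XT.nd (nat_lit 60138) (nat_lit 0) (nat_lit 5320) (XT.nd (nat_lit 78) (nat_lit 456) (nat_lit 0) (XT.lf (nat_lit 0) (nat_lit 67700891846) (nat_lit 608) (nat_lit 6454779545) (nat_lit 76) (nat_lit 39707867214) (nat_lit 210) (nat_lit 5) (nat_lit 218) (nat_lit 5) (nat_lit 211) (nat_lit 5) (nat_lit 527) (nat_lit 496) (nat_lit 177)) (XT.lf (nat_lit 0) (nat_lit 57947399723) (nat_lit 456) (nat_lit 27034938516) (nat_lit 532) (nat_lit 30846233399) (nat_lit 204) (nat_lit 5) (nat_lit 210) (nat_lit 5) (nat_lit 211) (nat_lit 5) (nat_lit 528) (nat_lit 496) (nat_lit 176))) (XT.nd (nat_lit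 78) (nat_lit 0) (nat_lit 0) (XT.lf (nat_lit 0) (nat_lit 14416237733) (nat_lit 1292) (nat_lit 10666823481) (nat_lit 1292) (nat_lit 10666823481) (nat_lit 274) (nat_lit 3) (nat_lit 291) (nat_lit 3) (nat_lit 291) (nat_lit 5) (nat_lit 497) (nat_lit 497) (nat_lit 206)) (XT.lf (nat_lit 76) (nat_lit 13971154695) (nat_lit 0) (nat_lit 15440784659) (nat_lit 1292) (nat_lit 43155914326) (nat_lit 275) (nat_lit 5) (nat_lit 274) (nat_lit 3) (nat_lit 291) (nat_lit 5) (nat_lit 498) (nat_lit 497) (nat_lit 205))))))) (XT.nd (nat_lit 1170) (nat_lit 4104) (nat_lit 0) (XT.nd (nat_lit 546) (nat_lit 836) (nat_lit 0) (XT.nd (nat_lit 234) (nat_lit 0) (nat_lit 76) (XT.nd (nat_lit 78) (nat_lit 0) (nat_lit 0) (XT.lf (nat_lit 0) (nat_lit 30421242087) (nat_lit 1216) (nat_lit 23086897564) (nat_lit 1292) (nat_lit 20147467314) (nat_lit 275) (nat_lit 5) (nat_lit 291) (nat_lit 5) (nat_lit 292) (nat_lit 5) (nat_lit 499) (nat_lit 497) (nat_lit 204))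 (XT.nd (nat_lit 78) (nat_lit 0) (nat_lit 76) (XT.lf (nat_lit 76) (nat_lit 13600443305) (nat_lit 0) (nat_lit 18143514867) (nat_lit 1292) (nat_lit 43023540760) (nat_lit 276) (nat_lit 5) (nat_lit 275) (nat_lit 5) (nat_lit 292) (nat_lit 5) (nat_lit 500) (nat_lit 497) (nat_lit 203)) (XT.lf (nat_lit 0) (nat_lit 33517067430) (nat_lit 1216) (nat_lit 24222419661) (nat_lit 1292) (nat_lit 18160939324) (nat_lit 276) (nat_lit 5) (nat_lit 292) (nat_lit 5) (nat_lit 293) (nat_lit 5) (nat_lit 501) (nat_lit 497) (nat_lit 202)))) (XT.nd (nat_lit 156) (nat_lit 0) (nat_lit 76) (XT.nd (nat_lit 78) (nat_lit 0) (nat_lit 76) (XT.lf (nat_lit 76) (nat_lit 13922316736) (nat_lit 0) (nat_lit 21734068239) (nat_lit 1292) (nat_lit 41401566403) (nat_lit 277) (nat_lit 5) (nat_lit 276) (nat_lit 5) (nat_lit 293) (nat_lit 5) (nat_lit 502) (nat_lit 497) (nat_lit 201)) (XT.lf (nat_lit 0) (nat_lit 38254029567) (nat_lit 1216) (nat_lit 24685209727) (nat_lit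 1292) (nat_lit 15299138473) (nat_lit 277) (nat_lit 5) (nat_lit 293) (nat_lit 5) (nat_lit 294) (nat_lit 5) (nat_lit 503) (nat_lit 497) (nat_lit 200))) (XT.nd (nat_lit 78) (nat_lit 0) (nat_lit 76) (XT.lf (nat_lit 76) (nat_lit 14995884432) (nat_lit 0) (nat_lit 26292628995) (nat_lit 1292) (nat_lit 38154936322) (nat_lit 278) (nat_lit 5) (nat_lit 277) (nat_lit 5) (nat_lit 294) (nat_lit 5) (nat_lit 504) (nat_lit 497) (nat_lit 199)) (XT.lf (nat_lit 0) (nat_lit 44775451680) (nat_lit 1216) (nat_lit 24416616368) (nat_lit 1292) (nat_lit 11481763342) (nat_lit 278) (nat_lit 5) (nat_lit 294) (nat_lit 5) (nat_lit 295) (nat_lit 5) (nat_lit 505) (nat_lit 497) (nat_lit 198))))) (XT.nd (nat_lit 312) (nat_lit 1064) (nat_lit 0) (XT.nd (nat_lit 156) (nat_lit 0) (nat_lit 76) (XT.nd (nat_lit 78) (nat_lit 0) (nat_lit 76) (XT.lf (nat_lit 76) (nat_lit 16884126830) (nat_lit 0) (nat_lit 31905089744) (nat_lit 1292) (nat_lit 33139241446) (nat_lit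 279) (nat_lit 5) (nat_lit 278) (nat_lit 5) (nat_lit 295) (nat_lit 5) (nat_lit 506) (nat_lit 497) (nat_lit 197)) (XT.lf (nat_lit 0) (nat_lit 53234487448) (nat_lit 1216) (nat_lit 23354137208) (nat_lit 1292) (nat_lit 6622766093) (nat_lit 279) (nat_lit 5) (nat_lit 295) (nat_lit 5) (nat_lit 296) (nat_lit 5) (nat_lit 507) (nat_lit 497) (nat_lit 196))) (XT.nd (nat_lit 78) (nat_lit 0) (nat_lit 76) (XT.lf (nat_lit 76) (nat_lit 19654109957) (nat_lit 0) (nat_lit 38663442428) (nat_lit 1292) (nat_lit 26200126084) (nat_lit 280) (nat_lit 5) (nat_lit 279) (nat_lit 5) (nat_lit 296) (nat_lit 5) (nat_lit 508) (nat_lit 497) (nat_lit 195)) (XT.lf (nat_lit 0) (nat_lit 63794741429) (nat_lit 1216) (nat_lit 21431206192) (nat_lit 1292) (nat_lit 629958320) (nat_lit 280) (nat_lit 5) (nat_lit 296) (nat_lit 5) (nat_lit 297) (nat_lit 5) (nat_lit 509) (nat_lit 497) (nat_lit 194)))) (XT.nd (nat_lit 156) (nat_lit 1216) (nat_lit 0) (XT.nd (nat_lit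 78) (nat_lit 0) (nat_lit 0) (XT.lf (nat_lit 76) (nat_lit 23377210128) (nat_lit 0) (nat_lit 46666195327) (nat_lit 1292) (nat_lit 17172660087) (nat_lit 281) (nat_lit 5) (nat_lit 280) (nat_lit 5) (nat_lit 297) (nat_lit 5) (nat_lit 510) (nat_lit 497) (nat_lit 193)) (XT.lf (nat_lit 76) (nat_lit 69968916361) (nat_lit 0) (nat_lit 6726670978) (nat_lit 1292) (nat_lit 11914960934) (nat_lit 281) (nat_lit 5) (nat_lit 280) (nat_lit 5) (nat_lit 297) (nat_lit 5) (nat_lit 511) (nat_lit 497) (nat_lit 192))) (XT.nd (nat_lit 78) (nat_lit 1292) (nat_lit 0) (XT.lf (nat_lit 76) (nat_lit 28129349036) (nat_lit 0) (nat_lit 56018817926) (nat_lit 1292) (nat_lit 5880673635) (nat_lit 282) (nat_lit 5) (nat_lit 281) (nat_lit 5) (nat_lit 298) (nat_lit 5) (nat_lit 512) (nat_lit 497) (nat_lit 191)) (XT.lf (nat_lit 0) (nat_lit 584480364) (nat_lit 1292) (nat_lit 14870409345) (nat_lit 1368) (nat_lit 76027004506) (nat_lit 264) (nat_lit 5) (nat_lit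 281) (nat_lit 5) (nat_lit 282) (nat_lit 5) (nat_lit 513) (nat_lit 497) (nat_lit 190)))))) (XT.nd (nat_lit 624) (nat_lit 1672) (nat_lit 0) (XT.nd (nat_lit 312) (nat_lit 1748) (nat_lit 0) (XT.nd (nat_lit 156) (nat_lit 760) (nat_lit 0) (XT.nd (nat_lit 78) (nat_lit 0) (nat_lit 0) (XT.lf (nat_lit 0) (nat_lit 7710493546) (nat_lit 1292) (nat_lit 59045861143) (nat_lit 76) (nat_lit 26202885081) (nat_lit 265) (nat_lit 5) (nat_lit 282) (nat_lit 5) (nat_lit 266) (nat_lit 5) (nat_lit 514) (nat_lit 497) (nat_lit 189)) (XT.lf (nat_lit 0) (nat_lit 15354631600) (nat_lit 1292) (nat_lit 10165684593) (nat_lit 76) (nat_lit 68951459234) (nat_lit 265) (nat_lit 5) (nat_lit 282) (nat_lit 5) (nat_lit 266) (nat_lit 5) (nat_lit 515) (nat_lit 497) (nat_lit 188))) (XT.nd (nat_lit 78) (nat_lit 0) (nat_lit 0) (XT.lf (nat_lit 0) (nat_lit 23788569193) (nat_lit 836) (nat_lit 55204448766) (nat_lit 76) (nat_lit 17019855002) (nat_lit 255) (nat_lit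 5) (nat_lit 266) (nat_lit 5) (nat_lit 256) (nat_lit 5) (nat_lit 516) (nat_lit 497) (nat_lit 187)) (XT.lf (nat_lit 0) (nat_lit 32831564381) (nat_lit 836) (nat_lit 4330959590) (nat_lit 76) (nat_lit 60426998331) (nat_lit 255) (nat_lit 5) (nat_lit 266) (nat_lit 5) (nat_lit 256) (nat_lit 5) (nat_lit 517) (nat_lit 497) (nat_lit 186)))) (XT.nd (nat_lit 156) (nat_lit 532) (nat_lit 0) (XT.nd (nat_lit 78) (nat_lit 608) (nat_lit 0) (XT.lf (nat_lit 0) (nat_lit 42678411480) (nat_lit 684) (nat_lit 50235829557) (nat_lit 76) (nat_lit 6283253287) (nat_lit 247) (nat_lit 5) (nat_lit 256) (nat_lit 5) (nat_lit 248) (nat_lit 5) (nat_lit 518) (nat_lit 497) (nat_lit 185)) (XT.lf (nat_lit 0) (nat_lit 2774941350) (nat_lit 608) (nat_lit 50484218419) (nat_lit 684) (nat_lit 47581390928) (nat_lit 239) (nat_lit 5) (nat_lit 247) (nat_lit 5) (nat_lit 248) (nat_lit 5) (nat_lit 519) (nat_lit 497) (nat_lit 184))) (XT.nd (nat_lit 78) (nat_lit 532)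 (nat_lit 0) (XT.lf (nat_lit 0) (nat_lit 58405539666) (nat_lit 608) (nat_lit 6258788361) (nat_lit 684) (nat_lit 37853360867) (nat_lit 239) (nat_lit 5) (nat_lit 247) (nat_lit 5) (nat_lit 248) (nat_lit 5) (nat_lit 520) (nat_lit 497) (nat_lit 183)) (XT.lf (nat_lit 0) (nat_lit 11302473191) (nat_lit 532) (nat_lit 65595259187) (nat_lit 608) (nat_lit 27332826487) (nat_lit 232) (nat_lit 5) (nat_lit 239) (nat_lit 5) (nat_lit 240) (nat_lit 5) (nat_lit 521) (nat_lit 497) (nat_lit 182))))) (XT.nd (nat_lit 312) (nat_lit 532) (nat_lit 0) (XT.nd (nat_lit 156) (nat_lit 608) (nat_lit 0) (XT.nd (nat_lit 78) (nat_lit 532) (nat_lit 0) (XT.lf (nat_lit 0) (nat_lit 69220310144) (nat_lit 532) (nat_lit 20784363519) (nat_lit 608) (nat_lit 15974945284) (nat_lit 232) (nat_lit 5) (nat_lit 239) (nat_lit 5) (nat_lit 240) (nat_lit 5) (nat_lit 522) (nat_lit 497) (nat_lit 181)) (XT.lf (nat_lit 0) (nat_lit 21265336184) (nat_lit 532) (nat_lit 82687518426)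 (nat_lit 608) (nat_lit 3814855334) (nat_lit 225) (nat_lit 5) (nat_lit 232) (nat_lit 5) (nat_lit 233) (nat_lit 5) (nat_lit 523) (nat_lit 497) (nat_lit 180))) (XT.nd (nat_lit 78) (nat_lit 532) (nat_lit 0) (XT.lf (nat_lit 0) (nat_lit 9120469264) (nat_lit 608) (nat_lit 28107525456) (nat_lit 76) (nat_lit 72361525332) (nat_lit 224) (nat_lit 5) (nat_lit 232) (nat_lit 5) (nat_lit 225) (nat_lit 5) (nat_lit 524) (nat_lit 497) (nat_lit 179)) (XT.lf (nat_lit 0) (nat_lit 22776377271) (nat_lit 608) (nat_lit 78913153091) (nat_lit 76) (nat_lit 9763045072) (nat_lit 217) (nat_lit 5) (nat_lit 225) (nat_lit 5) (nat_lit 218) (nat_lit 5) (nat_lit 525) (nat_lit 497) (nat_lit 178)))) (XT.nd (nat_lit 156) (nat_lit 0) (nat_lit 0) (XT.nd (nat_lit 78) (nat_lit 532) (nat_lit 0) (XT.lf (nat_lit 0) (nat_lit 37496948076) (nat_lit 608) (nat_lit 18152733757) (nat_lit 76) (nat_lit 57702191127) (nat_lit 217) (nat_lit 5) (nat_lit 225) (nat_lit 5)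 (nat_lit 218) (nat_lit 5) (nat_lit 526) (nat_lit 497) (nat_lit 177)) (XT.lf (nat_lit 0) (nat_lit 45314477620) (nat_lit 532) (nat_lit 7780006581) (nat_lit 608) (nat_lit 62200604811) (nat_lit 210) (nat_lit 5) (nat_lit 217) (nat_lit 5) (nat_lit 218) (nat_lit 5) (nat_lit 527) (nat_lit 497) (nat_lit 176))) (XT.nd (nat_lit 60138) (nat_lit 0) (nat_lit 4864) (XT.lf (nat_lit 0) (nat_lit 69744001282) (nat_lit 608) (nat_lit 6634543144) (nat_lit 76) (nat_lit 40900535520) (nat_lit 210) (nat_lit 5) (nat_lit 218) (nat_lit 5) (nat_lit 211) (nat_lit 5) (nat_lit 528) (nat_lit 497) (nat_lit 175)) (XT.lf (nat_lit 0) (nat_lit 14861280471) (nat_lit 1292) (nat_lit 10980360588) (nat_lit 1292) (nat_lit 10980360588) (nat_lit 274) (nat_lit 3) (nat_lit 291) (nat_lit 3) (nat_lit 291) (nat_lit 5) (nat_lit 498) (nat_lit 498) (nat_lit 204))))))))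
noncomputable def xc251 : XT := (XT.nd (nat_lit 62556) (nat_lit 0) (nat_lit 0) (XT.nd (nat_lit 1170) (nat_lit 4332) (nat_lit 0) (XT.nd (nat_lit 546) (nat_lit 0) (nat_lit 304) (XT.nd (nat_lit 234) (nat_lit 0) (nat_lit 152) (XT.nd (nat_lit 78) (nat_lit 0) (nat_lit 76) (XT.lf (nat_lit 76) (nat_lit 14403097716) (nat_lit 0) (nat_lit 15915702759) (nat_lit 1292) (nat_lit 44425348055) (nat_lit 275) (nat_lit 5) (nat_lit 274) (nat_lit 3) (nat_lit 291) (nat_lit 5) (nat_lit 499) (nat_lit 498) (nat_lit 203)) (XT.nd (nat_lit 78) (nat_lit 0) (nat_lit 0) (XT.lf (nat_lit 0) (nat_lit 31357559471) (nat_lit 1216) (nat_lit 23766240845) (nat_lit 1292) (nat_lit 20740758947) (nat_lit 275) (nat_lit 5) (nat_lit 291) (nat_lit 5) (nat_lit 292) (nat_lit 5) (nat_lit 500) (nat_lit 498) (nat_lit 202)) (XT.lf (nat_lit 76) (nat_lit 14021590215) (nat_lit 0) (nat_lit 18697803360) (nat_lit 1292) (nat_lit 44290431479) (nat_lit 276) (nat_lit 5) (nat_lit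 275) (nat_lit 5) (nat_lit 292) (nat_lit 5) (nat_lit 501) (nat_lit 498) (nat_lit 201)))) (XT.nd (nat_lit 156) (nat_lit 0) (nat_lit 76) (XT.nd (nat_lit 78) (nat_lit 0) (nat_lit 0) (XT.lf (nat_lit 0) (nat_lit 34544929642) (nat_lit 1216) (nat_lit 24935569513) (nat_lit 1292) (nat_lit 18696264357) (nat_lit 276) (nat_lit 5) (nat_lit 292) (nat_lit 5) (nat_lit 293) (nat_lit 5) (nat_lit 502) (nat_lit 498) (nat_lit 200)) (XT.lf (nat_lit 76) (nat_lit 14353376400) (nat_lit 0) (nat_lit 22394528051) (nat_lit 1292) (nat_lit 42621125591) (nat_lit 277) (nat_lit 5) (nat_lit 276) (nat_lit 5) (nat_lit 293) (nat_lit 5) (nat_lit 503) (nat_lit 498) (nat_lit 199))) (XT.nd (nat_lit 78) (nat_lit 0) (nat_lit 0) (XT.lf (nat_lit 0) (nat_lit 39422763870) (nat_lit 1216) (nat_lit 25412046458) (nat_lit 1292) (nat_lit 15750080478) (nat_lit 277) (nat_lit 5) (nat_lit 293) (nat_lit 5) (nat_lit 294) (nat_lit 5) (nat_lit 504) (nat_lit 498) (nat_lit 198))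 (XT.lf (nat_lit 76) (nat_lit 15459346021) (nat_lit 0) (nat_lit 27088451859) (nat_lit 1292) (nat_lit 39278331740) (nat_lit 278) (nat_lit 5) (nat_lit 277) (nat_lit 5) (nat_lit 294) (nat_lit 5) (nat_lit 505) (nat_lit 498) (nat_lit 197))))) (XT.nd (nat_lit 312) (nat_lit 0) (nat_lit 152) (XT.nd (nat_lit 156) (nat_lit 0) (nat_lit 76) (XT.nd (nat_lit 78) (nat_lit 0) (nat_lit 0) (XT.lf (nat_lit 0) (nat_lit 46138677695) (nat_lit 1216) (nat_lit 25135254288) (nat_lit 1292) (nat_lit 11819510864) (nat_lit 278) (nat_lit 5) (nat_lit 294) (nat_lit 5) (nat_lit 295) (nat_lit 5) (nat_lit 506) (nat_lit 498) (nat_lit 196)) (XT.lf (nat_lit 76) (nat_lit 17404375318) (nat_lit 0) (nat_lit 32868030717) (nat_lit 1292) (nat_lit 34113315859) (nat_lit 279) (nat_lit 5) (nat_lit 278) (nat_lit 5) (nat_lit 295) (nat_lit 5) (nat_lit 507) (nat_lit 498) (nat_lit 195))) (XT.nd (nat_lit 78) (nat_lit 0) (nat_lit 0) (XT.lf (nat_lit 0) (nat_lit 54850412676)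 (nat_lit 1216) (nat_lit 24040809683) (nat_lit 1292) (nat_lit 6815939047) (nat_lit 279) (nat_lit 5) (nat_lit 295) (nat_lit 5) (nat_lit 296) (nat_lit 5) (nat_lit 508) (nat_lit 498) (nat_lit 194)) (XT.lf (nat_lit 76) (nat_lit 20257548116) (nat_lit 0) (nat_lit 39828004030) (nat_lit 1292) (nat_lit 26967098260) (nat_lit 280) (nat_lit 5) (nat_lit 279) (nat_lit 5) (nat_lit 296) (nat_lit 5) (nat_lit 509) (nat_lit 498) (nat_lit 193)))) (XT.nd (nat_lit 156) (nat_lit 0) (nat_lit 0) (XT.nd (nat_lit 78) (nat_lit 0) (nat_lit 0) (XT.lf (nat_lit 0) (nat_lit 65726475334) (nat_lit 1216) (nat_lit 22060144266) (nat_lit 1292) (nat_lit 644422673) (nat_lit 280) (nat_lit 5) (nat_lit 296) (nat_lit 5) (nat_lit 297) (nat_lit 5) (nat_lit 510) (nat_lit 498) (nat_lit 192)) (XT.lf (nat_lit 76) (nat_lit 24092387307) (nat_lit 0) (nat_lit 48069824095) (nat_lit 1292) (nat_lit 17669807014) (nat_lit 281) (nat_lit 5) (nat_lit 280) (nat_lit 5) (nat_lit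 297) (nat_lit 5) (nat_lit 511) (nat_lit 498) (nat_lit 191))) (XT.nd (nat_lit 78) (nat_lit 0) (nat_lit 76) (XT.lf (nat_lit 76) (nat_lit 72081441012) (nat_lit 0) (nat_lit 6932007912) (nat_lit 1292) (nat_lit 12254902116) (nat_lit 281) (nat_lit 5) (nat_lit 280) (nat_lit 5) (nat_lit 297) (nat_lit 5) (nat_lit 512) (nat_lit 498) (nat_lit 190)) (XT.lf (nat_lit 76) (nat_lit 28987097045) (nat_lit 0) (nat_lit 57702114217) (nat_lit 1292) (nat_lit 6039992824) (nat_lit 282) (nat_lit 5) (nat_lit 281) (nat_lit 5) (nat_lit 298) (nat_lit 5) (nat_lit 513) (nat_lit 498) (nat_lit 189)))))) (XT.nd (nat_lit 546) (nat_lit 1672) (nat_lit 0) (XT.nd (nat_lit 234) (nat_lit 1900) (nat_lit 0) (XT.nd (nat_lit 78) (nat_lit 0) (nat_lit 76) (XT.lf (nat_lit 0) (nat_lit 618293723) (nat_lit 1292) (nat_lit 15302730479) (nat_lit 1368) (nat_lit 78304834936) (nat_lit 264) (nat_lit 5) (nat_lit 281) (nat_lit 5) (nat_lit 282) (nat_lit 5) (nat_lit 514) (nat_lit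 498) (nat_lit 188)) (XT.nd (nat_lit 78) (nat_lit 0) (nat_lit 0) (XT.lf (nat_lit 0) (nat_lit 7957722508) (nat_lit 1292) (nat_lit 60803077606) (nat_lit 76) (nat_lit 26986735993) (nat_lit 265) (nat_lit 5) (nat_lit 282) (nat_lit 5) (nat_lit 266) (nat_lit 5) (nat_lit 515) (nat_lit 498) (nat_lit 187)) (XT.lf (nat_lit 0) (nat_lit 15830721185) (nat_lit 1292) (nat_lit 10456908169) (nat_lit 76) (nat_lit 71017832486) (nat_lit 265) (nat_lit 5) (nat_lit 282) (nat_lit 5) (nat_lit 266) (nat_lit 5) (nat_lit 516) (nat_lit 498) (nat_lit 186)))) (XT.nd (nat_lit 156) (nat_lit 1216) (nat_lit 0) (XT.nd (nat_lit 78) (nat_lit 0) (nat_lit 0) (XT.lf (nat_lit 0) (nat_lit 24517343131) (nat_lit 836) (nat_lit 56846498258) (nat_lit 76) (nat_lit 17528961020) (nat_lit 255) (nat_lit 5) (nat_lit 266) (nat_lit 5) (nat_lit 256) (nat_lit 5) (nat_lit 517) (nat_lit 498) (nat_lit 185)) (XT.lf (nat_lit 0) (nat_lit 33831187878) (nat_lit 836) (nat_lit 4447214619)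 (nat_lit 76) (nat_lit 62238362036) (nat_lit 255) (nat_lit 5) (nat_lit 266) (nat_lit 5) (nat_lit 256) (nat_lit 5) (nat_lit 518) (nat_lit 498) (nat_lit 184))) (XT.nd (nat_lit 78) (nat_lit 608) (nat_lit 0) (XT.lf (nat_lit 0) (nat_lit 43973134999) (nat_lit 684) (nat_lit 51728922246) (nat_lit 76) (nat_lit 6470927726) (nat_lit 247) (nat_lit 5) (nat_lit 256) (nat_lit 5) (nat_lit 248) (nat_lit 5) (nat_lit 519) (nat_lit 498) (nat_lit 183)) (XT.lf (nat_lit 0) (nat_lit 2872034708) (nat_lit 608) (nat_lit 51998985538) (nat_lit 684) (nat_lit 48994321441) (nat_lit 239) (nat_lit 5) (nat_lit 247) (nat_lit 5) (nat_lit 248) (nat_lit 5) (nat_lit 520) (nat_lit 498) (nat_lit 182))))) (XT.nd (nat_lit 312) (nat_lit 608) (nat_lit 0) (XT.nd (nat_lit 156) (nat_lit 532) (nat_lit 0) (XT.nd (nat_lit 78) (nat_lit 532) (nat_lit 0) (XT.lf (nat_lit 0) (nat_lit 60171147718) (nat_lit 608) (nat_lit 6446785572) (nat_lit 684) (nat_lit 38974873135) (nat_lit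 239) (nat_lit 5) (nat_lit 247) (nat_lit 5) (nat_lit 248) (nat_lit 5) (nat_lit 521) (nat_lit 498) (nat_lit 181)) (XT.lf (nat_lit 0) (nat_lit 11655268775) (nat_lit 532) (nat_lit 67562802401) (nat_lit 608) (nat_lit 28138999460) (nat_lit 232) (nat_lit 5) (nat_lit 239) (nat_lit 5) (nat_lit 240) (nat_lit 5) (nat_lit 522) (nat_lit 498) (nat_lit 180))) (XT.nd (nat_lit 78) (nat_lit 532) (nat_lit 0) (XT.lf (nat_lit 0) (nat_lit 71310241184) (nat_lit 532) (nat_lit 21407589026) (nat_lit 608) (nat_lit 16440784107) (nat_lit 232) (nat_lit 5) (nat_lit 239) (nat_lit 5) (nat_lit 240) (nat_lit 5) (nat_lit 523) (nat_lit 498) (nat_lit 179)) (XT.lf (nat_lit 0) (nat_lit 21916873838) (nat_lit 532) (nat_lit 85167336997) (nat_lit 608) (nat_lit 3916144660) (nat_lit 225) (nat_lit 5) (nat_lit 232) (nat_lit 5) (nat_lit 233) (nat_lit 5) (nat_lit 524) (nat_lit 498) (nat_lit 178)))) (XT.nd (nat_lit 156) (nat_lit 0) (nat_lit 0) (XT.nd (nat_lit 78)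 (nat_lit 532) (nat_lit 0) (XT.lf (nat_lit 0) (nat_lit 9406607232) (nat_lit 608) (nat_lit 28937317385) (nat_lit 76) (nat_lit 74532902841) (nat_lit 224) (nat_lit 5) (nat_lit 232) (nat_lit 5) (nat_lit 225) (nat_lit 5) (nat_lit 525) (nat_lit 498) (nat_lit 177)) (XT.lf (nat_lit 0) (nat_lit 23471965332) (nat_lit 608) (nat_lit 81266884295) (nat_lit 76) (nat_lit 10056931760) (nat_lit 217) (nat_lit 5) (nat_lit 225) (nat_lit 5) (nat_lit 218) (nat_lit 5) (nat_lit 526) (nat_lit 498) (nat_lit 176))) (XT.nd (nat_lit 60294) (nat_lit 0) (nat_lit 4332) (XT.lf (nat_lit 0) (nat_lit 38633795103) (nat_lit 608) (nat_lit 18684050344) (nat_lit 76) (nat_lit 59434223206) (nat_lit 217) (nat_lit 5) (nat_lit 225) (nat_lit 5) (nat_lit 218) (nat_lit 5) (nat_lit 527) (nat_lit 498) (nat_lit 175)) (XT.lf (nat_lit 0) (nat_lit 15318953749) (nat_lit 1292) (nat_lit 11303675074) (nat_lit 1292) (nat_lit 11303675074) (nat_lit 274) (nat_lit 3) (nat_lit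 291) (nat_lit 3) (nat_lit 291) (nat_lit 5) (nat_lit 499) (nat_lit 499) (nat_lit 202))))))) (XT.nd (nat_lit 1170) (nat_lit 4332) (nat_lit 0) (XT.nd (nat_lit 546) (nat_lit 0) (nat_lit 304) (XT.nd (nat_lit 234) (nat_lit 0) (nat_lit 152) (XT.nd (nat_lit 78) (nat_lit 0) (nat_lit 76) (XT.lf (nat_lit 76) (nat_lit 14847263774) (nat_lit 0) (nat_lit 16404197086) (nat_lit 1292) (nat_lit 45734313888) (nat_lit 275) (nat_lit 5) (nat_lit 274) (nat_lit 3) (nat_lit 291) (nat_lit 5) (nat_lit 500) (nat_lit 499) (nat_lit 201)) (XT.nd (nat_lit 78) (nat_lit 0) (nat_lit 0) (XT.lf (nat_lit 0) (nat_lit 32320607041) (nat_lit 1216) (nat_lit 24466725811) (nat_lit 1292) (nat_lit 21352488375) (nat_lit 275) (nat_lit 5) (nat_lit 291) (nat_lit 5) (nat_lit 292) (nat_lit 5) (nat_lit 501) (nat_lit 499) (nat_lit 200)) (XT.lf (nat_lit 76) (nat_lit 14454617609) (nat_lit 0) (nat_lit 19268147440) (nat_lit 1292) (nat_lit 45596696027) (nat_lit 276) (nat_lit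 5) (nat_lit 275) (nat_lit 5) (nat_lit 292) (nat_lit 5) (nat_lit 502) (nat_lit 499) (nat_lit 199)))) (XT.nd (nat_lit 156) (nat_lit 0) (nat_lit 76) (XT.nd (nat_lit 78) (nat_lit 0) (nat_lit 0) (XT.lf (nat_lit 0) (nat_lit 35602344728) (nat_lit 1216) (nat_lit 25670890121) (nat_lit 1292) (nat_lit 19248194659) (nat_lit 276) (nat_lit 5) (nat_lit 292) (nat_lit 5) (nat_lit 293) (nat_lit 5) (nat_lit 503) (nat_lit 499) (nat_lit 198)) (XT.lf (nat_lit 76) (nat_lit 14796599204) (nat_lit 0) (nat_lit 23074317296) (nat_lit 1292) (nat_lit 43878562447) (nat_lit 277) (nat_lit 5) (nat_lit 276) (nat_lit 5) (nat_lit 293) (nat_lit 5) (nat_lit 504) (nat_lit 499) (nat_lit 197))) (XT.nd (nat_lit 78) (nat_lit 0) (nat_lit 0) (XT.lf (nat_lit 0) (nat_lit 40625348205) (nat_lit 1216) (nat_lit 26161475849) (nat_lit 1292) (nat_lit 16215011821) (nat_lit 277) (nat_lit 5) (nat_lit 293) (nat_lit 5) (nat_lit 294) (nat_lit 5) (nat_lit 505) (nat_lit 499)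 (nat_lit 196)) (XT.lf (nat_lit 76) (nat_lit 15935931620) (nat_lit 0) (nat_lit 27907745054) (nat_lit 1292) (nat_lit 40436649011) (nat_lit 278) (nat_lit 5) (nat_lit 277) (nat_lit 5) (nat_lit 294) (nat_lit 5) (nat_lit 506) (nat_lit 499) (nat_lit 195))))) (XT.nd (nat_lit 312) (nat_lit 0) (nat_lit 152) (XT.nd (nat_lit 156) (nat_lit 0) (nat_lit 76) (XT.nd (nat_lit 78) (nat_lit 0) (nat_lit 0) (XT.lf (nat_lit 0) (nat_lit 47541654563) (nat_lit 1216) (nat_lit 25876246999) (nat_lit 1292) (nat_lit 12167775727) (nat_lit 278) (nat_lit 5) (nat_lit 294) (nat_lit 5) (nat_lit 295) (nat_lit 5) (nat_lit 507) (nat_lit 499) (nat_lit 194)) (XT.lf (nat_lit 76) (nat_lit 17939443409) (nat_lit 0) (nat_lit 33859527647) (nat_lit 1292) (nat_lit 35117766490) (nat_lit 279) (nat_lit 5) (nat_lit 278) (nat_lit 5) (nat_lit 295) (nat_lit 5) (nat_lit 508) (nat_lit 499) (nat_lit 193))) (XT.nd (nat_lit 78) (nat_lit 0) (nat_lit 0) (XT.lf (nat_lit 0) (nat_lit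 56513731263) (nat_lit 1216) (nat_lit 24748883213) (nat_lit 1292) (nat_lit 7015223488) (nat_lit 279) (nat_lit 5) (nat_lit 295) (nat_lit 5) (nat_lit 296) (nat_lit 5) (nat_lit 509) (nat_lit 499) (nat_lit 192)) (XT.lf (nat_lit 76) (nat_lit 20878296390) (nat_lit 0) (nat_lit 41027235074) (nat_lit 1292) (nat_lit 27758172094) (nat_lit 280) (nat_lit 5) (nat_lit 279) (nat_lit 5) (nat_lit 296) (nat_lit 5) (nat_lit 510) (nat_lit 499) (nat_lit 191)))) (XT.nd (nat_lit 156) (nat_lit 0) (nat_lit 0) (XT.nd (nat_lit 78) (nat_lit 0) (nat_lit 0) (XT.lf (nat_lit 0) (nat_lit 67715134200) (nat_lit 1216) (nat_lit 22708754031) (nat_lit 1292) (nat_lit 659575508) (nat_lit 280) (nat_lit 5) (nat_lit 296) (nat_lit 5) (nat_lit 297) (nat_lit 5) (nat_lit 511) (nat_lit 499) (nat_lit 190)) (XT.lf (nat_lit 76) (nat_lit 24828224131) (nat_lit 0) (nat_lit 49515352609) (nat_lit 1292) (nat_lit 18182903509) (nat_lit 281) (nat_lit 5) (nat_lit 280) (nat_lit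 5) (nat_lit 297) (nat_lit 5) (nat_lit 512) (nat_lit 499) (nat_lit 189))) (XT.nd (nat_lit 78) (nat_lit 0) (nat_lit 76) (XT.lf (nat_lit 76) (nat_lit 74256568907) (nat_lit 0) (nat_lit 7143301927) (nat_lit 1292) (nat_lit 12606046543) (nat_lit 281) (nat_lit 5) (nat_lit 280) (nat_lit 5) (nat_lit 297) (nat_lit 5) (nat_lit 513) (nat_lit 499) (nat_lit 188)) (XT.lf (nat_lit 76) (nat_lit 29869781440) (nat_lit 0) (nat_lit 59435752583) (nat_lit 1292) (nat_lit 6205073258) (nat_lit 282) (nat_lit 5) (nat_lit 281) (nat_lit 5) (nat_lit 298) (nat_lit 5) (nat_lit 514) (nat_lit 499) (nat_lit 187)))))) (XT.nd (nat_lit 624) (nat_lit 1672) (nat_lit 0) (XT.nd (nat_lit 312) (nat_lit 1216) (nat_lit 0) (XT.nd (nat_lit 156) (nat_lit 684) (nat_lit 0) (XT.nd (nat_lit 78) (nat_lit 0) (nat_lit 76) (XT.lf (nat_lit 0) (nat_lit 652187005) (nat_lit 1292) (nat_lit 15748812915) (nat_lit 1368) (nat_lit 80651171326) (nat_lit 264) (nat_lit 5) (nat_lit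 281) (nat_lit 5) (nat_lit 282) (nat_lit 5) (nat_lit 515) (nat_lit 499) (nat_lit 186)) (XT.lf (nat_lit 0) (nat_lit 8211454802) (nat_lit 1292) (nat_lit 62613823369) (nat_lit 76) (nat_lit 27794230766) (nat_lit 265) (nat_lit 5) (nat_lit 282) (nat_lit 5) (nat_lit 266) (nat_lit 5) (nat_lit 516) (nat_lit 499) (nat_lit 185))) (XT.nd (nat_lit 78) (nat_lit 760) (nat_lit 0) (XT.lf (nat_lit 0) (nat_lit 16320206527) (nat_lit 1292) (nat_lit 10757657584) (nat_lit 76) (nat_lit 73146321532) (nat_lit 265) (nat_lit 5) (nat_lit 282) (nat_lit 5) (nat_lit 266) (nat_lit 5) (nat_lit 517) (nat_lit 499) (nat_lit 184)) (XT.lf (nat_lit 0) (nat_lit 25267112518) (nat_lit 836) (nat_lit 58538617713) (nat_lit 76) (nat_lit 18053425729) (nat_lit 255) (nat_lit 5) (nat_lit 266) (nat_lit 5) (nat_lit 256) (nat_lit 5) (nat_lit 518) (nat_lit 499) (nat_lit 183)))) (XT.nd (nat_lit 156) (nat_lit 608) (nat_lit 0) (XT.nd (nat_lit 78) (nat_lit 608) (nat_lit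 0) (XT.lf (nat_lit 0) (nat_lit 34859957585) (nat_lit 836) (nat_lit 4567742230) (nat_lit 76) (nat_lit 64104149672) (nat_lit 255) (nat_lit 5) (nat_lit 266) (nat_lit 5) (nat_lit 256) (nat_lit 5) (nat_lit 519) (nat_lit 499) (nat_lit 182)) (XT.lf (nat_lit 0) (nat_lit 45305875259) (nat_lit 684) (nat_lit 53267610350) (nat_lit 76) (nat_lit 6664279650) (nat_lit 247) (nat_lit 5) (nat_lit 256) (nat_lit 5) (nat_lit 248) (nat_lit 5) (nat_lit 520) (nat_lit 499) (nat_lit 181))) (XT.nd (nat_lit 78) (nat_lit 0) (nat_lit 0) (XT.lf (nat_lit 0) (nat_lit 2971246101) (nat_lit 608) (nat_lit 53559181861) (nat_lit 684) (nat_lit 50450472872) (nat_lit 239) (nat_lit 5) (nat_lit 247) (nat_lit 5) (nat_lit 248) (nat_lit 5) (nat_lit 521) (nat_lit 499) (nat_lit 180)) (XT.lf (nat_lit 0) (nat_lit 61988952394) (nat_lit 608) (nat_lit 6640409291) (nat_lit 684) (nat_lit 40130839512) (nat_lit 239) (nat_lit 5) (nat_lit 247) (nat_lit 5) (nat_lit 248) (nat_lit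 5) (nat_lit 522) (nat_lit 499) (nat_lit 179))))) (XT.nd (nat_lit 312) (nat_lit 532) (nat_lit 0) (XT.nd (nat_lit 156) (nat_lit 608) (nat_lit 0) (XT.nd (nat_lit 78) (nat_lit 0) (nat_lit 0) (XT.lf (nat_lit 0) (nat_lit 12017860563) (nat_lit 532) (nat_lit 69589389969) (nat_lit 608) (nat_lit 28970150476) (nat_lit 232) (nat_lit 5) (nat_lit 239) (nat_lit 5) (nat_lit 240) (nat_lit 5) (nat_lit 523) (nat_lit 499) (nat_lit 178)) (XT.lf (nat_lit 0) (nat_lit 73462105434) (nat_lit 532) (nat_lit 22049528828) (nat_lit 608) (nat_lit 16921367856) (nat_lit 232) (nat_lit 5) (nat_lit 239) (nat_lit 5) (nat_lit 240) (nat_lit 5) (nat_lit 524) (nat_lit 499) (nat_lit 177))) (XT.nd (nat_lit 78) (nat_lit 76) (nat_lit 0) (XT.lf (nat_lit 0) (nat_lit 22587178214) (nat_lit 532) (nat_lit 87721596449) (nat_lit 608) (nat_lit 4021227893) (nat_lit 225) (nat_lit 5) (nat_lit 232) (nat_lit 5) (nat_lit 233) (nat_lit 5) (nat_lit 525) (nat_lit 499) (nat_lit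 176)) (XT.lf (nat_lit 0) (nat_lit 9700610416) (nat_lit 608) (nat_lit 29792774230) (nat_lit 76) (nat_lit 76769391150) (nat_lit 224) (nat_lit 5) (nat_lit 232) (nat_lit 5) (nat_lit 225) (nat_lit 5) (nat_lit 526) (nat_lit 499) (nat_lit 175)))) (XT.nd (nat_lit 60450) (nat_lit 0) (nat_lit 4332) (XT.nd (nat_lit 60372) (nat_lit 0) (nat_lit 4332) (XT.lf (nat_lit 0) (nat_lit 24187715152) (nat_lit 608) (nat_lit 83692011770) (nat_lit 76) (nat_lit 10359577913) (nat_lit 217) (nat_lit 5) (nat_lit 225) (nat_lit 5) (nat_lit 218) (nat_lit 5) (nat_lit 527) (nat_lit 499) (nat_lit 174)) (XT.lf (nat_lit 0) (nat_lit 15789677855) (nat_lit 1292) (nat_lit 11637038949) (nat_lit 1292) (nat_lit 11637038949) (nat_lit 274) (nat_lit 3) (nat_lit 291) (nat_lit 3) (nat_lit 291) (nat_lit 5) (nat_lit 500) (nat_lit 500) (nat_lit 200))) (XT.nd (nat_lit 78) (nat_lit 0) (nat_lit 76) (XT.lf (nat_lit 76) (nat_lit 15304061768) (nat_lit 0) (nat_lit 16906713464)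 (nat_lit 1292) (nat_lit 47083914603) (nat_lit 275) (nat_lit 5) (nat_lit 274) (nat_lit 3) (nat_lit 291) (nat_lit 5) (nat_lit 501) (nat_lit 500) (nat_lit 199)) (XT.lf (nat_lit 0) (nat_lit 33311264734) (nat_lit 1216) (nat_lit 25188943008) (nat_lit 1292) (nat_lit 21983172045) (nat_lit 275) (nat_lit 5) (nat_lit 291) (nat_lit 5) (nat_lit 292) (nat_lit 5) (nat_lit 502) (nat_lit 500) (nat_lit 198))))))))
noncomputable def xc252 : XT := (XT.nd (nat_lit 62790) (nat_lit 0) (nat_lit 532) (XT.nd (nat_lit 1170) (nat_lit 2964) (nat_lit 0) (XT.nd (nat_lit 546) (nat_lit 836) (nat_lit 0) (XT.nd (nat_lit 234) (nat_lit 0) (nat_lit 152) (XT.nd (nat_lit 78) (nat_lit 0) (nat_lit 76) (XT.lf (nat_lit 76) (nat_lit 14899925180) (nat_lit 0) (nat_lit 19855061671) (nat_lit 1292) (nat_lit 46943437141) (nat_lit 276) (nat_lit 5) (nat_lit 275) (nat_lit 5) (nat_lit 292) (nat_lit 5) (nat_lit 503) (nat_lit 500) (nat_lit 197)) (XT.nd (nat_lit 78) (nat_lit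 0) (nat_lit 0) (XT.lf (nat_lit 0) (nat_lit 36690272923) (nat_lit 1216) (nat_lit 26429002047) (nat_lit 1292) (nat_lit 19817197076) (nat_lit 276) (nat_lit 5) (nat_lit 292) (nat_lit 5) (nat_lit 293) (nat_lit 5) (nat_lit 504) (nat_lit 500) (nat_lit 196)) (XT.lf (nat_lit 76) (nat_lit 15252394166) (nat_lit 0) (nat_lit 23774043660) (nat_lit 1292) (nat_lit 45174939197) (nat_lit 277) (nat_lit 5) (nat_lit 276) (nat_lit 5) (nat_lit 293) (nat_lit 5) (nat_lit 505) (nat_lit 500) (nat_lit 195)))) (XT.nd (nat_lit 156) (nat_lit 0) (nat_lit 76) (XT.nd (nat_lit 78) (nat_lit 0) (nat_lit 0) (XT.lf (nat_lit 0) (nat_lit 41862867647) (nat_lit 1216) (nat_lit 26934130472) (nat_lit 1292) (nat_lit 16694325715) (nat_lit 277) (nat_lit 5) (nat_lit 293) (nat_lit 5) (nat_lit 294) (nat_lit 5) (nat_lit 506) (nat_lit 500) (nat_lit 194)) (XT.lf (nat_lit 76) (nat_lit 16426079714) (nat_lit 0) (nat_lit 28751235903) (nat_lit 1292) (nat_lit 41630865759)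 (nat_lit 278) (nat_lit 5) (nat_lit 277) (nat_lit 5) (nat_lit 294) (nat_lit 5) (nat_lit 507) (nat_lit 500) (nat_lit 193))) (XT.nd (nat_lit 78) (nat_lit 0) (nat_lit 0) (XT.lf (nat_lit 0) (nat_lit 48985640591) (nat_lit 1216) (nat_lit 26640219470) (nat_lit 1292) (nat_lit 12526851357) (nat_lit 278) (nat_lit 5) (nat_lit 294) (nat_lit 5) (nat_lit 295) (nat_lit 5) (nat_lit 508) (nat_lit 500) (nat_lit 192)) (XT.lf (nat_lit 76) (nat_lit 18489820914) (nat_lit 0) (nat_lit 34880456288) (nat_lit 1292) (nat_lit 36153438380) (nat_lit 279) (nat_lit 5) (nat_lit 278) (nat_lit 5) (nat_lit 295) (nat_lit 5) (nat_lit 509) (nat_lit 500) (nat_lit 191))))) (XT.nd (nat_lit 312) (nat_lit 1140) (nat_lit 0) (XT.nd (nat_lit 156) (nat_lit 0) (nat_lit 76) (XT.nd (nat_lit 78) (nat_lit 0) (nat_lit 0) (XT.lf (nat_lit 0) (nat_lit 58225927259) (nat_lit 1216) (nat_lit 25478953857) (nat_lit 1292) (nat_lit 7220784603) (nat_lit 279) (nat_lit 5) (nat_lit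 295) (nat_lit 5) (nat_lit 296) (nat_lit 5) (nat_lit 510) (nat_lit 500) (nat_lit 190)) (XT.lf (nat_lit 76) (nat_lit 21516919606) (nat_lit 0) (nat_lit 42262190991) (nat_lit 1292) (nat_lit 28574007921) (nat_lit 280) (nat_lit 5) (nat_lit 279) (nat_lit 5) (nat_lit 296) (nat_lit 5) (nat_lit 511) (nat_lit 500) (nat_lit 189))) (XT.nd (nat_lit 78) (nat_lit 0) (nat_lit 0) (XT.lf (nat_lit 0) (nat_lit 69762484736) (nat_lit 1216) (nat_lit 23377579511) (nat_lit 1292) (nat_lit 675422870) (nat_lit 280) (nat_lit 5) (nat_lit 296) (nat_lit 5) (nat_lit 297) (nat_lit 5) (nat_lit 512) (nat_lit 500) (nat_lit 188)) (XT.lf (nat_lit 76) (nat_lit 25585386064) (nat_lit 0) (nat_lit 51004049864) (nat_lit 1292) (nat_lit 18712368638) (nat_lit 281) (nat_lit 5) (nat_lit 280) (nat_lit 5) (nat_lit 297) (nat_lit 5) (nat_lit 513) (nat_lit 500) (nat_lit 187)))) (XT.nd (nat_lit 156) (nat_lit 1216) (nat_lit 0) (XT.nd (nat_lit 78) (nat_lit 0) (nat_lit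 76) (XT.lf (nat_lit 76) (nat_lit 76496222488) (nat_lit 0) (nat_lit 7360743389) (nat_lit 1292) (nat_lit 12968672622) (nat_lit 281) (nat_lit 5) (nat_lit 280) (nat_lit 5) (nat_lit 297) (nat_lit 5) (nat_lit 514) (nat_lit 500) (nat_lit 186)) (XT.lf (nat_lit 76) (nat_lit 30778196011) (nat_lit 0) (nat_lit 61221252288) (nat_lit 1292) (nat_lit 6376031421) (nat_lit 282) (nat_lit 5) (nat_lit 281) (nat_lit 5) (nat_lit 298) (nat_lit 5) (nat_lit 515) (nat_lit 500) (nat_lit 185))) (XT.nd (nat_lit 78) (nat_lit 0) (nat_lit 76) (XT.lf (nat_lit 0) (nat_lit 686216250) (nat_lit 1292) (nat_lit 16209024048) (nat_lit 1368) (nat_lit 83068059036) (nat_lit 264) (nat_lit 5) (nat_lit 281) (nat_lit 5) (nat_lit 282) (nat_lit 5) (nat_lit 516) (nat_lit 500) (nat_lit 184)) (XT.lf (nat_lit 0) (nat_lit 8471937967) (nat_lit 1292) (nat_lit 64479657652) (nat_lit 76) (nat_lit 28626071351) (nat_lit 265) (nat_lit 5) (nat_lit 282) (nat_lit 5) (nat_lit 266)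 (nat_lit 5) (nat_lit 517) (nat_lit 500) (nat_lit 183)))))) (XT.nd (nat_lit 546) (nat_lit 532) (nat_lit 0) (XT.nd (nat_lit 234) (nat_lit 1748) (nat_lit 0) (XT.nd (nat_lit 78) (nat_lit 760) (nat_lit 0) (XT.lf (nat_lit 0) (nat_lit 16823540414) (nat_lit 1292) (nat_lit 11068173314) (nat_lit 76) (nat_lit 75338782695) (nat_lit 265) (nat_lit 5) (nat_lit 282) (nat_lit 5) (nat_lit 266) (nat_lit 5) (nat_lit 518) (nat_lit 500) (nat_lit 182)) (XT.nd (nat_lit 78) (nat_lit 0) (nat_lit 0) (XT.lf (nat_lit 0) (nat_lit 26038557030) (nat_lit 836) (nat_lit 60282262818) (nat_lit 76) (nat_lit 18593704982) (nat_lit 255) (nat_lit 5) (nat_lit 266) (nat_lit 5) (nat_lit 256) (nat_lit 5) (nat_lit 519) (nat_lit 500) (nat_lit 181)) (XT.lf (nat_lit 0) (nat_lit 35918796251) (nat_lit 836) (nat_lit 4692625539) (nat_lit 76) (nat_lit 66025989193) (nat_lit 255) (nat_lit 5) (nat_lit 266) (nat_lit 5) (nat_lit 256) (nat_lit 5) (nat_lit 520) (nat_lit 500)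 (nat_lit 180)))) (XT.nd (nat_lit 156) (nat_lit 532) (nat_lit 0) (XT.nd (nat_lit 78) (nat_lit 608) (nat_lit 0) (XT.lf (nat_lit 0) (nat_lit 46677820119) (nat_lit 684) (nat_lit 54853215659) (nat_lit 76) (nat_lit 6863476672) (nat_lit 247) (nat_lit 5) (nat_lit 256) (nat_lit 5) (nat_lit 248) (nat_lit 5) (nat_lit 521) (nat_lit 500) (nat_lit 179)) (XT.lf (nat_lit 0) (nat_lit 3072684692) (nat_lit 608) (nat_lit 55166171057) (nat_lit 684) (nat_lit 51951094032) (nat_lit 239) (nat_lit 5) (nat_lit 247) (nat_lit 5) (nat_lit 248) (nat_lit 5) (nat_lit 522) (nat_lit 500) (nat_lit 178))) (XT.nd (nat_lit 78) (nat_lit 532) (nat_lit 0) (XT.lf (nat_lit 0) (nat_lit 63860563886) (nat_lit 608) (nat_lit 6839829085) (nat_lit 684) (nat_lit 41322247196) (nat_lit 239) (nat_lit 5) (nat_lit 247) (nat_lit 5) (nat_lit 248) (nat_lit 5) (nat_lit 523) (nat_lit 500) (nat_lit 177)) (XT.lf (nat_lit 0) (nat_lit 12390587656) (nat_lit 532) (nat_lit 71676792184)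 (nat_lit 608) (nat_lit 29826983366) (nat_lit 232) (nat_lit 5) (nat_lit 239) (nat_lit 5) (nat_lit 240) (nat_lit 5) (nat_lit 524) (nat_lit 500) (nat_lit 176))))) (XT.nd (nat_lit 60762) (nat_lit 0) (nat_lit 3800) (XT.nd (nat_lit 60606) (nat_lit 0) (nat_lit 3724) (XT.nd (nat_lit 78) (nat_lit 532) (nat_lit 0) (XT.lf (nat_lit 0) (nat_lit 75677804787) (nat_lit 532) (nat_lit 22710743350) (nat_lit 608) (nat_lit 17417094693) (nat_lit 232) (nat_lit 5) (nat_lit 239) (nat_lit 5) (nat_lit 240) (nat_lit 5) (nat_lit 525) (nat_lit 500) (nat_lit 175)) (XT.lf (nat_lit 0) (nat_lit 23276857054) (nat_lit 532) (nat_lit 90352527349) (nat_lit 608) (nat_lit 4130175498) (nat_lit 225) (nat_lit 5) (nat_lit 232) (nat_lit 5) (nat_lit 233) (nat_lit 5) (nat_lit 526) (nat_lit 500) (nat_lit 174))) (XT.nd (nat_lit 78) (nat_lit 0) (nat_lit 0) (XT.lf (nat_lit 0) (nat_lit 16273883314) (nat_lit 1292) (nat_lit 11980733606) (nat_lit 1292) (nat_lit 11980733606)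 (nat_lit 274) (nat_lit 3) (nat_lit 291) (nat_lit 3) (nat_lit 291) (nat_lit 5) (nat_lit 501) (nat_lit 501) (nat_lit 198)) (XT.lf (nat_lit 76) (nat_lit 15773910437) (nat_lit 0) (nat_lit 17423708879) (nat_lit 1292) (nat_lit 48475290839) (nat_lit 275) (nat_lit 5) (nat_lit 274) (nat_lit 3) (nat_lit 291) (nat_lit 5) (nat_lit 502) (nat_lit 501) (nat_lit 197)))) (XT.nd (nat_lit 156) (nat_lit 0) (nat_lit 76) (XT.nd (nat_lit 78) (nat_lit 0) (nat_lit 0) (XT.lf (nat_lit 0) (nat_lit 34330434405) (nat_lit 1216) (nat_lit 25933503203) (nat_lit 1292) (nat_lit 22633344009) (nat_lit 275) (nat_lit 5) (nat_lit 291) (nat_lit 5) (nat_lit 292) (nat_lit 5) (nat_lit 503) (nat_lit 501) (nat_lit 196)) (XT.lf (nat_lit 76) (nat_lit 15357922128) (nat_lit 0) (nat_lit 20459074166) (nat_lit 1292) (nat_lit 48331795146) (nat_lit 276) (nat_lit 5) (nat_lit 275) (nat_lit 5) (nat_lit 292) (nat_lit 5) (nat_lit 504) (nat_lit 501) (nat_lit 195))) (XT.nd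 (nat_lit 78) (nat_lit 0) (nat_lit 0) (XT.lf (nat_lit 0) (nat_lit 37809699042) (nat_lit 1216) (nat_lit 27210547029) (nat_lit 1292) (nat_lit 20403754251) (nat_lit 276) (nat_lit 5) (nat_lit 292) (nat_lit 5) (nat_lit 293) (nat_lit 5) (nat_lit 505) (nat_lit 501) (nat_lit 194)) (XT.lf (nat_lit 76) (nat_lit 15721180040) (nat_lit 0) (nat_lit 24494331465) (nat_lit 1292) (nat_lit 46511354191) (nat_lit 277) (nat_lit 5) (nat_lit 276) (nat_lit 5) (nat_lit 293) (nat_lit 5) (nat_lit 506) (nat_lit 501) (nat_lit 193))))))) (XT.nd (nat_lit 1170) (nat_lit 1748) (nat_lit 0) (XT.nd (nat_lit 546) (nat_lit 1672) (nat_lit 0) (XT.nd (nat_lit 234) (nat_lit 0) (nat_lit 76) (XT.nd (nat_lit 78) (nat_lit 0) (nat_lit 0) (XT.lf (nat_lit 0) (nat_lit 43136435830) (nat_lit 1216) (nat_lit 27730664470) (nat_lit 1292) (nat_lit 17188428688) (nat_lit 277) (nat_lit 5) (nat_lit 293) (nat_lit 5) (nat_lit 294) (nat_lit 5) (nat_lit 507) (nat_lit 501) (nat_lit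 192)) (XT.nd (nat_lit 78) (nat_lit 0) (nat_lit 76) (XT.lf (nat_lit 76) (nat_lit 16930239376) (nat_lit 0) (nat_lit 29619672214) (nat_lit 1292) (nat_lit 42861992954) (nat_lit 278) (nat_lit 5) (nat_lit 277) (nat_lit 5) (nat_lit 294) (nat_lit 5) (nat_lit 508) (nat_lit 501) (nat_lit 191)) (XT.lf (nat_lit 0) (nat_lit 50471928058) (nat_lit 1216) (nat_lit 27427818044) (nat_lit 1292) (nat_lit 12897041249) (nat_lit 278) (nat_lit 5) (nat_lit 294) (nat_lit 5) (nat_lit 295) (nat_lit 5) (nat_lit 509) (nat_lit 501) (nat_lit 190)))) (XT.nd (nat_lit 156) (nat_lit 0) (nat_lit 76) (XT.nd (nat_lit 78) (nat_lit 0) (nat_lit 76) (XT.lf (nat_lit 76) (nat_lit 19056009748) (nat_lit 0) (nat_lit 35931717570) (nat_lit 1292) (nat_lit 37221205728) (nat_lit 279) (nat_lit 5) (nat_lit 278) (nat_lit 5) (nat_lit 295) (nat_lit 5) (nat_lit 510) (nat_lit 501) (nat_lit 189)) (XT.lf (nat_lit 0) (nat_lit 59988525661) (nat_lit 1216) (nat_lit 26231638193)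 (nat_lit 1292) (nat_lit 7432793579) (nat_lit 279) (nat_lit 5) (nat_lit 295) (nat_lit 5) (nat_lit 296) (nat_lit 5) (nat_lit 511) (nat_lit 501) (nat_lit 188))) (XT.nd (nat_lit 78) (nat_lit 0) (nat_lit 76) (XT.lf (nat_lit 76) (nat_lit 22173996923) (nat_lit 0) (nat_lit 43533957999) (nat_lit 1292) (nat_lit 29415289489) (nat_lit 280) (nat_lit 5) (nat_lit 279) (nat_lit 5) (nat_lit 296) (nat_lit 5) (nat_lit 512) (nat_lit 501) (nat_lit 187)) (XT.lf (nat_lit 0) (nat_lit 71870343263) (nat_lit 1216) (nat_lit 24067183697) (nat_lit 1292) (nat_lit 691971818) (nat_lit 280) (nat_lit 5) (nat_lit 296) (nat_lit 5) (nat_lit 297) (nat_lit 5) (nat_lit 513) (nat_lit 501) (nat_lit 186))))) (XT.nd (nat_lit 312) (nat_lit 684) (nat_lit 0) (XT.nd (nat_lit 156) (nat_lit 1216) (nat_lit 0) (XT.nd (nat_lit 78) (nat_lit 0) (nat_lit 0) (XT.lf (nat_lit 76) (nat_lit 26364555911) (nat_lit 0) (nat_lit 52537222239) (nat_lit 1292) (nat_lit 19258637447)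 (nat_lit 281) (nat_lit 5) (nat_lit 280) (nat_lit 5) (nat_lit 297) (nat_lit 5) (nat_lit 514) (nat_lit 501) (nat_lit 185)) (XT.lf (nat_lit 76) (nat_lit 78802379323) (nat_lit 0) (nat_lit 7584527709) (nat_lit 1292) (nat_lit 13343070423) (nat_lit 281) (nat_lit 5) (nat_lit 280) (nat_lit 5) (nat_lit 297) (nat_lit 5) (nat_lit 515) (nat_lit 501) (nat_lit 184))) (XT.nd (nat_lit 78) (nat_lit 1292) (nat_lit 0) (XT.lf (nat_lit 76) (nat_lit 31713155736) (nat_lit 0) (nat_lit 63060177657) (nat_lit 1292) (nat_lit 6552990529) (nat_lit 282) (nat_lit 5) (nat_lit 281) (nat_lit 5) (nat_lit 298) (nat_lit 5) (nat_lit 516) (nat_lit 501) (nat_lit 183)) (XT.lf (nat_lit 0) (nat_lit 720436101) (nat_lit 1292) (nat_lit 16683744901) (nat_lit 1368) (nat_lit 85557605351) (nat_lit 264) (nat_lit 5) (nat_lit 281) (nat_lit 5) (nat_lit 282) (nat_lit 5) (nat_lit 517) (nat_lit 501) (nat_lit 182)))) (XT.nd (nat_lit 156) (nat_lit 760) (nat_lit 0) (XT.nd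 (nat_lit 78) (nat_lit 0) (nat_lit 0) (XT.lf (nat_lit 0) (nat_lit 8739423961) (nat_lit 1292) (nat_lit 66402189132) (nat_lit 76) (nat_lit 29482981178) (nat_lit 265) (nat_lit 5) (nat_lit 282) (nat_lit 5) (nat_lit 266) (nat_lit 5) (nat_lit 518) (nat_lit 501) (nat_lit 181)) (XT.lf (nat_lit 0) (nat_lit 17341186291) (nat_lit 1292) (nat_lit 11388705649) (nat_lit 76) (nat_lit 77597128395) (nat_lit 265) (nat_lit 5) (nat_lit 282) (nat_lit 5) (nat_lit 266) (nat_lit 5) (nat_lit 519) (nat_lit 501) (nat_lit 180))) (XT.nd (nat_lit 78) (nat_lit 0) (nat_lit 0) (XT.lf (nat_lit 0) (nat_lit 26832373875) (nat_lit 836) (nat_lit 62078935599) (nat_lit 76) (nat_lit 19150268588) (nat_lit 255) (nat_lit 5) (nat_lit 266) (nat_lit 5) (nat_lit 256) (nat_lit 5) (nat_lit 520) (nat_lit 501) (nat_lit 179)) (XT.lf (nat_lit 0) (nat_lit 37008651531) (nat_lit 836) (nat_lit 4821952748) (nat_lit 76) (nat_lit 68005557661) (nat_lit 255) (nat_lit 5) (nat_lit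 266) (nat_lit 5) (nat_lit 256) (nat_lit 5) (nat_lit 521) (nat_lit 501) (nat_lit 178)))))) (XT.nd (nat_lit 61074) (nat_lit 0) (nat_lit 3268) (XT.nd (nat_lit 234) (nat_lit 532) (nat_lit 0) (XT.nd (nat_lit 78) (nat_lit 608) (nat_lit 0) (XT.lf (nat_lit 0) (nat_lit 48090190355) (nat_lit 684) (nat_lit 56487102258) (nat_lit 76) (nat_lit 7068691588) (nat_lit 247) (nat_lit 5) (nat_lit 256) (nat_lit 5) (nat_lit 248) (nat_lit 5) (nat_lit 522) (nat_lit 501) (nat_lit 177)) (XT.nd (nat_lit 78) (nat_lit 0) (nat_lit 0) (XT.lf (nat_lit 0) (nat_lit 3176460301) (nat_lit 608) (nat_lit 56821357659) (nat_lit 684) (nat_lit 53497473939) (nat_lit 239) (nat_lit 5) (nat_lit 247) (nat_lit 5) (nat_lit 248) (nat_lit 5) (nat_lit 523) (nat_lit 501) (nat_lit 176)) (XT.lf (nat_lit 0) (nat_lit 65787638150) (nat_lit 608) (nat_lit 7045219560) (nat_lit 684) (nat_lit 42550115666) (nat_lit 239) (nat_lit 5) (nat_lit 247) (nat_lit 5) (nat_lit 248) (nat_lit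 5) (nat_lit 524) (nat_lit 501) (nat_lit 175)))) (XT.nd (nat_lit 60684) (nat_lit 0) (nat_lit 3192) (XT.nd (nat_lit 78) (nat_lit 0) (nat_lit 0) (XT.lf (nat_lit 0) (nat_lit 12773796732) (nat_lit 532) (nat_lit 73826832510) (nat_lit 608) (nat_lit 30710225683) (nat_lit 232) (nat_lit 5) (nat_lit 239) (nat_lit 5) (nat_lit 240) (nat_lit 5) (nat_lit 525) (nat_lit 501) (nat_lit 174)) (XT.lf (nat_lit 0) (nat_lit 77959295675) (nat_lit 532) (nat_lit 23391809883) (nat_lit 608) (nat_lit 17928377258) (nat_lit 232) (nat_lit 5) (nat_lit 239) (nat_lit 5) (nat_lit 240) (nat_lit 5) (nat_lit 526) (nat_lit 501) (nat_lit 173))) (XT.nd (nat_lit 78) (nat_lit 0) (nat_lit 0) (XT.lf (nat_lit 0) (nat_lit 16772011325) (nat_lit 1292) (nat_lit 12335050033) (nat_lit 1292) (nat_lit 12335050033) (nat_lit 274) (nat_lit 3) (nat_lit 291) (nat_lit 3) (nat_lit 291) (nat_lit 5) (nat_lit 502) (nat_lit 502) (nat_lit 196)) (XT.lf (nat_lit 76) (nat_lit 16257238804)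 (nat_lit 0) (nat_lit 17955651939) (nat_lit 1292) (nat_lit 49909621954) (nat_lit 275) (nat_lit 5) (nat_lit 274) (nat_lit 3) (nat_lit 291) (nat_lit 5) (nat_lit 503) (nat_lit 502) (nat_lit 195))))) (XT.nd (nat_lit 312) (nat_lit 0) (nat_lit 152) (XT.nd (nat_lit 156) (nat_lit 0) (nat_lit 76) (XT.nd (nat_lit 78) (nat_lit 0) (nat_lit 0) (XT.lf (nat_lit 0) (nat_lit 35379040744) (nat_lit 1216) (nat_lit 26701037854) (nat_lit 1292) (nat_lit 23303556321) (nat_lit 275) (nat_lit 5) (nat_lit 291) (nat_lit 5) (nat_lit 292) (nat_lit 5) (nat_lit 504) (nat_lit 502) (nat_lit 194)) (XT.lf (nat_lit 76) (nat_lit 15829027585) (nat_lit 0) (nat_lit 21080727101) (nat_lit 1292) (nat_lit 49762948821) (nat_lit 276) (nat_lit 5) (nat_lit 275) (nat_lit 5) (nat_lit 292) (nat_lit 5) (nat_lit 505) (nat_lit 502) (nat_lit 193))) (XT.nd (nat_lit 78) (nat_lit 0) (nat_lit 0) (XT.lf (nat_lit 0) (nat_lit 38961633459) (nat_lit 1216) (nat_lit 28016188466)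 (nat_lit 1292) (nat_lit 21008365007) (nat_lit 276) (nat_lit 5) (nat_lit 292) (nat_lit 5) (nat_lit 293) (nat_lit 5) (nat_lit 506) (nat_lit 502) (nat_lit 192)) (XT.lf (nat_lit 76) (nat_lit 16203385759) (nat_lit 0) (nat_lit 25235822258) (nat_lit 1292) (nat_lit 47888942737) (nat_lit 277) (nat_lit 5) (nat_lit 276) (nat_lit 5) (nat_lit 293) (nat_lit 5) (nat_lit 507) (nat_lit 502) (nat_lit 191)))) (XT.nd (nat_lit 156) (nat_lit 0) (nat_lit 76) (XT.nd (nat_lit 78) (nat_lit 0) (nat_lit 0) (XT.lf (nat_lit 0) (nat_lit 44447196030) (nat_lit 1216) (nat_lit 28551754056) (nat_lit 1292) (nat_lit 17697740895) (nat_lit 277) (nat_lit 5) (nat_lit 293) (nat_lit 5) (nat_lit 294) (nat_lit 5) (nat_lit 508) (nat_lit 502) (nat_lit 190)) (XT.lf (nat_lit 76) (nat_lit 17448870726) (nat_lit 0) (nat_lit 30513822974) (nat_lit 1292) (nat_lit 44131075688) (nat_lit 278) (nat_lit 5) (nat_lit 277) (nat_lit 5) (nat_lit 294) (nat_lit 5) (nat_lit 509)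 (nat_lit 502) (nat_lit 189))) (XT.nd (nat_lit 78) (nat_lit 0) (nat_lit 0) (XT.lf (nat_lit 0) (nat_lit 52001844454) (nat_lit 1216) (nat_lit 28239710922) (nat_lit 1292) (nat_lit 13278659198) (nat_lit 278) (nat_lit 5) (nat_lit 294) (nat_lit 5) (nat_lit 295) (nat_lit 5) (nat_lit 510) (nat_lit 502) (nat_lit 188)) (XT.lf (nat_lit 76) (nat_lit 19638524433) (nat_lit 0) (nat_lit 37014238419) (nat_lit 1292) (nat_lit 38321972541) (nat_lit 279) (nat_lit 5) (nat_lit 278) (nat_lit 5) (nat_lit 295) (nat_lit 5) (nat_lit 511) (nat_lit 502) (nat_lit 187))))))))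
noncomputable def xc253 : XT := (XT.nd (nat_lit 63024) (nat_lit 0) (nat_lit 0) (XT.nd (nat_lit 61854) (nat_lit 0) (nat_lit 2660) (XT.nd (nat_lit 546) (nat_lit 1900) (nat_lit 0) (XT.nd (nat_lit 234) (nat_lit 1140) (nat_lit 0) (XT.nd (nat_lit 78) (nat_lit 0) (nat_lit 0) (XT.lf (nat_lit 0) (nat_lit 61803093848) (nat_lit 1216) (nat_lit 27007573784) (nat_lit 1292) (nat_lit 7651427718) (nat_lit 279) (nat_lit 5) (nat_lit 295) (nat_lit 5) (nat_lit 296) (nat_lit 5) (nat_lit 512) (nat_lit 502) (nat_lit 186)) (XT.nd (nat_lit 78) (nat_lit 0) (nat_lit 76) (XT.lf (nat_lit 76) (nat_lit 22850122409) (nat_lit 0) (nat_lit 44843654067) (nat_lit 1292) (nat_lit 30282724448) (nat_lit 280) (nat_lit 5) (nat_lit 279) (nat_lit 5) (nat_lit 296) (nat_lit 5) (nat_lit 513) (nat_lit 502) (nat_lit 185)) (XT.lf (nat_lit 0) (nat_lit 74040577403) (nat_lit 1216) (nat_lit 24778148970) (nat_lit 1292) (nat_lit 709230419) (nat_lit 280) (nat_lit 5) (nat_lit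 296) (nat_lit 5) (nat_lit 297) (nat_lit 5) (nat_lit 514) (nat_lit 502) (nat_lit 184)))) (XT.nd (nat_lit 156) (nat_lit 1216) (nat_lit 0) (XT.nd (nat_lit 78) (nat_lit 0) (nat_lit 0) (XT.lf (nat_lit 76) (nat_lit 27166434491) (nat_lit 0) (nat_lit 54116214652) (nat_lit 1292) (nat_lit 19822161252) (nat_lit 281) (nat_lit 5) (nat_lit 280) (nat_lit 5) (nat_lit 297) (nat_lit 5) (nat_lit 515) (nat_lit 502) (nat_lit 183)) (XT.lf (nat_lit 76) (nat_lit 81177073909) (nat_lit 0) (nat_lit 7814855527) (nat_lit 1292) (nat_lit 13729541838) (nat_lit 281) (nat_lit 5) (nat_lit 280) (nat_lit 5) (nat_lit 297) (nat_lit 5) (nat_lit 516) (nat_lit 502) (nat_lit 182))) (XT.nd (nat_lit 78) (nat_lit 1292) (nat_lit 0) (XT.lf (nat_lit 76) (nat_lit 32675497570) (nat_lit 0) (nat_lit 64954139458) (nat_lit 1292) (nat_lit 6736080542) (nat_lit 282) (nat_lit 5) (nat_lit 281) (nat_lit 5) (nat_lit 298) (nat_lit 5) (nat_lit 517) (nat_lit 502) (nat_lit 181))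 (XT.lf (nat_lit 0) (nat_lit 754899937) (nat_lit 1292) (nat_lit 17173370390) (nat_lit 1368) (nat_lit 88121981305) (nat_lit 264) (nat_lit 5) (nat_lit 281) (nat_lit 5) (nat_lit 282) (nat_lit 5) (nat_lit 518) (nat_lit 502) (nat_lit 180))))) (XT.nd (nat_lit 312) (nat_lit 1216) (nat_lit 0) (XT.nd (nat_lit 156) (nat_lit 760) (nat_lit 0) (XT.nd (nat_lit 78) (nat_lit 0) (nat_lit 0) (XT.lf (nat_lit 0) (nat_lit 9014169461) (nat_lit 1292) (nat_lit 68383077268) (nat_lit 76) (nat_lit 30365705777) (nat_lit 265) (nat_lit 5) (nat_lit 282) (nat_lit 5) (nat_lit 266) (nat_lit 5) (nat_lit 519) (nat_lit 502) (nat_lit 179)) (XT.lf (nat_lit 0) (nat_lit 17873618755) (nat_lit 1292) (nat_lit 11719514839) (nat_lit 76) (nat_lit 79923328814) (nat_lit 265) (nat_lit 5) (nat_lit 282) (nat_lit 5) (nat_lit 266) (nat_lit 5) (nat_lit 520) (nat_lit 502) (nat_lit 178))) (XT.nd (nat_lit 78) (nat_lit 0) (nat_lit 0) (XT.lf (nat_lit 0) (nat_lit 27649278482)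 (nat_lit 836) (nat_lit 63930185650) (nat_lit 76) (nat_lit 19723600717) (nat_lit 255) (nat_lit 5) (nat_lit 266) (nat_lit 5) (nat_lit 256) (nat_lit 5) (nat_lit 521) (nat_lit 502) (nat_lit 177)) (XT.lf (nat_lit 0) (nat_lit 38130496893) (nat_lit 836) (nat_lit 4955817140) (nat_lit 76) (nat_lit 70044582712) (nat_lit 255) (nat_lit 5) (nat_lit 266) (nat_lit 5) (nat_lit 256) (nat_lit 5) (nat_lit 522) (nat_lit 502) (nat_lit 176)))) (XT.nd (nat_lit 156) (nat_lit 0) (nat_lit 0) (XT.nd (nat_lit 78) (nat_lit 608) (nat_lit 0) (XT.lf (nat_lit 0) (nat_lit 49544240803) (nat_lit 684) (nat_lit 58170677649) (nat_lit 76) (nat_lit 7280102525) (nat_lit 247) (nat_lit 5) (nat_lit 256) (nat_lit 5) (nat_lit 248) (nat_lit 5) (nat_lit 523) (nat_lit 502) (nat_lit 175)) (XT.lf (nat_lit 0) (nat_lit 3282683573) (nat_lit 608) (nat_lit 58526188294) (nat_lit 684) (nat_lit 55090942870) (nat_lit 239) (nat_lit 5) (nat_lit 247) (nat_lit 5) (nat_lit 248)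 (nat_lit 5) (nat_lit 524) (nat_lit 502) (nat_lit 174))) (XT.nd (nat_lit 60762) (nat_lit 0) (nat_lit 2660) (XT.lf (nat_lit 0) (nat_lit 67771878424) (nat_lit 608) (nat_lit 7256760521) (nat_lit 684) (nat_lit 43815497498) (nat_lit 239) (nat_lit 5) (nat_lit 247) (nat_lit 5) (nat_lit 248) (nat_lit 5) (nat_lit 525) (nat_lit 502) (nat_lit 173)) (XT.lf (nat_lit 0) (nat_lit 17284514215) (nat_lit 1292) (nat_lit 12700289033) (nat_lit 1292) (nat_lit 12700289033) (nat_lit 274) (nat_lit 3) (nat_lit 291) (nat_lit 3) (nat_lit 291) (nat_lit 5) (nat_lit 503) (nat_lit 503) (nat_lit 194)))))) (XT.nd (nat_lit 546) (nat_lit 0) (nat_lit 304) (XT.nd (nat_lit 234) (nat_lit 0) (nat_lit 152) (XT.nd (nat_lit 78) (nat_lit 0) (nat_lit 76) (XT.lf (nat_lit 76) (nat_lit 16754486606) (nat_lit 0) (nat_lit 18503023348) (nat_lit 1292) (nat_lit 51388126929) (nat_lit 275) (nat_lit 5) (nat_lit 274) (nat_lit 3) (nat_lit 291) (nat_lit 5) (nat_lit 504) (nat_lit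 503) (nat_lit 193)) (XT.nd (nat_lit 78) (nat_lit 0) (nat_lit 0) (XT.lf (nat_lit 0) (nat_lit 36458032201) (nat_lit 1216) (nat_lit 27492199591) (nat_lit 1292) (nat_lit 23994379470) (nat_lit 275) (nat_lit 5) (nat_lit 291) (nat_lit 5) (nat_lit 292) (nat_lit 5) (nat_lit 505) (nat_lit 503) (nat_lit 192)) (XT.lf (nat_lit 76) (nat_lit 16313671052) (nat_lit 0) (nat_lit 21720577238) (nat_lit 1292) (nat_lit 51238116315) (nat_lit 276) (nat_lit 5) (nat_lit 275) (nat_lit 5) (nat_lit 292) (nat_lit 5) (nat_lit 506) (nat_lit 503) (nat_lit 191)))) (XT.nd (nat_lit 156) (nat_lit 0) (nat_lit 76) (XT.nd (nat_lit 78) (nat_lit 0) (nat_lit 0) (XT.lf (nat_lit 0) (nat_lit 40147113102) (nat_lit 1216) (nat_lit 28846611933) (nat_lit 1292) (nat_lit 21631544723) (nat_lit 276) (nat_lit 5) (nat_lit 292) (nat_lit 5) (nat_lit 293) (nat_lit 5) (nat_lit 507) (nat_lit 503) (nat_lit 190)) (XT.lf (nat_lit 76) (nat_lit 16699450870) (nat_lit 0) (nat_lit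 25999175416) (nat_lit 1292) (nat_lit 49308877980) (nat_lit 277) (nat_lit 5) (nat_lit 276) (nat_lit 5) (nat_lit 293) (nat_lit 5) (nat_lit 508) (nat_lit 503) (nat_lit 189))) (XT.nd (nat_lit 78) (nat_lit 0) (nat_lit 0) (XT.lf (nat_lit 0) (nat_lit 45796322275) (nat_lit 1216) (nat_lit 29398098035) (nat_lit 1292) (nat_lit 18222696449) (nat_lit 277) (nat_lit 5) (nat_lit 293) (nat_lit 5) (nat_lit 294) (nat_lit 5) (nat_lit 509) (nat_lit 503) (nat_lit 188)) (XT.lf (nat_lit 76) (nat_lit 17982445405) (nat_lit 0) (nat_lit 31434479057) (nat_lit 1292) (nat_lit 45439193975) (nat_lit 278) (nat_lit 5) (nat_lit 277) (nat_lit 5) (nat_lit 294) (nat_lit 5) (nat_lit 510) (nat_lit 503) (nat_lit 187))))) (XT.nd (nat_lit 312) (nat_lit 0) (nat_lit 152) (XT.nd (nat_lit 156) (nat_lit 0) (nat_lit 76) (XT.nd (nat_lit 78) (nat_lit 0) (nat_lit 0) (XT.lf (nat_lit 0) (nat_lit 53576753736) (nat_lit 1216) (nat_lit 29076588683) (nat_lit 1292) (nat_lit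 13672029543) (nat_lit 278) (nat_lit 5) (nat_lit 294) (nat_lit 5) (nat_lit 295) (nat_lit 5) (nat_lit 511) (nat_lit 503) (nat_lit 186)) (XT.lf (nat_lit 76) (nat_lit 20237892619) (nat_lit 0) (nat_lit 38128972596) (nat_lit 1292) (nat_lit 39456673323) (nat_lit 279) (nat_lit 5) (nat_lit 278) (nat_lit 5) (nat_lit 295) (nat_lit 5) (nat_lit 512) (nat_lit 503) (nat_lit 185))) (XT.nd (nat_lit 78) (nat_lit 0) (nat_lit 0) (XT.lf (nat_lit 0) (nat_lit 63671243048) (nat_lit 1216) (nat_lit 27807419667) (nat_lit 1292) (nat_lit 7876870571) (nat_lit 279) (nat_lit 5) (nat_lit 295) (nat_lit 5) (nat_lit 296) (nat_lit 5) (nat_lit 513) (nat_lit 503) (nat_lit 184)) (XT.lf (nat_lit 76) (nat_lit 23545905635) (nat_lit 0) (nat_lit 46192429924) (nat_lit 1292) (nat_lit 31177044879) (nat_lit 280) (nat_lit 5) (nat_lit 279) (nat_lit 5) (nat_lit 296) (nat_lit 5) (nat_lit 514) (nat_lit 503) (nat_lit 183)))) (XT.nd (nat_lit 156) (nat_lit 0) (nat_lit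 0) (XT.nd (nat_lit 78) (nat_lit 0) (nat_lit 0) (XT.lf (nat_lit 0) (nat_lit 76275107802) (nat_lit 1216) (nat_lit 25511077529) (nat_lit 1292) (nat_lit 727207724) (nat_lit 280) (nat_lit 5) (nat_lit 296) (nat_lit 5) (nat_lit 297) (nat_lit 5) (nat_lit 515) (nat_lit 503) (nat_lit 182)) (XT.lf (nat_lit 76) (nat_lit 27991741319) (nat_lit 0) (nat_lit 55742411758) (nat_lit 1292) (nat_lit 20403407936) (nat_lit 281) (nat_lit 5) (nat_lit 280) (nat_lit 5) (nat_lit 297) (nat_lit 5) (nat_lit 516) (nat_lit 503) (nat_lit 181))) (XT.nd (nat_lit 78) (nat_lit 0) (nat_lit 76) (XT.lf (nat_lit 76) (nat_lit 83622399518) (nat_lit 0) (nat_lit 8051932907) (nat_lit 1292) (nat_lit 14128400759) (nat_lit 281) (nat_lit 5) (nat_lit 280) (nat_lit 5) (nat_lit 297) (nat_lit 5) (nat_lit 517) (nat_lit 503) (nat_lit 180)) (XT.lf (nat_lit 76) (nat_lit 33666081248) (nat_lit 0) (nat_lit 66904796323) (nat_lit 1292) (nat_lit 6925438194) (nat_lit 282) (nat_lit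 5) (nat_lit 281) (nat_lit 5) (nat_lit 298) (nat_lit 5) (nat_lit 518) (nat_lit 503) (nat_lit 179))))))) (XT.nd (nat_lit 61932) (nat_lit 0) (nat_lit 1216) (XT.nd (nat_lit 61308) (nat_lit 0) (nat_lit 2660) (XT.nd (nat_lit 234) (nat_lit 1900) (nat_lit 0) (XT.nd (nat_lit 78) (nat_lit 0) (nat_lit 76) (XT.lf (nat_lit 0) (nat_lit 789660001) (nat_lit 1292) (nat_lit 17678309594) (nat_lit 1368) (nat_lit 90763423563) (nat_lit 264) (nat_lit 5) (nat_lit 281) (nat_lit 5) (nat_lit 282) (nat_lit 5) (nat_lit 519) (nat_lit 503) (nat_lit 178)) (XT.nd (nat_lit 78) (nat_lit 0) (nat_lit 0) (XT.lf (nat_lit 0) (nat_lit 9296436171) (nat_lit 1292) (nat_lit 70424033684) (nat_lit 76) (nat_lit 31275013424) (nat_lit 265) (nat_lit 5) (nat_lit 282) (nat_lit 5) (nat_lit 266) (nat_lit 5) (nat_lit 520) (nat_lit 503) (nat_lit 177)) (XT.lf (nat_lit 0) (nat_lit 18421324042) (nat_lit 1292) (nat_lit 12060871254) (nat_lit 76) (nat_lit 82319413604) (nat_lit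 265) (nat_lit 5) (nat_lit 282) (nat_lit 5) (nat_lit 266) (nat_lit 5) (nat_lit 521) (nat_lit 503) (nat_lit 176)))) (XT.nd (nat_lit 156) (nat_lit 1216) (nat_lit 0) (XT.nd (nat_lit 78) (nat_lit 0) (nat_lit 0) (XT.lf (nat_lit 0) (nat_lit 28490005202) (nat_lit 836) (nat_lit 65837611423) (nat_lit 76) (nat_lit 20314200312) (nat_lit 255) (nat_lit 5) (nat_lit 266) (nat_lit 5) (nat_lit 256) (nat_lit 5) (nat_lit 522) (nat_lit 503) (nat_lit 175)) (XT.lf (nat_lit 0) (nat_lit 39285332543) (nat_lit 836) (nat_lit 5094317094) (nat_lit 76) (nat_lit 72144844052) (nat_lit 255) (nat_lit 5) (nat_lit 266) (nat_lit 5) (nat_lit 256) (nat_lit 5) (nat_lit 523) (nat_lit 503) (nat_lit 174))) (XT.nd (nat_lit 78) (nat_lit 608) (nat_lit 0) (XT.lf (nat_lit 0) (nat_lit 51041261531) (nat_lit 684) (nat_lit 59905393910) (nat_lit 76) (nat_lit 7497893092) (nat_lit 247) (nat_lit 5) (nat_lit 256) (nat_lit 5) (nat_lit 248) (nat_lit 5) (nat_lit 524) (nat_lit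 503) (nat_lit 173)) (XT.lf (nat_lit 0) (nat_lit 3391466149) (nat_lit 608) (nat_lit 60282152947) (nat_lit 684) (nat_lit 56732873449) (nat_lit 239) (nat_lit 5) (nat_lit 247) (nat_lit 5) (nat_lit 248) (nat_lit 5) (nat_lit 525) (nat_lit 503) (nat_lit 172))))) (XT.nd (nat_lit 312) (nat_lit 0) (nat_lit 152) (XT.nd (nat_lit 156) (nat_lit 0) (nat_lit 76) (XT.nd (nat_lit 78) (nat_lit 0) (nat_lit 0) (XT.lf (nat_lit 0) (nat_lit 17811855892) (nat_lit 1292) (nat_lit 13076761461) (nat_lit 1292) (nat_lit 13076761461) (nat_lit 274) (nat_lit 3) (nat_lit 291) (nat_lit 3) (nat_lit 291) (nat_lit 5) (nat_lit 504) (nat_lit 504) (nat_lit 192)) (XT.lf (nat_lit 76) (nat_lit 17266104744) (nat_lit 0) (nat_lit 19066316378) (nat_lit 1292) (nat_lit 52912065313) (nat_lit 275) (nat_lit 5) (nat_lit 274) (nat_lit 3) (nat_lit 291) (nat_lit 5) (nat_lit 505) (nat_lit 504) (nat_lit 191))) (XT.nd (nat_lit 78) (nat_lit 0) (nat_lit 0) (XT.lf (nat_lit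 0) (nat_lit 37568381928) (nat_lit 1216) (nat_lit 28307662724) (nat_lit 1292) (nat_lit 24706402823) (nat_lit 275) (nat_lit 5) (nat_lit 291) (nat_lit 5) (nat_lit 292) (nat_lit 5) (nat_lit 506) (nat_lit 504) (nat_lit 190)) (XT.lf (nat_lit 76) (nat_lit 16812292834) (nat_lit 0) (nat_lit 22379196464) (nat_lit 1292) (nat_lit 52758556089) (nat_lit 276) (nat_lit 5) (nat_lit 275) (nat_lit 5) (nat_lit 292) (nat_lit 5) (nat_lit 507) (nat_lit 504) (nat_lit 189)))) (XT.nd (nat_lit 156) (nat_lit 0) (nat_lit 76) (XT.nd (nat_lit 78) (nat_lit 0) (nat_lit 0) (XT.lf (nat_lit 0) (nat_lit 41367202468) (nat_lit 1216) (nat_lit 29702525715) (nat_lit 1292) (nat_lit 22273825748) (nat_lit 276) (nat_lit 5) (nat_lit 292) (nat_lit 5) (nat_lit 293) (nat_lit 5) (nat_lit 508) (nat_lit 504) (nat_lit 188)) (XT.lf (nat_lit 76) (nat_lit 17209825986) (nat_lit 0) (nat_lit 26785068757) (nat_lit 1292) (nat_lit 50772371826) (nat_lit 277) (nat_lit 5) (nat_lit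 276) (nat_lit 5) (nat_lit 293) (nat_lit 5) (nat_lit 509) (nat_lit 504) (nat_lit 187))) (XT.nd (nat_lit 78) (nat_lit 0) (nat_lit 0) (XT.lf (nat_lit 0) (nat_lit 47185020468) (nat_lit 1216) (nat_lit 30270418352) (nat_lit 1292) (nat_lit 18763743754) (nat_lit 277) (nat_lit 5) (nat_lit 293) (nat_lit 5) (nat_lit 294) (nat_lit 5) (nat_lit 510) (nat_lit 504) (nat_lit 186)) (XT.lf (nat_lit 76) (nat_lit 18531447052) (nat_lit 0) (nat_lit 32382453944) (nat_lit 1292) (nat_lit 46787463598) (nat_lit 278) (nat_lit 5) (nat_lit 277) (nat_lit 5) (nat_lit 294) (nat_lit 5) (nat_lit 511) (nat_lit 504) (nat_lit 185)))))) (XT.nd (nat_lit 624) (nat_lit 1748) (nat_lit 0) (XT.nd (nat_lit 312) (nat_lit 0) (nat_lit 152) (XT.nd (nat_lit 156) (nat_lit 0) (nat_lit 76) (XT.nd (nat_lit 78) (nat_lit 0) (nat_lit 0) (XT.lf (nat_lit 0) (nat_lit 55198057619) (nat_lit 1216) (nat_lit 29939164817) (nat_lit 1292) (nat_lit 14077487411) (nat_lit 278) (nat_lit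 5) (nat_lit 294) (nat_lit 5) (nat_lit 295) (nat_lit 5) (nat_lit 512) (nat_lit 504) (nat_lit 184)) (XT.lf (nat_lit 76) (nat_lit 20854655615) (nat_lit 0) (nat_lit 39276901557) (nat_lit 1292) (nat_lit 40626273803) (nat_lit 279) (nat_lit 5) (nat_lit 278) (nat_lit 5) (nat_lit 295) (nat_lit 5) (nat_lit 513) (nat_lit 504) (nat_lit 183))) (XT.nd (nat_lit 78) (nat_lit 0) (nat_lit 0) (XT.lf (nat_lit 0) (nat_lit 65594629830) (nat_lit 1216) (nat_lit 28631856856) (nat_lit 1292) (nat_lit 8109312065) (nat_lit 279) (nat_lit 5) (nat_lit 295) (nat_lit 5) (nat_lit 296) (nat_lit 5) (nat_lit 514) (nat_lit 504) (nat_lit 182)) (XT.lf (nat_lit 76) (nat_lit 24261972269) (nat_lit 0) (nat_lit 47581470080) (nat_lit 1292) (nat_lit 32099007839) (nat_lit 280) (nat_lit 5) (nat_lit 279) (nat_lit 5) (nat_lit 296) (nat_lit 5) (nat_lit 515) (nat_lit 504) (nat_lit 181)))) (XT.nd (nat_lit 156) (nat_lit 0) (nat_lit 0) (XT.nd (nat_lit 78) (nat_lit 0)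 (nat_lit 0) (XT.lf (nat_lit 0) (nat_lit 78575909887) (nat_lit 1216) (nat_lit 26266591860) (nat_lit 1292) (nat_lit 745913759) (nat_lit 280) (nat_lit 5) (nat_lit 296) (nat_lit 5) (nat_lit 297) (nat_lit 5) (nat_lit 516) (nat_lit 504) (nat_lit 180)) (XT.lf (nat_lit 76) (nat_lit 28841215298) (nat_lit 0) (nat_lit 57417239173) (nat_lit 1292) (nat_lit 21002862277) (nat_lit 281) (nat_lit 5) (nat_lit 280) (nat_lit 5) (nat_lit 297) (nat_lit 5) (nat_lit 517) (nat_lit 504) (nat_lit 179))) (XT.nd (nat_lit 78) (nat_lit 0) (nat_lit 76) (XT.lf (nat_lit 76) (nat_lit 86140510085) (nat_lit 0) (nat_lit 8295971538) (nat_lit 1292) (nat_lit 14539973271) (nat_lit 281) (nat_lit 5) (nat_lit 280) (nat_lit 5) (nat_lit 297) (nat_lit 5) (nat_lit 518) (nat_lit 504) (nat_lit 178)) (XT.lf (nat_lit 76) (nat_lit 34685790097) (nat_lit 0) (nat_lit 68913856209) (nat_lit 1292) (nat_lit 7121207029) (nat_lit 282) (nat_lit 5) (nat_lit 281) (nat_lit 5) (nat_lit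 298) (nat_lit 5) (nat_lit 519) (nat_lit 504) (nat_lit 177))))) (XT.nd (nat_lit 312) (nat_lit 0) (nat_lit 0) (XT.nd (nat_lit 156) (nat_lit 684) (nat_lit 0) (XT.nd (nat_lit 78) (nat_lit 0) (nat_lit 76) (XT.lf (nat_lit 0) (nat_lit 824767528) (nat_lit 1292) (nat_lit 18198986049) (nat_lit 1368) (nat_lit 93484236365) (nat_lit 264) (nat_lit 5) (nat_lit 281) (nat_lit 5) (nat_lit 282) (nat_lit 5) (nat_lit 520) (nat_lit 504) (nat_lit 176)) (XT.lf (nat_lit 0) (nat_lit 9586491125) (nat_lit 1292) (nat_lit 72526823596) (nat_lit 76) (nat_lit 32211695793) (nat_lit 265) (nat_lit 5) (nat_lit 282) (nat_lit 5) (nat_lit 266) (nat_lit 5) (nat_lit 521) (nat_lit 504) (nat_lit 175))) (XT.nd (nat_lit 78) (nat_lit 760) (nat_lit 0) (XT.lf (nat_lit 0) (nat_lit 18984800529) (nat_lit 1292) (nat_lit 12413055549) (nat_lit 76) (nat_lit 84787473649) (nat_lit 265) (nat_lit 5) (nat_lit 282) (nat_lit 5) (nat_lit 266) (nat_lit 5) (nat_lit 522) (nat_lit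 504) (nat_lit 174)) (XT.lf (nat_lit 0) (nat_lit 29355308021) (nat_lit 836) (nat_lit 67802861552) (nat_lit 76) (nat_lit 20922581523) (nat_lit 255) (nat_lit 5) (nat_lit 266) (nat_lit 5) (nat_lit 256) (nat_lit 5) (nat_lit 523) (nat_lit 504) (nat_lit 173)))) (XT.nd (nat_lit 61074) (nat_lit 0) (nat_lit 1444) (XT.nd (nat_lit 60996) (nat_lit 0) (nat_lit 1444) (XT.lf (nat_lit 0) (nat_lit 40474186367) (nat_lit 836) (nat_lit 5237556108) (nat_lit 76) (nat_lit 74308175006) (nat_lit 255) (nat_lit 5) (nat_lit 266) (nat_lit 5) (nat_lit 256) (nat_lit 5) (nat_lit 524) (nat_lit 504) (nat_lit 172)) (XT.lf (nat_lit 0) (nat_lit 18354512303) (nat_lit 1292) (nat_lit 13464788461) (nat_lit 1292) (nat_lit 13464788461) (nat_lit 274) (nat_lit 3) (nat_lit 291) (nat_lit 3) (nat_lit 291) (nat_lit 5) (nat_lit 505) (nat_lit 505) (nat_lit 190))) (XT.nd (nat_lit 78) (nat_lit 0) (nat_lit 76) (XT.lf (nat_lit 76) (nat_lit 17792555735) (nat_lit 0) (nat_lit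 19646037352) (nat_lit 1292) (nat_lit 54482738212) (nat_lit 275) (nat_lit 5) (nat_lit 274) (nat_lit 3) (nat_lit 291) (nat_lit 5) (nat_lit 506) (nat_lit 505) (nat_lit 189)) (XT.lf (nat_lit 0) (nat_lit 38711088736) (nat_lit 1216) (nat_lit 29148123773) (nat_lit 1292) (nat_lit 25440235089) (nat_lit 275) (nat_lit 5) (nat_lit 291) (nat_lit 5) (nat_lit 292) (nat_lit 5) (nat_lit 507) (nat_lit 505) (nat_lit 188))))))))
noncomputable def xc254 : XT := (XT.nd (nat_lit 63336) (nat_lit 0) (nat_lit 684) (XT.nd (nat_lit 1170) (nat_lit 684) (nat_lit 0) (XT.nd (nat_lit 546) (nat_lit 836) (nat_lit 0) (XT.nd (nat_lit 234) (nat_lit 0) (nat_lit 152) (XT.nd (nat_lit 78) (nat_lit 0) (nat_lit 76) (XT.lf (nat_lit 76) (nat_lit 17325344483) (nat_lit 0) (nat_lit 23057172328) (nat_lit 1292) (nat_lit 54325567918) (nat_lit 276) (nat_lit 5) (nat_lit 275) (nat_lit 5) (nat_lit 292) (nat_lit 5) (nat_lit 508) (nat_lit 505) (nat_lit 187)) (XT.nd (nat_lit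 78) (nat_lit 0) (nat_lit 0) (XT.lf (nat_lit 0) (nat_lit 42622994650) (nat_lit 1216) (nat_lit 30584661363) (nat_lit 1292) (nat_lit 22935757820) (nat_lit 276) (nat_lit 5) (nat_lit 292) (nat_lit 5) (nat_lit 293) (nat_lit 5) (nat_lit 509) (nat_lit 505) (nat_lit 186)) (XT.lf (nat_lit 76) (nat_lit 17734973240) (nat_lit 0) (nat_lit 27594199176) (nat_lit 1292) (nat_lit 52280675893) (nat_lit 277) (nat_lit 5) (nat_lit 276) (nat_lit 5) (nat_lit 293) (nat_lit 5) (nat_lit 510) (nat_lit 505) (nat_lit 185)))) (XT.nd (nat_lit 156) (nat_lit 0) (nat_lit 76) (XT.nd (nat_lit 78) (nat_lit 0) (nat_lit 0) (XT.lf (nat_lit 0) (nat_lit 48614529537) (nat_lit 1216) (nat_lit 31169460656) (nat_lit 1292) (nat_lit 19321345870) (nat_lit 277) (nat_lit 5) (nat_lit 293) (nat_lit 5) (nat_lit 294) (nat_lit 5) (nat_lit 511) (nat_lit 505) (nat_lit 184)) (XT.lf (nat_lit 76) (nat_lit 19096371786) (nat_lit 0) (nat_lit 33358584472) (nat_lit 1292) (nat_lit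 48177036987) (nat_lit 278) (nat_lit 5) (nat_lit 277) (nat_lit 5) (nat_lit 294) (nat_lit 5) (nat_lit 512) (nat_lit 505) (nat_lit 183))) (XT.nd (nat_lit 78) (nat_lit 0) (nat_lit 0) (XT.lf (nat_lit 0) (nat_lit 56867196888) (nat_lit 1216) (nat_lit 30828176291) (nat_lit 1292) (nat_lit 14495378988) (nat_lit 278) (nat_lit 5) (nat_lit 294) (nat_lit 5) (nat_lit 295) (nat_lit 5) (nat_lit 513) (nat_lit 505) (nat_lit 182)) (XT.lf (nat_lit 76) (nat_lit 21489368916) (nat_lit 0) (nat_lit 40459035338) (nat_lit 1292) (nat_lit 41831771678) (nat_lit 279) (nat_lit 5) (nat_lit 278) (nat_lit 5) (nat_lit 295) (nat_lit 5) (nat_lit 514) (nat_lit 505) (nat_lit 181))))) (XT.nd (nat_lit 312) (nat_lit 1140) (nat_lit 0) (XT.nd (nat_lit 156) (nat_lit 0) (nat_lit 76) (XT.nd (nat_lit 78) (nat_lit 0) (nat_lit 0) (XT.lf (nat_lit 0) (nat_lit 67574957640) (nat_lit 1216) (nat_lit 29481588883) (nat_lit 1292) (nat_lit 8348948648) (nat_lit 279) (nat_lit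 5) (nat_lit 295) (nat_lit 5) (nat_lit 296) (nat_lit 5) (nat_lit 515) (nat_lit 505) (nat_lit 180)) (XT.lf (nat_lit 76) (nat_lit 24998964687) (nat_lit 0) (nat_lit 49011993887) (nat_lit 1292) (nat_lit 33049395941) (nat_lit 280) (nat_lit 5) (nat_lit 279) (nat_lit 5) (nat_lit 296) (nat_lit 5) (nat_lit 516) (nat_lit 505) (nat_lit 179))) (XT.nd (nat_lit 78) (nat_lit 0) (nat_lit 0) (XT.lf (nat_lit 0) (nat_lit 80945015680) (nat_lit 1216) (nat_lit 27045335215) (nat_lit 1292) (nat_lit 765359513) (nat_lit 280) (nat_lit 5) (nat_lit 296) (nat_lit 5) (nat_lit 297) (nat_lit 5) (nat_lit 517) (nat_lit 505) (nat_lit 178)) (XT.lf (nat_lit 76) (nat_lit 29715615429) (nat_lit 0) (nat_lit 59142164740) (nat_lit 1292) (nat_lit 21621026290) (nat_lit 281) (nat_lit 5) (nat_lit 280) (nat_lit 5) (nat_lit 297) (nat_lit 5) (nat_lit 518) (nat_lit 505) (nat_lit 177)))) (XT.nd (nat_lit 156) (nat_lit 1216) (nat_lit 0) (XT.nd (nat_lit 78) (nat_lit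 0) (nat_lit 76) (XT.lf (nat_lit 76) (nat_lit 88733622156) (nat_lit 0) (nat_lit 8547188929) (nat_lit 1292) (nat_lit 14964597852) (nat_lit 281) (nat_lit 5) (nat_lit 280) (nat_lit 5) (nat_lit 297) (nat_lit 5) (nat_lit 519) (nat_lit 505) (nat_lit 176)) (XT.lf (nat_lit 76) (nat_lit 35735531876) (nat_lit 0) (nat_lit 70983077906) (nat_lit 1292) (nat_lit 7323537451) (nat_lit 282) (nat_lit 5) (nat_lit 281) (nat_lit 5) (nat_lit 298) (nat_lit 5) (nat_lit 520) (nat_lit 505) (nat_lit 175))) (XT.nd (nat_lit 78) (nat_lit 0) (nat_lit 76) (XT.lf (nat_lit 0) (nat_lit 860272857) (nat_lit 1292) (nat_lit 18735838058) (nat_lit 1368) (nat_lit 96286793519) (nat_lit 264) (nat_lit 5) (nat_lit 281) (nat_lit 5) (nat_lit 282) (nat_lit 5) (nat_lit 521) (nat_lit 505) (nat_lit 174)) (XT.lf (nat_lit 0) (nat_lit 9884606991) (nat_lit 1292) (nat_lit 74693267292) (nat_lit 76) (nat_lit 33176568644) (nat_lit 265) (nat_lit 5) (nat_lit 282) (nat_lit 5)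 (nat_lit 266) (nat_lit 5) (nat_lit 522) (nat_lit 505) (nat_lit 173)))))) (XT.nd (nat_lit 61542) (nat_lit 0) (nat_lit 1596) (XT.nd (nat_lit 61230) (nat_lit 0) (nat_lit 1444) (XT.nd (nat_lit 78) (nat_lit 760) (nat_lit 0) (XT.lf (nat_lit 0) (nat_lit 19564559236) (nat_lit 1292) (nat_lit 12776358854) (nat_lit 76) (nat_lit 87329662886) (nat_lit 265) (nat_lit 5) (nat_lit 282) (nat_lit 5) (nat_lit 266) (nat_lit 5) (nat_lit 523) (nat_lit 505) (nat_lit 172)) (XT.nd (nat_lit 61074) (nat_lit 0) (nat_lit 1444) (XT.lf (nat_lit 0) (nat_lit 30245961289) (nat_lit 836) (nat_lit 69827636234) (nat_lit 76) (nat_lit 21549274147) (nat_lit 255) (nat_lit 5) (nat_lit 266) (nat_lit 5) (nat_lit 256) (nat_lit 5) (nat_lit 524) (nat_lit 505) (nat_lit 171)) (XT.lf (nat_lit 0) (nat_lit 18912971912) (nat_lit 1292) (nat_lit 13864701722) (nat_lit 1292) (nat_lit 13864701722) (nat_lit 274) (nat_lit 3) (nat_lit 291) (nat_lit 3) (nat_lit 291) (nat_lit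 5) (nat_lit 506) (nat_lit 506) (nat_lit 188)))) (XT.nd (nat_lit 156) (nat_lit 0) (nat_lit 76) (XT.nd (nat_lit 78) (nat_lit 0) (nat_lit 76) (XT.lf (nat_lit 76) (nat_lit 18334314166) (nat_lit 0) (nat_lit 20242706136) (nat_lit 1292) (nat_lit 56101489318) (nat_lit 275) (nat_lit 5) (nat_lit 274) (nat_lit 3) (nat_lit 291) (nat_lit 5) (nat_lit 507) (nat_lit 506) (nat_lit 187)) (XT.lf (nat_lit 0) (nat_lit 39887178067) (nat_lit 1216) (nat_lit 30014302021) (nat_lit 1292) (nat_lit 26196504807) (nat_lit 275) (nat_lit 5) (nat_lit 291) (nat_lit 5) (nat_lit 292) (nat_lit 5) (nat_lit 508) (nat_lit 506) (nat_lit 186))) (XT.nd (nat_lit 78) (nat_lit 0) (nat_lit 76) (XT.lf (nat_lit 76) (nat_lit 17853289249) (nat_lit 0) (nat_lit 23755108603) (nat_lit 1292) (nat_lit 55940493921) (nat_lit 276) (nat_lit 5) (nat_lit 275) (nat_lit 5) (nat_lit 292) (nat_lit 5) (nat_lit 509) (nat_lit 506) (nat_lit 185)) (XT.lf (nat_lit 0) (nat_lit 43915612388)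 (nat_lit 1216) (nat_lit 31493774281) (nat_lit 1292) (nat_lit 23617908507) (nat_lit 276) (nat_lit 5) (nat_lit 292) (nat_lit 5) (nat_lit 293) (nat_lit 5) (nat_lit 510) (nat_lit 506) (nat_lit 184))))) (XT.nd (nat_lit 312) (nat_lit 0) (nat_lit 152) (XT.nd (nat_lit 156) (nat_lit 0) (nat_lit 76) (XT.nd (nat_lit 78) (nat_lit 0) (nat_lit 76) (XT.lf (nat_lit 76) (nat_lit 18275366743) (nat_lit 0) (nat_lit 28427283288) (nat_lit 1292) (nat_lit 53835082514) (nat_lit 277) (nat_lit 5) (nat_lit 276) (nat_lit 5) (nat_lit 293) (nat_lit 5) (nat_lit 511) (nat_lit 506) (nat_lit 183)) (XT.lf (nat_lit 0) (nat_lit 50086122606) (nat_lit 1216) (nat_lit 32095994899) (nat_lit 1292) (nat_lit 19895980876) (nat_lit 277) (nat_lit 5) (nat_lit 293) (nat_lit 5) (nat_lit 294) (nat_lit 5) (nat_lit 512) (nat_lit 506) (nat_lit 182))) (XT.nd (nat_lit 78) (nat_lit 0) (nat_lit 76) (XT.lf (nat_lit 76) (nat_lit 19677728697) (nat_lit 0) (nat_lit 34363731590)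 (nat_lit 1292) (nat_lit 49609104134) (nat_lit 278) (nat_lit 5) (nat_lit 277) (nat_lit 5) (nat_lit 294) (nat_lit 5) (nat_lit 513) (nat_lit 506) (nat_lit 181)) (XT.lf (nat_lit 0) (nat_lit 58585652743) (nat_lit 1216) (nat_lit 31744384130) (nat_lit 1292) (nat_lit 14926061788) (nat_lit 278) (nat_lit 5) (nat_lit 294) (nat_lit 5) (nat_lit 295) (nat_lit 5) (nat_lit 514) (nat_lit 506) (nat_lit 180)))) (XT.nd (nat_lit 156) (nat_lit 0) (nat_lit 76) (XT.nd (nat_lit 78) (nat_lit 0) (nat_lit 76) (XT.lf (nat_lit 76) (nat_lit 22142602752) (nat_lit 0) (nat_lit 41676413463) (nat_lit 1292) (nat_lit 43074197409) (nat_lit 279) (nat_lit 5) (nat_lit 278) (nat_lit 5) (nat_lit 295) (nat_lit 5) (nat_lit 515) (nat_lit 506) (nat_lit 179)) (XT.lf (nat_lit 0) (nat_lit 69613978369) (nat_lit 1216) (nat_lit 30357342348) (nat_lit 1292) (nat_lit 8595983440) (nat_lit 279) (nat_lit 5) (nat_lit 295) (nat_lit 5) (nat_lit 296) (nat_lit 5) (nat_lit 516)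 (nat_lit 506) (nat_lit 178))) (XT.nd (nat_lit 78) (nat_lit 0) (nat_lit 76) (XT.lf (nat_lit 76) (nat_lit 25757542592) (nat_lit 0) (nat_lit 50485256620) (nat_lit 1292) (nat_lit 34029017951) (nat_lit 280) (nat_lit 5) (nat_lit 279) (nat_lit 5) (nat_lit 296) (nat_lit 5) (nat_lit 517) (nat_lit 506) (nat_lit 177)) (XT.lf (nat_lit 0) (nat_lit 83384515642) (nat_lit 1216) (nat_lit 27847972111) (nat_lit 1292) (nat_lit 785556929) (nat_lit 280) (nat_lit 5) (nat_lit 296) (nat_lit 5) (nat_lit 297) (nat_lit 5) (nat_lit 518) (nat_lit 506) (nat_lit 176))))))) (XT.nd (nat_lit 62322) (nat_lit 0) (nat_lit 760) (XT.nd (nat_lit 61698) (nat_lit 0) (nat_lit 836) (XT.nd (nat_lit 234) (nat_lit 1216) (nat_lit 0) (XT.nd (nat_lit 78) (nat_lit 0) (nat_lit 0) (XT.lf (nat_lit 76) (nat_lit 30615721531) (nat_lit 0) (nat_lit 60918699823) (nat_lit 1292) (nat_lit 22258419587) (nat_lit 281) (nat_lit 5) (nat_lit 280) (nat_lit 5) (nat_lit 297) (nat_lit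 5) (nat_lit 519) (nat_lit 506) (nat_lit 175)) (XT.nd (nat_lit 78) (nat_lit 0) (nat_lit 76) (XT.lf (nat_lit 76) (nat_lit 91404016879) (nat_lit 0) (nat_lit 8805808616) (nat_lit 1292) (nat_lit 15402625601) (nat_lit 281) (nat_lit 5) (nat_lit 280) (nat_lit 5) (nat_lit 297) (nat_lit 5) (nat_lit 520) (nat_lit 506) (nat_lit 174)) (XT.lf (nat_lit 76) (nat_lit 36816239623) (nat_lit 0) (nat_lit 73114272582) (nat_lit 1292) (nat_lit 7532586785) (nat_lit 282) (nat_lit 5) (nat_lit 281) (nat_lit 5) (nat_lit 298) (nat_lit 5) (nat_lit 521) (nat_lit 506) (nat_lit 173)))) (XT.nd (nat_lit 61308) (nat_lit 0) (nat_lit 760) (XT.nd (nat_lit 78) (nat_lit 0) (nat_lit 76) (XT.lf (nat_lit 0) (nat_lit 896225545) (nat_lit 1292) (nat_lit 19289319013) (nat_lit 1368) (nat_lit 99173540471) (nat_lit 264) (nat_lit 5) (nat_lit 281) (nat_lit 5) (nat_lit 282) (nat_lit 5) (nat_lit 522) (nat_lit 506) (nat_lit 172)) (XT.lf (nat_lit 0) (nat_lit 10191062376)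 (nat_lit 1292) (nat_lit 76925241659) (nat_lit 76) (nat_lit 34170472526) (nat_lit 265) (nat_lit 5) (nat_lit 282) (nat_lit 5) (nat_lit 266) (nat_lit 5) (nat_lit 523) (nat_lit 506) (nat_lit 171))) (XT.nd (nat_lit 78) (nat_lit 0) (nat_lit 0) (XT.lf (nat_lit 0) (nat_lit 19487736165) (nat_lit 1292) (nat_lit 14276843741) (nat_lit 1292) (nat_lit 14276843741) (nat_lit 274) (nat_lit 3) (nat_lit 291) (nat_lit 3) (nat_lit 291) (nat_lit 5) (nat_lit 507) (nat_lit 507) (nat_lit 186)) (XT.lf (nat_lit 76) (nat_lit 18891867165) (nat_lit 0) (nat_lit 20856856641) (nat_lit 1292) (nat_lit 57769705984) (nat_lit 275) (nat_lit 5) (nat_lit 274) (nat_lit 3) (nat_lit 291) (nat_lit 5) (nat_lit 508) (nat_lit 507) (nat_lit 185))))) (XT.nd (nat_lit 312) (nat_lit 0) (nat_lit 152) (XT.nd (nat_lit 156) (nat_lit 0) (nat_lit 76) (XT.nd (nat_lit 78) (nat_lit 0) (nat_lit 0) (XT.lf (nat_lit 0) (nat_lit 41097702984) (nat_lit 1216) (nat_lit 30906940087)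 (nat_lit 1292) (nat_lit 26975860848) (nat_lit 275) (nat_lit 5) (nat_lit 291) (nat_lit 5) (nat_lit 292) (nat_lit 5) (nat_lit 509) (nat_lit 507) (nat_lit 184)) (XT.lf (nat_lit 76) (nat_lit 18396602539) (nat_lit 0) (nat_lit 24473625849) (nat_lit 1292) (nat_lit 57604719640) (nat_lit 276) (nat_lit 5) (nat_lit 275) (nat_lit 5) (nat_lit 292) (nat_lit 5) (nat_lit 510) (nat_lit 507) (nat_lit 183))) (XT.nd (nat_lit 78) (nat_lit 0) (nat_lit 0) (XT.lf (nat_lit 0) (nat_lit 45246209140) (nat_lit 1216) (nat_lit 32430644327) (nat_lit 1292) (nat_lit 24320863665) (nat_lit 276) (nat_lit 5) (nat_lit 292) (nat_lit 5) (nat_lit 293) (nat_lit 5) (nat_lit 511) (nat_lit 507) (nat_lit 182)) (XT.lf (nat_lit 76) (nat_lit 18831493055) (nat_lit 0) (nat_lit 29285058084) (nat_lit 1292) (nat_lit 55436925775) (nat_lit 277) (nat_lit 5) (nat_lit 276) (nat_lit 5) (nat_lit 293) (nat_lit 5) (nat_lit 512) (nat_lit 507) (nat_lit 181)))) (XT.nd (nat_lit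 156) (nat_lit 0) (nat_lit 76) (XT.nd (nat_lit 78) (nat_lit 0) (nat_lit 0) (XT.lf (nat_lit 0) (nat_lit 51601108190) (nat_lit 1216) (nat_lit 33050815950) (nat_lit 1292) (nat_lit 20488142261) (nat_lit 277) (nat_lit 5) (nat_lit 293) (nat_lit 5) (nat_lit 294) (nat_lit 5) (nat_lit 513) (nat_lit 507) (nat_lit 180)) (XT.lf (nat_lit 76) (nat_lit 20276040346) (nat_lit 0) (nat_lit 35398781142) (nat_lit 1292) (nat_lit 51084893554) (nat_lit 278) (nat_lit 5) (nat_lit 277) (nat_lit 5) (nat_lit 294) (nat_lit 5) (nat_lit 514) (nat_lit 507) (nat_lit 179))) (XT.nd (nat_lit 78) (nat_lit 0) (nat_lit 0) (XT.lf (nat_lit 0) (nat_lit 60354948169) (nat_lit 1216) (nat_lit 32688574029) (nat_lit 1292) (nat_lit 15369904938) (nat_lit 278) (nat_lit 5) (nat_lit 294) (nat_lit 5) (nat_lit 295) (nat_lit 5) (nat_lit 515) (nat_lit 507) (nat_lit 178)) (XT.lf (nat_lit 76) (nat_lit 22814942640) (nat_lit 0) (nat_lit 42930105871) (nat_lit 1292) (nat_lit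 44354615038) (nat_lit 279) (nat_lit 5) (nat_lit 278) (nat_lit 5) (nat_lit 295) (nat_lit 5) (nat_lit 516) (nat_lit 507) (nat_lit 177)))))) (XT.nd (nat_lit 61932) (nat_lit 0) (nat_lit 76) (XT.nd (nat_lit 312) (nat_lit 380) (nat_lit 0) (XT.nd (nat_lit 156) (nat_lit 0) (nat_lit 76) (XT.nd (nat_lit 78) (nat_lit 0) (nat_lit 0) (XT.lf (nat_lit 0) (nat_lit 71713493960) (nat_lit 1216) (nat_lit 31259867500) (nat_lit 1292) (nat_lit 8850626382) (nat_lit 279) (nat_lit 5) (nat_lit 295) (nat_lit 5) (nat_lit 296) (nat_lit 5) (nat_lit 517) (nat_lit 507) (nat_lit 176)) (XT.lf (nat_lit 76) (nat_lit 26538383644) (nat_lit 0) (nat_lit 52002550597) (nat_lit 1292) (nat_lit 35038709427) (nat_lit 280) (nat_lit 5) (nat_lit 279) (nat_lit 5) (nat_lit 296) (nat_lit 5) (nat_lit 518) (nat_lit 507) (nat_lit 175))) (XT.nd (nat_lit 78) (nat_lit 0) (nat_lit 0) (XT.lf (nat_lit 0) (nat_lit 85896560577) (nat_lit 1216) (nat_lit 28675188859) (nat_lit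 1292) (nat_lit 806518896) (nat_lit 280) (nat_lit 5) (nat_lit 296) (nat_lit 5) (nat_lit 297) (nat_lit 5) (nat_lit 519) (nat_lit 507) (nat_lit 174)) (XT.lf (nat_lit 76) (nat_lit 31542334980) (nat_lit 0) (nat_lit 62748400642) (nat_lit 1292) (nat_lit 22915579761) (nat_lit 281) (nat_lit 5) (nat_lit 280) (nat_lit 5) (nat_lit 297) (nat_lit 5) (nat_lit 520) (nat_lit 507) (nat_lit 173)))) (XT.nd (nat_lit 61464) (nat_lit 456) (nat_lit 0) (XT.nd (nat_lit 78) (nat_lit 0) (nat_lit 76) (XT.lf (nat_lit 76) (nat_lit 94154042049) (nat_lit 0) (nat_lit 9072060374) (nat_lit 1292) (nat_lit 15854420472) (nat_lit 281) (nat_lit 5) (nat_lit 280) (nat_lit 5) (nat_lit 297) (nat_lit 5) (nat_lit 521) (nat_lit 507) (nat_lit 172)) (XT.lf (nat_lit 76) (nat_lit 37928872529) (nat_lit 0) (nat_lit 75309305377) (nat_lit 1292) (nat_lit 7748519341) (nat_lit 282) (nat_lit 5) (nat_lit 281) (nat_lit 5) (nat_lit 298) (nat_lit 5) (nat_lit 522) (nat_lit 507)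 (nat_lit 171))) (XT.nd (nat_lit 78) (nat_lit 0) (nat_lit 0) (XT.lf (nat_lit 0) (nat_lit 20079319984) (nat_lit 1292) (nat_lit 14701568101) (nat_lit 1292) (nat_lit 14701568101) (nat_lit 274) (nat_lit 3) (nat_lit 291) (nat_lit 3) (nat_lit 291) (nat_lit 5) (nat_lit 508) (nat_lit 508) (nat_lit 184)) (XT.lf (nat_lit 76) (nat_lit 19465714869) (nat_lit 0) (nat_lit 21489037335) (nat_lit 1292) (nat_lit 59488820339) (nat_lit 275) (nat_lit 5) (nat_lit 274) (nat_lit 3) (nat_lit 291) (nat_lit 5) (nat_lit 509) (nat_lit 508) (nat_lit 183))))) (XT.nd (nat_lit 312) (nat_lit 0) (nat_lit 152) (XT.nd (nat_lit 156) (nat_lit 0) (nat_lit 76) (XT.nd (nat_lit 78) (nat_lit 0) (nat_lit 0) (XT.lf (nat_lit 0) (nat_lit 42343745183) (nat_lit 1216) (nat_lit 31826804530) (nat_lit 1292) (nat_lit 27778972941) (nat_lit 275) (nat_lit 5) (nat_lit 291) (nat_lit 5) (nat_lit 292) (nat_lit 5) (nat_lit 510) (nat_lit 508) (nat_lit 182)) (XT.lf (nat_lit 76)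 (nat_lit 18955772377) (nat_lit 0) (nat_lit 25213361996) (nat_lit 1292) (nat_lit 59319675162) (nat_lit 276) (nat_lit 5) (nat_lit 275) (nat_lit 5) (nat_lit 292) (nat_lit 5) (nat_lit 511) (nat_lit 508) (nat_lit 181))) (XT.nd (nat_lit 78) (nat_lit 0) (nat_lit 0) (XT.lf (nat_lit 0) (nat_lit 46615970172) (nat_lit 1216) (nat_lit 33396076444) (nat_lit 1292) (nat_lit 25045227913) (nat_lit 276) (nat_lit 5) (nat_lit 292) (nat_lit 5) (nat_lit 293) (nat_lit 5) (nat_lit 512) (nat_lit 508) (nat_lit 180)) (XT.lf (nat_lit 76) (nat_lit 19403851654) (nat_lit 0) (nat_lit 30168281613) (nat_lit 1292) (nat_lit 57087582596) (nat_lit 277) (nat_lit 5) (nat_lit 276) (nat_lit 5) (nat_lit 293) (nat_lit 5) (nat_lit 513) (nat_lit 508) (nat_lit 179)))) (XT.nd (nat_lit 156) (nat_lit 0) (nat_lit 76) (XT.nd (nat_lit 78) (nat_lit 0) (nat_lit 0) (XT.lf (nat_lit 0) (nat_lit 53160831422) (nat_lit 1216) (nat_lit 34034744240) (nat_lit 1292) (nat_lit 21098339322)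 (nat_lit 277) (nat_lit 5) (nat_lit 293) (nat_lit 5) (nat_lit 294) (nat_lit 5) (nat_lit 514) (nat_lit 508) (nat_lit 178)) (XT.lf (nat_lit 76) (nat_lit 20891843273) (nat_lit 0) (nat_lit 36464644664) (nat_lit 1292) (nat_lit 52605673272) (nat_lit 278) (nat_lit 5) (nat_lit 277) (nat_lit 5) (nat_lit 294) (nat_lit 5) (nat_lit 515) (nat_lit 508) (nat_lit 177))) (XT.nd (nat_lit 78) (nat_lit 0) (nat_lit 0) (XT.lf (nat_lit 0) (nat_lit 62176649347) (nat_lit 1216) (nat_lit 33661556988) (nat_lit 1292) (nat_lit 15827289481) (nat_lit 278) (nat_lit 5) (nat_lit 294) (nat_lit 5) (nat_lit 295) (nat_lit 5) (nat_lit 516) (nat_lit 508) (nat_lit 176)) (XT.lf (nat_lit 76) (nat_lit 23506989944) (nat_lit 0) (nat_lit 44221213878) (nat_lit 1292) (nat_lit 45674123040) (nat_lit 279) (nat_lit 5) (nat_lit 278) (nat_lit 5) (nat_lit 295) (nat_lit 5) (nat_lit 517) (nat_lit 508) (nat_lit 175))))))))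
noncomputable def xc255 : XT := (XT.nd (nat_lit 186888) (nat_lit 0) (nat_lit 0) (XT.nd (nat_lit 62556) (nat_lit 0) (nat_lit 0) (XT.nd (nat_lit 61932) (nat_lit 0) (nat_lit 76) (XT.nd (nat_lit 234) (nat_lit 380) (nat_lit 0) (XT.nd (nat_lit 78) (nat_lit 0) (nat_lit 0) (XT.lf (nat_lit 0) (nat_lit 73875358049) (nat_lit 1216) (nat_lit 32189938840) (nat_lit 1292) (nat_lit 9113094404) (nat_lit 279) (nat_lit 5) (nat_lit 295) (nat_lit 5) (nat_lit 296) (nat_lit 5) (nat_lit 518) (nat_lit 508) (nat_lit 174)) (XT.nd (nat_lit 78) (nat_lit 0) (nat_lit 76) (XT.lf (nat_lit 76) (nat_lit 27342184107) (nat_lit 0) (nat_lit 53565206319) (nat_lit 1292) (nat_lit 36079333371) (nat_lit 280) (nat_lit 5) (nat_lit 279) (nat_lit 5) (nat_lit 296) (nat_lit 5) (nat_lit 519) (nat_lit 508) (nat_lit 173)) (XT.lf (nat_lit 0) (nat_lit 88483363573) (nat_lit 1216) (nat_lit 29527694110) (nat_lit 1292) (nat_lit 828259245) (nat_lit 280) (nat_lit 5) (nat_lit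 296) (nat_lit 5) (nat_lit 297) (nat_lit 5) (nat_lit 520) (nat_lit 508) (nat_lit 172)))) (XT.nd (nat_lit 61542) (nat_lit 456) (nat_lit 0) (XT.nd (nat_lit 78) (nat_lit 0) (nat_lit 0) (XT.lf (nat_lit 76) (nat_lit 32496279460) (nat_lit 0) (nat_lit 64632869652) (nat_lit 1292) (nat_lit 23593062787) (nat_lit 281) (nat_lit 5) (nat_lit 280) (nat_lit 5) (nat_lit 297) (nat_lit 5) (nat_lit 521) (nat_lit 508) (nat_lit 171)) (XT.lf (nat_lit 76) (nat_lit 96986114214) (nat_lit 0) (nat_lit 9346180429) (nat_lit 1292) (nat_lit 16320359527) (nat_lit 281) (nat_lit 5) (nat_lit 280) (nat_lit 5) (nat_lit 297) (nat_lit 5) (nat_lit 522) (nat_lit 508) (nat_lit 170))) (XT.nd (nat_lit 78) (nat_lit 0) (nat_lit 0) (XT.lf (nat_lit 0) (nat_lit 20688252261) (nat_lit 1292) (nat_lit 15139239754) (nat_lit 1292) (nat_lit 15139239754) (nat_lit 274) (nat_lit 3) (nat_lit 291) (nat_lit 3) (nat_lit 291) (nat_lit 5) (nat_lit 509) (nat_lit 509) (nat_lit 182))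 (XT.lf (nat_lit 76) (nat_lit 20056370913) (nat_lit 0) (nat_lit 22139811759) (nat_lit 1292) (nat_lit 61260310451) (nat_lit 275) (nat_lit 5) (nat_lit 274) (nat_lit 3) (nat_lit 291) (nat_lit 5) (nat_lit 510) (nat_lit 509) (nat_lit 181))))) (XT.nd (nat_lit 312) (nat_lit 0) (nat_lit 152) (XT.nd (nat_lit 156) (nat_lit 0) (nat_lit 76) (XT.nd (nat_lit 78) (nat_lit 0) (nat_lit 0) (XT.lf (nat_lit 0) (nat_lit 43626416017) (nat_lit 1216) (nat_lit 32774686469) (nat_lit 1292) (nat_lit 28606532220) (nat_lit 275) (nat_lit 5) (nat_lit 291) (nat_lit 5) (nat_lit 292) (nat_lit 5) (nat_lit 511) (nat_lit 509) (nat_lit 180)) (XT.lf (nat_lit 76) (nat_lit 19531299881) (nat_lit 0) (nat_lit 25974972933) (nat_lit 1292) (nat_lit 61086836284) (nat_lit 276) (nat_lit 5) (nat_lit 275) (nat_lit 5) (nat_lit 292) (nat_lit 5) (nat_lit 512) (nat_lit 509) (nat_lit 179))) (XT.nd (nat_lit 78) (nat_lit 0) (nat_lit 0) (XT.lf (nat_lit 0) (nat_lit 48026113674)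 (nat_lit 1216) (nat_lit 34390901322) (nat_lit 1292) (nat_lit 25791625129) (nat_lit 276) (nat_lit 5) (nat_lit 292) (nat_lit 5) (nat_lit 293) (nat_lit 5) (nat_lit 513) (nat_lit 509) (nat_lit 178)) (XT.lf (nat_lit 76) (nat_lit 19992955429) (nat_lit 0) (nat_lit 31077733668) (nat_lit 1292) (nat_lit 58788473857) (nat_lit 277) (nat_lit 5) (nat_lit 276) (nat_lit 5) (nat_lit 293) (nat_lit 5) (nat_lit 514) (nat_lit 509) (nat_lit 177)))) (XT.nd (nat_lit 156) (nat_lit 0) (nat_lit 76) (XT.nd (nat_lit 78) (nat_lit 0) (nat_lit 0) (XT.lf (nat_lit 0) (nat_lit 54766675298) (nat_lit 1216) (nat_lit 35048626431) (nat_lit 1292) (nat_lit 21727097584) (nat_lit 277) (nat_lit 5) (nat_lit 293) (nat_lit 5) (nat_lit 294) (nat_lit 5) (nat_lit 515) (nat_lit 509) (nat_lit 176)) (XT.lf (nat_lit 76) (nat_lit 21525688510) (nat_lit 0) (nat_lit 37562260212) (nat_lit 1292) (nat_lit 54172751860) (nat_lit 278) (nat_lit 5) (nat_lit 277) (nat_lit 5) (nat_lit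 294) (nat_lit 5) (nat_lit 516) (nat_lit 509) (nat_lit 175))) (XT.nd (nat_lit 78) (nat_lit 0) (nat_lit 0) (XT.lf (nat_lit 0) (nat_lit 64052367087) (nat_lit 1216) (nat_lit 34664169969) (nat_lit 1292) (nat_lit 16298608678) (nat_lit 278) (nat_lit 5) (nat_lit 294) (nat_lit 5) (nat_lit 295) (nat_lit 5) (nat_lit 517) (nat_lit 509) (nat_lit 174)) (XT.lf (nat_lit 76) (nat_lit 24219362451) (nat_lit 0) (nat_lit 45550871154) (nat_lit 1292) (nat_lit 47033855215) (nat_lit 279) (nat_lit 5) (nat_lit 278) (nat_lit 5) (nat_lit 295) (nat_lit 5) (nat_lit 518) (nat_lit 509) (nat_lit 173)))))) (XT.nd (nat_lit 62088) (nat_lit 0) (nat_lit 152) (XT.nd (nat_lit 61776) (nat_lit 380) (nat_lit 0) (XT.nd (nat_lit 78) (nat_lit 0) (nat_lit 0) (XT.lf (nat_lit 0) (nat_lit 76101477655) (nat_lit 1216) (nat_lit 33148355748) (nat_lit 1292) (nat_lit 9383611594) (nat_lit 279) (nat_lit 5) (nat_lit 295) (nat_lit 5) (nat_lit 296) (nat_lit 5) (nat_lit 519)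 (nat_lit 509) (nat_lit 172)) (XT.nd (nat_lit 78) (nat_lit 0) (nat_lit 76) (XT.lf (nat_lit 76) (nat_lit 28169659502) (nat_lit 0) (nat_lit 55174593656) (nat_lit 1292) (nat_lit 37151780920) (nat_lit 280) (nat_lit 5) (nat_lit 279) (nat_lit 5) (nat_lit 296) (nat_lit 5) (nat_lit 520) (nat_lit 509) (nat_lit 171)) (XT.lf (nat_lit 0) (nat_lit 91147202004) (nat_lit 1216) (nat_lit 30406219423) (nat_lit 1292) (nat_lit 850792744) (nat_lit 280) (nat_lit 5) (nat_lit 296) (nat_lit 5) (nat_lit 297) (nat_lit 5) (nat_lit 521) (nat_lit 509) (nat_lit 170)))) (XT.nd (nat_lit 156) (nat_lit 0) (nat_lit 76) (XT.nd (nat_lit 78) (nat_lit 0) (nat_lit 0) (XT.lf (nat_lit 0) (nat_lit 21315076355) (nat_lit 1292) (nat_lit 15590235317) (nat_lit 1292) (nat_lit 15590235317) (nat_lit 274) (nat_lit 3) (nat_lit 291) (nat_lit 3) (nat_lit 291) (nat_lit 5) (nat_lit 510) (nat_lit 510) (nat_lit 180)) (XT.lf (nat_lit 76) (nat_lit 20664362915) (nat_lit 0)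 (nat_lit 22809759060) (nat_lit 1292) (nat_lit 63085701536) (nat_lit 275) (nat_lit 5) (nat_lit 274) (nat_lit 3) (nat_lit 291) (nat_lit 5) (nat_lit 511) (nat_lit 510) (nat_lit 179))) (XT.nd (nat_lit 78) (nat_lit 0) (nat_lit 0) (XT.lf (nat_lit 0) (nat_lit 44946857548) (nat_lit 1216) (nat_lit 33751402228) (nat_lit 1292) (nat_lit 29459251791) (nat_lit 275) (nat_lit 5) (nat_lit 291) (nat_lit 5) (nat_lit 292) (nat_lit 5) (nat_lit 512) (nat_lit 510) (nat_lit 178)) (XT.lf (nat_lit 76) (nat_lit 20123699743) (nat_lit 0) (nat_lit 26759133119) (nat_lit 1292) (nat_lit 62907725723) (nat_lit 276) (nat_lit 5) (nat_lit 275) (nat_lit 5) (nat_lit 292) (nat_lit 5) (nat_lit 513) (nat_lit 510) (nat_lit 177))))) (XT.nd (nat_lit 312) (nat_lit 0) (nat_lit 152) (XT.nd (nat_lit 156) (nat_lit 0) (nat_lit 76) (XT.nd (nat_lit 78) (nat_lit 0) (nat_lit 0) (XT.lf (nat_lit 0) (nat_lit 49477891896) (nat_lit 1216) (nat_lit 35415976071) (nat_lit 1292)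 (nat_lit 26560698964) (nat_lit 276) (nat_lit 5) (nat_lit 292) (nat_lit 5) (nat_lit 293) (nat_lit 5) (nat_lit 514) (nat_lit 510) (nat_lit 176)) (XT.lf (nat_lit 76) (nat_lit 20599331164) (nat_lit 0) (nat_lit 32014216499) (nat_lit 1292) (nat_lit 60541065563) (nat_lit 277) (nat_lit 5) (nat_lit 276) (nat_lit 5) (nat_lit 293) (nat_lit 5) (nat_lit 515) (nat_lit 510) (nat_lit 175))) (XT.nd (nat_lit 78) (nat_lit 0) (nat_lit 0) (XT.lf (nat_lit 0) (nat_lit 56420061958) (nat_lit 1216) (nat_lit 36093336109) (nat_lit 1292) (nat_lit 22374959226) (nat_lit 277) (nat_lit 5) (nat_lit 293) (nat_lit 5) (nat_lit 294) (nat_lit 5) (nat_lit 516) (nat_lit 510) (nat_lit 174)) (XT.lf (nat_lit 76) (nat_lit 22178142112) (nat_lit 0) (nat_lit 38692593196) (nat_lit 1292) (nat_lit 55787479510) (nat_lit 278) (nat_lit 5) (nat_lit 277) (nat_lit 5) (nat_lit 294) (nat_lit 5) (nat_lit 517) (nat_lit 510) (nat_lit 173)))) (XT.nd (nat_lit 156) (nat_lit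 0) (nat_lit 76) (XT.nd (nat_lit 78) (nat_lit 0) (nat_lit 0) (XT.lf (nat_lit 0) (nat_lit 65983758310) (nat_lit 1216) (nat_lit 35697276585) (nat_lit 1292) (nat_lit 16784268337) (nat_lit 278) (nat_lit 5) (nat_lit 294) (nat_lit 5) (nat_lit 295) (nat_lit 5) (nat_lit 518) (nat_lit 510) (nat_lit 172)) (XT.lf (nat_lit 76) (nat_lit 24952694960) (nat_lit 0) (nat_lit 46920244739) (nat_lit 1292) (nat_lit 48434981611) (nat_lit 279) (nat_lit 5) (nat_lit 278) (nat_lit 5) (nat_lit 295) (nat_lit 5) (nat_lit 519) (nat_lit 510) (nat_lit 171))) (XT.nd (nat_lit 78) (nat_lit 0) (nat_lit 0) (XT.lf (nat_lit 0) (nat_lit 78393814910) (nat_lit 1216) (nat_lit 34135943137) (nat_lit 1292) (nat_lit 9662409372) (nat_lit 279) (nat_lit 5) (nat_lit 295) (nat_lit 5) (nat_lit 296) (nat_lit 5) (nat_lit 520) (nat_lit 510) (nat_lit 170)) (XT.lf (nat_lit 76) (nat_lit 29021545283) (nat_lit 0) (nat_lit 56832123055) (nat_lit 1292) (nat_lit 38256972058) (nat_lit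 280) (nat_lit 5) (nat_lit 279) (nat_lit 5) (nat_lit 296) (nat_lit 5) (nat_lit 521) (nat_lit 510) (nat_lit 169))))))) (XT.nd (nat_lit 62946) (nat_lit 0) (nat_lit 0) (XT.nd (nat_lit 546) (nat_lit 0) (nat_lit 0) (XT.nd (nat_lit 234) (nat_lit 0) (nat_lit 76) (XT.nd (nat_lit 78) (nat_lit 0) (nat_lit 0) (XT.lf (nat_lit 0) (nat_lit 21960350614) (nat_lit 1292) (nat_lit 16054943385) (nat_lit 1292) (nat_lit 16054943385) (nat_lit 274) (nat_lit 3) (nat_lit 291) (nat_lit 3) (nat_lit 291) (nat_lit 5) (nat_lit 511) (nat_lit 511) (nat_lit 178)) (XT.nd (nat_lit 78) (nat_lit 0) (nat_lit 76) (XT.lf (nat_lit 76) (nat_lit 21290232980) (nat_lit 0) (nat_lit 23499474538) (nat_lit 1292) (nat_lit 64966567211) (nat_lit 275) (nat_lit 5) (nat_lit 274) (nat_lit 3) (nat_lit 291) (nat_lit 5) (nat_lit 512) (nat_lit 511) (nat_lit 177)) (XT.lf (nat_lit 0) (nat_lit 46306243622) (nat_lit 1216) (nat_lit 34757794012) (nat_lit 1292) (nat_lit 30337867316)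 (nat_lit 275) (nat_lit 5) (nat_lit 291) (nat_lit 5) (nat_lit 292) (nat_lit 5) (nat_lit 513) (nat_lit 511) (nat_lit 176)))) (XT.nd (nat_lit 156) (nat_lit 0) (nat_lit 76) (XT.nd (nat_lit 78) (nat_lit 0) (nat_lit 76) (XT.lf (nat_lit 76) (nat_lit 20733500722) (nat_lit 0) (nat_lit 27566536199) (nat_lit 1292) (nat_lit 64783914371) (nat_lit 276) (nat_lit 5) (nat_lit 275) (nat_lit 5) (nat_lit 292) (nat_lit 5) (nat_lit 514) (nat_lit 511) (nat_lit 175)) (XT.lf (nat_lit 0) (nat_lit 50972592317) (nat_lit 1216) (nat_lit 36472184931) (nat_lit 1292) (nat_lit 27353113373) (nat_lit 276) (nat_lit 5) (nat_lit 292) (nat_lit 5) (nat_lit 293) (nat_lit 5) (nat_lit 515) (nat_lit 511) (nat_lit 174))) (XT.nd (nat_lit 78) (nat_lit 0) (nat_lit 76) (XT.lf (nat_lit 76) (nat_lit 21223520046) (nat_lit 0) (nat_lit 32978555541) (nat_lit 1292) (nat_lit 62346870054) (nat_lit 277) (nat_lit 5) (nat_lit 276) (nat_lit 5) (nat_lit 293) (nat_lit 5) (nat_lit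 516) (nat_lit 511) (nat_lit 173)) (XT.lf (nat_lit 0) (nat_lit 58122453997) (nat_lit 1216) (nat_lit 37169774504) (nat_lit 1292) (nat_lit 23042483537) (nat_lit 277) (nat_lit 5) (nat_lit 293) (nat_lit 5) (nat_lit 294) (nat_lit 5) (nat_lit 517) (nat_lit 511) (nat_lit 172))))) (XT.nd (nat_lit 62088) (nat_lit 0) (nat_lit 0) (XT.nd (nat_lit 156) (nat_lit 228) (nat_lit 0) (XT.nd (nat_lit 78) (nat_lit 0) (nat_lit 76) (XT.lf (nat_lit 76) (nat_lit 22849785694) (nat_lit 0) (nat_lit 39856637255) (nat_lit 1292) (nat_lit 57451249144) (nat_lit 278) (nat_lit 5) (nat_lit 277) (nat_lit 5) (nat_lit 294) (nat_lit 5) (nat_lit 518) (nat_lit 511) (nat_lit 171)) (XT.lf (nat_lit 0) (nat_lit 67972527549) (nat_lit 1216) (nat_lit 36761767809) (nat_lit 1292) (nat_lit 17284687138) (nat_lit 278) (nat_lit 5) (nat_lit 294) (nat_lit 5) (nat_lit 295) (nat_lit 5) (nat_lit 519) (nat_lit 511) (nat_lit 170))) (XT.nd (nat_lit 61854) (nat_lit 304) (nat_lit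 0) (XT.lf (nat_lit 76) (nat_lit 25707639872) (nat_lit 0) (nat_lit 48330536076) (nat_lit 1292) (nat_lit 49878709483) (nat_lit 279) (nat_lit 5) (nat_lit 278) (nat_lit 5) (nat_lit 295) (nat_lit 5) (nat_lit 520) (nat_lit 511) (nat_lit 169)) (XT.lf (nat_lit 0) (nat_lit 22624648897) (nat_lit 1292) (nat_lit 16533764850) (nat_lit 1292) (nat_lit 16533764850) (nat_lit 274) (nat_lit 3) (nat_lit 291) (nat_lit 3) (nat_lit 291) (nat_lit 5) (nat_lit 512) (nat_lit 512) (nat_lit 176)))) (XT.nd (nat_lit 156) (nat_lit 0) (nat_lit 76) (XT.nd (nat_lit 78) (nat_lit 0) (nat_lit 76) (XT.lf (nat_lit 76) (nat_lit 21934538215) (nat_lit 0) (nat_lit 24209570195) (nat_lit 1292) (nat_lit 66904530793) (nat_lit 275) (nat_lit 5) (nat_lit 274) (nat_lit 3) (nat_lit 291) (nat_lit 5) (nat_lit 513) (nat_lit 512) (nat_lit 175)) (XT.lf (nat_lit 0) (nat_lit 47705780961) (nat_lit 1216) (nat_lit 35794730600) (nat_lit 1292) (nat_lit 31243137628) (nat_lit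 275) (nat_lit 5) (nat_lit 291) (nat_lit 5) (nat_lit 292) (nat_lit 5) (nat_lit 514) (nat_lit 512) (nat_lit 174))) (XT.nd (nat_lit 78) (nat_lit 0) (nat_lit 76) (XT.lf (nat_lit 76) (nat_lit 21361246139) (nat_lit 0) (nat_lit 28397895642) (nat_lit 1292) (nat_lit 66717022599) (nat_lit 276) (nat_lit 5) (nat_lit 275) (nat_lit 5) (nat_lit 292) (nat_lit 5) (nat_lit 515) (nat_lit 512) (nat_lit 173)) (XT.lf (nat_lit 0) (nat_lit 52511538835) (nat_lit 1216) (nat_lit 37560440005) (nat_lit 1292) (nat_lit 28169553170) (nat_lit 276) (nat_lit 5) (nat_lit 292) (nat_lit 5) (nat_lit 293) (nat_lit 5) (nat_lit 516) (nat_lit 512) (nat_lit 172)))))) (XT.nd (nat_lit 62556) (nat_lit 0) (nat_lit 0) (XT.nd (nat_lit 62244) (nat_lit 0) (nat_lit 0) (XT.nd (nat_lit 156) (nat_lit 152) (nat_lit 0) (XT.nd (nat_lit 78) (nat_lit 0) (nat_lit 76) (XT.lf (nat_lit 76) (nat_lit 21866078176) (nat_lit 0) (nat_lit 33971600158) (nat_lit 1292) (nat_lit 64207447259)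 (nat_lit 277) (nat_lit 5) (nat_lit 276) (nat_lit 5) (nat_lit 293) (nat_lit 5) (nat_lit 517) (nat_lit 512) (nat_lit 171)) (XT.lf (nat_lit 0) (nat_lit 59875355800) (nat_lit 1216) (nat_lit 38278871238) (nat_lit 1292) (nat_lit 23730247378) (nat_lit 277) (nat_lit 5) (nat_lit 293) (nat_lit 5) (nat_lit 294) (nat_lit 5) (nat_lit 518) (nat_lit 512) (nat_lit 170))) (XT.nd (nat_lit 62010) (nat_lit 228) (nat_lit 0) (XT.lf (nat_lit 76) (nat_lit 23541216977) (nat_lit 0) (nat_lit 41055415139) (nat_lit 1292) (nat_lit 59165497570) (nat_lit 278) (nat_lit 5) (nat_lit 277) (nat_lit 5) (nat_lit 294) (nat_lit 5) (nat_lit 519) (nat_lit 512) (nat_lit 169)) (XT.lf (nat_lit 0) (nat_lit 23308561107) (nat_lit 1292) (nat_lit 17027113231) (nat_lit 1292) (nat_lit 17027113231) (nat_lit 274) (nat_lit 3) (nat_lit 291) (nat_lit 3) (nat_lit 291) (nat_lit 5) (nat_lit 513) (nat_lit 513) (nat_lit 174)))) (XT.nd (nat_lit 156) (nat_lit 0) (nat_lit 76)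 (XT.nd (nat_lit 78) (nat_lit 0) (nat_lit 76) (XT.lf (nat_lit 76) (nat_lit 22597851245) (nat_lit 0) (nat_lit 24940675304) (nat_lit 1292) (nat_lit 68901266646) (nat_lit 275) (nat_lit 5) (nat_lit 274) (nat_lit 3) (nat_lit 291) (nat_lit 5) (nat_lit 514) (nat_lit 513) (nat_lit 173)) (XT.lf (nat_lit 0) (nat_lit 49146710287) (nat_lit 1216) (nat_lit 36863108072) (nat_lit 1292) (nat_lit 32175845362) (nat_lit 275) (nat_lit 5) (nat_lit 291) (nat_lit 5) (nat_lit 292) (nat_lit 5) (nat_lit 515) (nat_lit 513) (nat_lit 172))) (XT.nd (nat_lit 78) (nat_lit 0) (nat_lit 76) (XT.lf (nat_lit 76) (nat_lit 22007494397) (nat_lit 0) (nat_lit 29253945395) (nat_lit 1292) (nat_lit 68708721605) (nat_lit 276) (nat_lit 5) (nat_lit 275) (nat_lit 5) (nat_lit 292) (nat_lit 5) (nat_lit 516) (nat_lit 513) (nat_lit 171)) (XT.lf (nat_lit 0) (nat_lit 54096092982) (nat_lit 1216) (nat_lit 38681682016) (nat_lit 1292) (nat_lit 29010724594) (nat_lit 276)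 (nat_lit 5) (nat_lit 292) (nat_lit 5) (nat_lit 293) (nat_lit 5) (nat_lit 517) (nat_lit 513) (nat_lit 170))))) (XT.nd (nat_lit 62400) (nat_lit 0) (nat_lit 0) (XT.nd (nat_lit 62244) (nat_lit 0) (nat_lit 0) (XT.nd (nat_lit 62166) (nat_lit 152) (nat_lit 0) (XT.lf (nat_lit 76) (nat_lit 22527577091) (nat_lit 0) (nat_lit 34994224410) (nat_lit 1292) (nat_lit 66124406000) (nat_lit 277) (nat_lit 5) (nat_lit 276) (nat_lit 5) (nat_lit 293) (nat_lit 5) (nat_lit 518) (nat_lit 513) (nat_lit 169)) (XT.lf (nat_lit 0) (nat_lit 24012693747) (nat_lit 1292) (nat_lit 17535415020) (nat_lit 1292) (nat_lit 17535415020) (nat_lit 274) (nat_lit 3) (nat_lit 291) (nat_lit 3) (nat_lit 291) (nat_lit 5) (nat_lit 514) (nat_lit 514) (nat_lit 172))) (XT.nd (nat_lit 78) (nat_lit 0) (nat_lit 76) (XT.lf (nat_lit 76) (nat_lit 23280760750) (nat_lit 0) (nat_lit 25693436995) (nat_lit 1292) (nat_lit 70958501582) (nat_lit 275) (nat_lit 5) (nat_lit 274) (nat_lit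 3) (nat_lit 291) (nat_lit 5) (nat_lit 515) (nat_lit 514) (nat_lit 171)) (XT.lf (nat_lit 0) (nat_lit 50630307464) (nat_lit 1216) (nat_lit 37963850549) (nat_lit 1292) (nat_lit 33136797605) (nat_lit 275) (nat_lit 5) (nat_lit 291) (nat_lit 5) (nat_lit 292) (nat_lit 5) (nat_lit 516) (nat_lit 514) (nat_lit 170)))) (XT.nd (nat_lit 62400) (nat_lit 76) (nat_lit 0) (XT.nd (nat_lit 78) (nat_lit 0) (nat_lit 76) (XT.lf (nat_lit 76) (nat_lit 22672819496) (nat_lit 0) (nat_lit 30135440544) (nat_lit 1292) (nat_lit 70760734811) (nat_lit 276) (nat_lit 5) (nat_lit 275) (nat_lit 5) (nat_lit 292) (nat_lit 5) (nat_lit 517) (nat_lit 514) (nat_lit 169)) (XT.lf (nat_lit 0) (nat_lit 55727655177) (nat_lit 1216) (nat_lit 39836881097) (nat_lit 1292) (nat_lit 29877355907) (nat_lit 276) (nat_lit 5) (nat_lit 292) (nat_lit 5) (nat_lit 293) (nat_lit 5) (nat_lit 518) (nat_lit 514) (nat_lit 168))) (XT.nd (nat_lit 78) (nat_lit 0) (nat_lit 76) (XT.lf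 (nat_lit 76) (nat_lit 23983872015) (nat_lit 0) (nat_lit 26468520839) (nat_lit 1292) (nat_lit 73078016301) (nat_lit 275) (nat_lit 5) (nat_lit 274) (nat_lit 3) (nat_lit 291) (nat_lit 5) (nat_lit 516) (nat_lit 515) (nat_lit 169)) (XT.lf (nat_lit 0) (nat_lit 52157884675) (nat_lit 1216) (nat_lit 39097910975) (nat_lit 1292) (nat_lit 34126826580) (nat_lit 275) (nat_lit 5) (nat_lit 291) (nat_lit 5) (nat_lit 292) (nat_lit 5) (nat_lit 517) (nat_lit 515) (nat_lit 168))))))))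

set_option maxRecDepth 10000000 in
noncomputable def Tp : PT := (PT.nd (nat_lit 12887004) (PT.nd (nat_lit 11761542) (PT.nd (nat_lit 10512918) (PT.nd (nat_lit 9139572) (PT.nd (nat_lit 7953192) (PT.nd (nat_lit 7078968) pc0 pc1) (PT.nd (nat_lit 686712) pc2 pc3)) (PT.nd (nat_lit 811512) (PT.nd (nat_lit 437034) pc4 pc5) (PT.nd (nat_lit 312000) pc6 pc7))) (PT.nd (nat_lit 749112) (PT.nd (nat_lit 375180) (PT.nd (nat_lit 187746) pc8 pc9) (PT.nd (nat_lit 187122) pc10 pc11)) (PT.nd (nat_lit 250068) (PT.nd (nat_lit 125190) pc12 pc13) (PT.nd (nat_lit 124800) pc14 pc15)))) (PT.nd (nat_lit 686634) (PT.nd (nat_lit 374712) (PT.nd (nat_lit 187668) (PT.nd (nat_lit 63570) pc16 pc17) (PT.nd (nat_lit 63336) pc18 pc19)) (PT.nd (nat_lit 126126) (PT.nd (nat_lit 63102) pc20 pc21) (PT.nd (nat_lit 123006) pc22 pc23))) (PT.nd (nat_lit 249834) (PT.nd (nat_lit 125034) (PT.nd (nat_lit 62556) pc24 pc25) (PT.nd (nat_lit 62400) pc26 pc27)) (PT.nd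 (nat_lit 124176) (PT.nd (nat_lit 62166) pc28 pc29) (PT.nd (nat_lit 2808) pc30 pc31))))) (PT.nd (nat_lit 687024) (PT.nd (nat_lit 374400) (PT.nd (nat_lit 187824) (PT.nd (nat_lit 123396) (PT.nd (nat_lit 61776) pc32 pc33) (PT.nd (nat_lit 61542) pc34 pc35)) (PT.nd (nat_lit 122616) (PT.nd (nat_lit 61386) pc36 pc37) (PT.nd (nat_lit 61074) pc38 pc39))) (PT.nd (nat_lit 185172) (PT.nd (nat_lit 121680) (PT.nd (nat_lit 60918) pc40 pc41) (PT.nd (nat_lit 2808) pc42 pc43)) (PT.nd (nat_lit 63258) (PT.nd (nat_lit 2808) pc44 pc45) (PT.nd (nat_lit 2808) pc46 pc47)))) (PT.nd (nat_lit 625950) (PT.nd (nat_lit 250302) (PT.nd (nat_lit 121914) (PT.nd (nat_lit 60060) pc48 pc49) (PT.nd (nat_lit 62244) pc50 pc51)) (PT.nd (nat_lit 182676) (PT.nd (nat_lit 63180) pc52 pc53) (PT.nd (nat_lit 68094) pc54 pc55))) (PT.nd (nat_lit 617058) (PT.nd (nat_lit 250458) (PT.nd (nat_lit 125034) pc56 pc57) (PT.nd (nat_lit 179634) pc58 pc59)) (PT.nd (nat_lit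 436254) (PT.nd (nat_lit 196248) pc60 pc61) (PT.nd (nat_lit 198042) pc62 pc63))))))

set_option maxRecDepth 10000000 in
noncomputable def Tx : XT := (XT.nd (nat_lit 20286006) (nat_lit 0) (nat_lit 380) XT.nil (XT.nd (nat_lit 11930568) (nat_lit 0) (nat_lit 0) (XT.nd (nat_lit 5550090) (nat_lit 0) (nat_lit 2052) (XT.nd (nat_lit 3806946) (nat_lit 0) (nat_lit 912) (XT.nd (nat_lit 2680860) (nat_lit 0) (nat_lit 456) (XT.nd (nat_lit 1870440) (nat_lit 0) (nat_lit 228) (XT.nd (nat_lit 1308918) (nat_lit 0) (nat_lit 76) (XT.nd (nat_lit 873912) (nat_lit 0) (nat_lit 76) (XT.nd (nat_lit 623298) (nat_lit 0) (nat_lit 0) (XT.nd (nat_lit 374868) (nat_lit 0) (nat_lit 0) xc0 xc1) (XT.nd (nat_lit 125580) (nat_lit 0) (nat_lit 0) xc2 xc3)) (XT.nd (nat_lit 248118) (nat_lit 0) (nat_lit 0) (XT.nd (nat_lit 124332) (nat_lit 0) (nat_lit 0) xc4 xc5) (XT.nd (nat_lit 64038) (nat_lit 0) (nat_lit 0) xc6 xc7))) (XT.nd (nat_lit 311376) (nat_lit 0) (nat_lit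 0) (XT.nd (nat_lit 126906) (nat_lit 0) (nat_lit 0) (XT.nd (nat_lit 63492) (nat_lit 0) (nat_lit 0) xc8 xc9) (XT.nd (nat_lit 63180) (nat_lit 0) (nat_lit 0) xc10 xc11)) (XT.nd (nat_lit 125346) (nat_lit 0) (nat_lit 152) (XT.nd (nat_lit 62712) (nat_lit 0) (nat_lit 76) xc12 xc13) (XT.nd (nat_lit 62478) (nat_lit 0) (nat_lit 0) xc14 xc15)))) (XT.nd (nat_lit 436488) (nat_lit 0) (nat_lit 76) (XT.nd (nat_lit 190632) (nat_lit 0) (nat_lit 0) (XT.nd (nat_lit 124098) (nat_lit 0) (nat_lit 0) (XT.nd (nat_lit 62088) (nat_lit 0) (nat_lit 0) xc16 xc17) (XT.nd (nat_lit 4680) (nat_lit 76) (nat_lit 0) xc18 xc19)) (XT.nd (nat_lit 123162) (nat_lit 0) (nat_lit 0) (XT.nd (nat_lit 61620) (nat_lit 0) (nat_lit 0) xc20 xc21) (XT.nd (nat_lit 61386) (nat_lit 0) (nat_lit 76) xc22 xc23))) (XT.nd (nat_lit 187668) (nat_lit 0) (nat_lit 0) (XT.nd (nat_lit 65832) (nat_lit 0) (nat_lit 0) (XT.nd (nat_lit 4680) (nat_lit 0) (nat_lit 0) xc24 xc25) (XT.nd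 (nat_lit 60996) (nat_lit 0) (nat_lit 0) xc26 xc27)) (XT.nd (nat_lit 65364) (nat_lit 0) (nat_lit 76) (XT.nd (nat_lit 60606) (nat_lit 0) (nat_lit 760) xc28 xc29) (XT.nd (nat_lit 60528) (nat_lit 0) (nat_lit 76) xc30 xc31))))) (XT.nd (nat_lit 623298) (nat_lit 0) (nat_lit 228) (XT.nd (nat_lit 313560) (nat_lit 0) (nat_lit 76) (XT.nd (nat_lit 129636) (nat_lit 0) (nat_lit 0) (XT.nd (nat_lit 64896) (nat_lit 0) (nat_lit 0) (XT.nd (nat_lit 4680) (nat_lit 304) (nat_lit 0) xc32 xc33) (XT.nd (nat_lit 59982) (nat_lit 0) (nat_lit 456) xc34 xc35)) (XT.nd (nat_lit 119574) (nat_lit 0) (nat_lit 76) (XT.nd (nat_lit 59826) (nat_lit 0) (nat_lit 0) xc36 xc37) (XT.nd (nat_lit 4758) (nat_lit 684) (nat_lit 0) xc38 xc39))) (XT.nd (nat_lit 128154) (nat_lit 0) (nat_lit 0) (XT.nd (nat_lit 64116) (nat_lit 0) (nat_lit 0) (XT.nd (nat_lit 59358) (nat_lit 0) (nat_lit 1520) xc40 xc41) (XT.nd (nat_lit 59280) (nat_lit 0) (nat_lit 608) xc42 xc43)) (XT.nd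 (nat_lit 63804) (nat_lit 0) (nat_lit 0) (XT.nd (nat_lit 59046) (nat_lit 0) (nat_lit 152) xc44 xc45) (XT.nd (nat_lit 58968) (nat_lit 0) (nat_lit 76) xc46 xc47)))) (XT.nd (nat_lit 252486) (nat_lit 0) (nat_lit 76) (XT.nd (nat_lit 126516) (nat_lit 0) (nat_lit 0) (XT.nd (nat_lit 63336) (nat_lit 0) (nat_lit 0) (XT.nd (nat_lit 4680) (nat_lit 1216) (nat_lit 0) xc48 xc49) (XT.nd (nat_lit 4680) (nat_lit 760) (nat_lit 0) xc50 xc51)) (XT.nd (nat_lit 63024) (nat_lit 0) (nat_lit 76) (XT.nd (nat_lit 4680) (nat_lit 456) (nat_lit 0) xc52 xc53) (XT.nd (nat_lit 4758) (nat_lit 152) (nat_lit 0) xc54 xc55))) (XT.nd (nat_lit 125424) (nat_lit 0) (nat_lit 76) (XT.nd (nat_lit 62712) (nat_lit 0) (nat_lit 0) (XT.nd (nat_lit 57954) (nat_lit 0) (nat_lit 2964) xc56 xc57) (XT.nd (nat_lit 57954) (nat_lit 0) (nat_lit 2660) xc58 xc59)) (XT.nd (nat_lit 62478) (nat_lit 0) (nat_lit 76) (XT.nd (nat_lit 57720) (nat_lit 0) (nat_lit 2812) xc60 xc61) (XT.nd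 (nat_lit 57642) (nat_lit 0) (nat_lit 2812) xc62 xc63)))))) (XT.nd (nat_lit 875550) (nat_lit 0) (nat_lit 532) (XT.nd (nat_lit 441480) (nat_lit 0) (nat_lit 228) (XT.nd (nat_lit 247806) (nat_lit 0) (nat_lit 76) (XT.nd (nat_lit 124176) (nat_lit 0) (nat_lit 76) (XT.nd (nat_lit 62166) (nat_lit 0) (nat_lit 0) (XT.nd (nat_lit 57408) (nat_lit 0) (nat_lit 3116) xc64 xc65) (XT.nd (nat_lit 57252) (nat_lit 0) (nat_lit 3724) xc66 xc67)) (XT.nd (nat_lit 61854) (nat_lit 0) (nat_lit 0) (XT.nd (nat_lit 4680) (nat_lit 152) (nat_lit 0) xc68 xc69) (XT.nd (nat_lit 4758) (nat_lit 456) (nat_lit 0) xc70 xc71))) (XT.nd (nat_lit 122928) (nat_lit 0) (nat_lit 76) (XT.nd (nat_lit 61542) (nat_lit 0) (nat_lit 0) (XT.nd (nat_lit 4680) (nat_lit 912) (nat_lit 0) xc72 xc73) (XT.nd (nat_lit 4680) (nat_lit 1596) (nat_lit 0) xc74 xc75)) (XT.nd (nat_lit 61230) (nat_lit 0) (nat_lit 76) (XT.nd (nat_lit 4680) (nat_lit 2356) (nat_lit 0) xc76 xc77) (XT.nd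 (nat_lit 4758) (nat_lit 3724) (nat_lit 0) xc78 xc79)))) (XT.nd (nat_lit 243438) (nat_lit 0) (nat_lit 76) (XT.nd (nat_lit 121992) (nat_lit 0) (nat_lit 76) (XT.nd (nat_lit 61074) (nat_lit 0) (nat_lit 0) (XT.nd (nat_lit 56316) (nat_lit 0) (nat_lit 760) xc80 xc81) (XT.nd (nat_lit 56160) (nat_lit 0) (nat_lit 1900) xc82 xc83)) (XT.nd (nat_lit 60762) (nat_lit 0) (nat_lit 0) (XT.nd (nat_lit 56004) (nat_lit 0) (nat_lit 3800) xc84 xc85) (XT.nd (nat_lit 55926) (nat_lit 0) (nat_lit 6916) xc86 xc87))) (XT.nd (nat_lit 120900) (nat_lit 0) (nat_lit 152) (XT.nd (nat_lit 60450) (nat_lit 0) (nat_lit 152) (XT.nd (nat_lit 4680) (nat_lit 1140) (nat_lit 0) xc88 xc89) (XT.nd (nat_lit 4758) (nat_lit 2660) (nat_lit 0) xc90 xc91)) (XT.nd (nat_lit 9438) (nat_lit 608) (nat_lit 0) (XT.nd (nat_lit 4680) (nat_lit 5244) (nat_lit 0) xc92 xc93) (XT.nd (nat_lit 55536) (nat_lit 0) (nat_lit 2356) xc94 xc95))))) (XT.nd (nat_lit 431730) (nat_lit 0) (nat_lit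 228) (XT.nd (nat_lit 189930) (nat_lit 0) (nat_lit 76) (XT.nd (nat_lit 120198) (nat_lit 0) (nat_lit 0) (XT.nd (nat_lit 60060) (nat_lit 0) (nat_lit 0) (XT.nd (nat_lit 55302) (nat_lit 0) (nat_lit 5548) xc96 xc97) (XT.nd (nat_lit 4680) (nat_lit 608) (nat_lit 0) xc98 xc99)) (XT.nd (nat_lit 60216) (nat_lit 0) (nat_lit 532) (XT.nd (nat_lit 4680) (nat_lit 2508) (nat_lit 0) xc100 xc101) (XT.nd (nat_lit 4758) (nat_lit 4940) (nat_lit 0) xc102 xc103))) (XT.nd (nat_lit 120744) (nat_lit 0) (nat_lit 76) (XT.nd (nat_lit 60294) (nat_lit 0) (nat_lit 76) (XT.nd (nat_lit 55536) (nat_lit 0) (nat_lit 2128) xc104 xc105) (XT.nd (nat_lit 55692) (nat_lit 0) (nat_lit 4712) xc106 xc107)) (XT.nd (nat_lit 60450) (nat_lit 0) (nat_lit 76) (XT.nd (nat_lit 4680) (nat_lit 152) (nat_lit 0) xc108 xc109) (XT.nd (nat_lit 4758) (nat_lit 1444) (nat_lit 0) xc110 xc111)))) (XT.nd (nat_lit 191568) (nat_lit 0) (nat_lit 228) (XT.nd (nat_lit 70044) (nat_lit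 0) (nat_lit 76) (XT.nd (nat_lit 60606) (nat_lit 0) (nat_lit 912) (XT.nd (nat_lit 4680) (nat_lit 3724) (nat_lit 0) xc112 xc113) (XT.nd (nat_lit 4680) (nat_lit 6004) (nat_lit 0) xc114 xc115)) (XT.nd (nat_lit 60684) (nat_lit 0) (nat_lit 0) (XT.nd (nat_lit 55926) (nat_lit 0) (nat_lit 2508) xc116 xc117) (XT.nd (nat_lit 56082) (nat_lit 0) (nat_lit 4712) xc118 xc119))) (XT.nd (nat_lit 121992) (nat_lit 0) (nat_lit 76) (XT.nd (nat_lit 60918) (nat_lit 0) (nat_lit 0) (XT.nd (nat_lit 56160) (nat_lit 0) (nat_lit 7524) xc120 xc121) (XT.nd (nat_lit 4758) (nat_lit 988) (nat_lit 0) xc122 xc123)) (XT.nd (nat_lit 61074) (nat_lit 0) (nat_lit 0) (XT.nd (nat_lit 4680) (nat_lit 2356) (nat_lit 0) xc124 xc125) (XT.nd (nat_lit 4758) (nat_lit 4180) (nat_lit 0) xc126 xc127))))))) (XT.nd (nat_lit 2003118) (nat_lit 0) (nat_lit 2280) (XT.nd (nat_lit 884130) (nat_lit 0) (nat_lit 760) (XT.nd (nat_lit 439842) (nat_lit 0) (nat_lit 380) (XT.nd (nat_lit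 193440) (nat_lit 0) (nat_lit 152) (XT.nd (nat_lit 70668) (nat_lit 0) (nat_lit 76) (XT.nd (nat_lit 9438) (nat_lit 532) (nat_lit 0) (XT.nd (nat_lit 4680) (nat_lit 6004) (nat_lit 0) xc128 xc129) (XT.nd (nat_lit 56472) (nat_lit 0) (nat_lit 1672) xc130 xc131)) (XT.nd (nat_lit 61308) (nat_lit 0) (nat_lit 0) (XT.nd (nat_lit 56550) (nat_lit 0) (nat_lit 2888) xc132 xc133) (XT.nd (nat_lit 56706) (nat_lit 0) (nat_lit 4332) xc134 xc135))) (XT.nd (nat_lit 123006) (nat_lit 0) (nat_lit 76) (XT.nd (nat_lit 61464) (nat_lit 0) (nat_lit 0) (XT.nd (nat_lit 56706) (nat_lit 0) (nat_lit 6384) xc136 xc137) (XT.nd (nat_lit 4680) (nat_lit 456) (nat_lit 0) xc138 xc139)) (XT.nd (nat_lit 61620) (nat_lit 0) (nat_lit 76) (XT.nd (nat_lit 4680) (nat_lit 1140) (nat_lit 0) xc140 xc141) (XT.nd (nat_lit 4758) (nat_lit 1976) (nat_lit 0) xc142 xc143)))) (XT.nd (nat_lit 247962) (nat_lit 0) (nat_lit 228) (XT.nd (nat_lit 123786) (nat_lit 0) (nat_lit 152)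 (XT.nd (nat_lit 61854) (nat_lit 0) (nat_lit 0) (XT.nd (nat_lit 4680) (nat_lit 2964) (nat_lit 0) xc144 xc145) (XT.nd (nat_lit 4680) (nat_lit 3876) (nat_lit 0) xc146 xc147)) (XT.nd (nat_lit 62010) (nat_lit 0) (nat_lit 0) (XT.nd (nat_lit 4680) (nat_lit 4788) (nat_lit 0) xc148 xc149) (XT.nd (nat_lit 4758) (nat_lit 5472) (nat_lit 0) xc150 xc151))) (XT.nd (nat_lit 71682) (nat_lit 0) (nat_lit 0) (XT.nd (nat_lit 9438) (nat_lit 152) (nat_lit 0) (XT.nd (nat_lit 4680) (nat_lit 6384) (nat_lit 0) xc152 xc153) (XT.nd (nat_lit 57486) (nat_lit 0) (nat_lit 380) xc154 xc155)) (XT.nd (nat_lit 62244) (nat_lit 0) (nat_lit 152) (XT.nd (nat_lit 57486) (nat_lit 0) (nat_lit 684) xc156 xc157) (XT.nd (nat_lit 57642) (nat_lit 0) (nat_lit 608) xc158 xc159))))) (XT.nd (nat_lit 555828) (nat_lit 0) (nat_lit 608) (XT.nd (nat_lit 250380) (nat_lit 0) (nat_lit 228) (XT.nd (nat_lit 124956) (nat_lit 0) (nat_lit 76) (XT.nd (nat_lit 62400) (nat_lit 0)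 (nat_lit 76) (XT.nd (nat_lit 57642) (nat_lit 0) (nat_lit 836) xc160 xc161) (XT.nd (nat_lit 57798) (nat_lit 0) (nat_lit 760) xc162 xc163)) (XT.nd (nat_lit 62634) (nat_lit 0) (nat_lit 152) (XT.nd (nat_lit 57876) (nat_lit 0) (nat_lit 532) xc164 xc165) (XT.nd (nat_lit 58032) (nat_lit 0) (nat_lit 304) xc166 xc167))) (XT.nd (nat_lit 179244) (nat_lit 0) (nat_lit 304) (XT.nd (nat_lit 116220) (nat_lit 0) (nat_lit 76) (XT.nd (nat_lit 58032) (nat_lit 0) (nat_lit 76) xc168 xc169) (XT.nd (nat_lit 4758) (nat_lit 6080) (nat_lit 0) xc170 xc171)) (XT.nd (nat_lit 63024) (nat_lit 0) (nat_lit 0) (XT.nd (nat_lit 4680) (nat_lit 4940) (nat_lit 0) xc172 xc173) (XT.nd (nat_lit 4758) (nat_lit 4028) (nat_lit 0) xc174 xc175)))) (XT.nd (nat_lit 253578) (nat_lit 0) (nat_lit 456) (XT.nd (nat_lit 126594) (nat_lit 0) (nat_lit 228) (XT.nd (nat_lit 63258) (nat_lit 0) (nat_lit 228) (XT.nd (nat_lit 4680) (nat_lit 3040) (nat_lit 0) xc176 xc177) (XT.nd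 (nat_lit 4680) (nat_lit 1748) (nat_lit 0) xc178 xc179)) (XT.nd (nat_lit 63414) (nat_lit 0) (nat_lit 76) (XT.nd (nat_lit 4680) (nat_lit 836) (nat_lit 0) xc180 xc181) (XT.nd (nat_lit 58812) (nat_lit 0) (nat_lit 4864) xc182 xc183))) (XT.nd (nat_lit 127296) (nat_lit 0) (nat_lit 152) (XT.nd (nat_lit 63570) (nat_lit 0) (nat_lit 76) (XT.nd (nat_lit 58812) (nat_lit 0) (nat_lit 3040) xc184 xc185) (XT.nd (nat_lit 58968) (nat_lit 0) (nat_lit 1216) xc186 xc187)) (XT.nd (nat_lit 118248) (nat_lit 0) (nat_lit 228) (XT.nd (nat_lit 59046) (nat_lit 0) (nat_lit 152) xc188 xc189) (XT.nd (nat_lit 4758) (nat_lit 4332) (nat_lit 0) xc190 xc191)))))) (XT.nd (nat_lit 1317732) (nat_lit 0) (nat_lit 2584) (XT.nd (nat_lit 625794) (nat_lit 0) (nat_lit 1064) (XT.nd (nat_lit 311688) (nat_lit 0) (nat_lit 456) (XT.nd (nat_lit 128154) (nat_lit 0) (nat_lit 152) (XT.nd (nat_lit 64038) (nat_lit 0) (nat_lit 0) (XT.nd (nat_lit 4680) (nat_lit 1748) (nat_lit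 0) xc192 xc193) (XT.nd (nat_lit 59358) (nat_lit 0) (nat_lit 4484) xc194 xc195)) (XT.nd (nat_lit 64194) (nat_lit 0) (nat_lit 76) (XT.nd (nat_lit 59436) (nat_lit 0) (nat_lit 1596) xc196 xc197) (XT.nd (nat_lit 59592) (nat_lit 0) (nat_lit 76) xc198 xc199))) (XT.nd (nat_lit 129168) (nat_lit 0) (nat_lit 228) (XT.nd (nat_lit 64506) (nat_lit 0) (nat_lit 228) (XT.nd (nat_lit 4680) (nat_lit 3040) (nat_lit 0) xc200 xc201) (XT.nd (nat_lit 59904) (nat_lit 0) (nat_lit 4180) xc202 xc203)) (XT.nd (nat_lit 64662) (nat_lit 0) (nat_lit 152) (XT.nd (nat_lit 59904) (nat_lit 0) (nat_lit 532) xc204 xc205) (XT.nd (nat_lit 60060) (nat_lit 0) (nat_lit 228) xc206 xc207)))) (XT.nd (nat_lit 316446) (nat_lit 0) (nat_lit 684) (XT.nd (nat_lit 185718) (nat_lit 0) (nat_lit 304) (XT.nd (nat_lit 64974) (nat_lit 0) (nat_lit 152) (XT.nd (nat_lit 4680) (nat_lit 532) (nat_lit 0) xc208 xc209) (XT.nd (nat_lit 60294) (nat_lit 0) (nat_lit 0) xc210 xc211))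 (XT.nd (nat_lit 65208) (nat_lit 0) (nat_lit 228) (XT.nd (nat_lit 4680) (nat_lit 3496) (nat_lit 0) xc212 xc213) (XT.nd (nat_lit 60762) (nat_lit 0) (nat_lit 1444) xc214 xc215))) (XT.nd (nat_lit 187200) (nat_lit 0) (nat_lit 228) (XT.nd (nat_lit 121524) (nat_lit 0) (nat_lit 228) (XT.nd (nat_lit 60684) (nat_lit 0) (nat_lit 0) xc216 xc217) (XT.nd (nat_lit 60918) (nat_lit 0) (nat_lit 1976) xc218 xc219)) (XT.nd (nat_lit 122148) (nat_lit 0) (nat_lit 456) (XT.nd (nat_lit 60918) (nat_lit 0) (nat_lit 380) xc220 xc221) (XT.nd (nat_lit 61308) (nat_lit 0) (nat_lit 456) xc222 xc223))))) (XT.nd (nat_lit 995670) (nat_lit 0) (nat_lit 3800) (XT.nd (nat_lit 436488) (nat_lit 0) (nat_lit 1140) (XT.nd (nat_lit 246090) (nat_lit 0) (nat_lit 684) (XT.nd (nat_lit 122694) (nat_lit 0) (nat_lit 304) (XT.nd (nat_lit 61230) (nat_lit 0) (nat_lit 0) xc224 xc225) (XT.nd (nat_lit 61620) (nat_lit 0) (nat_lit 152) xc226 xc227)) (XT.nd (nat_lit 123552)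 (nat_lit 0) (nat_lit 228) (XT.nd (nat_lit 61698) (nat_lit 0) (nat_lit 0) xc228 xc229) (XT.nd (nat_lit 4758) (nat_lit 988) (nat_lit 0) xc230 xc231))) (XT.nd (nat_lit 249600) (nat_lit 0) (nat_lit 760) (XT.nd (nat_lit 124488) (nat_lit 0) (nat_lit 760) (XT.nd (nat_lit 62166) (nat_lit 0) (nat_lit 228) xc232 xc233) (XT.nd (nat_lit 62478) (nat_lit 0) (nat_lit 608) xc234 xc235)) (XT.nd (nat_lit 125268) (nat_lit 0) (nat_lit 1216) (XT.nd (nat_lit 62556) (nat_lit 0) (nat_lit 0) xc236 xc237) (XT.nd (nat_lit 121212) (nat_lit 0) (nat_lit 304) xc238 xc239)))) (XT.nd (nat_lit 627276) (nat_lit 0) (nat_lit 2964) (XT.nd (nat_lit 312312) (nat_lit 0) (nat_lit 1368) (XT.nd (nat_lit 126516) (nat_lit 0) (nat_lit 304) (XT.nd (nat_lit 63180) (nat_lit 0) (nat_lit 304) xc240 xc241) (XT.nd (nat_lit 63336) (nat_lit 0) (nat_lit 684) xc242 xc243)) (XT.nd (nat_lit 127530) (nat_lit 0) (nat_lit 380) (XT.nd (nat_lit 63648) (nat_lit 0) (nat_lit 380)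 xc244 xc245) (XT.nd (nat_lit 123240) (nat_lit 0) (nat_lit 836) xc246 xc247))) (XT.nd (nat_lit 498342) (nat_lit 0) (nat_lit 3040) (XT.nd (nat_lit 248274) (nat_lit 0) (nat_lit 1444) (XT.nd (nat_lit 123864) (nat_lit 0) (nat_lit 456) xc248 xc249) (XT.nd (nat_lit 124800) (nat_lit 0) (nat_lit 988) xc250 xc251)) (XT.nd (nat_lit 312780) (nat_lit 0) (nat_lit 2280) (XT.nd (nat_lit 125658) (nat_lit 0) (nat_lit 1064) xc252 xc253) (XT.nd (nat_lit 188214) (nat_lit 0) (nat_lit 1444) xc254 xc255)))))))) XT.nil))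

set_option maxRecDepth 10000000 in
noncomputable def Te : XT := XT.nil

set_option maxRecDepth 10000000 in
noncomputable def Tz : ZL := (ZL.cons (nat_lit 76) (nat_lit 3) (nat_lit 172440205931995886665) (ZL.cons (nat_lit 152) (nat_lit 6) (nat_lit 339933888632351737800) (ZL.cons (nat_lit 228) (nat_lit 6) (nat_lit 330191057178977258306) (ZL.cons (nat_lit 380) (nat_lit 3) (nat_lit 162697421220714413757) (ZL.cons (nat_lit 456) (nat_lit 6) (nat_lit 320741629191191827388) (ZL.cons (nat_lit 532) (nat_lit 6) (nat_lit 316227351513775759572) (ZL.cons (nat_lit 608) (nat_lit 3) (nat_lit 158045071823309544241) (ZL.cons (nat_lit 684) (nat_lit 6) (nat_lit 311577645506037209726) (ZL.cons (nat_lit 760) (nat_lit 6) (nat_lit 307200191809905876858) (ZL.cons (nat_lit 836) (nat_lit 3) (nat_lit 153533490144197272849) (ZL.cons (nat_lit 912) (nat_lit 6) (nat_lit 302691414502890604000) (ZL.cons (nat_lit 988) (nat_lit 6) (nat_lit 298447124839615720994)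 (ZL.cons (nat_lit 1064) (nat_lit 3) (nat_lit 149158896632666437606) (ZL.cons (nat_lit 1140) (nat_lit 6) (nat_lit 294075506486442591498) (ZL.cons (nat_lit 1216) (nat_lit 6) (nat_lit 289960847313694508926) (ZL.cons (nat_lit 1292) (nat_lit 3) (nat_lit 144917641339234222528) (ZL.cons (nat_lit 1368) (nat_lit 6) (nat_lit 285722748365763983874) (ZL.cons (nat_lit 1444) (nat_lit 6) (nat_lit 281734310071745291430) (ZL.cons (nat_lit 1520) (nat_lit 3) (nat_lit 140806201329452226363) (ZL.cons (nat_lit 1596) (nat_lit 6) (nat_lit 277626218628906038216) (ZL.cons (nat_lit 1672) (nat_lit 6) (nat_lit 273760713202344469890) (ZL.cons (nat_lit 1748) (nat_lit 3) (nat_lit 136821178245424254989) (ZL.cons (nat_lit 1824) (nat_lit 6) (nat_lit 269779242612986054510) (ZL.cons (nat_lit 1900) (nat_lit 6) (nat_lit 266033501458920539568) (ZL.cons (nat_lit 1976) (nat_lit 3) (nat_lit 132959296015141842644) (ZL.cons (nat_lit 2052) (nat_lit 6) (nat_lit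 262175388070233059178) (ZL.cons (nat_lit 2128) (nat_lit 6) (nat_lit 258546359972092384374) (ZL.cons (nat_lit 2204) (nat_lit 3) (nat_lit 129217398710008884283) (ZL.cons (nat_lit 2280) (nat_lit 6) (nat_lit 254808461031007489326) (ZL.cons (nat_lit 2356) (nat_lit 6) (nat_lit 251293210259755513442) (ZL.cons (nat_lit 2432) (nat_lit 3) (nat_lit 125592448551200758757) (ZL.cons (nat_lit 2508) (nat_lit 6) (nat_lit 247672501965365978284) (ZL.cons (nat_lit 2584) (nat_lit 6) (nat_lit 244268206536771423106) (ZL.cons (nat_lit 2660) (nat_lit 3) (nat_lit 122081524065786684403) (ZL.cons (nat_lit 2736) (nat_lit 6) (nat_lit 240761782245319031272) (ZL.cons (nat_lit 2812) (nat_lit 6) (nat_lit 237465732326702355096) (ZL.cons (nat_lit 2888) (nat_lit 3) (nat_lit 118681818393837558956) (ZL.cons (nat_lit 2964) (nat_lit 6) (nat_lit 234070800910527178634) (ZL.cons (nat_lit 3040) (nat_lit 6) (nat_lit 230880397378642754076) (ZL.cons (nat_lit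 3116) (nat_lit 3) (nat_lit 115390637748046019182) (ZL.cons (nat_lit 3192) (nat_lit 6) (nat_lit 227594281740801796782) (ZL.cons (nat_lit 3268) (nat_lit 6) (nat_lit 224507034892831443002) (ZL.cons (nat_lit 3344) (nat_lit 3) (nat_lit 112205400027701781833) (ZL.cons (nat_lit 3420) (nat_lit 6) (nat_lit 221327170639421978604) (ZL.cons (nat_lit 3496) (nat_lit 6) (nat_lit 218340699059386766422) (ZL.cons (nat_lit 3572) (nat_lit 3) (nat_lit 109123633589194412662) (ZL.cons (nat_lit 3648) (nat_lit 6) (nat_lit 215448775777024109946) (ZL.cons (nat_lit 3724) (nat_lit 6) (nat_lit 215264633331950497876) (ZL.cons (nat_lit 3800) (nat_lit 6) (nat_lit 212376662915192632678) (ZL.cons (nat_lit 3876) (nat_lit 3) (nat_lit 106142976175558480853) (ZL.cons (nat_lit 3952) (nat_lit 6) (nat_lit 209580832458819033532) (ZL.cons (nat_lit 4028) (nat_lit 6) (nat_lit 209402053385932031522) (ZL.cons (nat_lit 4104) (nat_lit 6) (nat_lit 206610416524678555442)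 (ZL.cons (nat_lit 4180) (nat_lit 3) (nat_lit 103261174007933612202) (ZL.cons (nat_lit 4256) (nat_lit 6) (nat_lit 203908602473011748880) (ZL.cons (nat_lit 4332) (nat_lit 6) (nat_lit 203735030557587475082) (ZL.cons (nat_lit 4408) (nat_lit 6) (nat_lit 201037665490983607078) (ZL.cons (nat_lit 4484) (nat_lit 3) (nat_lit 100476081042185332159) (ZL.cons (nat_lit 4560) (nat_lit 6) (nat_lit 198427895895123636428) (ZL.cons (nat_lit 4636) (nat_lit 6) (nat_lit 198259379472381623032) (ZL.cons (nat_lit 4712) (nat_lit 6) (nat_lit 195654329804774923902) (ZL.cons (nat_lit 4788) (nat_lit 3) (nat_lit 97785658394322926633) (ZL.cons (nat_lit 4864) (nat_lit 6) (nat_lit 193134736824559454276) (ZL.cons (nat_lit 4940) (nat_lit 6) (nat_lit 192971128647140023798) (ZL.cons (nat_lit 5016) (nat_lit 6) (nat_lit 190456543038808449926) (ZL.cons (nat_lit 5092) (nat_lit 3) (nat_lit 95187973938759045042) (ZL.cons (nat_lit 5168) (nat_lit 6) (nat_lit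 188025362752925405034) (ZL.cons (nat_lit 5244) (nat_lit 6) (nat_lit 187866519862226928838) (ZL.cons (nat_lit 5320) (nat_lit 6) (nat_lit 185675463457202253448) (ZL.cons (nat_lit 5396) (nat_lit 6) (nat_lit 185440651897175508952) (ZL.cons (nat_lit 5472) (nat_lit 3) (nat_lit 92681202083883696299) (ZL.cons (nat_lit 5548) (nat_lit 6) (nat_lit 183096224291908931122) (ZL.cons (nat_lit 5624) (nat_lit 6) (nat_lit 182942007893172546468) (ZL.cons (nat_lit 5700) (nat_lit 6) (nat_lit 180831188517451719702) (ZL.cons (nat_lit 5776) (nat_lit 6) (nat_lit 180603216129076239606) (ZL.cons (nat_lit 5852) (nat_lit 3) (nat_lit 90263623729873985653) (ZL.cons (nat_lit 5928) (nat_lit 6) (nat_lit 178343985271024407282) (ZL.cons (nat_lit 6004) (nat_lit 6) (nat_lit 178194260612057043540) (ZL.cons (nat_lit 6080) (nat_lit 6) (nat_lit 176162341233801276052) (ZL.cons (nat_lit 6156) (nat_lit 6) (nat_lit 175941008817902751688) (ZL.cons (nat_lit 6232)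 (nat_lit 3) (nat_lit 87933626414131828123) (ZL.cons (nat_lit 6308) (nat_lit 6) (nat_lit 173765523216494087140) (ZL.cons (nat_lit 6384) (nat_lit 6) (nat_lit 173620159469923831076) (ZL.cons (nat_lit 6460) (nat_lit 6) (nat_lit 171665902898082246210) (ZL.cons (nat_lit 6536) (nat_lit 6) (nat_lit 171451017057404067214) (ZL.cons (nat_lit 6612) (nat_lit 3) (nat_lit 85689704650236453296) (ZL.cons (nat_lit 6688) (nat_lit 6) (nat_lit 169357930223547793990) (ZL.cons (nat_lit 6764) (nat_lit 6) (nat_lit 169216800372508710436) (ZL.cons (nat_lit 6840) (nat_lit 6) (nat_lit 167339070057529311744) (ZL.cons (nat_lit 6916) (nat_lit 6) (nat_lit 167130443027744671946) (ZL.cons (nat_lit 6992) (nat_lit 3) (nat_lit 83530460466818374507) (ZL.cons (nat_lit 7068) (nat_lit 6) (nat_lit 165392672506776371324) (ZL.cons (nat_lit 7144) (nat_lit 6) (nat_lit 165118514235491191480) (ZL.cons (nat_lit 7220) (nat_lit 6) (nat_lit 164981494962637712304)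 (ZL.cons (nat_lit 7296) (nat_lit 6) (nat_lit 163179255999716202892) (ZL.cons (nat_lit 7372) (nat_lit 6) (nat_lit 162976705485362183670) (ZL.cons (nat_lit 7448) (nat_lit 3) (nat_lit 81454604153308313713) (ZL.cons (nat_lit 7524) (nat_lit 6) (nat_lit 161310973822932135802) (ZL.cons (nat_lit 7600) (nat_lit 6) (nat_lit 161044800744014485468) (ZL.cons (nat_lit 7676) (nat_lit 6) (nat_lit 160911772323768389178) (ZL.cons (nat_lit 7752) (nat_lit 6) (nat_lit 159184092666490527478) (ZL.cons (nat_lit 7828) (nat_lit 6) (nat_lit 158987441681680800076) (ZL.cons (nat_lit 7904) (nat_lit 3) (nat_lit 79460955220090130015) (ZL.cons (nat_lit 7980) (nat_lit 6) (nat_lit 157392955391363347014) (ZL.cons (nat_lit 8056) (nat_lit 6) (nat_lit 157134534926394754456) (ZL.cons (nat_lit 8132) (nat_lit 6) (nat_lit 157005381120330583298) (ZL.cons (nat_lit 8208) (nat_lit 6) (nat_lit 155351433013172623734) (ZL.cons (nat_lit 8284) (nat_lit 6) (nat_lit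 155160509726949587420) (ZL.cons (nat_lit 8360) (nat_lit 3) (nat_lit 77548443581192978154) (ZL.cons (nat_lit 8436) (nat_lit 6) (nat_lit 153636577891798971098) (ZL.cons (nat_lit 8512) (nat_lit 6) (nat_lit 153385684236489657934) (ZL.cons (nat_lit 8588) (nat_lit 6) (nat_lit 153260292191767161666) (ZL.cons (nat_lit 8664) (nat_lit 6) (nat_lit 151988471145177450636) (ZL.cons (nat_lit 8740) (nat_lit 6) (nat_lit 151679353830561072568) (ZL.cons (nat_lit 8816) (nat_lit 6) (nat_lit 151493991416752299450) (ZL.cons (nat_lit 8892) (nat_lit 3) (nat_lit 75716110968296717147) (ZL.cons (nat_lit 8968) (nat_lit 6) (nat_lit 150040027540847971398) (ZL.cons (nat_lit 9044) (nat_lit 6) (nat_lit 149796441467732133376) (ZL.cons (nat_lit 9120) (nat_lit 6) (nat_lit 149674701618486991370) (ZL.cons (nat_lit 9196) (nat_lit 6) (nat_lit 148466272946320508022) (ZL.cons (nat_lit 9272) (nat_lit 6) (nat_lit 148166159048634704074) (ZL.cons (nat_lit 9348)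 (nat_lit 6) (nat_lit 147986195540082497164) (ZL.cons (nat_lit 9424) (nat_lit 3) (nat_lit 73963112585498110157) (ZL.cons (nat_lit 9500) (nat_lit 6) (nat_lit 146956714921604823492) (ZL.cons (nat_lit 9576) (nat_lit 6) (nat_lit 146601719640841382722) (ZL.cons (nat_lit 9652) (nat_lit 6) (nat_lit 146365228307719209886) (ZL.cons (nat_lit 9728) (nat_lit 6) (nat_lit 146247034279325868132) (ZL.cons (nat_lit 9804) (nat_lit 6) (nat_lit 145101756258461864478) (ZL.cons (nat_lit 9880) (nat_lit 6) (nat_lit 144810383542262054820) (ZL.cons (nat_lit 9956) (nat_lit 6) (nat_lit 144635661689298747140) (ZL.cons (nat_lit 10032) (nat_lit 3) (nat_lit 72288719014995841118) (ZL.cons (nat_lit 10108) (nat_lit 6) (nat_lit 143664958253880477918) (ZL.cons (nat_lit 10184) (nat_lit 6) (nat_lit 143320302641488787850) (ZL.cons (nat_lit 10260) (nat_lit 6) (nat_lit 143090699405447843348) (ZL.cons (nat_lit 10336) (nat_lit 6) (nat_lit 142975947921570812518)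 (ZL.cons (nat_lit 10412) (nat_lit 6) (nat_lit 141893683592961840102) (ZL.cons (nat_lit 10488) (nat_lit 6) (nat_lit 141610797460729015190) (ZL.cons (nat_lit 10564) (nat_lit 6) (nat_lit 141441164593774347538) (ZL.cons (nat_lit 10640) (nat_lit 3) (nat_lit 70692318384602190806) (ZL.cons (nat_lit 10716) (nat_lit 6) (nat_lit 140529279836347547252) (ZL.cons (nat_lit 10792) (nat_lit 6) (nat_lit 140194662736938139420) (ZL.cons (nat_lit 10868) (nat_lit 6) (nat_lit 139971746973791591358) (ZL.cons (nat_lit 10944) (nat_lit 6) (nat_lit 139860337766143988610) (ZL.cons (nat_lit 11020) (nat_lit 6) (nat_lit 139225899174188673508) (ZL.cons (nat_lit 11096) (nat_lit 6) (nat_lit 138841057834802000704) (ZL.cons (nat_lit 11172) (nat_lit 6) (nat_lit 138566411104478869722) (ZL.cons (nat_lit 11248) (nat_lit 6) (nat_lit 138401719000639386564) (ZL.cons (nat_lit 11324) (nat_lit 3) (nat_lit 69173418808780874871) (ZL.cons (nat_lit 11400) (nat_lit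 6) (nat_lit 137548799992755625720) (ZL.cons (nat_lit 11476) (nat_lit 6) (nat_lit 137223929022455229766) (ZL.cons (nat_lit 11552) (nat_lit 6) (nat_lit 137007505951439163688) (ZL.cons (nat_lit 11628) (nat_lit 6) (nat_lit 136899341672169646456) (ZL.cons (nat_lit 11704) (nat_lit 6) (nat_lit 136316760053461304044) (ZL.cons (nat_lit 11780) (nat_lit 6) (nat_lit 135943127685124728506) (ZL.cons (nat_lit 11856) (nat_lit 6) (nat_lit 135676480374131397456) (ZL.cons (nat_lit 11932) (nat_lit 6) (nat_lit 135516585127685297304) (ZL.cons (nat_lit 12008) (nat_lit 3) (nat_lit 67731651115746708447) (ZL.cons (nat_lit 12084) (nat_lit 6) (nat_lit 135143861477166254230) (ZL.cons (nat_lit 12160) (nat_lit 6) (nat_lit 134722887945687756764) (ZL.cons (nat_lit 12236) (nat_lit 6) (nat_lit 134407479236658246130) (ZL.cons (nat_lit 12312) (nat_lit 6) (nat_lit 134197359750234881006) (ZL.cons (nat_lit 12388) (nat_lit 6) (nat_lit 134092345886866417676)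 (ZL.cons (nat_lit 12464) (nat_lit 6) (nat_lit 133562143575245777382) (ZL.cons (nat_lit 12540) (nat_lit 6) (nat_lit 133199393703074344820) (ZL.cons (nat_lit 12616) (nat_lit 6) (nat_lit 132940512818614800112) (ZL.cons (nat_lit 12692) (nat_lit 6) (nat_lit 132785274715269071810) (ZL.cons (nat_lit 12768) (nat_lit 3) (nat_lit 66366771874046244445) (ZL.cons (nat_lit 12844) (nat_lit 6) (nat_lit 132459880331145006108) (ZL.cons (nat_lit 12920) (nat_lit 6) (nat_lit 132051168164661027984) (ZL.cons (nat_lit 12996) (nat_lit 6) (nat_lit 131744946117059561348) (ZL.cons (nat_lit 13072) (nat_lit 6) (nat_lit 131540946615677653462) (ZL.cons (nat_lit 13148) (nat_lit 6) (nat_lit 131438991408523805570) (ZL.cons (nat_lit 13224) (nat_lit 6) (nat_lit 131415135070744966534) (ZL.cons (nat_lit 13300) (nat_lit 6) (nat_lit 130961799317549779132) (ZL.cons (nat_lit 13376) (nat_lit 6) (nat_lit 130609614975635766934) (ZL.cons (nat_lit 13452) (nat_lit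 6) (nat_lit 130358274311111937120) (ZL.cons (nat_lit 13528) (nat_lit 6) (nat_lit 130207557705921909644) (ZL.cons (nat_lit 13604) (nat_lit 3) (nat_lit 65078666732972322336) (ZL.cons (nat_lit 13680) (nat_lit 6) (nat_lit 129930335286048947652) (ZL.cons (nat_lit 13756) (nat_lit 6) (nat_lit 129533527357423726176) (ZL.cons (nat_lit 13832) (nat_lit 6) (nat_lit 129236224398587350800) (ZL.cons (nat_lit 13908) (nat_lit 6) (nat_lit 129038166630255401396) (ZL.cons (nat_lit 13984) (nat_lit 6) (nat_lit 128939180992241956840) (ZL.cons (nat_lit 14060) (nat_lit 6) (nat_lit 128955874790907707582) (ZL.cons (nat_lit 14136) (nat_lit 6) (nat_lit 128515742991689079034) (ZL.cons (nat_lit 14212) (nat_lit 6) (nat_lit 128173816446141494380) (ZL.cons (nat_lit 14288) (nat_lit 6) (nat_lit 127929796383496999414) (ZL.cons (nat_lit 14364) (nat_lit 6) (nat_lit 127783469582341632930) (ZL.cons (nat_lit 14440) (nat_lit 3) (nat_lit 63867354092152726673)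 (ZL.cons (nat_lit 14516) (nat_lit 6) (nat_lit 128037566361790498612) (ZL.cons (nat_lit 14592) (nat_lit 6) (nat_lit 127555372552287008832) (ZL.cons (nat_lit 14668) (nat_lit 6) (nat_lit 127170122136146017106) (ZL.cons (nat_lit 14744) (nat_lit 6) (nat_lit 126881478486790312862) (ZL.cons (nat_lit 14820) (nat_lit 6) (nat_lit 126689189391322400816) (ZL.cons (nat_lit 14896) (nat_lit 6) (nat_lit 126593086830144299304) (ZL.cons (nat_lit 14972) (nat_lit 6) (nat_lit 127174607593273820266) (ZL.cons (nat_lit 15048) (nat_lit 6) (nat_lit 126651576880581144824) (ZL.cons (nat_lit 15124) (nat_lit 6) (nat_lit 126224264454155291866) (ZL.cons (nat_lit 15200) (nat_lit 6) (nat_lit 125892296934206180550) (ZL.cons (nat_lit 15276) (nat_lit 6) (nat_lit 125655384252027059226) (ZL.cons (nat_lit 15352) (nat_lit 6) (nat_lit 125513319396536412152) (ZL.cons (nat_lit 15428) (nat_lit 3) (nat_lit 62732989116697245112) (ZL.cons (nat_lit 15504) (nat_lit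 6) (nat_lit 125803566252198151792) (ZL.cons (nat_lit 15580) (nat_lit 6) (nat_lit 125335416922583113172) (ZL.cons (nat_lit 15656) (nat_lit 6) (nat_lit 124961387392349140624) (ZL.cons (nat_lit 15732) (nat_lit 6) (nat_lit 124681150839576612228) (ZL.cons (nat_lit 15808) (nat_lit 6) (nat_lit 124494462397374755876) (ZL.cons (nat_lit 15884) (nat_lit 6) (nat_lit 124401158939920288386) (ZL.cons (nat_lit 15960) (nat_lit 6) (nat_lit 125010599686977306732) (ZL.cons (nat_lit 16036) (nat_lit 6) (nat_lit 124502802878537816010) (ZL.cons (nat_lit 16112) (nat_lit 6) (nat_lit 124087936445114657800) (ZL.cons (nat_lit 16188) (nat_lit 6) (nat_lit 123765637882057268172) (ZL.cons (nat_lit 16264) (nat_lit 6) (nat_lit 123535625569262004748) (ZL.cons (nat_lit 16340) (nat_lit 6) (nat_lit 123397698525096327980) (ZL.cons (nat_lit 16416) (nat_lit 3) (nat_lit 61675868115391891209) (ZL.cons (nat_lit 16492) (nat_lit 6) (nat_lit 124271984301512105990)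 (ZL.cons (nat_lit 16568) (nat_lit 6) (nat_lit 123725694795184797698) (ZL.cons (nat_lit 16644) (nat_lit 6) (nat_lit 123271180882937187386) (ZL.cons (nat_lit 16720) (nat_lit 6) (nat_lit 122908045416690612096) (ZL.cons (nat_lit 16796) (nat_lit 6) (nat_lit 122635971093610487440) (ZL.cons (nat_lit 16872) (nat_lit 6) (nat_lit 122454720178851403600) (ZL.cons (nat_lit 16948) (nat_lit 6) (nat_lit 122364134297827648760) (ZL.cons (nat_lit 17024) (nat_lit 6) (nat_lit 123587074703718162502) (ZL.cons (nat_lit 17100) (nat_lit 6) (nat_lit 123003413646043458508) (ZL.cons (nat_lit 17176) (nat_lit 6) (nat_lit 122510407035908030626) (ZL.cons (nat_lit 17252) (nat_lit 6) (nat_lit 122107624090837003234) (ZL.cons (nat_lit 17328) (nat_lit 6) (nat_lit 121794712864567692916) (ZL.cons (nat_lit 17404) (nat_lit 6) (nat_lit 121571399939523747844) (ZL.cons (nat_lit 17480) (nat_lit 6) (nat_lit 121437490187906585932) (ZL.cons (nat_lit 17556) (nat_lit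 3) (nat_lit 60696433300597688327) (ZL.cons (nat_lit 17632) (nat_lit 6) (nat_lit 122335328311663092414) (ZL.cons (nat_lit 17708) (nat_lit 6) (nat_lit 121804950150180268830) (ZL.cons (nat_lit 17784) (nat_lit 6) (nat_lit 121363674507221423868) (ZL.cons (nat_lit 17860) (nat_lit 6) (nat_lit 121011115802127661448) (ZL.cons (nat_lit 17936) (nat_lit 6) (nat_lit 120746965973894530714) (ZL.cons (nat_lit 18012) (nat_lit 6) (nat_lit 120570994211992507570) (ZL.cons (nat_lit 18088) (nat_lit 6) (nat_lit 120483046754687891220) (ZL.cons (nat_lit 18164) (nat_lit 6) (nat_lit 121720855028159289394) (ZL.cons (nat_lit 18240) (nat_lit 6) (nat_lit 121154193807115887458) (ZL.cons (nat_lit 18316) (nat_lit 6) (nat_lit 120675546612809646794) (ZL.cons (nat_lit 18392) (nat_lit 6) (nat_lit 120284495209828066804) (ZL.cons (nat_lit 18468) (nat_lit 6) (nat_lit 119980697902770483968) (ZL.cons (nat_lit 18544) (nat_lit 6) (nat_lit 119763889237679275162)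 (ZL.cons (nat_lit 18620) (nat_lit 6) (nat_lit 119633879770089797580) (ZL.cons (nat_lit 18696) (nat_lit 3) (nat_lit 59795277949748195254) (ZL.cons (nat_lit 18772) (nat_lit 6) (nat_lit 121159456877128987866) (ZL.cons (nat_lit 18848) (nat_lit 6) (nat_lit 120557569384667548696) (ZL.cons (nat_lit 18924) (nat_lit 6) (nat_lit 120042639130800729680) (ZL.cons (nat_lit 19000) (nat_lit 6) (nat_lit 119614216176471753988) (ZL.cons (nat_lit 19076) (nat_lit 6) (nat_lit 119271926171526353582) (ZL.cons (nat_lit 19152) (nat_lit 6) (nat_lit 119015470027610692674) (ZL.cons (nat_lit 19228) (nat_lit 6) (nat_lit 118844623656832029430) (ZL.cons (nat_lit 19304) (nat_lit 6) (nat_lit 118759237775953761126) (ZL.cons (nat_lit 19380) (nat_lit 6) (nat_lit 120650643316498472036) (ZL.cons (nat_lit 19456) (nat_lit 6) (nat_lit 120014555560524375358) (ZL.cons (nat_lit 19532) (nat_lit 6) (nat_lit 119464399035239519108) (ZL.cons (nat_lit 19608) (nat_lit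 6) (nat_lit 118999693021349965064) (ZL.cons (nat_lit 19684) (nat_lit 6) (nat_lit 118620031465057168956) (ZL.cons (nat_lit 19760) (nat_lit 6) (nat_lit 118325082623253690478) (ZL.cons (nat_lit 19836) (nat_lit 6) (nat_lit 118114588773650575132) (ZL.cons (nat_lit 19912) (nat_lit 6) (nat_lit 117988365989583121166) (ZL.cons (nat_lit 19988) (nat_lit 3) (nat_lit 58973151989649129967) (ZL.cons (nat_lit 20064) (nat_lit 6) (nat_lit 119789037148163160494) (ZL.cons (nat_lit 20140) (nat_lit 6) (nat_lit 120193969751894375432) (ZL.cons (nat_lit 20216) (nat_lit 6) (nat_lit 119524677856587601560) (ZL.cons (nat_lit 20292) (nat_lit 6) (nat_lit 118940321067790087802) (ZL.cons (nat_lit 20368) (nat_lit 6) (nat_lit 118440388782482496524) (ZL.cons (nat_lit 20444) (nat_lit 6) (nat_lit 118024444166629122064) (ZL.cons (nat_lit 20520) (nat_lit 6) (nat_lit 117692123773478247884) (ZL.cons (nat_lit 20596) (nat_lit 6) (nat_lit 117443137225987314968)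 (ZL.cons (nat_lit 20672) (nat_lit 6) (nat_lit 117277266963095408900) (ZL.cons (nat_lit 20748) (nat_lit 6) (nat_lit 117194368049621362006) (ZL.cons (nat_lit 20824) (nat_lit 3) (nat_lit 58725669225113491530) (ZL.cons (nat_lit 20900) (nat_lit 6) (nat_lit 117476786658194616008) (ZL.cons (nat_lit 20976) (nat_lit 6) (nat_lit 117553153518395739002) (ZL.cons (nat_lit 21052) (nat_lit 6) (nat_lit 117680505759154799622) (ZL.cons (nat_lit 21128) (nat_lit 6) (nat_lit 117858954659128771804) (ZL.cons (nat_lit 21204) (nat_lit 6) (nat_lit 118088656144540933782) (ZL.cons (nat_lit 21280) (nat_lit 6) (nat_lit 118369810925427082586) (ZL.cons (nat_lit 21356) (nat_lit 6) (nat_lit 118702664671013235236) (ZL.cons (nat_lit 21432) (nat_lit 6) (nat_lit 119087508224378059252) (ZL.cons (nat_lit 21508) (nat_lit 6) (nat_lit 118469947296247868300) (ZL.cons (nat_lit 21584) (nat_lit 6) (nat_lit 117935814747427619514) (ZL.cons (nat_lit 21660) (nat_lit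 6) (nat_lit 117484643860156207820) (ZL.cons (nat_lit 21736) (nat_lit 6) (nat_lit 117116040407444755288) (ZL.cons (nat_lit 21812) (nat_lit 6) (nat_lit 116829682308606426670) (ZL.cons (nat_lit 21888) (nat_lit 6) (nat_lit 116625319347826703032) (ZL.cons (nat_lit 21964) (nat_lit 6) (nat_lit 116502772955528204036) (ZL.cons (nat_lit 22040) (nat_lit 3) (nat_lit 58230968026169509187) (ZL.cons (nat_lit 22116) (nat_lit 6) (nat_lit 116600694684562950272) (ZL.cons (nat_lit 22192) (nat_lit 6) (nat_lit 116652354546737245160) (ZL.cons (nat_lit 22268) (nat_lit 6) (nat_lit 116755719410771229948) (ZL.cons (nat_lit 22344) (nat_lit 6) (nat_lit 116910879595478138218) (ZL.cons (nat_lit 22420) (nat_lit 6) (nat_lit 117117970677718393482) (ZL.cons (nat_lit 22496) (nat_lit 6) (nat_lit 117377173610864827030) (ZL.cons (nat_lit 22572) (nat_lit 6) (nat_lit 117688714882917275552) (ZL.cons (nat_lit 22648) (nat_lit 6) (nat_lit 118052866714404716914)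 (ZL.cons (nat_lit 22724) (nat_lit 6) (nat_lit 117485530026251790934) (ZL.cons (nat_lit 22800) (nat_lit 6) (nat_lit 117000158875467721732) (ZL.cons (nat_lit 22876) (nat_lit 6) (nat_lit 116596329151338231966) (ZL.cons (nat_lit 22952) (nat_lit 6) (nat_lit 116273687992939324996) (ZL.cons (nat_lit 23028) (nat_lit 6) (nat_lit 116031953480812205656) (ZL.cons (nat_lit 23104) (nat_lit 6) (nat_lit 115870914390625889090) (ZL.cons (nat_lit 23180) (nat_lit 6) (nat_lit 115790430008612251326) (ZL.cons (nat_lit 23256) (nat_lit 3) (nat_lit 57900137579438091228) (ZL.cons (nat_lit 23332) (nat_lit 6) (nat_lit 115826486813082844396) (ZL.cons (nat_lit 23408) (nat_lit 6) (nat_lit 115905144679090001078) (ZL.cons (nat_lit 23484) (nat_lit 6) (nat_lit 116036317487071833516) (ZL.cons (nat_lit 23560) (nat_lit 6) (nat_lit 116220119854045024868) (ZL.cons (nat_lit 23636) (nat_lit 6) (nat_lit 116456712384019551702) (ZL.cons (nat_lit 23712) (nat_lit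 6) (nat_lit 116746301808332284968) (ZL.cons (nat_lit 23788) (nat_lit 6) (nat_lit 117089141166286022202) (ZL.cons (nat_lit 23864) (nat_lit 6) (nat_lit 116570565876169275806) (ZL.cons (nat_lit 23940) (nat_lit 6) (nat_lit 116132535888527128532) (ZL.cons (nat_lit 24016) (nat_lit 6) (nat_lit 115774668458710184328) (ZL.cons (nat_lit 24092) (nat_lit 6) (nat_lit 115496650887022486636) (ZL.cons (nat_lit 24168) (nat_lit 6) (nat_lit 115298240245488774368) (ZL.cons (nat_lit 24244) (nat_lit 6) (nat_lit 115179263165587319034) (ZL.cons (nat_lit 24320) (nat_lit 3) (nat_lit 57569807843381433466) (ZL.cons (nat_lit 24396) (nat_lit 6) (nat_lit 115074828685432256164) (ZL.cons (nat_lit 24472) (nat_lit 6) (nat_lit 115128038343471779898) (ZL.cons (nat_lit 24548) (nat_lit 6) (nat_lit 115234504153426784230) (ZL.cons (nat_lit 24624) (nat_lit 6) (nat_lit 115394319143674899750) (ZL.cons (nat_lit 24700) (nat_lit 6) (nat_lit 115607622958382362672)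 (ZL.cons (nat_lit 24776) (nat_lit 6) (nat_lit 115874601979523189224) (ZL.cons (nat_lit 24852) (nat_lit 6) (nat_lit 116195489489737211202) (ZL.cons (nat_lit 24928) (nat_lit 6) (nat_lit 115724255362762386734) (ZL.cons (nat_lit 25004) (nat_lit 6) (nat_lit 115332187669432785022) (ZL.cons (nat_lit 25080) (nat_lit 6) (nat_lit 115018943826327050096) (ZL.cons (nat_lit 25156) (nat_lit 6) (nat_lit 114784250125232759476) (ZL.cons (nat_lit 25232) (nat_lit 6) (nat_lit 114627901493983908440) (ZL.cons (nat_lit 25308) (nat_lit 6) (nat_lit 114549761317271638768) (ZL.cons (nat_lit 25384) (nat_lit 3) (nat_lit 57198361687565125900) (ZL.cons (nat_lit 25460) (nat_lit 6) (nat_lit 114423721378963113594) (ZL.cons (nat_lit 25536) (nat_lit 6) (nat_lit 114504738980950484978) (ZL.cons (nat_lit 25612) (nat_lit 6) (nat_lit 114639846973171772392) (ZL.cons (nat_lit 25688) (nat_lit 6) (nat_lit 114829163411154159482) (ZL.cons (nat_lit 25764) (nat_lit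 6) (nat_lit 115072853717027922122) (ZL.cons (nat_lit 25840) (nat_lit 6) (nat_lit 115371130824070037386) (ZL.cons (nat_lit 25916) (nat_lit 6) (nat_lit 114945858991407758480) (ZL.cons (nat_lit 25992) (nat_lit 6) (nat_lit 114598414884789366046) (ZL.cons (nat_lit 26068) (nat_lit 6) (nat_lit 114328494912277038192) (ZL.cons (nat_lit 26144) (nat_lit 6) (nat_lit 114135863221467608804) (ZL.cons (nat_lit 26220) (nat_lit 6) (nat_lit 114020351493407943430) (ZL.cons (nat_lit 26296) (nat_lit 3) (nat_lit 56990929397760062930) (ZL.cons (nat_lit 26372) (nat_lit 6) (nat_lit 113791578362973654792) (ZL.cons (nat_lit 26448) (nat_lit 6) (nat_lit 113846384310754364236) (ZL.cons (nat_lit 26524) (nat_lit 6) (nat_lit 113956044095008018702) (ZL.cons (nat_lit 26600) (nat_lit 6) (nat_lit 114120653534963577686) (ZL.cons (nat_lit 26676) (nat_lit 6) (nat_lit 114340356464112264494) (ZL.cons (nat_lit 26752) (nat_lit 6) (nat_lit 114615344855887315846)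 (ZL.cons (nat_lit 26828) (nat_lit 6) (nat_lit 114234696609936246218) (ZL.cons (nat_lit 26904) (nat_lit 6) (nat_lit 113930576373911260856) (ZL.cons (nat_lit 26980) (nat_lit 6) (nat_lit 113702718411683794234) (ZL.cons (nat_lit 27056) (nat_lit 6) (nat_lit 113550923624063550508) (ZL.cons (nat_lit 27132) (nat_lit 6) (nat_lit 113475059374828337236) (ZL.cons (nat_lit 27208) (nat_lit 3) (nat_lit 56615528468764133531) (ZL.cons (nat_lit 27284) (nat_lit 6) (nat_lit 113258864881476114712) (ZL.cons (nat_lit 27360) (nat_lit 6) (nat_lit 113342313011523107238) (ZL.cons (nat_lit 27436) (nat_lit 6) (nat_lit 113481474243511033274) (ZL.cons (nat_lit 27512) (nat_lit 6) (nat_lit 113676470174632891976) (ZL.cons (nat_lit 27588) (nat_lit 6) (nat_lit 113927471189682867496) (ZL.cons (nat_lit 27664) (nat_lit 6) (nat_lit 113590146814325204940) (ZL.cons (nat_lit 27740) (nat_lit 6) (nat_lit 113328088588585080810) (ZL.cons (nat_lit 27816) (nat_lit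 6) (nat_lit 113141067529546799850) (ZL.cons (nat_lit 27892) (nat_lit 6) (nat_lit 113028920220751008226) (ZL.cons (nat_lit 27968) (nat_lit 3) (nat_lit 56495774334701806262) (ZL.cons (nat_lit 28044) (nat_lit 6) (nat_lit 112741667326624134054) (ZL.cons (nat_lit 28120) (nat_lit 6) (nat_lit 112798117452838264786) (ZL.cons (nat_lit 28196) (nat_lit 6) (nat_lit 112911067030619528882) (ZL.cons (nat_lit 28272) (nat_lit 6) (nat_lit 113080614753773754636) (ZL.cons (nat_lit 28348) (nat_lit 6) (nat_lit 113306908770796902050) (ZL.cons (nat_lit 28424) (nat_lit 6) (nat_lit 113011646405724100726) (ZL.cons (nat_lit 28500) (nat_lit 6) (nat_lit 112790425083173162258) (ZL.cons (nat_lit 28576) (nat_lit 6) (nat_lit 112643051502959333400) (ZL.cons (nat_lit 28652) (nat_lit 6) (nat_lit 112569396892051359346) (ZL.cons (nat_lit 28728) (nat_lit 3) (nat_lit 56147169863002431139) (ZL.cons (nat_lit 28804) (nat_lit 6) (nat_lit 112322981908271145360)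 (ZL.cons (nat_lit 28880) (nat_lit 6) (nat_lit 112408933482219547662) (ZL.cons (nat_lit 28956) (nat_lit 6) (nat_lit 112552269551167111476) (ZL.cons (nat_lit 29032) (nat_lit 6) (nat_lit 112753115360222625942) (ZL.cons (nat_lit 29108) (nat_lit 6) (nat_lit 112498689898339010280) (ZL.cons (nat_lit 29184) (nat_lit 6) (nat_lit 112317116054612523914) (ZL.cons (nat_lit 29260) (nat_lit 6) (nat_lit 112208235172286512626) (ZL.cons (nat_lit 29336) (nat_lit 3) (nat_lit 56085976056362967137) (ZL.cons (nat_lit 29412) (nat_lit 6) (nat_lit 111916491210841059246) (ZL.cons (nat_lit 29488) (nat_lit 6) (nat_lit 111974634840841613898) (ZL.cons (nat_lit 29564) (nat_lit 6) (nat_lit 112090972905956315918) (ZL.cons (nat_lit 29640) (nat_lit 6) (nat_lit 112265607060805168444) (ZL.cons (nat_lit 29716) (nat_lit 6) (nat_lit 112050829077746004884) (ZL.cons (nat_lit 29792) (nat_lit 6) (nat_lit 111907747931907336088) (ZL.cons (nat_lit 29868) (nat_lit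 6) (nat_lit 111836238600928720502) (ZL.cons (nat_lit 29944) (nat_lit 3) (nat_lit 55789145087250854158) (ZL.cons (nat_lit 30020) (nat_lit 6) (nat_lit 111607791622235979886) (ZL.cons (nat_lit 30096) (nat_lit 6) (nat_lit 111696321743402834256) (ZL.cons (nat_lit 30172) (nat_lit 6) (nat_lit 111843957894418824988) (ZL.cons (nat_lit 30248) (nat_lit 6) (nat_lit 111667672609247478998) (ZL.cons (nat_lit 30324) (nat_lit 6) (nat_lit 111561963014756205904) (ZL.cons (nat_lit 30400) (nat_lit 3) (nat_lit 55763368371669084335) (ZL.cons (nat_lit 30476) (nat_lit 6) (nat_lit 111308083283784446526) (ZL.cons (nat_lit 30552) (nat_lit 6) (nat_lit 111367971222685017814) (ZL.cons (nat_lit 30628) (nat_lit 6) (nat_lit 111487799429753160896) (ZL.cons (nat_lit 30704) (nat_lit 6) (nat_lit 111348885695929210608) (ZL.cons (nat_lit 30780) (nat_lit 6) (nat_lit 111279459160998515866) (ZL.cons (nat_lit 30856) (nat_lit 3) (nat_lit 55537623972207290219)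 (ZL.cons (nat_lit 30932) (nat_lit 6) (nat_lit 111105634435580880156) (ZL.cons (nat_lit 31008) (nat_lit 6) (nat_lit 111196820460382740156) (ZL.cons (nat_lit 31084) (nat_lit 6) (nat_lit 111094189786119368220) (ZL.cons (nat_lit 31160) (nat_lit 3) (nat_lit 55529994761303355356) (ZL.cons (nat_lit 31236) (nat_lit 6) (nat_lit 110909082155771592420) (ZL.cons (nat_lit 31312) (nat_lit 6) (nat_lit 110970766732839180850) (ZL.cons (nat_lit 31388) (nat_lit 6) (nat_lit 110903362329993846148) (ZL.cons (nat_lit 31464) (nat_lit 3) (nat_lit 55389071319273320818) (ZL.cons (nat_lit 31540) (nat_lit 6) (nat_lit 110809440724447930348) (ZL.cons (nat_lit 31616) (nat_lit 3) (nat_lit 55388118292557626577) (ZL.cons (nat_lit 31692) (nat_lit 6) (nat_lit 110712701470735637072) (ZL.cons (nat_lit 31768) (nat_lit 1) (nat_lit 18446744073709551617) ZL.nil)))))))))))))))))))))))))))))))))))))))))))))))))))))))))))))))))))))))))))))))))))))))))))))))))))))))))))))))))))))))))))))))))))))))))))))))))))))))))))))))))))))))))))))))))))))))))))))))))))))))))))))))))))))))))))))))))))))))))))))))))))))))))))))))))))))))))))))))))))))))))))))))))))))))))))))))))))))))))))))))))))))))))))))))))))))))))))))))))))))))))))))))))))))))))))))))))))))))))))))))))))))))))))))))))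

noncomputable def vl : XL := ⟨(nat_lit 0), (nat_lit 76), (nat_lit 260173165), (nat_lit 152), (nat_lit 42822466), (nat_lit 152), (nat_lit 42822466), (nat_lit 1), (nat_lit 4), (nat_lit 2), (nat_lit 5), (nat_lit 2), (nat_lit 4), (nat_lit 0), (nat_lit 0), (nat_lit 0)⟩

noncomputable def cp0 : Nat := (nat_lit 7489016735589393988491332834483753413816984333681674291161843855021424499225448778419923321397250182229115891143046745155759784652131998062651948508247746143825568842950541894611033731721436493912553665776827087327731295875529283127823677138310999340574169716478975298669260651807985859729382041382217475632581447021593824832728753209805003746596005946883844032944786282562126401496664207410008630745583871152439490071719461201815184353407313073058993149098326435436077882357542580276715370592385161766656702175293183088911996825777071089323620665153747437081669193743808100298504183517198260350246963213168752226733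598825442022600079876008676777835423030044659169210495595659407343301147646823007387828864626425322588487780385044562161339959715230731253076619445343117877886588466859924384796060937750490690961305801185455175290413509926936434240504382400526783127320294799547483291352566777194871135069933592936517838117409200796973690097811915772559943942041734124997098284099290034760257927645868074041431389837628955486612380712235381499419097556024913973571951177660307335426951448627324528006106970660412283238936966696303491989697708626007684184692394844975681545447079391954974868213060499328633558931657229120805769676217137174109415045641972361448855930494367319070647972581419186859900117265987780266275201671317108177239753698453400220667936498205189029816128366612111459972534733119015601565394285697777151322014213686374995648164728460032525539143164005124772024874240116637606524236641166217972449757681301691712486768797008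881909970379674771499888908512885867816247274068995230242619477889104978694820789356068181271986337523971726090994128481786304785584541622250936932300532144926963380060234585912987599209489778586839012057840107000033053131608017874154063624118271662008338933643068527877737260551786705097567621279389935207624620802674827171368329613565662337760888305252469602852921909021994412149895602678187521367233239717965600183144705782417375684499447150588798728518630456079577654441078375336311370695523580353060620333270023970562815584840559970987864070639702677292429121674536595087397560343286748549681752780772780792506999541325510009459528431336877935837512277522489951227548833566489346413361153399908780491328178320324065318562468308682538230462869546664615105044780733622810423223870457047569313174687830015362642255346786001489481347478363468761354443722238733650879752881750177218582180301553460622656969670624427172844131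536919463278625861630173477438092474103799523217007591209731093707114370758295111602117831502409271088091779464440452555462237061691562216767109315154241401159894529995974968830191902208272654484803618051397580336177034885992308569378668378870926707255106137626644760157497124316005338471380950165736012774388998916726346525347362916908676003467317629283936459330983063059723201701426289711258000664081432319133361838083405865465466634314145741063392575196615917022360213942882966314627757924032440397675578240470494591618912603728290087441155491909917584018162775853780461718997992877009475946604266317393129348278469790286856192797153232444875330277862027940398179134014498095827549025941635233976794459893030225965902543522281504207753725368818756291703111358119505584522057699018177023407201478266323199372652457557508661711165447273396185262709894928124503250497175158822150110154475226347969836316084424800589154020509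805897860988596213706218678654267868061753069181377636621242523076461085919451760290969251448173278473940290095232415911172014296874500443739688292334966737594724834021145941320991752116510714827586544987470745726626346484623064724025232469165166243577813093474834795098649123258644112308728650730216450703349886008252301487362036112316131958222608393511605203997424744006760471051257326380315421434226538325864544402918912379853577310274445535226432079932080246586737073189914815665874142739610121839667468525068319968993001046033278737372700013055501465605861008871773504562988522715192312540931135436920828567354886778117320961126698383697070529208141993466934608893483548855486085085799674918881691680773606474286282396533384296073939086265790258224691787817859715025849781882102782370272758360729589571106950979113663062673466490021934051576322238241683245124866936280747496240208144007786369663346924803434948111275197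054580743974054206151827215099343225273743974097823679781711532463586770994201123112856387085634387729166604921510431273262409237149924052885174338391809896705782301230457022442310757020231221002902059897575027615732334139118992221164531618000421079647692391163348638328559726006026354999517599780528391340694245981434891095561917066743145432436669742606639911097748835327839899801964618793433968791748117932927659405875932768985973625757839777071865927401430902311747712131667850399586059359065821843424507365143124123500203095059340093866885628663305129239747706963209868538183499508271045403838963647612790964479508332248306113464648209009565628511474038739218866950594644598640610248381854223127721847383692262382344233891725753689513342693495327502116007441518137959194952833829163200181126358837536745464815936294640250488634633970145515121847287589600557907784027267744709587080430213594768483542426628762535961974306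821987654756605783764374269898250723166367765415825524952036265779544582093998966452464246323101368160632816388477250433142595595535208628414463582399361098583862840734919306381894173011774738077079248579462738522476318326954087964233582422918715696525812591012169154728291153417734120275124350483570101116611915104243312767573615863818068568619508476101334595620715235574632022206619087249808061930580581253001738978861020586377625917593191174749862243628593481274171561863830466614419626977224908794366250378067603965765804317054258991796770904615626312080214153670662765170130507582630382274686830960853549154802251269051883815227114388649088782819851231036208859776965346194759172661198579339825879402122774268895680685724987648953633795931040279385822983158730058384083190486994998357233004483610057473068237872922715118820666379333365384722601210887347881555390563321160970329945710537364564099604436920780889975529342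750573215847954647684734553945118049566018999596406009707048511754683352158436840097839507610921592949901417866880896735188468439322851765195866445781051077578892138558263632442785016209097837933799519289279134449101701318498389591833033459539660437939987557418124234701338203549005027830593352210225770004086872627305117559275557949552649404169424804917494042500617117237241019351805534251318022876223699691677343107299685892540672843625841518726235758020816823169234938640176438127664698599979433788330319363663658616749528800847581813370451224705162197973337854902377156243204650610386038967494951999471821862977937202836003639313196043001087708219136271731122396042545956961252038323147976770536640898427205141254047832973142249680237972606610616614728207237697320530753003004906059395238566492794983581090814922712297900625079272646362171694460260302256972688399562810029572928907352878180873788161392442733511635169111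470857288766367754071139754531327416385155829342853215843050880765935282008900330656796098608790031392437554497254651029547802133454695851562757021178499447739902139595172581604771480620725777110864751858036766169565040656096312356023767567976252222537134187586401684511876650263919496583146022417350769190875968968874456545658709923165156326735011228674257573678272345226516642110694879275990338624519185365512669376101635534513856337838571044467913526735268859503534240049590686498039570335976392632904867483497665077735888574058378532995138481941603125779295420073908934316363899305746941900360791797204383770961214043618159420421864569429326477937965554236756004619119523586532672883890676378880162854254985784609097563719371546940824121655012632302533140526259663536325824643916155214974900270815173678994870409010350794851638443156547011766360008865176094433405180027615255403512308926562456919901723355206899966202977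098163437678714207243575740483387075551362214007103127725186058845898831606253491638341557448821567253596082724542041794609020568760323572538119265617427425316550406605870992589352976490347534964985371567538291839033860614399247995624115590556335999481539538425620511167581761957227977537210754265095092551723858822345609840374126232368643956595164592658343894127283790695620606487524798312536592853754819335907414371768002113748890072188218190544695946635983018561620461753621856985091831359769117743556551780527191950493365539439064987449977051700146563012764378127381030833531802403332996285273942038959020591978742147550948136499428410437855236072987720145422327219006680842313371461451135777486792458898712669487470675697320215526612613154279944875304031376226481934021864878628098296003212625284344293977658024619810065478046685690380600618982546658505542530834383432048797189713708944248202693711361982126629517864083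52144518378099284403516145086798487667841026614914113253643193573446185970878548090669786154035590272014255401435762549567813230750102618100772228607134422375041046140891980143845807689578183738399247431841058287755814531920491774455730118660047308577835863376643051180551572573939591387265479659559895210559057556166438931317072159948696708565534159123835106670459731644968764983668606131859415888392233157193586911886586674859584508269204848799534257350214110645078513413313334918868995436633386424867129272730899885417844593245558693211337978130172672948162178034644634737686398855774405525411100342392120771035168152057702258659832295773211459584)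

noncomputable def cp1 : Nat := (nat_lit 933378382365332206175668468225361563017308237946164948043258310612704538093301412332531200547188781460741428975699535990331284691422130538456823937392098375590365326309905011527813751301280875878161031220532674185302276038144523106655830266004314715711907736347893829586092594598504131962334144003334587124287755568747680404892435532807750716795701728315131320425283212827446590457805292651220505096297614918073862662810988140198791158031255723598285295510522104905389743633967703943657316234514376384448349886006414201567903811387530858989394579227951600177000594676443166576765488599100090252204522145497185503166263406568571612717290518450713792424963527628124775331492341722902968895717231377358363307868343323211522701179723495876670892596593024087409836714411262213361537070158522029204322460057662708260612490842853126167331436988806782290992444587130531878553837076806254597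911831597321344517621733756406841587392683710981118727037032188291923687120957875603244018779448805940214060748664174993034571082258755879702588335533844251903406723358588594191614323995463140904578628660970922738424948457594703783429911560380985788036521626081916053571180513251504462837826218096157678508023892800848057304913621501621540849470842557779723477667755878446761450287875997757189480473218102297372550856117457416734020737291231440909705371513617055810561438255531754764899170218241885312348851119437207191155602514657197700418771057385553238809013152852208855352890485496634845792814212902594010231242621940445486576888827892285322618932668782892759720701674827281580765909006753838128029378544959107276826497043333280124196305662602069873487385341645052186624408098267830002812505131713283099534986300225520817638450417574754007199234489813159803047572503323651207817790202974536406603890014851112599069107875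115621225925750108393428981957871216086122295846846447058237350559771998062630687310181390379039543509712230849150408962473518858260906716155974152318454916146901875215163845783423304308828922954763495533315366021427644462165946937195895395772672749056334708933375973113712181389477060078933366268895926727184580928496586759755282473687316647793916277096259946661493488228559488334946474255841485280933558987137770463651308510232819370806466049792021458024034402594023928248913761572287853496258441713781489191676713637748085003886131238404923986252365051073746628005925704112756805296528510011845700236537319494209758294105328856973182446743225006458658500757929336046273658357532147255137142627250213263957509967450285074113290369438197777183113441134150854099585028958039737975591088203231774521010577233170601104096372600220562529439038419009850279181625506768444760481776458629565762519395610215220186555151247882953314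814435491822088190988680790733877397416938820257011010826363314534655301671347753281995794596358283499787772043656222303913323684004569284901596014474684427260650876658202509609464735686784080425537544181531367206335571244892342528392514574693347373114138122609308158548810654971153635906005048195539119560314408612499547044976614919501363805031187571792397685684825019030546379708046502251070485204327453678922431183811476591351120245329561816569101513301480029356131638853929569074188141177747181985763906384063434075066024717331170603058420266529893635535046172037382092208600690263860462312241921580888597895642517441407109848961816525690031052490385372530472701839902501707238650695675377919568646986607741600721968070247162672482950415557019010929347442228528428642652789026537794538349995749230010130556379436517697048019370778264006955215792626552166222347423240341759243718607591695505002940749486711768252468146950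767790336673654105174838188251819213432455806292804598459499971093484928954411750477737719984812747288836447302261520616667658035696289466762163943858936614532695172366595497838423830539128665436452880013616834656132064159371789314651696891608564020682846213660375228838791311059662068982127474544967103992541106922984622810896877349864432813997499980539768878922125547220102399666362337894975305278058601591242041954177945377819172092146883650359933213851853540828112554767969999475372018236399755977795287610876631110034870412330740007656764164508492843939318425840232039761074603508101817029165128621116293716766652143464063623092139847210554471813401184063306634118229996675184896925589212893733453976254621548735231931567968704807598885484009757913300275103778607064863870739281686277398555975651837390132218057431088068980478474177577786698488366876502878539413732367442309777384599252279191536361510479754119207283737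434527853560926301227437588314674258067833757992647636531717289511251046605457272846063116386413804715268955126512689050430524356418678723667773711865550660876190897050614570189358848931262446108376423701300493480297886037181096917349260738420330375568504590438507780836668198984380390811849466714169170328286913828048269283680103105306835526815252467039366791643538282837112685326487635826978049332407726589365272250489662693153261363349271401442758587632774482241236847305861955292129937508259707707733222610607426417294596245991217931092159135988197676149719587382347021990770251831549343727049782356037074232313940151116022987626708851472333518813736920580739946309409256710161252126495393384135295969637316051727360245662196658370478374033035633789311836012997956594997374671094944507911868054664652844801593522328964239939596838344018125340585848863781698755533212572371097669039214413466937470423390494350575557199750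026415767710315181920918063522775822552791100287909640969555555095822669768570979370640802348893540419118967006753553137228206752135418149149190954980195941729027816446113614765426381972931876056802675623629056221703094313556752815994416360333316188427570668267724776400785197872897346657740808194980425145909112938226698745353782143758566615643354508657869681791975018021433368233619120785431281254900640018007881031958406046233344908056909767782201229913939509215627386394415991966698341099323392855989398489080530593514569491145214635003028653643049839570508897328119207079418804868289823552115501812012000181997741670327097804399867574179593222543760868640600790281021739267439297972043211502258095059260110202571631019122190664849722692168164312350520198032406627129183722417524875009508722231581437604956628638578060157314927880205178559948996299750770936353760545237160109147148777093643386855163631836041475561753823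658384989123392483452312162187340316043997016670856381808475940601035184828818217381436839630908013945791910249825395004309664113968149719507014865089580421626987043650666153950555264193419042280456609308960530369081964203294527879762102563595287147300164310508177039388645132793062528495838674128073430461206201595344352649085014279680894231470507837991100911174067627429291175561940473041672673955986490762770364200490630092030691009087420940154475863690700962887773751540229829100144332271025036711556826485888285800435791160398662066703360525098615070534546396520953441291786999681288235476270228939940074891656227853226495193437078491210017558978868401162294346554012883115856517418260083141115402734304603814726306787202046901760603230420528950206916295602552952606325213761515274122060641186909619392720511215194881697886668566140447178401390921833528392036740416156324819544007454811891228685635282356801969081447900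556539533307909504959707257526592165395659877695544679489733691119450822749887415150193883144862440519019564874399672265024934586679070565011926260627911144115770871624429179923053834420617989018774743652388522563979607849906681980050779355178883896950081593350422046213228711377261897446978554854239052987160417166078646677682694844608177931104996854811369121845086445984137368699035242164366978192552249190816729935827019635626127678606822120837159534719505781570258439619758654344174426751899453790847498926055255655724442875895147587934842501039008180113757820401641281914583731823087342760485209320653192632608842066945015781820792425510457821856279517977776856470790875929061781035164591404169692895518600081406387814558724657488449417085156022862274979370598502548188508136287731150484988533658290175070941931060841663057601973755825133678191335046828843323923371495021250416745748557531980807581501743235345924289513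604961039385607768384684712747379149142633634709516285268748489540187208851784420418012702763642541045922136705126466994559006699275486206461133049023726844848894102672242875321521014988624920549614098729310585535725410225351683461735943118173347528725091516641284777593093137296051325027333640602987647443640687561255089110635293388080344685275680571132039485632738128238552221929542141762348473376018959675859949701807044096634424658940140214980435942052465189397186379215036542251184784476502625703020326564216912441993420275794680936855233744378999717751107059988254839066354937930465158965658607440010213138768189081034137953349787224359303075030737814422659162267542871086519056388962523892713368049572687249176748616820910351612951710908312412100025137401847054414682099953301111556509760712536953953900021214458842469719695132131706313145095302617622151286157398967965209399164779420915252997552048766450907827751077281260429949052087920002186318571385058601486667115770145601286213700227257422935777382437601171824628230343090754077367415578740871785323041526460719696955777731744348724006791022145492687252529066648676949021334515867020382863963609092788975976850354036132088644939652502409471539093013780980573310691200788312273054288577451959064759032204822842455219336144820943002494824064483328)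

noncomputable def rc0 : Nat := (nat_lit 733675509659871123167472556455412478430930501802458958447679395142968883772863868684607033750345996632418693540911897436953447852765352966210122774892531456083149635824481728285362258511770721819848073923156330095721379308032555168157906120041918415713017164731957975004180621805969754696729982948742051917938132488615553417358833005921907133930438437802329516924736355234779755725640804370022057712791643908447812795331546735646895851450254826716711346430035295137713887851864638102542717297904623572002023302748284348589520528762240401291974661408901472399507561589546722119215625431795581586942044072144259026164987807947120269914392192126528610034774951998395530546493880348893795219026809101991988475984344263644724902358177826067152862275305332222775455777486962821986383243434362667069829998265564711149519141335900889248303915709437535927100316742758952159682386136401659758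884909681065496338483894451203834592962018514043313248989525247077524044663772424588766217182175177070708739016416633328750664479497581195800963943486198025373315033065209762077882138117807601322851720605224552849169087751021370685593882152793291169192278514107181325936806760531473504179487888859854252333244535253615726469127606391134826145290068487437337746465138019861707583054799203667171230948337282619684104418354015111305642515539142238177973117754077725693262490655944362855109332513786843578371799119953707227867833964818561468913839156143935920624226218705080200018652650917340709011522970084770477525095925159443720927711486177602010524935693615840532409294514706009477414775950137506850058837541111350947759750407100008660905237101719633650185934411941360164526891137965036498212248855827516089633623462854984966037689923260825641636030285013833203352982623978674168147249913708216820315394515255386973966641220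500784528919172546527630153245110121953622071215014816825381458923543092016160250844794877077552936467356566815763001984011640026854871719461591585666576160564485693326658630853330350288530623469566375646580182728380457933907446264339476819662455113178708135631932179063023148330635043435785662572450632359350343982678685699508892512211273511685417171834323116974795147963831885601193284105724610493449154925815708723236392288094966309805720688405671157147251055863217266736846733690715786174472766663711876318221950929085493782909061197961359454924308782572981379012770894049840082841187126992519500750012488515629558399801714216727244944670467109571662774279134104913495858449902520999209124042871466362768869155508732305101676012317629264447789477861888070213944490673543761749557203710872164648526771686471544776500157022385997525509215172051749759822499079519666185042700975316250009370462320899436229490177182498182179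614217379646679254208452050598026869798076496281433134944832151524865125113365345292074127131905589050127027460543364896586529144314917345753556758197848375388567348258440051588241539521841850503776214664758474232439083656646375704709933922447668691481155315162952715067002362347013925249669519491182202235995881260327405464938103975888958466840724332793253560434818790524941447785509428405509836466316681665376242480859507362516124969855203035198529228259468002015627794388188433736614226821063663292316619216236009880644277905108719952057414200603158556497587677307249338660601972264267184482914887057394075630197122706685259938225817450964086290420419404342619315723197959708273804976774315116097520837178543275616384708328135236261773770753603459887899675176798509950062484776094207072372194578726949990321767935370045989386669922405333720872177699772854175682614071468643998318450247870643262061664556163956720078059807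313371109054637847229646561047955259087783156665646199727590199658862012603800018965738435729158419476311455353857517533582367452883142059519027391830338366044025144300337886399384466026989245150185978384103288547218635940434386275561640298953081598231060419902422816281948511282505027300616621033361030355164453514116097649502672728424472140873504233200209427814357521366000318356903003713779604831505606750470088813773462202307706037088098258957340632542550377046305096291542454241130336870723013685924170825562029428706832328990961155742733419773537538057580658287671970504136003440576919415482675202029832943306966884635663292603667470247959347237156911676930013776999814188692548464266485184484596325768867812826750077209874700331858596147770478935511814658648175264978482786313027231279856290204086268825239954131692609245012494910936220312700669158850591904914267468181687900902432695825013516207389025519524950246943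074008121784968096011192819367736030537509500995134817863976580292734958111780483627153922541460635111188224228380322913419578168116461435926291274710197401566273238726616003130959935871017725930327512765613021895104688700809781238042598983657364609379793524556411242313399306920046872279253291349863365517714841202926456213104711802889632438571316208454791767320786867432914736837414356406759778722696619032673614670033324599856441612690095446026035615366950543978330942384939207310621295741697007236341629630814254577639931154617252144879402154234470193150694612778358827461084030247877118150843394221316941261108136718323060067992261778778534061422357388765789310379903210022203063841738071489683730128155390303178165774559935044366712451412946709046172466707026787637353209208203948580619748520465278109461610142673816669166876472995298215322699081652339905203886020159592079424835469503302394052576735264406154251187557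461840164908519019514787022400295329911765612542330528889932655824903290423092094836187676331167908836478143590452573550675088837815888301362698237149534157366817514271148035915515053708415040217934388647769481505092383469214857357496011737908223376348287918594829499101299420919372923127065711324014289084734257011074768117186352717514123883031797835358160588058694633582641706485321158645848520599896158032540826939129874372064404251551358155836455708685160906435926796741420111017249018059451554736498552248758711398521647915332620589169431001129468183176809241085005509473890610113253060589676258304349716058340292894637041811911010589158412863960116442451406402855753630391418254709984640821698725604939306840756629873064647232366589442258726433903944959659097893577642843689764068667806966334308598846699814245169507525635583209154946204297052744636972378293197598756132981346637619673112371011493705531935296621856424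780396244157004566937687981445289173089330917111782481834576267876147782330410620524719626864453306056235990566271436602039142775879835011158551543811191537065045500945980241862212069544127563384580246822771524695127000183675969448873207975787840448293050658097340216063174655017492551048039205037065893849191904807936512725039041063572474249421536227242479980848919412853312225799146730992585280538752471950752677064388717655392044236344504517003120318447851135328524305066788003508342426809841230347261281678189121492196162340442312250278434054398054017686218631114922480661228732258084275873837637042631349064295705940475099599664217712950480442044650363052104594467710358093952703153679672970599418209002326796505486656756831113139332738733519173972245889761647792445339574095355726263351903651777985723580592810724109301244179136269786475757659403181086335255710123022750351750829427565426505030239647261031526889011024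576369078819634849186165733819741519136896649175854738343626300823907841343267425044714468283853624918452491303423927724139197577718871110827645443236682999615628317948387890393083900790803194334199078158950103797132262719400973851635157736536232346920461439278922771135988682900391548883371772663447959403953910935780320498993612913559904855580799542947785676569946688084103352924875955470642334957629660842879323009365924806682382854881355728277688386048278591138975571251716270201792860211545384116394590198556484529061845331512687048237466393267361847034347952788200760484923929071686087725061766015730197226372917838190636127522619332434752906231976155861301053505341416926593230527762937275423780671845261285250943323679977426882948277626942351032110100398050661860785656493667505351502673502832057199620788393034018860087613916198174327189040005248417392682716418655929725686255836492093448384665268728324860583395572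908719647300921811572256131443646416236403669162314192349292901517295566781650678490261858078620477354584811557825183037475482282038168533649338562776864458703185007123167992814136970713155783363070305679191982396302283975328310206956094862341261585499166072791730382652526314978374619945159180272660895878419178106335504713747634253426762065203457359810077790806562290300325941064122600971728535426079177778000301719719079979244362791909669727714270276948962517662518858055600147231683490311469458300859735050405526063881545126315712810375646110482072308043104184318710370856776082181794643480490043282073065201548659920986840867229961668529443677677801872249442791340963042560782139277914455642214541200596590268753272867306719945672470918339489784288663406006652989562683044514706912330775578306262782459611211378364204409445062718233159329227784234922507096311935938836820757448692269432914360480357468659531782527725710547356554999270333219858521007512468283292316279071620760673949963427609469471345903316374858898432267992551665035631040750196546626779071323803817653183468980611960105183104933496135403861484679884621650386029854211423542868369462203659085095678947530228908523380060656042611915605561219595456002337948969784681642106968179590929417747809717009687864786657680528370738659957481144320)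

noncomputable def rc1 : Nat := (nat_lit 741969493503814840401532008555491998964575700617056638554955044391714063273742083509731459537636798914385713925271042147185422948192776718525741894347837392311150895209734820783531248054910892015400419260459892788654124116144404766590624215037178668302332996499220548498901226616147451798604159419276618972811250556932386925461525231611588871395073551284655284180183305785380018571964226301555213898366301950853850049373819267429092685140324619911361385351705101854048194555515966506970911235934423020881181512635535421844140953339225721600289327910336451423746691564788537454879823166470736577251704106728579489816371787414371640531241233888475346503180482663694445600797663462549073257204521540653629203425727489577674005191320800606644405116587230947126512522326773824059864344361231064815854581463632801751776264763172388569143555746920315234896318443056283786696025587082139085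729174463053921308593802448356953667633117389381828118888352258803665612035812748345770491192191916542699529074644995929813394117227128564511460861182474510882178108132760536410798195557043039296158341105092996344032210174113975385410370483787213231426594542302442403245146139246646630411528683782348006672402909749986344402932118885220249263081776710224723723692949694488012364155791008382186595555576914563157242646898090669134351710258965634395587658629943647169288016246797152392030922474938095875720760007649628642456948501102574964689245050006309415192332935729056890019389840694192652674360571713590054579266956190034467680246144601960597918228216991706439552740264844922074196636702349955610290516885700736562026866845567985656597690856418503602298898888563675282300171961294165102526226038603923567580170168561134722515593103414920344583863445805901638853911410921681265861652510882570961637539131127798613458388969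284820086700733236120803960072748204935692403471974000888120731451433733153154416681484254147452744175786828717377302597565191742513243782571129217880825577283020838391145219015106125250047432767086571336234283888964834975688654616880634042818171481274943341215889988428378016326216552402658883843647582666116153320363220764814230243933147073842883825023317684588805043968891607399877911995217604206086255091248109540093162309582791392672883024454850657919782480363025793526524624842031696213252652513608288584358859816392342670023500585427186330659620990230536673897402175212722394507575910380436837383812944379264298826403380755253756298802285290915424501954759813529810478828967228086095025466816239580403779534118123405769168113555352977861096553024709781958967291248305542214682206016183719708154537009647337800000426198171899150159247516957782786513890997381634366539532858723952699298152358872503717384294688863727714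536888504188835309341593847960563883829625956919415302085980184565110665213036477333730959566531540361727425822182313478521890318602344255121662880455126117356753600821282516011710262792553831996063842580184680925132116226458149638898170765340414840190358322870795560208167490566074006072386301450505424370017013731576868406007410571895943333098060434110465018387064948250845967769413911097478766017354357338367130202694931418455745331528150856481126560924990612406440784944286979984303884269055078814291445755632276442158686160159576274508553956609625211866085964802241507024442344657597284793203691243112718598454623543286330174554156528162311406561989446592126784651045698332610684820738399746035334167296948288918527680397007414293752177567742602746300701921151643827800241015702293425856610800692202956606072843811328454788731385662560587383073173846084949969912534844290834547568049009739785941523606918995145122252547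227286073538358082813334368725507536169320042467520226055641121557006515731720589072485722790170028160847018966107843368940706383043228419432716326837826575021960697966024716770844152931763535437430792107432063242843035884199279584015817133310531166419701284709752925037765428756747253045077966047640555355515357435541010753834837906241729774630037634099125314283217767654204734891707602427847450406376558009686608003551414845508607249496259980343630560934809019305217356126446564713392169519922517478100388933509922134280110818996767534808955850996937918882878643778279947459198898438466473804719487543316513586141195812089728488457800568425783824229039972389213639980799128844333075628224103784270021265243205401666475492246816325869493490161903257998776785388995890363854587031517619835394898173836465588325829076877833050766891522463905972672800932625360098763215836385331521931535186323822333674090918293757517701238490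695662130111441179574664840633147467083286084889609560219413783867500681263401261659518569844942918783919689177518395853455315604323011398113895327708560529747924514066222687126843820723591361980285909007495409880424382895122171047053184561179089143935847178149629686541767703822010257964058175411066894846971871511484549986416329652031197364585943133774979238722624454451259521625815344629375564905732345663083314245240884274926950990487263813794768417966038957270508587574743137177870461063159424884355515112274017206643335384144380042705764701305020235649689431731606825832849489258788011035869950730480003501401209672325034583237397079152997337609809437465003364130888065243166002297214261398797905419697316605542323043458122134488821252482097319662071078036339208470938279033614464569665202604055447935722568433829178274933668748308619379723284522069205512741355137594979484120533387123774724618229661485062842987945680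400354060740580672167735577890658581500061523351852247508015121846722524982330227773020228894652899934317790353107268410135697505554035380799349841011078663487750818139521516925104557251526087410427602939030992048509993770608808082081965112606332302991366329840339496190614357407383375061297397871761545101653448965408658331529617734266985802380705515509082590081470890205404766719315846339318820649140516708388992123321091687611205042734441885890636109703593722388051117990851441666366306531578855753014563555515647179067838942338420559720622384261104288849680344289702490151252920893242839313431770139791737191206565632135199307273262146331284463848906997709690387373565384797572117086905253986284423515028693515911252174041497143745878166842911525403333162856953299598974740895976882138687264358186336427696943957573722787128561024580610340557703820064640085399060439821855110113771716101431381048442657809189898488285547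394418917057939249542687926998287826237007644302871552342563461209830580435849144765938466695920545318469995598750135817021582452516991138964517734617916222446907583310220041615554677322471915054138829073861880919883995704226723482712931779470985715008546187722724843412420069942297766939325133891463055572806448278564710957617860393919903828163352822663902366837208684854247446035811934553798874548541258157507223761177500466794632196644974569173281603407885620164785248835867949844410579752176651176295817514314647769074962086805603911856763344838745760971829688790280616698615595604645035391385546188487420397810093034213491426777099989320171375876962870168600545996380255279307006468495671600609571858615356369188559670144314635821034516240571290686756541359893175186862799738043825253849451764656434099140291862378603262308019901719060138820678426735025327830465310637052419175631384781148751944687241225446230514923245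212459438750186455164350249464875050673048553338904561370073136039690484306109714031304044994905776452874087273561234930694225550174194752975419410773757114597127663578991932878356498698293624869060748636108774857727381814286240922123772812601455178402000775689976655934138081519079210652578098205251895472473568472885152343590220958863819627562555624353420256294569072311922730043115817924949537896632820293159278579868606262284832033822875618442931293562166943757883831667345370452855704087079313554965151610467524091179532168159092234683807808680821550633926863564604820970868504657215508738428650855463431221224940728825266603025242035896539222512270674730963121820177723438587961127962415237848058897580625280592335594958768028243004881905886333487062961327545720213151069631334205453909071917657221441260724303926334986007338348854893076566538039609251679434645596875718979794859462392635957727066567295588675196117600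560233258882348655937718757818457637302359736677896624497274382870436618470194322885642229808649493161954349668197519120556396527726653112399805696507147742200018990328875828294535116121524701526151800854866115062331387999355715654949769086516340912015875638217355627580654476281723853512375616220858670802452381323635714808584629815547477030907810771116300784594512938301938914615851955434343117219226813715830227925277109559206752764926847451836535824052301730247191130480574710955104503733261279895599507758017925050313136545165477357474578457118132063323823044180844629523881039624945899219382621793201059522903135279745307750165223058456434382127243659842661735621024557541580284746021613684228429867843665125146410335360973474417207539686446652668436289369571775912787439063005113507633568650196580254999424509831375709637800870995283795184070979723376126248570969503476931686930769291544346976272456441112499477766456298933445896645075040892220959220960125409590434944206854353633543359772160832164664229147750353342025272667084615698823718384074535013272393295214456899544753975193381454589440714842937058879432503359223910395067343595911629737222695333842129096479804789792027706123183037969393835597313605221017586678228856755002427116233509216963651404445210748007178843235245287112028827517190144)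

noncomputable def rc2 : Nat := (nat_lit 750560090734498586915248983187200374647600509016712800843962240406564838012216192233277884619195539398928718394289685231223789122933841163686121178716840821759919400292570753818423412805515433703883262122701354477715799151851112006836877531382634321727225718920673627420415193005712087753063001716655716142309159241531152126587363433471056057969370704337759653983784928835890422052508514270611419746414809366356192869113749050059938019811528165330413673409774865969742417025608158950948066148448509393190285012144127267183064409126136715734254225295577775451404482774213014068548843598506774527160516229986623394860999298958772358852892525097311745311160807296946798819367013762183291120282781096534616050959104113259197571693518073807587149666330188556303248235790489523083658557301494823049352735572292711835669808246891162302187558333466859077336729448323691183366004965984879232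271107405655235731951431602944126070224430588993753371007606380672982150285945410964833468216927115081544131689226072531672929196263615614661422928971054819315861146418444872918702668602944838068806042735391792437863839700684815078577643106919533547423354176954762518261810577781986881844323984507445917442452127836238386337815467622732330778729543851115285510424217683418679497625814295742523980705105256640311626841613855413733151223886410103659504944400001350275242759174043652167883803732733984526563571057664603188831545945860333032638160178163416967176851425267204876451299279437042261317603005341949832387054596834222505621576482866266830679040737468501968603794828896434567176769761455455516212993674697809020678632554698298257786153732271613281277758878854327577867518203278129501145181594353814526519920752481685377304087754321125872873457500452935352732891456983569288224025218334040226293820117175106334227414971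757541031443490046663065638210325045128528383471149222200885042064589231202431422812233185090906019589925418477103068296228916621202364839052616553592865561768868332807507957658230723830611318670924185367476562359880959896968649271542175695785198051344824182418458423474546064092292029296417118994954709353210855378270733090443645661113121570794743829597469156368722956035201145442134258224402220899209722806496417457024024570261969277046133716426463674421866198509118554189548460254911854092876779149685024397771553418708196863720850510989789370301658333634926650161580267836464846066905610421287246378261227199284166965407428854170248190156325096117270182493459835499287668814314036224456228594647349945739196840415032693463190935180089675578224641319610641192268822075240097373641236926913866998134876678387507380205661075899993728701981918887842646367833551460077174558248797504868948249677511350851565012260058758301946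641143724761433478528670843473272849458334771428062003799404837290336013214882579769922925939516301712358784062769129727650774746331374978208009414908252298326336762503905220955908356219136866594201473000924097938815006412792173364206505971168917847342776690368262535484787754590103643924629123702608490607666501368150308709243444481378371492627555950013716046953819915226156783314457125781014846140846030577261488805100494691449022386539800968426695129481247006661426806023158411296192174536124387157932082995595794812267668054170994871213786741083006025723177126595016185816665540039409543736694315524677987981497979974788632185570595464295508453682899360832882508099556021409146670327033818176519907560173445270401557790932541912466367090039360168774314922344432373538720739451320991698319499878321898623004327298725680907526749086820788628327131760992324674962931829148905689797493947170259570964598939264172785077841729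373393726292066414180770192061734665805499559637411239507340878379433948422793514554588432503263482015151777160159600030162102353826465474694658220935107210779175617778567553175157796967153421809440151267046947250084157077954755283165280188366973802491533952107144413467177225776939517665251166128269109423319638886239527270860598727975943782588907522856927940765658979283599139725693048363239895608399682623182607694004432299166183932730682914367785073970547310231996293613411339869841606779386264378082321783929713445091099108228922210066458910911398906754766435505962246088998578715692507177138557655564932309459848718292108250115236011790406833057286100275111276285896813441088576450355896132750974426402093927989112331610432195393979991826468292877904166864331310149248660031976388571499113335665808533811397201672827400055168683537577082783435003126112485122420007890877957061417510606850278285710774513975524489674259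832518391536732400197282636047543886500628314140726538196110279480804571780954681463660099390263695611945208706907346595452434708522582027916334718389948010127391485159962177616579412345245204789182077297674048752354883827049546040677792139070498967066627459931099733182003864561917958313974282826822939039638645527450589942326639369857604799826223627133387008050873236611912718260313466749502216041993185483915337261623954031226929419113169842688456087127738511747442136592678626415029731805166913738638812849078956728099071833046976085320325437631748525922211963078812149333149185352690751588420541682758883162829048929792972037990428528967729068116599342575192949640617142316815578930302354426989104564794897551992219344602075306229753091279318852443912674604601411511352585017253672579974814545814175209205364855701524703714226089460596464104770694200241809477022908616041515319229450795270792769080370948501905231048647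672773442339519434495017081834690413917822338832402847901431809495289629855589460014132148700493717031767071457989342680418944747765757615546578777317533801066009934221108994713500619911805914552691193160240057819198750618608958977205517094011109172592075578044064238074111751567293130032965125081436183873789620585759621424027652604404166494054179805136487458510771871095519511750846292646009505770498750686338567763859942535185380192758739119170801735364690489977493191724941569342003755138385876126394491307173595839400256705900640282989227955991442483877870364127020837644014796963963674582388256131065825357490082386135158478861797001218035989398570425161454170151190163623114166483433987946175601735534627250250398107707584130024928928297407071080693369708616241588438071119941218302251373781068578396924043874363563685837846176440385423492911502806272644572174424755686187167184600433362300313454516391184651104871492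237262328352849650002412337906204590508201433119050298152446720839489713805895051376223480562530017453080697128172059568132823505080376293434095837008570451088241805369632208654507066270217423258633970435145827813660648399566966314514040331036821568991491211784854324762205146921004876456493763821555996750529987941443211013164500649381845886987213965692508991649554090152705834524778638911342231736275538696322158955580088140588426600816054755188568871972382496413164678902133391458119099037832435444148587898614357294462100596683510651622322278051764533957008228116854456335246494158224170327172973496711136015092898243963624812146185672065729583678236316137270722437538217264205235643968772386138196420888980041490107599659076036208335907803951155410436850434369451789438040470408611822090182149867106200523798883994285458568440447359979841246005271694765336260845313801401859257431543956664289804901946640299918144831899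974528845969331234840064749522567042631771905082071741969611207131299294190612522609757449166574122978581695626097584957849254472397486618850824888695084390630432297432881356869987543509463148199993345789844884205914504695489733047099785236118849035839331927658488535834898169201720140377696709299223843919914258046618521420207034597656320975101242704626993395647944324539554122374910873341197530015560182237200141922642019967770062091645124444999229655586928966349032782058665344024781955852697135047313702868918959654848298185994081485778563336438734258167639735427623555484067080195597710448682082892419349328907655932970539342677655468578708404837680739806394715801118526083986209981688422414117473878360609178440395636422957035893934911316628251137290881242245867619434346167355793848937364317804527862071718922971168078604533276122589806480593295633357507533962946534800609573446137987226099783019205638905775296398758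197742448874335690750541310763011661244984400292965355445134025829039980889906357741984789414306409302670912512942672380451061727456055610185913636211973548255696166393021910378018368289395091931662812900407019900849453292296948178036090301711573349378473944380448638409083470114331288235715216080138731398374095394645104593640361175113388867407656437209769394931292096707903184606487742084836293320170149691104325170431825715384753671527440499912590383911176990600529477093777334288513568256429615183530498333532124349965425019609910248508996829560110135743550479215704572337422625492249833783576966467933218768355530102254279511477863056762018218036306333889141027508122168579864341987121377766105436803109473990703918357075805411593399582211083258951539667645033149753491487434938625932332752977165179766044575916218378905122578300005201885437539319632994630552884542005211073611401969706995144747533070634697889049234812422535092578227915126919905957754843085365233945009900797692204252312406844930311130479983934511003060286591948170445379017303073766191468356137823756665349033456327607539026928523592668858994156341626400067166640526770121372329491871087000558090614870892593430666068688879495877053797159434575401613543462141224399339952715088629696469484607723822148001289704046120281505130071719936)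

noncomputable def rc3 : Nat := (nat_lit 759362020273435167336876551609644147849172279139744232818826712850452152394790169649694113563071072529255525248043874831153124203984690471403959085683314912501204649243591570344270178837460788684511277790293604451916194700655794047655187019335833885237317076093017363454707333391376744624816756183464070923980784372510435994499080867184338237108315022538979385233654091511093586790250240704852074683432155339643822576978629411056619709829260587565896662626533705563114014001297442967342739758134452780448547897703017035160788812443461102240996401237735807486180262844017173054764928276108222116328389270242646984628486214797943131661785810208083568125000335536935063117183803470601117167164086935309861408611556222250777111135856546388056946265956970212210507569838214257541491181553941551265839475854592208624346076024490921793098645602339228537866929048396485440119329266867736930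106732511336525846677734072691832274394801595941385253720732574226053359936306640903688623043311766869803984383360361287460010984303900007228662581645613348553492848964235256472666846217831674763026204721030780282256517990807481166639308739422062956584110741931831965901055703443904291012458399311137475298235967764688348822821555198852764334669501968331927224815864485359490005996370167379370803659754550174859744473601837699331088441938583134312159837386474023847109093460771535441483702981648360594126817651473158523795646002716345465053627436840267095712476994273504157866274743879116259828980287928334000963706745934030907869485269348491284861843045740487849841550897097994631781075619795882378717821590104572585210465568421823803514584297986687101143236305548122394180557271976165961511974983142667210079671779020957032349769716457393160766203014172397878761852739322225507003056022655559171751259616633733749325664861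159773321177768908313320430812788911892755543553366024750885359712404465140743425525039767509824499766841711437566813069881224498990256523006551710832059882913205036150050905516205466975692828544913452073757690202326639621511600035739659333544091025574871118397639545794808376434235612095128195051456924074409005302035484378126771809610961816682877988012193210665685166587504779558437629013832453655202138196622602846624552404823732021364410783167474242612075820377529981797493260169824806534413709025914621640469444318655488878607217206706107445598187433758259412954447605422695740488889436048519576805689671297348149629427869988212483441347698005752792068007694290748215969585599912898508668425401175129394503918807052460501525220797164675828748942665599621612711097715122142081019154558878477008856932256729744319960450753278245361427581705700659935806448809122178318351490506218708813514837197443610317411695263058749359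656122305033658325369706742472472779171799565270389346491764369731146884671862632870925280742088196804944348274260533752135196749128998877200365755027548061524379120430849224797744894724849738637816638120818081989706728656741445700036719561473813797396545061578987866055947351983722430097553374598010995028906007707179187900114571076568618909545004520671334966413886937643404626570897858765084511264582615883236083954417629433500575565624241754116797698819736820367724719280549687994595982104111068350446124738804261891601481015286585562525154619017408516300196911601482394852990474225112331327311321782437187355258188920456077067890412377943812379767732125713818783300391229254606920823413428583745967056454212839699583704246403573998423280975680847700662998199098668819127317546381572655523219755155260321616087604665720839246847818550634219774075974293322061179992966461654250198023119837282832336248010977346160516374402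334102528875818477857682275214758673370848223771077281261197014175150044103080285953449027565555065132214234303136957956349872360221804044926148553415441075321131000537955291810680088109948204764500174741172948006093011276835369017683254222217673420689248356498121534846935830927861788121610057878352108739968530498486586936613697538751443673125856204029922226657803341689657411147562259762771654184534567840049378564615049239035944998282387445172558326635031250190465734063310136832460296186755465758455504734937504102561414524994177303223355733889103853691198733384299653561279372405999960416101225428299900400479173480181954425736282986109435658246954564060174163054119901315183514526446160971132051623992396549654368426103027449278389327878769716399473851280823665986292159759640633195271150949032606118795091249571412048750966230447314882883624501607273296308990422098861221392551181852928560737034504067084764910466156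745247536145036029520225728603180071078128796564272411733560678349741637423136533585255136291714222550423153334335227071867615162758701767257055333070433869447484292134277826400561638527067411299553386862569448961307512779930264734525913820179941545247544415141818012390600215886927948831030966308043287704121709560310261695586710932654912272067417718611617387905693519399788080886859701278753200474325832130714383395833889346683458602505357459025808022790567797974626645678600515300564602901168464520125107731586653513820731064456297766354614325215904371013493813026447214223306845847990981407338040516523455565496422615182726857623852269424766965570870859331094261233940736466503259509427643713612004630424363895107313027563303208439001409898927474543431439566105240102252898455261207425208698457848371934409603596674754145205709216262889849291772529592562333773029105756624471370863146287422629085677353658849029264853605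988593850526198356558933770757437271905840303476539789091847242205239658873388796267869223065336908050944813043893210634309082471410172138302744143942455151368029307352196490665088214937071978844896743104548550343683630082310822524602896509932996451037315783022595809774073377003756684418097262099817293876107262010461413046569796454943005587539769253566843341000347700695683038787865826470435917623411810256661782642062617898441779460037373937580819468921968183957329376362543754889765040463752058795592968841649363587857466289364815931611539002288183040666599977147169418811577469527365434245822135243112993719680913095674512300594202629337124424411704105650447835974576823394021136338293354689520661216592125125835989718288434185904182184004363674254093505240488033447739181555947309998678646986212623821452043053323492827198568787702120182855270721667720176936860902467359171724430696942264162843814148571450055764578577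341800133932289172948642096795386900444215368287869864856405715576353979165813670238120825127714796798000173620245580815292198823140735921842917401501471803485435533622399427842481354709243356915276217066728166590932822863957917284086117548854841599081662362500427324845814960757929439907210616931426862642138585588912856614044485445318003934504994420228771080775905880478969539357898695044119232483168655247495340748036680288715628491945420415043092560110844166393635855794149773729434622010535561367265472081125098974979218574009286592949949194034952113851809806308653967286172744558150977780872523207894932090954045674782870533478844014522692625972696925838528560451167233704102193260020375008313757248152865637582650035277860316252247186171481473561999198145100108718181950244172494284719897958212108769968051325748070598032181995263003447295524809274652878989092472147368605103688306928090514571704750746867199419077718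185571232322958288530572246095161169792781692613653432371076522843623616348436931143419675051363549710187935683442146989438639528422622165620695387309140548935807253256800406946984026445454038280970021159970356261193224035978392095466616023569335410593064565256285353963089521585774299606180681857549210266175013079761040633119449210398746909043644938058844124648758590444816794746603662672614795385304839766554183476141122720819384577287527878613997320505644784569697336040399020431438547268673552855063955916574401940353350212048768857423486458892375360652094222268010192259795043617047741885972963119123637785760723532557451841752503533369631523092889881267373900390572354964488766060727129460117004566994901640100860879748611475396647249592813644529968619345717229101022618061265668140480218752184326364524633008079810946055894705581925174524208794742357516491370442650445912182548151402539070422013268703320071365278783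835630351013107840475815741415206568814254393994270148521318034926563762651476127518590281792934470027913146740486837117559617101205544688631521691910734622433968933483580249052620522777402248350798142227761108337105346097707412705054931606290816440718540255096642897037633049776220529710949698481096198896649003928514344715702029756794264451933776658176355480688140755088468800410743604618895631508751341287637838072123649895635150588791977351981099851127159726290826391337864012524454471857406207996837814698404188717174561489749853515224954509240432275844805618095905670452583774439338498710531827701439857084352106958846942167469270150032039760368870406048400239408458180145896503869035589930651702694161734732382089001650460259422986128708175006090337087473384927826203905375550617223304868120182744303870197445593792203831805294219785242164559719673238281893121750553562795677048636291168908408619218036394815751344007444403880765949760569946056625553044534188716543157170222250620895818040467523872140771917550510755260524767746435098476169184431168107467280873341295896162765375956418452512370734568586573267985210647435273111893425749534482619269890345527163952280627445551785270352744361268937096676465718435817212868702907757583359844967845429621264684177363282434022452414282431134927155470794752)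

noncomputable def rc4 : Nat := (nat_lit 768338996727886740167581346196155301628962860279032587098567720121493428214758348394299674759740187979150023660323918046540284800281766446639226919159552577212089307881623400744882980934249320280931647146226179683973585431254316664952832064030027122676285544908870678474392670939031884165545313219500674345597966398411858131945391785591675416219753376328702046940315314417776775010036353487270811468137443938017056565331284587906543233915493916476396398448429612799172359114363173616113350690738413832099760888215027070109925284707119611995651612940021975743597397972331593837754159235498406171080248558005108211512631283291304746239844946692010769545813038027327944698212460147267750548708436369747056811944447697684510766577548555474817773055606169992693077919111319472634994998352013904210392155484567138365342365883392578194331929602748485285586987267309532005005942758275535454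727147289534335424468954987788892924308678183025562305802991848294493690895320094405840723465333725467863509659450229220005169415455114123604673740481481948621427763794656412717588623343281696108405696751943572302197798840275322612601032527221740528641087949923667739236709047414593565909077117668983074956607743533082901814587950892815715773284939059534809762235352108330831765242238701521689962577464226957262037799276417382906393772397610433633639982562289933315891152171919594080905817974853181173931766156139706174494331337341302183065671093768296444555819497130160084774432427788869064307330596188083003733556703909826196062399153979785629412205908016409931090234068234825169747975941289145321198813442524708513997556405659848616154789637481996785728951395650980627391134988263319979071688560993584850081304763696511239213166547488257512353027541809733983653931732340474761185990799329213670877979544728739385422117281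352903250479741435193943255589733305324815662646827306563381712267573750710897657081678765832314205730909819854293437214620417768199984466724803462732708534514042141242007598227112715145162268609931653645326952773285337120887562906042466609803607606586940996538460156648426109917191613213714108135003189194840215907584042149974271692514468632422937673095936115753691416945782233554424801998104436946817367373066973055045431871079150612030371630064305228939161593472911881054812144688274305022742348524244025049484049218346292542095872579510965008445546243901666118591494449758623193862650319683953695296053339379208232014628664657888115305700220793296165292047232400934167051492471055172481994705611396956548490634021603839198171211329522172946173580626733454936091346972699475964327088328506880250168172204176046856142854705163896975492900637679374791445522382676405212684703854429949284116168950260142910606701547156694326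032583284980789796797013038723139888600564023805980946780439886336458267960431649217298115652297025744179605794975938483806918479589625858397079803745168541657340225580951698744941186371833764280695903452327666328228263765856334455150781664847478396465272592874469418982301804489163906447521746227710339946678597669231975686668200733316606269840071762028235310040344372393610709521295389398441966011159608050791074926016198506744802608367927389820502729375199399341779964175138058595404062141551781720239007467047870809314878754817901371716072916667972646837646105221636731634128875044957884578047160468306334548220335292398443787523084525237765252505037042159574906887594873546233576597912175962314133854243087529208986713958296935718933822931674732128466080484483880481224474855770603644423428515478626914308733140416067372029918561048577109957671697602412013054923840274445302744459795364129970801244245903872686358696786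658882711573594509252261246863732230195140218050818618563247846966357342850822498914557811557332638093752028702297014253877040763915704135112995483514839358837480550426664078475709386655524487897586104865192089996254380818416200369505182185966970382254390390352931816055706148708395447564229253416545434142598047771471831125308726793340403740179994338041877194034436273868801295374465874004083698405906835130533981472708562073671007633672532116300922205232176096332617364890589867997060059937301908104767799919716685335193861871561723128754167308117272942147185315151241013595148303915109103506780872021726854462277406324155794276637907525037537617838802046318552672807190840895996813449068868467534282933055599530576951007548916685627236545772061702279857066352469337266554171854270419117853492304152671968120189768848417832531933120675654009017381522009508168121190352922654439736774164690485764210979089773802061917807021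712230675503810120393258872699535957362251657989689916524722571013545378779811825548953400288707711583353881040724708436242216258550213209747156284814867059913399745654750307213138828118600835736158236503737913189914090195961513761551350792753091971158571130432315095764401947306427300231394272068079695396567584763124971090273006571293924783560478187177017983093070978737668354986292414625555633240422018269933099049641974987671673943495434238453707314724639245440689605513647697717779934908495094194473430473471979439240496923925253009517210816843145731971591737710785669207228073119635064780869570459501093658229404991112286623709325658471029307114791465972314217471162142551786133831269323165304834775908759569376022036071968026516986958141246191610684129299499229876463077911153188793134359918460221292304333347372279870345188516629737164851722643157737046175798954412400602889474888081536077231780507607413183466858538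074446258359664946077165859991641424637927936563174145826136037056514175576190166695652727743825283641361120462654988842457422368198150400974409303691743822354714134491948384273887854398493965220888233943249123956773937874960384263179353985570328347560644998183685558378802028705330773824879625369119284153193388392379349186995006424110843771337020532823883747311051932560786895396573296492602621711168286957143859678125762971273360255194815722453345256563432893709064783519004864320023668601550387347993387466904586039885121197428078151454421807988220871038985612183051006533286092280740433463027661762097878583439518369097151678345857603424689654841047606698820027573178592644362867599212845759099101008087210368436228819924925365238842083837542103872134415694177114109865790639244754372793600675699361551447468546927156129913907164522230158796842702207171164203811071465175231042056333141475791893942772291992760488963356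114793645575232917198136796669909530064671059441772160308619823866420794865060078000354194137647574995263112823101939129359290761887545721501286424802743761907391432548003161842333313071541378032235014789149167531218373465127791146284174767628872581045781022374680498162348083110417643835132914042972400392942651474715031828272447058904942607844497432057124651012721391522709511498776048377288756576799542664932769114160557804830981091130391673795349755727916493039885441307843937031013237008497175645289061453862751998633385905528949587237342614115813388755341513884450298898684427627211815553443748040137988366184455903000621526075377610770630054479239286756664046145622024935101929364535556263001823024519336155708960017507763082058926516867228649909812154650163482844861415356455945601351891002958836715672110988622384087628052258873915270109152193282364835799204119012634492436581554327580267243647867071823301871060508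659046541402826477529558145728433070087828774331354050792639470337363842436044684269813707302663300428868867258468797596659954442175535782693758113430262518697176232908631249118094760668779195013060694266475566742632283964634248339689305154930842486506002250543381096234030791937180887213455717298901817245522685479463276229836376724537939158051822109341356782420283524641796170223167250448844892657968776051672239792562070928399938846783354815007198854078145565357510803245409220689782185922902493790994567543029952675875695279622843673853413740757400866485816912642548385837820148458527301187030016818639754001221637948372669679662463868989448005840499551795350899452223417760526703413004875708112951984996058362781308370568137845995024881359176274455042458031595749907863617059322959102144679485828338930294717161401487351561833813317776944593431184336629622881073210796126443893949268992506877245614340407452619225983017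672442033933086954663393891184044058592990681690301330808447894241158439348709675780333245333606243099960835132598142166533285084381059062785466167228375428678751520672072484745202600312166122814848454802156958350442555220645751436957040493994559683509667909300180169173607246096622141141049281897496267003631232535303201776434876653715399385609537967668282044958307412610620135228108944019725417113070125368244285794910099128735535842981619607878778181368953223828521233653872841116886893771448376885719853380507587605521811115694044083294187044828801421165515958400403860818805726137266782663858733910672600004504532749601335293632223692914787161229438642141385465446407605216179234209089655685592602987872385160043933401177392405598045751692185939838602182694017212617749856744934024477436458778517366453056938873621613846157823671193956119665207517590124284694118048207991234215171961890955016578596770134106265907005408121220664057059394714574590140328589968570288106037764256782161430578724839093314220437554238588042431392695264448344836457741307809910101516919536139756529659929329360539876061765575229368473054682000086582838080269931002824646160539269741865054856324554955634640611160846888062659950705998784368808063135258501999693963265480893925424848085657962301968813353667591539739785808576512)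

noncomputable def rc5 : Nat := (nat_lit 777454302564523726531881022075536686478105312001823096171449633361764167910223091604783354009811063991382807817457331683085207263436490046240779725988483259189436468632086236237853251689364231246600569020380756962724291999679087183518562327313895176854643112959442088755933081048757043423691959381336573242562414940620383822155315453026363813313594812261612899739820807741400973872473729085170240690501421143699621596010047142486619811485857149750229833289593991365548125968378589151969954208542109624945194734960821011706712942861420837148160766220400086885620902504626355601032538369811874159006813105102107902088208958765120861778941959209849179334965300320002065468519056039591920848506963642137041345056306106925215884403541367318758362446065260184384103593353356071196049866734820561325914543722722856559648072445194512548037555192810608674320121840726077284224787155170559820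657463820010911709876352849410178418517718524995807935315936361510694490442602643911741368880592012461435479497679215175561520336363906227142857986937226450869243639315423747100009388705865461524466608180819124401703190864561515579012768863088811980877277553972993003464937787011810091395527538622807874936548610990359200708279512774966109973873300104449960422297825076087939599111996908787674514135901002818856088797551123761461906998119149931742791442173249653624927577592067205321405788502415581708193658394042659465035320312583923924098177322667555546332684253317877854018944303993449455719566779048657935340079063941510135424966083399415324420680723713671401487069884851986660653340410117184973351778332100153343386870744730737683796997021670305415997842233671387682996071789103331134674167115969652737905975831493475299273331360666642376790877685361179483717361319710318513269316103661761576266024334628639177036394538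320270530917123986317407471233812808991817594788301700139114694664374947869729701137874289955173237297029970459188100117980413816417537704527955748600982759044416245372221199065349853449346469990603384489172276958450121093818496233754940447339767877897802366795859656271402219284923524963739949717532532231115595889829293689890233603806654751664423203797135558555615593866070305861924107152174430240835085849386796970249701438196572976408470598800879670607883039846179013369105433063703726294735893781604063663060164712302082067091836179445659393751582817056763954983776989393118337727774441840249049898025888488818489449909502215096053644616392065729243684760002517641764626398716903565156608810675248887157974903848176910335948371295110942432016813663997069428180321881367860382561745072384308762943341937554567573341937533210109262911795586012859279134562224311383729576016590717635759361748359260494587409837671107380211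582368244744151344095791648888674500060945582246923311533925182003620316844757227283317139696606185955469369118278551493471554880071759472918743600900996819191575719868796035550198455300665657834956974296663168935361109024654277254795580710669869494081231068776593360304782215692410270618043309406763821793726775732964148026189759083177460580501828322375039167481411193164682162037362410418662942655812552177867296291340397869066043458251170771493057635710183920722811023689249805109464019157191331092429784331997200856471046782115578939594795305527611247355633210790510438555257068753149692877245315235014543895392494823203220568168656105351751201302773852610063858678432603728709195279598292666967334901049596465797761100933325416247838503731117030254804559741716994832615562649214614236762020598701256565711921068943567648578211801525729112024594875349424027103902754473332811398053004414544147018880813990341880601442564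002673561197668208512904739577588721451645765769377184022964681299629281329164817761117780646354818060503659360541077046172319398138384856579640100440975893683486316456819319676890036619334435267412518374783614885998809932456267046833575132683092551582581844442577326333047812327304290357334725540828181206009239003928021752456470619859654731232041082998345599535143500505696947692962163529189596971553229857714583646959713608003115576652527399635493701484262007261552930237656856536271642684393205349170779332632079041975709945137667399834077735825794689171046061032761412823951345139371204791084188933221170358901876293418136823674928137707500569487554672067821653476806437247782315525478355908231174535994513631710592561111011486603472805165208046668797629670524892083520226408062328022709997422216341655777566334397223760435186012510814142865018216876467862602825317418228892860684563108292864831688058111480960298802674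368600269326821152237448531013077604660048127261661263170609010728839831910564849651287099436131104530163446025427941400722471892069283669479181020298129242337002653846920912067531575983468333338851823468621721706344935647620794413785182585196547855096552975154561706754937403527908132949015348133658887702697793283400754031634912364229432523936002486622994722371004837819087341883159298968296162785736010852676894975235686325441415952402039680729460519877502210505961808300509439655745350086832042909274510150949897176414337958023177232829269794441101493384378368855092501964472802954842655648629116542813478174937828219851198230662210683765617028265424251144658785792474521008728093305765205570595198065573965949492675339655738938178252264171281568794925623682412473820983723639273064632814461973269754996189956562518972597565094949540126525098019060329608348491958420766979286810358385265864170050193512465973043865313609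874946710951915806335145485681022927844679536196293270348381037906921527386346448988896153403269260084697387195212410145919219950737440362182701941846756827914685524068771557432140844557692254588313785858876113055737910568451662864987578834617338494125606725347091412887681607231333003998188935974669639754132873509472818160830467525259595968660099955749516442864429667752170136823174570878281699455648338056565084155083573992805855809880085395515784670370146515598165686901197228362813595363529907834045391718828608986375571915408037080199153164259240402067794885099801036832205252751431264024842676586335510779320912270708359333582106566162026773317913195875519911878262158857294526942470366521287903536024625191425840908954629957756994364378483829970892770803451648533089220695001144375434182480221681576505183982363065688189174601561752353546005489039246884611850808418680213457024932920663779599423699271880527482419034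091176016425979150617487894330772331029975986292439125757430726535610382421408382570278863395755532970421361213702466719180431003381735788386317482053675671239211582715612229086388912892741337261812721658071750186192426465310436589306874230220915215353317264352426658024899178750816285441717046902512413183723771184324636807906807013327958787377343501992203373499314989725392281282010755885035467743819746043890365336611974827947081427851975617719068593571302853123636089312425376752037614935684934758611883452944954340572206480963953910286377920205159620176018337128320241895165376108370306492934655529376814654371953690434854719655145075367052295331936714744701192912952005597194094129708988631477541901110254972602217384222776649784387872642429671571839495751873985423397316389672162303366560552955911046271653711819213224602289070084015867720474193055410648475112665039656209102928290660169633243324741880956071263512227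368576669690421683239684761354516067396316281275726548418913855368285533854668240781431284493227091458543081154762335444426791151827170518025111648380241695828201414015976541902026789273537337703862412822943422520295126974324207720681292320056405693357318414991311354353642286374797520480531533756667344465485091998362019464161440889711006397176110944255689064317351001036286270653557855847456612949496560774347542285173940825737298616642180496608157109524675733426937656540683193403482810646764163492705315251568418533126988598926835765788154829240232852293031520716422083217398565575693785175989327373790804686893761277981792536445076103898583985474722954957560743368928457732716522191028543940303635420830335521968200227724952367005134301358167227388559278076427610730779616962053970527713563030820387694053606793876498213902318806617176487889501048901040976803067897145930011667493157586562885454973502850310363297511430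095317422270878445338478261589400593229999150490564154948325225550548545399933893231817355771376757743952069887215240629750637692331207142981458699101790353045909270067265789638082203688459016974256488232482873021062735996078063674552038155740042932005488344594834799675625311139479179021400665886430872871954971848613476218193807127503238208359746129312892011395398295171503766735551880125646460454388847857199333466038924768562466009880525026194325186763157474089620400340258648382719360670082499377560107380848879903758053892232561457646618160113948734492123386677355242119420174321107105871296280274107538641870962543539552191887179627595678168094071423409573739963348755938006415606793909553871627012171745938552551979974827965818701247916407501171795404808334580805902908486422780172944401801340766487488478454727446122627197883725479826490928448983079665134284799648299673758035732079650351699302835638876023410276560533211791033232195523486525319179831626962032658795304735622446315342807631239280258750256752117183672666308973448233793196618304542321166169347005963352778629063289625734991511699546061061309185515642447069896145177969045939720036620918348025021134835597777831625655851542694075333808587660372356732290411178276932096891686880281724696144033040833343253121213856034864403105812840448)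

noncomputable def rc6 : Nat := (nat_lit 786673815578498211540886676053670612080741698563782893717571606367660503559809454653006196661902989520743442230804283739255680878854799860557973504160066090732399516585404722659818397584846663625236856621503335945253472145589754104903011467092561289342414579136410988858671018201979069714149878096953564770684970476510765870147278128055689626312040775522923476182218162047160352973725282858062783323482671986708388476743649522000589927854448279827914839605223289671895065134809388603312456836432707709428781232341498444889928910069427437461137582665218615362091771462913764266884329036023921729528051613094283244480568662135274550147035262926126407716418655105324077842481513062038209625908491478441336275789107577706709535436492260269406653358900664063412387917980111134500149758920300956803940017413835286044817155330446047481997517678461617932787448360170655377188332427760457662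390442719684207764788215670743468706882355312719068477232857092189870402415155169029023172179220802415316665017614076462299654387110048819643851056348959530297535560594119826542771120720242418371685730808845997300159120156497386364256694732473144103809107012734906448178387592532251051578030865469851457814746536765907947582497323347048219160858217140200741946610649751224781712234969038438133297392583115405098424235528356300585050036854580625367825305445149558935620356821124310714350980387746234048424733698241615569071329798030693477205820449515269248361356447290736561379315661639937224440436953225142188367196144922929308440204570696857659026571304888102654603877448938896829530514089220793638968176930335406997944071760535874418743984636092120345558178109168861135609580544879011504427439391077848571039309677623490042756669723120516630728767644612362070442353975641746823461942802020390111886706189602961003446843926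455467453715253780832479935126815452330995353471643159387475950769935150564358487132085285988040199951843585630012006410810016166667956431731187194648616796345744363296588279704835735059740869905534504197504309729659263097304278423947307996037363612406970154132541157149375580495617063541675610100570084321988160878137269367644841544261638992110120801956178879136709300331490559383555315247513149978612244444714959090011675066679350627873657126882858373696493052179142915215427465589641286010851221198953063758388589056014948848050018902284327279296386133351660527722848251779281199955719502228836904706486593221424703241501076450361778724868109825838006841005703263666371637880352847253713752976439487051091275287700958767356267897327450511346549047243380886158744869999751184473946781621819687659978369118170010138706191860315596819492244674361488233920329269610089124216600432852229663776730130998323599904203375909114287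948312848985946549278156210993221314058766258258506666638307455039768195434587356846405517669028218309769182296735549745264722282778029090559208435271369188319901003261355195746016747424859512404196766585886788291566881542901991760706846749652099504260487865245902279290190437224051627936223267331143627372289074612523468066090294037197498523344541201669670367891189888182170666263129667598436021832431005438604629225130798681024932830632567115145250607474801048775553508892962787531755208343579652304062657250296081963774881889189189385025186293423734593847769852586267444107089471127731090962902770327518177093557385295706912813963031896120819863749770541495148373975009896786953804455558579079826321723710143149360612792860049166480056987139540560322049618749350828713514141268229974647887739402594772150297234924319824696560087277153806979700093485111811351416359988035365682796507335910051008213406814787353290262922124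211246172929645037135211593870214919301724276772734200541924501107548318939250246911571704945886016895214738040300204284340909763128731422443215934318982227138790864338735161525761173564827687464525332923683641100278782878511551939125337224089165565649606451964112141439359026107783856103820516382705727501449206614230226649146053109404587483317817076336663514272834566503921177048247068142877861578624070684889194382674151092377454356784134726441015653549529314828204506693308444344419503905377248044462054298069803167875934191392575234860185922043575655609331392413480417529254734165272229639386674554121878820676850440624225069065895085245362698510828169841328534918450633453360783858754588012853391564328092624846306277237097158299668759145144378455237549467133377881801078319951214356967783350016373152596675954832576711777921750892297601480391341223911813862917106677577605809653996250538224962740804306063778836400741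272628666251619136273354939924028878370317579205188254950234039771928320956835730627651562151461276124636196578495641011002429664365253661527384927883296560368971337120494418152666497900014076615703928657703519098689236065676800684890154259093521139429429851356755474213151937818902129537346247794019684172328989989804235329863303690920766990098028899925845821477909735872325208960671233601267229157165971883035407073623083817634147133281963002003209710563497385960889604856159954280202642661525203283917289961211938325747980389605550257620313907693939414820167826259161229498671042856847873846440340994027791551691434419768283481240927346292492569697793183879056136477967947783701844235734984535002499105851489834758011422644839014039487012838299403204531149385735576686196548209079809445542627094568583045877515674739507794052815640202854290041274841033602089113934192398459370645467933910303009429489455977835996044673795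478212138215536133035888134288455118484787185110155611436919264568493044747423654657942511898959274060056657515102946794192055222277465913911145235669092982699670607198028403002679066282225862416301505222024968139599178073944276714231955083201471301026924630315316673745812710680314344533368446563182402148010817732223422463039036327595238347753196999503835505708190890045308876337532566127184597111714238172486046447402087904463844068977556595872717027401113712060101392811980541024369255512325598435588143634776576098038298627654727563095760134422900820967083648514981089265052564049641288436649432822850237871637436157838115520454371158090628061254320511128792009599881978848850342794758683669834064266046432040816798413703482665390880281555068884900021941632066858873972063479118776649240500463396178006166310395145385066180818811758967608797400445423718390624803889488875566595309054185590314784158482325199961248148074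700313266679751796696679387030258052951278567004529710054528087122452616959770824498315365106325881697867644919490908714852353600631866163092841712083990255239559801069243560623986343830863354540438463356945176232700901368854740876158997612159765958827014689715081609015971193354374331457594438691222896230252103284695912366275330455267073231833738547434625916056139802820078890774714771247045456966142080509308716689551612754753067172872987273999474969429893563589370868041540702691415682143781051890041166281666807359838802806648883595353809616331014464609462641173602539789964923822687037159351458118551207857183692628113801338698602153365152405176529643014154428602281489419058337524057744516179905650934276470330639596380719987352356009157538243084830692867908696953442773513123685857401793588997587888404169812223609226025838386669115563633758685113620936454775559257512459941852721880970274559694545260226549770477407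691830141985764525163834999941646741489237073865919893264342825586421851880164738892776895514527068505677798571850488307717137553394445526915415612943929217452773074079216775333221733221936057192244258099041395536588347826970464144151218869353808404545726283525237381770147910078015159051227622898727050349718821925403814593626879330376708048676506355755159923381861572466023253069843909754888876613674386506971653017151247691302454116170422636690536081393766321935925447804189429136248346773943228959439985877907844837173577335752700699979264330554928901930318995603412438209213559495832397041483045860621764729522087471516737986591888632257398104392977413317301835709917913201439934946416397650481229345873714649730651734429001060066271654053323458484301890915242234393807377454455393474719454251785053781560114055779385441791538507535348241579783279502780378839294477908737353350339088106709271044020384502528911275551014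140462157879200101563259051625882367203965005310988226912975111497823948440202294411724761686215277148345000138803721083071985188504865962184363865060333673191102421609313673870774234338269683887422573855531641449931120593303493268729306305260463804243770331676696009322839938043735459363092343389908874032111210817264762294343450988030649066472078542091721567820782522781949751495984876025053100975751123912133543403666786391147330710920190574545717723426435981882072359908769043862562884063413446479887975299375947883220661646980524284917672380073071159296440784517637137352583405350216727489818027429262328406180293345974671126944716037371477525493270342709961667423379126706074812719265264532305659211683259689389431770021541302180736521745131115855197761069124729238901017682656115731569006515069619679142707728475517766921195226029539998459150549832142849939805020796106464543228964005304434272258218370611389101015538174956759261043314541297576772970079013737524406009093299484373947015907023885211539374145361434504744646468885324564909807128346085549879258780794300594468976353274100765693379242398220119141730605178799417963300280587174801097868956027715452951245605133866940830207287671256882216550154396756407768615947349147816267985394805778013293421666431145943025795558230738516132687241019392)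

noncomputable def rc7 : Nat := (nat_lit 795966012074736914874526939948241102954034031449886386736404802249636535887807052430698881522774705974189820544081448368622109873665792514564159267832535541494738496498263640701679582327653161804029356332249518493714265806769481043178288128200084122911036976677958704246217088478135559027037958437100587813741893132218795965084785153750502462330980426982966797121875021526055936459576240096776186230372590239245225906316359336736239143251420766865049573050636945568898987208963424025722612486714702862858059095299843141251970927119733982318766773069278059242537329422696456482751349587729609421216536684537433541465952562116687037934094206348810773363974967724776979723851060487331146558504570586101018599609691877114319163419540295640943146544460741701372005520887013319688021043847818651767728929013319874318273323253618180229149121512193730300265465517825003728704768994703330578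122109962331494186740404558111073694963336455708246519642538957764378297131367398582329723142415285854054553836330727515205757946494624872191000772896600633865686423109767299508258405076378220427537523479578731272414238055559332279512939570605753387248447944915738699475545746401535000264524548782122298084857906453067751472541603698854116837578931173613163234191281580611717972233886540475743195795442192958012269513939690862896803958483866720954951134342311584585125651086371693303416593867121699863563952412922491941937624686646887757323877773731465314404672887119322765177453465312733074374462298966664490326350108105898954297939197892395552450495798249748484437635528934284601860705400349005526687185075150163590230268929865767630555118931072975653028680211791432076462937424346552425400106414007178402200847887258879481758459958157811798211449749575672822052629524043198187371320433151512224030075723600161176910400936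082696799846697729476432104385259277766456327580114827976699128845275310993929356001159248077666014993007592238806943018475955640130894992160253736399643542615760885752517206480413954881310539375463432136268207383313786200735864831766213842479592409876702222781103847838240886366465980831394792378133206321405463606814687001434174424583866839455293768339907954255611293151892488866969544404674500711096728049823029045350958980829051814880224717222321958657212993766978127717037362839727967745426965835395852358161809243384998107728947335456210501242612911370785339767761484450374180737723222635652431677038322904349615950132521806407994744991251876402404792064087937838565314191237709448689720689424482707353363752673625147728483277503065809501306039248556131306498724331250590239793026750336225092094438198134851477545409412682007278573609341188114599265915900047680343500140682211762128982149913375040152079875441222130037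758702989704923407920093955230128191311350257469736598538119531441889878227215079909620857351550052343272017051790827287719893610973374031048945268644380107511981417373095760374624813014429201389872444032135265498194696448355903076519434538586732526076339123187420677049804036153760589712495012744383298302933003594078421759451779600390061625650957498964198679181423231207052421900545117037472992943716363165820956184570811353208560328807035382763360956180919372950329412810496232658215647742088470862367070194745865704813956790918376613884737694857000482127828418203746896490238061177507399137026201825816016124816603749711312142413829088822388061704655840293196425922192029946600887292257550653312286902295755117859104186587807080333893268838097407973745932827509173962255185815816401706576079552976500668631153601774423032216382811436104094509830772516405451309331287996259920246381983562720240945867550096978537470599285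061692234162720246117046210850888076177129133889291278076109462431934390628925216691826869473831302129885701430044872489681134605892218982389078790940654051216369261280053182560426382453589188055077674105343946913640925298907373280924345736383221754512382499477862146737255480116581590547765130182863456351799696274193058603993373873187106103722005447003665695694133371098515339344376722059946480558562290426747869168161330243488905874943481828678232194630856948632236423188091116872990843744566018190202701091217938357456449291150394884803443210249276988164323458314578491166887355493086352209181986051569856067365799685189018809913755053355722014768039977104994741106935490039838475664049491838956709136273451272290525381590640879842157973550881152829858830650373473485133053451637017996203208388495364647007446860821309779272105473639788402299961451352479429661617268694839069750598327700354152699754309142625243503961578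782071139631078217468262747862699031436732187981572233445987104734164048601987647561829574517048464698693661000420394729524857308979324851180470569005028548924152016015241574864311342040093486834604736523781828322097817876184670222130206439610278863257497761702580966851042062687390286899760651643669986847669240503441236829085679746847667855218337713848153872906997495487854083933006513051064214907661791237632887908769478814518457930539926467676788563911366345397437716777172989306876963684071595265340501074308198585747951582975586301965429894738038245683696666732471965117941511263246648240079507044254093667712966078503301304492179913736302856632274047516523758610184300079468645476428742730626222146182080139986342680220000125639251544978469395687326298147307540741287460405222473644009387188481532959953184686357757129832740251296167969191992992076261802122097748740755874482745977275761866155966246585260297912057951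274617521697556594918419953589910314215918162066707799368446716476882144548595244112788699777783206711693222922066505482662011752446235700997973293423517403107293522923466976978033349505395751159627031625044139889698532352505801031713843524985214854597664054702191752759005537762755663535173778865255653152880338656637475802384249701205767181255900740448359345237550258293268773137211249926465122020233968030623305507212338783414952689419795389697229418338050922826832849386357487419767840678062710292307761883645145483564001067721643235076232762520850947211079158523092020955904617173222629000360344634037966018538472568823158834323801586419223271402734802498732484305432855099853858371151822276895438085510860834437932084071665385046200621718808030792290994843606427053594285602734958500371101910417134950264550233639183251957031900696531543846107942989017619921790627092028938764937666951402132270121436191365596059915918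354095983964046819130297663313230539991616152319124794535726575460003681482948705933256248250078540938454781462400293696585243231826562441995452359930323589858412661068126047441026798856332443957830432936215626974448473109397604477928561173371163421187081677039982927866473347489748021392529262290737263927766042859766844423860326858116538127185009174495727375487133549928414185371527638213255154548919788855044082108533184025524395598286832550453255781160634271719300558725235767153738220992841189781193155415112311642712418296092101479881331095186339179453623153214535564319654646602084166089726019205811749428693300021194124721858001220949675893441138863856054571506259752255929946965426456035129003900897003247215977352152812422496520253043234801438525156489452515659593076184826608102067434526238464703357328496166985167899595884881093276633091959433683673753139486396887755393810486443950320925970516914787758334986632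782319333213161196834799149543274714065650715263645105754221078891897922309468092003182303661332975345153819622533289542585035186996020216699931442719668637017095938582651460019446576915149536415365708578320643173005697250734852309614714550923794464599266620370524048000041656902132723175922354145997743559517192679881920499315040995105795811921003466273156641533780029307966872256076514701820477293480674467146508396385317997243926736196028855480220231969391678843257438327788726137006463144473345730177411226925948835780971262944567408923564927976150753721847917048767077010831594246622703141687288816740935614410198751423899711372717209379934819464740262144805972621596686339123159496453130502230321381532178781988766030458422586138732486994125333418088817185135354503605712208405230732811172267992551253891193744674390321496670317833081353629213396440644232858903084793845784307339358747398103060584673227511908960809888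304174375041578334301302499369376425156529503936926336828444574611219192243178642396381919947963699379139094306295398408595140674464403059000916847533576200549773163124904851813136433797610162104156181297654471656309951995152807357623521792089537576382770648498031059485257255503652692763513078692474830317726686864214383244102757971528250813788370120644160733175659315082232039367168043556473024189627514015640503635402736290281155385746034155737340430971358514214590570983155842975682769494466769505846699592562429253845953784760230926028977062851996606068368686133008304684379426316779449381303508561235919267064407820552837092002642213594712835312584933960027267778419787660394940293813011920818278894243740011151691301151957785442308631506212010373324411538263401821228693588054075911070538975913714177916400322177524094433680716125084547595624823669268551430259799180246598715663194055824008423188026482467256748076134619742939440138576883039448215394952066928303518889432132442730278940546833552632806256393603431650356186443940400125518445878685764271534268675322491694607221172264302111197374457264831598483346854902965349176328754823633032091357074800011432508673968909786301908663323061611886361704789431678019823874600490317728046083247756600297230136875053667446789812553663919575939079647264768)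

noncomputable def rc8 : Nat := (nat_lit 805302023463707887460443002937715793634509281617133447742437790410525316217790537347474288410102689475306493679326884463729918258031377579603422461021766090840059607345049284437233515034856875278682349059898180350515624411469071736134398809164526908909510971329902080713635060559356184400871985795355073941117341098588595536620841320752084304167383976579771064361001072448379331126395569199461156725624570562728245624308997727792367085202296187244585641105750564364402581187255046831023631048641854279029699749268602276068796902591004017034167918315652323244654275280859956178365295083597993917443731813397262886242082562009981119235312402138907344309693777002551657522456291017329206904982687638437030100546900116516673195159396956705187828308871571449179982183962156508252708221000160244348576102049517099925642958333035399379826709064084332103300427304687167402815339164933298341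984243349421393176188263698404536422566555571741043883854585356259954889310375026451700549970189713589712226376692740117491747236613526479900670898897841258071500001040663659362591793472124007680113724874441765285948537239036796560092139600868837152303482679088512364723770426039630289727182795966855778407552382394965446065443636915712168142321983938467503215125272176003714028517785789205638616611718875835674878866819199681543760206940937720851016396798635562307386419817617196595956048060511407917261655970722289079258426274797734185215584804729389625150349546438479989141748019117588015539553878258269983653033626319115896749023628786217604646902472981997622930174931963680193946286259445434220155313602140838143850695345374812641851728281070045331723714448694421766718508529038620222585670792834554593257325540375444752197535173524284546074827091617476413356202921097371098527400430699394407525177571336391125884918288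764282695571783989305230526150732298320456099863305373850370968198648186295095647247518930877628429794624930553746305602319679084525340298077373060516111369724072742928829634319814275945294828254734831989418472670450436715754025844577549150404051101478677823795276373351539662830366796244804300707611222868769787982541212495190386053690770477588193778924467631630661015786079368416421867073880767633735804685127511463729908802605639157598869053305676491415827724952467616127907085683552677436441020208856469923170203638075053694225705391944352341643550665094894063751478846562423058868743139248920958597070209749213118480678322379603581168751351937570104685790021289934323314257367832175487821450862148428027813362518086333012834569529581552445176919742141163755325002976659365050269665855019272522009759130425775970840474838226279860277901184184186930371150318209829275997465342704743881014983283642010683658590793418252935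742134840254774504500749424579358926298129350815234185091985491191752993744011001274463777402153609532681118449879104624266177967774424795798684819089649586247225115645355878752986731937195916537900490119147561359038256779720649735987718596249404136650639492177776020427355277627321549637440007305047700176430993811881855313075592817539645077538808572465254806887832415469881115765163456484968374252968551883403307168167451162157708401072443956231255342666204900260584530817471427025908357925466463994222130152512489407117646459644266403420744872102091805434269041429418187048701361402664192130337865361872790998923322456200263054131681989539870863458983080406672886244873573608249358306789281565391144120843865101376842319544457493499932530543092615714522421389690689385968826488995333763109428575202951087481038205138358358879014851838536940591693271045710050709078797283535390744018456710252018859621157524447603726160037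040033810837090040112068268723707607966954171873250488077271361186571378484565302836770951258620639810218297163288816060514003184757795445787550140620510531802463805108640316408278633365315104806078947279317744468401166137527755314382547138831930215103443652218824250065294693626421990986840976095223387452921641216616298256064059940325740492013090795578093292294298930419497213986242317907376687644002813669035879682459775396022328105483997876101405337853432853346968969735462835534477786104936412616183938692239703496346138525852405333743418284138352207988326516507642923974911693935245762127996820769812418168984063065369017337109920933381097867320863413526216066111198215752120715839806018653132750284339757042734368904914801608052677920179993843397444594669124955029601604430596733206579322135352804911915783659671790294266793140058620688018077295809592507448810035088951980787950300627464160887069849285319912471089358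847110802356077751479317741958740655743105406925553657595105323987188351045714390939474545281325176950979561224846417076680298393342245665950902540896144357138810609493207633745310846521430999578958751296533822042482190763239488731926699254307921233800075598374890470367769375613427014503995226633702121948724851259066318220283107571202356784562713099027464967920741765217228260266284098891472372928017022108892491362177861479145037679813672764744513293372931438028478886118536017696453168744816002831983940279932788776800186248385923198098752792293250830908944741536210200708332945287233035063832331343176405386664972346665456364545619770870220335635784211146086320845984645035385418921106573169423491225035685445371606532104981117439921761570476514071004324657163698708145169455213354048946737822267049970660590845596074123535491664707222923416897665806208159664195545388495937035444897789684576163559283417933770184522070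148113879667286369148263424333717172567606547724622750469172347602003337201710589327816351240560822692182702854364917092300120920858065328307970103732934033864746325649164731170701489389361911228319670840687790287295235876483603735644076405909439746562123630040776213146595539334950544425092745370089157434625244106976315151840468716248498499758606854043836248726847763770283097492347344796401560153497677531534710911048867530446519743868189136290280866650047180050697092883788027569875697722006858418150523055512428764702989472015626216574298998335854983763932101828373059499454460413343782858616619412611367468985144734343146634814244892791856756221548398354925679888717121711789274450643158786608464922839621748532215936021293163722714299532970928796858850012443210949143290403508082843419472582998659215065197430721851233795749434418819517363630655031134835552924809532920153251702232319000498662528982915538273957061713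999441730033538537651353534862130406704560897980507165776316137147492597628498382547920637224953107171265395248533996684163830375664260359115810889828842597622780798400530435443957390275741227745796184701511690322235838144196896704278405398875578607362354317361467458227615316569194844056457582644808325318972905545631538295251645108427710304050026359757249453217197798660189209400048538432894654005357072867808893911588873217167572049885284737339389979670147976955093325541341484231520992893827961499862297353383338302848711393433775070501408165325633683743864013859174178532193258734056415825245512530058522661276205096962194008889971002436607993886616080133778232215214222749947300085415681374011124116365322548871902240529589901202007997616838179007195427998498840967361908778603521344408745494450232588412017379648172677430962849129010205319252267099921698080949214622380720539559324689366546152206131591144618763222098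758722248872102780343658060615232924172883528745927775464062566248366203066331361221115801552036613461218579697341998927487492986286626418807857284127124107493515340234133360633585910481606882209469320713264564021382961860830486520838576261397540054349414010202651975669329558103330667124389223179125469681105104975852403563595395694315973894971697408046578409606670322696120969450739747137517545073150157903330118708363444993339197209803874147207385119646605999124848994856651265449603320034549643418786372902438276172565417055483438043124787770430719138672004741760339492305962888241634817810767816346186255637929448643396128344042861336048960008103404027672487813427694458890622140539892022851834662409180843093350379331994062666477239008396634062805559444422330810714394366891943480582807854754876866416594593128038309285916740564133616510678883956646050068244563843335699729670387216738140500695450108398568945348245074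774162396139965750745917113898937405289746594241840612656797466260480048635660082515564741879645534354010717137025789845603327658586340159159273906826984770258927252489347447617880443022055850753976311667991416031739887226516173319438438451135070084256348691899493589114813276337789379272099792696612438064063756217716904051883174296558066578829799158285509329697865577677956441775644140372552377873440659565580782924341293511422100317156107249887725885276047320374125617589259845767393445855007480547812738018963574713703866503731984395806343570294030206570649127819005428877225375065245196032409361110262091466463038857838966697368287023518141599279916673856703334106396757718048814829544030108101356156443183930965397366591684020337873663086647464679912820772889072176541283492166074975834011360363405870436050027976789268556423222505804883689844372207879918900434962520105157701503977981264179863289195264360894594802409306498795501837155910758046896223238071815376340405676983191191302277078652024648469051653434929518296483564536781228510374322645961098485281837146910270281510526952158207611185358161023256632657037031554563616972999067063517961161498938299225331553526800066061831957877192551047558830404576789847142945857879869606029232180765856481874685978184103800024264745461792463615543715299328)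

noncomputable def rc9 : Nat := (nat_lit 814655340832938615758232163193848560996138276422428676526852918591911456304325136394321751000454946317484981381136629394802159047647631787073314257911527198901075848341882666021596189511652742374146071452024875177587398039801607321802375646092023833263606929798718519118262356724205367245493264525448599911988606599265185039020943965062559388841211146297597433230321999030552850515010016087062019405628190586365819392577632420751782321859090926776008083922210406834547308776932940669708210831494917478872428770483915368069147161986873619644579508159713722586564269192066818567479568415235589500431204472627819949299790134683797426491267985619335947795238575425694017646974221510624970478486390950862702489781969048852117365059537091712452366199466367050030763827913710885576038827341465480537672746101226204279184713704344516285786680237776227293285390396116378525533167343118122107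963310917405714477028774398119282763070166768795008528045528008975495977088641823647589466911285594408606530248907984335570419160975527478998523529762298765264526408508628235709613412451614611093918619762712845904508385071152090712424112055240423977066156630026905154050388444493480146214176411542523355703242070664970079551535635357437002106185905364299503459255723287613488629627377579224530008914524852635772218117815314016996831874041054507517787790702456398875381360862690518053132668985295757133686043485091866952131409206063830861884044322627955454254267860059188182091034181507914178791204113170511012217778943230658159452264125027673557925726515192920860875203041320262351827650270485412888010088462400683681940631690425793283407896486255609847553106490646622372976818767095159917224522374342202521837474150078139561791184337538439246988350789424604374722437326570022680864803170082274734801217335103007033755227251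349431238707046803367813460033683915183706825741825983972061937853763171467184874204099385841509104884692490798231580135441614726203593544060214356725840895407120830241819482808266878468046217844482412896035581157677764047599260159504801943595518995465537115484906988451003457661366142579541794685522169429701702176710125339237238515427660563932269880346434925861189538958011768195876563912686053733173208467366479633642960577105992626243939424372800236198002943638350750196350754353959963413516823098877753763011693502289847173570596831689950719370064466113801142874647369392201827237414031225694423705494227240796403100062116561747814723128779384642684417099195263947121673225309706855021406332099521520870810265340914328947699665446165715326506581546797428910751983623618360407634184937098057628347252667251407466795744608094551151261873437164519946694369817724461665855812440200815153197812561096189698264068345089973381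000647566663043751834610689663169540675211260138387197900542711945497902849714331281641982708373197575559242268967796529589810188358808384908189494967594091782366195560172757895975172167305606226278250443540620814640177291939177480599552750947287701817738052975459122746197715372854622884684288276035353530304178666869122227467819422806875597819845142160551654775185052630720627579072419859356187056768413124773180520016267238378734956613524322820258967084222050146528688486700403242951636831795039734228415689824941046845378928782610541791636115710064326331655987058691890736246863856616275576459878231649074772055707882749233080624727066558480791652865899711952011700571887871881023096032423060439561370311277987095769207631540776213166789272600302173135591909825082072312360954938795921670135734824624980989185657592793283474029443543673903666881347495215588403873569661386750832470404598353294284218476479664348126414027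155406312549576859281440074461511652735695392603657200727348122536564839276085851060855850030067694312688178681824255030864844080154405102709151049056966355803229664493413632937666742053541029135837218529455891065198409397150769701850328270085938764745097318556129042401936874976668012739428743988540584303059991995552056427694023897586661932230345719441821796023262383354502755075414930916697174414646782398212241363025111288243283518725960705491253912556290787514498762037798829534163189188872986052666985677281747783233114516256719261890208334583211569945793361989383204310512939703332857476004259027660687738440461448463552570378292853820423950536684232939783993176163803637408197100954121448896419902150856834896293590914289436182372747347253976780659271733498339933688063370111617303424461571314311442357727002441269625351798470047342952382912491200131900516012204328165165414565882390090210406361789689361439327553154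174103631246951981594028141318772621058951709878334406387375708430251118765385410803708334174475292102208540413464745926858478233600125664364537480850401422863878260497429794242561270189742024456231703073841343894013023678629749869366014261756484554036844630881314667296162867534299239997921770388713641967938763704525384523842004230414526663140114700818773198515927370854106046544939492073501455117250717360629666477815561861901799392006973094858732720619810853883748612627174947513158681588670318528896678922109481901067745383931109989526920963246115709041382815893108733482170273182425354130951871270387309330502058170467857448873669655421088421340256746434931311302438890466359453131751370088082387241054078697549345688066160502976864948067515283517401717645358689077114235460195107335691908260332244023445726782071715254809589821322595529926729946205873146759176376699840966113815161640514290267311811775583153464032257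883150752127606793955653936412697238215239562487620169547692526616949794760946666755736321261871608410495082764579229973694052265850591405183123861319357414105159977288402386454086830341247277208163868477305542144860648064958115261206771656857036608535042981441426373954575662380969738830084836447969628436527108183379543862854340527674323296661154144466313081462153820453414298900104721407093278035959529480855201416178325256743131429724855005569345278675301363432583612511484959699670641491084050115582020483800124384154981138694817940935025366808209313499876984327336541299620544251244223075618362793133445484548620620903273154461495490842113986302189807528933701690559902657380224934351041788564063002659017148341148692082377291035763652490830730696819021205354421354325005265555620861676287069713172891533560492220900681209106632481281061003383369037978440413200008922241801566668426328578143545868086559180878005856976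953900048680478750177697816276883285259481854710969067416372216643589380459142695707109620282830143309600044565560212504605263812092457642779248277440060393083721632279731007446523795490507931852665262377716087659550242590562993588982020522570817605306730703532802891655562777978170020127071445467638462482151877119778617049842327735761590708452786743098956269987052715979269435093072712623344826095669421247735645782837497769163220858039181268265041644358258245801983959706423496904323794614879604722247138052305960204143931192094006176655461976471860859089435400432080122272239984604996319983589412260769029523739607687015078045135064095362578008178881135431297013458834984801823319842837245675142886943663571935173067273619058236965044407883279587734123668226025836229542499647129174313022691268013687626818042976610801134592200402091415539739531484674547602453788271000465827255709522277473931276830866211315173727984763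983593272185534262777494904032168129464637497135396076360959906062509458726017926917412448451041004473822609467876588271184091739893733067352559985798131905248586348103308262659909643615626872135051369424620893875877856701473429215761895166539099602269157640397133200749401827291330041922746397213540179607368623006992770597719268817394012345638841769157155593325770879447619612438873987538070527332561204112334127035192327127884936735502241081064450466314672019661094888603589716256094171494846053728607289695477963499769325784475622114395498521506255364636877158350896832533750042324426773558511718400914743151682756873852124723355366424401489728859542100338495671489366922004377867924682832417148284873376320059172652718302178278844286075695022254163687882575238452912567553458948705473871154437447838169974740650139971628836675004535572446064589611720662238378700561485324392065132228328277367325138021112740101785979202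431387004733112883105480073112449677705172229262533756795148903031864880739441933918890699998465761871154419124278148219745585083130901809716726672186897672853496727100458383553081628000312552853040450442864140844689053174261120648706107830323787739262696407045909615619751809649979620182810782617613763561007033144983747918494501460810024719734312788249612525590961958141594644983660599754479952209580548330011736013310882363035183101101822659519697101939387351517525306868755624254525053272681053429513007356180527719074530795186081762081505988513551636284345284094992250950961675584822651903883790910486760063362709250502017719958983555039079466149262125067272037222628719237819883483001127477783165065435272355119518930103362177169032539275314366216257133636900122337004035408347133192625500006874694972387885684418199758489694608364503095058569111530811191725794203712502211844421493314608062183307044188980078299670593525046800581985624051579748364969251069116144782580646704919281519792237868212297657937909748407115276749802825078140670262057112360160214281926178861939997219311488872642379032688499692284883719231739320918793842775702173380524264846743764682601435440631273648118864865387137016916020562770678608949882742078822129938748197844973642809766586636894142832883720283200846037652082786304)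

noncomputable def rc10 : Nat := (nat_lit 82400176380641107397972422896485554185433229108693198827864730729920522971124631099672273945623294872226281208445578758306667337896864754267558645322894602242119444944243642418971266281380936148154701926382570585512943739399233999681132725135029137243935879952390476974197720841395998500965238523296365316173430974912746156024019565917370074597848259421771461608144361498882594843953254675441152763460581783873819119829357807101922581272969642438514103446847556444021562240272152635493581247599641522087053324015394009233565742344135202324418024857418029082139002864299749109699867945550048818834886671087512415347346494325606321853719843779977775496384401342161362700845106467305326414769875803083766182775792378637231526090731517951899842432420810775071815314456167820200363221868506203963115351348278135629725539171588990870407036371166261561488457450354200073827043175615194755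907765083344448965149129314521513394299273692482840302177926459914747804252018484209820764101012158935722239856024498288377303691244555798160604316790655657415424096205535421957899050063202249235964988406097530614488613413568191236366001786121858399602816133947627588952524748252952654547272713263789019059976126649127477580526738582300804228709815101979766137281529459502302581960688532026517085125640868405738634956302477552258098223123167677028005472125665190663947346077675539820470460608591894463415357812083304135045166509697370479036664511595960535147503443496390276202518564969155673851002198732365095282921497708234703458243385671579487198190200656202181871857781790140225157301970319005837251068868498135747773457044327942791335712756630882943354383381303873336779614928543467438628215775825715053825889125954954898262947487956898216316798533917480600486223745159450917095048662566612908203817046108754419466691540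325299456267638731284523745405642807290454766074726207905766570657775277792598120182577479692003460669259065125861688079803488139393831616023470518717585988076051903277706155850992677621721979699613705199542177898020192292715653195058221237873429811173571788613461929973980485685435201947700793388745313306155450851716922047256487051608171646955755235319163975563544765196035824229644666670676493592543419019701288301769271463529885055655014435866751734886763975511657706078689051141566836013067250117092050510907416755693281631683103699617272574342924881076552309560076226903328716438739541769034233874433923908981840146110480053299728530726476243626708979138580950466782321313788353524274747178685931421442319635031899541233978495123028412567640398899406031825194682986189618011798659039699320695892107507242573340020347198639168521086815550400492607251962457347110959640218308125102314171111694935635379291934738612913264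986283685500859930709935059940406432527781906678680093152116429457847503970363996298383506507077696709798342965853192458697840772204442008685836853156772185421943268124184774361468628900771931888695601620641883551422132616157411870462555708276841335819233525879924202757826053234101347329237451508181386585757479709170824449018778510431546305708519871948398681396170247921623580040896120175066208485074660015880785701561045719017224309152404145550757739369633966026068284952558559274521230230966468917806850510728801093055378633148282622072792707978754402947059850390285321586628438678506081464794865195514024892791511119920405962391185375906515663945517584856835850224010174522551388398928161705343323351187645775364424733389650459393330091527661738848125154874032013826423821104249058048373500813795721126276682995973110721277571605034400833550132781386637087431075130076212514410540675778322060042428377287110763205647397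356399271511786844805354403561931531673992383080139524977190395829477709469641745295038966098152942670768930776855364504729345349666343298787359199559971896467843165624772505225508361956030046951302594777958034175837574185741624230108321129153625739909963727727441903803633382049628579194645251581341666659034647477675465118609702643612370213802871271303057364411076518324822306723170629561967976406470035873589308065631193735248623887219068231310898474917630877364714468546705746248741020011236305586331105590178018566888663315294722019773369234366920992576301566020074315822604514394422972455637581760470922432994625898188631627344785065966576088319130967419404217657466425881401831672030878738652392873787066695714553054806437348311920460133159508007835152419368726476949313408673560354319572618157906811465405218155416532623606116873876775281531116959394864856103743623209932712222361315021091631153018540455021210503119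636881585772236350610421777091300024420482414309212406504535147893467900019974030523879236023086097210985746228367901247904015103131539010374719962463313891336864167341192950175065225001495403723276414974680096817909053896668959431439584944904847460885490297547548195127371246049047358531398807353552667411796650407925493246575731701138681264442509113078454165708922665282634816776435196495379408129807043807019884625725658770580754943861883036886166664360735734999133952806334130343687153843462666856656697333989385890691515940548448593988779570630846771907069016192005156856757440623845485311464051798011428796438599360238003705754054747921547573538771814793868117533139937519318012377807923282460880566197361871019415193875620882688731717658504616726749653629865231430107088920091731517483349629559271533795965903005717046441190106391385178714914900407297295921696575513364994896886540842530781382889611058889264835520684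852307959517677545825916266565915619034943473959469726332360284062628092874879536523438900478952571523371484066249702538883806151277865420834076236046863461334552113106498580554418948438464496098000285344962473627231695701892798022855393436997174473908150957406179474164487454361703956446506782758048400264943434087715167408342843054558689190975757892078804796558636153888037314151814957977499032998369727701212801273609066209791566260631469533783006012108476389645177285092783681962658390997654331408016256398406082351573696197588696595635458488774513213066357001904475488164523739298016930746578376318252505999755593230879769483340740737667876468965693837200816707759752344861396988522085321756859464421694896213772926910403082938679798571045212115790102609463496098127499589163033644315994743773985863329405391719481511292709326735218192875786818905479914313128910921001108736424306417141256357217761677606425941678601122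435181748546866722582081223809942536355105538003069450249365634732658089407105922578398871817200768958035656253861768392289633323955963317986405881638799541215964040938463203788836969387647200128916205448941151970336369434525929077667451028851282736508902205103040840023199533205560046236907280521066369624761124313988589202591581487172346618919249070126656806252230784347036288049175374112929458430420676731682691437810083953446882201214806487985397372874619311799895390031213446384456552062245409679327610632867769239239627079477752918081719245589452610483200549115263526725088468342476990939437518606081485473535771851434075144483888097299115314059276672730474088654231797131371808975360344004024546225313494149866088000395470967838676455173543614528246098403549700384579483258641275474466336294505884128215993214242075737172765577202976000429175806280006544024687128065051230176282241374728006700672617225377053670821363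334377981662810542415947077458661972651024925479858560045374411531675000216908029386524979844707638075222227469206041383193419788425968137553219101194547031787572225726876313147705992426339911393222782264567749690346685748355465455387091050282758802660490955142401716741770326764131434640748682139785264114204026175059764999098976142904592147366966315499328132871579174619239115698642272114723063800598353716736427323771124238661040210841570657210184992998439837701278733641738739903166759769638990344546164152733977546407832125711773485032206097607972837865076008998626581211424805916887504907140096875822911063092420390482280658679121038280088232009621496015037870971405904554722343737942928973569685974693096521963197658833502345629282911753504218869277607389714449065407800409048221713238080884987072636813661048230899751565506821389152265509040228944161913756487906424439547415539048455112324415802616727213681750412007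9482848439180098007395104721331728595001094500022384450308684278806971140241877238821539418573034321112898845294558269283062506319736772388891890977216770804102905918622545301433470861902424055069827789895267489063173546105670642933811621337988424463297798710966798840427415183939596902272534115252312740010818342293848694847828900688677036851642109265034887536281197473720437094363017761592098448118327869692399740676714579340246914642702839884904397922859027477427342506406760508201773680426104770217107552598729758200271446805771400181311616680093120704080488082254887110484221384869895121942350905450739962955780351796233421604545463197718873363552596589998963859831273259029557596878278464158458334887525800357494563622628159629966458112202861078327686279361443350311090347694605915731159822950642847653318423156607098407001881610813745529772150013052052912491509537097084197556195469172774998940937512452498496424618787510267438913756258426134102890012026524257418231517731085589061369022790597448328583221020765687923230679355599644673647189602777601742865215701243178180042453099085386856522059766172550642742469547098471931772163565299225212347198438018092094908009025573617456202911090898596952587956671623457920475646134807507777541171503782435415364131770250938614668477832764180090035190586408960)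

noncomputable def rc11 : Nat := (nat_lit 83331919451424953181503282554083411734425634599983427052042652660138754614158830182317466524369805649039320950527993981369728167406055987777910507589832920226823577888228880118493983036690653252452239408806960731088129694529510198270740649841470803094424731426782186785392076314345866122546115158449688116267044859745474746246560305557031705271458733203539594667844666743692094295617351658388115905387478743660215636897357256092031303018905573087896101442993171346650313503375968771121807473780274464935767725976443191511982034055749681106015630724340558913990007666860036100923008593385257582615328658397592032088290637445563241580412433963192930580264161996184923909249675943808748328968297166796689040784076903904271105615909106801631102734533382647214402413858268108188081221532294054540833427904148021826601254656378768385171426829016692392837840595605059174148780322474280056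375618797847274163523332049710027887104919298770646755034526713779001249821197512026764868990168984649130977299240371042878770119089370037041589307574133196422790584402032512903511423612325107884265895222515151853347526424017626744927717968660047996910732298130733600790032206218569415280483799025186024494807482061219698357693188030702339153058569803568310053761229025526293223513226552819436671610650457556059912410840556553934437229014029075086148982460415471602053579456814258500488430248931352615982668751512009772533302580669959592448685606956282553874253578075487950335349717479671306956950726962039723241721641983128290981468871563648702354939267472331029016095952407070115048877422642108382288932381832325606233922633371192296732226348779886301596858561975740711646733401458259851119925021238562977636560980746960676658977331847230814768860710688871724956313323083307355258556328481142574610953123716086871184617897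346948463054887873763341019704831610333923442769460561993129827126671724409254367367019962177578778092388236492822322825987272571836184798587087613092733774683374739116291177014898215079441863935776177959347601329502292625799251855933559162584669876741023179235194726333183314770229127372065467919378748788240132836347396477668069067837016854579227933792642440871685774309026352844546998609039542274955640716627552893679022847060606356336516509656220352251784474567864812526952527888915375839499078990209451681807763767141704448672739656745576452018906667452752016291397995793172792857293783620389728140311790944730035343234405704116549900285948451696809720598328200818205962498126206068210489832190722908760460610614927688348770798976858735074171798959939280974293023234992134560713310790520930795533417284387251871531961678340150512204034592429413609820526739745145054809097709238136210134236625195038019276127332597266814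034729501298021990197471881814459941035899495357432606362787032140839200591277293259441385532893071221015862348188050844494443217849203984560323618569206449785409560943929608653022520567473766396052908174651035915182619273328185063403366742867908441779091843015535586409012433636812206601679863211865774193972061851888355846264905540998401607574882473875917748769628741655771678651630249805460248956527871465040429749702683544405577787040264410450196957921488125558837838149317673759729830679904707889338792159463998029158320335160088211621342541070295212998616629974007814298455615587434066670534353357971620219966699121855727723774822823822218757971389722312711774788733995865386380209946801529251195999471967239789262783961484060679121367022563417086266549021878114770520302293260873231272540597450256558011376223201981076747524580681409683031326759231909155447481078890509308904128772118789943731434236278819775609255121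951971213723896930517546735916229588757863122908610680769662775847197515873805837026654114516790805455303630173915159495093452265862838701551618638942712506698866226611576994823092528649705625687108396000307521814133485106343421096280664846990345841286885710474137636421941597136647041326124056874806130200744508007178896695309689110110103199352499586016570789991152216776064744049082356234645244342392248636098223363749711891227175036390945548793332923083397766133182954984022994158238695965629100198857916176859878849307025313305699257629930966786121396567523184984387257206827697299491050554910346219572450745758756295739426592315112732494036311491645715508538569590851117462444417956829208733748562528401485548895188924845271749322973450256491403055326496082890968075680865571691954136517218203383060354191602745450788857895533107584961628345848221989464131879232228864922162760248752882152826445482512282900900581828860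108865375023415750002179812665999411374381631130905783323915397036431252921698075605659568855536987710717459031741053902497519408010035342408370943569121973426553503202987704700251778010787204776488255949808401390919848636108959902362403389708325773225643299027498168018211164057458990255798729076174295241208846258217143433463664134252457356594014702968382315790360910966291054238983949691994642329953324153772784308291508350567951606007047756697709331755155642981322790421689200109991428430951027423661731245347318215935754718416315128393820497931431559536884704689634023780491200020993423245501503503553579111383192146168283892353550020036242814927493879175876166690851180930884264409971656954387883470664857321896307255238950323873906191216754872993546998682175542101680172320615563620899058156683644374615705367847046643871124628599720214990195487963781877393976032010046067178838718910194296926758343988067494724688961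658860411649035997322853068804930998975003768874116987295848398349757027863198588790945577241519831578104181173586895597402605881528870360474823923089206883587655465445502946576110588847744466086312725352204212193566769111330738594129825411528002699572926221026019538856766067791170367987467558144819636487512889378068892299450328105903288417197594094173432181824879286277585063010239848323817158391018627172432118492998618769796204630772330454306539503530253113315531051136071806318373137855180311968183329459869036092025073231387457076816462997572442253180763670668558401715967939427494831025774519124649350979646138910225571855084343097389491159438421786308420028370705200092880275986303714046086931556437437092739285134392901354169168765076741326701727088855956208180259208456833420323153811002867005823807475033184472499401758082281311815937332177115293066931439766662319632567439325535657538995032127244172285137986389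639155262437179173678016699090462564054314370037770849340267492689814444045735895521952262039127660694411052852676082049859421755552380865888336987915047172521296501500228025308684380426074071763581076821242845079813630264433665703267126741820527715966006775481960034252255150247581893486791799170290783083457973417038630590741361623632049834411547951807524671588001709631909611359569496498781536099552351957975320955026593927670154671586738234166156844393320611301079150802030095752557326311221455438155457965741009157137838874148022746262337896429742699956478929368882233325356583159704312898773770364179598624394936385759450187341059738133728742552537840413880063337675102193555522809542665110693583396949040383931038413038676187951217699959228105791816661425037999637688363408456499720445281277114765697297302193758844794497145235351858296415513573393075789298367275485631142914288122013785472041103577581349882537984332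003974711825278319569496186224236675349822809735339181957781155276578531870808578231283635807031129429312644839796404363774593274059146532062767307635045372859174083134126574488921756088618381423098095225348738076329744135043427046568057791017956196005492606358767196475069705683224616299977263266286616752533821460854162913637600089119445480196187500784316361256995904011417991682302764013009894702073598041892459327909708013760790737167020632463491698815681627998314432639656616068255379065690943266825371769678437982410621278092998372656660652174820060597557120241966968040289974210210250979472052000830914809318342758611955472670816728282586565493857906579934860488689342110784696595215925394824987498920975434391451658258612958434069953229896740855917239132484044941826973922495105016468784180358817807203068252736638333325653148017075433572669858309228405069468712380458940447683807283401256227852115355406109579612218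3345779302442865149073715349872192156489031043101921964827506523469307866527134673412968389215940293025396982985233133195780608640503281145712821426643961230595759035276112058013222492656574854094166810430897524159189376489275225257590022957539893508556278710082108101965754112843944693595103143343327872566466554092559298612934403058376296957664421117779022831317037658750078710894053875326182175259707120700278120391385482942325608337951737128074945716361307908174022095469597840438454922250868935836309535178439437795619847610436933585305145230365434425553962343466580398725160203935202372371508043511186664821827517041594304717909663746669503300224605200048307379079203496416959453829325685060693349977108658548367490537594639880971556819808606281310452778780572795872776776923249672680263626238144498681634480611206171087693350485455580908726133959768788530176535322623320009243648796752210102128395380968933332801295461538539733152863168124920194588064383104584000089841870498534701706087027738650283170338225272942899560001240761279014456509085463715086879817726495878546806949029828726843662844105800503983810829017898319511845572442952943683819950372399182054346261734044205440978623047437873120455636631760890816581954961111013378058204123161746672051077744791033571280856198847273419994993398906880)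

noncomputable def rc12 : Nat := (nat_lit 84258760712776365806657596505867633195180199781853207041816001504673708014383240978163190052056513777665960331779703819082940580932316582392856017042908513692021285903731776081417634827218516275985453927427380662495371674313926788035124809399499284215877682647848976975846849686705136897948124683691437658354162879849856159805967515522915039859580157114921871652749572389313839014228154277404156705604408872281181818456821104019176390960242231761493341461613490903905694472587026190949209347455834759648150384974197444240563038457339048595368236670904781502222955200042625846204066086204042593179624885042758133736566449238158356581908119272102123702795317200951568832383720450987792117828615761279776469742798213830612741025699530969822914294100957812551650379258231952862670880070110572621092914007303296890274778660477884897211272991945916591774522841911502738856221843031442503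796007034521013247841647255774119676168897764053562937660750719621333396867451483718101517308739686316135605612977321324107836429942384415816918354881590917075036169053652266069362200457372164424061583179739704174309968566493290993242644880505250768008325395433123147211725293557588604376741817990965202804127125018537722422352863778068263397223155162110904348340148955403632741472006349029821414397849150238989908449147603436126038834646946202031957295226943581152659397249370533944845695932077015508816613027365097219958841955756242829937050199831164074381235318032895420877972597993949267893924538355151738897829274551036234994627163187552023594307852763081965236527797770204314925520361278509018870277836133548147010393348000526354824835664068775200406027656570201857949950791755869443965111006680973519918686293647027687675872597194631243692629370803978862312924375364981145640465956441319995337142628574756082728352083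254827991857314869939348059148722738273320023005425989458810581409816382005111293699541419210493625980897935832739094700959856912530040196086837904581535525382136989506534464038670815306411552739872946302085778338619940568029549531244900476627080311331517963180946194805745327627307344135872527768687231475704768497072955684293748179018650294746254583787960798741315224783815484641343001598057451462240305252602050107812065172609991345500970951446645863077951842890400467636994424035951848298547915560665896296584456766498944599186623188146919628549595251757140065681954448495440385106373441137956392272661167350701813631023791495539833422263658390231620434294286560748046012458459771028417373899857844730427179093496497399457678029670583619520694719173652533036417393235415398130534557785084426079812163189055781773946973304311204731766633237993852851802280871799369847657016010964231251593825607932323966391717216301629860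489911996820327253759959561367391851278848528708219941598650165148246331429342259506952324361606017159402665563802651706906790915377096781067818285153502184222519732748087473026748036608775575241968141102497053665657394263743122431348097487276761493072850601238962847506300789547861080552165876245402208068535021606597887594644995473830619160125553418583964993749359600587901927578881603314853482985546459400904061469360892994041463264451717386278813265809407919972005917288821909192831973852291530099750663366286672150552466491154875421347652393607003765751485416517028151478709107447758449599407959793688988546719942924903626327594104650287065399160090138411326686295726576496236230947642244965846115547351068639282024779547045803857433895104341326709349540259131926508531675568699048984155362118811766532889726436378087323218458820650440860998536657158792631121016326784611157534176461399704842564152676511306923305305821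739105199707007587646233102780716267365466079826451666981393775432010779415405193429193006196872905071637340705940182145151623525322577175627860419106970327719807708429265177491849583807581171528838443678480346982286768236090827634735620345718109914355258669567707783665332059875911870984597365592288388035659203552866992990849758819004223238633398264361108446158448593581842386341238421612709589210720372107000969747413426969895925104929669758568901156549956459721357022212734231993390535543093986580590464372476067318931657610840933049275760426419012865245760440518896041416336192040177507280748540332496708772281823190228543228026929108664935699211164693229098881378855592565455875181681262132714292697553228739769432021197560709418912462283871815744861120600849850512849698564477273080148169458063907141353966519433355257779149783397589009310916911298484057684762300083891537733586625577733555544744587988600735320579535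787838684993721437630417418921502776010192980155575241340604448082622634759600049546028614049770070834769181724729438013467280829728768494707919399558475433398702684079201671781054089143768576463784125786733078990041854666948026712046330641969320661945013782075305053173392381558965567364507855527155836184408660635184892423911377855351192026697319031197606164478788692969828064020641540992198098370092181013147253998456183609184157803109800334271935965852013802957722669176512457332191319407196800563946595424000051073709690401998796955047870685721617835076019078894281576483512315881624552335237199566113034911668505567580642593128923629774822653525686356590708238801510061631401490731814992354810260345194179583706015407935291713002517666069227856865109311560630871537398119491505720550838069137760384803438568645148219888333224904294531853453798614432466795077585647523060564381355253973649314225793471215243801004866515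496715966266727997496600945438580379055958386726284341634831867726034854615420199553155426492632411074958496042552530510263186677696829217110901677056815074578207942833468280258415860019664646332667798241944346662193773061433208012753616728064635627891051977118741914505070167862988147870163179348249942252546495982237878556928150414716044727649592732132532035814580467795219561476850495921814403324809229667353777094425851802020816669910497352381813792139800270745798682495572424019205384667757023104290619527005651852412363705451430815861855680153854705713786475180714217545030787428142816494288405509602846345955512057801150984759442253442087688362612745447255001692606023373701079314722416621858620969923590081442740393269659868460167661252912153168151236202785531489606197055807182764293551294661653124291446003185077596715048976078088401197739021982226117253582561003081842105810422127663702424342209639824472838409665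878615264173593128044592826139004523153991651887164070614104245534937906850458659172994683019846805097637966820808657675844011096366680448103288930008297466684483946553043579817488964902051222363452010727967925130653092222225954019724255718413818503600286233229869963543785388589952740215647289438185440504866644748541075429574337164912434760092390767909508830207248677053171527405240297307938951302288409567893589713123014329173047707646948915337256674714348161819827618093631039920382681635226235545249722783392456962887984779537138146891148386368138240440943600716115707406089585382567663950131570609677534936256113505732168270396790275864131664109038697379813052295315747151066788967217986210553142539134470231257016367656188262964655182272686569067966601106958522523161775310812776669555947633800946689418971796810174634465873599252025124315476475711687482706698477030488563354527465657064959582387308532081907595022019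495361103625191769858445728313437366659681602850347651197042409268882848105853005747566339227060524951578601026581090127818488520847265063364154995939778752980538465566820853558709136584683883921045316658192885183867440936241943810611657518999856912849815889348969011955520443295783621072956993112276016112484615811980454531207677341573050763021259049560380479936446082588029821376960884777063754352916733918234501553131688365950672610249365635999856747851181571057861217599484826510991721347093537843619449802329612097710192620543500973426784081771558768528136775637768116214571373474140724896802553244393181561502129248848984127650792164783916131853798577067137080500315098015742787283347996048266708245736659873026169383234244384738547851092786061151323759269637474288949846775745876706290770937886140078985166648443621192179104415369510298804566404675010943714521987980801103400588747761752710055711511662975986140237019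5725257397242590536893891639713503723413957014956213192251641427197933528133819483118721960430291566558141969512844757286297380119864267854928128299533050435699936394144993228290628343501169591975378247806848189103404116131981694211014683391307820441160566732268191209531217926185430515101120012879393212381140015635902204985160933918763614248933774620996292454359137332160109110424732565845386255054690169367346163285991959314361779483028433730925624995774854094382589374124291706882532341743727154530108153440341614930491148518615901753499016878474383206672731953217808598297251798765965781440999965396036366006662935722277698333644788044417036709118534961716286403770007933357024660045810078559597777703729026992115145609231331180706958702154370267178186444754466534606321349782333072279509969167441799138913447385687511315769308224330073663577511270632685502058508805932357136917724574295511469181443898733988297442732428214835172530494553474931276705541044386008747874032228149885407486816911833573597020495347252187898082397875077347221202644518730593968899914686408993923023676510041937694775172276476461604794201705010521517463291705052956523154543550779111699446869031445672453492764588098763129428074005176681301191047306463217034870062407188986627417874678794516754240365850035516421240143803842560)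

noncomputable def rc13 : Nat := (nat_lit 85178896719723121433737789953596404952825797797060144750180521724649258563616698562389516112714458503614739162816696000826693460762283022863538131268750667629899030398034037744775072657793644687556875765944438524655433776791452473727625738984230524911489322554711889095126575539162082254090337895424632976439275213342303703126020071019345241858431994440630973667603490554053033267508921040842040931925362483800291660762562016612624980037462818491272475877288837174346821730584119176493749888088766136421465307242108137504076121806732921288785149083751086212053107248934542336818792187800852571754101272435879971486605006685588973491563168462572882876358148894993671792526482549065448513160765066184446442161602989168206791167914089532057968038786212949039329594014431608291819882420862249755282781731124528257878039098909762740392225212277414021121782211143285060614789196641269220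514907402947450729257059855042616674442063328903253961884371597994940100300062481669211986356103596188812876332537503545127311763911047860463046856666432869514585609440826164090694841672126839303132404646987604668087357919318822949186623905582870261904471195153909723609818010617243153494846712778435593888271267305032803471198046286867519626611240216812824647878480314653944026744226686280228039866030226803053156334035217158328143804097591269350207588235181152229881096822096491172257769692573025381883078078411460360904399653705668366085613415810645005135114816762034075208280530076667509430254425659120788658161366247560679741143021919453965516197317032675447407055656051487244777201685841807161990443207351004399177530542959408819367665558995731088824264800446092536418110499752834134072417637909494266722052472016797903040151390995083150028666970276439881699833556459357439322709112998950384982351997727657259934686361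525105077238719228289074267926496975988979394596933947539355647860231388809159374240420383735701392248225328907704148114916295973325170575518014702482494153742074911546060160665689089662696552466081619400022074647981129101258497393304103961570387524023074911286461982519963091128769898866249449910183186217219078025322858037534489228597117671587961603483202499786921141813063564534360559088654291961217759651239163871157378398188672790797868969241750770887683347715416271599288581364416177502856890975893218167667478277866268332692508544358491021733695036569334903421158293732320238675842789518733378642725415020021368077055317136637164317759504870970000625565168864953562200320561131654336444883917705465923179045012797402191703844949954123962941261318981153964553410965276624892266516998771982320037343243482453667342427500673910041857602451646379093584655546602446313823154635108500482618630978992425613709111921232773578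387634169540077237065278108472673816799786768441288050333277366232607314155941800766648311566629746465467753221397553781625001851668131244268711823880714011393029707966311391792057191138496276576502561322545479385055080490576613795529250335873694650964750006007296658891264315927803065978236873662235798271242643278502316712501580801662363039926793943480799674321838826714210882833129929184711458329097191379574482560727377031219811046714198014531917998617828301563736351647487868238725025374360119787388399668775373936653016025205608615665062039824201638490241963610265998709674108807652355911913274316310397766004559591522956052341895761999673604665232272706517493984789046268576974417531872475524391414803808378768790276579654687370462391571771680577359770585934123199785183080067909182806002714560403823304897109352972805659920374304547128511718693513095426186621257054952256360359859101364734973061459100675598741035507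812885369653419235733980423682040907137321506432905694245818167717019423115995614536352999738258437390059125340980366662158763996040453797434498930137904719654662046751425803415370687477279857567265314764452473155584921913650884630399325649136436726836376519277266897732228602082598074721340103090889141106209969310719623676656542338244451643125255049771263447654884597776111613688377864350490157128421652011119423463236261207322321181962750568275190829902332197660828065494798779965549815140459128748664319167553740787051524035779739929485968642288026740731426797186970896467661086184283467872242241678725684345828927405811774899720806927670748571176949450487558399010823569433372728683314131125321597016607948946381662303491381933773267828188061801669228464647214517605469394926159400165759535723131909655836738839349912839736542272069395587307807389295783648347095753617661253582032109407488323350411852219202626569542054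620484665211805397547285018813261804737633280889788373598109743718296005077198832350305746796579778682726038788619575979079701562793625211227280068770994973202044618348220951145627352427260817255176793829060047552856397204957335491172578158555450455142488841048087577271379934921425870677546391397085917607353828351487544083265959471683417320092407469425424428127756629765889858475467979456066960624906031292412971209370770288489098864590169506542610796385246589961511458501209542658655006423811424283018258205670856056130993459266882215089962322290805668123411828093846428518842685320389421542325502290439175271527445448526350794531042752398358342638536138780509729036832770986312286831223013497949158471893749599391729277273581682011339939026291586160220250297318387323554008526791937309530687042920763251041049939357324022604521626453720362147633098536666952369199236616833577683647206803311770443102588327940783600455422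037907815601381319004714911131104985123845810717970284203504001941879378184143976778968674047420080145407229999811060600085102017795831519003165803680073618704625833794591120092430330133955723640188919387801626996372919233999350970944887243270208275907663711708803776440161361733433308829861473529668794983167401625349683686080462947618845637417019964561842447356308730519336669715099708679347480739258514620510204256215383383950235036921102257745192943103815196885557854066377935058755199899101482233446302621658763857457481703614890058791511380430686086477441648874248777127460528915460276725176182306334211054641580311862883365801659340262352174986396678839270740727945288932406740886359936594729037432261927689077647345410496168077201751216233313562959423797101173196660025070762574865581232168930296946853415999883048211644522668953936346875812427435059950671855162652283616278102146123924349881692340084077226141270791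735820226021821861499488970089125449084256067037862304268661566173445592863261943210198862404767996858425647518681045918598016858363195127182019447525726935144069924084700456332478541560941845423687189879872915263741855982943681868906956433268473748054636895906875461374821791944565969471027681094350360427247463877071554177603148219121297846825109279303333598868696302468493704920272516908000359374464320741572696818255354864821203601112007110603462737392982988192430070751502995931643013854102939811601814994335813571763390125594788490398756183508227155896212197622914269532389383367826912311636295050152374026067266941899583936877029190278828989666695947843436927945653708177032507846647168514392228460648742093093954463418176424073676966407058670295225288267162041367136737471654649674408491265677484271638982354521540641402158664629464660398841276442510138820230798121660004338712003444161793595972768867812172483408442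271634422612075424494862685044346385086927929902113188924908452521240974269241749006053729943841681046143265759539855905565860342677303511391114043693206467279818273343412254878202995618254926926992388790507291748498173717812985440061844690596345701424831967814853180895861108463081734356504765882623303931441510693290121193899745664490257861720800705465385245042852925745617548008556745087814717387893993160677426221518760848229165670999667835405946679846726725740014425539264196599247900304072077499571920961724793182470368775862927898829373027740802568729127598200935758294504703258947692336668481398453317765432973180043510469411879039558595491876835096704009122146253473184138253992337114575782253706825969299166792491866773896010332447492244240027110933552722081432721057020317745293982731699835658132893530323406791041583556858333622902458925191257520442007774570759518456924077192517474743089144162588962820165229106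5619294122647187748500071127210302913354893178543279466429124126064943694427523115020913046107326292586549483602548287501273814401858065679208752455487047381785013865986361158841407155424101358662332769788121458221601826232166238772180475683211036202297149428424172125834796090063640957939401249286000488721105397913231250672823315456354436304902788374233437828632691605306747737258273551861158143111609919043955103562208164365846084992040785118917630631676587420345237174715106579805806556230976391066794475950103443383097414131409918566198764138194703985953122326528535383539215986284505049337670644918305748395276251771465254318320165041772534890107494829897607458165326618328352923835179611673320699880746018990181749701927122202926912189056704644136890747210031461750266406089319467195130479555706195726357318525367179609479294000617833219192410569780916282174890365767218135390106825891741644658920241291755366539409788346470672830307830808467310888870494117894705896494981235609340002985215282879887733893070660167491564820051762616352856900945628223224642362632947095283641940591099708514083948748646427731952287839780688853319213407411164758132023211993487574826588418298766714183971751924141065231103908647044609663755521048995238095414970812883934051420684202554871087026394524579660313347116498944)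

noncomputable def rc14 : Nat := (nat_lit 86090708819756671321230697940044266285823196433787066293728049371553324683754036603578961145220068027721658056532013096633768069914919177380309949132244128543848110710795221652156075743098488728443790510410583347331554548751572281150712200682464276734730133052308069674248834219030807729502072473988508164655865500841769743662056999863160348365738526822822574662149606026645869273147720556489742436407938039949271224111396499683371663824946677843319851205974981111602653905425092666985921648256502655566836965357625364535281127750601587314404204165547892369824570377814296352420547279453201004716928424713703429567314174027904630197470474503356612778137240667177166031888242986310694786070569529527701814404684181716549643329009766028107508069212611568151978170154264024431191133847192842831587710377101433937779589400839128521761137181689244964062158971480656864214159207172227950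412848666822438370023752662547390027542437541362024508534739188231091733424445132674871288166662353734090344892538955962279780993329614307493663183611343330971266395947279804181646168952359608511013521314302561651873289462057440979481071203151788160644228232564330889688777095436162762092888568778038412240207679699580447098437695805093235512618953168137194841086276180024483656746613415627252111031275103786483512367796390064791446572404091900539349405990566849674261559749090156486026760217808250959475257426972086465410881588824457428408050240272704413634292537300439760920575029691211734030858675810101423020927629674020976607614211621174349963755697641892701483870965061258214825217913848245104176704674005184234563481401931193636964812113946406159809016439861339446418584766836715246317332863696508049714913148308329559432605412273626463343642726722154642857867802836932807916547467520130579611801796903561289560707396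651210775097075782050988758243929959309772703318514721901720150539171305685249735025380929620708656714053439535944603683319023955794763544308726605656986167888995960063633321729163515979251359718176917307227926669686195813321556969122413952580410293926404207547978394787969100479858350045600295156410743043212570275142682725430321616203085202733522040084356406163284879647688529335187071601187584989460273996959979226668246161703704801417672491790579029796082983710800315201440358976002235790055574901800428941472324133575582977724144725406716984298037930130862833659314801731454761357610455293955990464847362035566730638499927045967147229242852738583714280267792302522513378125938860902353260347051084691143547911277668040786721042740980028652119668600508799055701019842800025699064276091364722749530184263990538027278707700889204349474206286858683957099940405904118010603183119757921403126134113735304656402902705265458291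795922903146016798487290468793264237194156049274452998173520254471598045966298096412453310918957236863563116468252104024748291110501249701781299361742794913085437363062999966198739427982117345033047278908838961360819434979349126870413123616377068351586508542978553555659092849395077769410435371311944148219053243205688731499150568922257221883400770334547134798654722773364270243865340131554841663916304888429873798533784269354136855931342329892723798123777108180161791384678833829828036675435519079817237631266344241795454126494737083655192201805664229735114562786452317562913254305965452012054525892376662972060342883587614592060624097708739883682968438824512135606466781531601985920237461007995563773017018816402103598674956596200072938010501844671932214191339034954210808295699901395143386962420628738244138253216598341948921729115990906189952251560219229988985200845220306459182512939303643439527813300266149234737603803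899530812795897522214000643264941576926681950164449785937285034790351779536718541013812274144119197125544017489823215826564693067447409019768054345116897543648563016134584740144993188078867237949547743334527583809929683794791551175025468666414720095051671738436740005844548655300589867460238192164296889502865533414101598048479007558861060384415236675763582254302119973686043734535878970493344864811627862172735516857579180639419240925940479830282619096366797524852538625182560124723035725937891686160878434813215791363273348122482468748505344567200771723818591495919329598373208144104142908762839921285751122406341193712434855644701917203661334806949998191217009957930514548037762953634159469111535257463533875428395676979387846839767630160666204924792291925661751977449523160544663362429079499663957567963230063805673031809016948408870017594506455870453028005977462847971190702750396382526596837287630461896423682487907960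550774282539411008006475569748244008465414507951168449799236100587186928306615928965386366029708480818641137939257591989786035434562328021953100947000120163281058342748205665021318177868798205573249964165823553551757827395279132223367575689619564582661720940258197169289987682343281322660302170601290618227596732771713741124298489752444390417631516239012413200969100921070981365910652256039961242427939010623974955890834282713427666168080708157744386669887679674260365135791299467896862699064365763374496010630235078943083787822237548758371290117556293031684520729629089962337610057697248512856005572840516953640200635749134561003570811550718313520305219080734742390857514893024476290432333305989460861658346417164150482251289671638433733911072973822276601390470601703513256419738881279171976875313203962295301199684447992140446796505748382235254964946494792083306675547125494496121749453884573063595838927311916291690477701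867054941674564618893256417794183827298490087614381667932947179745988592417233234145965920165958299803261424822864200119100983931060890978550425868269350613966809554142335599713321703899035463331876584354843491477380376355987941450357729123886336398546421174593610586025540284330237210771414496463836486325407886757322676471731481724526865003159776238899100260453106967346304392811025888078186550676283073607538847077819655651372122905930611552196592977477180273275607542893779276061649307394066937062815703702199705623097713128521991174781960172931959567012919325730383576292659428568762952209040508624840910831634132662887634384307925362891575664043021823969842550432963398250098784370368745053240333632022035648944151939628015815926671407220431867023938542993340125751304869724919271051134431112597318995091550754437661795480441467802736014685555299052807152920828573720105950686172351033332831478110964808329103074888448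385386722875967795647180070217743474735913073465236002361024302923347869671921019955683178494613310737464695065648731365655903922409371902951518676242293414177554267918680353774105197226034048074443154013928717252081871824157354685491605650169827552761329490347969669446697099531747979897778621163680738081227158259151492923909142585355131394782363485152108332276325209456650240026855080261527646853084037884259595719266246630592286003943176624634524801990468131037007602023716450498191348967015457478624822744183036172852746443252682274920355457537162555916177884063012520785537410324942194989899893561698835267585592418596764189016050768499844974952433822187947743341635644507444818768211296122770540758667446483382261543044181844010414766052793689188191074582698082312544367791822832064128167649816582086608999463072845069221012882572143485289164392129050990875381452798014188623826028899591511953449316102339550557093412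201825885006970220399273047643055408208242569783615060479205800843785958047484529374913080112701949205045965558706293036396435306552691867472622684263374588242491968612945327962656704233913016312410157445217229214413005028788528201242201938878055330616175324156854952519767762010073230276365875859324419532280669223504924656214766053314543043241247986124673467053080591028842998520174163158401258296063998904408034884670877447913790978337795690758797884525130383381440134140089085444993419351284488431861696369384750598448345947348310226655639069470348620591638195505464480510905595638811276929483008715514532660749308860039685924524972450493650330385372319855296865440382385612481016698813330935447298615170465482296059431310050682889814328887578487823669815568707315860332620464453222501783166357953963920402743294337982528866102850745517450635351647964640487745889724982007600619705676966786950174946361635937528491561362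5851149272897216290360970718628369852569847702280569843011122088416124032433186505603939162741683159029105823640449355118938000198839944358633401056582652569583190948211814557426744666439268009486322965077365432042943950533024651553754233928646225237056532564145602769316399809780012031982008320468903674321301772678431340867769708845000883489628219786634177271541918032044543491059495848699531293004039494284748390986958083227215980421152943070978992951248083967213764362674052740121230746320271275999741777241044775491558590359650031399262149570080212694463460233530110086218642715489992043006185157608768571613081211977330331885561824792428968036646085343770187520646437510271145747280838488458133509032551807388586802413306779429404938385517877882972440080002554615517842624626302531044915789025233867784986302134491984097221584962147948652358733935385195292742817972239979054283815893611860289836012568546633526968994020008424204668003043823103128646307639951041985552380212998916042889576671103363269459758138308647543115648269231321564841904123917500753755340521010358646186236621758820183522787260715725178502971275485825368708458987786644018493355223134520803881209436147138402198211400051707502181317120998893974209878167695996449561225891690222581240601952710950375857867492659884893440164226924544)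

noncomputable def rc15 : Nat := (nat_lit 86992736508188684281811878308141390862428390346513141341316007756007536308687390306804123210109832420567466383190580866050318325409978094606301697458081184624672621744259672577772281059075849840331004485905966655270406273372519496209086253007647707040297677691457480472311431631982280966285379709700038313090635758702304753251538073464800621710546593226986176658656349017388199654020892240983896357753020830861608238578174221701665113524310661711708596287684900435001538113944907906360184218051868104576511074966002666827942499923642661908604488522781327040753534172757921840960765180133979865985193956419303051890775644512936224266664108265176497463384158305066159394038788224906931919879919225430227858913068628352769772531409076009682190444103279794401705257096063918091493948681998554296128511831763883811885076114905226297441897313495750079422905513506877065044364146276773059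003600613573825141438989592412833075007054144962564558009581265193072571636494977352558922056988951554464232781563321596575858558872085012183107067705930374476921529733972715127148896987893123792464052355231471031999742363713609182602461465640946598612963552934142306884104039487983253133270270630890036050676553839211387060421801274880959870818663809945695411691375329547662567790880472911170957510134284651715466749987874072686536188051526494653324262546584344795175148068758638839980725699920542572986459739852049762062409139801770181543796916773820259300938009690564416512806382064792123631333140840941726278370240337221591480209629420147999953489121929089755217699273151762359875822796628804492868862934884074495936493639356093480089568430384949002913985279501222580438712543339926898490702800137455191835255949906836694414537135583262148973428801278794855444554832307805289120570529492949249032225017851645305809679773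288680346645771883899070933602341032806757397148390501060869541315209931436132594843582998219062812646185355549258789697164173955212136611271792253041606674988204243411794966853233051946298526495554625679611601794174114911994207524799891717384074632646740285167435386850800148405476859118898543103443399462441979197231234257749566669167655439211127000903779293946317595110969386453869954773639912896916421209982678438001926714093400305370468130350133895788327997088110084088226759445742406023266732729513353842187786349876239746669573557586940333039001220143121281921578543548372958502982741412139544439250654181756045438469834882316969189456854570069733884935939801763385510195363613388161955975310270942690760301782685465258038728863502729095444702170761423914065200373456973207155549143455127971502136823025088604570545124681833347077052762916671021680740522741012956623135074590102589503152263231405677037278874404865967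541694297822106241517925224220690560916432109522151373486807459246280356833955384736119335709787510596411103863268760512815469172261929538181798686558754568227871269478452286595876084099874422735384469799715669031885261171679482428736758065225273282835244108231808876417931858426031210899924681928833985561453244140684226593123994396472650692425411061241829135651023163314102529077989341242576080285191383331231193034920224701381624407974148361585156185795652147406168216911010692396968846147945687106578277475731841822856134356813243097144793654744244202644626976662711946991708925394734995461133017830195850323610452211823365152519628853669134960063615583435238041786428355428168683028002255011230630330607908585118746519514828261864794937156401711889195308748462193986618072987479295112184527658226514378828830779263602277525233752105992828890519575863967019830628065354953586314490294988128367536234763352688796570755499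797617950179797558500491581995895342717109837355532697330797685878744967284468482667653948123372501749350910700620056361974068079208552558870935341997597008776772548333046867242863871609550050533675756539056794637738095556077620669264730980841884566081797394590039200417148681460047749071643615056673475839867088690077199978669026037529865618085714729043287651194914715418268710074085409354442553211022485831262929275673716189270158396746949933079684847958796603034319313597002506920725102441683553604709241486600870232396658791136001030267199517481210087503677829336679840545113046369747714052733498262428625905023622963813372803143673047010225720782843864532529639293010074576846255791119922008937703875962598639785377217401200493263758278188507430864015843286860325493319325729961012810793300073167353185491309215193915048876103911566604920917794897491266250505592430563662843912303886918533539854657036528755314982954821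199826517674001212428905961619325683422406588718721752976599180984069342356355844561829016060344857708432295264911879371420794952710386248005207480951637510622780857103981525208084974866633286277976492895118611880745307624212013005075008860129315735075344671405326060666725009999425509149358158864418397314521161913149873731492415134575269018604742033540238074231625483771362353328339121870697636953019299364497204513150688342437879749761517946881672050871334233082147417121940836102063591583792898732359903303265008091996945196893499831381660368293169775021404967838757165984425468961360647155556023005013009019444724084015830529720424821155929285150990243041206411250816634894035044184471409430532817588476286760605695094084123641760732609231908762685043185527012254865392051187171175161010592801798024030531361312632858389361711506871500363296510933903086300464980239397029655118277863230187183435527098931418286686870830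025987668119211473198787939377247375291309854885744551629489037212549703569444206799566523438908140085563708344688108133697875320430107576443522409276170867314212835520900650487893457731904574696478818092953092898559905599657913982146283935240228487648741372924684599079847216885119475723268968251667251299817988859325123369357653512264059582480595906837573524640112377167688469489368993445662481254468651389629168313733512593428109811375844411168824185552172162128886024214834037142874924685412243471923304529073481881454721129324092233961145412506301461835748499407229897963138850658447932801105688359972913024790640762641935185395844390853875793500469222736079337343781683191365890808526589997693230266596542483972023920080596622866605627960516768476824859110765015430300753271054589450425053235280852564767168347324631374922820872659940734638567419010803239952841963294066515992498211126833715179785959984686045624819193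793100810462965827343225620406014811184980774794489175745693055741831946627196848923807362174618584074486045756784885922453125540492759785621535116784490300813322061451320309237752696650362262442002560132597579219810649944898514858975021179497873511755899122765958116453789383064436689558831605940852829706236270888065924422094730012671653934356724512789642549027543691246003525242956949631300719573698888170453947968493779418881045075987754781379401053916744181735712603784885389484760088072678472063744437557052488871315021310309156662096133888763827116002823466400816540426740246621768590931152392908435365285772577938952667939052468158280277488535100019449110973123957843723276407769089466605867079046254219804475657349303708282793787299964413494934071413975711032374867589475666942131864335855643530174850841016271813399571757057746895108801125459015724954190879360044208997850402589750401180236275563044998185986307171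683021866331525929566376115467436244539169725714125745464216104974425801982010989894794911118389309346049898146680189866964025539088568722100716971686177200041497562652195243207929554686016813761715897905536198954007314503007648745681610954875687443967203779901339539812814925344032669109376096037684590568348167651571750690803928492570881060682266046560126578603559068677194665499519150608675408023535323560456843525819454120561813380669236611052049655650268738938385056279225844399296563017006100620115918840484218876190560315630826229271623358610853059841942069231394376890638822248275829518626274905455470755084512863202087945850532065834236941575894606817564275151046693204620410582520903180728151855829428886183581681313230877569879983842506911944461849477346630309005015582243674787587423135828815395151267017651476351448037915851740861071642397067132098733021546861262182009687098229218421795354308634201146253976565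7405108072504203896420366793497449678978404469850168425472250941099079220906240586634936574510938760436805467079740567229881357434908966110066319279845616375857283774322555816174070988739153490535062978807442085432376378981014817013205329995673291585186801522826289266725474856073333211586771317526496391003410388366663266464821315468542295387985520354421157772114945529228095266851005066256585653837769226149081413883335970668726366721188218520041522596047075173674876152735947532659466830541852494364244539110003882021687278334431371684711957319260007147071863421477145544422972138303380843301359871228672027715573571291760728604366394635331500939102967475336674097758652845191431096999227112736350256371246279032675709045001400683381113444953115357359280047152803881426416075949959349686120906430549021028940318970726801780539729418940672667449606855040237116173136791016795516109642035470598159205677485226856200901996675698430626771173955348561166276650229359301491270752094424979655068239082859351401814168351503654403532214529693799903425172979865518882667112897908973189316797602832222478371652968165706861173659185626957032128443811706869972952419228703547627566720817334396428486529229153051263414688793898979382314263144895667482610336640588744920481953562301737756893565171558180089313343381176320)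

noncomputable def rc16 : Nat := (nat_lit 87883679133426617408319437056066768521642630347506319462501182322645834758811440485258929218552035406628480101365319104422669359982041486320774806745220943211354932216516382034061172273103010036052132251238520081056175747064329707690696849396774743886847240597749439649547216841586724648734747208013918643620989608564160683311299260207643854918058620220566474030444452474363235249722791631957819662758589100742912025094156685289185988197304782803593925139453597414373025450272413826075096731167723545254748696723217431388211784969807165545239069664515418978481845392478859872251212666626007666326091913242117367071928410645486931267649187921679561817945373184846340377137690392164933733379596800415690157288344045162786362318558852745307327032088844757413645521551642388846732897476609551158585161042748952222757399102800386504339324501849775846620588415059151805192580233913875458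544359915270709000343833996296835047801013738700987219319887257621249871148374341649506310519203916812079578991066366037238380828576331093263065533205444865572057991765363528920544551285076254801792992886719185200143434293700050897288824085565659721152195414842638082381908080757842393791698054788163174690064571776531984654121130262652463740001452954217287778266342014498420040913146204038780191273195640655866789958590584057433294560924327259768165411679647547631421649716487973655685885414126223269143089027101907036948471709148143321399986658837219467333755040246907688445891678020837344288703413170444240449152494391112253729038869274537437916572202206014410497174317387147355275863915728043219804862649856821711660398623452907546459101450669171138665517017705209062103255326746086841680042884415659382873685645412182013871933086617174968944568814702841074358732657826015274513630052959673308077723694471559212360104190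798977983084938721586700886172960628227594814925431520405451301889006433640614311042319117139407909402195153797980281353673355192586210317705931341162034333605993099704680050098510706783957219274651345815397346174492860178647548611514673893848783147965405939504214260576250971274083033242206509536415647258468763675616470643103707485401471663953948276287124094997733000371395965779192338569336050400958019497076794361558241897716603862121000627686278300511857860840183550275404881446068168432032703171902324918151296760310994892555155927295003151975848130633583900350135160587907022156089121208163562788992091597928795497291572431716044967113263702573251174542679181536606070320336215216474765323474142285350621331629832472853256271447995102453033483610517438507098106233581640782197088601124161018158135775359878066071800893800229818374644878510277993438830118643546030611819780358871826645136488046735800324121260450023992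849857058159771803732360670644059450021646447588445591170491797950118246170597927091803587298795199350983134876655773905493031621570522718687898238629111891372124446162076092636301167653285862909617442061135845753348671592078504253663357392154716950234369619123055445604543060489025951940409114130115320987241656644340436339123387600662286391641973992748998102635542230076140469761692986050158034498906056262307615318042547298278055823068261257037531904192755004491048850203290011751872420618124433643767138264267348924219182172525083145834726576164952721105583380472474390885281193397431568651909707002254741331868105128254226502166858819189346265717333756232033625533276964198432502509793818794718493588031532812059314980747951694699702585731474783158396190483141000037498897435872699803166343390456663696678842609939873617273846651737330525588646304400182097927213062966983053759772825699415511041310853661893380787816095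225716497035466005860255942145344069325073896501662508986134927941948921245463732316957309559061605548240029406022987055682308922007728132084717043504154854809662065742769712692994190973653829064700090997489798281125423740710390288913879209940679250562762414864314616107114851322181531842443515716847998043986854865338764435680466834584044560813650408002298491180536798123210820471553874981770162904862668745394709018537939379664588504135350542505385354528181886541059435190562404977331512028574384114295758428956290247502268352821153781394671481560351287185717065069238668109977583065131437127502949140863221555942096739765022008348407735748207743437135997136415661640423239638000823234811274483147996765719798606999970589781624102825639571549646746292984058149460648277135256707801540215488177901617779023605929448848960786164875049315793860335207145273697007182211687318682272651051796662291041675760256656117896396371857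056307936037071343528994450092915358423757938445022323397021086494067798467138808836161419856631345812170151377151317038226798757736195453968626764678259022053889431129565595621835440431356688532322164180452682874365650125753012427373737031167079586009936380922767451749481269055680122899853243018433990218456557941643223583864149660737051423220201079290595879999354016773003747516761079624800555403296987598730179499348886981293994435462300696022261208114662906107343838991295175185528712450113522344460678372387422019695509477330039433454389807577249883892824891775516742436082703190548536896660550569260442405724090942505527236248644431723858814412946068514671841750966649884169341173410204770206039112062967126485427544927056432584627388987529411338858209255910021243522472288791248880619757773924841336376743848399906038131800121447149694429547070691264588523018948970615210832317215177249219679716793208463290677485639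248211623229309967173496581026383732560544065260270868941148473820389691621724449745304637969969988298408811446611150195396263633252909028921796765285889267377811542597303534468323749377476555508675364231710301242299903328102662079799282756044602166732453578443764860910866367277442585005602381748289151740109819810113095561990696758108676078895759390113493614131306337125790442617041278600595224544443659549993223287327354930232954598710892355391655500192839727028779484626158366112322606482988276781654838155705742767504271483362268510062095636249528176803413123406956480541487028842137689804940836813917071147563638108229687037619822513810576861566777997920165323057250469811600489798578077440717404348075914714757853107305462022599522612196256243391264737647685506735563446209324183675526058805088942663482072248133822957360143179157671294575137234930435893190869647964949755835015741592193982603689860014319278897733998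953386604417912071390113282904018855394875599421127329026767160426934913625415238875400808230941813848394810764124296371162900316280986404610372614931124093461905519399827057109641738243907444694353423190574576519308805461310869674309028775969671032065350451319046753111190583021651657110898407669181418702052547376311164800986114803823036238026088008790686489589956633064068866096235865366072292691229694593593264058304882614910090465918053136968451529203449682820825668563606459884977060663464421857461939299556669680657515766775183890654645319296505034794750355708825760387388456256243854790994443830345475293484597660028774682462040359605770608975106352355957496858261253160301948998621990366023204815664856514171842959210838848631553476669582037752683883674104989362804837080558988339403682641049156444396601409949736869589586503734167481000028182633476892754890279627754315859958969412181001334632501423254668439876682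057221408670068488223687712516672895962453474734252509548994602946270300332873452819566339316208258656154559551295934997573725890695253817487444247004500051844925756665801306057251687266000575037844727667845515667921247286146651415324262960260489425661352256494572647464250827320193199257988187612686369595177029473563105294167182049446848779262867147181357901697431600220700954744365523294920055048266964038457771194149130790101137547669281557899116434334584825124692390423431411708352745417479129123235593239232345857193700352290662767270276518605834094691514359720779961078725532546310476925145115156640797325064702127547148445128655286270238758138074030267362875479230300509065349852719927350175236795420625729606564038280016770937506561454902118691340238814677552208855290998703497599549843913022401011703059107063975190556771097701550682196682108384953419725477401291385490926076639868650829590844436937290289279732402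4979914130003169362048704668371530143770637108576884598570104167573709870443906000480384070368152820819009278695357835835523565696939254901170180525845196055781772432180280644133710229526844718748182718935287528820234950924737786728103780022174070539274839827356643573005986470440667389120497290974498650310281803409100367972981216658801253838622236446140084376928873871972952202208690788195708901984242023064061287649703982789374694066532362890066310456153308786914009336732813181646751311934142464162227694620756378597710086533479608308731474146332513186002869376860679427055725758346337797018505620492128191708381704853590511279191738056501457661216256214542249333868542569192285528515537691212048862450270932729807193684566719217064606105781770642262832331266913972372750084530359404785688827821531094200942489140541825417922666509352623594039596099884433044456712152405836434623859209602051486960626925844062425072337286576659679102519935331327120811181555231628572799720068104379810593087620080552615503576639036341863192019483567110602532812151295282328463269330217076492068214057638716406341892804675697337052349624688260545215236336166432838480578879547736011630608637099532131757259138173616896962928232834572356274091094342220077656698705420942772937109882713185757599609610791178944138365963862016)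

noncomputable def rc17 : Nat := (nat_lit 88762410020987962010321359657491550028517718132181763125446831711944442379392378900613323567941382492899232432535913112306459811517692436474753543493900755530162210850094538158286953894886559361114365041903539565400631019421309351671097009188822472575697760682853516358069182532406041935573406692600267130390611376608971170289598101233977648531736094653526458755813179568753597640733932229266585199804355353182310335273687302298112878646810919570868169747644312746788350039403636419738861827563966062631615261851961490889253208058092375380402768163516816173402808643998935592383504618344395370668714218119454730446099299386905677513235678871483790129387682508991739137977992995395375600139414919154870638477762701253289630738732413674030141706894925095188019490729540344272715342391971628207246873044151576683899647263572597897903312581815219015601386804978273242558362348527698503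882158829692615968896374099921471307539513640863339533800781535389333325762779924923577487799327657063765410144375572688168133394108101542488967411812517186417778174288661923594361000428176350187319318253182799811364509242147373612947002345733772300527541483596333635422762627402840549643883605187610442802529339970988892011199544807967117814401168376554584993172975353972455904301181813395119499598183079314122535229389450140392017993323265400970822262700310901339333505634996141418522354029423528605957020079166696378912600818204903569282777582478719663203032146830855628067605061615609160217214284181865280439495516100299390470102370936923268769444136876479742826773636260227365383563979669519430262438041078133354377487838264730840125474064698155543186433487118720461609487510501411649557371628288599300458016957181781471502186689249073082690751589192656837342342863737118434410582782598720965299458382938848461738089805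410907433411487443153834889991464978342566615274123238907767367377915494303539136988235450870838892775845849287461302601179280435698981256371843154228974563932012729583253562418248875368258475827833387942205273409228894584246338924704824605241048791876380375336598890193918351391517350096932544895906933410975264620916898223670899984400642711654523104212314782762058360703849046677264948456626897251696628183323634605507729646152647542772489300842028179908158100149496764811743997137577335781887755868170295542873530719457112379716311681265227072400265885473554485342247427894146529498821239941452498303489829302695450247040080215094656161747720628017901032418841176030951080951584885648469938728518675041340673980383659408979418135369816727579392076391988691071102601736466499670356780244331507535697000028704389079337115119073115045799674389314659814246762141563377243225376530401224515198571775211277196763305923925824300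798511333388210813333262438237043185836497922926622647243860026882675002211894243315081135700444171896953284835775474489411514127603440931677387779301779418911296398939116869284807363312348067462690613519210383953339408094220258694341597853527047659214781610265063605394197654470088745757883322630154460635242791305259985965905576830576728995704396030226038831411994478059802950314951357223992510671479304189322539142923756334667193519968573034783838481724557196951354989777340248977651084871909889606917637582117363793169606802261670624629111735993250234042253913867795250247349626653434103610283786622347058502412635161824281771493939512141546883397695396621914190093975319669790634543648082252982216327720048315072614451691327917787844818893123243979776755012911576007389198442530919823076085947693488696347112830214297163182368440322948126458710127075698263656139974981602451387982089162906078740383260439086719146060867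675136851806009116086664569791401943942684059772994476963018092988607410280255595330167660038373508360859859182422294102494924897147437224758294279400698307615660313409206536119325676166376988843681861843686881088763028448362329321678376593841036667279512245966704110619623436471680562143938526387688624915477084408508067992662527501147116474306757637416528816988262482616655637580019598987745285151528383194253212320334799078664129463198884477696041268523928464422702643470417576611320512988865455136584213639186038186245216960608748729718510295121525697649786747166481859254126106011786328643586204221593222348208864409720236500613557783976928029886205763989809478727043335514067519647018060754999301851396942756795574411379900411465997297673191891274027937314149658759205366567262908821189211469626050994874492518950517202797311294572871423446441890755399429134731690634657654530715518749907841739777986394721658828306851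257340730543565694093194288946921862043446456153176371607847065032159443863121152951302016748678909677562385392783305324654383079609637426652083009341397003031981321016230272734157703228396293885488531489847052536183580156274974930611402235573974099238345574388024615994880924064819061971928281500882219515882075617914572623323067852516829754850590509455425316769361553662109736643581810506144362118134532963425474485303605022904278163361600606444180189306065938933309052793970373869450787128771923040138941665524477374723162034636282272513020640406138363489037440373927586862854971743103737815662620533985484798351486718569137908288324268907741057728547406312135561015326863881498512283466185403655403057358865464027574030630060083784201927127570710101379479894471289576073341152245133976678037749016120812794827335401620517888430353496694367510966616609586111312323425435240487474500424929611059984891715045715819658535311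961929782028641405891118159558522664994896390520696765764861765912545743916141751095345630025807479704005516646628246933160297838063117802076248163937336239592873374265435686880310026486492772086588235667753188769257570076474939603471237416954480208382246637405656439064504447403096980582834142202937069080321056689299965992150475649301265947328761798260719253559854624219391471401616215024467601762957631450622899801718229722050210889075870647331450356711725878983226965485123154192153913195431946794666260235444389942178591943690700445436489579931343170858919672768735011074303096020541932494924101487177008713436795564141899907600863714647288576847867387471406919773843566079079044349939708296651865576944156074570360419634502723962903678892335194906297807253720948842418672600104449465398466439596164128944877260299401121189479592076839162565891774740983702330823293375302417196827207566065169675529417019806101201110182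997256434628536392571026922472788088651507491465546351621280737515223265076416665547780448425118779788060801342742354047315075254522119103601291068117730617981706156313068805882576946142014123986312604474506127873164174297292618976267916796354598957097155810318396556256051223299259326180900540298115184275922124811042136566770695635381840434423110348217005108883862549698452283639328164906903077042652843749627832573184212478928664285480749678609302546656659539736588447287402644966704117443177542734652941349187920494897871220007807563928477213365059451154145333060729018979865501593871326728493232519253712590696593623624074550781284403611595552341273131930587835025518967478034971513308932799076490234451218828869713088775234124522536655984415532981985948935382299616158597260690369793013902433007977757933134690646751421850412835252798581188349628418937398661994926787441252575764920884419930501153643368069205266611395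535524139332704921401478755450789097535107072798452441315299208514422011980160523433649810582552831611935470047336085362041621930602231215138807437072646565483651871212079602823554131091839571703899787689172193190519643584580378749115356211749259643627838752303436230766529207212297111633978090069433334511074078239015198162821022478238875914528594034669841681760372329730934264148413843727783327615094708713804861105041785703946828739012022846460462275295146323346379767206876273118007447495331918897561267248177324134241217660421040339699712201423906898560438074713749169483116652348912824822529913932030745788771129257627550477141992829110284280639100781292796278178260206724758880394107273579609564639325371805363102458144534759921828884540907185346523436702851948841533696075413061923719461288831042299274943631737178651509636692194228031008058215734074690715110906521966670662086982310077092288198029451717145413436073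2049660541367417395955674446493119341955106635131138370856170929619752496615461133958966312101698396090409029635903834947282563141059783796188001703987479655925501360929827397732668910727829951052538157081100667328605150077956326205044296413135686045822246384739620259862746326876991077876547973902968402604375866420713018654031686018501144988814857475776961912993388828294859202257558002212679931166865102203554833371201703680083449736175997990392148990828023542731046934797479460940803882048867127547256638559760268633039659021677225992276731429081488441010153625149215070522310111655961588884637815399565346024556487240000929507882518511549830469417310818208267989999362492730240429038224373057136678998551034328241903100319376684229593565052921491198608475525407201243484755216595056832514405070524921910239708114680191480002596422493423105148822099492177199448812582177302664513027102593194078574366292099123228318977142306704252585573219016757240286246412777332380334081944748778539205401511421558890109972191228988702157725560982721644505987192183974987488932960132226794427673296267102343781135671942380945413684181127529910902327072234436748372741594531555669048865077926843241463833300841873745416907973386022977105437640116593506191129114231764459118079122302217022748238901255616024466084186816512)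

noncomputable def rc18 : Nat := (nat_lit 89627913103838210296514744682206256875205644067363218660440834758696515658918567634005180828112940107453003541276531989862169538067119902723323750398491420046493876070986785192287639000616627898062921440679451487402600518096017989465104744152803904398132735440601213452052356279049447143312892486283384354556128339577380030569061304589230504244862148819214310377574242951823548552710028273303942852095326073294085645484195965548431907641317821173065270118072373677445995714248140374688536872862826806349182115097158198946311857734297216464082445646034634591370093671377505884823355163619709927466022691663706594257583654949776650758631617763135483048978116516705845559711578054751862128143893843340485157410491852682711335485117264524815359555531951143876041394095326122878333455725154304019119072476919789414923451489032627728638425786297169544563467260977784078196279101196438641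399179612824646601563459112677095453848682725834830626849248783300530587188308938972168840548623656542001569954409062705644017438913699122002342593676537373968501644277116436480301949960543468323663239031351674360325321426471447782364873060383830927651114976455926959447374460245009054608820435927367516808108474574667720384314479717441345666098310311596465258345389089279899127491277127257328042726215963371173393929872285908463559576211214968514464688497167925649006385963037808250563561012433879280450200640634510531448875638342210178973667372282352229731803272330627532398966554558320741270882961132186942601891408407283301735834893243343472036541676480134154548856279154569560622291767456676120465778408722492524657527668681266904019595599231882315431766508515826391239239558604901023332039576801575418376605225579318004887045771689371487700671932498578401173277024689892167938690240039719589177334529468673505486397240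350079145306837015671318872005380978577200087339670521064970855269690020539579079497001982756516779372558481977739557963451394519102351434229598297606843662063147573232675099479294405252568606535070404231632790841177068364400643314520776649333101368521879541835279886101037209963402667170778664992201944942918114734699264762672913778952709305783145944296102828328032504805835925670878865531428684701439974004096432375597126103211577218932919887003063542748653736933176127695575498753358357761166220884544660570094502086541173441782237936695269262229735321085575789339721267858341500273785803320090665170090356752779911821926020769874464431006621085516724033654351215884195083309465525022111632012627690597769222663505349837516466559575500740174732435965092008423809208040110863547332114997558894080836176398248728113647823339145634869864839647871911211714696086495226506355325828925418305872638797924448464391225060704037568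364974951447075265354583491443366006543161082712672427263957877544370996818719344416716466029762222104145869254264573293406997342207460860489102794117507266908147502493675241381450307108365562858644868126096008449638395140893492155200832501765525045388692839383311103901781467683316642837030645479638308113980495735597366230385603032240738208844554334743219514843303623420379772905026084201485970648437550669382022654547667200985807605725452360758384166160642543435967442234038864629075965040130027999008347695539959693080808071990779650847187794342211715263797842795044956243319060591330411087893424969372169451916461652514044422651974380018000919123560346557564113733717034471585777134135697870717921310088295130910343390590897807263244858792905157886037485583017801028369683463668213658371853545300663152877557928301688270053316518035144794776919323357969637798312429826142813427819800903284821940138797178494487443125998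401407510391174160060631782314300619092909059791700293954906672243004370562679100043806844343414369682752783250091001957057666252361211211888410711958578062211676034155679605666538619360604533592663503864109871891986186034094913470780477865932405589799318519697968782412271775396938680158451839766779955635178411530347387615523686420535368665065798008670561166084477007870201280317798417956574490271862820113827776675483389297234439688986772749333876590737740036654032845171054717834996369185948113782113309716749442605701015758442847826986143323376576206362449930647120350011619816792961249122626850367966473204906492390762777921474217419275814540455048624061197235138796444247817449418643791154387812275228911418698719504384050949700470533219755764655976201977653774742945947698981840786680685349017037270673752069204019768717356708679382280817880702334694622861475641995537223661025614738020080059965073547115725662747683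238031569697811262326354832032602836572095150527095207184269531896913046087018035904212605039093807978112763370019799475662683271072990810732970515883843559421396196849132933496456753391534732097187680841197559545315061772183429591537402530519603966426011673199558482726980935734996668720562471251152154694417693231180744832980781165602750085677404063562176874142118220369284787812485155190311892614071717868960703312527561147752826439648482311626272213210420519575172318201304494841140163520759799591969478348505959539687962595355546990745095702509604898183115820862942819946684892067934887910361877479752352199731471763736639732438502614026588484305740670923460010488650344369597404240454453904277404255629899684207699717786736637072603028966926011250009686321874436904411392909684871623275219916779226817478211405112547034854160235650324242964448832951004721593280074336726197806473000014641976070079712580765683339100397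142457021181506400137730662886749934479827733358606642007672413782483080422845557861692369574411810751167066070285502457994859544600224623556995797892028300715311467968520410232913390263571009028459099717170411029028646930532931804187121055128334308922976337436612230870749991642342917456218748178556086448768671218589622333904178578892896738502327962925104197677496951148640067993594299579513000494973303366022187149430242707525221243809635047903006026149397112355596538811792094687457982797824093128394473029503021481756709333394893454106106381442556027922967279517271728390156557469111582656766080325226513416238881944051142457664624882696977244636427025768575870855267492492730234109346071430123510487085288132458563938459143404444619488616655647591057125280431414187699007317658133971571800164060351132035852292687187398542361112539876519095241651091881257845226380987362054167303470048882981131337208029484519912060827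799258420742191981780273939645315702751679751767543615180815407839943345318714469949730074348778603538055124587061354288307731824716775978695769191846364875908013925615796310680128610682645214594827376676635898020019987563059570573055202544603045317019341686141918433437534730504508026902110409494774461449470745571191521406747305688885175538297151559391701826476883741376238133196705170102036190086885717160357850101926600291110268755504522938804128423022241070642079049494578070286011079264293530593018096929534515483525669711239308882184684334631245655678105072514811860877472768166558568827231527607295035194591374552451977462419422373755808595318871955501748146328100272784342504959964617153913456525056982192265181054863319219729732335059678719623089977877911399550374703691085464033498593789392897578469383343192171951995024146178747714063656600564052799752521570111510831522722285152996149302485578608659216738342992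403738808196651697048835847249681500234908353075516739823714551447784114741288225846852694572566460035564468431728953644580437666670423116424970346747211213083784572784771189953176594946475025808448429338561943501368126625600430700346088902086756714583258756301122554864766354449112038938814766915141577423243675780189489419059780795205669844611652030872591786117656885755522355094226929712085572950131633370705595879999216926386254272641928324699871960155049520439875059471643260858121869464933189199294951362833059354404844442832854622747544537378068059294468327526159796889767593415393278150321081049341971127067423645945511559235000399145085022974851188439979554643438744439008320272882798424102493619168255681558183586638275679656726905363035141051443235808009230780971816737429072225683457816849358543103532014108232544359330549630237102382326761288545719886816336635658269842179112674233647844687898572936435495619422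9546289947576260077108522060301098338023818459833575724309628529723693041838871617263042834732430004899581837224756388571933154679813157564980392673792031448163474184534170280156135414185888288529183796826597912214307775045310392800367906072878116950762051559614821730212044185644241817963111959194250002165638017219938008567647759489639797034652840398675561470136824175773010166563318493142044062061737980672876447607967744040160592794131821206659788278783545451832715081346006967421485441557660056077593861070880031683127465119092009484239930875143130078222721044819343264400072773364820773356697670516092757022857369262431932203817632588278760537310486291713286009654280070410230729884783278794028269779800607752051392586526651053763529380251972602006375659736465122160005327723904589183571303544279324498420878944026234626517855456182960139509549867479457203936583401341549416684515130824944595306325607959985520838609658804537562183788906205881180546966862970683593183598873845535201630844638745633091858307573885598001338721814511463350618200374139045299191221294169132931843348499987479260928534238439308880607509596844155104342845996529804867935074346525268269835639126772476638686859409155706966541738848398897945613809136554353638812621585424285081252842395445840925132608897910593707489865504915456)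

noncomputable def rc19 : Nat := (nat_lit 90479296779014597724911950351340165572486429180803700198102541077253394199093683165546037252038055728331619672724983564600966218359257581071691650683347990724529841593276663054535865090590546534712167417432151132763111964362433444797317071109283723864581372393890832010571678643273945924441165607884088270067627246687685084289052088870200847331349699396652069338225961162050226031374205292164305815681082143054899510677707103081642410090143691240641694074569539925949014496814648479696723121223080697938608653323790350720877010477380637197978462159986203074705120102674737161230491232341175269320866589327218109128716079119646425065172003473231615604968356171840718090273169717080173344217988845787051684491210143780454108553813538610431528233711854912229213072033340605960996212470163147433696926187799516636081902298837272645082364295800207158664050400252705159801658487592358987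816352452328615835051916625930614847980231979130189435453328802422349903100211027246307917092413743295801025216271607039601741982433575849358767170181035637488777992391896788228795564875129513331431044985647100169021630032172847830053921821602142784358603974824739968864564276432743635809848194760631101042372848552033310893681392808941015269364092713160141599375355417825905133046081861828647221945150345778322295180248808721995024132643019905771652883124665973772689532318004708322345304195976659923116045905682849249142117581233790026310424679761338559760471074320133920591000268279977154660125554858133825449560081469052164304740452333442675198826213368801719678862821287385542190442548368815361001246351583276798517664837607992235005766008332256682286179625886515862571260707155794758488857574935223207649625035742182091810888496782994906350762559126519501046707493718320440439205855681328566150532827548984610873529933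183277643406833855174799631032677175044365599788091637877278559257250596248175786616721382276891113620702495199356698899381023507863912122904535896991468027924922195235353767145961986893044919776857903444668658082614261329298948841347664810615965062996122401150686824821446988382133127844155753189549246490810874045308813803779802959349688358038040353633773494410742562016266466699001806561053699079799687916617734989055284151459807823037018916188225877463706644347569329612086345118360572114519299824174520483782417643355020458191097286999773025267735627418607915257811688721804316354070339981580040979641369572444893866489999916825261857502937467502216686336848112335541110197135208303305094618687198855914201045806009024476194380111533967417190970182609511791730262850332058006468613910731910457845163334259875795307633173306774803963870973096698222817847623458418722107305582797040244816098304574848057702461229086294309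711746561088701513897611391262583342670062180656802598802271470633328489676943264285478028349672204147159817732745481156077966777592086619025628673119004530209908423307784940562676883022150217731962513303961643270454469712596697625155502138211971881148365781399545516154731645080821922478954095478094711804444579632333517071270286896538095266512630922557871172654178569956109109747701353454714532488587521562557463433420063259057462308929216878144745522915992868749898670778011875474525946514313228750960773201365677307630535725027683204347089092747913456107795378510273479985277862179285409606465420096614829639302490478465991289090088427455466050419550901461028978477096780207780379066646502545583631693507171128392413064694066169234675964068451787891538423950017044177171253738806563806247312904954615084372149405964669430741603011119545115335668189044703641578308758680528959488856746367761046423246976069960603196540235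078711737179587221981758413542402702176253124870039705727748599193166973134162749521234114166693199196609204213965436168415359976870952771943436826253266366748135961361586394918044976041809623240216036378647150556904370052753916277193890739957117616919774703486762691234612055878161269059065069660203848545745527419634753629825845874521965158240582470495604449842313229071751777279343854742750475491109062560885803722216283852715450707442152130268490693846169109595096726489407890750958978232260772472205974137118649029645118678285042967579259437723008542429512575531332046889930419045019498801090249979020859110301639497913288239761958699060044685449201020234333455745408994324750452961241295393880158548682489091626518724974158179935646902681528531452104101141661963491911885887152752580159786287225801945493453327317382869000291647938298161157791638960121665806215449053641535767748381642546806576016387163162223831038483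370192936953495633218892748297587006055520528436420015411366382580348215321289201184470015788561829251260942322343792613088984796385835436694457314497071554115013723574581941279830086442396862674039933376338588941695066588811632993130449502702136434723051838016112441481965723040623639043531181910102969675202653124112693467257654532138840977540385296380501274640192237882518971828134050457497888764216959050110324684059468165975433751588743659728676095380115693256342231733635839730965004289918992976133171585852929759213317611457420173900266035493151440587269188345383921154508522874628798622871624407586233627824865845722015789962539643654422620875693954724100732795166884743496283023718537756239533304536809043685839566643806377869729019988189235566511189876183953869919748537596285499945125839318243827505650900894131236833394935577598594799911941818686342573879448153348806037351034701167269339279504056395825241557388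909842528991614805436335259854642325106544232195790262560968349084430463837563576710041415308445954745268408389210974293137516091861715108910434409670013905482868841167659134711420530434462227891449711321821705736027238816136868968679024411019135403376236343536353182996793053372197220989664470129505272613345372946534304421356694045792018876069559588377391016611212853912289069064910185862314552280452035191890529890038436533469074845368779820996908152460330930211166029939915700115998217505038908761074526730536507317412139292824928193693361129541293060527492417816034450054831375097064201847333299793767806675046569691798911641659819262805975789933127913528460760267560884958161049260957435324853343644568040270980372253388988498074326045356924568128993637083818319891943031009588290318139352031286868756772242263750013166474975954963817532669940244151190859048233834416106483489689897789863797762443180386228020484346864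436319813988973097497681063587645082671947941553624123898222194667399899519971988497757244033574047740242853334118538041200872915458807892488857971110901577205568951939241465531634116144363360184254612898868702805426546758466536753681551507246621435673013917019558085791208096445061761323057676722311116572597902050320630713202409453245066133052908098647485165633366733161154328711887614627062944890361002066527648656981470357396987245351797874532373221214998654639989317003649090394660909691573605764281624694392999603899972102421278287076914433757476020025887832976616482361892825146253776484167385738982417219925985061297204204617035132090748249154748526235838829734407824114858043015380821764281380784378243510138975132397859188829603070673671821614684836244084755357336788869904676030189666940758382502391744590290834223729183982567653215999106460561198600529045104576686659485334893892949300018808831626961213342698134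732835839937618547651781844035573493536331885413010054644975788027727894744282052917403023266412287646460466899647483671862984457269290681456580358386347944815145740570357567766786287221643072985306170892122808296781474724344286174994222004612589104519591753098226789290497909472839386486950302933708398541278856188826404040867707184286180233270752012013965471698330049568129874607179037465040812731487126104947613322898843875954938540422932967079697961571868521591837308732141506252516131269603697586541824253688162702750103779079794046206254785243404515707697273162397337513385589549787490342999401431336402659070544508329956923531386935932188659566102941079893541380130036012984017572429865346050932232793711209709277429578563709179859235415258748111114932947554255762939893389966826038822467903183108610422978914147400762769927790975181758051344015494703270899471184858041185597115161103763880761929047356077497213314576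0698758348966723628969282267444771195853658294912732182785503825634257654861802903915329302486068045143843234925653608994673989307781224800468846224289818199967718831820332869988403785200988671279918885069193211924402347531488306203665384758810209342533029805789776272280676624712186954747791001223268167972052968238791172269536055732318452480843693886722838977806868217202979604163876044619599314647980303522815097027075035645185550966334860145720646493741530294611703227123685378097410377671029280108510701877923231549140385285733693888200686166625809498146906251407796482184624849700072870157060632272407510285357475744636391700716197083175356842610681743770966835201763403824697763886230163099456528815738243160896266278533063677663118226036253194559029489070765440839637714443848558374405740831925715906309923375459478911322996353846004884101960301428998463537341564771527117153570389228700839920910028842437183269882122230827742475193408647986197992300766075812169488520834620782612153866122924546709512605912908782870019212574380295082737066907743082857153096673360223369033471998238025794977556003308503616444288620496915792084785647314321562156747954012544983918152741505478990449788621722728769864858055768735944543622514052045950501371386299724868087175832646505324160579170435923863713510391283712)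

noncomputable def rc20 : Nat := (nat_lit 91315789552297586997251656599331374773231561264095917915471326310513273863195866000975040505826278701885775902897489844912537850785383488528219211991789414675096659561367818374290723015762537434058621051155406510755831318881248009357688329919853506607918726342366375762256833720432479668065271565710263141388727410174968657971158726678610553696281161090991831303719568148324695281646845154912716990971680603841534920758894868423774130584066496007337847568094909841728984714380172642665253960017426894619959817884335780061387239769460247467803142392222123417727917524003162738755412993429355565056306624503334235110303696315314389710080451502126481564385241043071908615343054683814690037691028918326597110746336354620672174732287731734616916581959250762667171629457660780101688780330283817349728717233611874374582487592639517882223509152225733332287666533179668037479621146671941776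010868591067650956156109975554976915347474554155245037318166915958704526302995686281017241431648153168317631741604790433698253953776923631999376468222855211714778504456010216833516023537754059614211292334262144161163967136932072776932197963906404584839326051023802477504274039472437137704787486596359015842854397196677803869107919616323616908426240676335016403136661655308064509819696472872912041123740695241375986466500698061620204534274597785692343062612115841965711017215516949563126395150812274505178017180845386760003306635037785976485861287472568837231779934452170999366929894938017102387889977436153705547593596194645846897233819062398449712652901562833403881969968321110345372490703558134896578758114358337732917877164901382534929793617408374551819709984898947711437706059090549190347654403357887757818155459128819072555917033549381589512728150128341270263089825093268225506195092655537352997251493903278822300297364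022629199499211407376909417450948534410545629714622861328233845959366861043311546495805545840990866209201550270153387882004025212270600822534352964697905400604818200029954485737299798200910459447417760094433560993468894254492540811656038561756650363980669805651363304536278012975978143857581834872911107528492297679445058308862915349627044041857966828731267543053503630107879828416410301795199879671126698613933814502871974482224903384948954926132151213540759915678846513326405383020399345421158199883507970802533763662253834466100561400333441690647327335087518040168219016002293929992054523809321192952724998472878458680534900790580053303722350384215236543662950374076328470337757403836176756209029661471228438164171367554175334441360548328200866438268439335698477172773600348008659476463623484710839019049270681609642112847385480013176410439198416330470242307706933775796456321035893286607048538601272529955757132220469449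805071419306925603069566014242758196734298523846071047631090737346581988701940073881587534247646960572361363955754997515863728202331910228668673948627483877021747313461044459948098112974688149077867351079141619768517126164005522041527777552671306793346103302222453971622411541856019340653550830133157268999872714708740765983279343841717670103761042338566565724230289587005508633635146327346706552542232182119107177899981012528748187048808096484042177519544578800207147037611033191506978354305100668185248072042413356804309906980541765166531740982195280709204431870930854362187121983450599243649286526559255773201160626232998212294316002254398794249308483713833137941947310554301491837585551311699813272979767537865723540244814111591614598189239933916922645946033859547752509956749282708493260391655649898077812642980720583728816106185380693929656547758286792479712064834813839831257575274882728293961435514529208202436730981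716854889263136191520846301123085375110636459086405198164853555463952820919936039454018445458713105754325132065881960698895532635998002987647545392271598073278283500255198998891453329477695034968011105191520951104249379841413841355947267443363782191903171295924558026369293265491620635185291596614274327112716948894801567083241120290765053327735494321895888694803368619835957240562419876703952976734807357879016343297799738729316934005527702970949628865251895375332326792345342767021950503948471992500013324181375305462420810751265921528679350593547538313368026802061766676126642376177024759653458989703796932606329221183667478393383762341415410118463643431161383279819805467637051571686820687050599108329598346651316116477908164793979366444078966616587796143049754771277871627694860493251566783088849408921065402482347684654107412703957363953964825026559789948507306998625711132086889548110639268848519515880894575322482213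358828220574249879794282952077318509840296767767552504041109674149221007419640182629210190438023231006978814848730514753813003660437526289890990664931760348381534614602218647999783169570583683093942439254422017082252052747234700815392591129690984330630226399714387578077929215900275586047379765597060563466873964588972474956854077039614701961298120054007172460493325102786444868455858975548061328603142345250049113485744291975724858015939937463127551813246754473745541663241659767707980881244996489762681495213296015558273771084812775323958706552240433955146378951839144355221537301768500683842423417605702526573792350586287076261518714639226377970250136488966570642398347154220164921732619793760453331701920800998907643347203444906225300316787184732561839669648922377747541752098821671156763982928075127619168904452342774078433654768957937828102311901656224355884614366098023646444631358787051647519469363902252893207499655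497071477900246307522871933555319179239456367083172624464189365363452607205733795288271473488942400713054092559225793292327921909977002874629006743815302347855713109762156108409570302594159610426993417114977829863667557204207017277577204605687775301726642935475233864411985838411127617205540669634948836935041858461709519372065964070524451342143502532573921860257820039023415093426225825283924072044347908102296667853731494654205251772723798060062900137603173257739265967399649329316791247830208293127037526634851328322779716582081022828106020736512993361502837879832317240686222973294398109006238519912643503097872567793606308084125871770813864877769017568262239128452594253788197993175957401885878662815046244682528673749112155656434332350301086603227303587672634401517053338807810035361035821056193198774799792381716864020882142757214598452070888986298565293226144245798677712208959662432660706775174123083114390009359002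834861324873049584652600559609898646337930055921199766324912791681503097198122896392340196374355850284479991435482132080231776185373649871728370192425928250529823761610837663368218742175312669544553845354971510128391997674197140272825429351234653944358419471157608361806671201453947185988458669548245714235079439785305497226485810909690735211306227349018600967963670896479203575061530365387108098378631799863127132879880393031246473044698917884107097730419076358060566101685371408068500100242051502498088459084058644286851617373329435777362746590266568400577125620764911931986203355313466686502095343754138366931174707983843099420731268417176562365478112785357702856820212957604011628433668982501189307343348644768108629007071615632981054836428946211637374881586268932913087826777430488029746643059115289074136391383063263178758431310435982849129105209331628735191273288110565231428109523012945160600652083113116309427894987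252149771496740374910138562336604554108760285077597851529818452688936493227886936423468439720731780330997639858819864281763111475998894359232401947599281648085312002011262599724319231824158372199997669095160909567658496285538727306439863436759803712684786975595569264207634781604317433733012430609031467067637844291459087160688952951840854023637282717307466703055192393657771723370358088533223541354842517951574118541510953052795726695922848743164870162918866120760627342499782051268862183385573012344025378577390440209342351478263653313072925222970254994232522848797302532844797872687112574880238778918448291226536406527058358401825519009511974035563359375335139567313368284012484125890588304258493390504290214596117781960688264269065723740934933499086659047369610609082478386117984194133490684389710144680161047606854513245787193408725975668554303181688583140070278505855995722106573521773598262135328475302062977972554249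3769198632094725103016852294872494915080658609756022168459668422695431653495617108405177923194501718935310487889031221340590048826455898705096319384459112682664417837091304992999779044051872092995902693870903995734195588081989792527095446448584022910792530227387532703689386751004883097663436335570386997402199425762991743956967580296100666753004504369098550292053703726691628256350698344683080295327819613523361846374117031597246039107751390857558236976087100183030647266190277795669605135510808928345998218518139478632032355596538125051210826727561032358043421566131539319644904704912187750751859550247515003414531304726384632502140377194116802360292565786232338135409474204702697397014156617477852649984064775200427559544681041137407776939247691660254169239449896435583436705782409058750580720192109189838222507810792096232279429250691546719844630955875181139267943352257536039299490013351557118849293382020930998112995788660284078196465934124492336244188820193972012989253990476615944671699215526517379224587751984585732074789522002413084939534799490003498487911714154046921774022987503374501321838374903690496563148482374019329265390999926449332547473270808838733728756918684624481392432721001859401980160243930540119547235354478930985688645471407617532223331278195687191804655297072912961533057527971840)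

noncomputable def rc21 : Nat := (nat_lit 92136743865062633407674014421675255907899081168429278674243778539045164885285263943801105139997572643407741465942738423883549091218296720588845033191425459767533149822054204484713023918203772608805347967605029799263637589149595587815320306734687734994638391202308822923816567463135320999499178586119763164995914928667114753452940517451331373260396069037061016668437135050954892829099500971945169894130172689844663693262970940082976172038751193320501500110239901856510879311551907416131245623730452201150688732612425590542805615964747318007878209876458714462028262545711985698146463595123094489579084728467868130275868068265469501405940895525976911241788543790831351136992433272617428878690053946925819457679644397423768213259862352207091388716730180032122440659778163816648710275618332361546520453006299950708243404694343789108621381638361152221139160626058547405632593744592469720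394907292893230144440398383750681241318811082505496528135802017200235562535384396718988066284472538637150992325067432302121713884978324383750764025842057569252882445820379936204817166675307583642690821487377839940428597357695903886994360970454131227892358368060521417280913325744133511504325572750986219440017556405022847327598697901849306012008980175607455869212905393399202846531835527925929166562676778046136368990263020327431342540934785408057467091498040910002910513340525930583682393799629327495476618203933502113258135035615402557780684258179559986476898455141059227278307673128131847374152404890401979922208937046828802402163671885902107772134938873729709814105212231439518195537146040688370525792688748255361651497786845153979304657023860477994364913994061433608393208921309244662605957037528057864529763102020128470598388583937004637700600094828408075263576182952917676627990184665336619836626050283122519016268344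413448193896473423487139049962458882539704167424912426198431980060815207133961402709748732432067452351963811371118949818666474756806021941322231889595378434186634078332996728781036532318411596255285843040579023232783970768025086172117702013768630123471587041763620688372226256141123501659820924086387644121417069290832065982574637617106135534439996654026537382335634064063378182173205837362541896263563614953282119555831809759917381262472559674633265890908909928407414903371024245748020396282934961782425428748275362274019284525866580151655984847712834769885433664127397368773904734784652751335383294299797612605724852474122338199679872976539943934206625982090581779948036862426445290119478699726614780437951414390897989783852021040335656866001633083196232907111371847062567732822187947859575301844917657531158585583011298888060663183917125271954430539038347397622292396669472214355989848969066780126791324653608804403918181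077942935285722282565179035709863615763915803883271424043627305349234896150216211120451316905652008313962927248084402823853457973865586599549795299511630646580620705258272523928480927035132502127790140887290541156430779544759175886475954846452834786105323152620524497710131076951655986586872852141484796416025752541704718486176484701365005119444670470644484219763546456489864513412779416294514654774904751522418962124210092841260959836132099055561205889673662204720964817008438560738039771574239838383203223121598138421579115576135940193120852653423268102741739672032363154522672528260866663141301324411185248863759556665666307785918390468327990908690667840742139621993183534509657035312890918251291764949184476222169024942696628471066865701472858942329102132997849381575235526203667550946554478718587904612932488073978306332395532354654610270563515046592165496683817350624161244385666605178629074328819551908936677936307518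315595949744580920155773105628061854308876149996065133702523918632733247776470483232027134745079791999140087476974524826291579434457962173463573661024067937261740505621760171172780135825304156691127293614072009362608016434443370288614164481354561029169364544006496884904114759248532567703498989669947969137927561900236827141017050245317687317367978914538107300271915814309991484506831825087484601101211485420764311985060914192752904527512350441645043670879587003796606409616446015496467220180649257475621761887697097864553522243944038061054923429228409902867206034282153655951822089163932262426436024132727345138105022129238270958501920033919174421891835920098652987764910231181974136943353920365608597733090356588994860590638416145845437647503296287179566544486489549389729530664071232342862471511206892967966202485830769254840124735801926943308624033089641109444298247221192154260765106865735053053900562895129148257423317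822840948913402191223655895962712370862752404627426076291924887610425571969304069972296651144787571217903226270976156688967584990244142924712650349592115107651098061822604995278607090545582269764925356939785794434344346301415149721873061237099997379280374203042811449686731027406192467108053165449794134743343541259383972317610101633538453987547420424700320510443090080200322762382671532130600678143846248532071308897251131231281777632074173322149516898453869530372797524223097828864036914400554354508068445669824272691810392629805411337270457675997713928083455638906398732488091884370746990068455557780927264875101572069319455015657054883469633741186106774346554313102722757464539570525709253993915196612672758118549461172098458974200098568613605282571507194505851735145744281194073625807680166602513650099999877513721688451471481630508668930771519549812527083675420222956357148629824357674550983768766068155941149761368321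185061584879750810422871087320378777573678905812428220396386800994634314582151488379677484838277838268336068463882746048062458122131703710828724939278258741120207865689096439716346581650355365537161838094572645992988507557149399127358831417840656841828360270290946217231728515978900372022732541176931449355445127441503293391304633994952169943558909490747483151803201249394606880074728084816277965762076264724655792735176486096273829372278119133684064277465893690634286530819437753291491486717240636054514576204414094392593373775500605884878580567360063944407173734921954710012470165353733361168700962017315102588437570607880132952112027381699623953823495088459772752716956860644719756798594249334419008101445193954675931574737391264039270511804630363826886314096511537051471880448505372498872798480123007831809018252012654611289651218862900777861056202482305252939672259840166968736272447308398383730950329186032269312409804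212511759614184060797410551379931693135258544949055634469132098862340452201611231881523621367589926325724313396496865407273299975679432752877419401143922953778249264185838129037437493948501530946098604105485648856187493770257746378392387116147705596613353485723023800211905727054627985453581667979399113175845608640459594160235667489369191726202848384538193498705265085326275293554273379645598655231531100267170827366597927568019098895004539333019921208518346264117486930850429016828575569539273480758776402353120809983785580967650560931027848174772359179213143621127131810665783181472552437841905741716291575043953185831465147965605189015890150698906364921256728733180110730447909844980569139354396111221291651692621827973107725066915273112953370101246254079246889398313959151521306023497673343182821922310757321991220148422646261958374418384751667694768618845313157119351947509646549336655082619232808833738074615631473621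911661775562087979161861155752748106917147008796669661209563003027270865434189839299877239251490879981295115716427784844501892567722144868610875732282108704087529750825948255455160704296163046782167550909595761854958579593983439668519977890995074408718987588330746551266974204758576557546669105807523138934907701427379377883754401076660331191899370284641288946795135923853407184544512646585783410298516139815843164951345207553021865134521658679652145006461368607487216891777610918151096996361395012539067938603670039581111608468913523717472111136753344447245414936511544922577521003264964994774302127126200501378916014999672166049551175268656743939939447072815036312540131544690428977025343243213293977171280303591515410599102948316342494885692905138738111413803958431680992154026356871583498799242158458096730696629909035532267202110510817899697287327728190526734834341948213368330673790076311812103433438959471810874931742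7555318369678570370734036457120724925035588899861890555404042177830793956531924479105323925446322924217765078461154175417771104809094331655211445426335449283034685117404180139265851463822704163931315276913603528248955845438238797472658476592504037835787554617192761245959543843047993521879924295012520700117407247411921622386923893031428426197501148086547174602841486720358248521374208967421187099272346448167157149900848194844250684182700182173248817728968342979906248207355810392668681071239485936071675035646084328643568886033347580240181464341200072131126058513753583077072571429185012802406679182147018748588821840638142304263637070244168063050586112584414776315425718919518458184141781883612990085253690564792647628390754670717239033789557131786726690950690637418557921070320361102955843184960792444225582512057224746413216070935499092849418959178462462242231443722820601922168749134665371993411681980524822128046010139673686077235566650285699940049296531906213305653142779717213439043677034756995040962705477137056507861722351430005970559681359589700951004092426189631533150575523948582540180202926386521894388694287747450854414327586830058708198625915596703582941745937336691651967789636261926468597010772232425934800653142790593523818863833378307081013834262876328415506867924908177235633348999643136)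

noncomputable def rc22 : Nat := (nat_lit 92941597930431558555009491614982678386101248888697922296202155307637630750449464982420660007972188471521213563440384244124707426954098859079630281322599011988076098936894982983527241164632588413934057669294071664835326217700423887028967615560199153999009566589522775525596769681576633226587217964301605484184113246590113775725665240199805194696898274548008696652564331252903038655483756114082608575259565508081519007443182126367292269357147214301331484017636478989127688193581787409024257053174065848428930937547687209640080074830264082857063986434129942400236543415701240776258254276174109549649176914179878472096459758487329636315334220153063053732311117899983494083334203792925026116625385204199557544312291112145529028611284294647306283582997077184469254600590820965192891114973067839808365115947527047160030289235628439635576368470111849955985375434782391940976601411502277236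292054788808280620598769952063816660388643592481948085125094665899334020119288344328002807931984672548154755398146595010431067615466676455890434547106910439758509483586627912553555806841905439403613102033497023963313433410131655760199264758585004797425479032517119311153164364047797703580801800198042890202762149580799884252052048463767102104718309263806129301465077580445728601018505268573403665774203361322281913113756668625125264158187095442256298758212529113969431245816378884449412884009713164940601905520927293537984948208243779031653157865540237245421463533034990227715822626964484466389357648721528946344880911236179496697733578687354313391289733058498409901469298431531530677106496170316104288345280772321826775455267833576254892171830242361612877330891349998388586226322723266562382499355051949769996705102966467709413619367099924323321579230408415577119367519643460169806520593591197463225029997159086082532966153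466516555900281492324900637039113151382106083650814444723196885781066725023871025195428878103072120309021350798801558722224483539487274256241890789315186864416343416960764090472245514192203354560326324219288108743562498117486699294576149970654965693043754459758754605697866610277547116086117682319508087247035073732253460789457509440454333980210836795735862431776743374940824927526165696598198305565255600702261704456858403718561233413508815354819874139094355690247753293012222686953386583528199343346424610727562464808009119644478073126830824773646820432830803448521206676255413910764643832079961421647881210639194839229872949774467254023030837958593162146719178571066524083520454484024416459892157980004405709953597859264785253293923091447830231628962093960266000781900635775919442508085293339719834060120929155924245008737514726489081296134417016913355066170622016523694919938698375526056339306394796077845348552726917229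621270817447142222867428436324355049545290518543192242182996639262767262145987583059631659299834743122439942401585646288932356526990651974857971745707362080608478789965755051738581032104770472938930978326733749802248247355823195869801881491997158707903345703113349575068588819106443119013761305415190599498103670672464039715630662815732378247396454886679977438411972476671874890644431528579478976247531521556804005915515861176963530578765577926964239755026753223794530650746110296296543398454769307795938701852776550764170120052593429091332774305953660349630703814148152844534121914638620754761748937202351778666722042408585609660199219771937685343708645992779572861718647287433389588561360707626210551249314786042555389637471929536454082449649411574460142364924001215589763143780457167473313125363695093637511778764120257071459690093471519751234867086108233837231128587498684425239140518455924749110655409073385994033520363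318568313400496722739175663162254371161844659030808027248564471606844523934766599067263345507055731684114267669590458554140750766111683980576442883992265284129024224828342800527394885921372443066882005373436710497720795063730316551706590462211136376416475606557118244957527249566737085664922311198158096445144136345477118382990803961751064248801890016234036327343532755260262178373487072664741786915945694424587524601998740850217410301908584485136876871132195384453391582983882439139720850864827841216146913783414321116936072313579779742371017907698219942638177670076803646751860144404460682244135551834109394797913024793116563687327608140243353438002735356912740391661844775534785881398677481043193021295655842875738458709233184839328007312057190239594323585009294113202871984815808420497742529160080726236821608710262321982609169717233713716292697842953506789756048504046859413238217716505553054526402925828438656397364279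100930491246991349313594828417373977516528606775669382670383872153930796553855423318886798883238788103196581282873722073847609062548413708594108681903304584945863131065805011741806090629284998087672519241142234956612831208352490237056739116543395137302468586097452257885486282417330642157634386201070845858939404972096161871430118648242967587970306356256121275887379956050062205324265709322658394555797098164706893154211974070556451842709905564888582622761974400873300787988097966966465523639455935093388285181142156510417671363569776481341676123084136288092540630658906616942579595582268412390186538104038141127954277503796305833981743566227682950851062524150852992094186060371164930349235766295934765510531748376588591051200775708833952052986834076295280875122412469025956748637748560321285371004404029657466613578271947618668143517550437134680450334112400831591267906433580817232782971424611095026622436730539612353386491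772452760525548997420304697664550618048692884423482261426165094700906461465490453180574882189522734982885272088451703724041263010691050278034299200439747124680802751142600011514563229301376585976235354224811872228871761830371262164714984486939280664135379719189712610213077138644326951034019485330789034863566458299932780419153551032335585268863441465294177967720922714668702506751923700839734575700971213332523059021933110459146620360431559954450050790654628196187584646341997421876596964139958092904285486491982569079653612852188671852377689926850125442004112867976030572117342063550912497898844956397978664531871404292916852299373134943231996282004007235926698343312280212559435835458265477519911862375146698151110089635075735322334960744913052183835874492107821349305160448558361232302783637551985114542144822240915296240633352142173524790348700123452806064618291871949630874780183639115827007072659733304942236652194021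587885189992265748806683230423929980834002480815098820376139073879313243783834111359397671604103747963298683148401247597981100926212248790158002928409205027224899061305171710549455212791833292635825011874855559551731926868601450355527166704416887598484575659151329146679709909937496263430910572272382938774903274901628725542449563056788641902749663628786617285541952005413415396275615604683652387183411247803162961464850489627070054039985282340672346312904021724104584675629915749395569515394869370793083539241110472206412529069632641693331498633239473327832496410200311834229906418502580692278292717204435514046423525423512832606979631053572222321795669912573482037286474294497222254769622459173858856295915233935059036938078072994700548142802300794461691082111919606330360818887522707551686604186599981075532676997173351192802322001328053888608245073782871623689378804926351851127228999219289214549763215897546247970010589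836590076850076857681419869268699453801722215793389134394113684655282584921769995598317652478372336125186116999565819767339430565794807873765635312495605727995901898868113756747644327735818322989629464377863455070313525580733924384482264938102926351370348482223324224857977155815585303172741814559285445381390870161131392253740114248647575854283703506298686099006759027593372851260818642919071834121234576062224496615144198662447235324513350787958461257197935863557353118103687303744158206965656986114262183298476389824061377059727382337569445381135262996906436653130360685135821430370711641403666371993251786126693190767390435846007577607748083635400285664272354420903643298010300467793206766384238560302908780316703258938678314698465055217835883983787562592385533729859044442754774561210216631825293423202785295204750268069923935145743600647903002671012037645502054963344427262538382572381315232488825399162521391641455428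4433855384696215217297438979917431836291957431721653122687439358442016905579370337050319018062325789457778248906093653258181545317186993645218266486481440659256993386070609149713787275729461937724188835654253984377163350889651731087764841216678932112194697205217138441691487910636075629557602266207244996197909865916912502538079141231573645205961397197337516432744336708051909777851374393394337001581930155123922571786070914132606117143024818320356591680671826348884910379090646199058112957399774305045050958220243466973311034761364149202199288372145305513076597793710171227465560350233887149273541855887969118466520428647379585823418690059774056690947191743729796989833634015475881634241479128312467294931131095272501835325222157342150753865855519314953142304549731685733205661672035257402577444250810140957413149090911185115835672248204883214798026920963502398106732930500187074875182144759445628242475579644305677233930892866965318510010662144855295374696095706733841700507955590174653158798388321009487340974691794105988394925919337505866934881518658260008908615199037486486757497842275790285518079728630706203815659366277276500854121691982424805056867501119254313117595060995725820689856088682471646916413106923496819533623085100840145637882054557714604789703054737041039988806827944007995411391357911040)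

noncomputable def rc23 : Nat := (nat_lit 93337838236533220617566846822536156301730823794616494804325831061270453809330141233253120054718878146074142897569953599033128469142213053845682393739209837559036532630990501152781375130128087587816103122053267418530227603814452310665583026600431471571190773634789382958609259459850413196233414400333458712428775556874768040489243553280775071679570172831513132042528321282744659045780529265122050509629761491807386266281098814019879115803125572359828529551052210490538974363396770394365731623451437638444834988600641420156790381138753085898939457922795160017700059467644316657676548859910009025220452214549718550316626340656857161271729051845071379242496352762812477533149234172290296889571723137735836330786834332321152270117972349587667089259659302408740983671441126221336153707015852202920432246005766270826061249084285312616733143698880678229099244458713053187855383707680625459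791183159732134451762173375640684158739268371098111872703703218829192368712095787560324401877944880594021406074866417499303457108225875587970258833553384425190340672335858859419161432399546314090457862866097092273842494845759470378342991156038098578803652162608191605357118051325150446283782621809615767850802389280084805730491362150162154084947084255777972347766775587844676145028787599775718948047321810229737255085611745741673402073729123144090970537151361705581056143825553175476489917021824188531234885111943720719115560251465719770041877105738555323880901315285220885535289048549663484579281421290259401023124262194044548657688882789228532261893266878289275972070167482728158076590900675383812802937854495910727682649704333328012419630566260206987348738534164505218662440809826783000281250513171328309953498630022552081763845041757475400719923448981315980304757250332365120781779020297453640660389001485111259906910787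511562122592575010839342898195787121608612229584684644705823735055977199806263068731018139037903954350971223084915040896247351885826090671615597415231845491614690187521516384578342330430882892295476349553331536602142764446216594693719589539577267274905633470893337597311371218138947706007893336626889592672718458092849658675975528247368731664779391627709625994666149348822855948833494647425584148528093355898713777046365130851023281937080646604979202145802403440259402392824891376157228785349625844171378148919167671363774808500388613123840492398625236505107374662800592570411275680529652851001184570023653731949420975829410532885697318244674322500645865850075792933604627365835753214725513714262725021326395750996745028507411329036943819777718311344113415085409958502895803973797559108820323177452101057723317060110409637260022056252943903841900985027918162550676844476048177645862956576251939561021522018655515124788295331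481443549182208819098868079073387739741693882025701101082636331453465530167134775328199579459635828349978777204365622230391332368400456928490159601447468442726065087665820250960946473568678408042553754418153136720633557124489234252839251457469334737311413812260930815854881065497115363590600504819553911956031440861249954704497661491950136380503118757179239768568482501903054637970804650225107048520432745367892243118381147659135112024532956181656910151330148002935613163885392956907418814117774718198576390638406343407506602471733117060305842026652989363553504617203738209220860069026386046231224192158088859789564251744140710984896181652569003105249038537253047270183990250170723865069567537791956864698660774160072196807024716267248295041555701901092934744222852842864265278902653779453834999574923001013055637943651769704801937077826400695521579262655216622234742324034175924371860759169550500294074948671176825246814695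076779033667365410517483818825181921343245580629280459845949997109348492895441175047773771998481274728883644730226152061666765803569628946676216394385893661453269517236659549783842383053912866543645288001361683465613206415937178931465169689160856402068284621366037522883879131105966206898212747454496710399254110692298462281089687734986443281399749998053976887892212554722010239966636233789497530527805860159124204195417794537781917209214688365035993321385185354082811255476796999947537201823639975597779528761087663111003487041233074000765676416450849284393931842584023203976107460350810181702916512862111629371676665214346406362309213984721055447181340118406330663411822999667518489692558921289373345397625462154873523193156796870480759888548400975791330027510377860706486387073928168627739855597565183739013221805743108806898047847417757778669848836687650287853941373236744230977738459925227919153636151047975411920728373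743452785356092630122743758831467425806783375799264763653171728951125104660545727284606311638641380471526895512651268905043052435641867872366777371186555066087619089705061457018935884893126244610837642370130049348029788603718109691734926073842033037556850459043850778083666819898438039081184946671416917032828691382804826928368010310530683552681525246703936679164353828283711268532648763582697804933240772658936527225048966269315326136334927140144275858763277448224123684730586195529212993750825970770773322261060742641729459624599121793109215913598819767614971958738234702199077025183154934372704978235603707423231394015111602298762670885147233351881373692058073994630940925671016125212649539338413529596963731605172736024566219665837047837403303563378931183601299795659499737467109494450791186805466465284480159352232896423993959683834401812534058584886378169875553321257237109766903921441346693747042339049435057555719975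002641576771031518192091806352277582255279110028790964096955555509582266976857097937064080234889354041911896700675355313722820675213541814914919095498019594172902781644611361476542638197293187605680267562362905622170309431355675281599441636033331618842757066826772477640078519787289734665774080819498042514590911293822669874535378214375856661564335450865786968179197501802143336823361912078543128125490064001800788103195840604623334490805690976778220122991393950921562738639441599196669834109932339285598939848908053059351456949114521463500302865364304983957050889732811920707941880486828982355211550181201200018199774167032709780439986757417959322254376086864060079028102173926743929797204321150225809505926011020257163101912219066484972269216816431235052019803240662712918372241752487500950872223158143760495662863857806015731492788020517855994899629975077093635376054523716010914714877709364338685516363183604147556175382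365838498912339248345231216218734031604399701667085638180847594060103518482881821738143683963090801394579191024982539500430966411396814971950701486508958042162698704365066615395055526419341904228045660930896053036908196420329452787976210256359528714730016431050817703938864513279306252849583867412807343046120620159534435264908501427968089423147050783799110091117406762742929117556194047304167267395598649076277036420049063009203069100908742094015447586369070096288777375154022982910014433227102503671155682648588828580043579116039866206670336052509861507053454639652095344129178699968128823547627022893994007489165622785322649519343707849121001755897886840116229434655401288311585651741826008314111540273430460381472630678720204690176060323042052895020691629560255295260632521376151527412206064118690961939272051121519488169788666856614044717840139092183352839203674041615632481954400745481189122868563528235680196908144790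055653953330790950495970725752659216539565987769554467948973369111945082274988741515019388314486244051901956487439967226502493458667907056501192626062791114411577087162442917992305383442061798901877474365238852256397960784990668198005077935517888389695008159335042204621322871137726189744697855485423905298716041716607864667768269484460817793110499685481136912184508644598413736869903524216436697819255224919081672993582701963562612767860682212083715953471950578157025843961975865434417442675189945379084749892605525565572444287589514758793484250103900818011375782040164128191458373182308734276048520932065319263260884206694501578182079242551045782185627951797777685647079087592906178103516459140416969289551860008140638781455872465748844941708515602286227497937059850254818850813628773115048498853365829017507094193106084166305760197375582513367819133504682884332392337149502125041674574855753198080758150174323534592428951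3604961039385607768384684712747379149142633634709516285268748489540187208851784420418012702763642541045922136705126466994559006699275486206461133049023726844848894102672242875321521014988624920549614098729310585535725410225351683461735943118173347528725091516641284777593093137296051325027333640602987647443640687561255089110635293388080344685275680571132039485632738128238552221929542141762348473376018959675859949701807044096634424658940140214980435942052465189397186379215036542251184784476502625703020326564216912441993420275794680936855233744378999717751107059988254839066354937930465158965658607440010213138768189081034137953349787224359303075030737814422659162267542871086519056388962523892713368049572687249176748616820910351612951710908312412100025137401847054414682099953301111556509760712536953953900021214458842469719695132131706313145095302617622151286157398967965209399164779420915252997552048766450907827751077281260429949052087920002186318571385058601486667115770145601286213700227257422935777382437601171824628230343090754077367415578740871785323041526460719696955777731744348724006791022145492687252529066648676949021334515867020382863963609092788975976850354036132088644939652502409471539093013780980573310691200788312273054288577451959064759032204822842455219336144820943002494824064483328)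

end Vale.Agent.Lib.P154.PChain.BE.S6
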