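import Vale.Agent.Lib.P154.PChain.BE.R6_2

set_option linter.all false

namespace Vale.Agent.Lib.P154.PChain.BE.S7

open Vale.Agent.Lib.P154.Chain

noncomputable def pc0 : PT := (PT.nd (nat_lit 8827260) (PT.nd (nat_lit 8515026) (PT.nd (nat_lit 8265426) (PT.nd (nat_lit 8202870) (PT.nd (nat_lit 6079944) (PT.nd (nat_lit 6017544) PT.nil (PT.lf (nat_lit 76) (nat_lit 3) (nat_lit 1) (nat_lit 1) (nat_lit 252) (nat_lit 96) (nat_lit 252))) (PT.nd (nat_lit 78) (PT.lf (nat_lit 152) (nat_lit 6) (nat_lit 2) (nat_lit 3) (nat_lit 251) (nat_lit 97) (nat_lit 252)) (PT.lf (nat_lit 152) (nat_lit 6) (nat_lit 2) (nat_lit 1) (nat_lit 252) (nat_lit 97) (nat_lit 251)))) (PT.nd (nat_lit 62400) (PT.nd (nat_lit 78) (PT.lf (nat_lit 4028) (nat_lit 6) (nat_lit 53) (nat_lit 3) (nat_lit 234) (nat_lit 131) (nat_lit 235)) (PT.lf (nat_lit 4028) (nat_lit 6) (nat_lit 53) (nat_lit 1) (nat_lit 235) (nat_lit 131) (nat_lit 234))) (PT.nd (nat_lit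 78) (PT.lf (nat_lit 4104) (nat_lit 6) (nat_lit 54) (nat_lit 3) (nat_lit 233) (nat_lit 132) (nat_lit 235)) (PT.lf (nat_lit 4180) (nat_lit 3) (nat_lit 55) (nat_lit 1) (nat_lit 234) (nat_lit 132) (nat_lit 234))))) (PT.nd (nat_lit 124800) (PT.nd (nat_lit 62400) (PT.nd (nat_lit 62322) (PT.lf (nat_lit 4104) (nat_lit 6) (nat_lit 54) (nat_lit 1) (nat_lit 235) (nat_lit 132) (nat_lit 233)) (PT.lf (nat_lit 4332) (nat_lit 6) (nat_lit 57) (nat_lit 3) (nat_lit 233) (nat_lit 133) (nat_lit 234))) (PT.nd (nat_lit 62322) (PT.lf (nat_lit 4332) (nat_lit 6) (nat_lit 57) (nat_lit 1) (nat_lit 234) (nat_lit 133) (nat_lit 233)) (PT.lf (nat_lit 4408) (nat_lit 6) (nat_lit 58) (nat_lit 3) (nat_lit 232) (nat_lit 134) (nat_lit 234)))) (PT.nd (nat_lit 62400) (PT.nd (nat_lit 78) (PT.lf (nat_lit 4484) (nat_lit 3) (nat_lit 59) (nat_lit 1) (nat_lit 233) (nat_lit 134) (nat_lit 233)) (PT.lf (nat_lit 4408) (nat_lit 6) (nat_lit 58) (nat_lit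 1) (nat_lit 234) (nat_lit 134) (nat_lit 232))) (PT.nd (nat_lit 78) (PT.lf (nat_lit 4636) (nat_lit 6) (nat_lit 61) (nat_lit 3) (nat_lit 232) (nat_lit 135) (nat_lit 233)) (PT.lf (nat_lit 4636) (nat_lit 6) (nat_lit 61) (nat_lit 1) (nat_lit 233) (nat_lit 135) (nat_lit 232)))))) (PT.nd (nat_lit 187278) (PT.nd (nat_lit 62556) (PT.nd (nat_lit 156) (PT.nd (nat_lit 78) (PT.lf (nat_lit 4712) (nat_lit 6) (nat_lit 62) (nat_lit 3) (nat_lit 231) (nat_lit 136) (nat_lit 233)) (PT.lf (nat_lit 4788) (nat_lit 3) (nat_lit 63) (nat_lit 1) (nat_lit 232) (nat_lit 136) (nat_lit 232))) (PT.nd (nat_lit 62322) (PT.lf (nat_lit 4712) (nat_lit 6) (nat_lit 62) (nat_lit 1) (nat_lit 233) (nat_lit 136) (nat_lit 231)) (PT.lf (nat_lit 4940) (nat_lit 6) (nat_lit 65) (nat_lit 3) (nat_lit 231) (nat_lit 137) (nat_lit 232)))) (PT.nd (nat_lit 62400) (PT.nd (nat_lit 62322) (PT.lf (nat_lit 4940) (nat_lit 6) (nat_lit 65) (nat_lit 1) (nat_lit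 232) (nat_lit 137) (nat_lit 231)) (PT.lf (nat_lit 5016) (nat_lit 6) (nat_lit 66) (nat_lit 3) (nat_lit 230) (nat_lit 138) (nat_lit 232))) (PT.nd (nat_lit 78) (PT.lf (nat_lit 5092) (nat_lit 3) (nat_lit 67) (nat_lit 1) (nat_lit 231) (nat_lit 138) (nat_lit 231)) (PT.lf (nat_lit 5016) (nat_lit 6) (nat_lit 66) (nat_lit 1) (nat_lit 232) (nat_lit 138) (nat_lit 230))))) (PT.nd (nat_lit 62478) (PT.nd (nat_lit 156) (PT.nd (nat_lit 78) (PT.lf (nat_lit 5168) (nat_lit 6) (nat_lit 68) (nat_lit 3) (nat_lit 229) (nat_lit 139) (nat_lit 232)) (PT.lf (nat_lit 5244) (nat_lit 6) (nat_lit 69) (nat_lit 3) (nat_lit 230) (nat_lit 139) (nat_lit 231))) (PT.nd (nat_lit 78) (PT.lf (nat_lit 5244) (nat_lit 6) (nat_lit 69) (nat_lit 1) (nat_lit 231) (nat_lit 139) (nat_lit 230)) (PT.lf (nat_lit 5168) (nat_lit 6) (nat_lit 68) (nat_lit 1) (nat_lit 232) (nat_lit 139) (nat_lit 229)))) (PT.nd (nat_lit 156) (PT.nd (nat_lit 78) (PT.lf (nat_lit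 5396) (nat_lit 6) (nat_lit 71) (nat_lit 3) (nat_lit 229) (nat_lit 140) (nat_lit 231)) (PT.lf (nat_lit 5472) (nat_lit 3) (nat_lit 72) (nat_lit 1) (nat_lit 230) (nat_lit 140) (nat_lit 230))) (PT.nd (nat_lit 62244) (PT.lf (nat_lit 5396) (nat_lit 6) (nat_lit 71) (nat_lit 1) (nat_lit 231) (nat_lit 140) (nat_lit 229)) (PT.lf (nat_lit 5548) (nat_lit 6) (nat_lit 73) (nat_lit 3) (nat_lit 228) (nat_lit 141) (nat_lit 231))))))) (PT.nd (nat_lit 249912) (PT.nd (nat_lit 124956) (PT.nd (nat_lit 62478) (PT.nd (nat_lit 156) (PT.nd (nat_lit 78) (PT.lf (nat_lit 5624) (nat_lit 6) (nat_lit 74) (nat_lit 3) (nat_lit 229) (nat_lit 141) (nat_lit 230)) (PT.lf (nat_lit 5624) (nat_lit 6) (nat_lit 74) (nat_lit 1) (nat_lit 230) (nat_lit 141) (nat_lit 229))) (PT.nd (nat_lit 62244) (PT.lf (nat_lit 5548) (nat_lit 6) (nat_lit 73) (nat_lit 1) (nat_lit 231) (nat_lit 141) (nat_lit 228)) (PT.lf (nat_lit 5776) (nat_lit 6) (nat_lit 76) (nat_lit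 3) (nat_lit 228) (nat_lit 142) (nat_lit 230)))) (PT.nd (nat_lit 62322) (PT.nd (nat_lit 78) (PT.lf (nat_lit 5852) (nat_lit 3) (nat_lit 77) (nat_lit 1) (nat_lit 229) (nat_lit 142) (nat_lit 229)) (PT.lf (nat_lit 5776) (nat_lit 6) (nat_lit 76) (nat_lit 1) (nat_lit 230) (nat_lit 142) (nat_lit 228))) (PT.nd (nat_lit 78) (PT.lf (nat_lit 5928) (nat_lit 6) (nat_lit 78) (nat_lit 3) (nat_lit 227) (nat_lit 143) (nat_lit 230)) (PT.lf (nat_lit 6004) (nat_lit 6) (nat_lit 79) (nat_lit 3) (nat_lit 228) (nat_lit 143) (nat_lit 229))))) (PT.nd (nat_lit 62478) (PT.nd (nat_lit 62322) (PT.nd (nat_lit 78) (PT.lf (nat_lit 6004) (nat_lit 6) (nat_lit 79) (nat_lit 1) (nat_lit 229) (nat_lit 143) (nat_lit 228)) (PT.lf (nat_lit 5928) (nat_lit 6) (nat_lit 78) (nat_lit 1) (nat_lit 230) (nat_lit 143) (nat_lit 227))) (PT.nd (nat_lit 78) (PT.lf (nat_lit 6156) (nat_lit 6) (nat_lit 81) (nat_lit 3) (nat_lit 227) (nat_lit 144) (nat_lit 229))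 (PT.lf (nat_lit 6232) (nat_lit 3) (nat_lit 82) (nat_lit 1) (nat_lit 228) (nat_lit 144) (nat_lit 228)))) (PT.nd (nat_lit 62322) (PT.nd (nat_lit 62244) (PT.lf (nat_lit 6156) (nat_lit 6) (nat_lit 81) (nat_lit 1) (nat_lit 229) (nat_lit 144) (nat_lit 227)) (PT.lf (nat_lit 6308) (nat_lit 6) (nat_lit 83) (nat_lit 3) (nat_lit 226) (nat_lit 145) (nat_lit 229))) (PT.nd (nat_lit 78) (PT.lf (nat_lit 6384) (nat_lit 6) (nat_lit 84) (nat_lit 3) (nat_lit 227) (nat_lit 145) (nat_lit 228)) (PT.lf (nat_lit 6384) (nat_lit 6) (nat_lit 84) (nat_lit 1) (nat_lit 228) (nat_lit 145) (nat_lit 227)))))) (PT.nd (nat_lit 124800) (PT.nd (nat_lit 62400) (PT.nd (nat_lit 62244) (PT.nd (nat_lit 62166) (PT.lf (nat_lit 6308) (nat_lit 6) (nat_lit 83) (nat_lit 1) (nat_lit 229) (nat_lit 145) (nat_lit 226)) (PT.lf (nat_lit 6460) (nat_lit 6) (nat_lit 85) (nat_lit 3) (nat_lit 225) (nat_lit 146) (nat_lit 229))) (PT.nd (nat_lit 78) (PT.lf (nat_lit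 6536) (nat_lit 6) (nat_lit 86) (nat_lit 3) (nat_lit 226) (nat_lit 146) (nat_lit 228)) (PT.lf (nat_lit 6612) (nat_lit 3) (nat_lit 87) (nat_lit 1) (nat_lit 227) (nat_lit 146) (nat_lit 227)))) (PT.nd (nat_lit 62244) (PT.nd (nat_lit 78) (PT.lf (nat_lit 6536) (nat_lit 6) (nat_lit 86) (nat_lit 1) (nat_lit 228) (nat_lit 146) (nat_lit 226)) (PT.lf (nat_lit 6460) (nat_lit 6) (nat_lit 85) (nat_lit 1) (nat_lit 229) (nat_lit 146) (nat_lit 225))) (PT.nd (nat_lit 78) (PT.lf (nat_lit 6688) (nat_lit 6) (nat_lit 88) (nat_lit 3) (nat_lit 225) (nat_lit 147) (nat_lit 228)) (PT.lf (nat_lit 6764) (nat_lit 6) (nat_lit 89) (nat_lit 3) (nat_lit 226) (nat_lit 147) (nat_lit 227))))) (PT.nd (nat_lit 62400) (PT.nd (nat_lit 62244) (PT.nd (nat_lit 78) (PT.lf (nat_lit 6764) (nat_lit 6) (nat_lit 89) (nat_lit 1) (nat_lit 227) (nat_lit 147) (nat_lit 226)) (PT.lf (nat_lit 6688) (nat_lit 6) (nat_lit 88) (nat_lit 1) (nat_lit 228) (nat_lit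 147) (nat_lit 225))) (PT.nd (nat_lit 78) (PT.lf (nat_lit 6840) (nat_lit 6) (nat_lit 90) (nat_lit 3) (nat_lit 224) (nat_lit 148) (nat_lit 228)) (PT.lf (nat_lit 6916) (nat_lit 6) (nat_lit 91) (nat_lit 3) (nat_lit 225) (nat_lit 148) (nat_lit 227)))) (PT.nd (nat_lit 156) (PT.nd (nat_lit 78) (PT.lf (nat_lit 6992) (nat_lit 3) (nat_lit 92) (nat_lit 1) (nat_lit 226) (nat_lit 148) (nat_lit 226)) (PT.lf (nat_lit 6916) (nat_lit 6) (nat_lit 91) (nat_lit 1) (nat_lit 227) (nat_lit 148) (nat_lit 225))) (PT.nd (nat_lit 62166) (PT.lf (nat_lit 6840) (nat_lit 6) (nat_lit 90) (nat_lit 1) (nat_lit 228) (nat_lit 148) (nat_lit 224)) (PT.lf (nat_lit 7144) (nat_lit 6) (nat_lit 94) (nat_lit 3) (nat_lit 224) (nat_lit 149) (nat_lit 227))))))))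
noncomputable def pc1 : PT := (PT.nd (nat_lit 374556) (PT.nd (nat_lit 187278) (PT.nd (nat_lit 62634) (PT.nd (nat_lit 62322) (PT.nd (nat_lit 78) (PT.lf (nat_lit 7220) (nat_lit 6) (nat_lit 95) (nat_lit 3) (nat_lit 225) (nat_lit 149) (nat_lit 226)) (PT.nd (nat_lit 78) (PT.lf (nat_lit 7220) (nat_lit 6) (nat_lit 95) (nat_lit 1) (nat_lit 226) (nat_lit 149) (nat_lit 225)) (PT.lf (nat_lit 7144) (nat_lit 6) (nat_lit 94) (nat_lit 1) (nat_lit 227) (nat_lit 149) (nat_lit 224)))) (PT.nd (nat_lit 156) (PT.nd (nat_lit 78) (PT.lf (nat_lit 7296) (nat_lit 6) (nat_lit 96) (nat_lit 3) (nat_lit 223) (nat_lit 150) (nat_lit 227)) (PT.lf (nat_lit 7372) (nat_lit 6) (nat_lit 97) (nat_lit 3) (nat_lit 224) (nat_lit 150) (nat_lit 226))) (PT.nd (nat_lit 78) (PT.lf (nat_lit 7448) (nat_lit 3) (nat_lit 98) (nat_lit 1) (nat_lit 225) (nat_lit 150) (nat_lit 225)) (PT.lf (nat_lit 7372) (nat_lit 6) (nat_lit 97) (nat_lit 1) (nat_lit 226)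 (nat_lit 150) (nat_lit 224))))) (PT.nd (nat_lit 62322) (PT.nd (nat_lit 62166) (PT.nd (nat_lit 62088) (PT.lf (nat_lit 7296) (nat_lit 6) (nat_lit 96) (nat_lit 1) (nat_lit 227) (nat_lit 150) (nat_lit 223)) (PT.lf (nat_lit 7524) (nat_lit 6) (nat_lit 99) (nat_lit 3) (nat_lit 222) (nat_lit 151) (nat_lit 227))) (PT.nd (nat_lit 78) (PT.lf (nat_lit 7600) (nat_lit 6) (nat_lit 100) (nat_lit 3) (nat_lit 223) (nat_lit 151) (nat_lit 226)) (PT.lf (nat_lit 7676) (nat_lit 6) (nat_lit 101) (nat_lit 3) (nat_lit 224) (nat_lit 151) (nat_lit 225)))) (PT.nd (nat_lit 156) (PT.nd (nat_lit 78) (PT.lf (nat_lit 7676) (nat_lit 6) (nat_lit 101) (nat_lit 1) (nat_lit 225) (nat_lit 151) (nat_lit 224)) (PT.lf (nat_lit 7600) (nat_lit 6) (nat_lit 100) (nat_lit 1) (nat_lit 226) (nat_lit 151) (nat_lit 223))) (PT.nd (nat_lit 62088) (PT.lf (nat_lit 7524) (nat_lit 6) (nat_lit 99) (nat_lit 1) (nat_lit 227) (nat_lit 151) (nat_lit 222)) (PT.lf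 (nat_lit 7752) (nat_lit 6) (nat_lit 102) (nat_lit 3) (nat_lit 222) (nat_lit 152) (nat_lit 226)))))) (PT.nd (nat_lit 62634) (PT.nd (nat_lit 62322) (PT.nd (nat_lit 156) (PT.nd (nat_lit 78) (PT.lf (nat_lit 7828) (nat_lit 6) (nat_lit 103) (nat_lit 3) (nat_lit 223) (nat_lit 152) (nat_lit 225)) (PT.lf (nat_lit 7904) (nat_lit 3) (nat_lit 104) (nat_lit 1) (nat_lit 224) (nat_lit 152) (nat_lit 224))) (PT.nd (nat_lit 78) (PT.lf (nat_lit 7828) (nat_lit 6) (nat_lit 103) (nat_lit 1) (nat_lit 225) (nat_lit 152) (nat_lit 223)) (PT.lf (nat_lit 7752) (nat_lit 6) (nat_lit 102) (nat_lit 1) (nat_lit 226) (nat_lit 152) (nat_lit 222)))) (PT.nd (nat_lit 156) (PT.nd (nat_lit 78) (PT.lf (nat_lit 7980) (nat_lit 6) (nat_lit 105) (nat_lit 3) (nat_lit 221) (nat_lit 153) (nat_lit 226)) (PT.lf (nat_lit 8056) (nat_lit 6) (nat_lit 106) (nat_lit 3) (nat_lit 222) (nat_lit 153) (nat_lit 225))) (PT.nd (nat_lit 78) (PT.lf (nat_lit 8132)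 (nat_lit 6) (nat_lit 107) (nat_lit 3) (nat_lit 223) (nat_lit 153) (nat_lit 224)) (PT.lf (nat_lit 8132) (nat_lit 6) (nat_lit 107) (nat_lit 1) (nat_lit 224) (nat_lit 153) (nat_lit 223))))) (PT.nd (nat_lit 62322) (PT.nd (nat_lit 62166) (PT.nd (nat_lit 78) (PT.lf (nat_lit 8056) (nat_lit 6) (nat_lit 106) (nat_lit 1) (nat_lit 225) (nat_lit 153) (nat_lit 222)) (PT.lf (nat_lit 7980) (nat_lit 6) (nat_lit 105) (nat_lit 1) (nat_lit 226) (nat_lit 153) (nat_lit 221))) (PT.nd (nat_lit 78) (PT.lf (nat_lit 8208) (nat_lit 6) (nat_lit 108) (nat_lit 3) (nat_lit 221) (nat_lit 154) (nat_lit 225)) (PT.lf (nat_lit 8284) (nat_lit 6) (nat_lit 109) (nat_lit 3) (nat_lit 222) (nat_lit 154) (nat_lit 224)))) (PT.nd (nat_lit 156) (PT.nd (nat_lit 78) (PT.lf (nat_lit 8360) (nat_lit 3) (nat_lit 110) (nat_lit 1) (nat_lit 223) (nat_lit 154) (nat_lit 223)) (PT.lf (nat_lit 8284) (nat_lit 6) (nat_lit 109) (nat_lit 1) (nat_lit 224) (nat_lit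 154) (nat_lit 222))) (PT.nd (nat_lit 62088) (PT.lf (nat_lit 8208) (nat_lit 6) (nat_lit 108) (nat_lit 1) (nat_lit 225) (nat_lit 154) (nat_lit 221)) (PT.lf (nat_lit 8436) (nat_lit 6) (nat_lit 111) (nat_lit 3) (nat_lit 220) (nat_lit 155) (nat_lit 225))))))) (PT.nd (nat_lit 125112) (PT.nd (nat_lit 62556) (PT.nd (nat_lit 312) (PT.nd (nat_lit 156) (PT.nd (nat_lit 78) (PT.lf (nat_lit 8512) (nat_lit 6) (nat_lit 112) (nat_lit 3) (nat_lit 221) (nat_lit 155) (nat_lit 224)) (PT.lf (nat_lit 8588) (nat_lit 6) (nat_lit 113) (nat_lit 3) (nat_lit 222) (nat_lit 155) (nat_lit 223))) (PT.nd (nat_lit 78) (PT.lf (nat_lit 8588) (nat_lit 6) (nat_lit 113) (nat_lit 1) (nat_lit 223) (nat_lit 155) (nat_lit 222)) (PT.lf (nat_lit 8512) (nat_lit 6) (nat_lit 112) (nat_lit 1) (nat_lit 224) (nat_lit 155) (nat_lit 221)))) (PT.nd (nat_lit 62088) (PT.nd (nat_lit 62010) (PT.lf (nat_lit 8436) (nat_lit 6) (nat_lit 111) (nat_lit 1) (nat_lit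 225) (nat_lit 155) (nat_lit 220)) (PT.lf (nat_lit 8664) (nat_lit 6) (nat_lit 114) (nat_lit 3) (nat_lit 219) (nat_lit 156) (nat_lit 225))) (PT.nd (nat_lit 78) (PT.lf (nat_lit 8740) (nat_lit 6) (nat_lit 115) (nat_lit 3) (nat_lit 220) (nat_lit 156) (nat_lit 224)) (PT.lf (nat_lit 8816) (nat_lit 6) (nat_lit 116) (nat_lit 3) (nat_lit 221) (nat_lit 156) (nat_lit 223))))) (PT.nd (nat_lit 62244) (PT.nd (nat_lit 156) (PT.nd (nat_lit 78) (PT.lf (nat_lit 8892) (nat_lit 3) (nat_lit 117) (nat_lit 1) (nat_lit 222) (nat_lit 156) (nat_lit 222)) (PT.lf (nat_lit 8816) (nat_lit 6) (nat_lit 116) (nat_lit 1) (nat_lit 223) (nat_lit 156) (nat_lit 221))) (PT.nd (nat_lit 78) (PT.lf (nat_lit 8740) (nat_lit 6) (nat_lit 115) (nat_lit 1) (nat_lit 224) (nat_lit 156) (nat_lit 220)) (PT.lf (nat_lit 8664) (nat_lit 6) (nat_lit 114) (nat_lit 1) (nat_lit 225) (nat_lit 156) (nat_lit 219)))) (PT.nd (nat_lit 156) (PT.nd (nat_lit 78) (PT.lf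 (nat_lit 8968) (nat_lit 6) (nat_lit 118) (nat_lit 3) (nat_lit 219) (nat_lit 157) (nat_lit 224)) (PT.lf (nat_lit 9044) (nat_lit 6) (nat_lit 119) (nat_lit 3) (nat_lit 220) (nat_lit 157) (nat_lit 223))) (PT.nd (nat_lit 78) (PT.lf (nat_lit 9120) (nat_lit 6) (nat_lit 120) (nat_lit 3) (nat_lit 221) (nat_lit 157) (nat_lit 222)) (PT.lf (nat_lit 9120) (nat_lit 6) (nat_lit 120) (nat_lit 1) (nat_lit 222) (nat_lit 157) (nat_lit 221)))))) (PT.nd (nat_lit 62556) (PT.nd (nat_lit 62244) (PT.nd (nat_lit 62088) (PT.nd (nat_lit 78) (PT.lf (nat_lit 9044) (nat_lit 6) (nat_lit 119) (nat_lit 1) (nat_lit 223) (nat_lit 157) (nat_lit 220)) (PT.lf (nat_lit 8968) (nat_lit 6) (nat_lit 118) (nat_lit 1) (nat_lit 224) (nat_lit 157) (nat_lit 219))) (PT.nd (nat_lit 78) (PT.lf (nat_lit 9196) (nat_lit 6) (nat_lit 121) (nat_lit 3) (nat_lit 218) (nat_lit 158) (nat_lit 224)) (PT.lf (nat_lit 9272) (nat_lit 6) (nat_lit 122) (nat_lit 3) (nat_lit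 219) (nat_lit 158) (nat_lit 223)))) (PT.nd (nat_lit 156) (PT.nd (nat_lit 78) (PT.lf (nat_lit 9348) (nat_lit 6) (nat_lit 123) (nat_lit 3) (nat_lit 220) (nat_lit 158) (nat_lit 222)) (PT.lf (nat_lit 9424) (nat_lit 3) (nat_lit 124) (nat_lit 1) (nat_lit 221) (nat_lit 158) (nat_lit 221))) (PT.nd (nat_lit 78) (PT.lf (nat_lit 9348) (nat_lit 6) (nat_lit 123) (nat_lit 1) (nat_lit 222) (nat_lit 158) (nat_lit 220)) (PT.lf (nat_lit 9272) (nat_lit 6) (nat_lit 122) (nat_lit 1) (nat_lit 223) (nat_lit 158) (nat_lit 219))))) (PT.nd (nat_lit 62244) (PT.nd (nat_lit 62088) (PT.nd (nat_lit 62010) (PT.lf (nat_lit 9196) (nat_lit 6) (nat_lit 121) (nat_lit 1) (nat_lit 224) (nat_lit 158) (nat_lit 218)) (PT.lf (nat_lit 9576) (nat_lit 6) (nat_lit 126) (nat_lit 3) (nat_lit 218) (nat_lit 159) (nat_lit 223))) (PT.nd (nat_lit 78) (PT.lf (nat_lit 9652) (nat_lit 6) (nat_lit 127) (nat_lit 3) (nat_lit 219) (nat_lit 159) (nat_lit 222))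 (PT.lf (nat_lit 9728) (nat_lit 6) (nat_lit 128) (nat_lit 3) (nat_lit 220) (nat_lit 159) (nat_lit 221)))) (PT.nd (nat_lit 156) (PT.nd (nat_lit 78) (PT.lf (nat_lit 9728) (nat_lit 6) (nat_lit 128) (nat_lit 1) (nat_lit 221) (nat_lit 159) (nat_lit 220)) (PT.lf (nat_lit 9652) (nat_lit 6) (nat_lit 127) (nat_lit 1) (nat_lit 222) (nat_lit 159) (nat_lit 219))) (PT.nd (nat_lit 62010) (PT.lf (nat_lit 9576) (nat_lit 6) (nat_lit 126) (nat_lit 1) (nat_lit 223) (nat_lit 159) (nat_lit 218)) (PT.lf (nat_lit 9804) (nat_lit 6) (nat_lit 129) (nat_lit 3) (nat_lit 217) (nat_lit 160) (nat_lit 223))))))))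
noncomputable def pc2 : PT := (PT.nd (nat_lit 249756) (PT.nd (nat_lit 124878) (PT.nd (nat_lit 62400) (PT.nd (nat_lit 234) (PT.nd (nat_lit 78) (PT.lf (nat_lit 9880) (nat_lit 6) (nat_lit 130) (nat_lit 3) (nat_lit 218) (nat_lit 160) (nat_lit 222)) (PT.nd (nat_lit 78) (PT.lf (nat_lit 9956) (nat_lit 6) (nat_lit 131) (nat_lit 3) (nat_lit 219) (nat_lit 160) (nat_lit 221)) (PT.lf (nat_lit 10032) (nat_lit 3) (nat_lit 132) (nat_lit 1) (nat_lit 220) (nat_lit 160) (nat_lit 220)))) (PT.nd (nat_lit 156) (PT.nd (nat_lit 78) (PT.lf (nat_lit 9956) (nat_lit 6) (nat_lit 131) (nat_lit 1) (nat_lit 221) (nat_lit 160) (nat_lit 219)) (PT.lf (nat_lit 9880) (nat_lit 6) (nat_lit 130) (nat_lit 1) (nat_lit 222) (nat_lit 160) (nat_lit 218))) (PT.nd (nat_lit 61932) (PT.lf (nat_lit 9804) (nat_lit 6) (nat_lit 129) (nat_lit 1) (nat_lit 223) (nat_lit 160) (nat_lit 217)) (PT.lf (nat_lit 10108) (nat_lit 6) (nat_lit 133) (nat_lit 3) (nat_lit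 216) (nat_lit 161) (nat_lit 223))))) (PT.nd (nat_lit 312) (PT.nd (nat_lit 156) (PT.nd (nat_lit 78) (PT.lf (nat_lit 10184) (nat_lit 6) (nat_lit 134) (nat_lit 3) (nat_lit 217) (nat_lit 161) (nat_lit 222)) (PT.lf (nat_lit 10260) (nat_lit 6) (nat_lit 135) (nat_lit 3) (nat_lit 218) (nat_lit 161) (nat_lit 221))) (PT.nd (nat_lit 78) (PT.lf (nat_lit 10336) (nat_lit 6) (nat_lit 136) (nat_lit 3) (nat_lit 219) (nat_lit 161) (nat_lit 220)) (PT.lf (nat_lit 10336) (nat_lit 6) (nat_lit 136) (nat_lit 1) (nat_lit 220) (nat_lit 161) (nat_lit 219)))) (PT.nd (nat_lit 156) (PT.nd (nat_lit 78) (PT.lf (nat_lit 10260) (nat_lit 6) (nat_lit 135) (nat_lit 1) (nat_lit 221) (nat_lit 161) (nat_lit 218)) (PT.lf (nat_lit 10184) (nat_lit 6) (nat_lit 134) (nat_lit 1) (nat_lit 222) (nat_lit 161) (nat_lit 217))) (PT.nd (nat_lit 61932) (PT.lf (nat_lit 10108) (nat_lit 6) (nat_lit 133) (nat_lit 1) (nat_lit 223) (nat_lit 161) (nat_lit 216))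 (PT.lf (nat_lit 10412) (nat_lit 6) (nat_lit 137) (nat_lit 3) (nat_lit 216) (nat_lit 162) (nat_lit 222)))))) (PT.nd (nat_lit 62478) (PT.nd (nat_lit 312) (PT.nd (nat_lit 156) (PT.nd (nat_lit 78) (PT.lf (nat_lit 10488) (nat_lit 6) (nat_lit 138) (nat_lit 3) (nat_lit 217) (nat_lit 162) (nat_lit 221)) (PT.lf (nat_lit 10564) (nat_lit 6) (nat_lit 139) (nat_lit 3) (nat_lit 218) (nat_lit 162) (nat_lit 220))) (PT.nd (nat_lit 78) (PT.lf (nat_lit 10640) (nat_lit 3) (nat_lit 140) (nat_lit 1) (nat_lit 219) (nat_lit 162) (nat_lit 219)) (PT.lf (nat_lit 10564) (nat_lit 6) (nat_lit 139) (nat_lit 1) (nat_lit 220) (nat_lit 162) (nat_lit 218)))) (PT.nd (nat_lit 62010) (PT.nd (nat_lit 78) (PT.lf (nat_lit 10488) (nat_lit 6) (nat_lit 138) (nat_lit 1) (nat_lit 221) (nat_lit 162) (nat_lit 217)) (PT.lf (nat_lit 10412) (nat_lit 6) (nat_lit 137) (nat_lit 1) (nat_lit 222) (nat_lit 162) (nat_lit 216))) (PT.nd (nat_lit 78) (PT.lf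 (nat_lit 10716) (nat_lit 6) (nat_lit 141) (nat_lit 3) (nat_lit 215) (nat_lit 163) (nat_lit 222)) (PT.lf (nat_lit 10792) (nat_lit 6) (nat_lit 142) (nat_lit 3) (nat_lit 216) (nat_lit 163) (nat_lit 221))))) (PT.nd (nat_lit 312) (PT.nd (nat_lit 156) (PT.nd (nat_lit 78) (PT.lf (nat_lit 10868) (nat_lit 6) (nat_lit 143) (nat_lit 3) (nat_lit 217) (nat_lit 163) (nat_lit 220)) (PT.lf (nat_lit 10944) (nat_lit 6) (nat_lit 144) (nat_lit 3) (nat_lit 218) (nat_lit 163) (nat_lit 219))) (PT.nd (nat_lit 78) (PT.lf (nat_lit 10944) (nat_lit 6) (nat_lit 144) (nat_lit 1) (nat_lit 219) (nat_lit 163) (nat_lit 218)) (PT.lf (nat_lit 10868) (nat_lit 6) (nat_lit 143) (nat_lit 1) (nat_lit 220) (nat_lit 163) (nat_lit 217)))) (PT.nd (nat_lit 61932) (PT.nd (nat_lit 78) (PT.lf (nat_lit 10792) (nat_lit 6) (nat_lit 142) (nat_lit 1) (nat_lit 221) (nat_lit 163) (nat_lit 216)) (PT.lf (nat_lit 10716) (nat_lit 6) (nat_lit 141) (nat_lit 1)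 (nat_lit 222) (nat_lit 163) (nat_lit 215))) (PT.nd (nat_lit 78) (PT.lf (nat_lit 11020) (nat_lit 6) (nat_lit 145) (nat_lit 3) (nat_lit 214) (nat_lit 164) (nat_lit 222)) (PT.lf (nat_lit 11096) (nat_lit 6) (nat_lit 146) (nat_lit 3) (nat_lit 215) (nat_lit 164) (nat_lit 221))))))) (PT.nd (nat_lit 124800) (PT.nd (nat_lit 62400) (PT.nd (nat_lit 312) (PT.nd (nat_lit 156) (PT.nd (nat_lit 78) (PT.lf (nat_lit 11172) (nat_lit 6) (nat_lit 147) (nat_lit 3) (nat_lit 216) (nat_lit 164) (nat_lit 220)) (PT.lf (nat_lit 11248) (nat_lit 6) (nat_lit 148) (nat_lit 3) (nat_lit 217) (nat_lit 164) (nat_lit 219))) (PT.nd (nat_lit 78) (PT.lf (nat_lit 11324) (nat_lit 3) (nat_lit 149) (nat_lit 1) (nat_lit 218) (nat_lit 164) (nat_lit 218)) (PT.lf (nat_lit 11248) (nat_lit 6) (nat_lit 148) (nat_lit 1) (nat_lit 219) (nat_lit 164) (nat_lit 217)))) (PT.nd (nat_lit 156) (PT.nd (nat_lit 78) (PT.lf (nat_lit 11172) (nat_lit 6) (nat_lit 147)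 (nat_lit 1) (nat_lit 220) (nat_lit 164) (nat_lit 216)) (PT.lf (nat_lit 11096) (nat_lit 6) (nat_lit 146) (nat_lit 1) (nat_lit 221) (nat_lit 164) (nat_lit 215))) (PT.nd (nat_lit 61854) (PT.lf (nat_lit 11020) (nat_lit 6) (nat_lit 145) (nat_lit 1) (nat_lit 222) (nat_lit 164) (nat_lit 214)) (PT.lf (nat_lit 11400) (nat_lit 6) (nat_lit 150) (nat_lit 3) (nat_lit 214) (nat_lit 165) (nat_lit 221))))) (PT.nd (nat_lit 312) (PT.nd (nat_lit 156) (PT.nd (nat_lit 78) (PT.lf (nat_lit 11476) (nat_lit 6) (nat_lit 151) (nat_lit 3) (nat_lit 215) (nat_lit 165) (nat_lit 220)) (PT.lf (nat_lit 11552) (nat_lit 6) (nat_lit 152) (nat_lit 3) (nat_lit 216) (nat_lit 165) (nat_lit 219))) (PT.nd (nat_lit 78) (PT.lf (nat_lit 11628) (nat_lit 6) (nat_lit 153) (nat_lit 3) (nat_lit 217) (nat_lit 165) (nat_lit 218)) (PT.lf (nat_lit 11628) (nat_lit 6) (nat_lit 153) (nat_lit 1) (nat_lit 218) (nat_lit 165) (nat_lit 217)))) (PT.nd (nat_lit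 156) (PT.nd (nat_lit 78) (PT.lf (nat_lit 11552) (nat_lit 6) (nat_lit 152) (nat_lit 1) (nat_lit 219) (nat_lit 165) (nat_lit 216)) (PT.lf (nat_lit 11476) (nat_lit 6) (nat_lit 151) (nat_lit 1) (nat_lit 220) (nat_lit 165) (nat_lit 215))) (PT.nd (nat_lit 61854) (PT.lf (nat_lit 11400) (nat_lit 6) (nat_lit 150) (nat_lit 1) (nat_lit 221) (nat_lit 165) (nat_lit 214)) (PT.lf (nat_lit 11704) (nat_lit 6) (nat_lit 154) (nat_lit 3) (nat_lit 213) (nat_lit 166) (nat_lit 221)))))) (PT.nd (nat_lit 62322) (PT.nd (nat_lit 312) (PT.nd (nat_lit 156) (PT.nd (nat_lit 78) (PT.lf (nat_lit 11780) (nat_lit 6) (nat_lit 155) (nat_lit 3) (nat_lit 214) (nat_lit 166) (nat_lit 220)) (PT.lf (nat_lit 11856) (nat_lit 6) (nat_lit 156) (nat_lit 3) (nat_lit 215) (nat_lit 166) (nat_lit 219))) (PT.nd (nat_lit 78) (PT.lf (nat_lit 11932) (nat_lit 6) (nat_lit 157) (nat_lit 3) (nat_lit 216) (nat_lit 166) (nat_lit 218)) (PT.lf (nat_lit 12008) (nat_lit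 3) (nat_lit 158) (nat_lit 1) (nat_lit 217) (nat_lit 166) (nat_lit 217)))) (PT.nd (nat_lit 156) (PT.nd (nat_lit 78) (PT.lf (nat_lit 11932) (nat_lit 6) (nat_lit 157) (nat_lit 1) (nat_lit 218) (nat_lit 166) (nat_lit 216)) (PT.lf (nat_lit 11856) (nat_lit 6) (nat_lit 156) (nat_lit 1) (nat_lit 219) (nat_lit 166) (nat_lit 215))) (PT.nd (nat_lit 78) (PT.lf (nat_lit 11780) (nat_lit 6) (nat_lit 155) (nat_lit 1) (nat_lit 220) (nat_lit 166) (nat_lit 214)) (PT.lf (nat_lit 11704) (nat_lit 6) (nat_lit 154) (nat_lit 1) (nat_lit 221) (nat_lit 166) (nat_lit 213))))) (PT.nd (nat_lit 312) (PT.nd (nat_lit 156) (PT.nd (nat_lit 78) (PT.lf (nat_lit 12084) (nat_lit 6) (nat_lit 159) (nat_lit 3) (nat_lit 212) (nat_lit 167) (nat_lit 221)) (PT.lf (nat_lit 12160) (nat_lit 6) (nat_lit 160) (nat_lit 3) (nat_lit 213) (nat_lit 167) (nat_lit 220))) (PT.nd (nat_lit 78) (PT.lf (nat_lit 12236) (nat_lit 6) (nat_lit 161) (nat_lit 3) (nat_lit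 214) (nat_lit 167) (nat_lit 219)) (PT.lf (nat_lit 12312) (nat_lit 6) (nat_lit 162) (nat_lit 3) (nat_lit 215) (nat_lit 167) (nat_lit 218)))) (PT.nd (nat_lit 156) (PT.nd (nat_lit 78) (PT.lf (nat_lit 12388) (nat_lit 6) (nat_lit 163) (nat_lit 3) (nat_lit 216) (nat_lit 167) (nat_lit 217)) (PT.lf (nat_lit 12388) (nat_lit 6) (nat_lit 163) (nat_lit 1) (nat_lit 217) (nat_lit 167) (nat_lit 216))) (PT.nd (nat_lit 78) (PT.lf (nat_lit 12312) (nat_lit 6) (nat_lit 162) (nat_lit 1) (nat_lit 218) (nat_lit 167) (nat_lit 215)) (PT.lf (nat_lit 12236) (nat_lit 6) (nat_lit 161) (nat_lit 1) (nat_lit 219) (nat_lit 167) (nat_lit 214))))))))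
noncomputable def pc3 : PT := (PT.nd (nat_lit 187434) (PT.nd (nat_lit 124566) (PT.nd (nat_lit 62244) (PT.nd (nat_lit 61932) (PT.nd (nat_lit 78) (PT.lf (nat_lit 12160) (nat_lit 6) (nat_lit 160) (nat_lit 1) (nat_lit 220) (nat_lit 167) (nat_lit 213)) (PT.nd (nat_lit 61776) (PT.lf (nat_lit 12084) (nat_lit 6) (nat_lit 159) (nat_lit 1) (nat_lit 221) (nat_lit 167) (nat_lit 212)) (PT.lf (nat_lit 12464) (nat_lit 6) (nat_lit 164) (nat_lit 3) (nat_lit 212) (nat_lit 168) (nat_lit 220)))) (PT.nd (nat_lit 156) (PT.nd (nat_lit 78) (PT.lf (nat_lit 12540) (nat_lit 6) (nat_lit 165) (nat_lit 3) (nat_lit 213) (nat_lit 168) (nat_lit 219)) (PT.lf (nat_lit 12616) (nat_lit 6) (nat_lit 166) (nat_lit 3) (nat_lit 214) (nat_lit 168) (nat_lit 218))) (PT.nd (nat_lit 78) (PT.lf (nat_lit 12692) (nat_lit 6) (nat_lit 167) (nat_lit 3) (nat_lit 215) (nat_lit 168) (nat_lit 217)) (PT.lf (nat_lit 12768) (nat_lit 3) (nat_lit 168) (nat_lit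 1) (nat_lit 216) (nat_lit 168) (nat_lit 216))))) (PT.nd (nat_lit 62010) (PT.nd (nat_lit 156) (PT.nd (nat_lit 78) (PT.lf (nat_lit 12692) (nat_lit 6) (nat_lit 167) (nat_lit 1) (nat_lit 217) (nat_lit 168) (nat_lit 215)) (PT.lf (nat_lit 12616) (nat_lit 6) (nat_lit 166) (nat_lit 1) (nat_lit 218) (nat_lit 168) (nat_lit 214))) (PT.nd (nat_lit 78) (PT.lf (nat_lit 12540) (nat_lit 6) (nat_lit 165) (nat_lit 1) (nat_lit 219) (nat_lit 168) (nat_lit 213)) (PT.lf (nat_lit 12464) (nat_lit 6) (nat_lit 164) (nat_lit 1) (nat_lit 220) (nat_lit 168) (nat_lit 212)))) (PT.nd (nat_lit 156) (PT.nd (nat_lit 78) (PT.lf (nat_lit 12844) (nat_lit 6) (nat_lit 169) (nat_lit 3) (nat_lit 211) (nat_lit 169) (nat_lit 220)) (PT.lf (nat_lit 12920) (nat_lit 6) (nat_lit 170) (nat_lit 3) (nat_lit 212) (nat_lit 169) (nat_lit 219))) (PT.nd (nat_lit 78) (PT.lf (nat_lit 12996) (nat_lit 6) (nat_lit 171) (nat_lit 3) (nat_lit 213) (nat_lit 169)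 (nat_lit 218)) (PT.lf (nat_lit 13072) (nat_lit 6) (nat_lit 172) (nat_lit 3) (nat_lit 214) (nat_lit 169) (nat_lit 217)))))) (PT.nd (nat_lit 62244) (PT.nd (nat_lit 312) (PT.nd (nat_lit 156) (PT.nd (nat_lit 78) (PT.lf (nat_lit 13148) (nat_lit 6) (nat_lit 173) (nat_lit 3) (nat_lit 215) (nat_lit 169) (nat_lit 216)) (PT.lf (nat_lit 13148) (nat_lit 6) (nat_lit 173) (nat_lit 1) (nat_lit 216) (nat_lit 169) (nat_lit 215))) (PT.nd (nat_lit 78) (PT.lf (nat_lit 13072) (nat_lit 6) (nat_lit 172) (nat_lit 1) (nat_lit 217) (nat_lit 169) (nat_lit 214)) (PT.lf (nat_lit 12996) (nat_lit 6) (nat_lit 171) (nat_lit 1) (nat_lit 218) (nat_lit 169) (nat_lit 213)))) (PT.nd (nat_lit 61776) (PT.nd (nat_lit 78) (PT.lf (nat_lit 12920) (nat_lit 6) (nat_lit 170) (nat_lit 1) (nat_lit 219) (nat_lit 169) (nat_lit 212)) (PT.lf (nat_lit 12844) (nat_lit 6) (nat_lit 169) (nat_lit 1) (nat_lit 220) (nat_lit 169) (nat_lit 211))) (PT.nd (nat_lit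 78) (PT.lf (nat_lit 13224) (nat_lit 6) (nat_lit 174) (nat_lit 3) (nat_lit 210) (nat_lit 170) (nat_lit 220)) (PT.lf (nat_lit 13300) (nat_lit 6) (nat_lit 175) (nat_lit 3) (nat_lit 211) (nat_lit 170) (nat_lit 219))))) (PT.nd (nat_lit 312) (PT.nd (nat_lit 156) (PT.nd (nat_lit 78) (PT.lf (nat_lit 13376) (nat_lit 6) (nat_lit 176) (nat_lit 3) (nat_lit 212) (nat_lit 170) (nat_lit 218)) (PT.lf (nat_lit 13452) (nat_lit 6) (nat_lit 177) (nat_lit 3) (nat_lit 213) (nat_lit 170) (nat_lit 217))) (PT.nd (nat_lit 78) (PT.lf (nat_lit 13528) (nat_lit 6) (nat_lit 178) (nat_lit 3) (nat_lit 214) (nat_lit 170) (nat_lit 216)) (PT.lf (nat_lit 13604) (nat_lit 3) (nat_lit 179) (nat_lit 1) (nat_lit 215) (nat_lit 170) (nat_lit 215)))) (PT.nd (nat_lit 156) (PT.nd (nat_lit 78) (PT.lf (nat_lit 13528) (nat_lit 6) (nat_lit 178) (nat_lit 1) (nat_lit 216) (nat_lit 170) (nat_lit 214)) (PT.lf (nat_lit 13452) (nat_lit 6) (nat_lit 177) (nat_lit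 1) (nat_lit 217) (nat_lit 170) (nat_lit 213))) (PT.nd (nat_lit 78) (PT.lf (nat_lit 13376) (nat_lit 6) (nat_lit 176) (nat_lit 1) (nat_lit 218) (nat_lit 170) (nat_lit 212)) (PT.lf (nat_lit 13300) (nat_lit 6) (nat_lit 175) (nat_lit 1) (nat_lit 219) (nat_lit 170) (nat_lit 211))))))) (PT.nd (nat_lit 124488) (PT.nd (nat_lit 62244) (PT.nd (nat_lit 61932) (PT.nd (nat_lit 61776) (PT.nd (nat_lit 61698) (PT.lf (nat_lit 13224) (nat_lit 6) (nat_lit 174) (nat_lit 1) (nat_lit 220) (nat_lit 170) (nat_lit 210)) (PT.lf (nat_lit 13680) (nat_lit 6) (nat_lit 180) (nat_lit 3) (nat_lit 210) (nat_lit 171) (nat_lit 219))) (PT.nd (nat_lit 78) (PT.lf (nat_lit 13756) (nat_lit 6) (nat_lit 181) (nat_lit 3) (nat_lit 211) (nat_lit 171) (nat_lit 218)) (PT.lf (nat_lit 13832) (nat_lit 6) (nat_lit 182) (nat_lit 3) (nat_lit 212) (nat_lit 171) (nat_lit 217)))) (PT.nd (nat_lit 156) (PT.nd (nat_lit 78) (PT.lf (nat_lit 13908) (nat_lit 6)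 (nat_lit 183) (nat_lit 3) (nat_lit 213) (nat_lit 171) (nat_lit 216)) (PT.lf (nat_lit 13984) (nat_lit 6) (nat_lit 184) (nat_lit 3) (nat_lit 214) (nat_lit 171) (nat_lit 215))) (PT.nd (nat_lit 78) (PT.lf (nat_lit 13984) (nat_lit 6) (nat_lit 184) (nat_lit 1) (nat_lit 215) (nat_lit 171) (nat_lit 214)) (PT.lf (nat_lit 13908) (nat_lit 6) (nat_lit 183) (nat_lit 1) (nat_lit 216) (nat_lit 171) (nat_lit 213))))) (PT.nd (nat_lit 61932) (PT.nd (nat_lit 156) (PT.nd (nat_lit 78) (PT.lf (nat_lit 13832) (nat_lit 6) (nat_lit 182) (nat_lit 1) (nat_lit 217) (nat_lit 171) (nat_lit 212)) (PT.lf (nat_lit 13756) (nat_lit 6) (nat_lit 181) (nat_lit 1) (nat_lit 218) (nat_lit 171) (nat_lit 211))) (PT.nd (nat_lit 61698) (PT.lf (nat_lit 13680) (nat_lit 6) (nat_lit 180) (nat_lit 1) (nat_lit 219) (nat_lit 171) (nat_lit 210)) (PT.lf (nat_lit 14060) (nat_lit 6) (nat_lit 185) (nat_lit 3) (nat_lit 209) (nat_lit 172) (nat_lit 219))))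 (PT.nd (nat_lit 156) (PT.nd (nat_lit 78) (PT.lf (nat_lit 14136) (nat_lit 6) (nat_lit 186) (nat_lit 3) (nat_lit 210) (nat_lit 172) (nat_lit 218)) (PT.lf (nat_lit 14212) (nat_lit 6) (nat_lit 187) (nat_lit 3) (nat_lit 211) (nat_lit 172) (nat_lit 217))) (PT.nd (nat_lit 78) (PT.lf (nat_lit 14288) (nat_lit 6) (nat_lit 188) (nat_lit 3) (nat_lit 212) (nat_lit 172) (nat_lit 216)) (PT.lf (nat_lit 14364) (nat_lit 6) (nat_lit 189) (nat_lit 3) (nat_lit 213) (nat_lit 172) (nat_lit 215)))))) (PT.nd (nat_lit 62166) (PT.nd (nat_lit 312) (PT.nd (nat_lit 156) (PT.nd (nat_lit 78) (PT.lf (nat_lit 14440) (nat_lit 3) (nat_lit 190) (nat_lit 1) (nat_lit 214) (nat_lit 172) (nat_lit 214)) (PT.lf (nat_lit 14364) (nat_lit 6) (nat_lit 189) (nat_lit 1) (nat_lit 215) (nat_lit 172) (nat_lit 213))) (PT.nd (nat_lit 78) (PT.lf (nat_lit 14288) (nat_lit 6) (nat_lit 188) (nat_lit 1) (nat_lit 216) (nat_lit 172) (nat_lit 212)) (PT.lf (nat_lit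 14212) (nat_lit 6) (nat_lit 187) (nat_lit 1) (nat_lit 217) (nat_lit 172) (nat_lit 211)))) (PT.nd (nat_lit 61698) (PT.nd (nat_lit 78) (PT.lf (nat_lit 14136) (nat_lit 6) (nat_lit 186) (nat_lit 1) (nat_lit 218) (nat_lit 172) (nat_lit 210)) (PT.lf (nat_lit 14060) (nat_lit 6) (nat_lit 185) (nat_lit 1) (nat_lit 219) (nat_lit 172) (nat_lit 209))) (PT.nd (nat_lit 78) (PT.lf (nat_lit 14516) (nat_lit 6) (nat_lit 191) (nat_lit 3) (nat_lit 208) (nat_lit 173) (nat_lit 219)) (PT.lf (nat_lit 14592) (nat_lit 6) (nat_lit 192) (nat_lit 3) (nat_lit 209) (nat_lit 173) (nat_lit 218))))) (PT.nd (nat_lit 312) (PT.nd (nat_lit 156) (PT.nd (nat_lit 78) (PT.lf (nat_lit 14668) (nat_lit 6) (nat_lit 193) (nat_lit 3) (nat_lit 210) (nat_lit 173) (nat_lit 217)) (PT.lf (nat_lit 14744) (nat_lit 6) (nat_lit 194) (nat_lit 3) (nat_lit 211) (nat_lit 173) (nat_lit 216))) (PT.nd (nat_lit 78) (PT.lf (nat_lit 14820) (nat_lit 6) (nat_lit 195)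 (nat_lit 3) (nat_lit 212) (nat_lit 173) (nat_lit 215)) (PT.lf (nat_lit 14896) (nat_lit 6) (nat_lit 196) (nat_lit 3) (nat_lit 213) (nat_lit 173) (nat_lit 214)))) (PT.nd (nat_lit 156) (PT.nd (nat_lit 78) (PT.lf (nat_lit 14896) (nat_lit 6) (nat_lit 196) (nat_lit 1) (nat_lit 214) (nat_lit 173) (nat_lit 213)) (PT.lf (nat_lit 14820) (nat_lit 6) (nat_lit 195) (nat_lit 1) (nat_lit 215) (nat_lit 173) (nat_lit 212))) (PT.nd (nat_lit 78) (PT.lf (nat_lit 14744) (nat_lit 6) (nat_lit 194) (nat_lit 1) (nat_lit 216) (nat_lit 173) (nat_lit 211)) (PT.lf (nat_lit 14668) (nat_lit 6) (nat_lit 193) (nat_lit 1) (nat_lit 217) (nat_lit 173) (nat_lit 210))))))))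
noncomputable def pc4 : PT := (PT.nd (nat_lit 186810) (PT.nd (nat_lit 124098) (PT.nd (nat_lit 62010) (PT.nd (nat_lit 61698) (PT.nd (nat_lit 78) (PT.lf (nat_lit 14592) (nat_lit 6) (nat_lit 192) (nat_lit 1) (nat_lit 218) (nat_lit 173) (nat_lit 209)) (PT.nd (nat_lit 61542) (PT.lf (nat_lit 14516) (nat_lit 6) (nat_lit 191) (nat_lit 1) (nat_lit 219) (nat_lit 173) (nat_lit 208)) (PT.lf (nat_lit 14972) (nat_lit 6) (nat_lit 197) (nat_lit 3) (nat_lit 207) (nat_lit 174) (nat_lit 219)))) (PT.nd (nat_lit 156) (PT.nd (nat_lit 78) (PT.lf (nat_lit 15048) (nat_lit 6) (nat_lit 198) (nat_lit 3) (nat_lit 208) (nat_lit 174) (nat_lit 218)) (PT.lf (nat_lit 15124) (nat_lit 6) (nat_lit 199) (nat_lit 3) (nat_lit 209) (nat_lit 174) (nat_lit 217))) (PT.nd (nat_lit 78) (PT.lf (nat_lit 15200) (nat_lit 6) (nat_lit 200) (nat_lit 3) (nat_lit 210) (nat_lit 174) (nat_lit 216)) (PT.lf (nat_lit 15276) (nat_lit 6) (nat_lit 201) (nat_lit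 3) (nat_lit 211) (nat_lit 174) (nat_lit 215))))) (PT.nd (nat_lit 312) (PT.nd (nat_lit 156) (PT.nd (nat_lit 78) (PT.lf (nat_lit 15352) (nat_lit 6) (nat_lit 202) (nat_lit 3) (nat_lit 212) (nat_lit 174) (nat_lit 214)) (PT.lf (nat_lit 15428) (nat_lit 3) (nat_lit 203) (nat_lit 1) (nat_lit 213) (nat_lit 174) (nat_lit 213))) (PT.nd (nat_lit 78) (PT.lf (nat_lit 15352) (nat_lit 6) (nat_lit 202) (nat_lit 1) (nat_lit 214) (nat_lit 174) (nat_lit 212)) (PT.lf (nat_lit 15276) (nat_lit 6) (nat_lit 201) (nat_lit 1) (nat_lit 215) (nat_lit 174) (nat_lit 211)))) (PT.nd (nat_lit 156) (PT.nd (nat_lit 78) (PT.lf (nat_lit 15200) (nat_lit 6) (nat_lit 200) (nat_lit 1) (nat_lit 216) (nat_lit 174) (nat_lit 210)) (PT.lf (nat_lit 15124) (nat_lit 6) (nat_lit 199) (nat_lit 1) (nat_lit 217) (nat_lit 174) (nat_lit 209))) (PT.nd (nat_lit 78) (PT.lf (nat_lit 15048) (nat_lit 6) (nat_lit 198) (nat_lit 1) (nat_lit 218) (nat_lit 174) (nat_lit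 208)) (PT.lf (nat_lit 14972) (nat_lit 6) (nat_lit 197) (nat_lit 1) (nat_lit 219) (nat_lit 174) (nat_lit 207)))))) (PT.nd (nat_lit 624) (PT.nd (nat_lit 312) (PT.nd (nat_lit 156) (PT.nd (nat_lit 78) (PT.lf (nat_lit 15504) (nat_lit 6) (nat_lit 204) (nat_lit 3) (nat_lit 207) (nat_lit 175) (nat_lit 218)) (PT.lf (nat_lit 15580) (nat_lit 6) (nat_lit 205) (nat_lit 3) (nat_lit 208) (nat_lit 175) (nat_lit 217))) (PT.nd (nat_lit 78) (PT.lf (nat_lit 15656) (nat_lit 6) (nat_lit 206) (nat_lit 3) (nat_lit 209) (nat_lit 175) (nat_lit 216)) (PT.lf (nat_lit 15732) (nat_lit 6) (nat_lit 207) (nat_lit 3) (nat_lit 210) (nat_lit 175) (nat_lit 215)))) (PT.nd (nat_lit 156) (PT.nd (nat_lit 78) (PT.lf (nat_lit 15808) (nat_lit 6) (nat_lit 208) (nat_lit 3) (nat_lit 211) (nat_lit 175) (nat_lit 214)) (PT.lf (nat_lit 15884) (nat_lit 6) (nat_lit 209) (nat_lit 3) (nat_lit 212) (nat_lit 175) (nat_lit 213))) (PT.nd (nat_lit 78) (PT.lf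 (nat_lit 15884) (nat_lit 6) (nat_lit 209) (nat_lit 1) (nat_lit 213) (nat_lit 175) (nat_lit 212)) (PT.lf (nat_lit 15808) (nat_lit 6) (nat_lit 208) (nat_lit 1) (nat_lit 214) (nat_lit 175) (nat_lit 211))))) (PT.nd (nat_lit 61776) (PT.nd (nat_lit 156) (PT.nd (nat_lit 78) (PT.lf (nat_lit 15732) (nat_lit 6) (nat_lit 207) (nat_lit 1) (nat_lit 215) (nat_lit 175) (nat_lit 210)) (PT.lf (nat_lit 15656) (nat_lit 6) (nat_lit 206) (nat_lit 1) (nat_lit 216) (nat_lit 175) (nat_lit 209))) (PT.nd (nat_lit 78) (PT.lf (nat_lit 15580) (nat_lit 6) (nat_lit 205) (nat_lit 1) (nat_lit 217) (nat_lit 175) (nat_lit 208)) (PT.lf (nat_lit 15504) (nat_lit 6) (nat_lit 204) (nat_lit 1) (nat_lit 218) (nat_lit 175) (nat_lit 207)))) (PT.nd (nat_lit 156) (PT.nd (nat_lit 78) (PT.lf (nat_lit 15960) (nat_lit 6) (nat_lit 210) (nat_lit 3) (nat_lit 206) (nat_lit 176) (nat_lit 218)) (PT.lf (nat_lit 16036) (nat_lit 6) (nat_lit 211) (nat_lit 3)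 (nat_lit 207) (nat_lit 176) (nat_lit 217))) (PT.nd (nat_lit 78) (PT.lf (nat_lit 16112) (nat_lit 6) (nat_lit 212) (nat_lit 3) (nat_lit 208) (nat_lit 176) (nat_lit 216)) (PT.lf (nat_lit 16188) (nat_lit 6) (nat_lit 213) (nat_lit 3) (nat_lit 209) (nat_lit 176) (nat_lit 215))))))) (PT.nd (nat_lit 62634) (PT.nd (nat_lit 624) (PT.nd (nat_lit 312) (PT.nd (nat_lit 156) (PT.nd (nat_lit 78) (PT.lf (nat_lit 16264) (nat_lit 6) (nat_lit 214) (nat_lit 3) (nat_lit 210) (nat_lit 176) (nat_lit 214)) (PT.lf (nat_lit 16340) (nat_lit 6) (nat_lit 215) (nat_lit 3) (nat_lit 211) (nat_lit 176) (nat_lit 213))) (PT.nd (nat_lit 78) (PT.lf (nat_lit 16416) (nat_lit 3) (nat_lit 216) (nat_lit 1) (nat_lit 212) (nat_lit 176) (nat_lit 212)) (PT.lf (nat_lit 16340) (nat_lit 6) (nat_lit 215) (nat_lit 1) (nat_lit 213) (nat_lit 176) (nat_lit 211)))) (PT.nd (nat_lit 156) (PT.nd (nat_lit 78) (PT.lf (nat_lit 16264) (nat_lit 6) (nat_lit 214)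 (nat_lit 1) (nat_lit 214) (nat_lit 176) (nat_lit 210)) (PT.lf (nat_lit 16188) (nat_lit 6) (nat_lit 213) (nat_lit 1) (nat_lit 215) (nat_lit 176) (nat_lit 209))) (PT.nd (nat_lit 78) (PT.lf (nat_lit 16112) (nat_lit 6) (nat_lit 212) (nat_lit 1) (nat_lit 216) (nat_lit 176) (nat_lit 208)) (PT.lf (nat_lit 16036) (nat_lit 6) (nat_lit 211) (nat_lit 1) (nat_lit 217) (nat_lit 176) (nat_lit 207))))) (PT.nd (nat_lit 61698) (PT.nd (nat_lit 61542) (PT.nd (nat_lit 61464) (PT.lf (nat_lit 15960) (nat_lit 6) (nat_lit 210) (nat_lit 1) (nat_lit 218) (nat_lit 176) (nat_lit 206)) (PT.lf (nat_lit 16492) (nat_lit 6) (nat_lit 217) (nat_lit 3) (nat_lit 205) (nat_lit 177) (nat_lit 218))) (PT.nd (nat_lit 78) (PT.lf (nat_lit 16568) (nat_lit 6) (nat_lit 218) (nat_lit 3) (nat_lit 206) (nat_lit 177) (nat_lit 217)) (PT.lf (nat_lit 16644) (nat_lit 6) (nat_lit 219) (nat_lit 3) (nat_lit 207) (nat_lit 177) (nat_lit 216)))) (PT.nd (nat_lit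 156) (PT.nd (nat_lit 78) (PT.lf (nat_lit 16720) (nat_lit 6) (nat_lit 220) (nat_lit 3) (nat_lit 208) (nat_lit 177) (nat_lit 215)) (PT.lf (nat_lit 16796) (nat_lit 6) (nat_lit 221) (nat_lit 3) (nat_lit 209) (nat_lit 177) (nat_lit 214))) (PT.nd (nat_lit 78) (PT.lf (nat_lit 16872) (nat_lit 6) (nat_lit 222) (nat_lit 3) (nat_lit 210) (nat_lit 177) (nat_lit 213)) (PT.lf (nat_lit 16948) (nat_lit 6) (nat_lit 223) (nat_lit 3) (nat_lit 211) (nat_lit 177) (nat_lit 212)))))) (PT.nd (nat_lit 61932) (PT.nd (nat_lit 312) (PT.nd (nat_lit 156) (PT.nd (nat_lit 78) (PT.lf (nat_lit 16948) (nat_lit 6) (nat_lit 223) (nat_lit 1) (nat_lit 212) (nat_lit 177) (nat_lit 211)) (PT.lf (nat_lit 16872) (nat_lit 6) (nat_lit 222) (nat_lit 1) (nat_lit 213) (nat_lit 177) (nat_lit 210))) (PT.nd (nat_lit 78) (PT.lf (nat_lit 16796) (nat_lit 6) (nat_lit 221) (nat_lit 1) (nat_lit 214) (nat_lit 177) (nat_lit 209)) (PT.lf (nat_lit 16720) (nat_lit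 6) (nat_lit 220) (nat_lit 1) (nat_lit 215) (nat_lit 177) (nat_lit 208)))) (PT.nd (nat_lit 156) (PT.nd (nat_lit 78) (PT.lf (nat_lit 16644) (nat_lit 6) (nat_lit 219) (nat_lit 1) (nat_lit 216) (nat_lit 177) (nat_lit 207)) (PT.lf (nat_lit 16568) (nat_lit 6) (nat_lit 218) (nat_lit 1) (nat_lit 217) (nat_lit 177) (nat_lit 206))) (PT.nd (nat_lit 61386) (PT.lf (nat_lit 16492) (nat_lit 6) (nat_lit 217) (nat_lit 1) (nat_lit 218) (nat_lit 177) (nat_lit 205)) (PT.lf (nat_lit 17024) (nat_lit 6) (nat_lit 224) (nat_lit 3) (nat_lit 204) (nat_lit 178) (nat_lit 218))))) (PT.nd (nat_lit 312) (PT.nd (nat_lit 156) (PT.nd (nat_lit 78) (PT.lf (nat_lit 17100) (nat_lit 6) (nat_lit 225) (nat_lit 3) (nat_lit 205) (nat_lit 178) (nat_lit 217)) (PT.lf (nat_lit 17176) (nat_lit 6) (nat_lit 226) (nat_lit 3) (nat_lit 206) (nat_lit 178) (nat_lit 216))) (PT.nd (nat_lit 78) (PT.lf (nat_lit 17252) (nat_lit 6) (nat_lit 227) (nat_lit 3) (nat_lit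 207) (nat_lit 178) (nat_lit 215)) (PT.lf (nat_lit 17328) (nat_lit 6) (nat_lit 228) (nat_lit 3) (nat_lit 208) (nat_lit 178) (nat_lit 214)))) (PT.nd (nat_lit 156) (PT.nd (nat_lit 78) (PT.lf (nat_lit 17404) (nat_lit 6) (nat_lit 229) (nat_lit 3) (nat_lit 209) (nat_lit 178) (nat_lit 213)) (PT.lf (nat_lit 17480) (nat_lit 6) (nat_lit 230) (nat_lit 3) (nat_lit 210) (nat_lit 178) (nat_lit 212))) (PT.nd (nat_lit 78) (PT.lf (nat_lit 17556) (nat_lit 3) (nat_lit 231) (nat_lit 1) (nat_lit 211) (nat_lit 178) (nat_lit 211)) (PT.lf (nat_lit 17480) (nat_lit 6) (nat_lit 230) (nat_lit 1) (nat_lit 212) (nat_lit 178) (nat_lit 210))))))))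
noncomputable def pc5 : PT := (PT.nd (nat_lit 125034) (PT.nd (nat_lit 62478) (PT.nd (nat_lit 61854) (PT.nd (nat_lit 234) (PT.nd (nat_lit 78) (PT.lf (nat_lit 17404) (nat_lit 6) (nat_lit 229) (nat_lit 1) (nat_lit 213) (nat_lit 178) (nat_lit 209)) (PT.nd (nat_lit 78) (PT.lf (nat_lit 17328) (nat_lit 6) (nat_lit 228) (nat_lit 1) (nat_lit 214) (nat_lit 178) (nat_lit 208)) (PT.lf (nat_lit 17252) (nat_lit 6) (nat_lit 227) (nat_lit 1) (nat_lit 215) (nat_lit 178) (nat_lit 207)))) (PT.nd (nat_lit 156) (PT.nd (nat_lit 78) (PT.lf (nat_lit 17176) (nat_lit 6) (nat_lit 226) (nat_lit 1) (nat_lit 216) (nat_lit 178) (nat_lit 206)) (PT.lf (nat_lit 17100) (nat_lit 6) (nat_lit 225) (nat_lit 1) (nat_lit 217) (nat_lit 178) (nat_lit 205))) (PT.nd (nat_lit 61386) (PT.lf (nat_lit 17024) (nat_lit 6) (nat_lit 224) (nat_lit 1) (nat_lit 218) (nat_lit 178) (nat_lit 204)) (PT.lf (nat_lit 17632) (nat_lit 6) (nat_lit 232) (nat_lit 3)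 (nat_lit 204) (nat_lit 179) (nat_lit 217))))) (PT.nd (nat_lit 312) (PT.nd (nat_lit 156) (PT.nd (nat_lit 78) (PT.lf (nat_lit 17708) (nat_lit 6) (nat_lit 233) (nat_lit 3) (nat_lit 205) (nat_lit 179) (nat_lit 216)) (PT.lf (nat_lit 17784) (nat_lit 6) (nat_lit 234) (nat_lit 3) (nat_lit 206) (nat_lit 179) (nat_lit 215))) (PT.nd (nat_lit 78) (PT.lf (nat_lit 17860) (nat_lit 6) (nat_lit 235) (nat_lit 3) (nat_lit 207) (nat_lit 179) (nat_lit 214)) (PT.lf (nat_lit 17936) (nat_lit 6) (nat_lit 236) (nat_lit 3) (nat_lit 208) (nat_lit 179) (nat_lit 213)))) (PT.nd (nat_lit 156) (PT.nd (nat_lit 78) (PT.lf (nat_lit 18012) (nat_lit 6) (nat_lit 237) (nat_lit 3) (nat_lit 209) (nat_lit 179) (nat_lit 212)) (PT.lf (nat_lit 18088) (nat_lit 6) (nat_lit 238) (nat_lit 3) (nat_lit 210) (nat_lit 179) (nat_lit 211))) (PT.nd (nat_lit 78) (PT.lf (nat_lit 18088) (nat_lit 6) (nat_lit 238) (nat_lit 1) (nat_lit 211) (nat_lit 179) (nat_lit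 210)) (PT.lf (nat_lit 18012) (nat_lit 6) (nat_lit 237) (nat_lit 1) (nat_lit 212) (nat_lit 179) (nat_lit 209)))))) (PT.nd (nat_lit 61932) (PT.nd (nat_lit 312) (PT.nd (nat_lit 156) (PT.nd (nat_lit 78) (PT.lf (nat_lit 17936) (nat_lit 6) (nat_lit 236) (nat_lit 1) (nat_lit 213) (nat_lit 179) (nat_lit 208)) (PT.lf (nat_lit 17860) (nat_lit 6) (nat_lit 235) (nat_lit 1) (nat_lit 214) (nat_lit 179) (nat_lit 207))) (PT.nd (nat_lit 78) (PT.lf (nat_lit 17784) (nat_lit 6) (nat_lit 234) (nat_lit 1) (nat_lit 215) (nat_lit 179) (nat_lit 206)) (PT.lf (nat_lit 17708) (nat_lit 6) (nat_lit 233) (nat_lit 1) (nat_lit 216) (nat_lit 179) (nat_lit 205)))) (PT.nd (nat_lit 61464) (PT.nd (nat_lit 61386) (PT.lf (nat_lit 17632) (nat_lit 6) (nat_lit 232) (nat_lit 1) (nat_lit 217) (nat_lit 179) (nat_lit 204)) (PT.lf (nat_lit 18164) (nat_lit 6) (nat_lit 239) (nat_lit 3) (nat_lit 203) (nat_lit 180) (nat_lit 217))) (PT.nd (nat_lit 78)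 (PT.lf (nat_lit 18240) (nat_lit 6) (nat_lit 240) (nat_lit 3) (nat_lit 204) (nat_lit 180) (nat_lit 216)) (PT.lf (nat_lit 18316) (nat_lit 6) (nat_lit 241) (nat_lit 3) (nat_lit 205) (nat_lit 180) (nat_lit 215))))) (PT.nd (nat_lit 312) (PT.nd (nat_lit 156) (PT.nd (nat_lit 78) (PT.lf (nat_lit 18392) (nat_lit 6) (nat_lit 242) (nat_lit 3) (nat_lit 206) (nat_lit 180) (nat_lit 214)) (PT.lf (nat_lit 18468) (nat_lit 6) (nat_lit 243) (nat_lit 3) (nat_lit 207) (nat_lit 180) (nat_lit 213))) (PT.nd (nat_lit 78) (PT.lf (nat_lit 18544) (nat_lit 6) (nat_lit 244) (nat_lit 3) (nat_lit 208) (nat_lit 180) (nat_lit 212)) (PT.lf (nat_lit 18620) (nat_lit 6) (nat_lit 245) (nat_lit 3) (nat_lit 209) (nat_lit 180) (nat_lit 211)))) (PT.nd (nat_lit 156) (PT.nd (nat_lit 78) (PT.lf (nat_lit 18696) (nat_lit 3) (nat_lit 246) (nat_lit 1) (nat_lit 210) (nat_lit 180) (nat_lit 210)) (PT.lf (nat_lit 18620) (nat_lit 6) (nat_lit 245) (nat_lit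 1) (nat_lit 211) (nat_lit 180) (nat_lit 209))) (PT.nd (nat_lit 78) (PT.lf (nat_lit 18544) (nat_lit 6) (nat_lit 244) (nat_lit 1) (nat_lit 212) (nat_lit 180) (nat_lit 208)) (PT.lf (nat_lit 18468) (nat_lit 6) (nat_lit 243) (nat_lit 1) (nat_lit 213) (nat_lit 180) (nat_lit 207))))))) (PT.nd (nat_lit 62478) (PT.nd (nat_lit 61854) (PT.nd (nat_lit 61542) (PT.nd (nat_lit 156) (PT.nd (nat_lit 78) (PT.lf (nat_lit 18392) (nat_lit 6) (nat_lit 242) (nat_lit 1) (nat_lit 214) (nat_lit 180) (nat_lit 206)) (PT.lf (nat_lit 18316) (nat_lit 6) (nat_lit 241) (nat_lit 1) (nat_lit 215) (nat_lit 180) (nat_lit 205))) (PT.nd (nat_lit 78) (PT.lf (nat_lit 18240) (nat_lit 6) (nat_lit 240) (nat_lit 1) (nat_lit 216) (nat_lit 180) (nat_lit 204)) (PT.lf (nat_lit 18164) (nat_lit 6) (nat_lit 239) (nat_lit 1) (nat_lit 217) (nat_lit 180) (nat_lit 203)))) (PT.nd (nat_lit 156) (PT.nd (nat_lit 78) (PT.lf (nat_lit 18772) (nat_lit 6) (nat_lit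 247) (nat_lit 3) (nat_lit 202) (nat_lit 181) (nat_lit 217)) (PT.lf (nat_lit 18848) (nat_lit 6) (nat_lit 248) (nat_lit 3) (nat_lit 203) (nat_lit 181) (nat_lit 216))) (PT.nd (nat_lit 78) (PT.lf (nat_lit 18924) (nat_lit 6) (nat_lit 249) (nat_lit 3) (nat_lit 204) (nat_lit 181) (nat_lit 215)) (PT.lf (nat_lit 19000) (nat_lit 6) (nat_lit 250) (nat_lit 3) (nat_lit 205) (nat_lit 181) (nat_lit 214))))) (PT.nd (nat_lit 312) (PT.nd (nat_lit 156) (PT.nd (nat_lit 78) (PT.lf (nat_lit 19076) (nat_lit 6) (nat_lit 251) (nat_lit 3) (nat_lit 206) (nat_lit 181) (nat_lit 213)) (PT.lf (nat_lit 19152) (nat_lit 6) (nat_lit 252) (nat_lit 3) (nat_lit 207) (nat_lit 181) (nat_lit 212))) (PT.nd (nat_lit 78) (PT.lf (nat_lit 19228) (nat_lit 6) (nat_lit 253) (nat_lit 3) (nat_lit 208) (nat_lit 181) (nat_lit 211)) (PT.lf (nat_lit 19304) (nat_lit 6) (nat_lit 254) (nat_lit 3) (nat_lit 209) (nat_lit 181) (nat_lit 210)))) (PT.nd (nat_lit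 156) (PT.nd (nat_lit 78) (PT.lf (nat_lit 19304) (nat_lit 6) (nat_lit 254) (nat_lit 1) (nat_lit 210) (nat_lit 181) (nat_lit 209)) (PT.lf (nat_lit 19228) (nat_lit 6) (nat_lit 253) (nat_lit 1) (nat_lit 211) (nat_lit 181) (nat_lit 208))) (PT.nd (nat_lit 78) (PT.lf (nat_lit 19152) (nat_lit 6) (nat_lit 252) (nat_lit 1) (nat_lit 212) (nat_lit 181) (nat_lit 207)) (PT.lf (nat_lit 19076) (nat_lit 6) (nat_lit 251) (nat_lit 1) (nat_lit 213) (nat_lit 181) (nat_lit 206)))))) (PT.nd (nat_lit 61776) (PT.nd (nat_lit 61464) (PT.nd (nat_lit 156) (PT.nd (nat_lit 78) (PT.lf (nat_lit 19000) (nat_lit 6) (nat_lit 250) (nat_lit 1) (nat_lit 214) (nat_lit 181) (nat_lit 205)) (PT.lf (nat_lit 18924) (nat_lit 6) (nat_lit 249) (nat_lit 1) (nat_lit 215) (nat_lit 181) (nat_lit 204))) (PT.nd (nat_lit 78) (PT.lf (nat_lit 18848) (nat_lit 6) (nat_lit 248) (nat_lit 1) (nat_lit 216) (nat_lit 181) (nat_lit 203)) (PT.lf (nat_lit 18772) (nat_lit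 6) (nat_lit 247) (nat_lit 1) (nat_lit 217) (nat_lit 181) (nat_lit 202)))) (PT.nd (nat_lit 156) (PT.nd (nat_lit 78) (PT.lf (nat_lit 19380) (nat_lit 6) (nat_lit 255) (nat_lit 3) (nat_lit 201) (nat_lit 182) (nat_lit 217)) (PT.lf (nat_lit 19456) (nat_lit 6) (nat_lit 256) (nat_lit 3) (nat_lit 202) (nat_lit 182) (nat_lit 216))) (PT.nd (nat_lit 78) (PT.lf (nat_lit 19532) (nat_lit 6) (nat_lit 257) (nat_lit 3) (nat_lit 203) (nat_lit 182) (nat_lit 215)) (PT.lf (nat_lit 19608) (nat_lit 6) (nat_lit 258) (nat_lit 3) (nat_lit 204) (nat_lit 182) (nat_lit 214))))) (PT.nd (nat_lit 312) (PT.nd (nat_lit 156) (PT.nd (nat_lit 78) (PT.lf (nat_lit 19684) (nat_lit 6) (nat_lit 259) (nat_lit 3) (nat_lit 205) (nat_lit 182) (nat_lit 213)) (PT.lf (nat_lit 19760) (nat_lit 6) (nat_lit 260) (nat_lit 3) (nat_lit 206) (nat_lit 182) (nat_lit 212))) (PT.nd (nat_lit 78) (PT.lf (nat_lit 19836) (nat_lit 6) (nat_lit 261) (nat_lit 3) (nat_lit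 207) (nat_lit 182) (nat_lit 211)) (PT.lf (nat_lit 19912) (nat_lit 6) (nat_lit 262) (nat_lit 3) (nat_lit 208) (nat_lit 182) (nat_lit 210)))) (PT.nd (nat_lit 156) (PT.nd (nat_lit 78) (PT.lf (nat_lit 19988) (nat_lit 3) (nat_lit 263) (nat_lit 1) (nat_lit 209) (nat_lit 182) (nat_lit 209)) (PT.lf (nat_lit 19912) (nat_lit 6) (nat_lit 262) (nat_lit 1) (nat_lit 210) (nat_lit 182) (nat_lit 208))) (PT.nd (nat_lit 78) (PT.lf (nat_lit 19836) (nat_lit 6) (nat_lit 261) (nat_lit 1) (nat_lit 211) (nat_lit 182) (nat_lit 207)) (PT.lf (nat_lit 19760) (nat_lit 6) (nat_lit 260) (nat_lit 1) (nat_lit 212) (nat_lit 182) (nat_lit 206))))))))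
noncomputable def pc6 : PT := (PT.nd (nat_lit 124566) (PT.nd (nat_lit 62244) (PT.nd (nat_lit 61620) (PT.nd (nat_lit 234) (PT.nd (nat_lit 78) (PT.lf (nat_lit 19684) (nat_lit 6) (nat_lit 259) (nat_lit 1) (nat_lit 213) (nat_lit 182) (nat_lit 205)) (PT.nd (nat_lit 78) (PT.lf (nat_lit 19608) (nat_lit 6) (nat_lit 258) (nat_lit 1) (nat_lit 214) (nat_lit 182) (nat_lit 204)) (PT.lf (nat_lit 19532) (nat_lit 6) (nat_lit 257) (nat_lit 1) (nat_lit 215) (nat_lit 182) (nat_lit 203)))) (PT.nd (nat_lit 61230) (PT.nd (nat_lit 78) (PT.lf (nat_lit 19456) (nat_lit 6) (nat_lit 256) (nat_lit 1) (nat_lit 216) (nat_lit 182) (nat_lit 202)) (PT.lf (nat_lit 19380) (nat_lit 6) (nat_lit 255) (nat_lit 1) (nat_lit 217) (nat_lit 182) (nat_lit 201))) (PT.nd (nat_lit 78) (PT.lf (nat_lit 20140) (nat_lit 6) (nat_lit 265) (nat_lit 3) (nat_lit 200) (nat_lit 183) (nat_lit 217)) (PT.lf (nat_lit 20216) (nat_lit 6) (nat_lit 266) (nat_lit 3)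 (nat_lit 201) (nat_lit 183) (nat_lit 216))))) (PT.nd (nat_lit 312) (PT.nd (nat_lit 156) (PT.nd (nat_lit 78) (PT.lf (nat_lit 20292) (nat_lit 6) (nat_lit 267) (nat_lit 3) (nat_lit 202) (nat_lit 183) (nat_lit 215)) (PT.lf (nat_lit 20368) (nat_lit 6) (nat_lit 268) (nat_lit 3) (nat_lit 203) (nat_lit 183) (nat_lit 214))) (PT.nd (nat_lit 78) (PT.lf (nat_lit 20444) (nat_lit 6) (nat_lit 269) (nat_lit 3) (nat_lit 204) (nat_lit 183) (nat_lit 213)) (PT.lf (nat_lit 20520) (nat_lit 6) (nat_lit 270) (nat_lit 3) (nat_lit 205) (nat_lit 183) (nat_lit 212)))) (PT.nd (nat_lit 156) (PT.nd (nat_lit 78) (PT.lf (nat_lit 20596) (nat_lit 6) (nat_lit 271) (nat_lit 3) (nat_lit 206) (nat_lit 183) (nat_lit 211)) (PT.lf (nat_lit 20672) (nat_lit 6) (nat_lit 272) (nat_lit 3) (nat_lit 207) (nat_lit 183) (nat_lit 210))) (PT.nd (nat_lit 78) (PT.lf (nat_lit 20748) (nat_lit 6) (nat_lit 273) (nat_lit 3) (nat_lit 208) (nat_lit 183) (nat_lit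 209)) (PT.lf (nat_lit 20748) (nat_lit 6) (nat_lit 273) (nat_lit 1) (nat_lit 209) (nat_lit 183) (nat_lit 208)))))) (PT.nd (nat_lit 61698) (PT.nd (nat_lit 312) (PT.nd (nat_lit 156) (PT.nd (nat_lit 78) (PT.lf (nat_lit 20672) (nat_lit 6) (nat_lit 272) (nat_lit 1) (nat_lit 210) (nat_lit 183) (nat_lit 207)) (PT.lf (nat_lit 20596) (nat_lit 6) (nat_lit 271) (nat_lit 1) (nat_lit 211) (nat_lit 183) (nat_lit 206))) (PT.nd (nat_lit 78) (PT.lf (nat_lit 20520) (nat_lit 6) (nat_lit 270) (nat_lit 1) (nat_lit 212) (nat_lit 183) (nat_lit 205)) (PT.lf (nat_lit 20444) (nat_lit 6) (nat_lit 269) (nat_lit 1) (nat_lit 213) (nat_lit 183) (nat_lit 204)))) (PT.nd (nat_lit 156) (PT.nd (nat_lit 78) (PT.lf (nat_lit 20368) (nat_lit 6) (nat_lit 268) (nat_lit 1) (nat_lit 214) (nat_lit 183) (nat_lit 203)) (PT.lf (nat_lit 20292) (nat_lit 6) (nat_lit 267) (nat_lit 1) (nat_lit 215) (nat_lit 183) (nat_lit 202))) (PT.nd (nat_lit 78) (PT.lf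 (nat_lit 20216) (nat_lit 6) (nat_lit 266) (nat_lit 1) (nat_lit 216) (nat_lit 183) (nat_lit 201)) (PT.lf (nat_lit 20140) (nat_lit 6) (nat_lit 265) (nat_lit 1) (nat_lit 217) (nat_lit 183) (nat_lit 200))))) (PT.nd (nat_lit 312) (PT.nd (nat_lit 156) (PT.nd (nat_lit 78) (PT.lf (nat_lit 21432) (nat_lit 6) (nat_lit 282) (nat_lit 3) (nat_lit 200) (nat_lit 184) (nat_lit 216)) (PT.lf (nat_lit 21508) (nat_lit 6) (nat_lit 283) (nat_lit 3) (nat_lit 201) (nat_lit 184) (nat_lit 215))) (PT.nd (nat_lit 78) (PT.lf (nat_lit 21584) (nat_lit 6) (nat_lit 284) (nat_lit 3) (nat_lit 202) (nat_lit 184) (nat_lit 214)) (PT.lf (nat_lit 21660) (nat_lit 6) (nat_lit 285) (nat_lit 3) (nat_lit 203) (nat_lit 184) (nat_lit 213)))) (PT.nd (nat_lit 156) (PT.nd (nat_lit 78) (PT.lf (nat_lit 21736) (nat_lit 6) (nat_lit 286) (nat_lit 3) (nat_lit 204) (nat_lit 184) (nat_lit 212)) (PT.lf (nat_lit 21812) (nat_lit 6) (nat_lit 287) (nat_lit 3)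 (nat_lit 205) (nat_lit 184) (nat_lit 211))) (PT.nd (nat_lit 78) (PT.lf (nat_lit 21888) (nat_lit 6) (nat_lit 288) (nat_lit 3) (nat_lit 206) (nat_lit 184) (nat_lit 210)) (PT.lf (nat_lit 21964) (nat_lit 6) (nat_lit 289) (nat_lit 3) (nat_lit 207) (nat_lit 184) (nat_lit 209))))))) (PT.nd (nat_lit 62322) (PT.nd (nat_lit 624) (PT.nd (nat_lit 312) (PT.nd (nat_lit 156) (PT.nd (nat_lit 78) (PT.lf (nat_lit 22040) (nat_lit 3) (nat_lit 290) (nat_lit 1) (nat_lit 208) (nat_lit 184) (nat_lit 208)) (PT.lf (nat_lit 21964) (nat_lit 6) (nat_lit 289) (nat_lit 1) (nat_lit 209) (nat_lit 184) (nat_lit 207))) (PT.nd (nat_lit 78) (PT.lf (nat_lit 21888) (nat_lit 6) (nat_lit 288) (nat_lit 1) (nat_lit 210) (nat_lit 184) (nat_lit 206)) (PT.lf (nat_lit 21812) (nat_lit 6) (nat_lit 287) (nat_lit 1) (nat_lit 211) (nat_lit 184) (nat_lit 205)))) (PT.nd (nat_lit 156) (PT.nd (nat_lit 78) (PT.lf (nat_lit 21736) (nat_lit 6) (nat_lit 286)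 (nat_lit 1) (nat_lit 212) (nat_lit 184) (nat_lit 204)) (PT.lf (nat_lit 21660) (nat_lit 6) (nat_lit 285) (nat_lit 1) (nat_lit 213) (nat_lit 184) (nat_lit 203))) (PT.nd (nat_lit 78) (PT.lf (nat_lit 21584) (nat_lit 6) (nat_lit 284) (nat_lit 1) (nat_lit 214) (nat_lit 184) (nat_lit 202)) (PT.lf (nat_lit 21508) (nat_lit 6) (nat_lit 283) (nat_lit 1) (nat_lit 215) (nat_lit 184) (nat_lit 201))))) (PT.nd (nat_lit 61386) (PT.nd (nat_lit 61230) (PT.nd (nat_lit 61152) (PT.lf (nat_lit 21432) (nat_lit 6) (nat_lit 282) (nat_lit 1) (nat_lit 216) (nat_lit 184) (nat_lit 200)) (PT.lf (nat_lit 21356) (nat_lit 6) (nat_lit 281) (nat_lit 3) (nat_lit 199) (nat_lit 185) (nat_lit 216))) (PT.nd (nat_lit 78) (PT.lf (nat_lit 22648) (nat_lit 6) (nat_lit 298) (nat_lit 3) (nat_lit 200) (nat_lit 185) (nat_lit 215)) (PT.lf (nat_lit 22724) (nat_lit 6) (nat_lit 299) (nat_lit 3) (nat_lit 201) (nat_lit 185) (nat_lit 214)))) (PT.nd (nat_lit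 156) (PT.nd (nat_lit 78) (PT.lf (nat_lit 22800) (nat_lit 6) (nat_lit 300) (nat_lit 3) (nat_lit 202) (nat_lit 185) (nat_lit 213)) (PT.lf (nat_lit 22876) (nat_lit 6) (nat_lit 301) (nat_lit 3) (nat_lit 203) (nat_lit 185) (nat_lit 212))) (PT.nd (nat_lit 78) (PT.lf (nat_lit 22952) (nat_lit 6) (nat_lit 302) (nat_lit 3) (nat_lit 204) (nat_lit 185) (nat_lit 211)) (PT.lf (nat_lit 23028) (nat_lit 6) (nat_lit 303) (nat_lit 3) (nat_lit 205) (nat_lit 185) (nat_lit 210)))))) (PT.nd (nat_lit 624) (PT.nd (nat_lit 312) (PT.nd (nat_lit 156) (PT.nd (nat_lit 78) (PT.lf (nat_lit 23104) (nat_lit 6) (nat_lit 304) (nat_lit 3) (nat_lit 206) (nat_lit 185) (nat_lit 209)) (PT.lf (nat_lit 23180) (nat_lit 6) (nat_lit 305) (nat_lit 3) (nat_lit 207) (nat_lit 185) (nat_lit 208))) (PT.nd (nat_lit 78) (PT.lf (nat_lit 23180) (nat_lit 6) (nat_lit 305) (nat_lit 1) (nat_lit 208) (nat_lit 185) (nat_lit 207)) (PT.lf (nat_lit 23104) (nat_lit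 6) (nat_lit 304) (nat_lit 1) (nat_lit 209) (nat_lit 185) (nat_lit 206)))) (PT.nd (nat_lit 156) (PT.nd (nat_lit 78) (PT.lf (nat_lit 23028) (nat_lit 6) (nat_lit 303) (nat_lit 1) (nat_lit 210) (nat_lit 185) (nat_lit 205)) (PT.lf (nat_lit 22952) (nat_lit 6) (nat_lit 302) (nat_lit 1) (nat_lit 211) (nat_lit 185) (nat_lit 204))) (PT.nd (nat_lit 78) (PT.lf (nat_lit 22876) (nat_lit 6) (nat_lit 301) (nat_lit 1) (nat_lit 212) (nat_lit 185) (nat_lit 203)) (PT.lf (nat_lit 22800) (nat_lit 6) (nat_lit 300) (nat_lit 1) (nat_lit 213) (nat_lit 185) (nat_lit 202))))) (PT.nd (nat_lit 61308) (PT.nd (nat_lit 156) (PT.nd (nat_lit 78) (PT.lf (nat_lit 22724) (nat_lit 6) (nat_lit 299) (nat_lit 1) (nat_lit 214) (nat_lit 185) (nat_lit 201)) (PT.lf (nat_lit 22648) (nat_lit 6) (nat_lit 298) (nat_lit 1) (nat_lit 215) (nat_lit 185) (nat_lit 200))) (PT.nd (nat_lit 61074) (PT.lf (nat_lit 21356) (nat_lit 6) (nat_lit 281) (nat_lit 1)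 (nat_lit 216) (nat_lit 185) (nat_lit 199)) (PT.lf (nat_lit 21280) (nat_lit 6) (nat_lit 280) (nat_lit 3) (nat_lit 198) (nat_lit 186) (nat_lit 216)))) (PT.nd (nat_lit 156) (PT.nd (nat_lit 78) (PT.lf (nat_lit 22572) (nat_lit 6) (nat_lit 297) (nat_lit 3) (nat_lit 199) (nat_lit 186) (nat_lit 215)) (PT.lf (nat_lit 23788) (nat_lit 6) (nat_lit 313) (nat_lit 3) (nat_lit 200) (nat_lit 186) (nat_lit 214))) (PT.nd (nat_lit 78) (PT.lf (nat_lit 23864) (nat_lit 6) (nat_lit 314) (nat_lit 3) (nat_lit 201) (nat_lit 186) (nat_lit 213)) (PT.lf (nat_lit 23940) (nat_lit 6) (nat_lit 315) (nat_lit 3) (nat_lit 202) (nat_lit 186) (nat_lit 212))))))))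
noncomputable def pc7 : PT := (PT.nd (nat_lit 63414) (PT.nd (nat_lit 62166) (PT.nd (nat_lit 624) (PT.nd (nat_lit 312) (PT.nd (nat_lit 156) (PT.nd (nat_lit 78) (PT.lf (nat_lit 24016) (nat_lit 6) (nat_lit 316) (nat_lit 3) (nat_lit 203) (nat_lit 186) (nat_lit 211)) (PT.lf (nat_lit 24092) (nat_lit 6) (nat_lit 317) (nat_lit 3) (nat_lit 204) (nat_lit 186) (nat_lit 210))) (PT.nd (nat_lit 78) (PT.lf (nat_lit 24168) (nat_lit 6) (nat_lit 318) (nat_lit 3) (nat_lit 205) (nat_lit 186) (nat_lit 209)) (PT.lf (nat_lit 24244) (nat_lit 6) (nat_lit 319) (nat_lit 3) (nat_lit 206) (nat_lit 186) (nat_lit 208)))) (PT.nd (nat_lit 156) (PT.nd (nat_lit 78) (PT.lf (nat_lit 24320) (nat_lit 3) (nat_lit 320) (nat_lit 1) (nat_lit 207) (nat_lit 186) (nat_lit 207)) (PT.lf (nat_lit 24244) (nat_lit 6) (nat_lit 319) (nat_lit 1) (nat_lit 208) (nat_lit 186) (nat_lit 206))) (PT.nd (nat_lit 78) (PT.lf (nat_lit 24168) (nat_lit 6) (nat_lit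 318) (nat_lit 1) (nat_lit 209) (nat_lit 186) (nat_lit 205)) (PT.lf (nat_lit 24092) (nat_lit 6) (nat_lit 317) (nat_lit 1) (nat_lit 210) (nat_lit 186) (nat_lit 204))))) (PT.nd (nat_lit 312) (PT.nd (nat_lit 156) (PT.nd (nat_lit 78) (PT.lf (nat_lit 24016) (nat_lit 6) (nat_lit 316) (nat_lit 1) (nat_lit 211) (nat_lit 186) (nat_lit 203)) (PT.lf (nat_lit 23940) (nat_lit 6) (nat_lit 315) (nat_lit 1) (nat_lit 212) (nat_lit 186) (nat_lit 202))) (PT.nd (nat_lit 78) (PT.lf (nat_lit 23864) (nat_lit 6) (nat_lit 314) (nat_lit 1) (nat_lit 213) (nat_lit 186) (nat_lit 201)) (PT.lf (nat_lit 23788) (nat_lit 6) (nat_lit 313) (nat_lit 1) (nat_lit 214) (nat_lit 186) (nat_lit 200)))) (PT.nd (nat_lit 61074) (PT.nd (nat_lit 78) (PT.lf (nat_lit 22572) (nat_lit 6) (nat_lit 297) (nat_lit 1) (nat_lit 215) (nat_lit 186) (nat_lit 199)) (PT.lf (nat_lit 21280) (nat_lit 6) (nat_lit 280) (nat_lit 1) (nat_lit 216) (nat_lit 186) (nat_lit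 198))) (PT.nd (nat_lit 78) (PT.lf (nat_lit 21204) (nat_lit 6) (nat_lit 279) (nat_lit 3) (nat_lit 197) (nat_lit 187) (nat_lit 216)) (PT.lf (nat_lit 22496) (nat_lit 6) (nat_lit 296) (nat_lit 3) (nat_lit 198) (nat_lit 187) (nat_lit 215)))))) (PT.nd (nat_lit 624) (PT.nd (nat_lit 312) (PT.nd (nat_lit 156) (PT.nd (nat_lit 78) (PT.lf (nat_lit 23712) (nat_lit 6) (nat_lit 312) (nat_lit 3) (nat_lit 199) (nat_lit 187) (nat_lit 214)) (PT.lf (nat_lit 24852) (nat_lit 6) (nat_lit 327) (nat_lit 3) (nat_lit 200) (nat_lit 187) (nat_lit 213))) (PT.nd (nat_lit 78) (PT.lf (nat_lit 24928) (nat_lit 6) (nat_lit 328) (nat_lit 3) (nat_lit 201) (nat_lit 187) (nat_lit 212)) (PT.lf (nat_lit 25004) (nat_lit 6) (nat_lit 329) (nat_lit 3) (nat_lit 202) (nat_lit 187) (nat_lit 211)))) (PT.nd (nat_lit 156) (PT.nd (nat_lit 78) (PT.lf (nat_lit 25080) (nat_lit 6) (nat_lit 330) (nat_lit 3) (nat_lit 203) (nat_lit 187) (nat_lit 210)) (PT.lf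 (nat_lit 25156) (nat_lit 6) (nat_lit 331) (nat_lit 3) (nat_lit 204) (nat_lit 187) (nat_lit 209))) (PT.nd (nat_lit 78) (PT.lf (nat_lit 25232) (nat_lit 6) (nat_lit 332) (nat_lit 3) (nat_lit 205) (nat_lit 187) (nat_lit 208)) (PT.lf (nat_lit 25308) (nat_lit 6) (nat_lit 333) (nat_lit 3) (nat_lit 206) (nat_lit 187) (nat_lit 207))))) (PT.nd (nat_lit 312) (PT.nd (nat_lit 156) (PT.nd (nat_lit 78) (PT.lf (nat_lit 25308) (nat_lit 6) (nat_lit 333) (nat_lit 1) (nat_lit 207) (nat_lit 187) (nat_lit 206)) (PT.lf (nat_lit 25232) (nat_lit 6) (nat_lit 332) (nat_lit 1) (nat_lit 208) (nat_lit 187) (nat_lit 205))) (PT.nd (nat_lit 78) (PT.lf (nat_lit 25156) (nat_lit 6) (nat_lit 331) (nat_lit 1) (nat_lit 209) (nat_lit 187) (nat_lit 204)) (PT.lf (nat_lit 25080) (nat_lit 6) (nat_lit 330) (nat_lit 1) (nat_lit 210) (nat_lit 187) (nat_lit 203)))) (PT.nd (nat_lit 156) (PT.nd (nat_lit 78) (PT.lf (nat_lit 25004) (nat_lit 6) (nat_lit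 329) (nat_lit 1) (nat_lit 211) (nat_lit 187) (nat_lit 202)) (PT.lf (nat_lit 24928) (nat_lit 6) (nat_lit 328) (nat_lit 1) (nat_lit 212) (nat_lit 187) (nat_lit 201))) (PT.nd (nat_lit 78) (PT.lf (nat_lit 24852) (nat_lit 6) (nat_lit 327) (nat_lit 1) (nat_lit 213) (nat_lit 187) (nat_lit 200)) (PT.lf (nat_lit 23712) (nat_lit 6) (nat_lit 312) (nat_lit 1) (nat_lit 214) (nat_lit 187) (nat_lit 199))))))) (PT.nd (nat_lit 62088) (PT.nd (nat_lit 61464) (PT.nd (nat_lit 61152) (PT.nd (nat_lit 60996) (PT.nd (nat_lit 78) (PT.lf (nat_lit 22496) (nat_lit 6) (nat_lit 296) (nat_lit 1) (nat_lit 215) (nat_lit 187) (nat_lit 198)) (PT.lf (nat_lit 21204) (nat_lit 6) (nat_lit 279) (nat_lit 1) (nat_lit 216) (nat_lit 187) (nat_lit 197))) (PT.nd (nat_lit 78) (PT.lf (nat_lit 21128) (nat_lit 6) (nat_lit 278) (nat_lit 3) (nat_lit 196) (nat_lit 188) (nat_lit 216)) (PT.lf (nat_lit 22420) (nat_lit 6) (nat_lit 295) (nat_lit 3) (nat_lit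 197) (nat_lit 188) (nat_lit 215)))) (PT.nd (nat_lit 156) (PT.nd (nat_lit 78) (PT.lf (nat_lit 23636) (nat_lit 6) (nat_lit 311) (nat_lit 3) (nat_lit 198) (nat_lit 188) (nat_lit 214)) (PT.lf (nat_lit 24776) (nat_lit 6) (nat_lit 326) (nat_lit 3) (nat_lit 199) (nat_lit 188) (nat_lit 213))) (PT.nd (nat_lit 78) (PT.lf (nat_lit 25840) (nat_lit 6) (nat_lit 340) (nat_lit 3) (nat_lit 200) (nat_lit 188) (nat_lit 212)) (PT.lf (nat_lit 25916) (nat_lit 6) (nat_lit 341) (nat_lit 3) (nat_lit 201) (nat_lit 188) (nat_lit 211))))) (PT.nd (nat_lit 312) (PT.nd (nat_lit 156) (PT.nd (nat_lit 78) (PT.lf (nat_lit 25992) (nat_lit 6) (nat_lit 342) (nat_lit 3) (nat_lit 202) (nat_lit 188) (nat_lit 210)) (PT.lf (nat_lit 26068) (nat_lit 6) (nat_lit 343) (nat_lit 3) (nat_lit 203) (nat_lit 188) (nat_lit 209))) (PT.nd (nat_lit 78) (PT.lf (nat_lit 26144) (nat_lit 6) (nat_lit 344) (nat_lit 3) (nat_lit 204) (nat_lit 188) (nat_lit 208))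 (PT.lf (nat_lit 26220) (nat_lit 6) (nat_lit 345) (nat_lit 3) (nat_lit 205) (nat_lit 188) (nat_lit 207)))) (PT.nd (nat_lit 156) (PT.nd (nat_lit 78) (PT.lf (nat_lit 26296) (nat_lit 3) (nat_lit 346) (nat_lit 1) (nat_lit 206) (nat_lit 188) (nat_lit 206)) (PT.lf (nat_lit 26220) (nat_lit 6) (nat_lit 345) (nat_lit 1) (nat_lit 207) (nat_lit 188) (nat_lit 205))) (PT.nd (nat_lit 78) (PT.lf (nat_lit 26144) (nat_lit 6) (nat_lit 344) (nat_lit 1) (nat_lit 208) (nat_lit 188) (nat_lit 204)) (PT.lf (nat_lit 26068) (nat_lit 6) (nat_lit 343) (nat_lit 1) (nat_lit 209) (nat_lit 188) (nat_lit 203)))))) (PT.nd (nat_lit 61386) (PT.nd (nat_lit 312) (PT.nd (nat_lit 156) (PT.nd (nat_lit 78) (PT.lf (nat_lit 25992) (nat_lit 6) (nat_lit 342) (nat_lit 1) (nat_lit 210) (nat_lit 188) (nat_lit 202)) (PT.lf (nat_lit 25916) (nat_lit 6) (nat_lit 341) (nat_lit 1) (nat_lit 211) (nat_lit 188) (nat_lit 201))) (PT.nd (nat_lit 78) (PT.lf (nat_lit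 25840) (nat_lit 6) (nat_lit 340) (nat_lit 1) (nat_lit 212) (nat_lit 188) (nat_lit 200)) (PT.lf (nat_lit 24776) (nat_lit 6) (nat_lit 326) (nat_lit 1) (nat_lit 213) (nat_lit 188) (nat_lit 199)))) (PT.nd (nat_lit 156) (PT.nd (nat_lit 78) (PT.lf (nat_lit 23636) (nat_lit 6) (nat_lit 311) (nat_lit 1) (nat_lit 214) (nat_lit 188) (nat_lit 198)) (PT.lf (nat_lit 22420) (nat_lit 6) (nat_lit 295) (nat_lit 1) (nat_lit 215) (nat_lit 188) (nat_lit 197))) (PT.nd (nat_lit 60840) (PT.lf (nat_lit 21128) (nat_lit 6) (nat_lit 278) (nat_lit 1) (nat_lit 216) (nat_lit 188) (nat_lit 196)) (PT.lf (nat_lit 21052) (nat_lit 6) (nat_lit 277) (nat_lit 3) (nat_lit 195) (nat_lit 189) (nat_lit 216))))) (PT.nd (nat_lit 312) (PT.nd (nat_lit 156) (PT.nd (nat_lit 78) (PT.lf (nat_lit 22344) (nat_lit 6) (nat_lit 294) (nat_lit 3) (nat_lit 196) (nat_lit 189) (nat_lit 215)) (PT.lf (nat_lit 23560) (nat_lit 6) (nat_lit 310) (nat_lit 3) (nat_lit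 197) (nat_lit 189) (nat_lit 214))) (PT.nd (nat_lit 78) (PT.lf (nat_lit 24700) (nat_lit 6) (nat_lit 325) (nat_lit 3) (nat_lit 198) (nat_lit 189) (nat_lit 213)) (PT.lf (nat_lit 25764) (nat_lit 6) (nat_lit 339) (nat_lit 3) (nat_lit 199) (nat_lit 189) (nat_lit 212)))) (PT.nd (nat_lit 156) (PT.nd (nat_lit 78) (PT.lf (nat_lit 26752) (nat_lit 6) (nat_lit 352) (nat_lit 3) (nat_lit 200) (nat_lit 189) (nat_lit 211)) (PT.lf (nat_lit 26828) (nat_lit 6) (nat_lit 353) (nat_lit 3) (nat_lit 201) (nat_lit 189) (nat_lit 210))) (PT.nd (nat_lit 78) (PT.lf (nat_lit 26904) (nat_lit 6) (nat_lit 354) (nat_lit 3) (nat_lit 202) (nat_lit 189) (nat_lit 209)) (PT.lf (nat_lit 26980) (nat_lit 6) (nat_lit 355) (nat_lit 3) (nat_lit 203) (nat_lit 189) (nat_lit 208))))))))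
noncomputable def pc8 : PT := (PT.nd (nat_lit 63102) (PT.nd (nat_lit 61854) (PT.nd (nat_lit 546) (PT.nd (nat_lit 234) (PT.nd (nat_lit 78) (PT.lf (nat_lit 27056) (nat_lit 6) (nat_lit 356) (nat_lit 3) (nat_lit 204) (nat_lit 189) (nat_lit 207)) (PT.nd (nat_lit 78) (PT.lf (nat_lit 27132) (nat_lit 6) (nat_lit 357) (nat_lit 3) (nat_lit 205) (nat_lit 189) (nat_lit 206)) (PT.lf (nat_lit 27132) (nat_lit 6) (nat_lit 357) (nat_lit 1) (nat_lit 206) (nat_lit 189) (nat_lit 205)))) (PT.nd (nat_lit 156) (PT.nd (nat_lit 78) (PT.lf (nat_lit 27056) (nat_lit 6) (nat_lit 356) (nat_lit 1) (nat_lit 207) (nat_lit 189) (nat_lit 204)) (PT.lf (nat_lit 26980) (nat_lit 6) (nat_lit 355) (nat_lit 1) (nat_lit 208) (nat_lit 189) (nat_lit 203))) (PT.nd (nat_lit 78) (PT.lf (nat_lit 26904) (nat_lit 6) (nat_lit 354) (nat_lit 1) (nat_lit 209) (nat_lit 189) (nat_lit 202)) (PT.lf (nat_lit 26828) (nat_lit 6) (nat_lit 353) (nat_lit 1) (nat_lit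 210) (nat_lit 189) (nat_lit 201))))) (PT.nd (nat_lit 312) (PT.nd (nat_lit 156) (PT.nd (nat_lit 78) (PT.lf (nat_lit 26752) (nat_lit 6) (nat_lit 352) (nat_lit 1) (nat_lit 211) (nat_lit 189) (nat_lit 200)) (PT.lf (nat_lit 25764) (nat_lit 6) (nat_lit 339) (nat_lit 1) (nat_lit 212) (nat_lit 189) (nat_lit 199))) (PT.nd (nat_lit 78) (PT.lf (nat_lit 24700) (nat_lit 6) (nat_lit 325) (nat_lit 1) (nat_lit 213) (nat_lit 189) (nat_lit 198)) (PT.lf (nat_lit 23560) (nat_lit 6) (nat_lit 310) (nat_lit 1) (nat_lit 214) (nat_lit 189) (nat_lit 197)))) (PT.nd (nat_lit 60840) (PT.nd (nat_lit 78) (PT.lf (nat_lit 22344) (nat_lit 6) (nat_lit 294) (nat_lit 1) (nat_lit 215) (nat_lit 189) (nat_lit 196)) (PT.lf (nat_lit 21052) (nat_lit 6) (nat_lit 277) (nat_lit 1) (nat_lit 216) (nat_lit 189) (nat_lit 195))) (PT.nd (nat_lit 78) (PT.lf (nat_lit 20976) (nat_lit 6) (nat_lit 276) (nat_lit 3) (nat_lit 194) (nat_lit 190) (nat_lit 216))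 (PT.lf (nat_lit 22268) (nat_lit 6) (nat_lit 293) (nat_lit 3) (nat_lit 195) (nat_lit 190) (nat_lit 215)))))) (PT.nd (nat_lit 624) (PT.nd (nat_lit 312) (PT.nd (nat_lit 156) (PT.nd (nat_lit 78) (PT.lf (nat_lit 23484) (nat_lit 6) (nat_lit 309) (nat_lit 3) (nat_lit 196) (nat_lit 190) (nat_lit 214)) (PT.lf (nat_lit 24624) (nat_lit 6) (nat_lit 324) (nat_lit 3) (nat_lit 197) (nat_lit 190) (nat_lit 213))) (PT.nd (nat_lit 78) (PT.lf (nat_lit 25688) (nat_lit 6) (nat_lit 338) (nat_lit 3) (nat_lit 198) (nat_lit 190) (nat_lit 212)) (PT.lf (nat_lit 26676) (nat_lit 6) (nat_lit 351) (nat_lit 3) (nat_lit 199) (nat_lit 190) (nat_lit 211)))) (PT.nd (nat_lit 156) (PT.nd (nat_lit 78) (PT.lf (nat_lit 27588) (nat_lit 6) (nat_lit 363) (nat_lit 3) (nat_lit 200) (nat_lit 190) (nat_lit 210)) (PT.lf (nat_lit 27664) (nat_lit 6) (nat_lit 364) (nat_lit 3) (nat_lit 201) (nat_lit 190) (nat_lit 209))) (PT.nd (nat_lit 78) (PT.lf (nat_lit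 27740) (nat_lit 6) (nat_lit 365) (nat_lit 3) (nat_lit 202) (nat_lit 190) (nat_lit 208)) (PT.lf (nat_lit 27816) (nat_lit 6) (nat_lit 366) (nat_lit 3) (nat_lit 203) (nat_lit 190) (nat_lit 207))))) (PT.nd (nat_lit 312) (PT.nd (nat_lit 156) (PT.nd (nat_lit 78) (PT.lf (nat_lit 27892) (nat_lit 6) (nat_lit 367) (nat_lit 3) (nat_lit 204) (nat_lit 190) (nat_lit 206)) (PT.lf (nat_lit 27968) (nat_lit 3) (nat_lit 368) (nat_lit 1) (nat_lit 205) (nat_lit 190) (nat_lit 205))) (PT.nd (nat_lit 78) (PT.lf (nat_lit 27892) (nat_lit 6) (nat_lit 367) (nat_lit 1) (nat_lit 206) (nat_lit 190) (nat_lit 204)) (PT.lf (nat_lit 27816) (nat_lit 6) (nat_lit 366) (nat_lit 1) (nat_lit 207) (nat_lit 190) (nat_lit 203)))) (PT.nd (nat_lit 156) (PT.nd (nat_lit 78) (PT.lf (nat_lit 27740) (nat_lit 6) (nat_lit 365) (nat_lit 1) (nat_lit 208) (nat_lit 190) (nat_lit 202)) (PT.lf (nat_lit 27664) (nat_lit 6) (nat_lit 364) (nat_lit 1) (nat_lit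 209) (nat_lit 190) (nat_lit 201))) (PT.nd (nat_lit 78) (PT.lf (nat_lit 27588) (nat_lit 6) (nat_lit 363) (nat_lit 1) (nat_lit 210) (nat_lit 190) (nat_lit 200)) (PT.lf (nat_lit 26676) (nat_lit 6) (nat_lit 351) (nat_lit 1) (nat_lit 211) (nat_lit 190) (nat_lit 199))))))) (PT.nd (nat_lit 61854) (PT.nd (nat_lit 61230) (PT.nd (nat_lit 312) (PT.nd (nat_lit 156) (PT.nd (nat_lit 78) (PT.lf (nat_lit 25688) (nat_lit 6) (nat_lit 338) (nat_lit 1) (nat_lit 212) (nat_lit 190) (nat_lit 198)) (PT.lf (nat_lit 24624) (nat_lit 6) (nat_lit 324) (nat_lit 1) (nat_lit 213) (nat_lit 190) (nat_lit 197))) (PT.nd (nat_lit 78) (PT.lf (nat_lit 23484) (nat_lit 6) (nat_lit 309) (nat_lit 1) (nat_lit 214) (nat_lit 190) (nat_lit 196)) (PT.lf (nat_lit 22268) (nat_lit 6) (nat_lit 293) (nat_lit 1) (nat_lit 215) (nat_lit 190) (nat_lit 195)))) (PT.nd (nat_lit 60762) (PT.nd (nat_lit 60684) (PT.lf (nat_lit 20976) (nat_lit 6) (nat_lit 276) (nat_lit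 1) (nat_lit 216) (nat_lit 190) (nat_lit 194)) (PT.lf (nat_lit 20900) (nat_lit 6) (nat_lit 275) (nat_lit 3) (nat_lit 193) (nat_lit 191) (nat_lit 216))) (PT.nd (nat_lit 78) (PT.lf (nat_lit 22192) (nat_lit 6) (nat_lit 292) (nat_lit 3) (nat_lit 194) (nat_lit 191) (nat_lit 215)) (PT.lf (nat_lit 23408) (nat_lit 6) (nat_lit 308) (nat_lit 3) (nat_lit 195) (nat_lit 191) (nat_lit 214))))) (PT.nd (nat_lit 312) (PT.nd (nat_lit 156) (PT.nd (nat_lit 78) (PT.lf (nat_lit 24548) (nat_lit 6) (nat_lit 323) (nat_lit 3) (nat_lit 196) (nat_lit 191) (nat_lit 213)) (PT.lf (nat_lit 25612) (nat_lit 6) (nat_lit 337) (nat_lit 3) (nat_lit 197) (nat_lit 191) (nat_lit 212))) (PT.nd (nat_lit 78) (PT.lf (nat_lit 26600) (nat_lit 6) (nat_lit 350) (nat_lit 3) (nat_lit 198) (nat_lit 191) (nat_lit 211)) (PT.lf (nat_lit 27512) (nat_lit 6) (nat_lit 362) (nat_lit 3) (nat_lit 199) (nat_lit 191) (nat_lit 210)))) (PT.nd (nat_lit 156) (PT.nd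 (nat_lit 78) (PT.lf (nat_lit 28348) (nat_lit 6) (nat_lit 373) (nat_lit 3) (nat_lit 200) (nat_lit 191) (nat_lit 209)) (PT.lf (nat_lit 28424) (nat_lit 6) (nat_lit 374) (nat_lit 3) (nat_lit 201) (nat_lit 191) (nat_lit 208))) (PT.nd (nat_lit 78) (PT.lf (nat_lit 28500) (nat_lit 6) (nat_lit 375) (nat_lit 3) (nat_lit 202) (nat_lit 191) (nat_lit 207)) (PT.lf (nat_lit 28576) (nat_lit 6) (nat_lit 376) (nat_lit 3) (nat_lit 203) (nat_lit 191) (nat_lit 206)))))) (PT.nd (nat_lit 624) (PT.nd (nat_lit 312) (PT.nd (nat_lit 156) (PT.nd (nat_lit 78) (PT.lf (nat_lit 28652) (nat_lit 6) (nat_lit 377) (nat_lit 3) (nat_lit 204) (nat_lit 191) (nat_lit 205)) (PT.lf (nat_lit 28652) (nat_lit 6) (nat_lit 377) (nat_lit 1) (nat_lit 205) (nat_lit 191) (nat_lit 204))) (PT.nd (nat_lit 78) (PT.lf (nat_lit 28576) (nat_lit 6) (nat_lit 376) (nat_lit 1) (nat_lit 206) (nat_lit 191) (nat_lit 203)) (PT.lf (nat_lit 28500) (nat_lit 6) (nat_lit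 375) (nat_lit 1) (nat_lit 207) (nat_lit 191) (nat_lit 202)))) (PT.nd (nat_lit 156) (PT.nd (nat_lit 78) (PT.lf (nat_lit 28424) (nat_lit 6) (nat_lit 374) (nat_lit 1) (nat_lit 208) (nat_lit 191) (nat_lit 201)) (PT.lf (nat_lit 28348) (nat_lit 6) (nat_lit 373) (nat_lit 1) (nat_lit 209) (nat_lit 191) (nat_lit 200))) (PT.nd (nat_lit 78) (PT.lf (nat_lit 27512) (nat_lit 6) (nat_lit 362) (nat_lit 1) (nat_lit 210) (nat_lit 191) (nat_lit 199)) (PT.lf (nat_lit 26600) (nat_lit 6) (nat_lit 350) (nat_lit 1) (nat_lit 211) (nat_lit 191) (nat_lit 198))))) (PT.nd (nat_lit 312) (PT.nd (nat_lit 156) (PT.nd (nat_lit 78) (PT.lf (nat_lit 25612) (nat_lit 6) (nat_lit 337) (nat_lit 1) (nat_lit 212) (nat_lit 191) (nat_lit 197)) (PT.lf (nat_lit 24548) (nat_lit 6) (nat_lit 323) (nat_lit 1) (nat_lit 213) (nat_lit 191) (nat_lit 196))) (PT.nd (nat_lit 78) (PT.lf (nat_lit 23408) (nat_lit 6) (nat_lit 308) (nat_lit 1) (nat_lit 214) (nat_lit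 191) (nat_lit 195)) (PT.lf (nat_lit 22192) (nat_lit 6) (nat_lit 292) (nat_lit 1) (nat_lit 215) (nat_lit 191) (nat_lit 194)))) (PT.nd (nat_lit 60684) (PT.nd (nat_lit 60606) (PT.lf (nat_lit 20900) (nat_lit 6) (nat_lit 275) (nat_lit 1) (nat_lit 216) (nat_lit 191) (nat_lit 193)) (PT.lf (nat_lit 20824) (nat_lit 3) (nat_lit 274) (nat_lit 3) (nat_lit 192) (nat_lit 192) (nat_lit 216))) (PT.nd (nat_lit 78) (PT.lf (nat_lit 22116) (nat_lit 6) (nat_lit 291) (nat_lit 3) (nat_lit 193) (nat_lit 192) (nat_lit 215)) (PT.lf (nat_lit 23332) (nat_lit 6) (nat_lit 307) (nat_lit 3) (nat_lit 194) (nat_lit 192) (nat_lit 214))))))))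
noncomputable def pc9 : PT := (PT.nd (nat_lit 62868) (PT.nd (nat_lit 1170) (PT.nd (nat_lit 546) (PT.nd (nat_lit 234) (PT.nd (nat_lit 78) (PT.lf (nat_lit 24472) (nat_lit 6) (nat_lit 322) (nat_lit 3) (nat_lit 195) (nat_lit 192) (nat_lit 213)) (PT.nd (nat_lit 78) (PT.lf (nat_lit 25536) (nat_lit 6) (nat_lit 336) (nat_lit 3) (nat_lit 196) (nat_lit 192) (nat_lit 212)) (PT.lf (nat_lit 26524) (nat_lit 6) (nat_lit 349) (nat_lit 3) (nat_lit 197) (nat_lit 192) (nat_lit 211)))) (PT.nd (nat_lit 156) (PT.nd (nat_lit 78) (PT.lf (nat_lit 27436) (nat_lit 6) (nat_lit 361) (nat_lit 3) (nat_lit 198) (nat_lit 192) (nat_lit 210)) (PT.lf (nat_lit 28272) (nat_lit 6) (nat_lit 372) (nat_lit 3) (nat_lit 199) (nat_lit 192) (nat_lit 209))) (PT.nd (nat_lit 78) (PT.lf (nat_lit 29032) (nat_lit 6) (nat_lit 382) (nat_lit 3) (nat_lit 200) (nat_lit 192) (nat_lit 208)) (PT.lf (nat_lit 29108) (nat_lit 6) (nat_lit 383) (nat_lit 3) (nat_lit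 201) (nat_lit 192) (nat_lit 207))))) (PT.nd (nat_lit 312) (PT.nd (nat_lit 156) (PT.nd (nat_lit 78) (PT.lf (nat_lit 29184) (nat_lit 6) (nat_lit 384) (nat_lit 3) (nat_lit 202) (nat_lit 192) (nat_lit 206)) (PT.lf (nat_lit 29260) (nat_lit 6) (nat_lit 385) (nat_lit 3) (nat_lit 203) (nat_lit 192) (nat_lit 205))) (PT.nd (nat_lit 78) (PT.lf (nat_lit 29336) (nat_lit 3) (nat_lit 386) (nat_lit 1) (nat_lit 204) (nat_lit 192) (nat_lit 204)) (PT.lf (nat_lit 29260) (nat_lit 6) (nat_lit 385) (nat_lit 1) (nat_lit 205) (nat_lit 192) (nat_lit 203)))) (PT.nd (nat_lit 156) (PT.nd (nat_lit 78) (PT.lf (nat_lit 29184) (nat_lit 6) (nat_lit 384) (nat_lit 1) (nat_lit 206) (nat_lit 192) (nat_lit 202)) (PT.lf (nat_lit 29108) (nat_lit 6) (nat_lit 383) (nat_lit 1) (nat_lit 207) (nat_lit 192) (nat_lit 201))) (PT.nd (nat_lit 78) (PT.lf (nat_lit 29032) (nat_lit 6) (nat_lit 382) (nat_lit 1) (nat_lit 208) (nat_lit 192) (nat_lit 200))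 (PT.lf (nat_lit 28272) (nat_lit 6) (nat_lit 372) (nat_lit 1) (nat_lit 209) (nat_lit 192) (nat_lit 199)))))) (PT.nd (nat_lit 61074) (PT.nd (nat_lit 312) (PT.nd (nat_lit 156) (PT.nd (nat_lit 78) (PT.lf (nat_lit 27436) (nat_lit 6) (nat_lit 361) (nat_lit 1) (nat_lit 210) (nat_lit 192) (nat_lit 198)) (PT.lf (nat_lit 26524) (nat_lit 6) (nat_lit 349) (nat_lit 1) (nat_lit 211) (nat_lit 192) (nat_lit 197))) (PT.nd (nat_lit 78) (PT.lf (nat_lit 25536) (nat_lit 6) (nat_lit 336) (nat_lit 1) (nat_lit 212) (nat_lit 192) (nat_lit 196)) (PT.lf (nat_lit 24472) (nat_lit 6) (nat_lit 322) (nat_lit 1) (nat_lit 213) (nat_lit 192) (nat_lit 195)))) (PT.nd (nat_lit 156) (PT.nd (nat_lit 78) (PT.lf (nat_lit 23332) (nat_lit 6) (nat_lit 307) (nat_lit 1) (nat_lit 214) (nat_lit 192) (nat_lit 194)) (PT.lf (nat_lit 22116) (nat_lit 6) (nat_lit 291) (nat_lit 1) (nat_lit 215) (nat_lit 192) (nat_lit 193))) (PT.nd (nat_lit 60528) (PT.lf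 (nat_lit 20824) (nat_lit 3) (nat_lit 274) (nat_lit 0) (nat_lit 216) (nat_lit 192) (nat_lit 192)) (PT.lf (nat_lit 20900) (nat_lit 6) (nat_lit 275) (nat_lit 5) (nat_lit 191) (nat_lit 193) (nat_lit 216))))) (PT.nd (nat_lit 312) (PT.nd (nat_lit 156) (PT.nd (nat_lit 78) (PT.lf (nat_lit 22116) (nat_lit 6) (nat_lit 291) (nat_lit 5) (nat_lit 192) (nat_lit 193) (nat_lit 215)) (PT.lf (nat_lit 23256) (nat_lit 3) (nat_lit 306) (nat_lit 3) (nat_lit 193) (nat_lit 193) (nat_lit 214))) (PT.nd (nat_lit 78) (PT.lf (nat_lit 24396) (nat_lit 6) (nat_lit 321) (nat_lit 3) (nat_lit 194) (nat_lit 193) (nat_lit 213)) (PT.lf (nat_lit 25460) (nat_lit 6) (nat_lit 335) (nat_lit 3) (nat_lit 195) (nat_lit 193) (nat_lit 212)))) (PT.nd (nat_lit 156) (PT.nd (nat_lit 78) (PT.lf (nat_lit 26448) (nat_lit 6) (nat_lit 348) (nat_lit 3) (nat_lit 196) (nat_lit 193) (nat_lit 211)) (PT.lf (nat_lit 27360) (nat_lit 6) (nat_lit 360) (nat_lit 3)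 (nat_lit 197) (nat_lit 193) (nat_lit 210))) (PT.nd (nat_lit 78) (PT.lf (nat_lit 28196) (nat_lit 6) (nat_lit 371) (nat_lit 3) (nat_lit 198) (nat_lit 193) (nat_lit 209)) (PT.lf (nat_lit 28956) (nat_lit 6) (nat_lit 381) (nat_lit 3) (nat_lit 199) (nat_lit 193) (nat_lit 208))))))) (PT.nd (nat_lit 1248) (PT.nd (nat_lit 624) (PT.nd (nat_lit 312) (PT.nd (nat_lit 156) (PT.nd (nat_lit 78) (PT.lf (nat_lit 29640) (nat_lit 6) (nat_lit 390) (nat_lit 3) (nat_lit 200) (nat_lit 193) (nat_lit 207)) (PT.lf (nat_lit 29716) (nat_lit 6) (nat_lit 391) (nat_lit 3) (nat_lit 201) (nat_lit 193) (nat_lit 206))) (PT.nd (nat_lit 78) (PT.lf (nat_lit 29792) (nat_lit 6) (nat_lit 392) (nat_lit 3) (nat_lit 202) (nat_lit 193) (nat_lit 205)) (PT.lf (nat_lit 29868) (nat_lit 6) (nat_lit 393) (nat_lit 3) (nat_lit 203) (nat_lit 193) (nat_lit 204)))) (PT.nd (nat_lit 156) (PT.nd (nat_lit 78) (PT.lf (nat_lit 29868) (nat_lit 6) (nat_lit 393)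 (nat_lit 1) (nat_lit 204) (nat_lit 193) (nat_lit 203)) (PT.lf (nat_lit 29792) (nat_lit 6) (nat_lit 392) (nat_lit 1) (nat_lit 205) (nat_lit 193) (nat_lit 202))) (PT.nd (nat_lit 78) (PT.lf (nat_lit 29716) (nat_lit 6) (nat_lit 391) (nat_lit 1) (nat_lit 206) (nat_lit 193) (nat_lit 201)) (PT.lf (nat_lit 29640) (nat_lit 6) (nat_lit 390) (nat_lit 1) (nat_lit 207) (nat_lit 193) (nat_lit 200))))) (PT.nd (nat_lit 312) (PT.nd (nat_lit 156) (PT.nd (nat_lit 78) (PT.lf (nat_lit 28956) (nat_lit 6) (nat_lit 381) (nat_lit 1) (nat_lit 208) (nat_lit 193) (nat_lit 199)) (PT.lf (nat_lit 28196) (nat_lit 6) (nat_lit 371) (nat_lit 1) (nat_lit 209) (nat_lit 193) (nat_lit 198))) (PT.nd (nat_lit 78) (PT.lf (nat_lit 27360) (nat_lit 6) (nat_lit 360) (nat_lit 1) (nat_lit 210) (nat_lit 193) (nat_lit 197)) (PT.lf (nat_lit 26448) (nat_lit 6) (nat_lit 348) (nat_lit 1) (nat_lit 211) (nat_lit 193) (nat_lit 196)))) (PT.nd (nat_lit 156)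 (PT.nd (nat_lit 78) (PT.lf (nat_lit 25460) (nat_lit 6) (nat_lit 335) (nat_lit 1) (nat_lit 212) (nat_lit 193) (nat_lit 195)) (PT.lf (nat_lit 24396) (nat_lit 6) (nat_lit 321) (nat_lit 1) (nat_lit 213) (nat_lit 193) (nat_lit 194))) (PT.nd (nat_lit 78) (PT.lf (nat_lit 23256) (nat_lit 3) (nat_lit 306) (nat_lit 0) (nat_lit 214) (nat_lit 193) (nat_lit 193)) (PT.lf (nat_lit 22116) (nat_lit 6) (nat_lit 291) (nat_lit 0) (nat_lit 215) (nat_lit 193) (nat_lit 192)))))) (PT.nd (nat_lit 60996) (PT.nd (nat_lit 60684) (PT.nd (nat_lit 60528) (PT.nd (nat_lit 60450) (PT.lf (nat_lit 20900) (nat_lit 6) (nat_lit 275) (nat_lit 0) (nat_lit 216) (nat_lit 193) (nat_lit 191)) (PT.lf (nat_lit 20976) (nat_lit 6) (nat_lit 276) (nat_lit 5) (nat_lit 190) (nat_lit 194) (nat_lit 216))) (PT.nd (nat_lit 78) (PT.lf (nat_lit 22192) (nat_lit 6) (nat_lit 292) (nat_lit 5) (nat_lit 191) (nat_lit 194) (nat_lit 215)) (PT.lf (nat_lit 23332) (nat_lit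 6) (nat_lit 307) (nat_lit 5) (nat_lit 192) (nat_lit 194) (nat_lit 214)))) (PT.nd (nat_lit 156) (PT.nd (nat_lit 78) (PT.lf (nat_lit 24396) (nat_lit 6) (nat_lit 321) (nat_lit 5) (nat_lit 193) (nat_lit 194) (nat_lit 213)) (PT.lf (nat_lit 25384) (nat_lit 3) (nat_lit 334) (nat_lit 3) (nat_lit 194) (nat_lit 194) (nat_lit 212))) (PT.nd (nat_lit 78) (PT.lf (nat_lit 26372) (nat_lit 6) (nat_lit 347) (nat_lit 3) (nat_lit 195) (nat_lit 194) (nat_lit 211)) (PT.lf (nat_lit 27284) (nat_lit 6) (nat_lit 359) (nat_lit 3) (nat_lit 196) (nat_lit 194) (nat_lit 210))))) (PT.nd (nat_lit 312) (PT.nd (nat_lit 156) (PT.nd (nat_lit 78) (PT.lf (nat_lit 28120) (nat_lit 6) (nat_lit 370) (nat_lit 3) (nat_lit 197) (nat_lit 194) (nat_lit 209)) (PT.lf (nat_lit 28880) (nat_lit 6) (nat_lit 380) (nat_lit 3) (nat_lit 198) (nat_lit 194) (nat_lit 208))) (PT.nd (nat_lit 78) (PT.lf (nat_lit 29564) (nat_lit 6) (nat_lit 389) (nat_lit 3) (nat_lit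 199) (nat_lit 194) (nat_lit 207)) (PT.lf (nat_lit 30172) (nat_lit 6) (nat_lit 397) (nat_lit 3) (nat_lit 200) (nat_lit 194) (nat_lit 206)))) (PT.nd (nat_lit 156) (PT.nd (nat_lit 78) (PT.lf (nat_lit 30248) (nat_lit 6) (nat_lit 398) (nat_lit 3) (nat_lit 201) (nat_lit 194) (nat_lit 205)) (PT.lf (nat_lit 30324) (nat_lit 6) (nat_lit 399) (nat_lit 3) (nat_lit 202) (nat_lit 194) (nat_lit 204))) (PT.nd (nat_lit 78) (PT.lf (nat_lit 30400) (nat_lit 3) (nat_lit 400) (nat_lit 1) (nat_lit 203) (nat_lit 194) (nat_lit 203)) (PT.lf (nat_lit 30324) (nat_lit 6) (nat_lit 399) (nat_lit 1) (nat_lit 204) (nat_lit 194) (nat_lit 202))))))))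
noncomputable def pc10 : PT := (PT.nd (nat_lit 62712) (PT.nd (nat_lit 61464) (PT.nd (nat_lit 546) (PT.nd (nat_lit 234) (PT.nd (nat_lit 78) (PT.lf (nat_lit 30248) (nat_lit 6) (nat_lit 398) (nat_lit 1) (nat_lit 205) (nat_lit 194) (nat_lit 201)) (PT.nd (nat_lit 78) (PT.lf (nat_lit 30172) (nat_lit 6) (nat_lit 397) (nat_lit 1) (nat_lit 206) (nat_lit 194) (nat_lit 200)) (PT.lf (nat_lit 29564) (nat_lit 6) (nat_lit 389) (nat_lit 1) (nat_lit 207) (nat_lit 194) (nat_lit 199)))) (PT.nd (nat_lit 156) (PT.nd (nat_lit 78) (PT.lf (nat_lit 28880) (nat_lit 6) (nat_lit 380) (nat_lit 1) (nat_lit 208) (nat_lit 194) (nat_lit 198)) (PT.lf (nat_lit 28120) (nat_lit 6) (nat_lit 370) (nat_lit 1) (nat_lit 209) (nat_lit 194) (nat_lit 197))) (PT.nd (nat_lit 78) (PT.lf (nat_lit 27284) (nat_lit 6) (nat_lit 359) (nat_lit 1) (nat_lit 210) (nat_lit 194) (nat_lit 196)) (PT.lf (nat_lit 26372) (nat_lit 6) (nat_lit 347) (nat_lit 1) (nat_lit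 211) (nat_lit 194) (nat_lit 195))))) (PT.nd (nat_lit 312) (PT.nd (nat_lit 156) (PT.nd (nat_lit 78) (PT.lf (nat_lit 25384) (nat_lit 3) (nat_lit 334) (nat_lit 0) (nat_lit 212) (nat_lit 194) (nat_lit 194)) (PT.lf (nat_lit 24396) (nat_lit 6) (nat_lit 321) (nat_lit 0) (nat_lit 213) (nat_lit 194) (nat_lit 193))) (PT.nd (nat_lit 78) (PT.lf (nat_lit 23332) (nat_lit 6) (nat_lit 307) (nat_lit 0) (nat_lit 214) (nat_lit 194) (nat_lit 192)) (PT.lf (nat_lit 22192) (nat_lit 6) (nat_lit 292) (nat_lit 0) (nat_lit 215) (nat_lit 194) (nat_lit 191)))) (PT.nd (nat_lit 60450) (PT.nd (nat_lit 60372) (PT.lf (nat_lit 20976) (nat_lit 6) (nat_lit 276) (nat_lit 0) (nat_lit 216) (nat_lit 194) (nat_lit 190)) (PT.lf (nat_lit 21052) (nat_lit 6) (nat_lit 277) (nat_lit 5) (nat_lit 189) (nat_lit 195) (nat_lit 216))) (PT.nd (nat_lit 78) (PT.lf (nat_lit 22268) (nat_lit 6) (nat_lit 293) (nat_lit 5) (nat_lit 190) (nat_lit 195) (nat_lit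 215)) (PT.lf (nat_lit 23408) (nat_lit 6) (nat_lit 308) (nat_lit 5) (nat_lit 191) (nat_lit 195) (nat_lit 214)))))) (PT.nd (nat_lit 624) (PT.nd (nat_lit 312) (PT.nd (nat_lit 156) (PT.nd (nat_lit 78) (PT.lf (nat_lit 24472) (nat_lit 6) (nat_lit 322) (nat_lit 5) (nat_lit 192) (nat_lit 195) (nat_lit 213)) (PT.lf (nat_lit 25460) (nat_lit 6) (nat_lit 335) (nat_lit 5) (nat_lit 193) (nat_lit 195) (nat_lit 212))) (PT.nd (nat_lit 78) (PT.lf (nat_lit 26372) (nat_lit 6) (nat_lit 347) (nat_lit 5) (nat_lit 194) (nat_lit 195) (nat_lit 211)) (PT.lf (nat_lit 27208) (nat_lit 3) (nat_lit 358) (nat_lit 3) (nat_lit 195) (nat_lit 195) (nat_lit 210)))) (PT.nd (nat_lit 156) (PT.nd (nat_lit 78) (PT.lf (nat_lit 28044) (nat_lit 6) (nat_lit 369) (nat_lit 3) (nat_lit 196) (nat_lit 195) (nat_lit 209)) (PT.lf (nat_lit 28804) (nat_lit 6) (nat_lit 379) (nat_lit 3) (nat_lit 197) (nat_lit 195) (nat_lit 208))) (PT.nd (nat_lit 78) (PT.lf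 (nat_lit 29488) (nat_lit 6) (nat_lit 388) (nat_lit 3) (nat_lit 198) (nat_lit 195) (nat_lit 207)) (PT.lf (nat_lit 30096) (nat_lit 6) (nat_lit 396) (nat_lit 3) (nat_lit 199) (nat_lit 195) (nat_lit 206))))) (PT.nd (nat_lit 312) (PT.nd (nat_lit 156) (PT.nd (nat_lit 78) (PT.lf (nat_lit 30628) (nat_lit 6) (nat_lit 403) (nat_lit 3) (nat_lit 200) (nat_lit 195) (nat_lit 205)) (PT.lf (nat_lit 30704) (nat_lit 6) (nat_lit 404) (nat_lit 3) (nat_lit 201) (nat_lit 195) (nat_lit 204))) (PT.nd (nat_lit 78) (PT.lf (nat_lit 30780) (nat_lit 6) (nat_lit 405) (nat_lit 3) (nat_lit 202) (nat_lit 195) (nat_lit 203)) (PT.lf (nat_lit 30780) (nat_lit 6) (nat_lit 405) (nat_lit 1) (nat_lit 203) (nat_lit 195) (nat_lit 202)))) (PT.nd (nat_lit 156) (PT.nd (nat_lit 78) (PT.lf (nat_lit 30704) (nat_lit 6) (nat_lit 404) (nat_lit 1) (nat_lit 204) (nat_lit 195) (nat_lit 201)) (PT.lf (nat_lit 30628) (nat_lit 6) (nat_lit 403) (nat_lit 1)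 (nat_lit 205) (nat_lit 195) (nat_lit 200))) (PT.nd (nat_lit 78) (PT.lf (nat_lit 30096) (nat_lit 6) (nat_lit 396) (nat_lit 1) (nat_lit 206) (nat_lit 195) (nat_lit 199)) (PT.lf (nat_lit 29488) (nat_lit 6) (nat_lit 388) (nat_lit 1) (nat_lit 207) (nat_lit 195) (nat_lit 198))))))) (PT.nd (nat_lit 61464) (PT.nd (nat_lit 624) (PT.nd (nat_lit 312) (PT.nd (nat_lit 156) (PT.nd (nat_lit 78) (PT.lf (nat_lit 28804) (nat_lit 6) (nat_lit 379) (nat_lit 1) (nat_lit 208) (nat_lit 195) (nat_lit 197)) (PT.lf (nat_lit 28044) (nat_lit 6) (nat_lit 369) (nat_lit 1) (nat_lit 209) (nat_lit 195) (nat_lit 196))) (PT.nd (nat_lit 78) (PT.lf (nat_lit 27208) (nat_lit 3) (nat_lit 358) (nat_lit 0) (nat_lit 210) (nat_lit 195) (nat_lit 195)) (PT.lf (nat_lit 26372) (nat_lit 6) (nat_lit 347) (nat_lit 0) (nat_lit 211) (nat_lit 195) (nat_lit 194)))) (PT.nd (nat_lit 156) (PT.nd (nat_lit 78) (PT.lf (nat_lit 25460) (nat_lit 6) (nat_lit 335)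 (nat_lit 0) (nat_lit 212) (nat_lit 195) (nat_lit 193)) (PT.lf (nat_lit 24472) (nat_lit 6) (nat_lit 322) (nat_lit 0) (nat_lit 213) (nat_lit 195) (nat_lit 192))) (PT.nd (nat_lit 78) (PT.lf (nat_lit 23408) (nat_lit 6) (nat_lit 308) (nat_lit 0) (nat_lit 214) (nat_lit 195) (nat_lit 191)) (PT.lf (nat_lit 22268) (nat_lit 6) (nat_lit 293) (nat_lit 0) (nat_lit 215) (nat_lit 195) (nat_lit 190))))) (PT.nd (nat_lit 60528) (PT.nd (nat_lit 60372) (PT.nd (nat_lit 60294) (PT.lf (nat_lit 21052) (nat_lit 6) (nat_lit 277) (nat_lit 0) (nat_lit 216) (nat_lit 195) (nat_lit 189)) (PT.lf (nat_lit 21128) (nat_lit 6) (nat_lit 278) (nat_lit 5) (nat_lit 188) (nat_lit 196) (nat_lit 216))) (PT.nd (nat_lit 78) (PT.lf (nat_lit 22344) (nat_lit 6) (nat_lit 294) (nat_lit 5) (nat_lit 189) (nat_lit 196) (nat_lit 215)) (PT.lf (nat_lit 23484) (nat_lit 6) (nat_lit 309) (nat_lit 5) (nat_lit 190) (nat_lit 196) (nat_lit 214)))) (PT.nd (nat_lit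 156) (PT.nd (nat_lit 78) (PT.lf (nat_lit 24548) (nat_lit 6) (nat_lit 323) (nat_lit 5) (nat_lit 191) (nat_lit 196) (nat_lit 213)) (PT.lf (nat_lit 25536) (nat_lit 6) (nat_lit 336) (nat_lit 5) (nat_lit 192) (nat_lit 196) (nat_lit 212))) (PT.nd (nat_lit 78) (PT.lf (nat_lit 26448) (nat_lit 6) (nat_lit 348) (nat_lit 5) (nat_lit 193) (nat_lit 196) (nat_lit 211)) (PT.lf (nat_lit 27284) (nat_lit 6) (nat_lit 359) (nat_lit 5) (nat_lit 194) (nat_lit 196) (nat_lit 210)))))) (PT.nd (nat_lit 624) (PT.nd (nat_lit 312) (PT.nd (nat_lit 156) (PT.nd (nat_lit 78) (PT.lf (nat_lit 28044) (nat_lit 6) (nat_lit 369) (nat_lit 5) (nat_lit 195) (nat_lit 196) (nat_lit 209)) (PT.lf (nat_lit 28728) (nat_lit 3) (nat_lit 378) (nat_lit 3) (nat_lit 196) (nat_lit 196) (nat_lit 208))) (PT.nd (nat_lit 78) (PT.lf (nat_lit 29412) (nat_lit 6) (nat_lit 387) (nat_lit 3) (nat_lit 197) (nat_lit 196) (nat_lit 207)) (PT.lf (nat_lit 30020) (nat_lit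 6) (nat_lit 395) (nat_lit 3) (nat_lit 198) (nat_lit 196) (nat_lit 206)))) (PT.nd (nat_lit 156) (PT.nd (nat_lit 78) (PT.lf (nat_lit 30552) (nat_lit 6) (nat_lit 402) (nat_lit 3) (nat_lit 199) (nat_lit 196) (nat_lit 205)) (PT.lf (nat_lit 31008) (nat_lit 6) (nat_lit 408) (nat_lit 3) (nat_lit 200) (nat_lit 196) (nat_lit 204))) (PT.nd (nat_lit 78) (PT.lf (nat_lit 31084) (nat_lit 6) (nat_lit 409) (nat_lit 3) (nat_lit 201) (nat_lit 196) (nat_lit 203)) (PT.lf (nat_lit 31160) (nat_lit 3) (nat_lit 410) (nat_lit 1) (nat_lit 202) (nat_lit 196) (nat_lit 202))))) (PT.nd (nat_lit 312) (PT.nd (nat_lit 156) (PT.nd (nat_lit 78) (PT.lf (nat_lit 31084) (nat_lit 6) (nat_lit 409) (nat_lit 1) (nat_lit 203) (nat_lit 196) (nat_lit 201)) (PT.lf (nat_lit 31008) (nat_lit 6) (nat_lit 408) (nat_lit 1) (nat_lit 204) (nat_lit 196) (nat_lit 200))) (PT.nd (nat_lit 78) (PT.lf (nat_lit 30552) (nat_lit 6) (nat_lit 402) (nat_lit 1) (nat_lit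 205) (nat_lit 196) (nat_lit 199)) (PT.lf (nat_lit 30020) (nat_lit 6) (nat_lit 395) (nat_lit 1) (nat_lit 206) (nat_lit 196) (nat_lit 198)))) (PT.nd (nat_lit 156) (PT.nd (nat_lit 78) (PT.lf (nat_lit 29412) (nat_lit 6) (nat_lit 387) (nat_lit 1) (nat_lit 207) (nat_lit 196) (nat_lit 197)) (PT.lf (nat_lit 28728) (nat_lit 3) (nat_lit 378) (nat_lit 0) (nat_lit 208) (nat_lit 196) (nat_lit 196))) (PT.nd (nat_lit 78) (PT.lf (nat_lit 28044) (nat_lit 6) (nat_lit 369) (nat_lit 0) (nat_lit 209) (nat_lit 196) (nat_lit 195)) (PT.lf (nat_lit 27284) (nat_lit 6) (nat_lit 359) (nat_lit 0) (nat_lit 210) (nat_lit 196) (nat_lit 194))))))))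
noncomputable def pc11 : PT := (PT.nd (nat_lit 62556) (PT.nd (nat_lit 61308) (PT.nd (nat_lit 60684) (PT.nd (nat_lit 234) (PT.nd (nat_lit 78) (PT.lf (nat_lit 26448) (nat_lit 6) (nat_lit 348) (nat_lit 0) (nat_lit 211) (nat_lit 196) (nat_lit 193)) (PT.nd (nat_lit 78) (PT.lf (nat_lit 25536) (nat_lit 6) (nat_lit 336) (nat_lit 0) (nat_lit 212) (nat_lit 196) (nat_lit 192)) (PT.lf (nat_lit 24548) (nat_lit 6) (nat_lit 323) (nat_lit 0) (nat_lit 213) (nat_lit 196) (nat_lit 191)))) (PT.nd (nat_lit 156) (PT.nd (nat_lit 78) (PT.lf (nat_lit 23484) (nat_lit 6) (nat_lit 309) (nat_lit 0) (nat_lit 214) (nat_lit 196) (nat_lit 190)) (PT.lf (nat_lit 22344) (nat_lit 6) (nat_lit 294) (nat_lit 0) (nat_lit 215) (nat_lit 196) (nat_lit 189))) (PT.nd (nat_lit 60216) (PT.lf (nat_lit 21128) (nat_lit 6) (nat_lit 278) (nat_lit 0) (nat_lit 216) (nat_lit 196) (nat_lit 188)) (PT.lf (nat_lit 21204) (nat_lit 6) (nat_lit 279) (nat_lit 5)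 (nat_lit 187) (nat_lit 197) (nat_lit 216))))) (PT.nd (nat_lit 312) (PT.nd (nat_lit 156) (PT.nd (nat_lit 78) (PT.lf (nat_lit 22420) (nat_lit 6) (nat_lit 295) (nat_lit 5) (nat_lit 188) (nat_lit 197) (nat_lit 215)) (PT.lf (nat_lit 23560) (nat_lit 6) (nat_lit 310) (nat_lit 5) (nat_lit 189) (nat_lit 197) (nat_lit 214))) (PT.nd (nat_lit 78) (PT.lf (nat_lit 24624) (nat_lit 6) (nat_lit 324) (nat_lit 5) (nat_lit 190) (nat_lit 197) (nat_lit 213)) (PT.lf (nat_lit 25612) (nat_lit 6) (nat_lit 337) (nat_lit 5) (nat_lit 191) (nat_lit 197) (nat_lit 212)))) (PT.nd (nat_lit 156) (PT.nd (nat_lit 78) (PT.lf (nat_lit 26524) (nat_lit 6) (nat_lit 349) (nat_lit 5) (nat_lit 192) (nat_lit 197) (nat_lit 211)) (PT.lf (nat_lit 27360) (nat_lit 6) (nat_lit 360) (nat_lit 5) (nat_lit 193) (nat_lit 197) (nat_lit 210))) (PT.nd (nat_lit 78) (PT.lf (nat_lit 28120) (nat_lit 6) (nat_lit 370) (nat_lit 5) (nat_lit 194) (nat_lit 197) (nat_lit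 209)) (PT.lf (nat_lit 28804) (nat_lit 6) (nat_lit 379) (nat_lit 5) (nat_lit 195) (nat_lit 197) (nat_lit 208)))))) (PT.nd (nat_lit 624) (PT.nd (nat_lit 312) (PT.nd (nat_lit 156) (PT.nd (nat_lit 78) (PT.lf (nat_lit 29412) (nat_lit 6) (nat_lit 387) (nat_lit 5) (nat_lit 196) (nat_lit 197) (nat_lit 207)) (PT.lf (nat_lit 29944) (nat_lit 3) (nat_lit 394) (nat_lit 3) (nat_lit 197) (nat_lit 197) (nat_lit 206))) (PT.nd (nat_lit 78) (PT.lf (nat_lit 30476) (nat_lit 6) (nat_lit 401) (nat_lit 3) (nat_lit 198) (nat_lit 197) (nat_lit 205)) (PT.lf (nat_lit 30932) (nat_lit 6) (nat_lit 407) (nat_lit 3) (nat_lit 199) (nat_lit 197) (nat_lit 204)))) (PT.nd (nat_lit 156) (PT.nd (nat_lit 78) (PT.lf (nat_lit 31312) (nat_lit 6) (nat_lit 412) (nat_lit 3) (nat_lit 200) (nat_lit 197) (nat_lit 203)) (PT.lf (nat_lit 31388) (nat_lit 6) (nat_lit 413) (nat_lit 3) (nat_lit 201) (nat_lit 197) (nat_lit 202))) (PT.nd (nat_lit 78) (PT.lf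 (nat_lit 31388) (nat_lit 6) (nat_lit 413) (nat_lit 1) (nat_lit 202) (nat_lit 197) (nat_lit 201)) (PT.lf (nat_lit 31312) (nat_lit 6) (nat_lit 412) (nat_lit 1) (nat_lit 203) (nat_lit 197) (nat_lit 200))))) (PT.nd (nat_lit 312) (PT.nd (nat_lit 156) (PT.nd (nat_lit 78) (PT.lf (nat_lit 30932) (nat_lit 6) (nat_lit 407) (nat_lit 1) (nat_lit 204) (nat_lit 197) (nat_lit 199)) (PT.lf (nat_lit 30476) (nat_lit 6) (nat_lit 401) (nat_lit 1) (nat_lit 205) (nat_lit 197) (nat_lit 198))) (PT.nd (nat_lit 78) (PT.lf (nat_lit 29944) (nat_lit 3) (nat_lit 394) (nat_lit 0) (nat_lit 206) (nat_lit 197) (nat_lit 197)) (PT.lf (nat_lit 29412) (nat_lit 6) (nat_lit 387) (nat_lit 0) (nat_lit 207) (nat_lit 197) (nat_lit 196)))) (PT.nd (nat_lit 156) (PT.nd (nat_lit 78) (PT.lf (nat_lit 28804) (nat_lit 6) (nat_lit 379) (nat_lit 0) (nat_lit 208) (nat_lit 197) (nat_lit 195)) (PT.lf (nat_lit 28120) (nat_lit 6) (nat_lit 370) (nat_lit 0)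 (nat_lit 209) (nat_lit 197) (nat_lit 194))) (PT.nd (nat_lit 78) (PT.lf (nat_lit 27360) (nat_lit 6) (nat_lit 360) (nat_lit 0) (nat_lit 210) (nat_lit 197) (nat_lit 193)) (PT.lf (nat_lit 26524) (nat_lit 6) (nat_lit 349) (nat_lit 0) (nat_lit 211) (nat_lit 197) (nat_lit 192))))))) (PT.nd (nat_lit 61308) (PT.nd (nat_lit 60684) (PT.nd (nat_lit 312) (PT.nd (nat_lit 156) (PT.nd (nat_lit 78) (PT.lf (nat_lit 25612) (nat_lit 6) (nat_lit 337) (nat_lit 0) (nat_lit 212) (nat_lit 197) (nat_lit 191)) (PT.lf (nat_lit 24624) (nat_lit 6) (nat_lit 324) (nat_lit 0) (nat_lit 213) (nat_lit 197) (nat_lit 190))) (PT.nd (nat_lit 78) (PT.lf (nat_lit 23560) (nat_lit 6) (nat_lit 310) (nat_lit 0) (nat_lit 214) (nat_lit 197) (nat_lit 189)) (PT.lf (nat_lit 22420) (nat_lit 6) (nat_lit 295) (nat_lit 0) (nat_lit 215) (nat_lit 197) (nat_lit 188)))) (PT.nd (nat_lit 60216) (PT.nd (nat_lit 60138) (PT.lf (nat_lit 21204) (nat_lit 6) (nat_lit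 279) (nat_lit 0) (nat_lit 216) (nat_lit 197) (nat_lit 187)) (PT.lf (nat_lit 21280) (nat_lit 6) (nat_lit 280) (nat_lit 5) (nat_lit 186) (nat_lit 198) (nat_lit 216))) (PT.nd (nat_lit 78) (PT.lf (nat_lit 22496) (nat_lit 6) (nat_lit 296) (nat_lit 5) (nat_lit 187) (nat_lit 198) (nat_lit 215)) (PT.lf (nat_lit 23636) (nat_lit 6) (nat_lit 311) (nat_lit 5) (nat_lit 188) (nat_lit 198) (nat_lit 214))))) (PT.nd (nat_lit 312) (PT.nd (nat_lit 156) (PT.nd (nat_lit 78) (PT.lf (nat_lit 24700) (nat_lit 6) (nat_lit 325) (nat_lit 5) (nat_lit 189) (nat_lit 198) (nat_lit 213)) (PT.lf (nat_lit 25688) (nat_lit 6) (nat_lit 338) (nat_lit 5) (nat_lit 190) (nat_lit 198) (nat_lit 212))) (PT.nd (nat_lit 78) (PT.lf (nat_lit 26600) (nat_lit 6) (nat_lit 350) (nat_lit 5) (nat_lit 191) (nat_lit 198) (nat_lit 211)) (PT.lf (nat_lit 27436) (nat_lit 6) (nat_lit 361) (nat_lit 5) (nat_lit 192) (nat_lit 198) (nat_lit 210)))) (PT.nd (nat_lit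 156) (PT.nd (nat_lit 78) (PT.lf (nat_lit 28196) (nat_lit 6) (nat_lit 371) (nat_lit 5) (nat_lit 193) (nat_lit 198) (nat_lit 209)) (PT.lf (nat_lit 28880) (nat_lit 6) (nat_lit 380) (nat_lit 5) (nat_lit 194) (nat_lit 198) (nat_lit 208))) (PT.nd (nat_lit 78) (PT.lf (nat_lit 29488) (nat_lit 6) (nat_lit 388) (nat_lit 5) (nat_lit 195) (nat_lit 198) (nat_lit 207)) (PT.lf (nat_lit 30020) (nat_lit 6) (nat_lit 395) (nat_lit 5) (nat_lit 196) (nat_lit 198) (nat_lit 206)))))) (PT.nd (nat_lit 624) (PT.nd (nat_lit 312) (PT.nd (nat_lit 156) (PT.nd (nat_lit 78) (PT.lf (nat_lit 30476) (nat_lit 6) (nat_lit 401) (nat_lit 5) (nat_lit 197) (nat_lit 198) (nat_lit 205)) (PT.lf (nat_lit 30856) (nat_lit 3) (nat_lit 406) (nat_lit 3) (nat_lit 198) (nat_lit 198) (nat_lit 204))) (PT.nd (nat_lit 78) (PT.lf (nat_lit 31236) (nat_lit 6) (nat_lit 411) (nat_lit 3) (nat_lit 199) (nat_lit 198) (nat_lit 203)) (PT.lf (nat_lit 31540) (nat_lit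 6) (nat_lit 415) (nat_lit 3) (nat_lit 200) (nat_lit 198) (nat_lit 202)))) (PT.nd (nat_lit 156) (PT.nd (nat_lit 78) (PT.lf (nat_lit 31616) (nat_lit 3) (nat_lit 416) (nat_lit 1) (nat_lit 201) (nat_lit 198) (nat_lit 201)) (PT.lf (nat_lit 31540) (nat_lit 6) (nat_lit 415) (nat_lit 1) (nat_lit 202) (nat_lit 198) (nat_lit 200))) (PT.nd (nat_lit 78) (PT.lf (nat_lit 31236) (nat_lit 6) (nat_lit 411) (nat_lit 1) (nat_lit 203) (nat_lit 198) (nat_lit 199)) (PT.lf (nat_lit 30856) (nat_lit 3) (nat_lit 406) (nat_lit 0) (nat_lit 204) (nat_lit 198) (nat_lit 198))))) (PT.nd (nat_lit 312) (PT.nd (nat_lit 156) (PT.nd (nat_lit 78) (PT.lf (nat_lit 30476) (nat_lit 6) (nat_lit 401) (nat_lit 0) (nat_lit 205) (nat_lit 198) (nat_lit 197)) (PT.lf (nat_lit 30020) (nat_lit 6) (nat_lit 395) (nat_lit 0) (nat_lit 206) (nat_lit 198) (nat_lit 196))) (PT.nd (nat_lit 78) (PT.lf (nat_lit 29488) (nat_lit 6) (nat_lit 388) (nat_lit 0) (nat_lit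 207) (nat_lit 198) (nat_lit 195)) (PT.lf (nat_lit 28880) (nat_lit 6) (nat_lit 380) (nat_lit 0) (nat_lit 208) (nat_lit 198) (nat_lit 194)))) (PT.nd (nat_lit 156) (PT.nd (nat_lit 78) (PT.lf (nat_lit 28196) (nat_lit 6) (nat_lit 371) (nat_lit 0) (nat_lit 209) (nat_lit 198) (nat_lit 193)) (PT.lf (nat_lit 27436) (nat_lit 6) (nat_lit 361) (nat_lit 0) (nat_lit 210) (nat_lit 198) (nat_lit 192))) (PT.nd (nat_lit 78) (PT.lf (nat_lit 26600) (nat_lit 6) (nat_lit 350) (nat_lit 0) (nat_lit 211) (nat_lit 198) (nat_lit 191)) (PT.lf (nat_lit 25688) (nat_lit 6) (nat_lit 338) (nat_lit 0) (nat_lit 212) (nat_lit 198) (nat_lit 190))))))))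
noncomputable def pc12 : PT := (PT.nd (nat_lit 62400) (PT.nd (nat_lit 61152) (PT.nd (nat_lit 60528) (PT.nd (nat_lit 234) (PT.nd (nat_lit 78) (PT.lf (nat_lit 24700) (nat_lit 6) (nat_lit 325) (nat_lit 0) (nat_lit 213) (nat_lit 198) (nat_lit 189)) (PT.nd (nat_lit 78) (PT.lf (nat_lit 23636) (nat_lit 6) (nat_lit 311) (nat_lit 0) (nat_lit 214) (nat_lit 198) (nat_lit 188)) (PT.lf (nat_lit 22496) (nat_lit 6) (nat_lit 296) (nat_lit 0) (nat_lit 215) (nat_lit 198) (nat_lit 187)))) (PT.nd (nat_lit 60138) (PT.nd (nat_lit 60060) (PT.lf (nat_lit 21280) (nat_lit 6) (nat_lit 280) (nat_lit 0) (nat_lit 216) (nat_lit 198) (nat_lit 186)) (PT.lf (nat_lit 21356) (nat_lit 6) (nat_lit 281) (nat_lit 5) (nat_lit 185) (nat_lit 199) (nat_lit 216))) (PT.nd (nat_lit 78) (PT.lf (nat_lit 22572) (nat_lit 6) (nat_lit 297) (nat_lit 5) (nat_lit 186) (nat_lit 199) (nat_lit 215)) (PT.lf (nat_lit 23712) (nat_lit 6) (nat_lit 312) (nat_lit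 5) (nat_lit 187) (nat_lit 199) (nat_lit 214))))) (PT.nd (nat_lit 312) (PT.nd (nat_lit 156) (PT.nd (nat_lit 78) (PT.lf (nat_lit 24776) (nat_lit 6) (nat_lit 326) (nat_lit 5) (nat_lit 188) (nat_lit 199) (nat_lit 213)) (PT.lf (nat_lit 25764) (nat_lit 6) (nat_lit 339) (nat_lit 5) (nat_lit 189) (nat_lit 199) (nat_lit 212))) (PT.nd (nat_lit 78) (PT.lf (nat_lit 26676) (nat_lit 6) (nat_lit 351) (nat_lit 5) (nat_lit 190) (nat_lit 199) (nat_lit 211)) (PT.lf (nat_lit 27512) (nat_lit 6) (nat_lit 362) (nat_lit 5) (nat_lit 191) (nat_lit 199) (nat_lit 210)))) (PT.nd (nat_lit 156) (PT.nd (nat_lit 78) (PT.lf (nat_lit 28272) (nat_lit 6) (nat_lit 372) (nat_lit 5) (nat_lit 192) (nat_lit 199) (nat_lit 209)) (PT.lf (nat_lit 28956) (nat_lit 6) (nat_lit 381) (nat_lit 5) (nat_lit 193) (nat_lit 199) (nat_lit 208))) (PT.nd (nat_lit 78) (PT.lf (nat_lit 29564) (nat_lit 6) (nat_lit 389) (nat_lit 5) (nat_lit 194) (nat_lit 199) (nat_lit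 207)) (PT.lf (nat_lit 30096) (nat_lit 6) (nat_lit 396) (nat_lit 5) (nat_lit 195) (nat_lit 199) (nat_lit 206)))))) (PT.nd (nat_lit 624) (PT.nd (nat_lit 312) (PT.nd (nat_lit 156) (PT.nd (nat_lit 78) (PT.lf (nat_lit 30552) (nat_lit 6) (nat_lit 402) (nat_lit 5) (nat_lit 196) (nat_lit 199) (nat_lit 205)) (PT.lf (nat_lit 30932) (nat_lit 6) (nat_lit 407) (nat_lit 5) (nat_lit 197) (nat_lit 199) (nat_lit 204))) (PT.nd (nat_lit 78) (PT.lf (nat_lit 31236) (nat_lit 6) (nat_lit 411) (nat_lit 5) (nat_lit 198) (nat_lit 199) (nat_lit 203)) (PT.lf (nat_lit 31464) (nat_lit 3) (nat_lit 414) (nat_lit 3) (nat_lit 199) (nat_lit 199) (nat_lit 202)))) (PT.nd (nat_lit 156) (PT.nd (nat_lit 78) (PT.lf (nat_lit 31692) (nat_lit 6) (nat_lit 417) (nat_lit 3) (nat_lit 200) (nat_lit 199) (nat_lit 201)) (PT.lf (nat_lit 31692) (nat_lit 6) (nat_lit 417) (nat_lit 1) (nat_lit 201) (nat_lit 199) (nat_lit 200))) (PT.nd (nat_lit 78) (PT.lf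 (nat_lit 31464) (nat_lit 3) (nat_lit 414) (nat_lit 0) (nat_lit 202) (nat_lit 199) (nat_lit 199)) (PT.lf (nat_lit 31236) (nat_lit 6) (nat_lit 411) (nat_lit 0) (nat_lit 203) (nat_lit 199) (nat_lit 198))))) (PT.nd (nat_lit 312) (PT.nd (nat_lit 156) (PT.nd (nat_lit 78) (PT.lf (nat_lit 30932) (nat_lit 6) (nat_lit 407) (nat_lit 0) (nat_lit 204) (nat_lit 199) (nat_lit 197)) (PT.lf (nat_lit 30552) (nat_lit 6) (nat_lit 402) (nat_lit 0) (nat_lit 205) (nat_lit 199) (nat_lit 196))) (PT.nd (nat_lit 78) (PT.lf (nat_lit 30096) (nat_lit 6) (nat_lit 396) (nat_lit 0) (nat_lit 206) (nat_lit 199) (nat_lit 195)) (PT.lf (nat_lit 29564) (nat_lit 6) (nat_lit 389) (nat_lit 0) (nat_lit 207) (nat_lit 199) (nat_lit 194)))) (PT.nd (nat_lit 156) (PT.nd (nat_lit 78) (PT.lf (nat_lit 28956) (nat_lit 6) (nat_lit 381) (nat_lit 0) (nat_lit 208) (nat_lit 199) (nat_lit 193)) (PT.lf (nat_lit 28272) (nat_lit 6) (nat_lit 372) (nat_lit 0)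 (nat_lit 209) (nat_lit 199) (nat_lit 192))) (PT.nd (nat_lit 78) (PT.lf (nat_lit 27512) (nat_lit 6) (nat_lit 362) (nat_lit 0) (nat_lit 210) (nat_lit 199) (nat_lit 191)) (PT.lf (nat_lit 26676) (nat_lit 6) (nat_lit 351) (nat_lit 0) (nat_lit 211) (nat_lit 199) (nat_lit 190))))))) (PT.nd (nat_lit 61074) (PT.nd (nat_lit 60450) (PT.nd (nat_lit 312) (PT.nd (nat_lit 156) (PT.nd (nat_lit 78) (PT.lf (nat_lit 25764) (nat_lit 6) (nat_lit 339) (nat_lit 0) (nat_lit 212) (nat_lit 199) (nat_lit 189)) (PT.lf (nat_lit 24776) (nat_lit 6) (nat_lit 326) (nat_lit 0) (nat_lit 213) (nat_lit 199) (nat_lit 188))) (PT.nd (nat_lit 78) (PT.lf (nat_lit 23712) (nat_lit 6) (nat_lit 312) (nat_lit 0) (nat_lit 214) (nat_lit 199) (nat_lit 187)) (PT.lf (nat_lit 22572) (nat_lit 6) (nat_lit 297) (nat_lit 0) (nat_lit 215) (nat_lit 199) (nat_lit 186)))) (PT.nd (nat_lit 59982) (PT.nd (nat_lit 59904) (PT.lf (nat_lit 21356) (nat_lit 6) (nat_lit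 281) (nat_lit 0) (nat_lit 216) (nat_lit 199) (nat_lit 185)) (PT.lf (nat_lit 20140) (nat_lit 6) (nat_lit 265) (nat_lit 5) (nat_lit 183) (nat_lit 200) (nat_lit 217))) (PT.nd (nat_lit 78) (PT.lf (nat_lit 21432) (nat_lit 6) (nat_lit 282) (nat_lit 5) (nat_lit 184) (nat_lit 200) (nat_lit 216)) (PT.lf (nat_lit 22648) (nat_lit 6) (nat_lit 298) (nat_lit 5) (nat_lit 185) (nat_lit 200) (nat_lit 215))))) (PT.nd (nat_lit 312) (PT.nd (nat_lit 156) (PT.nd (nat_lit 78) (PT.lf (nat_lit 23788) (nat_lit 6) (nat_lit 313) (nat_lit 5) (nat_lit 186) (nat_lit 200) (nat_lit 214)) (PT.lf (nat_lit 24852) (nat_lit 6) (nat_lit 327) (nat_lit 5) (nat_lit 187) (nat_lit 200) (nat_lit 213))) (PT.nd (nat_lit 78) (PT.lf (nat_lit 25840) (nat_lit 6) (nat_lit 340) (nat_lit 5) (nat_lit 188) (nat_lit 200) (nat_lit 212)) (PT.lf (nat_lit 26752) (nat_lit 6) (nat_lit 352) (nat_lit 5) (nat_lit 189) (nat_lit 200) (nat_lit 211)))) (PT.nd (nat_lit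 156) (PT.nd (nat_lit 78) (PT.lf (nat_lit 27588) (nat_lit 6) (nat_lit 363) (nat_lit 5) (nat_lit 190) (nat_lit 200) (nat_lit 210)) (PT.lf (nat_lit 28348) (nat_lit 6) (nat_lit 373) (nat_lit 5) (nat_lit 191) (nat_lit 200) (nat_lit 209))) (PT.nd (nat_lit 78) (PT.lf (nat_lit 29032) (nat_lit 6) (nat_lit 382) (nat_lit 5) (nat_lit 192) (nat_lit 200) (nat_lit 208)) (PT.lf (nat_lit 29640) (nat_lit 6) (nat_lit 390) (nat_lit 5) (nat_lit 193) (nat_lit 200) (nat_lit 207)))))) (PT.nd (nat_lit 624) (PT.nd (nat_lit 312) (PT.nd (nat_lit 156) (PT.nd (nat_lit 78) (PT.lf (nat_lit 30172) (nat_lit 6) (nat_lit 397) (nat_lit 5) (nat_lit 194) (nat_lit 200) (nat_lit 206)) (PT.lf (nat_lit 30628) (nat_lit 6) (nat_lit 403) (nat_lit 5) (nat_lit 195) (nat_lit 200) (nat_lit 205))) (PT.nd (nat_lit 78) (PT.lf (nat_lit 31008) (nat_lit 6) (nat_lit 408) (nat_lit 5) (nat_lit 196) (nat_lit 200) (nat_lit 204)) (PT.lf (nat_lit 31312) (nat_lit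 6) (nat_lit 412) (nat_lit 5) (nat_lit 197) (nat_lit 200) (nat_lit 203)))) (PT.nd (nat_lit 156) (PT.nd (nat_lit 78) (PT.lf (nat_lit 31540) (nat_lit 6) (nat_lit 415) (nat_lit 5) (nat_lit 198) (nat_lit 200) (nat_lit 202)) (PT.lf (nat_lit 31692) (nat_lit 6) (nat_lit 417) (nat_lit 5) (nat_lit 199) (nat_lit 200) (nat_lit 201))) (PT.nd (nat_lit 78) (PT.lf (nat_lit 31768) (nat_lit 1) (nat_lit 418) (nat_lit 0) (nat_lit 200) (nat_lit 200) (nat_lit 200)) (PT.lf (nat_lit 31692) (nat_lit 6) (nat_lit 417) (nat_lit 0) (nat_lit 201) (nat_lit 200) (nat_lit 199))))) (PT.nd (nat_lit 312) (PT.nd (nat_lit 156) (PT.nd (nat_lit 78) (PT.lf (nat_lit 31540) (nat_lit 6) (nat_lit 415) (nat_lit 0) (nat_lit 202) (nat_lit 200) (nat_lit 198)) (PT.lf (nat_lit 31312) (nat_lit 6) (nat_lit 412) (nat_lit 0) (nat_lit 203) (nat_lit 200) (nat_lit 197))) (PT.nd (nat_lit 78) (PT.lf (nat_lit 31008) (nat_lit 6) (nat_lit 408) (nat_lit 0) (nat_lit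 204) (nat_lit 200) (nat_lit 196)) (PT.lf (nat_lit 30628) (nat_lit 6) (nat_lit 403) (nat_lit 0) (nat_lit 205) (nat_lit 200) (nat_lit 195)))) (PT.nd (nat_lit 156) (PT.nd (nat_lit 78) (PT.lf (nat_lit 30172) (nat_lit 6) (nat_lit 397) (nat_lit 0) (nat_lit 206) (nat_lit 200) (nat_lit 194)) (PT.lf (nat_lit 29640) (nat_lit 6) (nat_lit 390) (nat_lit 0) (nat_lit 207) (nat_lit 200) (nat_lit 193))) (PT.nd (nat_lit 78) (PT.lf (nat_lit 29032) (nat_lit 6) (nat_lit 382) (nat_lit 0) (nat_lit 208) (nat_lit 200) (nat_lit 192)) (PT.lf (nat_lit 28348) (nat_lit 6) (nat_lit 373) (nat_lit 0) (nat_lit 209) (nat_lit 200) (nat_lit 191))))))))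
noncomputable def pc13 : PT := (PT.nd (nat_lit 62088) (PT.nd (nat_lit 60840) (PT.nd (nat_lit 546) (PT.nd (nat_lit 234) (PT.nd (nat_lit 78) (PT.lf (nat_lit 27588) (nat_lit 6) (nat_lit 363) (nat_lit 0) (nat_lit 210) (nat_lit 200) (nat_lit 190)) (PT.nd (nat_lit 78) (PT.lf (nat_lit 26752) (nat_lit 6) (nat_lit 352) (nat_lit 0) (nat_lit 211) (nat_lit 200) (nat_lit 189)) (PT.lf (nat_lit 25840) (nat_lit 6) (nat_lit 340) (nat_lit 0) (nat_lit 212) (nat_lit 200) (nat_lit 188)))) (PT.nd (nat_lit 156) (PT.nd (nat_lit 78) (PT.lf (nat_lit 24852) (nat_lit 6) (nat_lit 327) (nat_lit 0) (nat_lit 213) (nat_lit 200) (nat_lit 187)) (PT.lf (nat_lit 23788) (nat_lit 6) (nat_lit 313) (nat_lit 0) (nat_lit 214) (nat_lit 200) (nat_lit 186))) (PT.nd (nat_lit 78) (PT.lf (nat_lit 22648) (nat_lit 6) (nat_lit 298) (nat_lit 0) (nat_lit 215) (nat_lit 200) (nat_lit 185)) (PT.lf (nat_lit 21432) (nat_lit 6) (nat_lit 282) (nat_lit 0) (nat_lit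 216) (nat_lit 200) (nat_lit 184))))) (PT.nd (nat_lit 59982) (PT.nd (nat_lit 59826) (PT.nd (nat_lit 59748) (PT.lf (nat_lit 20140) (nat_lit 6) (nat_lit 265) (nat_lit 0) (nat_lit 217) (nat_lit 200) (nat_lit 183)) (PT.lf (nat_lit 19380) (nat_lit 6) (nat_lit 255) (nat_lit 5) (nat_lit 182) (nat_lit 201) (nat_lit 217))) (PT.nd (nat_lit 78) (PT.lf (nat_lit 20216) (nat_lit 6) (nat_lit 266) (nat_lit 5) (nat_lit 183) (nat_lit 201) (nat_lit 216)) (PT.lf (nat_lit 21508) (nat_lit 6) (nat_lit 283) (nat_lit 5) (nat_lit 184) (nat_lit 201) (nat_lit 215)))) (PT.nd (nat_lit 156) (PT.nd (nat_lit 78) (PT.lf (nat_lit 22724) (nat_lit 6) (nat_lit 299) (nat_lit 5) (nat_lit 185) (nat_lit 201) (nat_lit 214)) (PT.lf (nat_lit 23864) (nat_lit 6) (nat_lit 314) (nat_lit 5) (nat_lit 186) (nat_lit 201) (nat_lit 213))) (PT.nd (nat_lit 78) (PT.lf (nat_lit 24928) (nat_lit 6) (nat_lit 328) (nat_lit 5) (nat_lit 187) (nat_lit 201) (nat_lit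 212)) (PT.lf (nat_lit 25916) (nat_lit 6) (nat_lit 341) (nat_lit 5) (nat_lit 188) (nat_lit 201) (nat_lit 211)))))) (PT.nd (nat_lit 624) (PT.nd (nat_lit 312) (PT.nd (nat_lit 156) (PT.nd (nat_lit 78) (PT.lf (nat_lit 26828) (nat_lit 6) (nat_lit 353) (nat_lit 5) (nat_lit 189) (nat_lit 201) (nat_lit 210)) (PT.lf (nat_lit 27664) (nat_lit 6) (nat_lit 364) (nat_lit 5) (nat_lit 190) (nat_lit 201) (nat_lit 209))) (PT.nd (nat_lit 78) (PT.lf (nat_lit 28424) (nat_lit 6) (nat_lit 374) (nat_lit 5) (nat_lit 191) (nat_lit 201) (nat_lit 208)) (PT.lf (nat_lit 29108) (nat_lit 6) (nat_lit 383) (nat_lit 5) (nat_lit 192) (nat_lit 201) (nat_lit 207)))) (PT.nd (nat_lit 156) (PT.nd (nat_lit 78) (PT.lf (nat_lit 29716) (nat_lit 6) (nat_lit 391) (nat_lit 5) (nat_lit 193) (nat_lit 201) (nat_lit 206)) (PT.lf (nat_lit 30248) (nat_lit 6) (nat_lit 398) (nat_lit 5) (nat_lit 194) (nat_lit 201) (nat_lit 205))) (PT.nd (nat_lit 78) (PT.lf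 (nat_lit 30704) (nat_lit 6) (nat_lit 404) (nat_lit 5) (nat_lit 195) (nat_lit 201) (nat_lit 204)) (PT.lf (nat_lit 31084) (nat_lit 6) (nat_lit 409) (nat_lit 5) (nat_lit 196) (nat_lit 201) (nat_lit 203))))) (PT.nd (nat_lit 312) (PT.nd (nat_lit 156) (PT.nd (nat_lit 78) (PT.lf (nat_lit 31388) (nat_lit 6) (nat_lit 413) (nat_lit 5) (nat_lit 197) (nat_lit 201) (nat_lit 202)) (PT.lf (nat_lit 31616) (nat_lit 3) (nat_lit 416) (nat_lit 4) (nat_lit 198) (nat_lit 201) (nat_lit 201))) (PT.nd (nat_lit 78) (PT.lf (nat_lit 31692) (nat_lit 6) (nat_lit 417) (nat_lit 4) (nat_lit 199) (nat_lit 201) (nat_lit 200)) (PT.lf (nat_lit 31692) (nat_lit 6) (nat_lit 417) (nat_lit 2) (nat_lit 200) (nat_lit 201) (nat_lit 199)))) (PT.nd (nat_lit 156) (PT.nd (nat_lit 78) (PT.lf (nat_lit 31616) (nat_lit 3) (nat_lit 416) (nat_lit 0) (nat_lit 201) (nat_lit 201) (nat_lit 198)) (PT.lf (nat_lit 31388) (nat_lit 6) (nat_lit 413) (nat_lit 0)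 (nat_lit 202) (nat_lit 201) (nat_lit 197))) (PT.nd (nat_lit 78) (PT.lf (nat_lit 31084) (nat_lit 6) (nat_lit 409) (nat_lit 0) (nat_lit 203) (nat_lit 201) (nat_lit 196)) (PT.lf (nat_lit 30704) (nat_lit 6) (nat_lit 404) (nat_lit 0) (nat_lit 204) (nat_lit 201) (nat_lit 195))))))) (PT.nd (nat_lit 60840) (PT.nd (nat_lit 624) (PT.nd (nat_lit 312) (PT.nd (nat_lit 156) (PT.nd (nat_lit 78) (PT.lf (nat_lit 30248) (nat_lit 6) (nat_lit 398) (nat_lit 0) (nat_lit 205) (nat_lit 201) (nat_lit 194)) (PT.lf (nat_lit 29716) (nat_lit 6) (nat_lit 391) (nat_lit 0) (nat_lit 206) (nat_lit 201) (nat_lit 193))) (PT.nd (nat_lit 78) (PT.lf (nat_lit 29108) (nat_lit 6) (nat_lit 383) (nat_lit 0) (nat_lit 207) (nat_lit 201) (nat_lit 192)) (PT.lf (nat_lit 28424) (nat_lit 6) (nat_lit 374) (nat_lit 0) (nat_lit 208) (nat_lit 201) (nat_lit 191)))) (PT.nd (nat_lit 156) (PT.nd (nat_lit 78) (PT.lf (nat_lit 27664) (nat_lit 6) (nat_lit 364)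 (nat_lit 0) (nat_lit 209) (nat_lit 201) (nat_lit 190)) (PT.lf (nat_lit 26828) (nat_lit 6) (nat_lit 353) (nat_lit 0) (nat_lit 210) (nat_lit 201) (nat_lit 189))) (PT.nd (nat_lit 78) (PT.lf (nat_lit 25916) (nat_lit 6) (nat_lit 341) (nat_lit 0) (nat_lit 211) (nat_lit 201) (nat_lit 188)) (PT.lf (nat_lit 24928) (nat_lit 6) (nat_lit 328) (nat_lit 0) (nat_lit 212) (nat_lit 201) (nat_lit 187))))) (PT.nd (nat_lit 312) (PT.nd (nat_lit 156) (PT.nd (nat_lit 78) (PT.lf (nat_lit 23864) (nat_lit 6) (nat_lit 314) (nat_lit 0) (nat_lit 213) (nat_lit 201) (nat_lit 186)) (PT.lf (nat_lit 22724) (nat_lit 6) (nat_lit 299) (nat_lit 0) (nat_lit 214) (nat_lit 201) (nat_lit 185))) (PT.nd (nat_lit 78) (PT.lf (nat_lit 21508) (nat_lit 6) (nat_lit 283) (nat_lit 0) (nat_lit 215) (nat_lit 201) (nat_lit 184)) (PT.lf (nat_lit 20216) (nat_lit 6) (nat_lit 266) (nat_lit 0) (nat_lit 216) (nat_lit 201) (nat_lit 183)))) (PT.nd (nat_lit 59748)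 (PT.nd (nat_lit 59670) (PT.lf (nat_lit 19380) (nat_lit 6) (nat_lit 255) (nat_lit 0) (nat_lit 217) (nat_lit 201) (nat_lit 182)) (PT.lf (nat_lit 18772) (nat_lit 6) (nat_lit 247) (nat_lit 5) (nat_lit 181) (nat_lit 202) (nat_lit 217))) (PT.nd (nat_lit 78) (PT.lf (nat_lit 19456) (nat_lit 6) (nat_lit 256) (nat_lit 5) (nat_lit 182) (nat_lit 202) (nat_lit 216)) (PT.lf (nat_lit 20292) (nat_lit 6) (nat_lit 267) (nat_lit 5) (nat_lit 183) (nat_lit 202) (nat_lit 215)))))) (PT.nd (nat_lit 624) (PT.nd (nat_lit 312) (PT.nd (nat_lit 156) (PT.nd (nat_lit 78) (PT.lf (nat_lit 21584) (nat_lit 6) (nat_lit 284) (nat_lit 5) (nat_lit 184) (nat_lit 202) (nat_lit 214)) (PT.lf (nat_lit 22800) (nat_lit 6) (nat_lit 300) (nat_lit 5) (nat_lit 185) (nat_lit 202) (nat_lit 213))) (PT.nd (nat_lit 78) (PT.lf (nat_lit 23940) (nat_lit 6) (nat_lit 315) (nat_lit 5) (nat_lit 186) (nat_lit 202) (nat_lit 212)) (PT.lf (nat_lit 25004) (nat_lit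 6) (nat_lit 329) (nat_lit 5) (nat_lit 187) (nat_lit 202) (nat_lit 211)))) (PT.nd (nat_lit 156) (PT.nd (nat_lit 78) (PT.lf (nat_lit 25992) (nat_lit 6) (nat_lit 342) (nat_lit 5) (nat_lit 188) (nat_lit 202) (nat_lit 210)) (PT.lf (nat_lit 26904) (nat_lit 6) (nat_lit 354) (nat_lit 5) (nat_lit 189) (nat_lit 202) (nat_lit 209))) (PT.nd (nat_lit 78) (PT.lf (nat_lit 27740) (nat_lit 6) (nat_lit 365) (nat_lit 5) (nat_lit 190) (nat_lit 202) (nat_lit 208)) (PT.lf (nat_lit 28500) (nat_lit 6) (nat_lit 375) (nat_lit 5) (nat_lit 191) (nat_lit 202) (nat_lit 207))))) (PT.nd (nat_lit 312) (PT.nd (nat_lit 156) (PT.nd (nat_lit 78) (PT.lf (nat_lit 29184) (nat_lit 6) (nat_lit 384) (nat_lit 5) (nat_lit 192) (nat_lit 202) (nat_lit 206)) (PT.lf (nat_lit 29792) (nat_lit 6) (nat_lit 392) (nat_lit 5) (nat_lit 193) (nat_lit 202) (nat_lit 205))) (PT.nd (nat_lit 78) (PT.lf (nat_lit 30324) (nat_lit 6) (nat_lit 399) (nat_lit 5) (nat_lit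 194) (nat_lit 202) (nat_lit 204)) (PT.lf (nat_lit 30780) (nat_lit 6) (nat_lit 405) (nat_lit 5) (nat_lit 195) (nat_lit 202) (nat_lit 203)))) (PT.nd (nat_lit 156) (PT.nd (nat_lit 78) (PT.lf (nat_lit 31160) (nat_lit 3) (nat_lit 410) (nat_lit 4) (nat_lit 196) (nat_lit 202) (nat_lit 202)) (PT.lf (nat_lit 31388) (nat_lit 6) (nat_lit 413) (nat_lit 4) (nat_lit 197) (nat_lit 202) (nat_lit 201))) (PT.nd (nat_lit 78) (PT.lf (nat_lit 31540) (nat_lit 6) (nat_lit 415) (nat_lit 4) (nat_lit 198) (nat_lit 202) (nat_lit 200)) (PT.lf (nat_lit 31464) (nat_lit 3) (nat_lit 414) (nat_lit 2) (nat_lit 199) (nat_lit 202) (nat_lit 199))))))))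
noncomputable def pc14 : PT := (PT.nd (nat_lit 61932) (PT.nd (nat_lit 1170) (PT.nd (nat_lit 546) (PT.nd (nat_lit 234) (PT.nd (nat_lit 78) (PT.lf (nat_lit 31540) (nat_lit 6) (nat_lit 415) (nat_lit 2) (nat_lit 200) (nat_lit 202) (nat_lit 198)) (PT.nd (nat_lit 78) (PT.lf (nat_lit 31388) (nat_lit 6) (nat_lit 413) (nat_lit 2) (nat_lit 201) (nat_lit 202) (nat_lit 197)) (PT.lf (nat_lit 31160) (nat_lit 3) (nat_lit 410) (nat_lit 0) (nat_lit 202) (nat_lit 202) (nat_lit 196)))) (PT.nd (nat_lit 156) (PT.nd (nat_lit 78) (PT.lf (nat_lit 30780) (nat_lit 6) (nat_lit 405) (nat_lit 0) (nat_lit 203) (nat_lit 202) (nat_lit 195)) (PT.lf (nat_lit 30324) (nat_lit 6) (nat_lit 399) (nat_lit 0) (nat_lit 204) (nat_lit 202) (nat_lit 194))) (PT.nd (nat_lit 78) (PT.lf (nat_lit 29792) (nat_lit 6) (nat_lit 392) (nat_lit 0) (nat_lit 205) (nat_lit 202) (nat_lit 193)) (PT.lf (nat_lit 29184) (nat_lit 6) (nat_lit 384) (nat_lit 0) (nat_lit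 206) (nat_lit 202) (nat_lit 192))))) (PT.nd (nat_lit 312) (PT.nd (nat_lit 156) (PT.nd (nat_lit 78) (PT.lf (nat_lit 28500) (nat_lit 6) (nat_lit 375) (nat_lit 0) (nat_lit 207) (nat_lit 202) (nat_lit 191)) (PT.lf (nat_lit 27740) (nat_lit 6) (nat_lit 365) (nat_lit 0) (nat_lit 208) (nat_lit 202) (nat_lit 190))) (PT.nd (nat_lit 78) (PT.lf (nat_lit 26904) (nat_lit 6) (nat_lit 354) (nat_lit 0) (nat_lit 209) (nat_lit 202) (nat_lit 189)) (PT.lf (nat_lit 25992) (nat_lit 6) (nat_lit 342) (nat_lit 0) (nat_lit 210) (nat_lit 202) (nat_lit 188)))) (PT.nd (nat_lit 156) (PT.nd (nat_lit 78) (PT.lf (nat_lit 25004) (nat_lit 6) (nat_lit 329) (nat_lit 0) (nat_lit 211) (nat_lit 202) (nat_lit 187)) (PT.lf (nat_lit 23940) (nat_lit 6) (nat_lit 315) (nat_lit 0) (nat_lit 212) (nat_lit 202) (nat_lit 186))) (PT.nd (nat_lit 78) (PT.lf (nat_lit 22800) (nat_lit 6) (nat_lit 300) (nat_lit 0) (nat_lit 213) (nat_lit 202) (nat_lit 185))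 (PT.lf (nat_lit 21584) (nat_lit 6) (nat_lit 284) (nat_lit 0) (nat_lit 214) (nat_lit 202) (nat_lit 184)))))) (PT.nd (nat_lit 60138) (PT.nd (nat_lit 59826) (PT.nd (nat_lit 156) (PT.nd (nat_lit 78) (PT.lf (nat_lit 20292) (nat_lit 6) (nat_lit 267) (nat_lit 0) (nat_lit 215) (nat_lit 202) (nat_lit 183)) (PT.lf (nat_lit 19456) (nat_lit 6) (nat_lit 256) (nat_lit 0) (nat_lit 216) (nat_lit 202) (nat_lit 182))) (PT.nd (nat_lit 59592) (PT.lf (nat_lit 18772) (nat_lit 6) (nat_lit 247) (nat_lit 0) (nat_lit 217) (nat_lit 202) (nat_lit 181)) (PT.lf (nat_lit 18164) (nat_lit 6) (nat_lit 239) (nat_lit 5) (nat_lit 180) (nat_lit 203) (nat_lit 217)))) (PT.nd (nat_lit 156) (PT.nd (nat_lit 78) (PT.lf (nat_lit 18848) (nat_lit 6) (nat_lit 248) (nat_lit 5) (nat_lit 181) (nat_lit 203) (nat_lit 216)) (PT.lf (nat_lit 19532) (nat_lit 6) (nat_lit 257) (nat_lit 5) (nat_lit 182) (nat_lit 203) (nat_lit 215))) (PT.nd (nat_lit 78) (PT.lf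 (nat_lit 20368) (nat_lit 6) (nat_lit 268) (nat_lit 5) (nat_lit 183) (nat_lit 203) (nat_lit 214)) (PT.lf (nat_lit 21660) (nat_lit 6) (nat_lit 285) (nat_lit 5) (nat_lit 184) (nat_lit 203) (nat_lit 213))))) (PT.nd (nat_lit 312) (PT.nd (nat_lit 156) (PT.nd (nat_lit 78) (PT.lf (nat_lit 22876) (nat_lit 6) (nat_lit 301) (nat_lit 5) (nat_lit 185) (nat_lit 203) (nat_lit 212)) (PT.lf (nat_lit 24016) (nat_lit 6) (nat_lit 316) (nat_lit 5) (nat_lit 186) (nat_lit 203) (nat_lit 211))) (PT.nd (nat_lit 78) (PT.lf (nat_lit 25080) (nat_lit 6) (nat_lit 330) (nat_lit 5) (nat_lit 187) (nat_lit 203) (nat_lit 210)) (PT.lf (nat_lit 26068) (nat_lit 6) (nat_lit 343) (nat_lit 5) (nat_lit 188) (nat_lit 203) (nat_lit 209)))) (PT.nd (nat_lit 156) (PT.nd (nat_lit 78) (PT.lf (nat_lit 26980) (nat_lit 6) (nat_lit 355) (nat_lit 5) (nat_lit 189) (nat_lit 203) (nat_lit 208)) (PT.lf (nat_lit 27816) (nat_lit 6) (nat_lit 366) (nat_lit 5)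 (nat_lit 190) (nat_lit 203) (nat_lit 207))) (PT.nd (nat_lit 78) (PT.lf (nat_lit 28576) (nat_lit 6) (nat_lit 376) (nat_lit 5) (nat_lit 191) (nat_lit 203) (nat_lit 206)) (PT.lf (nat_lit 29260) (nat_lit 6) (nat_lit 385) (nat_lit 5) (nat_lit 192) (nat_lit 203) (nat_lit 205))))))) (PT.nd (nat_lit 1248) (PT.nd (nat_lit 624) (PT.nd (nat_lit 312) (PT.nd (nat_lit 156) (PT.nd (nat_lit 78) (PT.lf (nat_lit 29868) (nat_lit 6) (nat_lit 393) (nat_lit 5) (nat_lit 193) (nat_lit 203) (nat_lit 204)) (PT.lf (nat_lit 30400) (nat_lit 3) (nat_lit 400) (nat_lit 4) (nat_lit 194) (nat_lit 203) (nat_lit 203))) (PT.nd (nat_lit 78) (PT.lf (nat_lit 30780) (nat_lit 6) (nat_lit 405) (nat_lit 4) (nat_lit 195) (nat_lit 203) (nat_lit 202)) (PT.lf (nat_lit 31084) (nat_lit 6) (nat_lit 409) (nat_lit 4) (nat_lit 196) (nat_lit 203) (nat_lit 201)))) (PT.nd (nat_lit 156) (PT.nd (nat_lit 78) (PT.lf (nat_lit 31312) (nat_lit 6) (nat_lit 412)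 (nat_lit 4) (nat_lit 197) (nat_lit 203) (nat_lit 200)) (PT.lf (nat_lit 31236) (nat_lit 6) (nat_lit 411) (nat_lit 4) (nat_lit 198) (nat_lit 203) (nat_lit 199))) (PT.nd (nat_lit 78) (PT.lf (nat_lit 31236) (nat_lit 6) (nat_lit 411) (nat_lit 2) (nat_lit 199) (nat_lit 203) (nat_lit 198)) (PT.lf (nat_lit 31312) (nat_lit 6) (nat_lit 412) (nat_lit 2) (nat_lit 200) (nat_lit 203) (nat_lit 197))))) (PT.nd (nat_lit 312) (PT.nd (nat_lit 156) (PT.nd (nat_lit 78) (PT.lf (nat_lit 31084) (nat_lit 6) (nat_lit 409) (nat_lit 2) (nat_lit 201) (nat_lit 203) (nat_lit 196)) (PT.lf (nat_lit 30780) (nat_lit 6) (nat_lit 405) (nat_lit 2) (nat_lit 202) (nat_lit 203) (nat_lit 195))) (PT.nd (nat_lit 78) (PT.lf (nat_lit 30400) (nat_lit 3) (nat_lit 400) (nat_lit 0) (nat_lit 203) (nat_lit 203) (nat_lit 194)) (PT.lf (nat_lit 29868) (nat_lit 6) (nat_lit 393) (nat_lit 0) (nat_lit 204) (nat_lit 203) (nat_lit 193)))) (PT.nd (nat_lit 156)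 (PT.nd (nat_lit 78) (PT.lf (nat_lit 29260) (nat_lit 6) (nat_lit 385) (nat_lit 0) (nat_lit 205) (nat_lit 203) (nat_lit 192)) (PT.lf (nat_lit 28576) (nat_lit 6) (nat_lit 376) (nat_lit 0) (nat_lit 206) (nat_lit 203) (nat_lit 191))) (PT.nd (nat_lit 78) (PT.lf (nat_lit 27816) (nat_lit 6) (nat_lit 366) (nat_lit 0) (nat_lit 207) (nat_lit 203) (nat_lit 190)) (PT.lf (nat_lit 26980) (nat_lit 6) (nat_lit 355) (nat_lit 0) (nat_lit 208) (nat_lit 203) (nat_lit 189)))))) (PT.nd (nat_lit 624) (PT.nd (nat_lit 312) (PT.nd (nat_lit 156) (PT.nd (nat_lit 78) (PT.lf (nat_lit 26068) (nat_lit 6) (nat_lit 343) (nat_lit 0) (nat_lit 209) (nat_lit 203) (nat_lit 188)) (PT.lf (nat_lit 25080) (nat_lit 6) (nat_lit 330) (nat_lit 0) (nat_lit 210) (nat_lit 203) (nat_lit 187))) (PT.nd (nat_lit 78) (PT.lf (nat_lit 24016) (nat_lit 6) (nat_lit 316) (nat_lit 0) (nat_lit 211) (nat_lit 203) (nat_lit 186)) (PT.lf (nat_lit 22876) (nat_lit 6)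 (nat_lit 301) (nat_lit 0) (nat_lit 212) (nat_lit 203) (nat_lit 185)))) (PT.nd (nat_lit 156) (PT.nd (nat_lit 78) (PT.lf (nat_lit 21660) (nat_lit 6) (nat_lit 285) (nat_lit 0) (nat_lit 213) (nat_lit 203) (nat_lit 184)) (PT.lf (nat_lit 20368) (nat_lit 6) (nat_lit 268) (nat_lit 0) (nat_lit 214) (nat_lit 203) (nat_lit 183))) (PT.nd (nat_lit 78) (PT.lf (nat_lit 19532) (nat_lit 6) (nat_lit 257) (nat_lit 0) (nat_lit 215) (nat_lit 203) (nat_lit 182)) (PT.lf (nat_lit 18848) (nat_lit 6) (nat_lit 248) (nat_lit 0) (nat_lit 216) (nat_lit 203) (nat_lit 181))))) (PT.nd (nat_lit 59670) (PT.nd (nat_lit 59514) (PT.nd (nat_lit 59436) (PT.lf (nat_lit 18164) (nat_lit 6) (nat_lit 239) (nat_lit 0) (nat_lit 217) (nat_lit 203) (nat_lit 180)) (PT.lf (nat_lit 17024) (nat_lit 6) (nat_lit 224) (nat_lit 5) (nat_lit 178) (nat_lit 204) (nat_lit 218))) (PT.nd (nat_lit 78) (PT.lf (nat_lit 17632) (nat_lit 6) (nat_lit 232) (nat_lit 5)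 (nat_lit 179) (nat_lit 204) (nat_lit 217)) (PT.lf (nat_lit 18240) (nat_lit 6) (nat_lit 240) (nat_lit 5) (nat_lit 180) (nat_lit 204) (nat_lit 216)))) (PT.nd (nat_lit 156) (PT.nd (nat_lit 78) (PT.lf (nat_lit 18924) (nat_lit 6) (nat_lit 249) (nat_lit 5) (nat_lit 181) (nat_lit 204) (nat_lit 215)) (PT.lf (nat_lit 19608) (nat_lit 6) (nat_lit 258) (nat_lit 5) (nat_lit 182) (nat_lit 204) (nat_lit 214))) (PT.nd (nat_lit 78) (PT.lf (nat_lit 20444) (nat_lit 6) (nat_lit 269) (nat_lit 5) (nat_lit 183) (nat_lit 204) (nat_lit 213)) (PT.lf (nat_lit 21736) (nat_lit 6) (nat_lit 286) (nat_lit 5) (nat_lit 184) (nat_lit 204) (nat_lit 212))))))))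
noncomputable def pc15 : PT := (PT.nd (nat_lit 2496) (PT.nd (nat_lit 1248) (PT.nd (nat_lit 624) (PT.nd (nat_lit 312) (PT.nd (nat_lit 156) (PT.nd (nat_lit 78) (PT.lf (nat_lit 22952) (nat_lit 6) (nat_lit 302) (nat_lit 5) (nat_lit 185) (nat_lit 204) (nat_lit 211)) (PT.lf (nat_lit 24092) (nat_lit 6) (nat_lit 317) (nat_lit 5) (nat_lit 186) (nat_lit 204) (nat_lit 210))) (PT.nd (nat_lit 78) (PT.lf (nat_lit 25156) (nat_lit 6) (nat_lit 331) (nat_lit 5) (nat_lit 187) (nat_lit 204) (nat_lit 209)) (PT.lf (nat_lit 26144) (nat_lit 6) (nat_lit 344) (nat_lit 5) (nat_lit 188) (nat_lit 204) (nat_lit 208)))) (PT.nd (nat_lit 156) (PT.nd (nat_lit 78) (PT.lf (nat_lit 27056) (nat_lit 6) (nat_lit 356) (nat_lit 5) (nat_lit 189) (nat_lit 204) (nat_lit 207)) (PT.lf (nat_lit 27892) (nat_lit 6) (nat_lit 367) (nat_lit 5) (nat_lit 190) (nat_lit 204) (nat_lit 206))) (PT.nd (nat_lit 78) (PT.lf (nat_lit 28652) (nat_lit 6) (nat_lit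 377) (nat_lit 5) (nat_lit 191) (nat_lit 204) (nat_lit 205)) (PT.lf (nat_lit 29336) (nat_lit 3) (nat_lit 386) (nat_lit 4) (nat_lit 192) (nat_lit 204) (nat_lit 204))))) (PT.nd (nat_lit 312) (PT.nd (nat_lit 156) (PT.nd (nat_lit 78) (PT.lf (nat_lit 29868) (nat_lit 6) (nat_lit 393) (nat_lit 4) (nat_lit 193) (nat_lit 204) (nat_lit 203)) (PT.lf (nat_lit 30324) (nat_lit 6) (nat_lit 399) (nat_lit 4) (nat_lit 194) (nat_lit 204) (nat_lit 202))) (PT.nd (nat_lit 78) (PT.lf (nat_lit 30704) (nat_lit 6) (nat_lit 404) (nat_lit 4) (nat_lit 195) (nat_lit 204) (nat_lit 201)) (PT.lf (nat_lit 31008) (nat_lit 6) (nat_lit 408) (nat_lit 4) (nat_lit 196) (nat_lit 204) (nat_lit 200)))) (PT.nd (nat_lit 156) (PT.nd (nat_lit 78) (PT.lf (nat_lit 30932) (nat_lit 6) (nat_lit 407) (nat_lit 4) (nat_lit 197) (nat_lit 204) (nat_lit 199)) (PT.lf (nat_lit 30856) (nat_lit 3) (nat_lit 406) (nat_lit 2) (nat_lit 198) (nat_lit 204) (nat_lit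 198))) (PT.nd (nat_lit 78) (PT.lf (nat_lit 30932) (nat_lit 6) (nat_lit 407) (nat_lit 2) (nat_lit 199) (nat_lit 204) (nat_lit 197)) (PT.lf (nat_lit 31008) (nat_lit 6) (nat_lit 408) (nat_lit 2) (nat_lit 200) (nat_lit 204) (nat_lit 196)))))) (PT.nd (nat_lit 624) (PT.nd (nat_lit 312) (PT.nd (nat_lit 156) (PT.nd (nat_lit 78) (PT.lf (nat_lit 30704) (nat_lit 6) (nat_lit 404) (nat_lit 2) (nat_lit 201) (nat_lit 204) (nat_lit 195)) (PT.lf (nat_lit 30324) (nat_lit 6) (nat_lit 399) (nat_lit 2) (nat_lit 202) (nat_lit 204) (nat_lit 194))) (PT.nd (nat_lit 78) (PT.lf (nat_lit 29868) (nat_lit 6) (nat_lit 393) (nat_lit 2) (nat_lit 203) (nat_lit 204) (nat_lit 193)) (PT.lf (nat_lit 29336) (nat_lit 3) (nat_lit 386) (nat_lit 0) (nat_lit 204) (nat_lit 204) (nat_lit 192)))) (PT.nd (nat_lit 156) (PT.nd (nat_lit 78) (PT.lf (nat_lit 28652) (nat_lit 6) (nat_lit 377) (nat_lit 0) (nat_lit 205) (nat_lit 204) (nat_lit 191)) (PT.lf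 (nat_lit 27892) (nat_lit 6) (nat_lit 367) (nat_lit 0) (nat_lit 206) (nat_lit 204) (nat_lit 190))) (PT.nd (nat_lit 78) (PT.lf (nat_lit 27056) (nat_lit 6) (nat_lit 356) (nat_lit 0) (nat_lit 207) (nat_lit 204) (nat_lit 189)) (PT.lf (nat_lit 26144) (nat_lit 6) (nat_lit 344) (nat_lit 0) (nat_lit 208) (nat_lit 204) (nat_lit 188))))) (PT.nd (nat_lit 312) (PT.nd (nat_lit 156) (PT.nd (nat_lit 78) (PT.lf (nat_lit 25156) (nat_lit 6) (nat_lit 331) (nat_lit 0) (nat_lit 209) (nat_lit 204) (nat_lit 187)) (PT.lf (nat_lit 24092) (nat_lit 6) (nat_lit 317) (nat_lit 0) (nat_lit 210) (nat_lit 204) (nat_lit 186))) (PT.nd (nat_lit 78) (PT.lf (nat_lit 22952) (nat_lit 6) (nat_lit 302) (nat_lit 0) (nat_lit 211) (nat_lit 204) (nat_lit 185)) (PT.lf (nat_lit 21736) (nat_lit 6) (nat_lit 286) (nat_lit 0) (nat_lit 212) (nat_lit 204) (nat_lit 184)))) (PT.nd (nat_lit 156) (PT.nd (nat_lit 78) (PT.lf (nat_lit 20444) (nat_lit 6) (nat_lit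 269) (nat_lit 0) (nat_lit 213) (nat_lit 204) (nat_lit 183)) (PT.lf (nat_lit 19608) (nat_lit 6) (nat_lit 258) (nat_lit 0) (nat_lit 214) (nat_lit 204) (nat_lit 182))) (PT.nd (nat_lit 78) (PT.lf (nat_lit 18924) (nat_lit 6) (nat_lit 249) (nat_lit 0) (nat_lit 215) (nat_lit 204) (nat_lit 181)) (PT.lf (nat_lit 18240) (nat_lit 6) (nat_lit 240) (nat_lit 0) (nat_lit 216) (nat_lit 204) (nat_lit 180))))))) (PT.nd (nat_lit 60450) (PT.nd (nat_lit 59826) (PT.nd (nat_lit 59514) (PT.nd (nat_lit 59358) (PT.nd (nat_lit 78) (PT.lf (nat_lit 17632) (nat_lit 6) (nat_lit 232) (nat_lit 0) (nat_lit 217) (nat_lit 204) (nat_lit 179)) (PT.lf (nat_lit 17024) (nat_lit 6) (nat_lit 224) (nat_lit 0) (nat_lit 218) (nat_lit 204) (nat_lit 178))) (PT.nd (nat_lit 78) (PT.lf (nat_lit 16492) (nat_lit 6) (nat_lit 217) (nat_lit 5) (nat_lit 177) (nat_lit 205) (nat_lit 218)) (PT.lf (nat_lit 17100) (nat_lit 6) (nat_lit 225) (nat_lit 5) (nat_lit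 178) (nat_lit 205) (nat_lit 217)))) (PT.nd (nat_lit 156) (PT.nd (nat_lit 78) (PT.lf (nat_lit 17708) (nat_lit 6) (nat_lit 233) (nat_lit 5) (nat_lit 179) (nat_lit 205) (nat_lit 216)) (PT.lf (nat_lit 18316) (nat_lit 6) (nat_lit 241) (nat_lit 5) (nat_lit 180) (nat_lit 205) (nat_lit 215))) (PT.nd (nat_lit 78) (PT.lf (nat_lit 19000) (nat_lit 6) (nat_lit 250) (nat_lit 5) (nat_lit 181) (nat_lit 205) (nat_lit 214)) (PT.lf (nat_lit 19684) (nat_lit 6) (nat_lit 259) (nat_lit 5) (nat_lit 182) (nat_lit 205) (nat_lit 213))))) (PT.nd (nat_lit 312) (PT.nd (nat_lit 156) (PT.nd (nat_lit 78) (PT.lf (nat_lit 20520) (nat_lit 6) (nat_lit 270) (nat_lit 5) (nat_lit 183) (nat_lit 205) (nat_lit 212)) (PT.lf (nat_lit 21812) (nat_lit 6) (nat_lit 287) (nat_lit 5) (nat_lit 184) (nat_lit 205) (nat_lit 211))) (PT.nd (nat_lit 78) (PT.lf (nat_lit 23028) (nat_lit 6) (nat_lit 303) (nat_lit 5) (nat_lit 185) (nat_lit 205) (nat_lit 210))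 (PT.lf (nat_lit 24168) (nat_lit 6) (nat_lit 318) (nat_lit 5) (nat_lit 186) (nat_lit 205) (nat_lit 209)))) (PT.nd (nat_lit 156) (PT.nd (nat_lit 78) (PT.lf (nat_lit 25232) (nat_lit 6) (nat_lit 332) (nat_lit 5) (nat_lit 187) (nat_lit 205) (nat_lit 208)) (PT.lf (nat_lit 26220) (nat_lit 6) (nat_lit 345) (nat_lit 5) (nat_lit 188) (nat_lit 205) (nat_lit 207))) (PT.nd (nat_lit 78) (PT.lf (nat_lit 27132) (nat_lit 6) (nat_lit 357) (nat_lit 5) (nat_lit 189) (nat_lit 205) (nat_lit 206)) (PT.lf (nat_lit 27968) (nat_lit 3) (nat_lit 368) (nat_lit 4) (nat_lit 190) (nat_lit 205) (nat_lit 205)))))) (PT.nd (nat_lit 624) (PT.nd (nat_lit 312) (PT.nd (nat_lit 156) (PT.nd (nat_lit 78) (PT.lf (nat_lit 28652) (nat_lit 6) (nat_lit 377) (nat_lit 4) (nat_lit 191) (nat_lit 205) (nat_lit 204)) (PT.lf (nat_lit 29260) (nat_lit 6) (nat_lit 385) (nat_lit 4) (nat_lit 192) (nat_lit 205) (nat_lit 203))) (PT.nd (nat_lit 78) (PT.lf (nat_lit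 29792) (nat_lit 6) (nat_lit 392) (nat_lit 4) (nat_lit 193) (nat_lit 205) (nat_lit 202)) (PT.lf (nat_lit 30248) (nat_lit 6) (nat_lit 398) (nat_lit 4) (nat_lit 194) (nat_lit 205) (nat_lit 201)))) (PT.nd (nat_lit 156) (PT.nd (nat_lit 78) (PT.lf (nat_lit 30628) (nat_lit 6) (nat_lit 403) (nat_lit 4) (nat_lit 195) (nat_lit 205) (nat_lit 200)) (PT.lf (nat_lit 30552) (nat_lit 6) (nat_lit 402) (nat_lit 4) (nat_lit 196) (nat_lit 205) (nat_lit 199))) (PT.nd (nat_lit 78) (PT.lf (nat_lit 30476) (nat_lit 6) (nat_lit 401) (nat_lit 4) (nat_lit 197) (nat_lit 205) (nat_lit 198)) (PT.lf (nat_lit 30476) (nat_lit 6) (nat_lit 401) (nat_lit 2) (nat_lit 198) (nat_lit 205) (nat_lit 197))))) (PT.nd (nat_lit 312) (PT.nd (nat_lit 156) (PT.nd (nat_lit 78) (PT.lf (nat_lit 30552) (nat_lit 6) (nat_lit 402) (nat_lit 2) (nat_lit 199) (nat_lit 205) (nat_lit 196)) (PT.lf (nat_lit 30628) (nat_lit 6) (nat_lit 403) (nat_lit 2) (nat_lit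 200) (nat_lit 205) (nat_lit 195))) (PT.nd (nat_lit 78) (PT.lf (nat_lit 30248) (nat_lit 6) (nat_lit 398) (nat_lit 2) (nat_lit 201) (nat_lit 205) (nat_lit 194)) (PT.lf (nat_lit 29792) (nat_lit 6) (nat_lit 392) (nat_lit 2) (nat_lit 202) (nat_lit 205) (nat_lit 193)))) (PT.nd (nat_lit 156) (PT.nd (nat_lit 78) (PT.lf (nat_lit 29260) (nat_lit 6) (nat_lit 385) (nat_lit 2) (nat_lit 203) (nat_lit 205) (nat_lit 192)) (PT.lf (nat_lit 28652) (nat_lit 6) (nat_lit 377) (nat_lit 2) (nat_lit 204) (nat_lit 205) (nat_lit 191))) (PT.nd (nat_lit 78) (PT.lf (nat_lit 27968) (nat_lit 3) (nat_lit 368) (nat_lit 0) (nat_lit 205) (nat_lit 205) (nat_lit 190)) (PT.lf (nat_lit 27132) (nat_lit 6) (nat_lit 357) (nat_lit 0) (nat_lit 206) (nat_lit 205) (nat_lit 189))))))))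
noncomputable def pc16 : PT := (PT.nd (nat_lit 61542) (PT.nd (nat_lit 60294) (PT.nd (nat_lit 546) (PT.nd (nat_lit 234) (PT.nd (nat_lit 78) (PT.lf (nat_lit 26220) (nat_lit 6) (nat_lit 345) (nat_lit 0) (nat_lit 207) (nat_lit 205) (nat_lit 188)) (PT.nd (nat_lit 78) (PT.lf (nat_lit 25232) (nat_lit 6) (nat_lit 332) (nat_lit 0) (nat_lit 208) (nat_lit 205) (nat_lit 187)) (PT.lf (nat_lit 24168) (nat_lit 6) (nat_lit 318) (nat_lit 0) (nat_lit 209) (nat_lit 205) (nat_lit 186)))) (PT.nd (nat_lit 156) (PT.nd (nat_lit 78) (PT.lf (nat_lit 23028) (nat_lit 6) (nat_lit 303) (nat_lit 0) (nat_lit 210) (nat_lit 205) (nat_lit 185)) (PT.lf (nat_lit 21812) (nat_lit 6) (nat_lit 287) (nat_lit 0) (nat_lit 211) (nat_lit 205) (nat_lit 184))) (PT.nd (nat_lit 78) (PT.lf (nat_lit 20520) (nat_lit 6) (nat_lit 270) (nat_lit 0) (nat_lit 212) (nat_lit 205) (nat_lit 183)) (PT.lf (nat_lit 19684) (nat_lit 6) (nat_lit 259) (nat_lit 0) (nat_lit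 213) (nat_lit 205) (nat_lit 182))))) (PT.nd (nat_lit 312) (PT.nd (nat_lit 156) (PT.nd (nat_lit 78) (PT.lf (nat_lit 19000) (nat_lit 6) (nat_lit 250) (nat_lit 0) (nat_lit 214) (nat_lit 205) (nat_lit 181)) (PT.lf (nat_lit 18316) (nat_lit 6) (nat_lit 241) (nat_lit 0) (nat_lit 215) (nat_lit 205) (nat_lit 180))) (PT.nd (nat_lit 78) (PT.lf (nat_lit 17708) (nat_lit 6) (nat_lit 233) (nat_lit 0) (nat_lit 216) (nat_lit 205) (nat_lit 179)) (PT.lf (nat_lit 17100) (nat_lit 6) (nat_lit 225) (nat_lit 0) (nat_lit 217) (nat_lit 205) (nat_lit 178)))) (PT.nd (nat_lit 59280) (PT.nd (nat_lit 59202) (PT.lf (nat_lit 16492) (nat_lit 6) (nat_lit 217) (nat_lit 0) (nat_lit 218) (nat_lit 205) (nat_lit 177)) (PT.lf (nat_lit 15960) (nat_lit 6) (nat_lit 210) (nat_lit 5) (nat_lit 176) (nat_lit 206) (nat_lit 218))) (PT.nd (nat_lit 78) (PT.lf (nat_lit 16568) (nat_lit 6) (nat_lit 218) (nat_lit 5) (nat_lit 177) (nat_lit 206) (nat_lit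 217)) (PT.lf (nat_lit 17176) (nat_lit 6) (nat_lit 226) (nat_lit 5) (nat_lit 178) (nat_lit 206) (nat_lit 216)))))) (PT.nd (nat_lit 624) (PT.nd (nat_lit 312) (PT.nd (nat_lit 156) (PT.nd (nat_lit 78) (PT.lf (nat_lit 17784) (nat_lit 6) (nat_lit 234) (nat_lit 5) (nat_lit 179) (nat_lit 206) (nat_lit 215)) (PT.lf (nat_lit 18392) (nat_lit 6) (nat_lit 242) (nat_lit 5) (nat_lit 180) (nat_lit 206) (nat_lit 214))) (PT.nd (nat_lit 78) (PT.lf (nat_lit 19076) (nat_lit 6) (nat_lit 251) (nat_lit 5) (nat_lit 181) (nat_lit 206) (nat_lit 213)) (PT.lf (nat_lit 19760) (nat_lit 6) (nat_lit 260) (nat_lit 5) (nat_lit 182) (nat_lit 206) (nat_lit 212)))) (PT.nd (nat_lit 156) (PT.nd (nat_lit 78) (PT.lf (nat_lit 20596) (nat_lit 6) (nat_lit 271) (nat_lit 5) (nat_lit 183) (nat_lit 206) (nat_lit 211)) (PT.lf (nat_lit 21888) (nat_lit 6) (nat_lit 288) (nat_lit 5) (nat_lit 184) (nat_lit 206) (nat_lit 210))) (PT.nd (nat_lit 78) (PT.lf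 (nat_lit 23104) (nat_lit 6) (nat_lit 304) (nat_lit 5) (nat_lit 185) (nat_lit 206) (nat_lit 209)) (PT.lf (nat_lit 24244) (nat_lit 6) (nat_lit 319) (nat_lit 5) (nat_lit 186) (nat_lit 206) (nat_lit 208))))) (PT.nd (nat_lit 312) (PT.nd (nat_lit 156) (PT.nd (nat_lit 78) (PT.lf (nat_lit 25308) (nat_lit 6) (nat_lit 333) (nat_lit 5) (nat_lit 187) (nat_lit 206) (nat_lit 207)) (PT.lf (nat_lit 26296) (nat_lit 3) (nat_lit 346) (nat_lit 4) (nat_lit 188) (nat_lit 206) (nat_lit 206))) (PT.nd (nat_lit 78) (PT.lf (nat_lit 27132) (nat_lit 6) (nat_lit 357) (nat_lit 4) (nat_lit 189) (nat_lit 206) (nat_lit 205)) (PT.lf (nat_lit 27892) (nat_lit 6) (nat_lit 367) (nat_lit 4) (nat_lit 190) (nat_lit 206) (nat_lit 204)))) (PT.nd (nat_lit 156) (PT.nd (nat_lit 78) (PT.lf (nat_lit 28576) (nat_lit 6) (nat_lit 376) (nat_lit 4) (nat_lit 191) (nat_lit 206) (nat_lit 203)) (PT.lf (nat_lit 29184) (nat_lit 6) (nat_lit 384) (nat_lit 4)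 (nat_lit 192) (nat_lit 206) (nat_lit 202))) (PT.nd (nat_lit 78) (PT.lf (nat_lit 29716) (nat_lit 6) (nat_lit 391) (nat_lit 4) (nat_lit 193) (nat_lit 206) (nat_lit 201)) (PT.lf (nat_lit 30172) (nat_lit 6) (nat_lit 397) (nat_lit 4) (nat_lit 194) (nat_lit 206) (nat_lit 200))))))) (PT.nd (nat_lit 1248) (PT.nd (nat_lit 624) (PT.nd (nat_lit 312) (PT.nd (nat_lit 156) (PT.nd (nat_lit 78) (PT.lf (nat_lit 30096) (nat_lit 6) (nat_lit 396) (nat_lit 4) (nat_lit 195) (nat_lit 206) (nat_lit 199)) (PT.lf (nat_lit 30020) (nat_lit 6) (nat_lit 395) (nat_lit 4) (nat_lit 196) (nat_lit 206) (nat_lit 198))) (PT.nd (nat_lit 78) (PT.lf (nat_lit 29944) (nat_lit 3) (nat_lit 394) (nat_lit 2) (nat_lit 197) (nat_lit 206) (nat_lit 197)) (PT.lf (nat_lit 30020) (nat_lit 6) (nat_lit 395) (nat_lit 2) (nat_lit 198) (nat_lit 206) (nat_lit 196)))) (PT.nd (nat_lit 156) (PT.nd (nat_lit 78) (PT.lf (nat_lit 30096) (nat_lit 6) (nat_lit 396)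 (nat_lit 2) (nat_lit 199) (nat_lit 206) (nat_lit 195)) (PT.lf (nat_lit 30172) (nat_lit 6) (nat_lit 397) (nat_lit 2) (nat_lit 200) (nat_lit 206) (nat_lit 194))) (PT.nd (nat_lit 78) (PT.lf (nat_lit 29716) (nat_lit 6) (nat_lit 391) (nat_lit 2) (nat_lit 201) (nat_lit 206) (nat_lit 193)) (PT.lf (nat_lit 29184) (nat_lit 6) (nat_lit 384) (nat_lit 2) (nat_lit 202) (nat_lit 206) (nat_lit 192))))) (PT.nd (nat_lit 312) (PT.nd (nat_lit 156) (PT.nd (nat_lit 78) (PT.lf (nat_lit 28576) (nat_lit 6) (nat_lit 376) (nat_lit 2) (nat_lit 203) (nat_lit 206) (nat_lit 191)) (PT.lf (nat_lit 27892) (nat_lit 6) (nat_lit 367) (nat_lit 2) (nat_lit 204) (nat_lit 206) (nat_lit 190))) (PT.nd (nat_lit 78) (PT.lf (nat_lit 27132) (nat_lit 6) (nat_lit 357) (nat_lit 2) (nat_lit 205) (nat_lit 206) (nat_lit 189)) (PT.lf (nat_lit 26296) (nat_lit 3) (nat_lit 346) (nat_lit 0) (nat_lit 206) (nat_lit 206) (nat_lit 188)))) (PT.nd (nat_lit 156)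 (PT.nd (nat_lit 78) (PT.lf (nat_lit 25308) (nat_lit 6) (nat_lit 333) (nat_lit 0) (nat_lit 207) (nat_lit 206) (nat_lit 187)) (PT.lf (nat_lit 24244) (nat_lit 6) (nat_lit 319) (nat_lit 0) (nat_lit 208) (nat_lit 206) (nat_lit 186))) (PT.nd (nat_lit 78) (PT.lf (nat_lit 23104) (nat_lit 6) (nat_lit 304) (nat_lit 0) (nat_lit 209) (nat_lit 206) (nat_lit 185)) (PT.lf (nat_lit 21888) (nat_lit 6) (nat_lit 288) (nat_lit 0) (nat_lit 210) (nat_lit 206) (nat_lit 184)))))) (PT.nd (nat_lit 59592) (PT.nd (nat_lit 312) (PT.nd (nat_lit 156) (PT.nd (nat_lit 78) (PT.lf (nat_lit 20596) (nat_lit 6) (nat_lit 271) (nat_lit 0) (nat_lit 211) (nat_lit 206) (nat_lit 183)) (PT.lf (nat_lit 19760) (nat_lit 6) (nat_lit 260) (nat_lit 0) (nat_lit 212) (nat_lit 206) (nat_lit 182))) (PT.nd (nat_lit 78) (PT.lf (nat_lit 19076) (nat_lit 6) (nat_lit 251) (nat_lit 0) (nat_lit 213) (nat_lit 206) (nat_lit 181)) (PT.lf (nat_lit 18392) (nat_lit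 6) (nat_lit 242) (nat_lit 0) (nat_lit 214) (nat_lit 206) (nat_lit 180)))) (PT.nd (nat_lit 156) (PT.nd (nat_lit 78) (PT.lf (nat_lit 17784) (nat_lit 6) (nat_lit 234) (nat_lit 0) (nat_lit 215) (nat_lit 206) (nat_lit 179)) (PT.lf (nat_lit 17176) (nat_lit 6) (nat_lit 226) (nat_lit 0) (nat_lit 216) (nat_lit 206) (nat_lit 178))) (PT.nd (nat_lit 78) (PT.lf (nat_lit 16568) (nat_lit 6) (nat_lit 218) (nat_lit 0) (nat_lit 217) (nat_lit 206) (nat_lit 177)) (PT.lf (nat_lit 15960) (nat_lit 6) (nat_lit 210) (nat_lit 0) (nat_lit 218) (nat_lit 206) (nat_lit 176))))) (PT.nd (nat_lit 312) (PT.nd (nat_lit 156) (PT.nd (nat_lit 78) (PT.lf (nat_lit 14972) (nat_lit 6) (nat_lit 197) (nat_lit 5) (nat_lit 174) (nat_lit 207) (nat_lit 219)) (PT.lf (nat_lit 15504) (nat_lit 6) (nat_lit 204) (nat_lit 5) (nat_lit 175) (nat_lit 207) (nat_lit 218))) (PT.nd (nat_lit 78) (PT.lf (nat_lit 16036) (nat_lit 6) (nat_lit 211) (nat_lit 5) (nat_lit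 176) (nat_lit 207) (nat_lit 217)) (PT.lf (nat_lit 16644) (nat_lit 6) (nat_lit 219) (nat_lit 5) (nat_lit 177) (nat_lit 207) (nat_lit 216)))) (PT.nd (nat_lit 156) (PT.nd (nat_lit 78) (PT.lf (nat_lit 17252) (nat_lit 6) (nat_lit 227) (nat_lit 5) (nat_lit 178) (nat_lit 207) (nat_lit 215)) (PT.lf (nat_lit 17860) (nat_lit 6) (nat_lit 235) (nat_lit 5) (nat_lit 179) (nat_lit 207) (nat_lit 214))) (PT.nd (nat_lit 78) (PT.lf (nat_lit 18468) (nat_lit 6) (nat_lit 243) (nat_lit 5) (nat_lit 180) (nat_lit 207) (nat_lit 213)) (PT.lf (nat_lit 19152) (nat_lit 6) (nat_lit 252) (nat_lit 5) (nat_lit 181) (nat_lit 207) (nat_lit 212))))))))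
noncomputable def pc17 : PT := (PT.nd (nat_lit 2418) (PT.nd (nat_lit 1170) (PT.nd (nat_lit 546) (PT.nd (nat_lit 234) (PT.nd (nat_lit 78) (PT.lf (nat_lit 19836) (nat_lit 6) (nat_lit 261) (nat_lit 5) (nat_lit 182) (nat_lit 207) (nat_lit 211)) (PT.nd (nat_lit 78) (PT.lf (nat_lit 20672) (nat_lit 6) (nat_lit 272) (nat_lit 5) (nat_lit 183) (nat_lit 207) (nat_lit 210)) (PT.lf (nat_lit 21964) (nat_lit 6) (nat_lit 289) (nat_lit 5) (nat_lit 184) (nat_lit 207) (nat_lit 209)))) (PT.nd (nat_lit 156) (PT.nd (nat_lit 78) (PT.lf (nat_lit 23180) (nat_lit 6) (nat_lit 305) (nat_lit 5) (nat_lit 185) (nat_lit 207) (nat_lit 208)) (PT.lf (nat_lit 24320) (nat_lit 3) (nat_lit 320) (nat_lit 4) (nat_lit 186) (nat_lit 207) (nat_lit 207))) (PT.nd (nat_lit 78) (PT.lf (nat_lit 25308) (nat_lit 6) (nat_lit 333) (nat_lit 4) (nat_lit 187) (nat_lit 207) (nat_lit 206)) (PT.lf (nat_lit 26220) (nat_lit 6) (nat_lit 345) (nat_lit 4) (nat_lit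 188) (nat_lit 207) (nat_lit 205))))) (PT.nd (nat_lit 312) (PT.nd (nat_lit 156) (PT.nd (nat_lit 78) (PT.lf (nat_lit 27056) (nat_lit 6) (nat_lit 356) (nat_lit 4) (nat_lit 189) (nat_lit 207) (nat_lit 204)) (PT.lf (nat_lit 27816) (nat_lit 6) (nat_lit 366) (nat_lit 4) (nat_lit 190) (nat_lit 207) (nat_lit 203))) (PT.nd (nat_lit 78) (PT.lf (nat_lit 28500) (nat_lit 6) (nat_lit 375) (nat_lit 4) (nat_lit 191) (nat_lit 207) (nat_lit 202)) (PT.lf (nat_lit 29108) (nat_lit 6) (nat_lit 383) (nat_lit 4) (nat_lit 192) (nat_lit 207) (nat_lit 201)))) (PT.nd (nat_lit 156) (PT.nd (nat_lit 78) (PT.lf (nat_lit 29640) (nat_lit 6) (nat_lit 390) (nat_lit 4) (nat_lit 193) (nat_lit 207) (nat_lit 200)) (PT.lf (nat_lit 29564) (nat_lit 6) (nat_lit 389) (nat_lit 4) (nat_lit 194) (nat_lit 207) (nat_lit 199))) (PT.nd (nat_lit 78) (PT.lf (nat_lit 29488) (nat_lit 6) (nat_lit 388) (nat_lit 4) (nat_lit 195) (nat_lit 207) (nat_lit 198))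 (PT.lf (nat_lit 29412) (nat_lit 6) (nat_lit 387) (nat_lit 4) (nat_lit 196) (nat_lit 207) (nat_lit 197)))))) (PT.nd (nat_lit 624) (PT.nd (nat_lit 312) (PT.nd (nat_lit 156) (PT.nd (nat_lit 78) (PT.lf (nat_lit 29412) (nat_lit 6) (nat_lit 387) (nat_lit 2) (nat_lit 197) (nat_lit 207) (nat_lit 196)) (PT.lf (nat_lit 29488) (nat_lit 6) (nat_lit 388) (nat_lit 2) (nat_lit 198) (nat_lit 207) (nat_lit 195))) (PT.nd (nat_lit 78) (PT.lf (nat_lit 29564) (nat_lit 6) (nat_lit 389) (nat_lit 2) (nat_lit 199) (nat_lit 207) (nat_lit 194)) (PT.lf (nat_lit 29640) (nat_lit 6) (nat_lit 390) (nat_lit 2) (nat_lit 200) (nat_lit 207) (nat_lit 193)))) (PT.nd (nat_lit 156) (PT.nd (nat_lit 78) (PT.lf (nat_lit 29108) (nat_lit 6) (nat_lit 383) (nat_lit 2) (nat_lit 201) (nat_lit 207) (nat_lit 192)) (PT.lf (nat_lit 28500) (nat_lit 6) (nat_lit 375) (nat_lit 2) (nat_lit 202) (nat_lit 207) (nat_lit 191))) (PT.nd (nat_lit 78) (PT.lf (nat_lit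 27816) (nat_lit 6) (nat_lit 366) (nat_lit 2) (nat_lit 203) (nat_lit 207) (nat_lit 190)) (PT.lf (nat_lit 27056) (nat_lit 6) (nat_lit 356) (nat_lit 2) (nat_lit 204) (nat_lit 207) (nat_lit 189))))) (PT.nd (nat_lit 312) (PT.nd (nat_lit 156) (PT.nd (nat_lit 78) (PT.lf (nat_lit 26220) (nat_lit 6) (nat_lit 345) (nat_lit 2) (nat_lit 205) (nat_lit 207) (nat_lit 188)) (PT.lf (nat_lit 25308) (nat_lit 6) (nat_lit 333) (nat_lit 2) (nat_lit 206) (nat_lit 207) (nat_lit 187))) (PT.nd (nat_lit 78) (PT.lf (nat_lit 24320) (nat_lit 3) (nat_lit 320) (nat_lit 0) (nat_lit 207) (nat_lit 207) (nat_lit 186)) (PT.lf (nat_lit 23180) (nat_lit 6) (nat_lit 305) (nat_lit 0) (nat_lit 208) (nat_lit 207) (nat_lit 185)))) (PT.nd (nat_lit 156) (PT.nd (nat_lit 78) (PT.lf (nat_lit 21964) (nat_lit 6) (nat_lit 289) (nat_lit 0) (nat_lit 209) (nat_lit 207) (nat_lit 184)) (PT.lf (nat_lit 20672) (nat_lit 6) (nat_lit 272) (nat_lit 0) (nat_lit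 210) (nat_lit 207) (nat_lit 183))) (PT.nd (nat_lit 78) (PT.lf (nat_lit 19836) (nat_lit 6) (nat_lit 261) (nat_lit 0) (nat_lit 211) (nat_lit 207) (nat_lit 182)) (PT.lf (nat_lit 19152) (nat_lit 6) (nat_lit 252) (nat_lit 0) (nat_lit 212) (nat_lit 207) (nat_lit 181))))))) (PT.nd (nat_lit 60060) (PT.nd (nat_lit 59436) (PT.nd (nat_lit 312) (PT.nd (nat_lit 156) (PT.nd (nat_lit 78) (PT.lf (nat_lit 18468) (nat_lit 6) (nat_lit 243) (nat_lit 0) (nat_lit 213) (nat_lit 207) (nat_lit 180)) (PT.lf (nat_lit 17860) (nat_lit 6) (nat_lit 235) (nat_lit 0) (nat_lit 214) (nat_lit 207) (nat_lit 179))) (PT.nd (nat_lit 78) (PT.lf (nat_lit 17252) (nat_lit 6) (nat_lit 227) (nat_lit 0) (nat_lit 215) (nat_lit 207) (nat_lit 178)) (PT.lf (nat_lit 16644) (nat_lit 6) (nat_lit 219) (nat_lit 0) (nat_lit 216) (nat_lit 207) (nat_lit 177)))) (PT.nd (nat_lit 156) (PT.nd (nat_lit 78) (PT.lf (nat_lit 16036) (nat_lit 6) (nat_lit 211) (nat_lit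 0) (nat_lit 217) (nat_lit 207) (nat_lit 176)) (PT.lf (nat_lit 15504) (nat_lit 6) (nat_lit 204) (nat_lit 0) (nat_lit 218) (nat_lit 207) (nat_lit 175))) (PT.nd (nat_lit 58890) (PT.lf (nat_lit 14972) (nat_lit 6) (nat_lit 197) (nat_lit 0) (nat_lit 219) (nat_lit 207) (nat_lit 174)) (PT.lf (nat_lit 14516) (nat_lit 6) (nat_lit 191) (nat_lit 5) (nat_lit 173) (nat_lit 208) (nat_lit 219))))) (PT.nd (nat_lit 312) (PT.nd (nat_lit 156) (PT.nd (nat_lit 78) (PT.lf (nat_lit 15048) (nat_lit 6) (nat_lit 198) (nat_lit 5) (nat_lit 174) (nat_lit 208) (nat_lit 218)) (PT.lf (nat_lit 15580) (nat_lit 6) (nat_lit 205) (nat_lit 5) (nat_lit 175) (nat_lit 208) (nat_lit 217))) (PT.nd (nat_lit 78) (PT.lf (nat_lit 16112) (nat_lit 6) (nat_lit 212) (nat_lit 5) (nat_lit 176) (nat_lit 208) (nat_lit 216)) (PT.lf (nat_lit 16720) (nat_lit 6) (nat_lit 220) (nat_lit 5) (nat_lit 177) (nat_lit 208) (nat_lit 215)))) (PT.nd (nat_lit 156) (PT.nd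 (nat_lit 78) (PT.lf (nat_lit 17328) (nat_lit 6) (nat_lit 228) (nat_lit 5) (nat_lit 178) (nat_lit 208) (nat_lit 214)) (PT.lf (nat_lit 17936) (nat_lit 6) (nat_lit 236) (nat_lit 5) (nat_lit 179) (nat_lit 208) (nat_lit 213))) (PT.nd (nat_lit 78) (PT.lf (nat_lit 18544) (nat_lit 6) (nat_lit 244) (nat_lit 5) (nat_lit 180) (nat_lit 208) (nat_lit 212)) (PT.lf (nat_lit 19228) (nat_lit 6) (nat_lit 253) (nat_lit 5) (nat_lit 181) (nat_lit 208) (nat_lit 211)))))) (PT.nd (nat_lit 624) (PT.nd (nat_lit 312) (PT.nd (nat_lit 156) (PT.nd (nat_lit 78) (PT.lf (nat_lit 19912) (nat_lit 6) (nat_lit 262) (nat_lit 5) (nat_lit 182) (nat_lit 208) (nat_lit 210)) (PT.lf (nat_lit 20748) (nat_lit 6) (nat_lit 273) (nat_lit 5) (nat_lit 183) (nat_lit 208) (nat_lit 209))) (PT.nd (nat_lit 78) (PT.lf (nat_lit 22040) (nat_lit 3) (nat_lit 290) (nat_lit 4) (nat_lit 184) (nat_lit 208) (nat_lit 208)) (PT.lf (nat_lit 23180) (nat_lit 6) (nat_lit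 305) (nat_lit 4) (nat_lit 185) (nat_lit 208) (nat_lit 207)))) (PT.nd (nat_lit 156) (PT.nd (nat_lit 78) (PT.lf (nat_lit 24244) (nat_lit 6) (nat_lit 319) (nat_lit 4) (nat_lit 186) (nat_lit 208) (nat_lit 206)) (PT.lf (nat_lit 25232) (nat_lit 6) (nat_lit 332) (nat_lit 4) (nat_lit 187) (nat_lit 208) (nat_lit 205))) (PT.nd (nat_lit 78) (PT.lf (nat_lit 26144) (nat_lit 6) (nat_lit 344) (nat_lit 4) (nat_lit 188) (nat_lit 208) (nat_lit 204)) (PT.lf (nat_lit 26980) (nat_lit 6) (nat_lit 355) (nat_lit 4) (nat_lit 189) (nat_lit 208) (nat_lit 203))))) (PT.nd (nat_lit 312) (PT.nd (nat_lit 156) (PT.nd (nat_lit 78) (PT.lf (nat_lit 27740) (nat_lit 6) (nat_lit 365) (nat_lit 4) (nat_lit 190) (nat_lit 208) (nat_lit 202)) (PT.lf (nat_lit 28424) (nat_lit 6) (nat_lit 374) (nat_lit 4) (nat_lit 191) (nat_lit 208) (nat_lit 201))) (PT.nd (nat_lit 78) (PT.lf (nat_lit 29032) (nat_lit 6) (nat_lit 382) (nat_lit 4) (nat_lit 192) (nat_lit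 208) (nat_lit 200)) (PT.lf (nat_lit 28956) (nat_lit 6) (nat_lit 381) (nat_lit 4) (nat_lit 193) (nat_lit 208) (nat_lit 199)))) (PT.nd (nat_lit 156) (PT.nd (nat_lit 78) (PT.lf (nat_lit 28880) (nat_lit 6) (nat_lit 380) (nat_lit 4) (nat_lit 194) (nat_lit 208) (nat_lit 198)) (PT.lf (nat_lit 28804) (nat_lit 6) (nat_lit 379) (nat_lit 4) (nat_lit 195) (nat_lit 208) (nat_lit 197))) (PT.nd (nat_lit 78) (PT.lf (nat_lit 28728) (nat_lit 3) (nat_lit 378) (nat_lit 2) (nat_lit 196) (nat_lit 208) (nat_lit 196)) (PT.lf (nat_lit 28804) (nat_lit 6) (nat_lit 379) (nat_lit 2) (nat_lit 197) (nat_lit 208) (nat_lit 195))))))))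
noncomputable def pc18 : PT := (PT.nd (nat_lit 61152) (PT.nd (nat_lit 1170) (PT.nd (nat_lit 546) (PT.nd (nat_lit 234) (PT.nd (nat_lit 78) (PT.lf (nat_lit 28880) (nat_lit 6) (nat_lit 380) (nat_lit 2) (nat_lit 198) (nat_lit 208) (nat_lit 194)) (PT.nd (nat_lit 78) (PT.lf (nat_lit 28956) (nat_lit 6) (nat_lit 381) (nat_lit 2) (nat_lit 199) (nat_lit 208) (nat_lit 193)) (PT.lf (nat_lit 29032) (nat_lit 6) (nat_lit 382) (nat_lit 2) (nat_lit 200) (nat_lit 208) (nat_lit 192)))) (PT.nd (nat_lit 156) (PT.nd (nat_lit 78) (PT.lf (nat_lit 28424) (nat_lit 6) (nat_lit 374) (nat_lit 2) (nat_lit 201) (nat_lit 208) (nat_lit 191)) (PT.lf (nat_lit 27740) (nat_lit 6) (nat_lit 365) (nat_lit 2) (nat_lit 202) (nat_lit 208) (nat_lit 190))) (PT.nd (nat_lit 78) (PT.lf (nat_lit 26980) (nat_lit 6) (nat_lit 355) (nat_lit 2) (nat_lit 203) (nat_lit 208) (nat_lit 189)) (PT.lf (nat_lit 26144) (nat_lit 6) (nat_lit 344) (nat_lit 2) (nat_lit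 204) (nat_lit 208) (nat_lit 188))))) (PT.nd (nat_lit 312) (PT.nd (nat_lit 156) (PT.nd (nat_lit 78) (PT.lf (nat_lit 25232) (nat_lit 6) (nat_lit 332) (nat_lit 2) (nat_lit 205) (nat_lit 208) (nat_lit 187)) (PT.lf (nat_lit 24244) (nat_lit 6) (nat_lit 319) (nat_lit 2) (nat_lit 206) (nat_lit 208) (nat_lit 186))) (PT.nd (nat_lit 78) (PT.lf (nat_lit 23180) (nat_lit 6) (nat_lit 305) (nat_lit 2) (nat_lit 207) (nat_lit 208) (nat_lit 185)) (PT.lf (nat_lit 22040) (nat_lit 3) (nat_lit 290) (nat_lit 0) (nat_lit 208) (nat_lit 208) (nat_lit 184)))) (PT.nd (nat_lit 156) (PT.nd (nat_lit 78) (PT.lf (nat_lit 20748) (nat_lit 6) (nat_lit 273) (nat_lit 0) (nat_lit 209) (nat_lit 208) (nat_lit 183)) (PT.lf (nat_lit 19912) (nat_lit 6) (nat_lit 262) (nat_lit 0) (nat_lit 210) (nat_lit 208) (nat_lit 182))) (PT.nd (nat_lit 78) (PT.lf (nat_lit 19228) (nat_lit 6) (nat_lit 253) (nat_lit 0) (nat_lit 211) (nat_lit 208) (nat_lit 181))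 (PT.lf (nat_lit 18544) (nat_lit 6) (nat_lit 244) (nat_lit 0) (nat_lit 212) (nat_lit 208) (nat_lit 180)))))) (PT.nd (nat_lit 59358) (PT.nd (nat_lit 312) (PT.nd (nat_lit 156) (PT.nd (nat_lit 78) (PT.lf (nat_lit 17936) (nat_lit 6) (nat_lit 236) (nat_lit 0) (nat_lit 213) (nat_lit 208) (nat_lit 179)) (PT.lf (nat_lit 17328) (nat_lit 6) (nat_lit 228) (nat_lit 0) (nat_lit 214) (nat_lit 208) (nat_lit 178))) (PT.nd (nat_lit 78) (PT.lf (nat_lit 16720) (nat_lit 6) (nat_lit 220) (nat_lit 0) (nat_lit 215) (nat_lit 208) (nat_lit 177)) (PT.lf (nat_lit 16112) (nat_lit 6) (nat_lit 212) (nat_lit 0) (nat_lit 216) (nat_lit 208) (nat_lit 176)))) (PT.nd (nat_lit 156) (PT.nd (nat_lit 78) (PT.lf (nat_lit 15580) (nat_lit 6) (nat_lit 205) (nat_lit 0) (nat_lit 217) (nat_lit 208) (nat_lit 175)) (PT.lf (nat_lit 15048) (nat_lit 6) (nat_lit 198) (nat_lit 0) (nat_lit 218) (nat_lit 208) (nat_lit 174))) (PT.nd (nat_lit 58812) (PT.lf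 (nat_lit 14516) (nat_lit 6) (nat_lit 191) (nat_lit 0) (nat_lit 219) (nat_lit 208) (nat_lit 173)) (PT.lf (nat_lit 14060) (nat_lit 6) (nat_lit 185) (nat_lit 5) (nat_lit 172) (nat_lit 209) (nat_lit 219))))) (PT.nd (nat_lit 312) (PT.nd (nat_lit 156) (PT.nd (nat_lit 78) (PT.lf (nat_lit 14592) (nat_lit 6) (nat_lit 192) (nat_lit 5) (nat_lit 173) (nat_lit 209) (nat_lit 218)) (PT.lf (nat_lit 15124) (nat_lit 6) (nat_lit 199) (nat_lit 5) (nat_lit 174) (nat_lit 209) (nat_lit 217))) (PT.nd (nat_lit 78) (PT.lf (nat_lit 15656) (nat_lit 6) (nat_lit 206) (nat_lit 5) (nat_lit 175) (nat_lit 209) (nat_lit 216)) (PT.lf (nat_lit 16188) (nat_lit 6) (nat_lit 213) (nat_lit 5) (nat_lit 176) (nat_lit 209) (nat_lit 215)))) (PT.nd (nat_lit 156) (PT.nd (nat_lit 78) (PT.lf (nat_lit 16796) (nat_lit 6) (nat_lit 221) (nat_lit 5) (nat_lit 177) (nat_lit 209) (nat_lit 214)) (PT.lf (nat_lit 17404) (nat_lit 6) (nat_lit 229) (nat_lit 5)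 (nat_lit 178) (nat_lit 209) (nat_lit 213))) (PT.nd (nat_lit 78) (PT.lf (nat_lit 18012) (nat_lit 6) (nat_lit 237) (nat_lit 5) (nat_lit 179) (nat_lit 209) (nat_lit 212)) (PT.lf (nat_lit 18620) (nat_lit 6) (nat_lit 245) (nat_lit 5) (nat_lit 180) (nat_lit 209) (nat_lit 211))))))) (PT.nd (nat_lit 1248) (PT.nd (nat_lit 624) (PT.nd (nat_lit 312) (PT.nd (nat_lit 156) (PT.nd (nat_lit 78) (PT.lf (nat_lit 19304) (nat_lit 6) (nat_lit 254) (nat_lit 5) (nat_lit 181) (nat_lit 209) (nat_lit 210)) (PT.lf (nat_lit 19988) (nat_lit 3) (nat_lit 263) (nat_lit 4) (nat_lit 182) (nat_lit 209) (nat_lit 209))) (PT.nd (nat_lit 78) (PT.lf (nat_lit 20748) (nat_lit 6) (nat_lit 273) (nat_lit 4) (nat_lit 183) (nat_lit 209) (nat_lit 208)) (PT.lf (nat_lit 21964) (nat_lit 6) (nat_lit 289) (nat_lit 4) (nat_lit 184) (nat_lit 209) (nat_lit 207)))) (PT.nd (nat_lit 156) (PT.nd (nat_lit 78) (PT.lf (nat_lit 23104) (nat_lit 6) (nat_lit 304)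 (nat_lit 4) (nat_lit 185) (nat_lit 209) (nat_lit 206)) (PT.lf (nat_lit 24168) (nat_lit 6) (nat_lit 318) (nat_lit 4) (nat_lit 186) (nat_lit 209) (nat_lit 205))) (PT.nd (nat_lit 78) (PT.lf (nat_lit 25156) (nat_lit 6) (nat_lit 331) (nat_lit 4) (nat_lit 187) (nat_lit 209) (nat_lit 204)) (PT.lf (nat_lit 26068) (nat_lit 6) (nat_lit 343) (nat_lit 4) (nat_lit 188) (nat_lit 209) (nat_lit 203))))) (PT.nd (nat_lit 312) (PT.nd (nat_lit 156) (PT.nd (nat_lit 78) (PT.lf (nat_lit 26904) (nat_lit 6) (nat_lit 354) (nat_lit 4) (nat_lit 189) (nat_lit 209) (nat_lit 202)) (PT.lf (nat_lit 27664) (nat_lit 6) (nat_lit 364) (nat_lit 4) (nat_lit 190) (nat_lit 209) (nat_lit 201))) (PT.nd (nat_lit 78) (PT.lf (nat_lit 28348) (nat_lit 6) (nat_lit 373) (nat_lit 4) (nat_lit 191) (nat_lit 209) (nat_lit 200)) (PT.lf (nat_lit 28272) (nat_lit 6) (nat_lit 372) (nat_lit 4) (nat_lit 192) (nat_lit 209) (nat_lit 199)))) (PT.nd (nat_lit 156)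 (PT.nd (nat_lit 78) (PT.lf (nat_lit 28196) (nat_lit 6) (nat_lit 371) (nat_lit 4) (nat_lit 193) (nat_lit 209) (nat_lit 198)) (PT.lf (nat_lit 28120) (nat_lit 6) (nat_lit 370) (nat_lit 4) (nat_lit 194) (nat_lit 209) (nat_lit 197))) (PT.nd (nat_lit 78) (PT.lf (nat_lit 28044) (nat_lit 6) (nat_lit 369) (nat_lit 4) (nat_lit 195) (nat_lit 209) (nat_lit 196)) (PT.lf (nat_lit 28044) (nat_lit 6) (nat_lit 369) (nat_lit 2) (nat_lit 196) (nat_lit 209) (nat_lit 195)))))) (PT.nd (nat_lit 624) (PT.nd (nat_lit 312) (PT.nd (nat_lit 156) (PT.nd (nat_lit 78) (PT.lf (nat_lit 28120) (nat_lit 6) (nat_lit 370) (nat_lit 2) (nat_lit 197) (nat_lit 209) (nat_lit 194)) (PT.lf (nat_lit 28196) (nat_lit 6) (nat_lit 371) (nat_lit 2) (nat_lit 198) (nat_lit 209) (nat_lit 193))) (PT.nd (nat_lit 78) (PT.lf (nat_lit 28272) (nat_lit 6) (nat_lit 372) (nat_lit 2) (nat_lit 199) (nat_lit 209) (nat_lit 192)) (PT.lf (nat_lit 28348) (nat_lit 6)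 (nat_lit 373) (nat_lit 2) (nat_lit 200) (nat_lit 209) (nat_lit 191)))) (PT.nd (nat_lit 156) (PT.nd (nat_lit 78) (PT.lf (nat_lit 27664) (nat_lit 6) (nat_lit 364) (nat_lit 2) (nat_lit 201) (nat_lit 209) (nat_lit 190)) (PT.lf (nat_lit 26904) (nat_lit 6) (nat_lit 354) (nat_lit 2) (nat_lit 202) (nat_lit 209) (nat_lit 189))) (PT.nd (nat_lit 78) (PT.lf (nat_lit 26068) (nat_lit 6) (nat_lit 343) (nat_lit 2) (nat_lit 203) (nat_lit 209) (nat_lit 188)) (PT.lf (nat_lit 25156) (nat_lit 6) (nat_lit 331) (nat_lit 2) (nat_lit 204) (nat_lit 209) (nat_lit 187))))) (PT.nd (nat_lit 312) (PT.nd (nat_lit 156) (PT.nd (nat_lit 78) (PT.lf (nat_lit 24168) (nat_lit 6) (nat_lit 318) (nat_lit 2) (nat_lit 205) (nat_lit 209) (nat_lit 186)) (PT.lf (nat_lit 23104) (nat_lit 6) (nat_lit 304) (nat_lit 2) (nat_lit 206) (nat_lit 209) (nat_lit 185))) (PT.nd (nat_lit 78) (PT.lf (nat_lit 21964) (nat_lit 6) (nat_lit 289) (nat_lit 2) (nat_lit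 207) (nat_lit 209) (nat_lit 184)) (PT.lf (nat_lit 20748) (nat_lit 6) (nat_lit 273) (nat_lit 2) (nat_lit 208) (nat_lit 209) (nat_lit 183)))) (PT.nd (nat_lit 156) (PT.nd (nat_lit 78) (PT.lf (nat_lit 19988) (nat_lit 3) (nat_lit 263) (nat_lit 0) (nat_lit 209) (nat_lit 209) (nat_lit 182)) (PT.lf (nat_lit 19304) (nat_lit 6) (nat_lit 254) (nat_lit 0) (nat_lit 210) (nat_lit 209) (nat_lit 181))) (PT.nd (nat_lit 78) (PT.lf (nat_lit 18620) (nat_lit 6) (nat_lit 245) (nat_lit 0) (nat_lit 211) (nat_lit 209) (nat_lit 180)) (PT.lf (nat_lit 18012) (nat_lit 6) (nat_lit 237) (nat_lit 0) (nat_lit 212) (nat_lit 209) (nat_lit 179))))))))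
noncomputable def pc19 : PT := (PT.nd (nat_lit 60996) (PT.nd (nat_lit 59748) (PT.nd (nat_lit 59124) (PT.nd (nat_lit 234) (PT.nd (nat_lit 78) (PT.lf (nat_lit 17404) (nat_lit 6) (nat_lit 229) (nat_lit 0) (nat_lit 213) (nat_lit 209) (nat_lit 178)) (PT.nd (nat_lit 78) (PT.lf (nat_lit 16796) (nat_lit 6) (nat_lit 221) (nat_lit 0) (nat_lit 214) (nat_lit 209) (nat_lit 177)) (PT.lf (nat_lit 16188) (nat_lit 6) (nat_lit 213) (nat_lit 0) (nat_lit 215) (nat_lit 209) (nat_lit 176)))) (PT.nd (nat_lit 156) (PT.nd (nat_lit 78) (PT.lf (nat_lit 15656) (nat_lit 6) (nat_lit 206) (nat_lit 0) (nat_lit 216) (nat_lit 209) (nat_lit 175)) (PT.lf (nat_lit 15124) (nat_lit 6) (nat_lit 199) (nat_lit 0) (nat_lit 217) (nat_lit 209) (nat_lit 174))) (PT.nd (nat_lit 78) (PT.lf (nat_lit 14592) (nat_lit 6) (nat_lit 192) (nat_lit 0) (nat_lit 218) (nat_lit 209) (nat_lit 173)) (PT.lf (nat_lit 14060) (nat_lit 6) (nat_lit 185) (nat_lit 0) (nat_lit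 219) (nat_lit 209) (nat_lit 172))))) (PT.nd (nat_lit 312) (PT.nd (nat_lit 156) (PT.nd (nat_lit 78) (PT.lf (nat_lit 13224) (nat_lit 6) (nat_lit 174) (nat_lit 5) (nat_lit 170) (nat_lit 210) (nat_lit 220)) (PT.lf (nat_lit 13680) (nat_lit 6) (nat_lit 180) (nat_lit 5) (nat_lit 171) (nat_lit 210) (nat_lit 219))) (PT.nd (nat_lit 78) (PT.lf (nat_lit 14136) (nat_lit 6) (nat_lit 186) (nat_lit 5) (nat_lit 172) (nat_lit 210) (nat_lit 218)) (PT.lf (nat_lit 14668) (nat_lit 6) (nat_lit 193) (nat_lit 5) (nat_lit 173) (nat_lit 210) (nat_lit 217)))) (PT.nd (nat_lit 156) (PT.nd (nat_lit 78) (PT.lf (nat_lit 15200) (nat_lit 6) (nat_lit 200) (nat_lit 5) (nat_lit 174) (nat_lit 210) (nat_lit 216)) (PT.lf (nat_lit 15732) (nat_lit 6) (nat_lit 207) (nat_lit 5) (nat_lit 175) (nat_lit 210) (nat_lit 215))) (PT.nd (nat_lit 78) (PT.lf (nat_lit 16264) (nat_lit 6) (nat_lit 214) (nat_lit 5) (nat_lit 176) (nat_lit 210) (nat_lit 214))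 (PT.lf (nat_lit 16872) (nat_lit 6) (nat_lit 222) (nat_lit 5) (nat_lit 177) (nat_lit 210) (nat_lit 213)))))) (PT.nd (nat_lit 624) (PT.nd (nat_lit 312) (PT.nd (nat_lit 156) (PT.nd (nat_lit 78) (PT.lf (nat_lit 17480) (nat_lit 6) (nat_lit 230) (nat_lit 5) (nat_lit 178) (nat_lit 210) (nat_lit 212)) (PT.lf (nat_lit 18088) (nat_lit 6) (nat_lit 238) (nat_lit 5) (nat_lit 179) (nat_lit 210) (nat_lit 211))) (PT.nd (nat_lit 78) (PT.lf (nat_lit 18696) (nat_lit 3) (nat_lit 246) (nat_lit 4) (nat_lit 180) (nat_lit 210) (nat_lit 210)) (PT.lf (nat_lit 19304) (nat_lit 6) (nat_lit 254) (nat_lit 4) (nat_lit 181) (nat_lit 210) (nat_lit 209)))) (PT.nd (nat_lit 156) (PT.nd (nat_lit 78) (PT.lf (nat_lit 19912) (nat_lit 6) (nat_lit 262) (nat_lit 4) (nat_lit 182) (nat_lit 210) (nat_lit 208)) (PT.lf (nat_lit 20672) (nat_lit 6) (nat_lit 272) (nat_lit 4) (nat_lit 183) (nat_lit 210) (nat_lit 207))) (PT.nd (nat_lit 78) (PT.lf (nat_lit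 21888) (nat_lit 6) (nat_lit 288) (nat_lit 4) (nat_lit 184) (nat_lit 210) (nat_lit 206)) (PT.lf (nat_lit 23028) (nat_lit 6) (nat_lit 303) (nat_lit 4) (nat_lit 185) (nat_lit 210) (nat_lit 205))))) (PT.nd (nat_lit 312) (PT.nd (nat_lit 156) (PT.nd (nat_lit 78) (PT.lf (nat_lit 24092) (nat_lit 6) (nat_lit 317) (nat_lit 4) (nat_lit 186) (nat_lit 210) (nat_lit 204)) (PT.lf (nat_lit 25080) (nat_lit 6) (nat_lit 330) (nat_lit 4) (nat_lit 187) (nat_lit 210) (nat_lit 203))) (PT.nd (nat_lit 78) (PT.lf (nat_lit 25992) (nat_lit 6) (nat_lit 342) (nat_lit 4) (nat_lit 188) (nat_lit 210) (nat_lit 202)) (PT.lf (nat_lit 26828) (nat_lit 6) (nat_lit 353) (nat_lit 4) (nat_lit 189) (nat_lit 210) (nat_lit 201)))) (PT.nd (nat_lit 156) (PT.nd (nat_lit 78) (PT.lf (nat_lit 27588) (nat_lit 6) (nat_lit 363) (nat_lit 4) (nat_lit 190) (nat_lit 210) (nat_lit 200)) (PT.lf (nat_lit 27512) (nat_lit 6) (nat_lit 362) (nat_lit 4) (nat_lit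 191) (nat_lit 210) (nat_lit 199))) (PT.nd (nat_lit 78) (PT.lf (nat_lit 27436) (nat_lit 6) (nat_lit 361) (nat_lit 4) (nat_lit 192) (nat_lit 210) (nat_lit 198)) (PT.lf (nat_lit 27360) (nat_lit 6) (nat_lit 360) (nat_lit 4) (nat_lit 193) (nat_lit 210) (nat_lit 197))))))) (PT.nd (nat_lit 1248) (PT.nd (nat_lit 624) (PT.nd (nat_lit 312) (PT.nd (nat_lit 156) (PT.nd (nat_lit 78) (PT.lf (nat_lit 27284) (nat_lit 6) (nat_lit 359) (nat_lit 4) (nat_lit 194) (nat_lit 210) (nat_lit 196)) (PT.lf (nat_lit 27208) (nat_lit 3) (nat_lit 358) (nat_lit 2) (nat_lit 195) (nat_lit 210) (nat_lit 195))) (PT.nd (nat_lit 78) (PT.lf (nat_lit 27284) (nat_lit 6) (nat_lit 359) (nat_lit 2) (nat_lit 196) (nat_lit 210) (nat_lit 194)) (PT.lf (nat_lit 27360) (nat_lit 6) (nat_lit 360) (nat_lit 2) (nat_lit 197) (nat_lit 210) (nat_lit 193)))) (PT.nd (nat_lit 156) (PT.nd (nat_lit 78) (PT.lf (nat_lit 27436) (nat_lit 6) (nat_lit 361) (nat_lit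 2) (nat_lit 198) (nat_lit 210) (nat_lit 192)) (PT.lf (nat_lit 27512) (nat_lit 6) (nat_lit 362) (nat_lit 2) (nat_lit 199) (nat_lit 210) (nat_lit 191))) (PT.nd (nat_lit 78) (PT.lf (nat_lit 27588) (nat_lit 6) (nat_lit 363) (nat_lit 2) (nat_lit 200) (nat_lit 210) (nat_lit 190)) (PT.lf (nat_lit 26828) (nat_lit 6) (nat_lit 353) (nat_lit 2) (nat_lit 201) (nat_lit 210) (nat_lit 189))))) (PT.nd (nat_lit 312) (PT.nd (nat_lit 156) (PT.nd (nat_lit 78) (PT.lf (nat_lit 25992) (nat_lit 6) (nat_lit 342) (nat_lit 2) (nat_lit 202) (nat_lit 210) (nat_lit 188)) (PT.lf (nat_lit 25080) (nat_lit 6) (nat_lit 330) (nat_lit 2) (nat_lit 203) (nat_lit 210) (nat_lit 187))) (PT.nd (nat_lit 78) (PT.lf (nat_lit 24092) (nat_lit 6) (nat_lit 317) (nat_lit 2) (nat_lit 204) (nat_lit 210) (nat_lit 186)) (PT.lf (nat_lit 23028) (nat_lit 6) (nat_lit 303) (nat_lit 2) (nat_lit 205) (nat_lit 210) (nat_lit 185)))) (PT.nd (nat_lit 156) (PT.nd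 (nat_lit 78) (PT.lf (nat_lit 21888) (nat_lit 6) (nat_lit 288) (nat_lit 2) (nat_lit 206) (nat_lit 210) (nat_lit 184)) (PT.lf (nat_lit 20672) (nat_lit 6) (nat_lit 272) (nat_lit 2) (nat_lit 207) (nat_lit 210) (nat_lit 183))) (PT.nd (nat_lit 78) (PT.lf (nat_lit 19912) (nat_lit 6) (nat_lit 262) (nat_lit 2) (nat_lit 208) (nat_lit 210) (nat_lit 182)) (PT.lf (nat_lit 19304) (nat_lit 6) (nat_lit 254) (nat_lit 2) (nat_lit 209) (nat_lit 210) (nat_lit 181)))))) (PT.nd (nat_lit 624) (PT.nd (nat_lit 312) (PT.nd (nat_lit 156) (PT.nd (nat_lit 78) (PT.lf (nat_lit 18696) (nat_lit 3) (nat_lit 246) (nat_lit 0) (nat_lit 210) (nat_lit 210) (nat_lit 180)) (PT.lf (nat_lit 18088) (nat_lit 6) (nat_lit 238) (nat_lit 0) (nat_lit 211) (nat_lit 210) (nat_lit 179))) (PT.nd (nat_lit 78) (PT.lf (nat_lit 17480) (nat_lit 6) (nat_lit 230) (nat_lit 0) (nat_lit 212) (nat_lit 210) (nat_lit 178)) (PT.lf (nat_lit 16872) (nat_lit 6) (nat_lit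 222) (nat_lit 0) (nat_lit 213) (nat_lit 210) (nat_lit 177)))) (PT.nd (nat_lit 156) (PT.nd (nat_lit 78) (PT.lf (nat_lit 16264) (nat_lit 6) (nat_lit 214) (nat_lit 0) (nat_lit 214) (nat_lit 210) (nat_lit 176)) (PT.lf (nat_lit 15732) (nat_lit 6) (nat_lit 207) (nat_lit 0) (nat_lit 215) (nat_lit 210) (nat_lit 175))) (PT.nd (nat_lit 78) (PT.lf (nat_lit 15200) (nat_lit 6) (nat_lit 200) (nat_lit 0) (nat_lit 216) (nat_lit 210) (nat_lit 174)) (PT.lf (nat_lit 14668) (nat_lit 6) (nat_lit 193) (nat_lit 0) (nat_lit 217) (nat_lit 210) (nat_lit 173))))) (PT.nd (nat_lit 58734) (PT.nd (nat_lit 156) (PT.nd (nat_lit 78) (PT.lf (nat_lit 14136) (nat_lit 6) (nat_lit 186) (nat_lit 0) (nat_lit 218) (nat_lit 210) (nat_lit 172)) (PT.lf (nat_lit 13680) (nat_lit 6) (nat_lit 180) (nat_lit 0) (nat_lit 219) (nat_lit 210) (nat_lit 171))) (PT.nd (nat_lit 58500) (PT.lf (nat_lit 13224) (nat_lit 6) (nat_lit 174) (nat_lit 0) (nat_lit 220)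 (nat_lit 210) (nat_lit 170)) (PT.lf (nat_lit 12844) (nat_lit 6) (nat_lit 169) (nat_lit 5) (nat_lit 169) (nat_lit 211) (nat_lit 220)))) (PT.nd (nat_lit 156) (PT.nd (nat_lit 78) (PT.lf (nat_lit 13300) (nat_lit 6) (nat_lit 175) (nat_lit 5) (nat_lit 170) (nat_lit 211) (nat_lit 219)) (PT.lf (nat_lit 13756) (nat_lit 6) (nat_lit 181) (nat_lit 5) (nat_lit 171) (nat_lit 211) (nat_lit 218))) (PT.nd (nat_lit 78) (PT.lf (nat_lit 14212) (nat_lit 6) (nat_lit 187) (nat_lit 5) (nat_lit 172) (nat_lit 211) (nat_lit 217)) (PT.lf (nat_lit 14744) (nat_lit 6) (nat_lit 194) (nat_lit 5) (nat_lit 173) (nat_lit 211) (nat_lit 216))))))))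
noncomputable def pc20 : PT := (PT.nd (nat_lit 2418) (PT.nd (nat_lit 1170) (PT.nd (nat_lit 546) (PT.nd (nat_lit 234) (PT.nd (nat_lit 78) (PT.lf (nat_lit 15276) (nat_lit 6) (nat_lit 201) (nat_lit 5) (nat_lit 174) (nat_lit 211) (nat_lit 215)) (PT.nd (nat_lit 78) (PT.lf (nat_lit 15808) (nat_lit 6) (nat_lit 208) (nat_lit 5) (nat_lit 175) (nat_lit 211) (nat_lit 214)) (PT.lf (nat_lit 16340) (nat_lit 6) (nat_lit 215) (nat_lit 5) (nat_lit 176) (nat_lit 211) (nat_lit 213)))) (PT.nd (nat_lit 156) (PT.nd (nat_lit 78) (PT.lf (nat_lit 16948) (nat_lit 6) (nat_lit 223) (nat_lit 5) (nat_lit 177) (nat_lit 211) (nat_lit 212)) (PT.lf (nat_lit 17556) (nat_lit 3) (nat_lit 231) (nat_lit 4) (nat_lit 178) (nat_lit 211) (nat_lit 211))) (PT.nd (nat_lit 78) (PT.lf (nat_lit 18088) (nat_lit 6) (nat_lit 238) (nat_lit 4) (nat_lit 179) (nat_lit 211) (nat_lit 210)) (PT.lf (nat_lit 18620) (nat_lit 6) (nat_lit 245) (nat_lit 4) (nat_lit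 180) (nat_lit 211) (nat_lit 209))))) (PT.nd (nat_lit 312) (PT.nd (nat_lit 156) (PT.nd (nat_lit 78) (PT.lf (nat_lit 19228) (nat_lit 6) (nat_lit 253) (nat_lit 4) (nat_lit 181) (nat_lit 211) (nat_lit 208)) (PT.lf (nat_lit 19836) (nat_lit 6) (nat_lit 261) (nat_lit 4) (nat_lit 182) (nat_lit 211) (nat_lit 207))) (PT.nd (nat_lit 78) (PT.lf (nat_lit 20596) (nat_lit 6) (nat_lit 271) (nat_lit 4) (nat_lit 183) (nat_lit 211) (nat_lit 206)) (PT.lf (nat_lit 21812) (nat_lit 6) (nat_lit 287) (nat_lit 4) (nat_lit 184) (nat_lit 211) (nat_lit 205)))) (PT.nd (nat_lit 156) (PT.nd (nat_lit 78) (PT.lf (nat_lit 22952) (nat_lit 6) (nat_lit 302) (nat_lit 4) (nat_lit 185) (nat_lit 211) (nat_lit 204)) (PT.lf (nat_lit 24016) (nat_lit 6) (nat_lit 316) (nat_lit 4) (nat_lit 186) (nat_lit 211) (nat_lit 203))) (PT.nd (nat_lit 78) (PT.lf (nat_lit 25004) (nat_lit 6) (nat_lit 329) (nat_lit 4) (nat_lit 187) (nat_lit 211) (nat_lit 202))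 (PT.lf (nat_lit 25916) (nat_lit 6) (nat_lit 341) (nat_lit 4) (nat_lit 188) (nat_lit 211) (nat_lit 201)))))) (PT.nd (nat_lit 624) (PT.nd (nat_lit 312) (PT.nd (nat_lit 156) (PT.nd (nat_lit 78) (PT.lf (nat_lit 26752) (nat_lit 6) (nat_lit 352) (nat_lit 4) (nat_lit 189) (nat_lit 211) (nat_lit 200)) (PT.lf (nat_lit 26676) (nat_lit 6) (nat_lit 351) (nat_lit 4) (nat_lit 190) (nat_lit 211) (nat_lit 199))) (PT.nd (nat_lit 78) (PT.lf (nat_lit 26600) (nat_lit 6) (nat_lit 350) (nat_lit 4) (nat_lit 191) (nat_lit 211) (nat_lit 198)) (PT.lf (nat_lit 26524) (nat_lit 6) (nat_lit 349) (nat_lit 4) (nat_lit 192) (nat_lit 211) (nat_lit 197)))) (PT.nd (nat_lit 156) (PT.nd (nat_lit 78) (PT.lf (nat_lit 26448) (nat_lit 6) (nat_lit 348) (nat_lit 4) (nat_lit 193) (nat_lit 211) (nat_lit 196)) (PT.lf (nat_lit 26372) (nat_lit 6) (nat_lit 347) (nat_lit 4) (nat_lit 194) (nat_lit 211) (nat_lit 195))) (PT.nd (nat_lit 78) (PT.lf (nat_lit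 26372) (nat_lit 6) (nat_lit 347) (nat_lit 2) (nat_lit 195) (nat_lit 211) (nat_lit 194)) (PT.lf (nat_lit 26448) (nat_lit 6) (nat_lit 348) (nat_lit 2) (nat_lit 196) (nat_lit 211) (nat_lit 193))))) (PT.nd (nat_lit 312) (PT.nd (nat_lit 156) (PT.nd (nat_lit 78) (PT.lf (nat_lit 26524) (nat_lit 6) (nat_lit 349) (nat_lit 2) (nat_lit 197) (nat_lit 211) (nat_lit 192)) (PT.lf (nat_lit 26600) (nat_lit 6) (nat_lit 350) (nat_lit 2) (nat_lit 198) (nat_lit 211) (nat_lit 191))) (PT.nd (nat_lit 78) (PT.lf (nat_lit 26676) (nat_lit 6) (nat_lit 351) (nat_lit 2) (nat_lit 199) (nat_lit 211) (nat_lit 190)) (PT.lf (nat_lit 26752) (nat_lit 6) (nat_lit 352) (nat_lit 2) (nat_lit 200) (nat_lit 211) (nat_lit 189)))) (PT.nd (nat_lit 156) (PT.nd (nat_lit 78) (PT.lf (nat_lit 25916) (nat_lit 6) (nat_lit 341) (nat_lit 2) (nat_lit 201) (nat_lit 211) (nat_lit 188)) (PT.lf (nat_lit 25004) (nat_lit 6) (nat_lit 329) (nat_lit 2) (nat_lit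 202) (nat_lit 211) (nat_lit 187))) (PT.nd (nat_lit 78) (PT.lf (nat_lit 24016) (nat_lit 6) (nat_lit 316) (nat_lit 2) (nat_lit 203) (nat_lit 211) (nat_lit 186)) (PT.lf (nat_lit 22952) (nat_lit 6) (nat_lit 302) (nat_lit 2) (nat_lit 204) (nat_lit 211) (nat_lit 185))))))) (PT.nd (nat_lit 59514) (PT.nd (nat_lit 624) (PT.nd (nat_lit 312) (PT.nd (nat_lit 156) (PT.nd (nat_lit 78) (PT.lf (nat_lit 21812) (nat_lit 6) (nat_lit 287) (nat_lit 2) (nat_lit 205) (nat_lit 211) (nat_lit 184)) (PT.lf (nat_lit 20596) (nat_lit 6) (nat_lit 271) (nat_lit 2) (nat_lit 206) (nat_lit 211) (nat_lit 183))) (PT.nd (nat_lit 78) (PT.lf (nat_lit 19836) (nat_lit 6) (nat_lit 261) (nat_lit 2) (nat_lit 207) (nat_lit 211) (nat_lit 182)) (PT.lf (nat_lit 19228) (nat_lit 6) (nat_lit 253) (nat_lit 2) (nat_lit 208) (nat_lit 211) (nat_lit 181)))) (PT.nd (nat_lit 156) (PT.nd (nat_lit 78) (PT.lf (nat_lit 18620) (nat_lit 6) (nat_lit 245) (nat_lit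 2) (nat_lit 209) (nat_lit 211) (nat_lit 180)) (PT.lf (nat_lit 18088) (nat_lit 6) (nat_lit 238) (nat_lit 2) (nat_lit 210) (nat_lit 211) (nat_lit 179))) (PT.nd (nat_lit 78) (PT.lf (nat_lit 17556) (nat_lit 3) (nat_lit 231) (nat_lit 0) (nat_lit 211) (nat_lit 211) (nat_lit 178)) (PT.lf (nat_lit 16948) (nat_lit 6) (nat_lit 223) (nat_lit 0) (nat_lit 212) (nat_lit 211) (nat_lit 177))))) (PT.nd (nat_lit 312) (PT.nd (nat_lit 156) (PT.nd (nat_lit 78) (PT.lf (nat_lit 16340) (nat_lit 6) (nat_lit 215) (nat_lit 0) (nat_lit 213) (nat_lit 211) (nat_lit 176)) (PT.lf (nat_lit 15808) (nat_lit 6) (nat_lit 208) (nat_lit 0) (nat_lit 214) (nat_lit 211) (nat_lit 175))) (PT.nd (nat_lit 78) (PT.lf (nat_lit 15276) (nat_lit 6) (nat_lit 201) (nat_lit 0) (nat_lit 215) (nat_lit 211) (nat_lit 174)) (PT.lf (nat_lit 14744) (nat_lit 6) (nat_lit 194) (nat_lit 0) (nat_lit 216) (nat_lit 211) (nat_lit 173)))) (PT.nd (nat_lit 156) (PT.nd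 (nat_lit 78) (PT.lf (nat_lit 14212) (nat_lit 6) (nat_lit 187) (nat_lit 0) (nat_lit 217) (nat_lit 211) (nat_lit 172)) (PT.lf (nat_lit 13756) (nat_lit 6) (nat_lit 181) (nat_lit 0) (nat_lit 218) (nat_lit 211) (nat_lit 171))) (PT.nd (nat_lit 78) (PT.lf (nat_lit 13300) (nat_lit 6) (nat_lit 175) (nat_lit 0) (nat_lit 219) (nat_lit 211) (nat_lit 170)) (PT.lf (nat_lit 12844) (nat_lit 6) (nat_lit 169) (nat_lit 0) (nat_lit 220) (nat_lit 211) (nat_lit 169)))))) (PT.nd (nat_lit 624) (PT.nd (nat_lit 312) (PT.nd (nat_lit 156) (PT.nd (nat_lit 78) (PT.lf (nat_lit 12084) (nat_lit 6) (nat_lit 159) (nat_lit 5) (nat_lit 167) (nat_lit 212) (nat_lit 221)) (PT.lf (nat_lit 12464) (nat_lit 6) (nat_lit 164) (nat_lit 5) (nat_lit 168) (nat_lit 212) (nat_lit 220))) (PT.nd (nat_lit 78) (PT.lf (nat_lit 12920) (nat_lit 6) (nat_lit 170) (nat_lit 5) (nat_lit 169) (nat_lit 212) (nat_lit 219)) (PT.lf (nat_lit 13376) (nat_lit 6) (nat_lit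 176) (nat_lit 5) (nat_lit 170) (nat_lit 212) (nat_lit 218)))) (PT.nd (nat_lit 156) (PT.nd (nat_lit 78) (PT.lf (nat_lit 13832) (nat_lit 6) (nat_lit 182) (nat_lit 5) (nat_lit 171) (nat_lit 212) (nat_lit 217)) (PT.lf (nat_lit 14288) (nat_lit 6) (nat_lit 188) (nat_lit 5) (nat_lit 172) (nat_lit 212) (nat_lit 216))) (PT.nd (nat_lit 78) (PT.lf (nat_lit 14820) (nat_lit 6) (nat_lit 195) (nat_lit 5) (nat_lit 173) (nat_lit 212) (nat_lit 215)) (PT.lf (nat_lit 15352) (nat_lit 6) (nat_lit 202) (nat_lit 5) (nat_lit 174) (nat_lit 212) (nat_lit 214))))) (PT.nd (nat_lit 312) (PT.nd (nat_lit 156) (PT.nd (nat_lit 78) (PT.lf (nat_lit 15884) (nat_lit 6) (nat_lit 209) (nat_lit 5) (nat_lit 175) (nat_lit 212) (nat_lit 213)) (PT.lf (nat_lit 16416) (nat_lit 3) (nat_lit 216) (nat_lit 4) (nat_lit 176) (nat_lit 212) (nat_lit 212))) (PT.nd (nat_lit 78) (PT.lf (nat_lit 16948) (nat_lit 6) (nat_lit 223) (nat_lit 4) (nat_lit 177) (nat_lit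 212) (nat_lit 211)) (PT.lf (nat_lit 17480) (nat_lit 6) (nat_lit 230) (nat_lit 4) (nat_lit 178) (nat_lit 212) (nat_lit 210)))) (PT.nd (nat_lit 156) (PT.nd (nat_lit 78) (PT.lf (nat_lit 18012) (nat_lit 6) (nat_lit 237) (nat_lit 4) (nat_lit 179) (nat_lit 212) (nat_lit 209)) (PT.lf (nat_lit 18544) (nat_lit 6) (nat_lit 244) (nat_lit 4) (nat_lit 180) (nat_lit 212) (nat_lit 208))) (PT.nd (nat_lit 78) (PT.lf (nat_lit 19152) (nat_lit 6) (nat_lit 252) (nat_lit 4) (nat_lit 181) (nat_lit 212) (nat_lit 207)) (PT.lf (nat_lit 19760) (nat_lit 6) (nat_lit 260) (nat_lit 4) (nat_lit 182) (nat_lit 212) (nat_lit 206))))))))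
noncomputable def pc21 : PT := (PT.nd (nat_lit 2418) (PT.nd (nat_lit 1170) (PT.nd (nat_lit 546) (PT.nd (nat_lit 234) (PT.nd (nat_lit 78) (PT.lf (nat_lit 20520) (nat_lit 6) (nat_lit 270) (nat_lit 4) (nat_lit 183) (nat_lit 212) (nat_lit 205)) (PT.nd (nat_lit 78) (PT.lf (nat_lit 21736) (nat_lit 6) (nat_lit 286) (nat_lit 4) (nat_lit 184) (nat_lit 212) (nat_lit 204)) (PT.lf (nat_lit 22876) (nat_lit 6) (nat_lit 301) (nat_lit 4) (nat_lit 185) (nat_lit 212) (nat_lit 203)))) (PT.nd (nat_lit 156) (PT.nd (nat_lit 78) (PT.lf (nat_lit 23940) (nat_lit 6) (nat_lit 315) (nat_lit 4) (nat_lit 186) (nat_lit 212) (nat_lit 202)) (PT.lf (nat_lit 24928) (nat_lit 6) (nat_lit 328) (nat_lit 4) (nat_lit 187) (nat_lit 212) (nat_lit 201))) (PT.nd (nat_lit 78) (PT.lf (nat_lit 25840) (nat_lit 6) (nat_lit 340) (nat_lit 4) (nat_lit 188) (nat_lit 212) (nat_lit 200)) (PT.lf (nat_lit 25764) (nat_lit 6) (nat_lit 339) (nat_lit 4) (nat_lit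 189) (nat_lit 212) (nat_lit 199))))) (PT.nd (nat_lit 312) (PT.nd (nat_lit 156) (PT.nd (nat_lit 78) (PT.lf (nat_lit 25688) (nat_lit 6) (nat_lit 338) (nat_lit 4) (nat_lit 190) (nat_lit 212) (nat_lit 198)) (PT.lf (nat_lit 25612) (nat_lit 6) (nat_lit 337) (nat_lit 4) (nat_lit 191) (nat_lit 212) (nat_lit 197))) (PT.nd (nat_lit 78) (PT.lf (nat_lit 25536) (nat_lit 6) (nat_lit 336) (nat_lit 4) (nat_lit 192) (nat_lit 212) (nat_lit 196)) (PT.lf (nat_lit 25460) (nat_lit 6) (nat_lit 335) (nat_lit 4) (nat_lit 193) (nat_lit 212) (nat_lit 195)))) (PT.nd (nat_lit 156) (PT.nd (nat_lit 78) (PT.lf (nat_lit 25384) (nat_lit 3) (nat_lit 334) (nat_lit 2) (nat_lit 194) (nat_lit 212) (nat_lit 194)) (PT.lf (nat_lit 25460) (nat_lit 6) (nat_lit 335) (nat_lit 2) (nat_lit 195) (nat_lit 212) (nat_lit 193))) (PT.nd (nat_lit 78) (PT.lf (nat_lit 25536) (nat_lit 6) (nat_lit 336) (nat_lit 2) (nat_lit 196) (nat_lit 212) (nat_lit 192))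 (PT.lf (nat_lit 25612) (nat_lit 6) (nat_lit 337) (nat_lit 2) (nat_lit 197) (nat_lit 212) (nat_lit 191)))))) (PT.nd (nat_lit 624) (PT.nd (nat_lit 312) (PT.nd (nat_lit 156) (PT.nd (nat_lit 78) (PT.lf (nat_lit 25688) (nat_lit 6) (nat_lit 338) (nat_lit 2) (nat_lit 198) (nat_lit 212) (nat_lit 190)) (PT.lf (nat_lit 25764) (nat_lit 6) (nat_lit 339) (nat_lit 2) (nat_lit 199) (nat_lit 212) (nat_lit 189))) (PT.nd (nat_lit 78) (PT.lf (nat_lit 25840) (nat_lit 6) (nat_lit 340) (nat_lit 2) (nat_lit 200) (nat_lit 212) (nat_lit 188)) (PT.lf (nat_lit 24928) (nat_lit 6) (nat_lit 328) (nat_lit 2) (nat_lit 201) (nat_lit 212) (nat_lit 187)))) (PT.nd (nat_lit 156) (PT.nd (nat_lit 78) (PT.lf (nat_lit 23940) (nat_lit 6) (nat_lit 315) (nat_lit 2) (nat_lit 202) (nat_lit 212) (nat_lit 186)) (PT.lf (nat_lit 22876) (nat_lit 6) (nat_lit 301) (nat_lit 2) (nat_lit 203) (nat_lit 212) (nat_lit 185))) (PT.nd (nat_lit 78) (PT.lf (nat_lit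 21736) (nat_lit 6) (nat_lit 286) (nat_lit 2) (nat_lit 204) (nat_lit 212) (nat_lit 184)) (PT.lf (nat_lit 20520) (nat_lit 6) (nat_lit 270) (nat_lit 2) (nat_lit 205) (nat_lit 212) (nat_lit 183))))) (PT.nd (nat_lit 312) (PT.nd (nat_lit 156) (PT.nd (nat_lit 78) (PT.lf (nat_lit 19760) (nat_lit 6) (nat_lit 260) (nat_lit 2) (nat_lit 206) (nat_lit 212) (nat_lit 182)) (PT.lf (nat_lit 19152) (nat_lit 6) (nat_lit 252) (nat_lit 2) (nat_lit 207) (nat_lit 212) (nat_lit 181))) (PT.nd (nat_lit 78) (PT.lf (nat_lit 18544) (nat_lit 6) (nat_lit 244) (nat_lit 2) (nat_lit 208) (nat_lit 212) (nat_lit 180)) (PT.lf (nat_lit 18012) (nat_lit 6) (nat_lit 237) (nat_lit 2) (nat_lit 209) (nat_lit 212) (nat_lit 179)))) (PT.nd (nat_lit 156) (PT.nd (nat_lit 78) (PT.lf (nat_lit 17480) (nat_lit 6) (nat_lit 230) (nat_lit 2) (nat_lit 210) (nat_lit 212) (nat_lit 178)) (PT.lf (nat_lit 16948) (nat_lit 6) (nat_lit 223) (nat_lit 2) (nat_lit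 211) (nat_lit 212) (nat_lit 177))) (PT.nd (nat_lit 78) (PT.lf (nat_lit 16416) (nat_lit 3) (nat_lit 216) (nat_lit 0) (nat_lit 212) (nat_lit 212) (nat_lit 176)) (PT.lf (nat_lit 15884) (nat_lit 6) (nat_lit 209) (nat_lit 0) (nat_lit 213) (nat_lit 212) (nat_lit 175))))))) (PT.nd (nat_lit 59358) (PT.nd (nat_lit 58734) (PT.nd (nat_lit 312) (PT.nd (nat_lit 156) (PT.nd (nat_lit 78) (PT.lf (nat_lit 15352) (nat_lit 6) (nat_lit 202) (nat_lit 0) (nat_lit 214) (nat_lit 212) (nat_lit 174)) (PT.lf (nat_lit 14820) (nat_lit 6) (nat_lit 195) (nat_lit 0) (nat_lit 215) (nat_lit 212) (nat_lit 173))) (PT.nd (nat_lit 78) (PT.lf (nat_lit 14288) (nat_lit 6) (nat_lit 188) (nat_lit 0) (nat_lit 216) (nat_lit 212) (nat_lit 172)) (PT.lf (nat_lit 13832) (nat_lit 6) (nat_lit 182) (nat_lit 0) (nat_lit 217) (nat_lit 212) (nat_lit 171)))) (PT.nd (nat_lit 156) (PT.nd (nat_lit 78) (PT.lf (nat_lit 13376) (nat_lit 6) (nat_lit 176) (nat_lit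 0) (nat_lit 218) (nat_lit 212) (nat_lit 170)) (PT.lf (nat_lit 12920) (nat_lit 6) (nat_lit 170) (nat_lit 0) (nat_lit 219) (nat_lit 212) (nat_lit 169))) (PT.nd (nat_lit 78) (PT.lf (nat_lit 12464) (nat_lit 6) (nat_lit 164) (nat_lit 0) (nat_lit 220) (nat_lit 212) (nat_lit 168)) (PT.lf (nat_lit 12084) (nat_lit 6) (nat_lit 159) (nat_lit 0) (nat_lit 221) (nat_lit 212) (nat_lit 167))))) (PT.nd (nat_lit 312) (PT.nd (nat_lit 156) (PT.nd (nat_lit 78) (PT.lf (nat_lit 11704) (nat_lit 6) (nat_lit 154) (nat_lit 5) (nat_lit 166) (nat_lit 213) (nat_lit 221)) (PT.lf (nat_lit 12160) (nat_lit 6) (nat_lit 160) (nat_lit 5) (nat_lit 167) (nat_lit 213) (nat_lit 220))) (PT.nd (nat_lit 78) (PT.lf (nat_lit 12540) (nat_lit 6) (nat_lit 165) (nat_lit 5) (nat_lit 168) (nat_lit 213) (nat_lit 219)) (PT.lf (nat_lit 12996) (nat_lit 6) (nat_lit 171) (nat_lit 5) (nat_lit 169) (nat_lit 213) (nat_lit 218)))) (PT.nd (nat_lit 156) (PT.nd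 (nat_lit 78) (PT.lf (nat_lit 13452) (nat_lit 6) (nat_lit 177) (nat_lit 5) (nat_lit 170) (nat_lit 213) (nat_lit 217)) (PT.lf (nat_lit 13908) (nat_lit 6) (nat_lit 183) (nat_lit 5) (nat_lit 171) (nat_lit 213) (nat_lit 216))) (PT.nd (nat_lit 78) (PT.lf (nat_lit 14364) (nat_lit 6) (nat_lit 189) (nat_lit 5) (nat_lit 172) (nat_lit 213) (nat_lit 215)) (PT.lf (nat_lit 14896) (nat_lit 6) (nat_lit 196) (nat_lit 5) (nat_lit 173) (nat_lit 213) (nat_lit 214)))))) (PT.nd (nat_lit 624) (PT.nd (nat_lit 312) (PT.nd (nat_lit 156) (PT.nd (nat_lit 78) (PT.lf (nat_lit 15428) (nat_lit 3) (nat_lit 203) (nat_lit 4) (nat_lit 174) (nat_lit 213) (nat_lit 213)) (PT.lf (nat_lit 15884) (nat_lit 6) (nat_lit 209) (nat_lit 4) (nat_lit 175) (nat_lit 213) (nat_lit 212))) (PT.nd (nat_lit 78) (PT.lf (nat_lit 16340) (nat_lit 6) (nat_lit 215) (nat_lit 4) (nat_lit 176) (nat_lit 213) (nat_lit 211)) (PT.lf (nat_lit 16872) (nat_lit 6) (nat_lit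 222) (nat_lit 4) (nat_lit 177) (nat_lit 213) (nat_lit 210)))) (PT.nd (nat_lit 156) (PT.nd (nat_lit 78) (PT.lf (nat_lit 17404) (nat_lit 6) (nat_lit 229) (nat_lit 4) (nat_lit 178) (nat_lit 213) (nat_lit 209)) (PT.lf (nat_lit 17936) (nat_lit 6) (nat_lit 236) (nat_lit 4) (nat_lit 179) (nat_lit 213) (nat_lit 208))) (PT.nd (nat_lit 78) (PT.lf (nat_lit 18468) (nat_lit 6) (nat_lit 243) (nat_lit 4) (nat_lit 180) (nat_lit 213) (nat_lit 207)) (PT.lf (nat_lit 19076) (nat_lit 6) (nat_lit 251) (nat_lit 4) (nat_lit 181) (nat_lit 213) (nat_lit 206))))) (PT.nd (nat_lit 312) (PT.nd (nat_lit 156) (PT.nd (nat_lit 78) (PT.lf (nat_lit 19684) (nat_lit 6) (nat_lit 259) (nat_lit 4) (nat_lit 182) (nat_lit 213) (nat_lit 205)) (PT.lf (nat_lit 20444) (nat_lit 6) (nat_lit 269) (nat_lit 4) (nat_lit 183) (nat_lit 213) (nat_lit 204))) (PT.nd (nat_lit 78) (PT.lf (nat_lit 21660) (nat_lit 6) (nat_lit 285) (nat_lit 4) (nat_lit 184) (nat_lit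 213) (nat_lit 203)) (PT.lf (nat_lit 22800) (nat_lit 6) (nat_lit 300) (nat_lit 4) (nat_lit 185) (nat_lit 213) (nat_lit 202)))) (PT.nd (nat_lit 156) (PT.nd (nat_lit 78) (PT.lf (nat_lit 23864) (nat_lit 6) (nat_lit 314) (nat_lit 4) (nat_lit 186) (nat_lit 213) (nat_lit 201)) (PT.lf (nat_lit 24852) (nat_lit 6) (nat_lit 327) (nat_lit 4) (nat_lit 187) (nat_lit 213) (nat_lit 200))) (PT.nd (nat_lit 78) (PT.lf (nat_lit 24776) (nat_lit 6) (nat_lit 326) (nat_lit 4) (nat_lit 188) (nat_lit 213) (nat_lit 199)) (PT.lf (nat_lit 24700) (nat_lit 6) (nat_lit 325) (nat_lit 4) (nat_lit 189) (nat_lit 213) (nat_lit 198))))))))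
noncomputable def pc22 : PT := (PT.nd (nat_lit 2418) (PT.nd (nat_lit 1170) (PT.nd (nat_lit 546) (PT.nd (nat_lit 234) (PT.nd (nat_lit 78) (PT.lf (nat_lit 24624) (nat_lit 6) (nat_lit 324) (nat_lit 4) (nat_lit 190) (nat_lit 213) (nat_lit 197)) (PT.nd (nat_lit 78) (PT.lf (nat_lit 24548) (nat_lit 6) (nat_lit 323) (nat_lit 4) (nat_lit 191) (nat_lit 213) (nat_lit 196)) (PT.lf (nat_lit 24472) (nat_lit 6) (nat_lit 322) (nat_lit 4) (nat_lit 192) (nat_lit 213) (nat_lit 195)))) (PT.nd (nat_lit 156) (PT.nd (nat_lit 78) (PT.lf (nat_lit 24396) (nat_lit 6) (nat_lit 321) (nat_lit 4) (nat_lit 193) (nat_lit 213) (nat_lit 194)) (PT.lf (nat_lit 24396) (nat_lit 6) (nat_lit 321) (nat_lit 2) (nat_lit 194) (nat_lit 213) (nat_lit 193))) (PT.nd (nat_lit 78) (PT.lf (nat_lit 24472) (nat_lit 6) (nat_lit 322) (nat_lit 2) (nat_lit 195) (nat_lit 213) (nat_lit 192)) (PT.lf (nat_lit 24548) (nat_lit 6) (nat_lit 323) (nat_lit 2) (nat_lit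 196) (nat_lit 213) (nat_lit 191))))) (PT.nd (nat_lit 312) (PT.nd (nat_lit 156) (PT.nd (nat_lit 78) (PT.lf (nat_lit 24624) (nat_lit 6) (nat_lit 324) (nat_lit 2) (nat_lit 197) (nat_lit 213) (nat_lit 190)) (PT.lf (nat_lit 24700) (nat_lit 6) (nat_lit 325) (nat_lit 2) (nat_lit 198) (nat_lit 213) (nat_lit 189))) (PT.nd (nat_lit 78) (PT.lf (nat_lit 24776) (nat_lit 6) (nat_lit 326) (nat_lit 2) (nat_lit 199) (nat_lit 213) (nat_lit 188)) (PT.lf (nat_lit 24852) (nat_lit 6) (nat_lit 327) (nat_lit 2) (nat_lit 200) (nat_lit 213) (nat_lit 187)))) (PT.nd (nat_lit 156) (PT.nd (nat_lit 78) (PT.lf (nat_lit 23864) (nat_lit 6) (nat_lit 314) (nat_lit 2) (nat_lit 201) (nat_lit 213) (nat_lit 186)) (PT.lf (nat_lit 22800) (nat_lit 6) (nat_lit 300) (nat_lit 2) (nat_lit 202) (nat_lit 213) (nat_lit 185))) (PT.nd (nat_lit 78) (PT.lf (nat_lit 21660) (nat_lit 6) (nat_lit 285) (nat_lit 2) (nat_lit 203) (nat_lit 213) (nat_lit 184))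 (PT.lf (nat_lit 20444) (nat_lit 6) (nat_lit 269) (nat_lit 2) (nat_lit 204) (nat_lit 213) (nat_lit 183)))))) (PT.nd (nat_lit 624) (PT.nd (nat_lit 312) (PT.nd (nat_lit 156) (PT.nd (nat_lit 78) (PT.lf (nat_lit 19684) (nat_lit 6) (nat_lit 259) (nat_lit 2) (nat_lit 205) (nat_lit 213) (nat_lit 182)) (PT.lf (nat_lit 19076) (nat_lit 6) (nat_lit 251) (nat_lit 2) (nat_lit 206) (nat_lit 213) (nat_lit 181))) (PT.nd (nat_lit 78) (PT.lf (nat_lit 18468) (nat_lit 6) (nat_lit 243) (nat_lit 2) (nat_lit 207) (nat_lit 213) (nat_lit 180)) (PT.lf (nat_lit 17936) (nat_lit 6) (nat_lit 236) (nat_lit 2) (nat_lit 208) (nat_lit 213) (nat_lit 179)))) (PT.nd (nat_lit 156) (PT.nd (nat_lit 78) (PT.lf (nat_lit 17404) (nat_lit 6) (nat_lit 229) (nat_lit 2) (nat_lit 209) (nat_lit 213) (nat_lit 178)) (PT.lf (nat_lit 16872) (nat_lit 6) (nat_lit 222) (nat_lit 2) (nat_lit 210) (nat_lit 213) (nat_lit 177))) (PT.nd (nat_lit 78) (PT.lf (nat_lit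 16340) (nat_lit 6) (nat_lit 215) (nat_lit 2) (nat_lit 211) (nat_lit 213) (nat_lit 176)) (PT.lf (nat_lit 15884) (nat_lit 6) (nat_lit 209) (nat_lit 2) (nat_lit 212) (nat_lit 213) (nat_lit 175))))) (PT.nd (nat_lit 312) (PT.nd (nat_lit 156) (PT.nd (nat_lit 78) (PT.lf (nat_lit 15428) (nat_lit 3) (nat_lit 203) (nat_lit 0) (nat_lit 213) (nat_lit 213) (nat_lit 174)) (PT.lf (nat_lit 14896) (nat_lit 6) (nat_lit 196) (nat_lit 0) (nat_lit 214) (nat_lit 213) (nat_lit 173))) (PT.nd (nat_lit 78) (PT.lf (nat_lit 14364) (nat_lit 6) (nat_lit 189) (nat_lit 0) (nat_lit 215) (nat_lit 213) (nat_lit 172)) (PT.lf (nat_lit 13908) (nat_lit 6) (nat_lit 183) (nat_lit 0) (nat_lit 216) (nat_lit 213) (nat_lit 171)))) (PT.nd (nat_lit 156) (PT.nd (nat_lit 78) (PT.lf (nat_lit 13452) (nat_lit 6) (nat_lit 177) (nat_lit 0) (nat_lit 217) (nat_lit 213) (nat_lit 170)) (PT.lf (nat_lit 12996) (nat_lit 6) (nat_lit 171) (nat_lit 0) (nat_lit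 218) (nat_lit 213) (nat_lit 169))) (PT.nd (nat_lit 78) (PT.lf (nat_lit 12540) (nat_lit 6) (nat_lit 165) (nat_lit 0) (nat_lit 219) (nat_lit 213) (nat_lit 168)) (PT.lf (nat_lit 12160) (nat_lit 6) (nat_lit 160) (nat_lit 0) (nat_lit 220) (nat_lit 213) (nat_lit 167))))))) (PT.nd (nat_lit 59202) (PT.nd (nat_lit 58578) (PT.nd (nat_lit 58266) (PT.nd (nat_lit 58110) (PT.nd (nat_lit 58032) (PT.lf (nat_lit 11704) (nat_lit 6) (nat_lit 154) (nat_lit 0) (nat_lit 221) (nat_lit 213) (nat_lit 166)) (PT.lf (nat_lit 11020) (nat_lit 6) (nat_lit 145) (nat_lit 5) (nat_lit 164) (nat_lit 214) (nat_lit 222))) (PT.nd (nat_lit 78) (PT.lf (nat_lit 11400) (nat_lit 6) (nat_lit 150) (nat_lit 5) (nat_lit 165) (nat_lit 214) (nat_lit 221)) (PT.lf (nat_lit 11780) (nat_lit 6) (nat_lit 155) (nat_lit 5) (nat_lit 166) (nat_lit 214) (nat_lit 220)))) (PT.nd (nat_lit 156) (PT.nd (nat_lit 78) (PT.lf (nat_lit 12236) (nat_lit 6) (nat_lit 161)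 (nat_lit 5) (nat_lit 167) (nat_lit 214) (nat_lit 219)) (PT.lf (nat_lit 12616) (nat_lit 6) (nat_lit 166) (nat_lit 5) (nat_lit 168) (nat_lit 214) (nat_lit 218))) (PT.nd (nat_lit 78) (PT.lf (nat_lit 13072) (nat_lit 6) (nat_lit 172) (nat_lit 5) (nat_lit 169) (nat_lit 214) (nat_lit 217)) (PT.lf (nat_lit 13528) (nat_lit 6) (nat_lit 178) (nat_lit 5) (nat_lit 170) (nat_lit 214) (nat_lit 216))))) (PT.nd (nat_lit 312) (PT.nd (nat_lit 156) (PT.nd (nat_lit 78) (PT.lf (nat_lit 13984) (nat_lit 6) (nat_lit 184) (nat_lit 5) (nat_lit 171) (nat_lit 214) (nat_lit 215)) (PT.lf (nat_lit 14440) (nat_lit 3) (nat_lit 190) (nat_lit 4) (nat_lit 172) (nat_lit 214) (nat_lit 214))) (PT.nd (nat_lit 78) (PT.lf (nat_lit 14896) (nat_lit 6) (nat_lit 196) (nat_lit 4) (nat_lit 173) (nat_lit 214) (nat_lit 213)) (PT.lf (nat_lit 15352) (nat_lit 6) (nat_lit 202) (nat_lit 4) (nat_lit 174) (nat_lit 214) (nat_lit 212)))) (PT.nd (nat_lit 156)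 (PT.nd (nat_lit 78) (PT.lf (nat_lit 15808) (nat_lit 6) (nat_lit 208) (nat_lit 4) (nat_lit 175) (nat_lit 214) (nat_lit 211)) (PT.lf (nat_lit 16264) (nat_lit 6) (nat_lit 214) (nat_lit 4) (nat_lit 176) (nat_lit 214) (nat_lit 210))) (PT.nd (nat_lit 78) (PT.lf (nat_lit 16796) (nat_lit 6) (nat_lit 221) (nat_lit 4) (nat_lit 177) (nat_lit 214) (nat_lit 209)) (PT.lf (nat_lit 17328) (nat_lit 6) (nat_lit 228) (nat_lit 4) (nat_lit 178) (nat_lit 214) (nat_lit 208)))))) (PT.nd (nat_lit 624) (PT.nd (nat_lit 312) (PT.nd (nat_lit 156) (PT.nd (nat_lit 78) (PT.lf (nat_lit 17860) (nat_lit 6) (nat_lit 235) (nat_lit 4) (nat_lit 179) (nat_lit 214) (nat_lit 207)) (PT.lf (nat_lit 18392) (nat_lit 6) (nat_lit 242) (nat_lit 4) (nat_lit 180) (nat_lit 214) (nat_lit 206))) (PT.nd (nat_lit 78) (PT.lf (nat_lit 19000) (nat_lit 6) (nat_lit 250) (nat_lit 4) (nat_lit 181) (nat_lit 214) (nat_lit 205)) (PT.lf (nat_lit 19608) (nat_lit 6)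 (nat_lit 258) (nat_lit 4) (nat_lit 182) (nat_lit 214) (nat_lit 204)))) (PT.nd (nat_lit 156) (PT.nd (nat_lit 78) (PT.lf (nat_lit 20368) (nat_lit 6) (nat_lit 268) (nat_lit 4) (nat_lit 183) (nat_lit 214) (nat_lit 203)) (PT.lf (nat_lit 21584) (nat_lit 6) (nat_lit 284) (nat_lit 4) (nat_lit 184) (nat_lit 214) (nat_lit 202))) (PT.nd (nat_lit 78) (PT.lf (nat_lit 22724) (nat_lit 6) (nat_lit 299) (nat_lit 4) (nat_lit 185) (nat_lit 214) (nat_lit 201)) (PT.lf (nat_lit 23788) (nat_lit 6) (nat_lit 313) (nat_lit 4) (nat_lit 186) (nat_lit 214) (nat_lit 200))))) (PT.nd (nat_lit 312) (PT.nd (nat_lit 156) (PT.nd (nat_lit 78) (PT.lf (nat_lit 23712) (nat_lit 6) (nat_lit 312) (nat_lit 4) (nat_lit 187) (nat_lit 214) (nat_lit 199)) (PT.lf (nat_lit 23636) (nat_lit 6) (nat_lit 311) (nat_lit 4) (nat_lit 188) (nat_lit 214) (nat_lit 198))) (PT.nd (nat_lit 78) (PT.lf (nat_lit 23560) (nat_lit 6) (nat_lit 310) (nat_lit 4) (nat_lit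 189) (nat_lit 214) (nat_lit 197)) (PT.lf (nat_lit 23484) (nat_lit 6) (nat_lit 309) (nat_lit 4) (nat_lit 190) (nat_lit 214) (nat_lit 196)))) (PT.nd (nat_lit 156) (PT.nd (nat_lit 78) (PT.lf (nat_lit 23408) (nat_lit 6) (nat_lit 308) (nat_lit 4) (nat_lit 191) (nat_lit 214) (nat_lit 195)) (PT.lf (nat_lit 23332) (nat_lit 6) (nat_lit 307) (nat_lit 4) (nat_lit 192) (nat_lit 214) (nat_lit 194))) (PT.nd (nat_lit 78) (PT.lf (nat_lit 23256) (nat_lit 3) (nat_lit 306) (nat_lit 2) (nat_lit 193) (nat_lit 214) (nat_lit 193)) (PT.lf (nat_lit 23332) (nat_lit 6) (nat_lit 307) (nat_lit 2) (nat_lit 194) (nat_lit 214) (nat_lit 192))))))))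
noncomputable def pc23 : PT := (PT.nd (nat_lit 60294) (PT.nd (nat_lit 1248) (PT.nd (nat_lit 624) (PT.nd (nat_lit 312) (PT.nd (nat_lit 156) (PT.nd (nat_lit 78) (PT.lf (nat_lit 23408) (nat_lit 6) (nat_lit 308) (nat_lit 2) (nat_lit 195) (nat_lit 214) (nat_lit 191)) (PT.lf (nat_lit 23484) (nat_lit 6) (nat_lit 309) (nat_lit 2) (nat_lit 196) (nat_lit 214) (nat_lit 190))) (PT.nd (nat_lit 78) (PT.lf (nat_lit 23560) (nat_lit 6) (nat_lit 310) (nat_lit 2) (nat_lit 197) (nat_lit 214) (nat_lit 189)) (PT.lf (nat_lit 23636) (nat_lit 6) (nat_lit 311) (nat_lit 2) (nat_lit 198) (nat_lit 214) (nat_lit 188)))) (PT.nd (nat_lit 156) (PT.nd (nat_lit 78) (PT.lf (nat_lit 23712) (nat_lit 6) (nat_lit 312) (nat_lit 2) (nat_lit 199) (nat_lit 214) (nat_lit 187)) (PT.lf (nat_lit 23788) (nat_lit 6) (nat_lit 313) (nat_lit 2) (nat_lit 200) (nat_lit 214) (nat_lit 186))) (PT.nd (nat_lit 78) (PT.lf (nat_lit 22724) (nat_lit 6) (nat_lit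 299) (nat_lit 2) (nat_lit 201) (nat_lit 214) (nat_lit 185)) (PT.lf (nat_lit 21584) (nat_lit 6) (nat_lit 284) (nat_lit 2) (nat_lit 202) (nat_lit 214) (nat_lit 184))))) (PT.nd (nat_lit 312) (PT.nd (nat_lit 156) (PT.nd (nat_lit 78) (PT.lf (nat_lit 20368) (nat_lit 6) (nat_lit 268) (nat_lit 2) (nat_lit 203) (nat_lit 214) (nat_lit 183)) (PT.lf (nat_lit 19608) (nat_lit 6) (nat_lit 258) (nat_lit 2) (nat_lit 204) (nat_lit 214) (nat_lit 182))) (PT.nd (nat_lit 78) (PT.lf (nat_lit 19000) (nat_lit 6) (nat_lit 250) (nat_lit 2) (nat_lit 205) (nat_lit 214) (nat_lit 181)) (PT.lf (nat_lit 18392) (nat_lit 6) (nat_lit 242) (nat_lit 2) (nat_lit 206) (nat_lit 214) (nat_lit 180)))) (PT.nd (nat_lit 156) (PT.nd (nat_lit 78) (PT.lf (nat_lit 17860) (nat_lit 6) (nat_lit 235) (nat_lit 2) (nat_lit 207) (nat_lit 214) (nat_lit 179)) (PT.lf (nat_lit 17328) (nat_lit 6) (nat_lit 228) (nat_lit 2) (nat_lit 208) (nat_lit 214) (nat_lit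 178))) (PT.nd (nat_lit 78) (PT.lf (nat_lit 16796) (nat_lit 6) (nat_lit 221) (nat_lit 2) (nat_lit 209) (nat_lit 214) (nat_lit 177)) (PT.lf (nat_lit 16264) (nat_lit 6) (nat_lit 214) (nat_lit 2) (nat_lit 210) (nat_lit 214) (nat_lit 176)))))) (PT.nd (nat_lit 624) (PT.nd (nat_lit 312) (PT.nd (nat_lit 156) (PT.nd (nat_lit 78) (PT.lf (nat_lit 15808) (nat_lit 6) (nat_lit 208) (nat_lit 2) (nat_lit 211) (nat_lit 214) (nat_lit 175)) (PT.lf (nat_lit 15352) (nat_lit 6) (nat_lit 202) (nat_lit 2) (nat_lit 212) (nat_lit 214) (nat_lit 174))) (PT.nd (nat_lit 78) (PT.lf (nat_lit 14896) (nat_lit 6) (nat_lit 196) (nat_lit 2) (nat_lit 213) (nat_lit 214) (nat_lit 173)) (PT.lf (nat_lit 14440) (nat_lit 3) (nat_lit 190) (nat_lit 0) (nat_lit 214) (nat_lit 214) (nat_lit 172)))) (PT.nd (nat_lit 156) (PT.nd (nat_lit 78) (PT.lf (nat_lit 13984) (nat_lit 6) (nat_lit 184) (nat_lit 0) (nat_lit 215) (nat_lit 214) (nat_lit 171)) (PT.lf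 (nat_lit 13528) (nat_lit 6) (nat_lit 178) (nat_lit 0) (nat_lit 216) (nat_lit 214) (nat_lit 170))) (PT.nd (nat_lit 78) (PT.lf (nat_lit 13072) (nat_lit 6) (nat_lit 172) (nat_lit 0) (nat_lit 217) (nat_lit 214) (nat_lit 169)) (PT.lf (nat_lit 12616) (nat_lit 6) (nat_lit 166) (nat_lit 0) (nat_lit 218) (nat_lit 214) (nat_lit 168))))) (PT.nd (nat_lit 58110) (PT.nd (nat_lit 156) (PT.nd (nat_lit 78) (PT.lf (nat_lit 12236) (nat_lit 6) (nat_lit 161) (nat_lit 0) (nat_lit 219) (nat_lit 214) (nat_lit 167)) (PT.lf (nat_lit 11780) (nat_lit 6) (nat_lit 155) (nat_lit 0) (nat_lit 220) (nat_lit 214) (nat_lit 166))) (PT.nd (nat_lit 78) (PT.lf (nat_lit 11400) (nat_lit 6) (nat_lit 150) (nat_lit 0) (nat_lit 221) (nat_lit 214) (nat_lit 165)) (PT.lf (nat_lit 11020) (nat_lit 6) (nat_lit 145) (nat_lit 0) (nat_lit 222) (nat_lit 214) (nat_lit 164)))) (PT.nd (nat_lit 156) (PT.nd (nat_lit 78) (PT.lf (nat_lit 10716) (nat_lit 6) (nat_lit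 141) (nat_lit 5) (nat_lit 163) (nat_lit 215) (nat_lit 222)) (PT.lf (nat_lit 11096) (nat_lit 6) (nat_lit 146) (nat_lit 5) (nat_lit 164) (nat_lit 215) (nat_lit 221))) (PT.nd (nat_lit 78) (PT.lf (nat_lit 11476) (nat_lit 6) (nat_lit 151) (nat_lit 5) (nat_lit 165) (nat_lit 215) (nat_lit 220)) (PT.lf (nat_lit 11856) (nat_lit 6) (nat_lit 156) (nat_lit 5) (nat_lit 166) (nat_lit 215) (nat_lit 219))))))) (PT.nd (nat_lit 1248) (PT.nd (nat_lit 624) (PT.nd (nat_lit 312) (PT.nd (nat_lit 156) (PT.nd (nat_lit 78) (PT.lf (nat_lit 12312) (nat_lit 6) (nat_lit 162) (nat_lit 5) (nat_lit 167) (nat_lit 215) (nat_lit 218)) (PT.lf (nat_lit 12692) (nat_lit 6) (nat_lit 167) (nat_lit 5) (nat_lit 168) (nat_lit 215) (nat_lit 217))) (PT.nd (nat_lit 78) (PT.lf (nat_lit 13148) (nat_lit 6) (nat_lit 173) (nat_lit 5) (nat_lit 169) (nat_lit 215) (nat_lit 216)) (PT.lf (nat_lit 13604) (nat_lit 3) (nat_lit 179) (nat_lit 4) (nat_lit 170)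 (nat_lit 215) (nat_lit 215)))) (PT.nd (nat_lit 156) (PT.nd (nat_lit 78) (PT.lf (nat_lit 13984) (nat_lit 6) (nat_lit 184) (nat_lit 4) (nat_lit 171) (nat_lit 215) (nat_lit 214)) (PT.lf (nat_lit 14364) (nat_lit 6) (nat_lit 189) (nat_lit 4) (nat_lit 172) (nat_lit 215) (nat_lit 213))) (PT.nd (nat_lit 78) (PT.lf (nat_lit 14820) (nat_lit 6) (nat_lit 195) (nat_lit 4) (nat_lit 173) (nat_lit 215) (nat_lit 212)) (PT.lf (nat_lit 15276) (nat_lit 6) (nat_lit 201) (nat_lit 4) (nat_lit 174) (nat_lit 215) (nat_lit 211))))) (PT.nd (nat_lit 312) (PT.nd (nat_lit 156) (PT.nd (nat_lit 78) (PT.lf (nat_lit 15732) (nat_lit 6) (nat_lit 207) (nat_lit 4) (nat_lit 175) (nat_lit 215) (nat_lit 210)) (PT.lf (nat_lit 16188) (nat_lit 6) (nat_lit 213) (nat_lit 4) (nat_lit 176) (nat_lit 215) (nat_lit 209))) (PT.nd (nat_lit 78) (PT.lf (nat_lit 16720) (nat_lit 6) (nat_lit 220) (nat_lit 4) (nat_lit 177) (nat_lit 215) (nat_lit 208)) (PT.lf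 (nat_lit 17252) (nat_lit 6) (nat_lit 227) (nat_lit 4) (nat_lit 178) (nat_lit 215) (nat_lit 207)))) (PT.nd (nat_lit 156) (PT.nd (nat_lit 78) (PT.lf (nat_lit 17784) (nat_lit 6) (nat_lit 234) (nat_lit 4) (nat_lit 179) (nat_lit 215) (nat_lit 206)) (PT.lf (nat_lit 18316) (nat_lit 6) (nat_lit 241) (nat_lit 4) (nat_lit 180) (nat_lit 215) (nat_lit 205))) (PT.nd (nat_lit 78) (PT.lf (nat_lit 18924) (nat_lit 6) (nat_lit 249) (nat_lit 4) (nat_lit 181) (nat_lit 215) (nat_lit 204)) (PT.lf (nat_lit 19532) (nat_lit 6) (nat_lit 257) (nat_lit 4) (nat_lit 182) (nat_lit 215) (nat_lit 203)))))) (PT.nd (nat_lit 624) (PT.nd (nat_lit 312) (PT.nd (nat_lit 156) (PT.nd (nat_lit 78) (PT.lf (nat_lit 20292) (nat_lit 6) (nat_lit 267) (nat_lit 4) (nat_lit 183) (nat_lit 215) (nat_lit 202)) (PT.lf (nat_lit 21508) (nat_lit 6) (nat_lit 283) (nat_lit 4) (nat_lit 184) (nat_lit 215) (nat_lit 201))) (PT.nd (nat_lit 78) (PT.lf (nat_lit 22648)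 (nat_lit 6) (nat_lit 298) (nat_lit 4) (nat_lit 185) (nat_lit 215) (nat_lit 200)) (PT.lf (nat_lit 22572) (nat_lit 6) (nat_lit 297) (nat_lit 4) (nat_lit 186) (nat_lit 215) (nat_lit 199)))) (PT.nd (nat_lit 156) (PT.nd (nat_lit 78) (PT.lf (nat_lit 22496) (nat_lit 6) (nat_lit 296) (nat_lit 4) (nat_lit 187) (nat_lit 215) (nat_lit 198)) (PT.lf (nat_lit 22420) (nat_lit 6) (nat_lit 295) (nat_lit 4) (nat_lit 188) (nat_lit 215) (nat_lit 197))) (PT.nd (nat_lit 78) (PT.lf (nat_lit 22344) (nat_lit 6) (nat_lit 294) (nat_lit 4) (nat_lit 189) (nat_lit 215) (nat_lit 196)) (PT.lf (nat_lit 22268) (nat_lit 6) (nat_lit 293) (nat_lit 4) (nat_lit 190) (nat_lit 215) (nat_lit 195))))) (PT.nd (nat_lit 312) (PT.nd (nat_lit 156) (PT.nd (nat_lit 78) (PT.lf (nat_lit 22192) (nat_lit 6) (nat_lit 292) (nat_lit 4) (nat_lit 191) (nat_lit 215) (nat_lit 194)) (PT.lf (nat_lit 22116) (nat_lit 6) (nat_lit 291) (nat_lit 4) (nat_lit 192) (nat_lit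 215) (nat_lit 193))) (PT.nd (nat_lit 78) (PT.lf (nat_lit 22116) (nat_lit 6) (nat_lit 291) (nat_lit 2) (nat_lit 193) (nat_lit 215) (nat_lit 192)) (PT.lf (nat_lit 22192) (nat_lit 6) (nat_lit 292) (nat_lit 2) (nat_lit 194) (nat_lit 215) (nat_lit 191)))) (PT.nd (nat_lit 156) (PT.nd (nat_lit 78) (PT.lf (nat_lit 22268) (nat_lit 6) (nat_lit 293) (nat_lit 2) (nat_lit 195) (nat_lit 215) (nat_lit 190)) (PT.lf (nat_lit 22344) (nat_lit 6) (nat_lit 294) (nat_lit 2) (nat_lit 196) (nat_lit 215) (nat_lit 189))) (PT.nd (nat_lit 78) (PT.lf (nat_lit 22420) (nat_lit 6) (nat_lit 295) (nat_lit 2) (nat_lit 197) (nat_lit 215) (nat_lit 188)) (PT.lf (nat_lit 22496) (nat_lit 6) (nat_lit 296) (nat_lit 2) (nat_lit 198) (nat_lit 215) (nat_lit 187))))))))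
noncomputable def pc24 : PT := (PT.nd (nat_lit 60060) (PT.nd (nat_lit 1170) (PT.nd (nat_lit 546) (PT.nd (nat_lit 234) (PT.nd (nat_lit 78) (PT.lf (nat_lit 22572) (nat_lit 6) (nat_lit 297) (nat_lit 2) (nat_lit 199) (nat_lit 215) (nat_lit 186)) (PT.nd (nat_lit 78) (PT.lf (nat_lit 22648) (nat_lit 6) (nat_lit 298) (nat_lit 2) (nat_lit 200) (nat_lit 215) (nat_lit 185)) (PT.lf (nat_lit 21508) (nat_lit 6) (nat_lit 283) (nat_lit 2) (nat_lit 201) (nat_lit 215) (nat_lit 184)))) (PT.nd (nat_lit 156) (PT.nd (nat_lit 78) (PT.lf (nat_lit 20292) (nat_lit 6) (nat_lit 267) (nat_lit 2) (nat_lit 202) (nat_lit 215) (nat_lit 183)) (PT.lf (nat_lit 19532) (nat_lit 6) (nat_lit 257) (nat_lit 2) (nat_lit 203) (nat_lit 215) (nat_lit 182))) (PT.nd (nat_lit 78) (PT.lf (nat_lit 18924) (nat_lit 6) (nat_lit 249) (nat_lit 2) (nat_lit 204) (nat_lit 215) (nat_lit 181)) (PT.lf (nat_lit 18316) (nat_lit 6) (nat_lit 241) (nat_lit 2) (nat_lit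 205) (nat_lit 215) (nat_lit 180))))) (PT.nd (nat_lit 312) (PT.nd (nat_lit 156) (PT.nd (nat_lit 78) (PT.lf (nat_lit 17784) (nat_lit 6) (nat_lit 234) (nat_lit 2) (nat_lit 206) (nat_lit 215) (nat_lit 179)) (PT.lf (nat_lit 17252) (nat_lit 6) (nat_lit 227) (nat_lit 2) (nat_lit 207) (nat_lit 215) (nat_lit 178))) (PT.nd (nat_lit 78) (PT.lf (nat_lit 16720) (nat_lit 6) (nat_lit 220) (nat_lit 2) (nat_lit 208) (nat_lit 215) (nat_lit 177)) (PT.lf (nat_lit 16188) (nat_lit 6) (nat_lit 213) (nat_lit 2) (nat_lit 209) (nat_lit 215) (nat_lit 176)))) (PT.nd (nat_lit 156) (PT.nd (nat_lit 78) (PT.lf (nat_lit 15732) (nat_lit 6) (nat_lit 207) (nat_lit 2) (nat_lit 210) (nat_lit 215) (nat_lit 175)) (PT.lf (nat_lit 15276) (nat_lit 6) (nat_lit 201) (nat_lit 2) (nat_lit 211) (nat_lit 215) (nat_lit 174))) (PT.nd (nat_lit 78) (PT.lf (nat_lit 14820) (nat_lit 6) (nat_lit 195) (nat_lit 2) (nat_lit 212) (nat_lit 215) (nat_lit 173))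 (PT.lf (nat_lit 14364) (nat_lit 6) (nat_lit 189) (nat_lit 2) (nat_lit 213) (nat_lit 215) (nat_lit 172)))))) (PT.nd (nat_lit 624) (PT.nd (nat_lit 312) (PT.nd (nat_lit 156) (PT.nd (nat_lit 78) (PT.lf (nat_lit 13984) (nat_lit 6) (nat_lit 184) (nat_lit 2) (nat_lit 214) (nat_lit 215) (nat_lit 171)) (PT.lf (nat_lit 13604) (nat_lit 3) (nat_lit 179) (nat_lit 0) (nat_lit 215) (nat_lit 215) (nat_lit 170))) (PT.nd (nat_lit 78) (PT.lf (nat_lit 13148) (nat_lit 6) (nat_lit 173) (nat_lit 0) (nat_lit 216) (nat_lit 215) (nat_lit 169)) (PT.lf (nat_lit 12692) (nat_lit 6) (nat_lit 167) (nat_lit 0) (nat_lit 217) (nat_lit 215) (nat_lit 168)))) (PT.nd (nat_lit 156) (PT.nd (nat_lit 78) (PT.lf (nat_lit 12312) (nat_lit 6) (nat_lit 162) (nat_lit 0) (nat_lit 218) (nat_lit 215) (nat_lit 167)) (PT.lf (nat_lit 11856) (nat_lit 6) (nat_lit 156) (nat_lit 0) (nat_lit 219) (nat_lit 215) (nat_lit 166))) (PT.nd (nat_lit 78) (PT.lf (nat_lit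 11476) (nat_lit 6) (nat_lit 151) (nat_lit 0) (nat_lit 220) (nat_lit 215) (nat_lit 165)) (PT.lf (nat_lit 11096) (nat_lit 6) (nat_lit 146) (nat_lit 0) (nat_lit 221) (nat_lit 215) (nat_lit 164))))) (PT.nd (nat_lit 57954) (PT.nd (nat_lit 57798) (PT.nd (nat_lit 57720) (PT.lf (nat_lit 10716) (nat_lit 6) (nat_lit 141) (nat_lit 0) (nat_lit 222) (nat_lit 215) (nat_lit 163)) (PT.lf (nat_lit 10108) (nat_lit 6) (nat_lit 133) (nat_lit 5) (nat_lit 161) (nat_lit 216) (nat_lit 223))) (PT.nd (nat_lit 78) (PT.lf (nat_lit 10412) (nat_lit 6) (nat_lit 137) (nat_lit 5) (nat_lit 162) (nat_lit 216) (nat_lit 222)) (PT.lf (nat_lit 10792) (nat_lit 6) (nat_lit 142) (nat_lit 5) (nat_lit 163) (nat_lit 216) (nat_lit 221)))) (PT.nd (nat_lit 156) (PT.nd (nat_lit 78) (PT.lf (nat_lit 11172) (nat_lit 6) (nat_lit 147) (nat_lit 5) (nat_lit 164) (nat_lit 216) (nat_lit 220)) (PT.lf (nat_lit 11552) (nat_lit 6) (nat_lit 152) (nat_lit 5) (nat_lit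 165) (nat_lit 216) (nat_lit 219))) (PT.nd (nat_lit 78) (PT.lf (nat_lit 11932) (nat_lit 6) (nat_lit 157) (nat_lit 5) (nat_lit 166) (nat_lit 216) (nat_lit 218)) (PT.lf (nat_lit 12388) (nat_lit 6) (nat_lit 163) (nat_lit 5) (nat_lit 167) (nat_lit 216) (nat_lit 217))))))) (PT.nd (nat_lit 1248) (PT.nd (nat_lit 624) (PT.nd (nat_lit 312) (PT.nd (nat_lit 156) (PT.nd (nat_lit 78) (PT.lf (nat_lit 12768) (nat_lit 3) (nat_lit 168) (nat_lit 4) (nat_lit 168) (nat_lit 216) (nat_lit 216)) (PT.lf (nat_lit 13148) (nat_lit 6) (nat_lit 173) (nat_lit 4) (nat_lit 169) (nat_lit 216) (nat_lit 215))) (PT.nd (nat_lit 78) (PT.lf (nat_lit 13528) (nat_lit 6) (nat_lit 178) (nat_lit 4) (nat_lit 170) (nat_lit 216) (nat_lit 214)) (PT.lf (nat_lit 13908) (nat_lit 6) (nat_lit 183) (nat_lit 4) (nat_lit 171) (nat_lit 216) (nat_lit 213)))) (PT.nd (nat_lit 156) (PT.nd (nat_lit 78) (PT.lf (nat_lit 14288) (nat_lit 6) (nat_lit 188) (nat_lit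 4) (nat_lit 172) (nat_lit 216) (nat_lit 212)) (PT.lf (nat_lit 14744) (nat_lit 6) (nat_lit 194) (nat_lit 4) (nat_lit 173) (nat_lit 216) (nat_lit 211))) (PT.nd (nat_lit 78) (PT.lf (nat_lit 15200) (nat_lit 6) (nat_lit 200) (nat_lit 4) (nat_lit 174) (nat_lit 216) (nat_lit 210)) (PT.lf (nat_lit 15656) (nat_lit 6) (nat_lit 206) (nat_lit 4) (nat_lit 175) (nat_lit 216) (nat_lit 209))))) (PT.nd (nat_lit 312) (PT.nd (nat_lit 156) (PT.nd (nat_lit 78) (PT.lf (nat_lit 16112) (nat_lit 6) (nat_lit 212) (nat_lit 4) (nat_lit 176) (nat_lit 216) (nat_lit 208)) (PT.lf (nat_lit 16644) (nat_lit 6) (nat_lit 219) (nat_lit 4) (nat_lit 177) (nat_lit 216) (nat_lit 207))) (PT.nd (nat_lit 78) (PT.lf (nat_lit 17176) (nat_lit 6) (nat_lit 226) (nat_lit 4) (nat_lit 178) (nat_lit 216) (nat_lit 206)) (PT.lf (nat_lit 17708) (nat_lit 6) (nat_lit 233) (nat_lit 4) (nat_lit 179) (nat_lit 216) (nat_lit 205)))) (PT.nd (nat_lit 156) (PT.nd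 (nat_lit 78) (PT.lf (nat_lit 18240) (nat_lit 6) (nat_lit 240) (nat_lit 4) (nat_lit 180) (nat_lit 216) (nat_lit 204)) (PT.lf (nat_lit 18848) (nat_lit 6) (nat_lit 248) (nat_lit 4) (nat_lit 181) (nat_lit 216) (nat_lit 203))) (PT.nd (nat_lit 78) (PT.lf (nat_lit 19456) (nat_lit 6) (nat_lit 256) (nat_lit 4) (nat_lit 182) (nat_lit 216) (nat_lit 202)) (PT.lf (nat_lit 20216) (nat_lit 6) (nat_lit 266) (nat_lit 4) (nat_lit 183) (nat_lit 216) (nat_lit 201)))))) (PT.nd (nat_lit 624) (PT.nd (nat_lit 312) (PT.nd (nat_lit 156) (PT.nd (nat_lit 78) (PT.lf (nat_lit 21432) (nat_lit 6) (nat_lit 282) (nat_lit 4) (nat_lit 184) (nat_lit 216) (nat_lit 200)) (PT.lf (nat_lit 21356) (nat_lit 6) (nat_lit 281) (nat_lit 4) (nat_lit 185) (nat_lit 216) (nat_lit 199))) (PT.nd (nat_lit 78) (PT.lf (nat_lit 21280) (nat_lit 6) (nat_lit 280) (nat_lit 4) (nat_lit 186) (nat_lit 216) (nat_lit 198)) (PT.lf (nat_lit 21204) (nat_lit 6) (nat_lit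 279) (nat_lit 4) (nat_lit 187) (nat_lit 216) (nat_lit 197)))) (PT.nd (nat_lit 156) (PT.nd (nat_lit 78) (PT.lf (nat_lit 21128) (nat_lit 6) (nat_lit 278) (nat_lit 4) (nat_lit 188) (nat_lit 216) (nat_lit 196)) (PT.lf (nat_lit 21052) (nat_lit 6) (nat_lit 277) (nat_lit 4) (nat_lit 189) (nat_lit 216) (nat_lit 195))) (PT.nd (nat_lit 78) (PT.lf (nat_lit 20976) (nat_lit 6) (nat_lit 276) (nat_lit 4) (nat_lit 190) (nat_lit 216) (nat_lit 194)) (PT.lf (nat_lit 20900) (nat_lit 6) (nat_lit 275) (nat_lit 4) (nat_lit 191) (nat_lit 216) (nat_lit 193))))) (PT.nd (nat_lit 312) (PT.nd (nat_lit 156) (PT.nd (nat_lit 78) (PT.lf (nat_lit 20824) (nat_lit 3) (nat_lit 274) (nat_lit 2) (nat_lit 192) (nat_lit 216) (nat_lit 192)) (PT.lf (nat_lit 20900) (nat_lit 6) (nat_lit 275) (nat_lit 2) (nat_lit 193) (nat_lit 216) (nat_lit 191))) (PT.nd (nat_lit 78) (PT.lf (nat_lit 20976) (nat_lit 6) (nat_lit 276) (nat_lit 2) (nat_lit 194) (nat_lit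 216) (nat_lit 190)) (PT.lf (nat_lit 21052) (nat_lit 6) (nat_lit 277) (nat_lit 2) (nat_lit 195) (nat_lit 216) (nat_lit 189)))) (PT.nd (nat_lit 156) (PT.nd (nat_lit 78) (PT.lf (nat_lit 21128) (nat_lit 6) (nat_lit 278) (nat_lit 2) (nat_lit 196) (nat_lit 216) (nat_lit 188)) (PT.lf (nat_lit 21204) (nat_lit 6) (nat_lit 279) (nat_lit 2) (nat_lit 197) (nat_lit 216) (nat_lit 187))) (PT.nd (nat_lit 78) (PT.lf (nat_lit 21280) (nat_lit 6) (nat_lit 280) (nat_lit 2) (nat_lit 198) (nat_lit 216) (nat_lit 186)) (PT.lf (nat_lit 21356) (nat_lit 6) (nat_lit 281) (nat_lit 2) (nat_lit 199) (nat_lit 216) (nat_lit 185))))))))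
noncomputable def pc25 : PT := (PT.nd (nat_lit 59904) (PT.nd (nat_lit 1170) (PT.nd (nat_lit 546) (PT.nd (nat_lit 234) (PT.nd (nat_lit 78) (PT.lf (nat_lit 21432) (nat_lit 6) (nat_lit 282) (nat_lit 2) (nat_lit 200) (nat_lit 216) (nat_lit 184)) (PT.nd (nat_lit 78) (PT.lf (nat_lit 20216) (nat_lit 6) (nat_lit 266) (nat_lit 2) (nat_lit 201) (nat_lit 216) (nat_lit 183)) (PT.lf (nat_lit 19456) (nat_lit 6) (nat_lit 256) (nat_lit 2) (nat_lit 202) (nat_lit 216) (nat_lit 182)))) (PT.nd (nat_lit 156) (PT.nd (nat_lit 78) (PT.lf (nat_lit 18848) (nat_lit 6) (nat_lit 248) (nat_lit 2) (nat_lit 203) (nat_lit 216) (nat_lit 181)) (PT.lf (nat_lit 18240) (nat_lit 6) (nat_lit 240) (nat_lit 2) (nat_lit 204) (nat_lit 216) (nat_lit 180))) (PT.nd (nat_lit 78) (PT.lf (nat_lit 17708) (nat_lit 6) (nat_lit 233) (nat_lit 2) (nat_lit 205) (nat_lit 216) (nat_lit 179)) (PT.lf (nat_lit 17176) (nat_lit 6) (nat_lit 226) (nat_lit 2) (nat_lit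 206) (nat_lit 216) (nat_lit 178))))) (PT.nd (nat_lit 312) (PT.nd (nat_lit 156) (PT.nd (nat_lit 78) (PT.lf (nat_lit 16644) (nat_lit 6) (nat_lit 219) (nat_lit 2) (nat_lit 207) (nat_lit 216) (nat_lit 177)) (PT.lf (nat_lit 16112) (nat_lit 6) (nat_lit 212) (nat_lit 2) (nat_lit 208) (nat_lit 216) (nat_lit 176))) (PT.nd (nat_lit 78) (PT.lf (nat_lit 15656) (nat_lit 6) (nat_lit 206) (nat_lit 2) (nat_lit 209) (nat_lit 216) (nat_lit 175)) (PT.lf (nat_lit 15200) (nat_lit 6) (nat_lit 200) (nat_lit 2) (nat_lit 210) (nat_lit 216) (nat_lit 174)))) (PT.nd (nat_lit 156) (PT.nd (nat_lit 78) (PT.lf (nat_lit 14744) (nat_lit 6) (nat_lit 194) (nat_lit 2) (nat_lit 211) (nat_lit 216) (nat_lit 173)) (PT.lf (nat_lit 14288) (nat_lit 6) (nat_lit 188) (nat_lit 2) (nat_lit 212) (nat_lit 216) (nat_lit 172))) (PT.nd (nat_lit 78) (PT.lf (nat_lit 13908) (nat_lit 6) (nat_lit 183) (nat_lit 2) (nat_lit 213) (nat_lit 216) (nat_lit 171))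 (PT.lf (nat_lit 13528) (nat_lit 6) (nat_lit 178) (nat_lit 2) (nat_lit 214) (nat_lit 216) (nat_lit 170)))))) (PT.nd (nat_lit 624) (PT.nd (nat_lit 312) (PT.nd (nat_lit 156) (PT.nd (nat_lit 78) (PT.lf (nat_lit 13148) (nat_lit 6) (nat_lit 173) (nat_lit 2) (nat_lit 215) (nat_lit 216) (nat_lit 169)) (PT.lf (nat_lit 12768) (nat_lit 3) (nat_lit 168) (nat_lit 0) (nat_lit 216) (nat_lit 216) (nat_lit 168))) (PT.nd (nat_lit 78) (PT.lf (nat_lit 12388) (nat_lit 6) (nat_lit 163) (nat_lit 0) (nat_lit 217) (nat_lit 216) (nat_lit 167)) (PT.lf (nat_lit 11932) (nat_lit 6) (nat_lit 157) (nat_lit 0) (nat_lit 218) (nat_lit 216) (nat_lit 166)))) (PT.nd (nat_lit 156) (PT.nd (nat_lit 78) (PT.lf (nat_lit 11552) (nat_lit 6) (nat_lit 152) (nat_lit 0) (nat_lit 219) (nat_lit 216) (nat_lit 165)) (PT.lf (nat_lit 11172) (nat_lit 6) (nat_lit 147) (nat_lit 0) (nat_lit 220) (nat_lit 216) (nat_lit 164))) (PT.nd (nat_lit 78) (PT.lf (nat_lit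 10792) (nat_lit 6) (nat_lit 142) (nat_lit 0) (nat_lit 221) (nat_lit 216) (nat_lit 163)) (PT.lf (nat_lit 10412) (nat_lit 6) (nat_lit 137) (nat_lit 0) (nat_lit 222) (nat_lit 216) (nat_lit 162))))) (PT.nd (nat_lit 57798) (PT.nd (nat_lit 57642) (PT.nd (nat_lit 57564) (PT.lf (nat_lit 10108) (nat_lit 6) (nat_lit 133) (nat_lit 0) (nat_lit 223) (nat_lit 216) (nat_lit 161)) (PT.lf (nat_lit 9804) (nat_lit 6) (nat_lit 129) (nat_lit 5) (nat_lit 160) (nat_lit 217) (nat_lit 223))) (PT.nd (nat_lit 78) (PT.lf (nat_lit 10184) (nat_lit 6) (nat_lit 134) (nat_lit 5) (nat_lit 161) (nat_lit 217) (nat_lit 222)) (PT.lf (nat_lit 10488) (nat_lit 6) (nat_lit 138) (nat_lit 5) (nat_lit 162) (nat_lit 217) (nat_lit 221)))) (PT.nd (nat_lit 156) (PT.nd (nat_lit 78) (PT.lf (nat_lit 10868) (nat_lit 6) (nat_lit 143) (nat_lit 5) (nat_lit 163) (nat_lit 217) (nat_lit 220)) (PT.lf (nat_lit 11248) (nat_lit 6) (nat_lit 148) (nat_lit 5) (nat_lit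 164) (nat_lit 217) (nat_lit 219))) (PT.nd (nat_lit 78) (PT.lf (nat_lit 11628) (nat_lit 6) (nat_lit 153) (nat_lit 5) (nat_lit 165) (nat_lit 217) (nat_lit 218)) (PT.lf (nat_lit 12008) (nat_lit 3) (nat_lit 158) (nat_lit 4) (nat_lit 166) (nat_lit 217) (nat_lit 217))))))) (PT.nd (nat_lit 1248) (PT.nd (nat_lit 624) (PT.nd (nat_lit 312) (PT.nd (nat_lit 156) (PT.nd (nat_lit 78) (PT.lf (nat_lit 12388) (nat_lit 6) (nat_lit 163) (nat_lit 4) (nat_lit 167) (nat_lit 217) (nat_lit 216)) (PT.lf (nat_lit 12692) (nat_lit 6) (nat_lit 167) (nat_lit 4) (nat_lit 168) (nat_lit 217) (nat_lit 215))) (PT.nd (nat_lit 78) (PT.lf (nat_lit 13072) (nat_lit 6) (nat_lit 172) (nat_lit 4) (nat_lit 169) (nat_lit 217) (nat_lit 214)) (PT.lf (nat_lit 13452) (nat_lit 6) (nat_lit 177) (nat_lit 4) (nat_lit 170) (nat_lit 217) (nat_lit 213)))) (PT.nd (nat_lit 156) (PT.nd (nat_lit 78) (PT.lf (nat_lit 13832) (nat_lit 6) (nat_lit 182) (nat_lit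 4) (nat_lit 171) (nat_lit 217) (nat_lit 212)) (PT.lf (nat_lit 14212) (nat_lit 6) (nat_lit 187) (nat_lit 4) (nat_lit 172) (nat_lit 217) (nat_lit 211))) (PT.nd (nat_lit 78) (PT.lf (nat_lit 14668) (nat_lit 6) (nat_lit 193) (nat_lit 4) (nat_lit 173) (nat_lit 217) (nat_lit 210)) (PT.lf (nat_lit 15124) (nat_lit 6) (nat_lit 199) (nat_lit 4) (nat_lit 174) (nat_lit 217) (nat_lit 209))))) (PT.nd (nat_lit 312) (PT.nd (nat_lit 156) (PT.nd (nat_lit 78) (PT.lf (nat_lit 15580) (nat_lit 6) (nat_lit 205) (nat_lit 4) (nat_lit 175) (nat_lit 217) (nat_lit 208)) (PT.lf (nat_lit 16036) (nat_lit 6) (nat_lit 211) (nat_lit 4) (nat_lit 176) (nat_lit 217) (nat_lit 207))) (PT.nd (nat_lit 78) (PT.lf (nat_lit 16568) (nat_lit 6) (nat_lit 218) (nat_lit 4) (nat_lit 177) (nat_lit 217) (nat_lit 206)) (PT.lf (nat_lit 17100) (nat_lit 6) (nat_lit 225) (nat_lit 4) (nat_lit 178) (nat_lit 217) (nat_lit 205)))) (PT.nd (nat_lit 156) (PT.nd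 (nat_lit 78) (PT.lf (nat_lit 17632) (nat_lit 6) (nat_lit 232) (nat_lit 4) (nat_lit 179) (nat_lit 217) (nat_lit 204)) (PT.lf (nat_lit 18164) (nat_lit 6) (nat_lit 239) (nat_lit 4) (nat_lit 180) (nat_lit 217) (nat_lit 203))) (PT.nd (nat_lit 78) (PT.lf (nat_lit 18772) (nat_lit 6) (nat_lit 247) (nat_lit 4) (nat_lit 181) (nat_lit 217) (nat_lit 202)) (PT.lf (nat_lit 19380) (nat_lit 6) (nat_lit 255) (nat_lit 4) (nat_lit 182) (nat_lit 217) (nat_lit 201)))))) (PT.nd (nat_lit 1872) (PT.nd (nat_lit 1560) (PT.nd (nat_lit 1404) (PT.nd (nat_lit 1326) (PT.lf (nat_lit 20140) (nat_lit 6) (nat_lit 265) (nat_lit 4) (nat_lit 183) (nat_lit 217) (nat_lit 200)) (PT.lf (nat_lit 20140) (nat_lit 6) (nat_lit 265) (nat_lit 2) (nat_lit 200) (nat_lit 217) (nat_lit 183))) (PT.nd (nat_lit 78) (PT.lf (nat_lit 19380) (nat_lit 6) (nat_lit 255) (nat_lit 2) (nat_lit 201) (nat_lit 217) (nat_lit 182)) (PT.lf (nat_lit 18772) (nat_lit 6) (nat_lit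 247) (nat_lit 2) (nat_lit 202) (nat_lit 217) (nat_lit 181)))) (PT.nd (nat_lit 156) (PT.nd (nat_lit 78) (PT.lf (nat_lit 18164) (nat_lit 6) (nat_lit 239) (nat_lit 2) (nat_lit 203) (nat_lit 217) (nat_lit 180)) (PT.lf (nat_lit 17632) (nat_lit 6) (nat_lit 232) (nat_lit 2) (nat_lit 204) (nat_lit 217) (nat_lit 179))) (PT.nd (nat_lit 78) (PT.lf (nat_lit 17100) (nat_lit 6) (nat_lit 225) (nat_lit 2) (nat_lit 205) (nat_lit 217) (nat_lit 178)) (PT.lf (nat_lit 16568) (nat_lit 6) (nat_lit 218) (nat_lit 2) (nat_lit 206) (nat_lit 217) (nat_lit 177))))) (PT.nd (nat_lit 312) (PT.nd (nat_lit 156) (PT.nd (nat_lit 78) (PT.lf (nat_lit 16036) (nat_lit 6) (nat_lit 211) (nat_lit 2) (nat_lit 207) (nat_lit 217) (nat_lit 176)) (PT.lf (nat_lit 15580) (nat_lit 6) (nat_lit 205) (nat_lit 2) (nat_lit 208) (nat_lit 217) (nat_lit 175))) (PT.nd (nat_lit 78) (PT.lf (nat_lit 15124) (nat_lit 6) (nat_lit 199) (nat_lit 2) (nat_lit 209) (nat_lit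 217) (nat_lit 174)) (PT.lf (nat_lit 14668) (nat_lit 6) (nat_lit 193) (nat_lit 2) (nat_lit 210) (nat_lit 217) (nat_lit 173)))) (PT.nd (nat_lit 156) (PT.nd (nat_lit 78) (PT.lf (nat_lit 14212) (nat_lit 6) (nat_lit 187) (nat_lit 2) (nat_lit 211) (nat_lit 217) (nat_lit 172)) (PT.lf (nat_lit 13832) (nat_lit 6) (nat_lit 182) (nat_lit 2) (nat_lit 212) (nat_lit 217) (nat_lit 171))) (PT.nd (nat_lit 78) (PT.lf (nat_lit 13452) (nat_lit 6) (nat_lit 177) (nat_lit 2) (nat_lit 213) (nat_lit 217) (nat_lit 170)) (PT.lf (nat_lit 13072) (nat_lit 6) (nat_lit 172) (nat_lit 2) (nat_lit 214) (nat_lit 217) (nat_lit 169))))))))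
noncomputable def pc26 : PT := (PT.nd (nat_lit 61698) (PT.nd (nat_lit 58500) (PT.nd (nat_lit 546) (PT.nd (nat_lit 234) (PT.nd (nat_lit 78) (PT.lf (nat_lit 12692) (nat_lit 6) (nat_lit 167) (nat_lit 2) (nat_lit 215) (nat_lit 217) (nat_lit 168)) (PT.nd (nat_lit 78) (PT.lf (nat_lit 12388) (nat_lit 6) (nat_lit 163) (nat_lit 2) (nat_lit 216) (nat_lit 217) (nat_lit 167)) (PT.lf (nat_lit 12008) (nat_lit 3) (nat_lit 158) (nat_lit 0) (nat_lit 217) (nat_lit 217) (nat_lit 166)))) (PT.nd (nat_lit 156) (PT.nd (nat_lit 78) (PT.lf (nat_lit 11628) (nat_lit 6) (nat_lit 153) (nat_lit 0) (nat_lit 218) (nat_lit 217) (nat_lit 165)) (PT.lf (nat_lit 11248) (nat_lit 6) (nat_lit 148) (nat_lit 0) (nat_lit 219) (nat_lit 217) (nat_lit 164))) (PT.nd (nat_lit 78) (PT.lf (nat_lit 10868) (nat_lit 6) (nat_lit 143) (nat_lit 0) (nat_lit 220) (nat_lit 217) (nat_lit 163)) (PT.lf (nat_lit 10488) (nat_lit 6) (nat_lit 138) (nat_lit 0) (nat_lit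 221) (nat_lit 217) (nat_lit 162))))) (PT.nd (nat_lit 57642) (PT.nd (nat_lit 57486) (PT.nd (nat_lit 78) (PT.lf (nat_lit 10184) (nat_lit 6) (nat_lit 134) (nat_lit 0) (nat_lit 222) (nat_lit 217) (nat_lit 161)) (PT.lf (nat_lit 9804) (nat_lit 6) (nat_lit 129) (nat_lit 0) (nat_lit 223) (nat_lit 217) (nat_lit 160))) (PT.nd (nat_lit 78) (PT.lf (nat_lit 9196) (nat_lit 6) (nat_lit 121) (nat_lit 5) (nat_lit 158) (nat_lit 218) (nat_lit 224)) (PT.lf (nat_lit 9576) (nat_lit 6) (nat_lit 126) (nat_lit 5) (nat_lit 159) (nat_lit 218) (nat_lit 223)))) (PT.nd (nat_lit 156) (PT.nd (nat_lit 78) (PT.lf (nat_lit 9880) (nat_lit 6) (nat_lit 130) (nat_lit 5) (nat_lit 160) (nat_lit 218) (nat_lit 222)) (PT.lf (nat_lit 10260) (nat_lit 6) (nat_lit 135) (nat_lit 5) (nat_lit 161) (nat_lit 218) (nat_lit 221))) (PT.nd (nat_lit 78) (PT.lf (nat_lit 10564) (nat_lit 6) (nat_lit 139) (nat_lit 5) (nat_lit 162) (nat_lit 218) (nat_lit 220))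 (PT.lf (nat_lit 10944) (nat_lit 6) (nat_lit 144) (nat_lit 5) (nat_lit 163) (nat_lit 218) (nat_lit 219)))))) (PT.nd (nat_lit 624) (PT.nd (nat_lit 312) (PT.nd (nat_lit 156) (PT.nd (nat_lit 78) (PT.lf (nat_lit 11324) (nat_lit 3) (nat_lit 149) (nat_lit 4) (nat_lit 164) (nat_lit 218) (nat_lit 218)) (PT.lf (nat_lit 11628) (nat_lit 6) (nat_lit 153) (nat_lit 4) (nat_lit 165) (nat_lit 218) (nat_lit 217))) (PT.nd (nat_lit 78) (PT.lf (nat_lit 11932) (nat_lit 6) (nat_lit 157) (nat_lit 4) (nat_lit 166) (nat_lit 218) (nat_lit 216)) (PT.lf (nat_lit 12312) (nat_lit 6) (nat_lit 162) (nat_lit 4) (nat_lit 167) (nat_lit 218) (nat_lit 215)))) (PT.nd (nat_lit 156) (PT.nd (nat_lit 78) (PT.lf (nat_lit 12616) (nat_lit 6) (nat_lit 166) (nat_lit 4) (nat_lit 168) (nat_lit 218) (nat_lit 214)) (PT.lf (nat_lit 12996) (nat_lit 6) (nat_lit 171) (nat_lit 4) (nat_lit 169) (nat_lit 218) (nat_lit 213))) (PT.nd (nat_lit 78) (PT.lf (nat_lit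 13376) (nat_lit 6) (nat_lit 176) (nat_lit 4) (nat_lit 170) (nat_lit 218) (nat_lit 212)) (PT.lf (nat_lit 13756) (nat_lit 6) (nat_lit 181) (nat_lit 4) (nat_lit 171) (nat_lit 218) (nat_lit 211))))) (PT.nd (nat_lit 312) (PT.nd (nat_lit 156) (PT.nd (nat_lit 78) (PT.lf (nat_lit 14136) (nat_lit 6) (nat_lit 186) (nat_lit 4) (nat_lit 172) (nat_lit 218) (nat_lit 210)) (PT.lf (nat_lit 14592) (nat_lit 6) (nat_lit 192) (nat_lit 4) (nat_lit 173) (nat_lit 218) (nat_lit 209))) (PT.nd (nat_lit 78) (PT.lf (nat_lit 15048) (nat_lit 6) (nat_lit 198) (nat_lit 4) (nat_lit 174) (nat_lit 218) (nat_lit 208)) (PT.lf (nat_lit 15504) (nat_lit 6) (nat_lit 204) (nat_lit 4) (nat_lit 175) (nat_lit 218) (nat_lit 207)))) (PT.nd (nat_lit 156) (PT.nd (nat_lit 78) (PT.lf (nat_lit 15960) (nat_lit 6) (nat_lit 210) (nat_lit 4) (nat_lit 176) (nat_lit 218) (nat_lit 206)) (PT.lf (nat_lit 16492) (nat_lit 6) (nat_lit 217) (nat_lit 4) (nat_lit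 177) (nat_lit 218) (nat_lit 205))) (PT.nd (nat_lit 2028) (PT.lf (nat_lit 17024) (nat_lit 6) (nat_lit 224) (nat_lit 4) (nat_lit 178) (nat_lit 218) (nat_lit 204)) (PT.lf (nat_lit 17024) (nat_lit 6) (nat_lit 224) (nat_lit 2) (nat_lit 204) (nat_lit 218) (nat_lit 178))))))) (PT.nd (nat_lit 1248) (PT.nd (nat_lit 624) (PT.nd (nat_lit 312) (PT.nd (nat_lit 156) (PT.nd (nat_lit 78) (PT.lf (nat_lit 16492) (nat_lit 6) (nat_lit 217) (nat_lit 2) (nat_lit 205) (nat_lit 218) (nat_lit 177)) (PT.lf (nat_lit 15960) (nat_lit 6) (nat_lit 210) (nat_lit 2) (nat_lit 206) (nat_lit 218) (nat_lit 176))) (PT.nd (nat_lit 78) (PT.lf (nat_lit 15504) (nat_lit 6) (nat_lit 204) (nat_lit 2) (nat_lit 207) (nat_lit 218) (nat_lit 175)) (PT.lf (nat_lit 15048) (nat_lit 6) (nat_lit 198) (nat_lit 2) (nat_lit 208) (nat_lit 218) (nat_lit 174)))) (PT.nd (nat_lit 156) (PT.nd (nat_lit 78) (PT.lf (nat_lit 14592) (nat_lit 6) (nat_lit 192) (nat_lit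 2) (nat_lit 209) (nat_lit 218) (nat_lit 173)) (PT.lf (nat_lit 14136) (nat_lit 6) (nat_lit 186) (nat_lit 2) (nat_lit 210) (nat_lit 218) (nat_lit 172))) (PT.nd (nat_lit 78) (PT.lf (nat_lit 13756) (nat_lit 6) (nat_lit 181) (nat_lit 2) (nat_lit 211) (nat_lit 218) (nat_lit 171)) (PT.lf (nat_lit 13376) (nat_lit 6) (nat_lit 176) (nat_lit 2) (nat_lit 212) (nat_lit 218) (nat_lit 170))))) (PT.nd (nat_lit 312) (PT.nd (nat_lit 156) (PT.nd (nat_lit 78) (PT.lf (nat_lit 12996) (nat_lit 6) (nat_lit 171) (nat_lit 2) (nat_lit 213) (nat_lit 218) (nat_lit 169)) (PT.lf (nat_lit 12616) (nat_lit 6) (nat_lit 166) (nat_lit 2) (nat_lit 214) (nat_lit 218) (nat_lit 168))) (PT.nd (nat_lit 78) (PT.lf (nat_lit 12312) (nat_lit 6) (nat_lit 162) (nat_lit 2) (nat_lit 215) (nat_lit 218) (nat_lit 167)) (PT.lf (nat_lit 11932) (nat_lit 6) (nat_lit 157) (nat_lit 2) (nat_lit 216) (nat_lit 218) (nat_lit 166)))) (PT.nd (nat_lit 156) (PT.nd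 (nat_lit 78) (PT.lf (nat_lit 11628) (nat_lit 6) (nat_lit 153) (nat_lit 2) (nat_lit 217) (nat_lit 218) (nat_lit 165)) (PT.lf (nat_lit 11324) (nat_lit 3) (nat_lit 149) (nat_lit 0) (nat_lit 218) (nat_lit 218) (nat_lit 164))) (PT.nd (nat_lit 78) (PT.lf (nat_lit 10944) (nat_lit 6) (nat_lit 144) (nat_lit 0) (nat_lit 219) (nat_lit 218) (nat_lit 163)) (PT.lf (nat_lit 10564) (nat_lit 6) (nat_lit 139) (nat_lit 0) (nat_lit 220) (nat_lit 218) (nat_lit 162)))))) (PT.nd (nat_lit 57720) (PT.nd (nat_lit 57408) (PT.nd (nat_lit 156) (PT.nd (nat_lit 78) (PT.lf (nat_lit 10260) (nat_lit 6) (nat_lit 135) (nat_lit 0) (nat_lit 221) (nat_lit 218) (nat_lit 161)) (PT.lf (nat_lit 9880) (nat_lit 6) (nat_lit 130) (nat_lit 0) (nat_lit 222) (nat_lit 218) (nat_lit 160))) (PT.nd (nat_lit 78) (PT.lf (nat_lit 9576) (nat_lit 6) (nat_lit 126) (nat_lit 0) (nat_lit 223) (nat_lit 218) (nat_lit 159)) (PT.lf (nat_lit 9196) (nat_lit 6) (nat_lit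 121) (nat_lit 0) (nat_lit 224) (nat_lit 218) (nat_lit 158)))) (PT.nd (nat_lit 156) (PT.nd (nat_lit 78) (PT.lf (nat_lit 8664) (nat_lit 6) (nat_lit 114) (nat_lit 5) (nat_lit 156) (nat_lit 219) (nat_lit 225)) (PT.lf (nat_lit 8968) (nat_lit 6) (nat_lit 118) (nat_lit 5) (nat_lit 157) (nat_lit 219) (nat_lit 224))) (PT.nd (nat_lit 78) (PT.lf (nat_lit 9272) (nat_lit 6) (nat_lit 122) (nat_lit 5) (nat_lit 158) (nat_lit 219) (nat_lit 223)) (PT.lf (nat_lit 9652) (nat_lit 6) (nat_lit 127) (nat_lit 5) (nat_lit 159) (nat_lit 219) (nat_lit 222))))) (PT.nd (nat_lit 312) (PT.nd (nat_lit 156) (PT.nd (nat_lit 78) (PT.lf (nat_lit 9956) (nat_lit 6) (nat_lit 131) (nat_lit 5) (nat_lit 160) (nat_lit 219) (nat_lit 221)) (PT.lf (nat_lit 10336) (nat_lit 6) (nat_lit 136) (nat_lit 5) (nat_lit 161) (nat_lit 219) (nat_lit 220))) (PT.nd (nat_lit 78) (PT.lf (nat_lit 10640) (nat_lit 3) (nat_lit 140) (nat_lit 4) (nat_lit 162) (nat_lit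 219) (nat_lit 219)) (PT.lf (nat_lit 10944) (nat_lit 6) (nat_lit 144) (nat_lit 4) (nat_lit 163) (nat_lit 219) (nat_lit 218)))) (PT.nd (nat_lit 156) (PT.nd (nat_lit 78) (PT.lf (nat_lit 11248) (nat_lit 6) (nat_lit 148) (nat_lit 4) (nat_lit 164) (nat_lit 219) (nat_lit 217)) (PT.lf (nat_lit 11552) (nat_lit 6) (nat_lit 152) (nat_lit 4) (nat_lit 165) (nat_lit 219) (nat_lit 216))) (PT.nd (nat_lit 78) (PT.lf (nat_lit 11856) (nat_lit 6) (nat_lit 156) (nat_lit 4) (nat_lit 166) (nat_lit 219) (nat_lit 215)) (PT.lf (nat_lit 12236) (nat_lit 6) (nat_lit 161) (nat_lit 4) (nat_lit 167) (nat_lit 219) (nat_lit 214))))))))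
noncomputable def pc27 : PT := (PT.nd (nat_lit 61854) (PT.nd (nat_lit 3666) (PT.nd (nat_lit 3042) (PT.nd (nat_lit 234) (PT.nd (nat_lit 78) (PT.lf (nat_lit 12540) (nat_lit 6) (nat_lit 165) (nat_lit 4) (nat_lit 168) (nat_lit 219) (nat_lit 213)) (PT.nd (nat_lit 78) (PT.lf (nat_lit 12920) (nat_lit 6) (nat_lit 170) (nat_lit 4) (nat_lit 169) (nat_lit 219) (nat_lit 212)) (PT.lf (nat_lit 13300) (nat_lit 6) (nat_lit 175) (nat_lit 4) (nat_lit 170) (nat_lit 219) (nat_lit 211)))) (PT.nd (nat_lit 156) (PT.nd (nat_lit 78) (PT.lf (nat_lit 13680) (nat_lit 6) (nat_lit 180) (nat_lit 4) (nat_lit 171) (nat_lit 219) (nat_lit 210)) (PT.lf (nat_lit 14060) (nat_lit 6) (nat_lit 185) (nat_lit 4) (nat_lit 172) (nat_lit 219) (nat_lit 209))) (PT.nd (nat_lit 78) (PT.lf (nat_lit 14516) (nat_lit 6) (nat_lit 191) (nat_lit 4) (nat_lit 173) (nat_lit 219) (nat_lit 208)) (PT.lf (nat_lit 14972) (nat_lit 6) (nat_lit 197) (nat_lit 4) (nat_lit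 174) (nat_lit 219) (nat_lit 207))))) (PT.nd (nat_lit 312) (PT.nd (nat_lit 156) (PT.nd (nat_lit 78) (PT.lf (nat_lit 14972) (nat_lit 6) (nat_lit 197) (nat_lit 2) (nat_lit 207) (nat_lit 219) (nat_lit 174)) (PT.lf (nat_lit 14516) (nat_lit 6) (nat_lit 191) (nat_lit 2) (nat_lit 208) (nat_lit 219) (nat_lit 173))) (PT.nd (nat_lit 78) (PT.lf (nat_lit 14060) (nat_lit 6) (nat_lit 185) (nat_lit 2) (nat_lit 209) (nat_lit 219) (nat_lit 172)) (PT.lf (nat_lit 13680) (nat_lit 6) (nat_lit 180) (nat_lit 2) (nat_lit 210) (nat_lit 219) (nat_lit 171)))) (PT.nd (nat_lit 156) (PT.nd (nat_lit 78) (PT.lf (nat_lit 13300) (nat_lit 6) (nat_lit 175) (nat_lit 2) (nat_lit 211) (nat_lit 219) (nat_lit 170)) (PT.lf (nat_lit 12920) (nat_lit 6) (nat_lit 170) (nat_lit 2) (nat_lit 212) (nat_lit 219) (nat_lit 169))) (PT.nd (nat_lit 78) (PT.lf (nat_lit 12540) (nat_lit 6) (nat_lit 165) (nat_lit 2) (nat_lit 213) (nat_lit 219) (nat_lit 168))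 (PT.lf (nat_lit 12236) (nat_lit 6) (nat_lit 161) (nat_lit 2) (nat_lit 214) (nat_lit 219) (nat_lit 167)))))) (PT.nd (nat_lit 624) (PT.nd (nat_lit 312) (PT.nd (nat_lit 156) (PT.nd (nat_lit 78) (PT.lf (nat_lit 11856) (nat_lit 6) (nat_lit 156) (nat_lit 2) (nat_lit 215) (nat_lit 219) (nat_lit 166)) (PT.lf (nat_lit 11552) (nat_lit 6) (nat_lit 152) (nat_lit 2) (nat_lit 216) (nat_lit 219) (nat_lit 165))) (PT.nd (nat_lit 78) (PT.lf (nat_lit 11248) (nat_lit 6) (nat_lit 148) (nat_lit 2) (nat_lit 217) (nat_lit 219) (nat_lit 164)) (PT.lf (nat_lit 10944) (nat_lit 6) (nat_lit 144) (nat_lit 2) (nat_lit 218) (nat_lit 219) (nat_lit 163)))) (PT.nd (nat_lit 156) (PT.nd (nat_lit 78) (PT.lf (nat_lit 10640) (nat_lit 3) (nat_lit 140) (nat_lit 0) (nat_lit 219) (nat_lit 219) (nat_lit 162)) (PT.lf (nat_lit 10336) (nat_lit 6) (nat_lit 136) (nat_lit 0) (nat_lit 220) (nat_lit 219) (nat_lit 161))) (PT.nd (nat_lit 78) (PT.lf (nat_lit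 9956) (nat_lit 6) (nat_lit 131) (nat_lit 0) (nat_lit 221) (nat_lit 219) (nat_lit 160)) (PT.lf (nat_lit 9652) (nat_lit 6) (nat_lit 127) (nat_lit 0) (nat_lit 222) (nat_lit 219) (nat_lit 159))))) (PT.nd (nat_lit 57252) (PT.nd (nat_lit 156) (PT.nd (nat_lit 78) (PT.lf (nat_lit 9272) (nat_lit 6) (nat_lit 122) (nat_lit 0) (nat_lit 223) (nat_lit 219) (nat_lit 158)) (PT.lf (nat_lit 8968) (nat_lit 6) (nat_lit 118) (nat_lit 0) (nat_lit 224) (nat_lit 219) (nat_lit 157))) (PT.nd (nat_lit 57018) (PT.lf (nat_lit 8664) (nat_lit 6) (nat_lit 114) (nat_lit 0) (nat_lit 225) (nat_lit 219) (nat_lit 156)) (PT.lf (nat_lit 8436) (nat_lit 6) (nat_lit 111) (nat_lit 5) (nat_lit 155) (nat_lit 220) (nat_lit 225)))) (PT.nd (nat_lit 156) (PT.nd (nat_lit 78) (PT.lf (nat_lit 8740) (nat_lit 6) (nat_lit 115) (nat_lit 5) (nat_lit 156) (nat_lit 220) (nat_lit 224)) (PT.lf (nat_lit 9044) (nat_lit 6) (nat_lit 119) (nat_lit 5) (nat_lit 157)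 (nat_lit 220) (nat_lit 223))) (PT.nd (nat_lit 78) (PT.lf (nat_lit 9348) (nat_lit 6) (nat_lit 123) (nat_lit 5) (nat_lit 158) (nat_lit 220) (nat_lit 222)) (PT.lf (nat_lit 9728) (nat_lit 6) (nat_lit 128) (nat_lit 5) (nat_lit 159) (nat_lit 220) (nat_lit 221))))))) (PT.nd (nat_lit 4290) (PT.nd (nat_lit 624) (PT.nd (nat_lit 312) (PT.nd (nat_lit 156) (PT.nd (nat_lit 78) (PT.lf (nat_lit 10032) (nat_lit 3) (nat_lit 132) (nat_lit 4) (nat_lit 160) (nat_lit 220) (nat_lit 220)) (PT.lf (nat_lit 10336) (nat_lit 6) (nat_lit 136) (nat_lit 4) (nat_lit 161) (nat_lit 220) (nat_lit 219))) (PT.nd (nat_lit 78) (PT.lf (nat_lit 10564) (nat_lit 6) (nat_lit 139) (nat_lit 4) (nat_lit 162) (nat_lit 220) (nat_lit 218)) (PT.lf (nat_lit 10868) (nat_lit 6) (nat_lit 143) (nat_lit 4) (nat_lit 163) (nat_lit 220) (nat_lit 217)))) (PT.nd (nat_lit 156) (PT.nd (nat_lit 78) (PT.lf (nat_lit 11172) (nat_lit 6) (nat_lit 147) (nat_lit 4) (nat_lit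 164) (nat_lit 220) (nat_lit 216)) (PT.lf (nat_lit 11476) (nat_lit 6) (nat_lit 151) (nat_lit 4) (nat_lit 165) (nat_lit 220) (nat_lit 215))) (PT.nd (nat_lit 78) (PT.lf (nat_lit 11780) (nat_lit 6) (nat_lit 155) (nat_lit 4) (nat_lit 166) (nat_lit 220) (nat_lit 214)) (PT.lf (nat_lit 12160) (nat_lit 6) (nat_lit 160) (nat_lit 4) (nat_lit 167) (nat_lit 220) (nat_lit 213))))) (PT.nd (nat_lit 3354) (PT.nd (nat_lit 156) (PT.nd (nat_lit 78) (PT.lf (nat_lit 12464) (nat_lit 6) (nat_lit 164) (nat_lit 4) (nat_lit 168) (nat_lit 220) (nat_lit 212)) (PT.lf (nat_lit 12844) (nat_lit 6) (nat_lit 169) (nat_lit 4) (nat_lit 169) (nat_lit 220) (nat_lit 211))) (PT.nd (nat_lit 3120) (PT.lf (nat_lit 13224) (nat_lit 6) (nat_lit 174) (nat_lit 4) (nat_lit 170) (nat_lit 220) (nat_lit 210)) (PT.lf (nat_lit 13224) (nat_lit 6) (nat_lit 174) (nat_lit 2) (nat_lit 210) (nat_lit 220) (nat_lit 170)))) (PT.nd (nat_lit 156) (PT.nd (nat_lit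 78) (PT.lf (nat_lit 12844) (nat_lit 6) (nat_lit 169) (nat_lit 2) (nat_lit 211) (nat_lit 220) (nat_lit 169)) (PT.lf (nat_lit 12464) (nat_lit 6) (nat_lit 164) (nat_lit 2) (nat_lit 212) (nat_lit 220) (nat_lit 168))) (PT.nd (nat_lit 78) (PT.lf (nat_lit 12160) (nat_lit 6) (nat_lit 160) (nat_lit 2) (nat_lit 213) (nat_lit 220) (nat_lit 167)) (PT.lf (nat_lit 11780) (nat_lit 6) (nat_lit 155) (nat_lit 2) (nat_lit 214) (nat_lit 220) (nat_lit 166)))))) (PT.nd (nat_lit 624) (PT.nd (nat_lit 312) (PT.nd (nat_lit 156) (PT.nd (nat_lit 78) (PT.lf (nat_lit 11476) (nat_lit 6) (nat_lit 151) (nat_lit 2) (nat_lit 215) (nat_lit 220) (nat_lit 165)) (PT.lf (nat_lit 11172) (nat_lit 6) (nat_lit 147) (nat_lit 2) (nat_lit 216) (nat_lit 220) (nat_lit 164))) (PT.nd (nat_lit 78) (PT.lf (nat_lit 10868) (nat_lit 6) (nat_lit 143) (nat_lit 2) (nat_lit 217) (nat_lit 220) (nat_lit 163)) (PT.lf (nat_lit 10564) (nat_lit 6) (nat_lit 139) (nat_lit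 2) (nat_lit 218) (nat_lit 220) (nat_lit 162)))) (PT.nd (nat_lit 156) (PT.nd (nat_lit 78) (PT.lf (nat_lit 10336) (nat_lit 6) (nat_lit 136) (nat_lit 2) (nat_lit 219) (nat_lit 220) (nat_lit 161)) (PT.lf (nat_lit 10032) (nat_lit 3) (nat_lit 132) (nat_lit 0) (nat_lit 220) (nat_lit 220) (nat_lit 160))) (PT.nd (nat_lit 78) (PT.lf (nat_lit 9728) (nat_lit 6) (nat_lit 128) (nat_lit 0) (nat_lit 221) (nat_lit 220) (nat_lit 159)) (PT.lf (nat_lit 9348) (nat_lit 6) (nat_lit 123) (nat_lit 0) (nat_lit 222) (nat_lit 220) (nat_lit 158))))) (PT.nd (nat_lit 57096) (PT.nd (nat_lit 156) (PT.nd (nat_lit 78) (PT.lf (nat_lit 9044) (nat_lit 6) (nat_lit 119) (nat_lit 0) (nat_lit 223) (nat_lit 220) (nat_lit 157)) (PT.lf (nat_lit 8740) (nat_lit 6) (nat_lit 115) (nat_lit 0) (nat_lit 224) (nat_lit 220) (nat_lit 156))) (PT.nd (nat_lit 56862) (PT.lf (nat_lit 8436) (nat_lit 6) (nat_lit 111) (nat_lit 0) (nat_lit 225) (nat_lit 220) (nat_lit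 155)) (PT.lf (nat_lit 7980) (nat_lit 6) (nat_lit 105) (nat_lit 5) (nat_lit 153) (nat_lit 221) (nat_lit 226)))) (PT.nd (nat_lit 156) (PT.nd (nat_lit 78) (PT.lf (nat_lit 8208) (nat_lit 6) (nat_lit 108) (nat_lit 5) (nat_lit 154) (nat_lit 221) (nat_lit 225)) (PT.lf (nat_lit 8512) (nat_lit 6) (nat_lit 112) (nat_lit 5) (nat_lit 155) (nat_lit 221) (nat_lit 224))) (PT.nd (nat_lit 78) (PT.lf (nat_lit 8816) (nat_lit 6) (nat_lit 116) (nat_lit 5) (nat_lit 156) (nat_lit 221) (nat_lit 223)) (PT.lf (nat_lit 9120) (nat_lit 6) (nat_lit 120) (nat_lit 5) (nat_lit 157) (nat_lit 221) (nat_lit 222))))))))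
noncomputable def pc28 : PT := (PT.nd (nat_lit 62400) (PT.nd (nat_lit 4602) (PT.nd (nat_lit 546) (PT.nd (nat_lit 234) (PT.nd (nat_lit 78) (PT.lf (nat_lit 9424) (nat_lit 3) (nat_lit 124) (nat_lit 4) (nat_lit 158) (nat_lit 221) (nat_lit 221)) (PT.nd (nat_lit 78) (PT.lf (nat_lit 9728) (nat_lit 6) (nat_lit 128) (nat_lit 4) (nat_lit 159) (nat_lit 221) (nat_lit 220)) (PT.lf (nat_lit 9956) (nat_lit 6) (nat_lit 131) (nat_lit 4) (nat_lit 160) (nat_lit 221) (nat_lit 219)))) (PT.nd (nat_lit 156) (PT.nd (nat_lit 78) (PT.lf (nat_lit 10260) (nat_lit 6) (nat_lit 135) (nat_lit 4) (nat_lit 161) (nat_lit 221) (nat_lit 218)) (PT.lf (nat_lit 10488) (nat_lit 6) (nat_lit 138) (nat_lit 4) (nat_lit 162) (nat_lit 221) (nat_lit 217))) (PT.nd (nat_lit 78) (PT.lf (nat_lit 10792) (nat_lit 6) (nat_lit 142) (nat_lit 4) (nat_lit 163) (nat_lit 221) (nat_lit 216)) (PT.lf (nat_lit 11096) (nat_lit 6) (nat_lit 146) (nat_lit 4) (nat_lit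 164) (nat_lit 221) (nat_lit 215))))) (PT.nd (nat_lit 3744) (PT.nd (nat_lit 156) (PT.nd (nat_lit 78) (PT.lf (nat_lit 11400) (nat_lit 6) (nat_lit 150) (nat_lit 4) (nat_lit 165) (nat_lit 221) (nat_lit 214)) (PT.lf (nat_lit 11704) (nat_lit 6) (nat_lit 154) (nat_lit 4) (nat_lit 166) (nat_lit 221) (nat_lit 213))) (PT.nd (nat_lit 3510) (PT.lf (nat_lit 12084) (nat_lit 6) (nat_lit 159) (nat_lit 4) (nat_lit 167) (nat_lit 221) (nat_lit 212)) (PT.lf (nat_lit 12084) (nat_lit 6) (nat_lit 159) (nat_lit 2) (nat_lit 212) (nat_lit 221) (nat_lit 167)))) (PT.nd (nat_lit 156) (PT.nd (nat_lit 78) (PT.lf (nat_lit 11704) (nat_lit 6) (nat_lit 154) (nat_lit 2) (nat_lit 213) (nat_lit 221) (nat_lit 166)) (PT.lf (nat_lit 11400) (nat_lit 6) (nat_lit 150) (nat_lit 2) (nat_lit 214) (nat_lit 221) (nat_lit 165))) (PT.nd (nat_lit 78) (PT.lf (nat_lit 11096) (nat_lit 6) (nat_lit 146) (nat_lit 2) (nat_lit 215) (nat_lit 221) (nat_lit 164))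 (PT.lf (nat_lit 10792) (nat_lit 6) (nat_lit 142) (nat_lit 2) (nat_lit 216) (nat_lit 221) (nat_lit 163)))))) (PT.nd (nat_lit 624) (PT.nd (nat_lit 312) (PT.nd (nat_lit 156) (PT.nd (nat_lit 78) (PT.lf (nat_lit 10488) (nat_lit 6) (nat_lit 138) (nat_lit 2) (nat_lit 217) (nat_lit 221) (nat_lit 162)) (PT.lf (nat_lit 10260) (nat_lit 6) (nat_lit 135) (nat_lit 2) (nat_lit 218) (nat_lit 221) (nat_lit 161))) (PT.nd (nat_lit 78) (PT.lf (nat_lit 9956) (nat_lit 6) (nat_lit 131) (nat_lit 2) (nat_lit 219) (nat_lit 221) (nat_lit 160)) (PT.lf (nat_lit 9728) (nat_lit 6) (nat_lit 128) (nat_lit 2) (nat_lit 220) (nat_lit 221) (nat_lit 159)))) (PT.nd (nat_lit 156) (PT.nd (nat_lit 78) (PT.lf (nat_lit 9424) (nat_lit 3) (nat_lit 124) (nat_lit 0) (nat_lit 221) (nat_lit 221) (nat_lit 158)) (PT.lf (nat_lit 9120) (nat_lit 6) (nat_lit 120) (nat_lit 0) (nat_lit 222) (nat_lit 221) (nat_lit 157))) (PT.nd (nat_lit 78) (PT.lf (nat_lit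 8816) (nat_lit 6) (nat_lit 116) (nat_lit 0) (nat_lit 223) (nat_lit 221) (nat_lit 156)) (PT.lf (nat_lit 8512) (nat_lit 6) (nat_lit 112) (nat_lit 0) (nat_lit 224) (nat_lit 221) (nat_lit 155))))) (PT.nd (nat_lit 56862) (PT.nd (nat_lit 56706) (PT.nd (nat_lit 78) (PT.lf (nat_lit 8208) (nat_lit 6) (nat_lit 108) (nat_lit 0) (nat_lit 225) (nat_lit 221) (nat_lit 154)) (PT.lf (nat_lit 7980) (nat_lit 6) (nat_lit 105) (nat_lit 0) (nat_lit 226) (nat_lit 221) (nat_lit 153))) (PT.nd (nat_lit 78) (PT.lf (nat_lit 7524) (nat_lit 6) (nat_lit 99) (nat_lit 5) (nat_lit 151) (nat_lit 222) (nat_lit 227)) (PT.lf (nat_lit 7752) (nat_lit 6) (nat_lit 102) (nat_lit 5) (nat_lit 152) (nat_lit 222) (nat_lit 226)))) (PT.nd (nat_lit 156) (PT.nd (nat_lit 78) (PT.lf (nat_lit 8056) (nat_lit 6) (nat_lit 106) (nat_lit 5) (nat_lit 153) (nat_lit 222) (nat_lit 225)) (PT.lf (nat_lit 8284) (nat_lit 6) (nat_lit 109) (nat_lit 5) (nat_lit 154)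 (nat_lit 222) (nat_lit 224))) (PT.nd (nat_lit 78) (PT.lf (nat_lit 8588) (nat_lit 6) (nat_lit 113) (nat_lit 5) (nat_lit 155) (nat_lit 222) (nat_lit 223)) (PT.lf (nat_lit 8892) (nat_lit 3) (nat_lit 117) (nat_lit 4) (nat_lit 156) (nat_lit 222) (nat_lit 222))))))) (PT.nd (nat_lit 5070) (PT.nd (nat_lit 4446) (PT.nd (nat_lit 312) (PT.nd (nat_lit 156) (PT.nd (nat_lit 78) (PT.lf (nat_lit 9120) (nat_lit 6) (nat_lit 120) (nat_lit 4) (nat_lit 157) (nat_lit 222) (nat_lit 221)) (PT.lf (nat_lit 9348) (nat_lit 6) (nat_lit 123) (nat_lit 4) (nat_lit 158) (nat_lit 222) (nat_lit 220))) (PT.nd (nat_lit 78) (PT.lf (nat_lit 9652) (nat_lit 6) (nat_lit 127) (nat_lit 4) (nat_lit 159) (nat_lit 222) (nat_lit 219)) (PT.lf (nat_lit 9880) (nat_lit 6) (nat_lit 130) (nat_lit 4) (nat_lit 160) (nat_lit 222) (nat_lit 218)))) (PT.nd (nat_lit 156) (PT.nd (nat_lit 78) (PT.lf (nat_lit 10184) (nat_lit 6) (nat_lit 134) (nat_lit 4) (nat_lit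 161) (nat_lit 222) (nat_lit 217)) (PT.lf (nat_lit 10412) (nat_lit 6) (nat_lit 137) (nat_lit 4) (nat_lit 162) (nat_lit 222) (nat_lit 216))) (PT.nd (nat_lit 78) (PT.lf (nat_lit 10716) (nat_lit 6) (nat_lit 141) (nat_lit 4) (nat_lit 163) (nat_lit 222) (nat_lit 215)) (PT.lf (nat_lit 11020) (nat_lit 6) (nat_lit 145) (nat_lit 4) (nat_lit 164) (nat_lit 222) (nat_lit 214))))) (PT.nd (nat_lit 312) (PT.nd (nat_lit 156) (PT.nd (nat_lit 78) (PT.lf (nat_lit 11020) (nat_lit 6) (nat_lit 145) (nat_lit 2) (nat_lit 214) (nat_lit 222) (nat_lit 164)) (PT.lf (nat_lit 10716) (nat_lit 6) (nat_lit 141) (nat_lit 2) (nat_lit 215) (nat_lit 222) (nat_lit 163))) (PT.nd (nat_lit 78) (PT.lf (nat_lit 10412) (nat_lit 6) (nat_lit 137) (nat_lit 2) (nat_lit 216) (nat_lit 222) (nat_lit 162)) (PT.lf (nat_lit 10184) (nat_lit 6) (nat_lit 134) (nat_lit 2) (nat_lit 217) (nat_lit 222) (nat_lit 161)))) (PT.nd (nat_lit 156) (PT.nd (nat_lit 78)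 (PT.lf (nat_lit 9880) (nat_lit 6) (nat_lit 130) (nat_lit 2) (nat_lit 218) (nat_lit 222) (nat_lit 160)) (PT.lf (nat_lit 9652) (nat_lit 6) (nat_lit 127) (nat_lit 2) (nat_lit 219) (nat_lit 222) (nat_lit 159))) (PT.nd (nat_lit 78) (PT.lf (nat_lit 9348) (nat_lit 6) (nat_lit 123) (nat_lit 2) (nat_lit 220) (nat_lit 222) (nat_lit 158)) (PT.lf (nat_lit 9120) (nat_lit 6) (nat_lit 120) (nat_lit 2) (nat_lit 221) (nat_lit 222) (nat_lit 157)))))) (PT.nd (nat_lit 57018) (PT.nd (nat_lit 312) (PT.nd (nat_lit 156) (PT.nd (nat_lit 78) (PT.lf (nat_lit 8892) (nat_lit 3) (nat_lit 117) (nat_lit 0) (nat_lit 222) (nat_lit 222) (nat_lit 156)) (PT.lf (nat_lit 8588) (nat_lit 6) (nat_lit 113) (nat_lit 0) (nat_lit 223) (nat_lit 222) (nat_lit 155))) (PT.nd (nat_lit 78) (PT.lf (nat_lit 8284) (nat_lit 6) (nat_lit 109) (nat_lit 0) (nat_lit 224) (nat_lit 222) (nat_lit 154)) (PT.lf (nat_lit 8056) (nat_lit 6) (nat_lit 106) (nat_lit 0)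 (nat_lit 225) (nat_lit 222) (nat_lit 153)))) (PT.nd (nat_lit 56550) (PT.nd (nat_lit 78) (PT.lf (nat_lit 7752) (nat_lit 6) (nat_lit 102) (nat_lit 0) (nat_lit 226) (nat_lit 222) (nat_lit 152)) (PT.lf (nat_lit 7524) (nat_lit 6) (nat_lit 99) (nat_lit 0) (nat_lit 227) (nat_lit 222) (nat_lit 151))) (PT.nd (nat_lit 78) (PT.lf (nat_lit 7296) (nat_lit 6) (nat_lit 96) (nat_lit 5) (nat_lit 150) (nat_lit 223) (nat_lit 227)) (PT.lf (nat_lit 7600) (nat_lit 6) (nat_lit 100) (nat_lit 5) (nat_lit 151) (nat_lit 223) (nat_lit 226))))) (PT.nd (nat_lit 312) (PT.nd (nat_lit 156) (PT.nd (nat_lit 78) (PT.lf (nat_lit 7828) (nat_lit 6) (nat_lit 103) (nat_lit 5) (nat_lit 152) (nat_lit 223) (nat_lit 225)) (PT.lf (nat_lit 8132) (nat_lit 6) (nat_lit 107) (nat_lit 5) (nat_lit 153) (nat_lit 223) (nat_lit 224))) (PT.nd (nat_lit 78) (PT.lf (nat_lit 8360) (nat_lit 3) (nat_lit 110) (nat_lit 4) (nat_lit 154) (nat_lit 223) (nat_lit 223))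 (PT.lf (nat_lit 8588) (nat_lit 6) (nat_lit 113) (nat_lit 4) (nat_lit 155) (nat_lit 223) (nat_lit 222)))) (PT.nd (nat_lit 156) (PT.nd (nat_lit 78) (PT.lf (nat_lit 8816) (nat_lit 6) (nat_lit 116) (nat_lit 4) (nat_lit 156) (nat_lit 223) (nat_lit 221)) (PT.lf (nat_lit 9044) (nat_lit 6) (nat_lit 119) (nat_lit 4) (nat_lit 157) (nat_lit 223) (nat_lit 220))) (PT.nd (nat_lit 78) (PT.lf (nat_lit 9272) (nat_lit 6) (nat_lit 122) (nat_lit 4) (nat_lit 158) (nat_lit 223) (nat_lit 219)) (PT.lf (nat_lit 9576) (nat_lit 6) (nat_lit 126) (nat_lit 4) (nat_lit 159) (nat_lit 223) (nat_lit 218))))))))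
noncomputable def pc29 : PT := (PT.nd (nat_lit 67470) (PT.nd (nat_lit 61620) (PT.nd (nat_lit 4758) (PT.nd (nat_lit 4446) (PT.nd (nat_lit 78) (PT.lf (nat_lit 9804) (nat_lit 6) (nat_lit 129) (nat_lit 4) (nat_lit 160) (nat_lit 223) (nat_lit 217)) (PT.nd (nat_lit 4290) (PT.lf (nat_lit 10108) (nat_lit 6) (nat_lit 133) (nat_lit 4) (nat_lit 161) (nat_lit 223) (nat_lit 216)) (PT.lf (nat_lit 10108) (nat_lit 6) (nat_lit 133) (nat_lit 2) (nat_lit 216) (nat_lit 223) (nat_lit 161)))) (PT.nd (nat_lit 156) (PT.nd (nat_lit 78) (PT.lf (nat_lit 9804) (nat_lit 6) (nat_lit 129) (nat_lit 2) (nat_lit 217) (nat_lit 223) (nat_lit 160)) (PT.lf (nat_lit 9576) (nat_lit 6) (nat_lit 126) (nat_lit 2) (nat_lit 218) (nat_lit 223) (nat_lit 159))) (PT.nd (nat_lit 78) (PT.lf (nat_lit 9272) (nat_lit 6) (nat_lit 122) (nat_lit 2) (nat_lit 219) (nat_lit 223) (nat_lit 158)) (PT.lf (nat_lit 9044) (nat_lit 6) (nat_lit 119) (nat_lit 2) (nat_lit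 220) (nat_lit 223) (nat_lit 157))))) (PT.nd (nat_lit 312) (PT.nd (nat_lit 156) (PT.nd (nat_lit 78) (PT.lf (nat_lit 8816) (nat_lit 6) (nat_lit 116) (nat_lit 2) (nat_lit 221) (nat_lit 223) (nat_lit 156)) (PT.lf (nat_lit 8588) (nat_lit 6) (nat_lit 113) (nat_lit 2) (nat_lit 222) (nat_lit 223) (nat_lit 155))) (PT.nd (nat_lit 78) (PT.lf (nat_lit 8360) (nat_lit 3) (nat_lit 110) (nat_lit 0) (nat_lit 223) (nat_lit 223) (nat_lit 154)) (PT.lf (nat_lit 8132) (nat_lit 6) (nat_lit 107) (nat_lit 0) (nat_lit 224) (nat_lit 223) (nat_lit 153)))) (PT.nd (nat_lit 156) (PT.nd (nat_lit 78) (PT.lf (nat_lit 7828) (nat_lit 6) (nat_lit 103) (nat_lit 0) (nat_lit 225) (nat_lit 223) (nat_lit 152)) (PT.lf (nat_lit 7600) (nat_lit 6) (nat_lit 100) (nat_lit 0) (nat_lit 226) (nat_lit 223) (nat_lit 151))) (PT.nd (nat_lit 56316) (PT.lf (nat_lit 7296) (nat_lit 6) (nat_lit 96) (nat_lit 0) (nat_lit 227) (nat_lit 223) (nat_lit 150)) (PT.lf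 (nat_lit 6840) (nat_lit 6) (nat_lit 90) (nat_lit 5) (nat_lit 148) (nat_lit 224) (nat_lit 228)))))) (PT.nd (nat_lit 624) (PT.nd (nat_lit 312) (PT.nd (nat_lit 156) (PT.nd (nat_lit 78) (PT.lf (nat_lit 7144) (nat_lit 6) (nat_lit 94) (nat_lit 5) (nat_lit 149) (nat_lit 224) (nat_lit 227)) (PT.lf (nat_lit 7372) (nat_lit 6) (nat_lit 97) (nat_lit 5) (nat_lit 150) (nat_lit 224) (nat_lit 226))) (PT.nd (nat_lit 78) (PT.lf (nat_lit 7676) (nat_lit 6) (nat_lit 101) (nat_lit 5) (nat_lit 151) (nat_lit 224) (nat_lit 225)) (PT.lf (nat_lit 7904) (nat_lit 3) (nat_lit 104) (nat_lit 4) (nat_lit 152) (nat_lit 224) (nat_lit 224)))) (PT.nd (nat_lit 156) (PT.nd (nat_lit 78) (PT.lf (nat_lit 8132) (nat_lit 6) (nat_lit 107) (nat_lit 4) (nat_lit 153) (nat_lit 224) (nat_lit 223)) (PT.lf (nat_lit 8284) (nat_lit 6) (nat_lit 109) (nat_lit 4) (nat_lit 154) (nat_lit 224) (nat_lit 222))) (PT.nd (nat_lit 78) (PT.lf (nat_lit 8512) (nat_lit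 6) (nat_lit 112) (nat_lit 4) (nat_lit 155) (nat_lit 224) (nat_lit 221)) (PT.lf (nat_lit 8740) (nat_lit 6) (nat_lit 115) (nat_lit 4) (nat_lit 156) (nat_lit 224) (nat_lit 220))))) (PT.nd (nat_lit 4914) (PT.nd (nat_lit 4758) (PT.nd (nat_lit 78) (PT.lf (nat_lit 8968) (nat_lit 6) (nat_lit 118) (nat_lit 4) (nat_lit 157) (nat_lit 224) (nat_lit 219)) (PT.lf (nat_lit 9196) (nat_lit 6) (nat_lit 121) (nat_lit 4) (nat_lit 158) (nat_lit 224) (nat_lit 218))) (PT.nd (nat_lit 78) (PT.lf (nat_lit 9196) (nat_lit 6) (nat_lit 121) (nat_lit 2) (nat_lit 218) (nat_lit 224) (nat_lit 158)) (PT.lf (nat_lit 8968) (nat_lit 6) (nat_lit 118) (nat_lit 2) (nat_lit 219) (nat_lit 224) (nat_lit 157)))) (PT.nd (nat_lit 156) (PT.nd (nat_lit 78) (PT.lf (nat_lit 8740) (nat_lit 6) (nat_lit 115) (nat_lit 2) (nat_lit 220) (nat_lit 224) (nat_lit 156)) (PT.lf (nat_lit 8512) (nat_lit 6) (nat_lit 112) (nat_lit 2) (nat_lit 221) (nat_lit 224) (nat_lit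 155))) (PT.nd (nat_lit 78) (PT.lf (nat_lit 8284) (nat_lit 6) (nat_lit 109) (nat_lit 2) (nat_lit 222) (nat_lit 224) (nat_lit 154)) (PT.lf (nat_lit 8132) (nat_lit 6) (nat_lit 107) (nat_lit 2) (nat_lit 223) (nat_lit 224) (nat_lit 153))))))) (PT.nd (nat_lit 62088) (PT.nd (nat_lit 56628) (PT.nd (nat_lit 312) (PT.nd (nat_lit 156) (PT.nd (nat_lit 78) (PT.lf (nat_lit 7904) (nat_lit 3) (nat_lit 104) (nat_lit 0) (nat_lit 224) (nat_lit 224) (nat_lit 152)) (PT.lf (nat_lit 7676) (nat_lit 6) (nat_lit 101) (nat_lit 0) (nat_lit 225) (nat_lit 224) (nat_lit 151))) (PT.nd (nat_lit 78) (PT.lf (nat_lit 7372) (nat_lit 6) (nat_lit 97) (nat_lit 0) (nat_lit 226) (nat_lit 224) (nat_lit 150)) (PT.lf (nat_lit 7144) (nat_lit 6) (nat_lit 94) (nat_lit 0) (nat_lit 227) (nat_lit 224) (nat_lit 149)))) (PT.nd (nat_lit 56160) (PT.nd (nat_lit 56082) (PT.lf (nat_lit 6840) (nat_lit 6) (nat_lit 90) (nat_lit 0) (nat_lit 228) (nat_lit 224)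 (nat_lit 148)) (PT.lf (nat_lit 6460) (nat_lit 6) (nat_lit 85) (nat_lit 5) (nat_lit 146) (nat_lit 225) (nat_lit 229))) (PT.nd (nat_lit 78) (PT.lf (nat_lit 6688) (nat_lit 6) (nat_lit 88) (nat_lit 5) (nat_lit 147) (nat_lit 225) (nat_lit 228)) (PT.lf (nat_lit 6916) (nat_lit 6) (nat_lit 91) (nat_lit 5) (nat_lit 148) (nat_lit 225) (nat_lit 227))))) (PT.nd (nat_lit 312) (PT.nd (nat_lit 156) (PT.nd (nat_lit 78) (PT.lf (nat_lit 7220) (nat_lit 6) (nat_lit 95) (nat_lit 5) (nat_lit 149) (nat_lit 225) (nat_lit 226)) (PT.lf (nat_lit 7448) (nat_lit 3) (nat_lit 98) (nat_lit 4) (nat_lit 150) (nat_lit 225) (nat_lit 225))) (PT.nd (nat_lit 78) (PT.lf (nat_lit 7676) (nat_lit 6) (nat_lit 101) (nat_lit 4) (nat_lit 151) (nat_lit 225) (nat_lit 224)) (PT.lf (nat_lit 7828) (nat_lit 6) (nat_lit 103) (nat_lit 4) (nat_lit 152) (nat_lit 225) (nat_lit 223)))) (PT.nd (nat_lit 156) (PT.nd (nat_lit 78) (PT.lf (nat_lit 8056) (nat_lit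 6) (nat_lit 106) (nat_lit 4) (nat_lit 153) (nat_lit 225) (nat_lit 222)) (PT.lf (nat_lit 8208) (nat_lit 6) (nat_lit 108) (nat_lit 4) (nat_lit 154) (nat_lit 225) (nat_lit 221))) (PT.nd (nat_lit 78) (PT.lf (nat_lit 8436) (nat_lit 6) (nat_lit 111) (nat_lit 4) (nat_lit 155) (nat_lit 225) (nat_lit 220)) (PT.lf (nat_lit 8664) (nat_lit 6) (nat_lit 114) (nat_lit 4) (nat_lit 156) (nat_lit 225) (nat_lit 219)))))) (PT.nd (nat_lit 624) (PT.nd (nat_lit 312) (PT.nd (nat_lit 156) (PT.nd (nat_lit 78) (PT.lf (nat_lit 8664) (nat_lit 6) (nat_lit 114) (nat_lit 2) (nat_lit 219) (nat_lit 225) (nat_lit 156)) (PT.lf (nat_lit 8436) (nat_lit 6) (nat_lit 111) (nat_lit 2) (nat_lit 220) (nat_lit 225) (nat_lit 155))) (PT.nd (nat_lit 78) (PT.lf (nat_lit 8208) (nat_lit 6) (nat_lit 108) (nat_lit 2) (nat_lit 221) (nat_lit 225) (nat_lit 154)) (PT.lf (nat_lit 8056) (nat_lit 6) (nat_lit 106) (nat_lit 2) (nat_lit 222) (nat_lit 225) (nat_lit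 153)))) (PT.nd (nat_lit 156) (PT.nd (nat_lit 78) (PT.lf (nat_lit 7828) (nat_lit 6) (nat_lit 103) (nat_lit 2) (nat_lit 223) (nat_lit 225) (nat_lit 152)) (PT.lf (nat_lit 7676) (nat_lit 6) (nat_lit 101) (nat_lit 2) (nat_lit 224) (nat_lit 225) (nat_lit 151))) (PT.nd (nat_lit 78) (PT.lf (nat_lit 7448) (nat_lit 3) (nat_lit 98) (nat_lit 0) (nat_lit 225) (nat_lit 225) (nat_lit 150)) (PT.lf (nat_lit 7220) (nat_lit 6) (nat_lit 95) (nat_lit 0) (nat_lit 226) (nat_lit 225) (nat_lit 149))))) (PT.nd (nat_lit 56160) (PT.nd (nat_lit 156) (PT.nd (nat_lit 78) (PT.lf (nat_lit 6916) (nat_lit 6) (nat_lit 91) (nat_lit 0) (nat_lit 227) (nat_lit 225) (nat_lit 148)) (PT.lf (nat_lit 6688) (nat_lit 6) (nat_lit 88) (nat_lit 0) (nat_lit 228) (nat_lit 225) (nat_lit 147))) (PT.nd (nat_lit 55926) (PT.lf (nat_lit 6460) (nat_lit 6) (nat_lit 85) (nat_lit 0) (nat_lit 229) (nat_lit 225) (nat_lit 146)) (PT.lf (nat_lit 6308) (nat_lit 6)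 (nat_lit 83) (nat_lit 5) (nat_lit 145) (nat_lit 226) (nat_lit 229)))) (PT.nd (nat_lit 156) (PT.nd (nat_lit 78) (PT.lf (nat_lit 6536) (nat_lit 6) (nat_lit 86) (nat_lit 5) (nat_lit 146) (nat_lit 226) (nat_lit 228)) (PT.lf (nat_lit 6764) (nat_lit 6) (nat_lit 89) (nat_lit 5) (nat_lit 147) (nat_lit 226) (nat_lit 227))) (PT.nd (nat_lit 78) (PT.lf (nat_lit 6992) (nat_lit 3) (nat_lit 92) (nat_lit 4) (nat_lit 148) (nat_lit 226) (nat_lit 226)) (PT.lf (nat_lit 7220) (nat_lit 6) (nat_lit 95) (nat_lit 4) (nat_lit 149) (nat_lit 226) (nat_lit 225))))))))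
noncomputable def pc30 : PT := (PT.nd (nat_lit 124254) (PT.nd (nat_lit 62088) (PT.nd (nat_lit 5772) (PT.nd (nat_lit 234) (PT.nd (nat_lit 78) (PT.lf (nat_lit 7372) (nat_lit 6) (nat_lit 97) (nat_lit 4) (nat_lit 150) (nat_lit 226) (nat_lit 224)) (PT.nd (nat_lit 78) (PT.lf (nat_lit 7600) (nat_lit 6) (nat_lit 100) (nat_lit 4) (nat_lit 151) (nat_lit 226) (nat_lit 223)) (PT.lf (nat_lit 7752) (nat_lit 6) (nat_lit 102) (nat_lit 4) (nat_lit 152) (nat_lit 226) (nat_lit 222)))) (PT.nd (nat_lit 5382) (PT.nd (nat_lit 5304) (PT.lf (nat_lit 7980) (nat_lit 6) (nat_lit 105) (nat_lit 4) (nat_lit 153) (nat_lit 226) (nat_lit 221)) (PT.lf (nat_lit 7980) (nat_lit 6) (nat_lit 105) (nat_lit 2) (nat_lit 221) (nat_lit 226) (nat_lit 153))) (PT.nd (nat_lit 78) (PT.lf (nat_lit 7752) (nat_lit 6) (nat_lit 102) (nat_lit 2) (nat_lit 222) (nat_lit 226) (nat_lit 152)) (PT.lf (nat_lit 7600) (nat_lit 6) (nat_lit 100) (nat_lit 2) (nat_lit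 223) (nat_lit 226) (nat_lit 151))))) (PT.nd (nat_lit 312) (PT.nd (nat_lit 156) (PT.nd (nat_lit 78) (PT.lf (nat_lit 7372) (nat_lit 6) (nat_lit 97) (nat_lit 2) (nat_lit 224) (nat_lit 226) (nat_lit 150)) (PT.lf (nat_lit 7220) (nat_lit 6) (nat_lit 95) (nat_lit 2) (nat_lit 225) (nat_lit 226) (nat_lit 149))) (PT.nd (nat_lit 78) (PT.lf (nat_lit 6992) (nat_lit 3) (nat_lit 92) (nat_lit 0) (nat_lit 226) (nat_lit 226) (nat_lit 148)) (PT.lf (nat_lit 6764) (nat_lit 6) (nat_lit 89) (nat_lit 0) (nat_lit 227) (nat_lit 226) (nat_lit 147)))) (PT.nd (nat_lit 55848) (PT.nd (nat_lit 78) (PT.lf (nat_lit 6536) (nat_lit 6) (nat_lit 86) (nat_lit 0) (nat_lit 228) (nat_lit 226) (nat_lit 146)) (PT.lf (nat_lit 6308) (nat_lit 6) (nat_lit 83) (nat_lit 0) (nat_lit 229) (nat_lit 226) (nat_lit 145))) (PT.nd (nat_lit 78) (PT.lf (nat_lit 5928) (nat_lit 6) (nat_lit 78) (nat_lit 5) (nat_lit 143) (nat_lit 227) (nat_lit 230)) (PT.lf (nat_lit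 6156) (nat_lit 6) (nat_lit 81) (nat_lit 5) (nat_lit 144) (nat_lit 227) (nat_lit 229)))))) (PT.nd (nat_lit 6084) (PT.nd (nat_lit 312) (PT.nd (nat_lit 156) (PT.nd (nat_lit 78) (PT.lf (nat_lit 6384) (nat_lit 6) (nat_lit 84) (nat_lit 5) (nat_lit 145) (nat_lit 227) (nat_lit 228)) (PT.lf (nat_lit 6612) (nat_lit 3) (nat_lit 87) (nat_lit 4) (nat_lit 146) (nat_lit 227) (nat_lit 227))) (PT.nd (nat_lit 78) (PT.lf (nat_lit 6764) (nat_lit 6) (nat_lit 89) (nat_lit 4) (nat_lit 147) (nat_lit 227) (nat_lit 226)) (PT.lf (nat_lit 6916) (nat_lit 6) (nat_lit 91) (nat_lit 4) (nat_lit 148) (nat_lit 227) (nat_lit 225)))) (PT.nd (nat_lit 156) (PT.nd (nat_lit 78) (PT.lf (nat_lit 7144) (nat_lit 6) (nat_lit 94) (nat_lit 4) (nat_lit 149) (nat_lit 227) (nat_lit 224)) (PT.lf (nat_lit 7296) (nat_lit 6) (nat_lit 96) (nat_lit 4) (nat_lit 150) (nat_lit 227) (nat_lit 223))) (PT.nd (nat_lit 5538) (PT.lf (nat_lit 7524) (nat_lit 6) (nat_lit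 99) (nat_lit 4) (nat_lit 151) (nat_lit 227) (nat_lit 222)) (PT.lf (nat_lit 7524) (nat_lit 6) (nat_lit 99) (nat_lit 2) (nat_lit 222) (nat_lit 227) (nat_lit 151))))) (PT.nd (nat_lit 312) (PT.nd (nat_lit 156) (PT.nd (nat_lit 78) (PT.lf (nat_lit 7296) (nat_lit 6) (nat_lit 96) (nat_lit 2) (nat_lit 223) (nat_lit 227) (nat_lit 150)) (PT.lf (nat_lit 7144) (nat_lit 6) (nat_lit 94) (nat_lit 2) (nat_lit 224) (nat_lit 227) (nat_lit 149))) (PT.nd (nat_lit 78) (PT.lf (nat_lit 6916) (nat_lit 6) (nat_lit 91) (nat_lit 2) (nat_lit 225) (nat_lit 227) (nat_lit 148)) (PT.lf (nat_lit 6764) (nat_lit 6) (nat_lit 89) (nat_lit 2) (nat_lit 226) (nat_lit 227) (nat_lit 147)))) (PT.nd (nat_lit 156) (PT.nd (nat_lit 78) (PT.lf (nat_lit 6612) (nat_lit 3) (nat_lit 87) (nat_lit 0) (nat_lit 227) (nat_lit 227) (nat_lit 146)) (PT.lf (nat_lit 6384) (nat_lit 6) (nat_lit 84) (nat_lit 0) (nat_lit 228) (nat_lit 227) (nat_lit 145))) (PT.nd (nat_lit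 78) (PT.lf (nat_lit 6156) (nat_lit 6) (nat_lit 81) (nat_lit 0) (nat_lit 229) (nat_lit 227) (nat_lit 144)) (PT.lf (nat_lit 5928) (nat_lit 6) (nat_lit 78) (nat_lit 0) (nat_lit 230) (nat_lit 227) (nat_lit 143))))))) (PT.nd (nat_lit 62322) (PT.nd (nat_lit 6474) (PT.nd (nat_lit 312) (PT.nd (nat_lit 156) (PT.nd (nat_lit 78) (PT.lf (nat_lit 5548) (nat_lit 6) (nat_lit 73) (nat_lit 5) (nat_lit 141) (nat_lit 228) (nat_lit 231)) (PT.lf (nat_lit 5776) (nat_lit 6) (nat_lit 76) (nat_lit 5) (nat_lit 142) (nat_lit 228) (nat_lit 230))) (PT.nd (nat_lit 78) (PT.lf (nat_lit 6004) (nat_lit 6) (nat_lit 79) (nat_lit 5) (nat_lit 143) (nat_lit 228) (nat_lit 229)) (PT.lf (nat_lit 6232) (nat_lit 3) (nat_lit 82) (nat_lit 4) (nat_lit 144) (nat_lit 228) (nat_lit 228)))) (PT.nd (nat_lit 156) (PT.nd (nat_lit 78) (PT.lf (nat_lit 6384) (nat_lit 6) (nat_lit 84) (nat_lit 4) (nat_lit 145) (nat_lit 228) (nat_lit 227)) (PT.lf (nat_lit 6536)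 (nat_lit 6) (nat_lit 86) (nat_lit 4) (nat_lit 146) (nat_lit 228) (nat_lit 226))) (PT.nd (nat_lit 78) (PT.lf (nat_lit 6688) (nat_lit 6) (nat_lit 88) (nat_lit 4) (nat_lit 147) (nat_lit 228) (nat_lit 225)) (PT.lf (nat_lit 6840) (nat_lit 6) (nat_lit 90) (nat_lit 4) (nat_lit 148) (nat_lit 228) (nat_lit 224))))) (PT.nd (nat_lit 312) (PT.nd (nat_lit 156) (PT.nd (nat_lit 78) (PT.lf (nat_lit 6840) (nat_lit 6) (nat_lit 90) (nat_lit 2) (nat_lit 224) (nat_lit 228) (nat_lit 148)) (PT.lf (nat_lit 6688) (nat_lit 6) (nat_lit 88) (nat_lit 2) (nat_lit 225) (nat_lit 228) (nat_lit 147))) (PT.nd (nat_lit 78) (PT.lf (nat_lit 6536) (nat_lit 6) (nat_lit 86) (nat_lit 2) (nat_lit 226) (nat_lit 228) (nat_lit 146)) (PT.lf (nat_lit 6384) (nat_lit 6) (nat_lit 84) (nat_lit 2) (nat_lit 227) (nat_lit 228) (nat_lit 145)))) (PT.nd (nat_lit 156) (PT.nd (nat_lit 78) (PT.lf (nat_lit 6232) (nat_lit 3) (nat_lit 82) (nat_lit 0) (nat_lit 228)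 (nat_lit 228) (nat_lit 144)) (PT.lf (nat_lit 6004) (nat_lit 6) (nat_lit 79) (nat_lit 0) (nat_lit 229) (nat_lit 228) (nat_lit 143))) (PT.nd (nat_lit 78) (PT.lf (nat_lit 5776) (nat_lit 6) (nat_lit 76) (nat_lit 0) (nat_lit 230) (nat_lit 228) (nat_lit 142)) (PT.lf (nat_lit 5548) (nat_lit 6) (nat_lit 73) (nat_lit 0) (nat_lit 231) (nat_lit 228) (nat_lit 141)))))) (PT.nd (nat_lit 6708) (PT.nd (nat_lit 312) (PT.nd (nat_lit 156) (PT.nd (nat_lit 78) (PT.lf (nat_lit 5168) (nat_lit 6) (nat_lit 68) (nat_lit 5) (nat_lit 139) (nat_lit 229) (nat_lit 232)) (PT.lf (nat_lit 5396) (nat_lit 6) (nat_lit 71) (nat_lit 5) (nat_lit 140) (nat_lit 229) (nat_lit 231))) (PT.nd (nat_lit 78) (PT.lf (nat_lit 5624) (nat_lit 6) (nat_lit 74) (nat_lit 5) (nat_lit 141) (nat_lit 229) (nat_lit 230)) (PT.lf (nat_lit 5852) (nat_lit 3) (nat_lit 77) (nat_lit 4) (nat_lit 142) (nat_lit 229) (nat_lit 229)))) (PT.nd (nat_lit 156) (PT.nd (nat_lit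 78) (PT.lf (nat_lit 6004) (nat_lit 6) (nat_lit 79) (nat_lit 4) (nat_lit 143) (nat_lit 229) (nat_lit 228)) (PT.lf (nat_lit 6156) (nat_lit 6) (nat_lit 81) (nat_lit 4) (nat_lit 144) (nat_lit 229) (nat_lit 227))) (PT.nd (nat_lit 78) (PT.lf (nat_lit 6308) (nat_lit 6) (nat_lit 83) (nat_lit 4) (nat_lit 145) (nat_lit 229) (nat_lit 226)) (PT.lf (nat_lit 6460) (nat_lit 6) (nat_lit 85) (nat_lit 4) (nat_lit 146) (nat_lit 229) (nat_lit 225))))) (PT.nd (nat_lit 312) (PT.nd (nat_lit 156) (PT.nd (nat_lit 78) (PT.lf (nat_lit 6460) (nat_lit 6) (nat_lit 85) (nat_lit 2) (nat_lit 225) (nat_lit 229) (nat_lit 146)) (PT.lf (nat_lit 6308) (nat_lit 6) (nat_lit 83) (nat_lit 2) (nat_lit 226) (nat_lit 229) (nat_lit 145))) (PT.nd (nat_lit 78) (PT.lf (nat_lit 6156) (nat_lit 6) (nat_lit 81) (nat_lit 2) (nat_lit 227) (nat_lit 229) (nat_lit 144)) (PT.lf (nat_lit 6004) (nat_lit 6) (nat_lit 79) (nat_lit 2) (nat_lit 228) (nat_lit 229)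 (nat_lit 143)))) (PT.nd (nat_lit 156) (PT.nd (nat_lit 78) (PT.lf (nat_lit 5852) (nat_lit 3) (nat_lit 77) (nat_lit 0) (nat_lit 229) (nat_lit 229) (nat_lit 142)) (PT.lf (nat_lit 5624) (nat_lit 6) (nat_lit 74) (nat_lit 0) (nat_lit 230) (nat_lit 229) (nat_lit 141))) (PT.nd (nat_lit 78) (PT.lf (nat_lit 5396) (nat_lit 6) (nat_lit 71) (nat_lit 0) (nat_lit 231) (nat_lit 229) (nat_lit 140)) (PT.lf (nat_lit 5168) (nat_lit 6) (nat_lit 68) (nat_lit 0) (nat_lit 232) (nat_lit 229) (nat_lit 139))))))))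
noncomputable def pc31 : PT := (PT.nd (nat_lit 132210) (PT.nd (nat_lit 62634) (PT.nd (nat_lit 7098) (PT.nd (nat_lit 312) (PT.nd (nat_lit 156) (PT.nd (nat_lit 78) (PT.lf (nat_lit 5016) (nat_lit 6) (nat_lit 66) (nat_lit 5) (nat_lit 138) (nat_lit 230) (nat_lit 232)) (PT.lf (nat_lit 5244) (nat_lit 6) (nat_lit 69) (nat_lit 5) (nat_lit 139) (nat_lit 230) (nat_lit 231))) (PT.nd (nat_lit 78) (PT.lf (nat_lit 5472) (nat_lit 3) (nat_lit 72) (nat_lit 4) (nat_lit 140) (nat_lit 230) (nat_lit 230)) (PT.lf (nat_lit 5624) (nat_lit 6) (nat_lit 74) (nat_lit 4) (nat_lit 141) (nat_lit 230) (nat_lit 229)))) (PT.nd (nat_lit 6630) (PT.nd (nat_lit 78) (PT.lf (nat_lit 5776) (nat_lit 6) (nat_lit 76) (nat_lit 4) (nat_lit 142) (nat_lit 230) (nat_lit 228)) (PT.lf (nat_lit 5928) (nat_lit 6) (nat_lit 78) (nat_lit 4) (nat_lit 143) (nat_lit 230) (nat_lit 227))) (PT.nd (nat_lit 78) (PT.lf (nat_lit 5928) (nat_lit 6) (nat_lit 78) (nat_lit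 2) (nat_lit 227) (nat_lit 230) (nat_lit 143)) (PT.lf (nat_lit 5776) (nat_lit 6) (nat_lit 76) (nat_lit 2) (nat_lit 228) (nat_lit 230) (nat_lit 142))))) (PT.nd (nat_lit 55224) (PT.nd (nat_lit 156) (PT.nd (nat_lit 78) (PT.lf (nat_lit 5624) (nat_lit 6) (nat_lit 74) (nat_lit 2) (nat_lit 229) (nat_lit 230) (nat_lit 141)) (PT.lf (nat_lit 5472) (nat_lit 3) (nat_lit 72) (nat_lit 0) (nat_lit 230) (nat_lit 230) (nat_lit 140))) (PT.nd (nat_lit 78) (PT.lf (nat_lit 5244) (nat_lit 6) (nat_lit 69) (nat_lit 0) (nat_lit 231) (nat_lit 230) (nat_lit 139)) (PT.lf (nat_lit 5016) (nat_lit 6) (nat_lit 66) (nat_lit 0) (nat_lit 232) (nat_lit 230) (nat_lit 138)))) (PT.nd (nat_lit 156) (PT.nd (nat_lit 78) (PT.lf (nat_lit 4712) (nat_lit 6) (nat_lit 62) (nat_lit 5) (nat_lit 136) (nat_lit 231) (nat_lit 233)) (PT.lf (nat_lit 4940) (nat_lit 6) (nat_lit 65) (nat_lit 5) (nat_lit 137) (nat_lit 231) (nat_lit 232))) (PT.nd (nat_lit 78)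 (PT.lf (nat_lit 5092) (nat_lit 3) (nat_lit 67) (nat_lit 4) (nat_lit 138) (nat_lit 231) (nat_lit 231)) (PT.lf (nat_lit 5244) (nat_lit 6) (nat_lit 69) (nat_lit 4) (nat_lit 139) (nat_lit 231) (nat_lit 230)))))) (PT.nd (nat_lit 62010) (PT.nd (nat_lit 7020) (PT.nd (nat_lit 6864) (PT.nd (nat_lit 78) (PT.lf (nat_lit 5396) (nat_lit 6) (nat_lit 71) (nat_lit 4) (nat_lit 140) (nat_lit 231) (nat_lit 229)) (PT.lf (nat_lit 5548) (nat_lit 6) (nat_lit 73) (nat_lit 4) (nat_lit 141) (nat_lit 231) (nat_lit 228))) (PT.nd (nat_lit 78) (PT.lf (nat_lit 5548) (nat_lit 6) (nat_lit 73) (nat_lit 2) (nat_lit 228) (nat_lit 231) (nat_lit 141)) (PT.lf (nat_lit 5396) (nat_lit 6) (nat_lit 71) (nat_lit 2) (nat_lit 229) (nat_lit 231) (nat_lit 140)))) (PT.nd (nat_lit 156) (PT.nd (nat_lit 78) (PT.lf (nat_lit 5244) (nat_lit 6) (nat_lit 69) (nat_lit 2) (nat_lit 230) (nat_lit 231) (nat_lit 139)) (PT.lf (nat_lit 5092) (nat_lit 3) (nat_lit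 67) (nat_lit 0) (nat_lit 231) (nat_lit 231) (nat_lit 138))) (PT.nd (nat_lit 78) (PT.lf (nat_lit 4940) (nat_lit 6) (nat_lit 65) (nat_lit 0) (nat_lit 232) (nat_lit 231) (nat_lit 137)) (PT.lf (nat_lit 4712) (nat_lit 6) (nat_lit 62) (nat_lit 0) (nat_lit 233) (nat_lit 231) (nat_lit 136))))) (PT.nd (nat_lit 312) (PT.nd (nat_lit 156) (PT.nd (nat_lit 78) (PT.lf (nat_lit 4408) (nat_lit 6) (nat_lit 58) (nat_lit 5) (nat_lit 134) (nat_lit 232) (nat_lit 234)) (PT.lf (nat_lit 4636) (nat_lit 6) (nat_lit 61) (nat_lit 5) (nat_lit 135) (nat_lit 232) (nat_lit 233))) (PT.nd (nat_lit 78) (PT.lf (nat_lit 4788) (nat_lit 3) (nat_lit 63) (nat_lit 4) (nat_lit 136) (nat_lit 232) (nat_lit 232)) (PT.lf (nat_lit 4940) (nat_lit 6) (nat_lit 65) (nat_lit 4) (nat_lit 137) (nat_lit 232) (nat_lit 231)))) (PT.nd (nat_lit 7098) (PT.nd (nat_lit 78) (PT.lf (nat_lit 5016) (nat_lit 6) (nat_lit 66) (nat_lit 4) (nat_lit 138) (nat_lit 232) (nat_lit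 230)) (PT.lf (nat_lit 5168) (nat_lit 6) (nat_lit 68) (nat_lit 4) (nat_lit 139) (nat_lit 232) (nat_lit 229))) (PT.nd (nat_lit 78) (PT.lf (nat_lit 5168) (nat_lit 6) (nat_lit 68) (nat_lit 2) (nat_lit 229) (nat_lit 232) (nat_lit 139)) (PT.lf (nat_lit 5016) (nat_lit 6) (nat_lit 66) (nat_lit 2) (nat_lit 230) (nat_lit 232) (nat_lit 138))))))) (PT.nd (nat_lit 117312) (PT.nd (nat_lit 55068) (PT.nd (nat_lit 54756) (PT.nd (nat_lit 156) (PT.nd (nat_lit 78) (PT.lf (nat_lit 4940) (nat_lit 6) (nat_lit 65) (nat_lit 2) (nat_lit 231) (nat_lit 232) (nat_lit 137)) (PT.lf (nat_lit 4788) (nat_lit 3) (nat_lit 63) (nat_lit 0) (nat_lit 232) (nat_lit 232) (nat_lit 136))) (PT.nd (nat_lit 78) (PT.lf (nat_lit 4636) (nat_lit 6) (nat_lit 61) (nat_lit 0) (nat_lit 233) (nat_lit 232) (nat_lit 135)) (PT.lf (nat_lit 4408) (nat_lit 6) (nat_lit 58) (nat_lit 0) (nat_lit 234) (nat_lit 232) (nat_lit 134)))) (PT.nd (nat_lit 156) (PT.nd (nat_lit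 78) (PT.lf (nat_lit 4104) (nat_lit 6) (nat_lit 54) (nat_lit 5) (nat_lit 132) (nat_lit 233) (nat_lit 235)) (PT.lf (nat_lit 4332) (nat_lit 6) (nat_lit 57) (nat_lit 5) (nat_lit 133) (nat_lit 233) (nat_lit 234))) (PT.nd (nat_lit 78) (PT.lf (nat_lit 4484) (nat_lit 3) (nat_lit 59) (nat_lit 4) (nat_lit 134) (nat_lit 233) (nat_lit 233)) (PT.lf (nat_lit 4636) (nat_lit 6) (nat_lit 61) (nat_lit 4) (nat_lit 135) (nat_lit 233) (nat_lit 232))))) (PT.nd (nat_lit 7644) (PT.nd (nat_lit 7488) (PT.nd (nat_lit 7410) (PT.lf (nat_lit 4712) (nat_lit 6) (nat_lit 62) (nat_lit 4) (nat_lit 136) (nat_lit 233) (nat_lit 231)) (PT.lf (nat_lit 4712) (nat_lit 6) (nat_lit 62) (nat_lit 2) (nat_lit 231) (nat_lit 233) (nat_lit 136))) (PT.nd (nat_lit 78) (PT.lf (nat_lit 4636) (nat_lit 6) (nat_lit 61) (nat_lit 2) (nat_lit 232) (nat_lit 233) (nat_lit 135)) (PT.lf (nat_lit 4484) (nat_lit 3) (nat_lit 59) (nat_lit 0) (nat_lit 233) (nat_lit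 233) (nat_lit 134)))) (PT.nd (nat_lit 54444) (PT.nd (nat_lit 78) (PT.lf (nat_lit 4332) (nat_lit 6) (nat_lit 57) (nat_lit 0) (nat_lit 234) (nat_lit 233) (nat_lit 133)) (PT.lf (nat_lit 4104) (nat_lit 6) (nat_lit 54) (nat_lit 0) (nat_lit 235) (nat_lit 233) (nat_lit 132))) (PT.nd (nat_lit 78) (PT.lf (nat_lit 4028) (nat_lit 6) (nat_lit 53) (nat_lit 5) (nat_lit 131) (nat_lit 234) (nat_lit 235)) (PT.lf (nat_lit 4180) (nat_lit 3) (nat_lit 55) (nat_lit 4) (nat_lit 132) (nat_lit 234) (nat_lit 234)))))) (PT.nd (nat_lit 70278) (PT.nd (nat_lit 7878) (PT.nd (nat_lit 7722) (PT.nd (nat_lit 78) (PT.lf (nat_lit 4332) (nat_lit 6) (nat_lit 57) (nat_lit 4) (nat_lit 133) (nat_lit 234) (nat_lit 233)) (PT.lf (nat_lit 4408) (nat_lit 6) (nat_lit 58) (nat_lit 4) (nat_lit 134) (nat_lit 234) (nat_lit 232))) (PT.nd (nat_lit 78) (PT.lf (nat_lit 4408) (nat_lit 6) (nat_lit 58) (nat_lit 2) (nat_lit 232) (nat_lit 234) (nat_lit 134))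 (PT.lf (nat_lit 4332) (nat_lit 6) (nat_lit 57) (nat_lit 2) (nat_lit 233) (nat_lit 234) (nat_lit 133)))) (PT.nd (nat_lit 54444) (PT.nd (nat_lit 78) (PT.lf (nat_lit 4180) (nat_lit 3) (nat_lit 55) (nat_lit 0) (nat_lit 234) (nat_lit 234) (nat_lit 132)) (PT.lf (nat_lit 4028) (nat_lit 6) (nat_lit 53) (nat_lit 0) (nat_lit 235) (nat_lit 234) (nat_lit 131))) (PT.nd (nat_lit 78) (PT.lf (nat_lit 4028) (nat_lit 6) (nat_lit 53) (nat_lit 4) (nat_lit 131) (nat_lit 235) (nat_lit 234)) (PT.lf (nat_lit 4104) (nat_lit 6) (nat_lit 54) (nat_lit 4) (nat_lit 132) (nat_lit 235) (nat_lit 233))))) (PT.nd (nat_lit 1051440) (PT.nd (nat_lit 989040) (PT.nd (nat_lit 78) (PT.lf (nat_lit 4104) (nat_lit 6) (nat_lit 54) (nat_lit 2) (nat_lit 233) (nat_lit 235) (nat_lit 132)) (PT.lf (nat_lit 4028) (nat_lit 6) (nat_lit 53) (nat_lit 2) (nat_lit 234) (nat_lit 235) (nat_lit 131))) (PT.nd (nat_lit 12090) (PT.lf (nat_lit 152) (nat_lit 6) (nat_lit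 2) (nat_lit 5) (nat_lit 97) (nat_lit 251) (nat_lit 252)) (PT.lf (nat_lit 152) (nat_lit 6) (nat_lit 2) (nat_lit 0) (nat_lit 252) (nat_lit 251) (nat_lit 97)))) (PT.nd (nat_lit 12090) (PT.nd (nat_lit 78) (PT.lf (nat_lit 76) (nat_lit 3) (nat_lit 1) (nat_lit 4) (nat_lit 96) (nat_lit 252) (nat_lit 252)) (PT.lf (nat_lit 152) (nat_lit 6) (nat_lit 2) (nat_lit 4) (nat_lit 97) (nat_lit 252) (nat_lit 251))) (PT.nd (nat_lit 78) (PT.lf (nat_lit 152) (nat_lit 6) (nat_lit 2) (nat_lit 2) (nat_lit 251) (nat_lit 252) (nat_lit 97)) (PT.lf (nat_lit 76) (nat_lit 3) (nat_lit 1) (nat_lit 0) (nat_lit 252) (nat_lit 252) (nat_lit 96))))))))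
noncomputable def xc0 : XT := (XT.nd (nat_lit 249522) (nat_lit 0) (nat_lit 0) (XT.nd (nat_lit 186888) (nat_lit 0) (nat_lit 0) (XT.nd (nat_lit 124566) (nat_lit 0) (nat_lit 0) (XT.nd (nat_lit 62322) (nat_lit 0) (nat_lit 0) (XT.nd (nat_lit 62244) (nat_lit 0) (nat_lit 532) (XT.lf (nat_lit 0) (nat_lit 3369824081) (nat_lit 152) (nat_lit 10181167351) (nat_lit 0) (nat_lit 2911402830) (nat_lit 9) (nat_lit 5) (nat_lit 11) (nat_lit 4) (nat_lit 9) (nat_lit 4) (nat_lit 489) (nat_lit 356) (nat_lit 355)) (XT.lf (nat_lit 0) (nat_lit 3413448215) (nat_lit 152) (nat_lit 993186336) (nat_lit 0) (nat_lit 3413448215) (nat_lit 16) (nat_lit 5) (nat_lit 18) (nat_lit 4) (nat_lit 16) (nat_lit 4) (nat_lit 486) (nat_lit 357) (nat_lit 357))) (XT.nd (nat_lit 78) (nat_lit 228) (nat_lit 0) (XT.lf (nat_lit 0) (nat_lit 639861912) (nat_lit 152) (nat_lit 15110252774) (nat_lit 0) (nat_lit 158244545) (nat_lit 12) (nat_lit 5) (nat_lit 14)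 (nat_lit 4) (nat_lit 12) (nat_lit 4) (nat_lit 487) (nat_lit 357) (nat_lit 356)) (XT.nd (nat_lit 78) (nat_lit 152) (nat_lit 0) (XT.lf (nat_lit 0) (nat_lit 3415538019) (nat_lit 76) (nat_lit 6858383491) (nat_lit 76) (nat_lit 5909176448) (nat_lit 11) (nat_lit 4) (nat_lit 12) (nat_lit 5) (nat_lit 12) (nat_lit 4) (nat_lit 488) (nat_lit 357) (nat_lit 355)) (XT.lf (nat_lit 0) (nat_lit 3641755837) (nat_lit 152) (nat_lit 10558557252) (nat_lit 0) (nat_lit 2266091520) (nat_lit 9) (nat_lit 5) (nat_lit 11) (nat_lit 4) (nat_lit 9) (nat_lit 4) (nat_lit 489) (nat_lit 357) (nat_lit 354))))) (XT.nd (nat_lit 234) (nat_lit 532) (nat_lit 0) (XT.nd (nat_lit 78) (nat_lit 304) (nat_lit 0) (XT.lf (nat_lit 0) (nat_lit 1855994921) (nat_lit 152) (nat_lit 3850470822) (nat_lit 0) (nat_lit 1855994921) (nat_lit 20) (nat_lit 5) (nat_lit 22) (nat_lit 4) (nat_lit 20) (nat_lit 4) (nat_lit 484) (nat_lit 358) (nat_lit 358)) (XT.nd (nat_lit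 78) (nat_lit 152) (nat_lit 0) (XT.lf (nat_lit 0) (nat_lit 10518337884) (nat_lit 152) (nat_lit 2688903861) (nat_lit 152) (nat_lit 2172796912) (nat_lit 18) (nat_lit 4) (nat_lit 20) (nat_lit 5) (nat_lit 20) (nat_lit 4) (nat_lit 485) (nat_lit 358) (nat_lit 357)) (XT.lf (nat_lit 0) (nat_lit 7235663370) (nat_lit 152) (nat_lit 2168023111) (nat_lit 0) (nat_lit 6238426450) (nat_lit 16) (nat_lit 5) (nat_lit 18) (nat_lit 4) (nat_lit 16) (nat_lit 4) (nat_lit 486) (nat_lit 358) (nat_lit 356)))) (XT.nd (nat_lit 78) (nat_lit 228) (nat_lit 0) (XT.lf (nat_lit 0) (nat_lit 425615480) (nat_lit 76) (nat_lit 514876534) (nat_lit 152) (nat_lit 14971781714) (nat_lit 12) (nat_lit 5) (nat_lit 13) (nat_lit 5) (nat_lit 14) (nat_lit 4) (nat_lit 487) (nat_lit 358) (nat_lit 355)) (XT.nd (nat_lit 78) (nat_lit 152) (nat_lit 0) (XT.lf (nat_lit 0) (nat_lit 2856724527) (nat_lit 76) (nat_lit 7615787489) (nat_lit 76) (nat_lit 5716543997)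 (nat_lit 11) (nat_lit 4) (nat_lit 12) (nat_lit 5) (nat_lit 12) (nat_lit 4) (nat_lit 488) (nat_lit 358) (nat_lit 354)) (XT.lf (nat_lit 0) (nat_lit 3727435707) (nat_lit 152) (nat_lit 11313666811) (nat_lit 0) (nat_lit 1433326287) (nat_lit 9) (nat_lit 5) (nat_lit 11) (nat_lit 4) (nat_lit 9) (nat_lit 4) (nat_lit 489) (nat_lit 358) (nat_lit 353)))))) (XT.nd (nat_lit 468) (nat_lit 304) (nat_lit 0) (XT.nd (nat_lit 234) (nat_lit 532) (nat_lit 0) (XT.nd (nat_lit 78) (nat_lit 304) (nat_lit 0) (XT.lf (nat_lit 0) (nat_lit 276429332) (nat_lit 152) (nat_lit 6764331203) (nat_lit 0) (nat_lit 276429332) (nat_lit 24) (nat_lit 5) (nat_lit 26) (nat_lit 4) (nat_lit 24) (nat_lit 4) (nat_lit 482) (nat_lit 359) (nat_lit 359)) (XT.nd (nat_lit 78) (nat_lit 152) (nat_lit 0) (XT.lf (nat_lit 0) (nat_lit 4217767471) (nat_lit 152) (nat_lit 5600689353) (nat_lit 152) (nat_lit 5058467392) (nat_lit 22) (nat_lit 4) (nat_lit 24) (nat_lit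 5) (nat_lit 24) (nat_lit 4) (nat_lit 483) (nat_lit 359) (nat_lit 358)) (XT.lf (nat_lit 0) (nat_lit 4147038920) (nat_lit 152) (nat_lit 7880474566) (nat_lit 0) (nat_lit 3099341811) (nat_lit 20) (nat_lit 5) (nat_lit 22) (nat_lit 4) (nat_lit 20) (nat_lit 4) (nat_lit 484) (nat_lit 359) (nat_lit 357)))) (XT.nd (nat_lit 78) (nat_lit 380) (nat_lit 0) (XT.lf (nat_lit 0) (nat_lit 10159798853) (nat_lit 152) (nat_lit 3386434890) (nat_lit 152) (nat_lit 1837663073) (nat_lit 18) (nat_lit 4) (nat_lit 20) (nat_lit 5) (nat_lit 20) (nat_lit 4) (nat_lit 485) (nat_lit 359) (nat_lit 356)) (XT.nd (nat_lit 78) (nat_lit 228) (nat_lit 0) (XT.lf (nat_lit 0) (nat_lit 7465084445) (nat_lit 152) (nat_lit 2713133148) (nat_lit 0) (nat_lit 5469739233) (nat_lit 16) (nat_lit 5) (nat_lit 18) (nat_lit 4) (nat_lit 16) (nat_lit 4) (nat_lit 486) (nat_lit 359) (nat_lit 355)) (XT.lf (nat_lit 0) (nat_lit 1061380543) (nat_lit 228) (nat_lit 314406485)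 (nat_lit 76) (nat_lit 14544299456) (nat_lit 13) (nat_lit 5) (nat_lit 16) (nat_lit 5) (nat_lit 14) (nat_lit 4) (nat_lit 487) (nat_lit 359) (nat_lit 354))))) (XT.nd (nat_lit 61932) (nat_lit 0) (nat_lit 988) (XT.nd (nat_lit 78) (nat_lit 152) (nat_lit 0) (XT.lf (nat_lit 0) (nat_lit 1924826185) (nat_lit 76) (nat_lit 8562552588) (nat_lit 76) (nat_lit 5711613116) (nat_lit 11) (nat_lit 4) (nat_lit 12) (nat_lit 5) (nat_lit 12) (nat_lit 4) (nat_lit 488) (nat_lit 359) (nat_lit 353)) (XT.nd (nat_lit 61776) (nat_lit 0) (nat_lit 1672) (XT.lf (nat_lit 0) (nat_lit 3626938556) (nat_lit 152) (nat_lit 12447155834) (nat_lit 0) (nat_lit 412379473) (nat_lit 9) (nat_lit 5) (nat_lit 11) (nat_lit 4) (nat_lit 9) (nat_lit 4) (nat_lit 489) (nat_lit 359) (nat_lit 352)) (XT.lf (nat_lit 0) (nat_lit 4475689717) (nat_lit 152) (nat_lit 1303608398) (nat_lit 152) (nat_lit 1303608398) (nat_lit 31) (nat_lit 4) (nat_lit 33) (nat_lit 5)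 (nat_lit 33) (nat_lit 4) (nat_lit 480) (nat_lit 360) (nat_lit 360)))) (XT.nd (nat_lit 78) (nat_lit 456) (nat_lit 0) (XT.lf (nat_lit 0) (nat_lit 6425334145) (nat_lit 228) (nat_lit 2116526381) (nat_lit 0) (nat_lit 5855675752) (nat_lit 28) (nat_lit 5) (nat_lit 31) (nat_lit 4) (nat_lit 28) (nat_lit 4) (nat_lit 481) (nat_lit 360) (nat_lit 359)) (XT.nd (nat_lit 78) (nat_lit 152) (nat_lit 0) (XT.lf (nat_lit 0) (nat_lit 929644950) (nat_lit 76) (nat_lit 86379675) (nat_lit 152) (nat_lit 13620264869) (nat_lit 24) (nat_lit 5) (nat_lit 25) (nat_lit 5) (nat_lit 26) (nat_lit 4) (nat_lit 482) (nat_lit 360) (nat_lit 358)) (XT.lf (nat_lit 0) (nat_lit 3863445478) (nat_lit 152) (nat_lit 6322225207) (nat_lit 152) (nat_lit 4695085536) (nat_lit 22) (nat_lit 4) (nat_lit 24) (nat_lit 5) (nat_lit 24) (nat_lit 4) (nat_lit 483) (nat_lit 360) (nat_lit 357))))))) (XT.nd (nat_lit 62400) (nat_lit 0) (nat_lit 0) (XT.nd (nat_lit 390)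 (nat_lit 152) (nat_lit 0) (XT.nd (nat_lit 156) (nat_lit 532) (nat_lit 0) (XT.nd (nat_lit 78) (nat_lit 152) (nat_lit 0) (XT.lf (nat_lit 0) (nat_lit 4404869181) (nat_lit 152) (nat_lit 8419230201) (nat_lit 0) (nat_lit 2308559501) (nat_lit 20) (nat_lit 5) (nat_lit 22) (nat_lit 4) (nat_lit 20) (nat_lit 4) (nat_lit 484) (nat_lit 360) (nat_lit 356)) (XT.lf (nat_lit 0) (nat_lit 9442407505) (nat_lit 152) (nat_lit 4265999490) (nat_lit 152) (nat_lit 1683209510) (nat_lit 18) (nat_lit 4) (nat_lit 20) (nat_lit 5) (nat_lit 20) (nat_lit 4) (nat_lit 485) (nat_lit 360) (nat_lit 355))) (XT.nd (nat_lit 78) (nat_lit 380) (nat_lit 0) (XT.lf (nat_lit 0) (nat_lit 7515360120) (nat_lit 152) (nat_lit 3622179094) (nat_lit 0) (nat_lit 4520163110) (nat_lit 16) (nat_lit 5) (nat_lit 18) (nat_lit 4) (nat_lit 16) (nat_lit 4) (nat_lit 486) (nat_lit 360) (nat_lit 354)) (XT.nd (nat_lit 78) (nat_lit 152) (nat_lit 0) (XT.lf (nat_lit 0)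 (nat_lit 1004695862) (nat_lit 228) (nat_lit 1415274445) (nat_lit 76) (nat_lit 13511792762) (nat_lit 13) (nat_lit 5) (nat_lit 16) (nat_lit 5) (nat_lit 14) (nat_lit 4) (nat_lit 487) (nat_lit 360) (nat_lit 353)) (XT.lf (nat_lit 0) (nat_lit 619028713) (nat_lit 76) (nat_lit 9699506060) (nat_lit 76) (nat_lit 5894379495) (nat_lit 11) (nat_lit 4) (nat_lit 12) (nat_lit 5) (nat_lit 12) (nat_lit 4) (nat_lit 488) (nat_lit 360) (nat_lit 352))))) (XT.nd (nat_lit 61776) (nat_lit 0) (nat_lit 1140) (XT.nd (nat_lit 61620) (nat_lit 0) (nat_lit 1824) (XT.lf (nat_lit 0) (nat_lit 2537182970) (nat_lit 76) (nat_lit 808241241) (nat_lit 152) (nat_lit 13157021145) (nat_lit 9) (nat_lit 5) (nat_lit 10) (nat_lit 5) (nat_lit 11) (nat_lit 4) (nat_lit 489) (nat_lit 360) (nat_lit 351)) (XT.nd (nat_lit 78) (nat_lit 228) (nat_lit 0) (XT.lf (nat_lit 0) (nat_lit 1100492042) (nat_lit 152) (nat_lit 2879514628) (nat_lit 152) (nat_lit 2879514628)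 (nat_lit 36) (nat_lit 4) (nat_lit 38) (nat_lit 5) (nat_lit 38) (nat_lit 4) (nat_lit 478) (nat_lit 361) (nat_lit 361)) (XT.lf (nat_lit 0) (nat_lit 3065277215) (nat_lit 228) (nat_lit 8408226600) (nat_lit 0) (nat_lit 2466794107) (nat_lit 33) (nat_lit 5) (nat_lit 36) (nat_lit 4) (nat_lit 33) (nat_lit 4) (nat_lit 479) (nat_lit 361) (nat_lit 360)))) (XT.nd (nat_lit 78) (nat_lit 532) (nat_lit 0) (XT.lf (nat_lit 0) (nat_lit 8780977186) (nat_lit 152) (nat_lit 3283116878) (nat_lit 152) (nat_lit 2103582210) (nat_lit 31) (nat_lit 4) (nat_lit 33) (nat_lit 5) (nat_lit 33) (nat_lit 4) (nat_lit 480) (nat_lit 361) (nat_lit 359)) (XT.nd (nat_lit 78) (nat_lit 304) (nat_lit 0) (XT.lf (nat_lit 0) (nat_lit 6824360427) (nat_lit 228) (nat_lit 2462049637) (nat_lit 0) (nat_lit 5114887489) (nat_lit 28) (nat_lit 5) (nat_lit 31) (nat_lit 4) (nat_lit 28) (nat_lit 4) (nat_lit 481) (nat_lit 361) (nat_lit 358)) (XT.lf (nat_lit 0)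 (nat_lit 397527143) (nat_lit 76) (nat_lit 911362833) (nat_lit 152) (nat_lit 13333056988) (nat_lit 24) (nat_lit 5) (nat_lit 25) (nat_lit 5) (nat_lit 26) (nat_lit 4) (nat_lit 482) (nat_lit 361) (nat_lit 357)))))) (XT.nd (nat_lit 468) (nat_lit 228) (nat_lit 0) (XT.nd (nat_lit 234) (nat_lit 456) (nat_lit 0) (XT.nd (nat_lit 78) (nat_lit 304) (nat_lit 0) (XT.lf (nat_lit 0) (nat_lit 3154491890) (nat_lit 152) (nat_lit 7223705421) (nat_lit 152) (nat_lit 4510226268) (nat_lit 22) (nat_lit 4) (nat_lit 24) (nat_lit 5) (nat_lit 24) (nat_lit 4) (nat_lit 483) (nat_lit 361) (nat_lit 356)) (XT.nd (nat_lit 78) (nat_lit 152) (nat_lit 0) (XT.lf (nat_lit 0) (nat_lit 4485705916) (nat_lit 152) (nat_lit 9317679307) (nat_lit 0) (nat_lit 1338951938) (nat_lit 20) (nat_lit 5) (nat_lit 22) (nat_lit 4) (nat_lit 20) (nat_lit 4) (nat_lit 484) (nat_lit 361) (nat_lit 355)) (XT.lf (nat_lit 0) (nat_lit 8365536994) (nat_lit 152) (nat_lit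 5328366213) (nat_lit 152) (nat_lit 1709301264) (nat_lit 18) (nat_lit 4) (nat_lit 20) (nat_lit 5) (nat_lit 20) (nat_lit 4) (nat_lit 485) (nat_lit 361) (nat_lit 354)))) (XT.nd (nat_lit 78) (nat_lit 304) (nat_lit 0) (XT.lf (nat_lit 0) (nat_lit 7386534325) (nat_lit 152) (nat_lit 4895955260) (nat_lit 0) (nat_lit 3388868355) (nat_lit 16) (nat_lit 5) (nat_lit 18) (nat_lit 4) (nat_lit 16) (nat_lit 4) (nat_lit 486) (nat_lit 361) (nat_lit 353)) (XT.nd (nat_lit 78) (nat_lit 76) (nat_lit 0) (XT.lf (nat_lit 0) (nat_lit 767625065) (nat_lit 228) (nat_lit 2883532346) (nat_lit 76) (nat_lit 12296211545) (nat_lit 13) (nat_lit 5) (nat_lit 16) (nat_lit 5) (nat_lit 14) (nat_lit 4) (nat_lit 487) (nat_lit 361) (nat_lit 352)) (XT.lf (nat_lit 0) (nat_lit 9972726450) (nat_lit 152) (nat_lit 1047883062) (nat_lit 0) (nat_lit 5210087923) (nat_lit 12) (nat_lit 5) (nat_lit 14) (nat_lit 4) (nat_lit 12) (nat_lit 4) (nat_lit 488) (nat_lit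 361) (nat_lit 351))))) (XT.nd (nat_lit 61620) (nat_lit 0) (nat_lit 1672) (XT.nd (nat_lit 61464) (nat_lit 0) (nat_lit 2432) (XT.lf (nat_lit 0) (nat_lit 654358376) (nat_lit 76) (nat_lit 2226999972) (nat_lit 152) (nat_lit 13641024655) (nat_lit 9) (nat_lit 5) (nat_lit 10) (nat_lit 5) (nat_lit 11) (nat_lit 4) (nat_lit 489) (nat_lit 361) (nat_lit 350)) (XT.nd (nat_lit 78) (nat_lit 152) (nat_lit 0) (XT.lf (nat_lit 0) (nat_lit 2217993134) (nat_lit 228) (nat_lit 2210321786) (nat_lit 0) (nat_lit 2217993134) (nat_lit 43) (nat_lit 5) (nat_lit 46) (nat_lit 4) (nat_lit 43) (nat_lit 4) (nat_lit 476) (nat_lit 362) (nat_lit 362)) (XT.lf (nat_lit 0) (nat_lit 12346240324) (nat_lit 152) (nat_lit 899674426) (nat_lit 152) (nat_lit 258332746) (nat_lit 41) (nat_lit 4) (nat_lit 43) (nat_lit 5) (nat_lit 43) (nat_lit 4) (nat_lit 477) (nat_lit 362) (nat_lit 361)))) (XT.nd (nat_lit 78) (nat_lit 380) (nat_lit 0) (XT.lf (nat_lit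 0) (nat_lit 2032646810) (nat_lit 152) (nat_lit 6463733309) (nat_lit 152) (nat_lit 5224514187) (nat_lit 36) (nat_lit 4) (nat_lit 38) (nat_lit 5) (nat_lit 38) (nat_lit 4) (nat_lit 478) (nat_lit 362) (nat_lit 360)) (XT.nd (nat_lit 78) (nat_lit 152) (nat_lit 0) (XT.lf (nat_lit 0) (nat_lit 3495200626) (nat_lit 228) (nat_lit 8749606408) (nat_lit 0) (nat_lit 1699228357) (nat_lit 33) (nat_lit 5) (nat_lit 36) (nat_lit 4) (nat_lit 33) (nat_lit 4) (nat_lit 479) (nat_lit 362) (nat_lit 359)) (XT.lf (nat_lit 0) (nat_lit 8269621543) (nat_lit 152) (nat_lit 4131873045) (nat_lit 152) (nat_lit 1771773047) (nat_lit 31) (nat_lit 4) (nat_lit 33) (nat_lit 5) (nat_lit 33) (nat_lit 4) (nat_lit 480) (nat_lit 362) (nat_lit 358))))))))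
noncomputable def xc1 : XT := (XT.nd (nat_lit 63024) (nat_lit 0) (nat_lit 0) (XT.nd (nat_lit 62088) (nat_lit 0) (nat_lit 304) (XT.nd (nat_lit 390) (nat_lit 608) (nat_lit 0) (XT.nd (nat_lit 156) (nat_lit 532) (nat_lit 0) (XT.nd (nat_lit 78) (nat_lit 228) (nat_lit 0) (XT.lf (nat_lit 0) (nat_lit 7053103263) (nat_lit 228) (nat_lit 3153398064) (nat_lit 0) (nat_lit 4202322066) (nat_lit 28) (nat_lit 5) (nat_lit 31) (nat_lit 4) (nat_lit 28) (nat_lit 4) (nat_lit 481) (nat_lit 362) (nat_lit 357)) (XT.lf (nat_lit 0) (nat_lit 1431237857) (nat_lit 228) (nat_lit 480998852) (nat_lit 76) (nat_lit 12739129838) (nat_lit 25) (nat_lit 5) (nat_lit 28) (nat_lit 5) (nat_lit 26) (nat_lit 4) (nat_lit 482) (nat_lit 362) (nat_lit 356))) (XT.nd (nat_lit 78) (nat_lit 304) (nat_lit 0) (XT.lf (nat_lit 0) (nat_lit 2090287233) (nat_lit 152) (nat_lit 8305917696) (nat_lit 152) (nat_lit 4503728061) (nat_lit 22) (nat_lit 4) (nat_lit 24)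 (nat_lit 5) (nat_lit 24) (nat_lit 4) (nat_lit 483) (nat_lit 362) (nat_lit 355)) (XT.nd (nat_lit 78) (nat_lit 152) (nat_lit 0) (XT.lf (nat_lit 0) (nat_lit 4389619759) (nat_lit 152) (nat_lit 10576606938) (nat_lit 0) (nat_lit 189671891) (nat_lit 20) (nat_lit 5) (nat_lit 22) (nat_lit 4) (nat_lit 20) (nat_lit 4) (nat_lit 484) (nat_lit 362) (nat_lit 354)) (XT.lf (nat_lit 0) (nat_lit 6928246363) (nat_lit 152) (nat_lit 6574463341) (nat_lit 152) (nat_lit 1915961133) (nat_lit 18) (nat_lit 4) (nat_lit 20) (nat_lit 5) (nat_lit 20) (nat_lit 4) (nat_lit 485) (nat_lit 362) (nat_lit 353))))) (XT.nd (nat_lit 234) (nat_lit 152) (nat_lit 0) (XT.nd (nat_lit 78) (nat_lit 304) (nat_lit 0) (XT.lf (nat_lit 0) (nat_lit 7078494494) (nat_lit 152) (nat_lit 6535574656) (nat_lit 0) (nat_lit 2074866458) (nat_lit 16) (nat_lit 5) (nat_lit 18) (nat_lit 4) (nat_lit 16) (nat_lit 4) (nat_lit 486) (nat_lit 362) (nat_lit 352)) (XT.nd (nat_lit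 78) (nat_lit 76) (nat_lit 0) (XT.lf (nat_lit 0) (nat_lit 349961001) (nat_lit 228) (nat_lit 4720463132) (nat_lit 76) (nat_lit 10896493646) (nat_lit 13) (nat_lit 5) (nat_lit 16) (nat_lit 5) (nat_lit 14) (nat_lit 4) (nat_lit 487) (nat_lit 362) (nat_lit 351)) (XT.lf (nat_lit 0) (nat_lit 9449215339) (nat_lit 152) (nat_lit 3078246995) (nat_lit 0) (nat_lit 3724903322) (nat_lit 12) (nat_lit 5) (nat_lit 14) (nat_lit 4) (nat_lit 12) (nat_lit 4) (nat_lit 488) (nat_lit 362) (nat_lit 350)))) (XT.nd (nat_lit 61308) (nat_lit 0) (nat_lit 2736) (XT.lf (nat_lit 0) (nat_lit 2242062873) (nat_lit 152) (nat_lit 1586944004) (nat_lit 76) (nat_lit 12717142805) (nat_lit 10) (nat_lit 5) (nat_lit 12) (nat_lit 5) (nat_lit 11) (nat_lit 4) (nat_lit 489) (nat_lit 362) (nat_lit 349)) (XT.nd (nat_lit 78) (nat_lit 228) (nat_lit 0) (XT.lf (nat_lit 0) (nat_lit 493698552) (nat_lit 228) (nat_lit 5455486421) (nat_lit 0) (nat_lit 493698552)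 (nat_lit 49) (nat_lit 5) (nat_lit 52) (nat_lit 4) (nat_lit 49) (nat_lit 4) (nat_lit 474) (nat_lit 363) (nat_lit 363)) (XT.lf (nat_lit 0) (nat_lit 5362114534) (nat_lit 228) (nat_lit 4199415049) (nat_lit 228) (nat_lit 3525621480) (nat_lit 46) (nat_lit 4) (nat_lit 49) (nat_lit 5) (nat_lit 49) (nat_lit 4) (nat_lit 475) (nat_lit 363) (nat_lit 362)))))) (XT.nd (nat_lit 468) (nat_lit 1064) (nat_lit 0) (XT.nd (nat_lit 234) (nat_lit 608) (nat_lit 0) (XT.nd (nat_lit 78) (nat_lit 532) (nat_lit 0) (XT.lf (nat_lit 0) (nat_lit 5005810641) (nat_lit 228) (nat_lit 4584737494) (nat_lit 0) (nat_lit 3703887031) (nat_lit 43) (nat_lit 5) (nat_lit 46) (nat_lit 4) (nat_lit 43) (nat_lit 4) (nat_lit 476) (nat_lit 363) (nat_lit 361)) (XT.nd (nat_lit 78) (nat_lit 304) (nat_lit 0) (XT.lf (nat_lit 0) (nat_lit 214767965) (nat_lit 228) (nat_lit 1490754144) (nat_lit 76) (nat_lit 11802324815) (nat_lit 40) (nat_lit 5) (nat_lit 43) (nat_lit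 5) (nat_lit 41) (nat_lit 4) (nat_lit 477) (nat_lit 363) (nat_lit 360)) (XT.lf (nat_lit 0) (nat_lit 1527487897) (nat_lit 152) (nat_lit 7339242107) (nat_lit 152) (nat_lit 4859721050) (nat_lit 36) (nat_lit 4) (nat_lit 38) (nat_lit 5) (nat_lit 38) (nat_lit 4) (nat_lit 478) (nat_lit 363) (nat_lit 359)))) (XT.nd (nat_lit 78) (nat_lit 380) (nat_lit 0) (XT.lf (nat_lit 0) (nat_lit 3756940002) (nat_lit 228) (nat_lit 9432664316) (nat_lit 0) (nat_lit 761909276) (nat_lit 33) (nat_lit 5) (nat_lit 36) (nat_lit 4) (nat_lit 33) (nat_lit 4) (nat_lit 479) (nat_lit 363) (nat_lit 358)) (XT.nd (nat_lit 78) (nat_lit 228) (nat_lit 0) (XT.lf (nat_lit 0) (nat_lit 7416865692) (nat_lit 152) (nat_lit 5154226930) (nat_lit 152) (nat_lit 1611499380) (nat_lit 31) (nat_lit 4) (nat_lit 33) (nat_lit 5) (nat_lit 33) (nat_lit 4) (nat_lit 480) (nat_lit 363) (nat_lit 357)) (XT.lf (nat_lit 0) (nat_lit 7111762525) (nat_lit 228) (nat_lit 4191175752)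 (nat_lit 0) (nat_lit 3117182094) (nat_lit 28) (nat_lit 5) (nat_lit 31) (nat_lit 4) (nat_lit 28) (nat_lit 4) (nat_lit 481) (nat_lit 363) (nat_lit 356))))) (XT.nd (nat_lit 234) (nat_lit 456) (nat_lit 0) (XT.nd (nat_lit 78) (nat_lit 380) (nat_lit 0) (XT.lf (nat_lit 0) (nat_lit 1384884588) (nat_lit 228) (nat_lit 1703247665) (nat_lit 76) (nat_lit 11576390031) (nat_lit 25) (nat_lit 5) (nat_lit 28) (nat_lit 5) (nat_lit 26) (nat_lit 4) (nat_lit 482) (nat_lit 363) (nat_lit 355)) (XT.nd (nat_lit 78) (nat_lit 152) (nat_lit 0) (XT.lf (nat_lit 0) (nat_lit 669901619) (nat_lit 152) (nat_lit 9569807655) (nat_lit 152) (nat_lit 4675585235) (nat_lit 22) (nat_lit 4) (nat_lit 24) (nat_lit 5) (nat_lit 24) (nat_lit 4) (nat_lit 483) (nat_lit 363) (nat_lit 354)) (XT.lf (nat_lit 0) (nat_lit 2968589975) (nat_lit 76) (nat_lit 1155438649) (nat_lit 152) (nat_lit 11049176351) (nat_lit 20) (nat_lit 5) (nat_lit 21) (nat_lit 5) (nat_lit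 22) (nat_lit 4) (nat_lit 484) (nat_lit 363) (nat_lit 353)))) (XT.nd (nat_lit 78) (nat_lit 304) (nat_lit 0) (XT.lf (nat_lit 0) (nat_lit 5129279729) (nat_lit 152) (nat_lit 8005379697) (nat_lit 152) (nat_lit 2303369694) (nat_lit 18) (nat_lit 4) (nat_lit 20) (nat_lit 5) (nat_lit 20) (nat_lit 4) (nat_lit 485) (nat_lit 363) (nat_lit 352)) (XT.nd (nat_lit 78) (nat_lit 152) (nat_lit 0) (XT.lf (nat_lit 0) (nat_lit 6590971466) (nat_lit 152) (nat_lit 8542469958) (nat_lit 0) (nat_lit 577009262) (nat_lit 16) (nat_lit 5) (nat_lit 18) (nat_lit 4) (nat_lit 16) (nat_lit 4) (nat_lit 486) (nat_lit 363) (nat_lit 351)) (XT.lf (nat_lit 0) (nat_lit 9061086084) (nat_lit 152) (nat_lit 6677341962) (nat_lit 152) (nat_lit 251965855) (nat_lit 14) (nat_lit 4) (nat_lit 16) (nat_lit 5) (nat_lit 16) (nat_lit 4) (nat_lit 487) (nat_lit 363) (nat_lit 350))))))) (XT.nd (nat_lit 62010) (nat_lit 0) (nat_lit 0) (XT.nd (nat_lit 61542) (nat_lit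 0) (nat_lit 1368) (XT.nd (nat_lit 61308) (nat_lit 0) (nat_lit 2736) (XT.nd (nat_lit 78) (nat_lit 152) (nat_lit 0) (XT.lf (nat_lit 0) (nat_lit 8743524858) (nat_lit 152) (nat_lit 5481955862) (nat_lit 0) (nat_lit 2052537526) (nat_lit 12) (nat_lit 5) (nat_lit 14) (nat_lit 4) (nat_lit 12) (nat_lit 4) (nat_lit 488) (nat_lit 363) (nat_lit 349)) (XT.nd (nat_lit 61152) (nat_lit 0) (nat_lit 3648) (XT.lf (nat_lit 0) (nat_lit 1423255400) (nat_lit 152) (nat_lit 4196204620) (nat_lit 76) (nat_lit 10954380612) (nat_lit 10) (nat_lit 5) (nat_lit 12) (nat_lit 5) (nat_lit 11) (nat_lit 4) (nat_lit 489) (nat_lit 363) (nat_lit 348)) (XT.lf (nat_lit 0) (nat_lit 3877932366) (nat_lit 228) (nat_lit 1185169388) (nat_lit 228) (nat_lit 1185169388) (nat_lit 58) (nat_lit 4) (nat_lit 61) (nat_lit 5) (nat_lit 61) (nat_lit 4) (nat_lit 472) (nat_lit 364) (nat_lit 364)))) (XT.nd (nat_lit 78) (nat_lit 684) (nat_lit 0) (XT.lf (nat_lit 0)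 (nat_lit 5965901946) (nat_lit 228) (nat_lit 1465310292) (nat_lit 0) (nat_lit 5258014422) (nat_lit 55) (nat_lit 5) (nat_lit 58) (nat_lit 4) (nat_lit 55) (nat_lit 4) (nat_lit 473) (nat_lit 364) (nat_lit 363)) (XT.nd (nat_lit 78) (nat_lit 228) (nat_lit 0) (XT.lf (nat_lit 0) (nat_lit 1591172093) (nat_lit 228) (nat_lit 11073032563) (nat_lit 0) (nat_lit 223371148) (nat_lit 49) (nat_lit 5) (nat_lit 52) (nat_lit 4) (nat_lit 49) (nat_lit 4) (nat_lit 474) (nat_lit 364) (nat_lit 362)) (XT.lf (nat_lit 0) (nat_lit 5038470632) (nat_lit 228) (nat_lit 5037128369) (nat_lit 228) (nat_lit 3015158911) (nat_lit 46) (nat_lit 4) (nat_lit 49) (nat_lit 5) (nat_lit 49) (nat_lit 4) (nat_lit 475) (nat_lit 364) (nat_lit 361))))) (XT.nd (nat_lit 234) (nat_lit 608) (nat_lit 0) (XT.nd (nat_lit 78) (nat_lit 532) (nat_lit 0) (XT.lf (nat_lit 0) (nat_lit 5413858054) (nat_lit 228) (nat_lit 5077162643) (nat_lit 0) (nat_lit 2808873231)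 (nat_lit 43) (nat_lit 5) (nat_lit 46) (nat_lit 4) (nat_lit 43) (nat_lit 4) (nat_lit 476) (nat_lit 364) (nat_lit 360)) (XT.nd (nat_lit 78) (nat_lit 304) (nat_lit 0) (XT.lf (nat_lit 0) (nat_lit 521673289) (nat_lit 228) (nat_lit 2155730821) (nat_lit 76) (nat_lit 10837660975) (nat_lit 40) (nat_lit 5) (nat_lit 43) (nat_lit 5) (nat_lit 41) (nat_lit 4) (nat_lit 477) (nat_lit 364) (nat_lit 359)) (XT.lf (nat_lit 0) (nat_lit 685065943) (nat_lit 152) (nat_lit 8386320658) (nat_lit 152) (nat_lit 4664331094) (nat_lit 36) (nat_lit 4) (nat_lit 38) (nat_lit 5) (nat_lit 38) (nat_lit 4) (nat_lit 478) (nat_lit 364) (nat_lit 358)))) (XT.nd (nat_lit 78) (nat_lit 380) (nat_lit 0) (XT.lf (nat_lit 0) (nat_lit 3502420173) (nat_lit 152) (nat_lit 350580073) (nat_lit 228) (nat_lit 10109693297) (nat_lit 33) (nat_lit 5) (nat_lit 35) (nat_lit 5) (nat_lit 36) (nat_lit 4) (nat_lit 479) (nat_lit 364) (nat_lit 357)) (XT.nd (nat_lit 78)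 (nat_lit 228) (nat_lit 0) (XT.lf (nat_lit 0) (nat_lit 6221964506) (nat_lit 152) (nat_lit 6351071852) (nat_lit 152) (nat_lit 1622621162) (nat_lit 31) (nat_lit 4) (nat_lit 33) (nat_lit 5) (nat_lit 33) (nat_lit 4) (nat_lit 480) (nat_lit 364) (nat_lit 356)) (XT.lf (nat_lit 0) (nat_lit 7000389468) (nat_lit 228) (nat_lit 5576289496) (nat_lit 0) (nat_lit 1858519394) (nat_lit 28) (nat_lit 5) (nat_lit 31) (nat_lit 4) (nat_lit 28) (nat_lit 4) (nat_lit 481) (nat_lit 364) (nat_lit 355)))))) (XT.nd (nat_lit 468) (nat_lit 304) (nat_lit 0) (XT.nd (nat_lit 234) (nat_lit 456) (nat_lit 0) (XT.nd (nat_lit 78) (nat_lit 380) (nat_lit 0) (XT.lf (nat_lit 0) (nat_lit 1167208657) (nat_lit 228) (nat_lit 3275500920) (nat_lit 76) (nat_lit 10238767716) (nat_lit 25) (nat_lit 5) (nat_lit 28) (nat_lit 5) (nat_lit 26) (nat_lit 4) (nat_lit 482) (nat_lit 364) (nat_lit 354)) (XT.nd (nat_lit 78) (nat_lit 304) (nat_lit 0) (XT.lf (nat_lit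 0) (nat_lit 9915766865) (nat_lit 152) (nat_lit 1093375676) (nat_lit 0) (nat_lit 3925235155) (nat_lit 24) (nat_lit 5) (nat_lit 26) (nat_lit 4) (nat_lit 24) (nat_lit 4) (nat_lit 483) (nat_lit 364) (nat_lit 353)) (XT.lf (nat_lit 0) (nat_lit 996310984) (nat_lit 76) (nat_lit 2687325179) (nat_lit 152) (nat_lit 11510736569) (nat_lit 20) (nat_lit 5) (nat_lit 21) (nat_lit 5) (nat_lit 22) (nat_lit 4) (nat_lit 484) (nat_lit 364) (nat_lit 352)))) (XT.nd (nat_lit 78) (nat_lit 304) (nat_lit 0) (XT.lf (nat_lit 0) (nat_lit 2967065179) (nat_lit 152) (nat_lit 9622365596) (nat_lit 152) (nat_lit 2871865458) (nat_lit 18) (nat_lit 4) (nat_lit 20) (nat_lit 5) (nat_lit 20) (nat_lit 4) (nat_lit 485) (nat_lit 364) (nat_lit 351)) (XT.nd (nat_lit 78) (nat_lit 152) (nat_lit 0) (XT.lf (nat_lit 0) (nat_lit 4810105287) (nat_lit 76) (nat_lit 1120710358) (nat_lit 152) (nat_lit 9804960800) (nat_lit 16) (nat_lit 5) (nat_lit 17) (nat_lit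 5) (nat_lit 18) (nat_lit 4) (nat_lit 486) (nat_lit 364) (nat_lit 350)) (XT.lf (nat_lit 0) (nat_lit 6503925225) (nat_lit 152) (nat_lit 8471418848) (nat_lit 152) (nat_lit 1042436584) (nat_lit 14) (nat_lit 4) (nat_lit 16) (nat_lit 5) (nat_lit 16) (nat_lit 4) (nat_lit 487) (nat_lit 364) (nat_lit 349))))) (XT.nd (nat_lit 61152) (nat_lit 0) (nat_lit 3420) (XT.nd (nat_lit 78) (nat_lit 152) (nat_lit 0) (XT.lf (nat_lit 0) (nat_lit 7855038385) (nat_lit 152) (nat_lit 8261109993) (nat_lit 0) (nat_lit 191529243) (nat_lit 12) (nat_lit 5) (nat_lit 14) (nat_lit 4) (nat_lit 12) (nat_lit 4) (nat_lit 488) (nat_lit 364) (nat_lit 348)) (XT.nd (nat_lit 60996) (nat_lit 0) (nat_lit 4104) (XT.lf (nat_lit 0) (nat_lit 419971937) (nat_lit 152) (nat_lit 7184285436) (nat_lit 76) (nat_lit 9001307647) (nat_lit 10) (nat_lit 5) (nat_lit 12) (nat_lit 5) (nat_lit 11) (nat_lit 4) (nat_lit 489) (nat_lit 364) (nat_lit 347)) (XT.lf (nat_lit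 0) (nat_lit 427519480) (nat_lit 228) (nat_lit 2817438010) (nat_lit 228) (nat_lit 2817438010) (nat_lit 64) (nat_lit 4) (nat_lit 67) (nat_lit 5) (nat_lit 67) (nat_lit 4) (nat_lit 470) (nat_lit 365) (nat_lit 365)))) (XT.nd (nat_lit 78) (nat_lit 456) (nat_lit 0) (XT.lf (nat_lit 0) (nat_lit 2495788953) (nat_lit 228) (nat_lit 8061162844) (nat_lit 0) (nat_lit 1752082321) (nat_lit 61) (nat_lit 5) (nat_lit 64) (nat_lit 4) (nat_lit 61) (nat_lit 4) (nat_lit 471) (nat_lit 365) (nat_lit 364)) (XT.nd (nat_lit 78) (nat_lit 228) (nat_lit 0) (XT.lf (nat_lit 0) (nat_lit 7600436443) (nat_lit 228) (nat_lit 3181807733) (nat_lit 228) (nat_lit 1716055827) (nat_lit 58) (nat_lit 4) (nat_lit 61) (nat_lit 5) (nat_lit 61) (nat_lit 4) (nat_lit 472) (nat_lit 365) (nat_lit 363)) (XT.lf (nat_lit 0) (nat_lit 6518176043) (nat_lit 228) (nat_lit 1780701186) (nat_lit 0) (nat_lit 4393894930) (nat_lit 55) (nat_lit 5) (nat_lit 58) (nat_lit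 4) (nat_lit 55) (nat_lit 4) (nat_lit 473) (nat_lit 365) (nat_lit 362))))))))
noncomputable def xc2 : XT := (XT.nd (nat_lit 62556) (nat_lit 0) (nat_lit 0) (XT.nd (nat_lit 858) (nat_lit 760) (nat_lit 0) (XT.nd (nat_lit 390) (nat_lit 1292) (nat_lit 0) (XT.nd (nat_lit 156) (nat_lit 608) (nat_lit 0) (XT.nd (nat_lit 78) (nat_lit 228) (nat_lit 0) (XT.lf (nat_lit 0) (nat_lit 1328942385) (nat_lit 152) (nat_lit 710896912) (nat_lit 228) (nat_lit 10853072032) (nat_lit 49) (nat_lit 5) (nat_lit 51) (nat_lit 5) (nat_lit 52) (nat_lit 4) (nat_lit 474) (nat_lit 365) (nat_lit 361)) (XT.lf (nat_lit 0) (nat_lit 4390900031) (nat_lit 228) (nat_lit 6039493423) (nat_lit 228) (nat_lit 2667581306) (nat_lit 46) (nat_lit 4) (nat_lit 49) (nat_lit 5) (nat_lit 49) (nat_lit 4) (nat_lit 475) (nat_lit 365) (nat_lit 360))) (XT.nd (nat_lit 78) (nat_lit 380) (nat_lit 0) (XT.lf (nat_lit 0) (nat_lit 5660485054) (nat_lit 228) (nat_lit 5898349293)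 (nat_lit 0) (nat_lit 1750162818) (nat_lit 43) (nat_lit 5) (nat_lit 46) (nat_lit 4) (nat_lit 43) (nat_lit 4) (nat_lit 476) (nat_lit 365) (nat_lit 359)) (XT.nd (nat_lit 78) (nat_lit 152) (nat_lit 0) (XT.lf (nat_lit 0) (nat_lit 666039475) (nat_lit 228) (nat_lit 3151840984) (nat_lit 76) (nat_lit 9708061374) (nat_lit 40) (nat_lit 5) (nat_lit 43) (nat_lit 5) (nat_lit 41) (nat_lit 4) (nat_lit 477) (nat_lit 365) (nat_lit 358)) (XT.lf (nat_lit 0) (nat_lit 9113744912) (nat_lit 228) (nat_lit 488858475) (nat_lit 0) (nat_lit 4146034617) (nat_lit 38) (nat_lit 5) (nat_lit 41) (nat_lit 4) (nat_lit 38) (nat_lit 4) (nat_lit 478) (nat_lit 365) (nat_lit 357))))) (XT.nd (nat_lit 234) (nat_lit 532) (nat_lit 0) (XT.nd (nat_lit 78) (nat_lit 380) (nat_lit 0) (XT.lf (nat_lit 0) (nat_lit 2140313337) (nat_lit 152) (nat_lit 1647014886) (nat_lit 228) (nat_lit 10190179523) (nat_lit 33) (nat_lit 5) (nat_lit 35) (nat_lit 5) (nat_lit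 36) (nat_lit 4) (nat_lit 479) (nat_lit 365) (nat_lit 356)) (XT.nd (nat_lit 78) (nat_lit 228) (nat_lit 0) (XT.lf (nat_lit 0) (nat_lit 4683873895) (nat_lit 152) (nat_lit 7723453598) (nat_lit 152) (nat_lit 1805148111) (nat_lit 31) (nat_lit 4) (nat_lit 33) (nat_lit 5) (nat_lit 33) (nat_lit 4) (nat_lit 480) (nat_lit 365) (nat_lit 355)) (XT.lf (nat_lit 0) (nat_lit 6718886777) (nat_lit 228) (nat_lit 7309949592) (nat_lit 0) (nat_lit 425234162) (nat_lit 28) (nat_lit 5) (nat_lit 31) (nat_lit 4) (nat_lit 28) (nat_lit 4) (nat_lit 481) (nat_lit 365) (nat_lit 354)))) (XT.nd (nat_lit 78) (nat_lit 304) (nat_lit 0) (XT.lf (nat_lit 0) (nat_lit 778019860) (nat_lit 228) (nat_lit 5199132431) (nat_lit 76) (nat_lit 8725094096) (nat_lit 25) (nat_lit 5) (nat_lit 28) (nat_lit 5) (nat_lit 26) (nat_lit 4) (nat_lit 482) (nat_lit 365) (nat_lit 353)) (XT.nd (nat_lit 78) (nat_lit 228) (nat_lit 0) (XT.lf (nat_lit 0) (nat_lit 9423575249)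 (nat_lit 152) (nat_lit 3202134558) (nat_lit 0) (nat_lit 2331499805) (nat_lit 24) (nat_lit 5) (nat_lit 26) (nat_lit 4) (nat_lit 24) (nat_lit 4) (nat_lit 483) (nat_lit 365) (nat_lit 352)) (XT.lf (nat_lit 0) (nat_lit 3075496881) (nat_lit 228) (nat_lit 1320447817) (nat_lit 76) (nat_lit 10823326868) (nat_lit 21) (nat_lit 5) (nat_lit 24) (nat_lit 5) (nat_lit 22) (nat_lit 4) (nat_lit 484) (nat_lit 365) (nat_lit 351)))))) (XT.nd (nat_lit 61230) (nat_lit 0) (nat_lit 2888) (XT.nd (nat_lit 234) (nat_lit 228) (nat_lit 0) (XT.nd (nat_lit 78) (nat_lit 304) (nat_lit 0) (XT.lf (nat_lit 0) (nat_lit 439713398) (nat_lit 152) (nat_lit 11426833938) (nat_lit 152) (nat_lit 3621945171) (nat_lit 18) (nat_lit 4) (nat_lit 20) (nat_lit 5) (nat_lit 20) (nat_lit 4) (nat_lit 485) (nat_lit 365) (nat_lit 350)) (XT.nd (nat_lit 78) (nat_lit 152) (nat_lit 0) (XT.lf (nat_lit 0) (nat_lit 2079978304) (nat_lit 76) (nat_lit 3015213113) (nat_lit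 152) (nat_lit 10669788775) (nat_lit 16) (nat_lit 5) (nat_lit 17) (nat_lit 5) (nat_lit 18) (nat_lit 4) (nat_lit 486) (nat_lit 365) (nat_lit 349)) (XT.lf (nat_lit 0) (nat_lit 3575086079) (nat_lit 152) (nat_lit 10456570855) (nat_lit 152) (nat_lit 2017491089) (nat_lit 14) (nat_lit 4) (nat_lit 16) (nat_lit 5) (nat_lit 16) (nat_lit 4) (nat_lit 487) (nat_lit 365) (nat_lit 348)))) (XT.nd (nat_lit 78) (nat_lit 76) (nat_lit 0) (XT.lf (nat_lit 0) (nat_lit 4910752039) (nat_lit 76) (nat_lit 1884462716) (nat_lit 152) (nat_lit 9545910239) (nat_lit 12) (nat_lit 5) (nat_lit 13) (nat_lit 5) (nat_lit 14) (nat_lit 4) (nat_lit 488) (nat_lit 365) (nat_lit 347)) (XT.nd (nat_lit 60840) (nat_lit 0) (nat_lit 4788) (XT.lf (nat_lit 0) (nat_lit 6082395032) (nat_lit 76) (nat_lit 9779975085) (nat_lit 76) (nat_lit 778879311) (nat_lit 11) (nat_lit 4) (nat_lit 12) (nat_lit 5) (nat_lit 12) (nat_lit 4) (nat_lit 489) (nat_lit 365) (nat_lit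 346)) (XT.lf (nat_lit 0) (nat_lit 1502860589) (nat_lit 304) (nat_lit 2878986529) (nat_lit 0) (nat_lit 1502860589) (nat_lit 74) (nat_lit 5) (nat_lit 78) (nat_lit 4) (nat_lit 74) (nat_lit 4) (nat_lit 468) (nat_lit 366) (nat_lit 366))))) (XT.nd (nat_lit 234) (nat_lit 912) (nat_lit 0) (XT.nd (nat_lit 78) (nat_lit 760) (nat_lit 0) (XT.lf (nat_lit 0) (nat_lit 9435260606) (nat_lit 228) (nat_lit 1653713971) (nat_lit 228) (nat_lit 856749019) (nat_lit 71) (nat_lit 4) (nat_lit 74) (nat_lit 5) (nat_lit 74) (nat_lit 4) (nat_lit 469) (nat_lit 366) (nat_lit 365)) (XT.nd (nat_lit 78) (nat_lit 228) (nat_lit 0) (XT.lf (nat_lit 0) (nat_lit 701613708) (nat_lit 228) (nat_lit 6482422602) (nat_lit 228) (nat_lit 4942503650) (nat_lit 64) (nat_lit 4) (nat_lit 67) (nat_lit 5) (nat_lit 67) (nat_lit 4) (nat_lit 470) (nat_lit 366) (nat_lit 364)) (XT.lf (nat_lit 0) (nat_lit 3085893437) (nat_lit 228) (nat_lit 8372544177) (nat_lit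 0) (nat_lit 854123700) (nat_lit 61) (nat_lit 5) (nat_lit 64) (nat_lit 4) (nat_lit 61) (nat_lit 4) (nat_lit 471) (nat_lit 366) (nat_lit 363)))) (XT.nd (nat_lit 78) (nat_lit 684) (nat_lit 0) (XT.lf (nat_lit 0) (nat_lit 7134015764) (nat_lit 228) (nat_lit 4151171747) (nat_lit 228) (nat_lit 1218387181) (nat_lit 58) (nat_lit 4) (nat_lit 61) (nat_lit 5) (nat_lit 61) (nat_lit 4) (nat_lit 472) (nat_lit 366) (nat_lit 362)) (XT.nd (nat_lit 78) (nat_lit 456) (nat_lit 0) (XT.lf (nat_lit 0) (nat_lit 6915319283) (nat_lit 228) (nat_lit 2411758559) (nat_lit 0) (nat_lit 3372788414) (nat_lit 55) (nat_lit 5) (nat_lit 58) (nat_lit 4) (nat_lit 55) (nat_lit 4) (nat_lit 473) (nat_lit 366) (nat_lit 361)) (XT.lf (nat_lit 0) (nat_lit 519695160) (nat_lit 152) (nat_lit 1812009489) (nat_lit 228) (nat_lit 10570115361) (nat_lit 49) (nat_lit 5) (nat_lit 51) (nat_lit 5) (nat_lit 52) (nat_lit 4) (nat_lit 474) (nat_lit 366) (nat_lit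 360))))))) (XT.nd (nat_lit 858) (nat_lit 684) (nat_lit 0) (XT.nd (nat_lit 390) (nat_lit 988) (nat_lit 0) (XT.nd (nat_lit 156) (nat_lit 760) (nat_lit 0) (XT.nd (nat_lit 78) (nat_lit 228) (nat_lit 0) (XT.lf (nat_lit 0) (nat_lit 3418836894) (nat_lit 228) (nat_lit 7207386063) (nat_lit 228) (nat_lit 2482584957) (nat_lit 46) (nat_lit 4) (nat_lit 49) (nat_lit 5) (nat_lit 49) (nat_lit 4) (nat_lit 475) (nat_lit 366) (nat_lit 359)) (XT.lf (nat_lit 0) (nat_lit 5745907141) (nat_lit 228) (nat_lit 7049014987) (nat_lit 0) (nat_lit 526830705) (nat_lit 43) (nat_lit 5) (nat_lit 46) (nat_lit 4) (nat_lit 43) (nat_lit 4) (nat_lit 476) (nat_lit 366) (nat_lit 358))) (XT.nd (nat_lit 78) (nat_lit 532) (nat_lit 0) (XT.lf (nat_lit 0) (nat_lit 647992668) (nat_lit 228) (nat_lit 4479955020) (nat_lit 76) (nat_lit 8412538982) (nat_lit 40) (nat_lit 5) (nat_lit 43) (nat_lit 5) (nat_lit 41) (nat_lit 4) (nat_lit 477) (nat_lit 366) (nat_lit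 357)) (XT.nd (nat_lit 78) (nat_lit 380) (nat_lit 0) (XT.lf (nat_lit 0) (nat_lit 8997272077) (nat_lit 228) (nat_lit 1988382256) (nat_lit 0) (nat_lit 2779500333) (nat_lit 38) (nat_lit 5) (nat_lit 41) (nat_lit 4) (nat_lit 38) (nat_lit 4) (nat_lit 478) (nat_lit 366) (nat_lit 356)) (XT.lf (nat_lit 0) (nat_lit 436451392) (nat_lit 152) (nat_lit 3118402596) (nat_lit 228) (nat_lit 10441215412) (nat_lit 33) (nat_lit 5) (nat_lit 35) (nat_lit 5) (nat_lit 36) (nat_lit 4) (nat_lit 479) (nat_lit 366) (nat_lit 355))))) (XT.nd (nat_lit 234) (nat_lit 380) (nat_lit 0) (XT.nd (nat_lit 78) (nat_lit 456) (nat_lit 0) (XT.lf (nat_lit 0) (nat_lit 2801249899) (nat_lit 152) (nat_lit 9272571335) (nat_lit 152) (nat_lit 2159239718) (nat_lit 31) (nat_lit 4) (nat_lit 33) (nat_lit 5) (nat_lit 33) (nat_lit 4) (nat_lit 480) (nat_lit 366) (nat_lit 354)) (XT.nd (nat_lit 78) (nat_lit 228) (nat_lit 0) (XT.lf (nat_lit 0) (nat_lit 5075137726)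 (nat_lit 152) (nat_lit 1199659737) (nat_lit 228) (nat_lit 8201800135) (nat_lit 28) (nat_lit 5) (nat_lit 30) (nat_lit 5) (nat_lit 31) (nat_lit 4) (nat_lit 481) (nat_lit 366) (nat_lit 353)) (XT.lf (nat_lit 0) (nat_lit 216978131) (nat_lit 228) (nat_lit 7475823040) (nat_lit 76) (nat_lit 7034046543) (nat_lit 25) (nat_lit 5) (nat_lit 28) (nat_lit 5) (nat_lit 26) (nat_lit 4) (nat_lit 482) (nat_lit 366) (nat_lit 352)))) (XT.nd (nat_lit 78) (nat_lit 304) (nat_lit 0) (XT.lf (nat_lit 0) (nat_lit 8758354912) (nat_lit 152) (nat_lit 5667003512) (nat_lit 0) (nat_lit 558538774) (nat_lit 24) (nat_lit 5) (nat_lit 26) (nat_lit 4) (nat_lit 24) (nat_lit 4) (nat_lit 483) (nat_lit 366) (nat_lit 351)) (XT.nd (nat_lit 78) (nat_lit 76) (nat_lit 0) (XT.lf (nat_lit 0) (nat_lit 2299217128) (nat_lit 228) (nat_lit 3983432563) (nat_lit 76) (nat_lit 8965270790) (nat_lit 21) (nat_lit 5) (nat_lit 24) (nat_lit 5) (nat_lit 22) (nat_lit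 4) (nat_lit 484) (nat_lit 366) (nat_lit 350)) (XT.lf (nat_lit 0) (nat_lit 10981316849) (nat_lit 152) (nat_lit 2422786421) (nat_lit 0) (nat_lit 2115219647) (nat_lit 20) (nat_lit 5) (nat_lit 22) (nat_lit 4) (nat_lit 20) (nat_lit 4) (nat_lit 485) (nat_lit 366) (nat_lit 349)))))) (XT.nd (nat_lit 61074) (nat_lit 0) (nat_lit 3344) (XT.nd (nat_lit 234) (nat_lit 76) (nat_lit 0) (XT.nd (nat_lit 78) (nat_lit 380) (nat_lit 0) (XT.lf (nat_lit 0) (nat_lit 4086200959) (nat_lit 228) (nat_lit 1007524265) (nat_lit 76) (nat_lit 10704305571) (nat_lit 17) (nat_lit 5) (nat_lit 20) (nat_lit 5) (nat_lit 18) (nat_lit 4) (nat_lit 486) (nat_lit 366) (nat_lit 348)) (XT.nd (nat_lit 78) (nat_lit 152) (nat_lit 0) (XT.lf (nat_lit 0) (nat_lit 272009466) (nat_lit 152) (nat_lit 12634532581) (nat_lit 152) (nat_lit 3177981361) (nat_lit 14) (nat_lit 4) (nat_lit 16) (nat_lit 5) (nat_lit 16) (nat_lit 4) (nat_lit 487) (nat_lit 366) (nat_lit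 347)) (XT.lf (nat_lit 0) (nat_lit 1395792278) (nat_lit 76) (nat_lit 4157613375) (nat_lit 152) (nat_lit 10825178379) (nat_lit 12) (nat_lit 5) (nat_lit 13) (nat_lit 5) (nat_lit 14) (nat_lit 4) (nat_lit 488) (nat_lit 366) (nat_lit 346)))) (XT.nd (nat_lit 60684) (nat_lit 0) (nat_lit 5092) (XT.lf (nat_lit 0) (nat_lit 2359158513) (nat_lit 76) (nat_lit 12149607900) (nat_lit 76) (nat_lit 2172180067) (nat_lit 11) (nat_lit 4) (nat_lit 12) (nat_lit 5) (nat_lit 12) (nat_lit 4) (nat_lit 489) (nat_lit 366) (nat_lit 345)) (XT.nd (nat_lit 78) (nat_lit 532) (nat_lit 0) (XT.lf (nat_lit 0) (nat_lit 5365290819) (nat_lit 228) (nat_lit 174882841) (nat_lit 228) (nat_lit 174882841) (nat_lit 85) (nat_lit 4) (nat_lit 88) (nat_lit 5) (nat_lit 88) (nat_lit 4) (nat_lit 466) (nat_lit 367) (nat_lit 367)) (XT.lf (nat_lit 0) (nat_lit 2575217944) (nat_lit 228) (nat_lit 4930075815) (nat_lit 228) (nat_lit 4092784437) (nat_lit 78) (nat_lit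 4) (nat_lit 81) (nat_lit 5) (nat_lit 81) (nat_lit 4) (nat_lit 467) (nat_lit 367) (nat_lit 366))))) (XT.nd (nat_lit 234) (nat_lit 684) (nat_lit 0) (XT.nd (nat_lit 78) (nat_lit 760) (nat_lit 0) (XT.lf (nat_lit 0) (nat_lit 3740784337) (nat_lit 304) (nat_lit 5907406664) (nat_lit 0) (nat_lit 2122945485) (nat_lit 74) (nat_lit 5) (nat_lit 78) (nat_lit 4) (nat_lit 74) (nat_lit 4) (nat_lit 468) (nat_lit 367) (nat_lit 365)) (XT.nd (nat_lit 78) (nat_lit 532) (nat_lit 0) (XT.lf (nat_lit 0) (nat_lit 9136831885) (nat_lit 228) (nat_lit 2601956853) (nat_lit 228) (nat_lit 210365621) (nat_lit 71) (nat_lit 4) (nat_lit 74) (nat_lit 5) (nat_lit 74) (nat_lit 4) (nat_lit 469) (nat_lit 367) (nat_lit 364)) (XT.lf (nat_lit 0) (nat_lit 241203893) (nat_lit 228) (nat_lit 7485883967) (nat_lit 228) (nat_lit 4404700502) (nat_lit 64) (nat_lit 4) (nat_lit 67) (nat_lit 5) (nat_lit 67) (nat_lit 4) (nat_lit 470) (nat_lit 367) (nat_lit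 363)))) (XT.nd (nat_lit 78) (nat_lit 456) (nat_lit 0) (XT.lf (nat_lit 0) (nat_lit 3322705330) (nat_lit 152) (nat_lit 201514432) (nat_lit 228) (nat_lit 8795372858) (nat_lit 61) (nat_lit 5) (nat_lit 63) (nat_lit 5) (nat_lit 64) (nat_lit 4) (nat_lit 471) (nat_lit 367) (nat_lit 362)) (XT.nd (nat_lit 78) (nat_lit 228) (nat_lit 0) (XT.lf (nat_lit 0) (nat_lit 6356195144) (nat_lit 228) (nat_lit 5279277835) (nat_lit 228) (nat_lit 876897982) (nat_lit 58) (nat_lit 4) (nat_lit 61) (nat_lit 5) (nat_lit 61) (nat_lit 4) (nat_lit 472) (nat_lit 367) (nat_lit 361)) (XT.lf (nat_lit 0) (nat_lit 7157678686) (nat_lit 228) (nat_lit 3359033820) (nat_lit 0) (nat_lit 2193802644) (nat_lit 55) (nat_lit 5) (nat_lit 58) (nat_lit 4) (nat_lit 55) (nat_lit 4) (nat_lit 473) (nat_lit 367) (nat_lit 360))))))))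
noncomputable def xc3 : XT := (XT.nd (nat_lit 62244) (nat_lit 0) (nat_lit 0) (XT.nd (nat_lit 858) (nat_lit 684) (nat_lit 0) (XT.nd (nat_lit 390) (nat_lit 1292) (nat_lit 0) (XT.nd (nat_lit 156) (nat_lit 608) (nat_lit 0) (XT.nd (nat_lit 78) (nat_lit 380) (nat_lit 0) (XT.lf (nat_lit 0) (nat_lit 2469529780) (nat_lit 304) (nat_lit 604374781) (nat_lit 76) (nat_lit 9840354939) (nat_lit 51) (nat_lit 5) (nat_lit 55) (nat_lit 5) (nat_lit 52) (nat_lit 4) (nat_lit 474) (nat_lit 367) (nat_lit 359)) (XT.lf (nat_lit 0) (nat_lit 2121431845) (nat_lit 228) (nat_lit 8541826779) (nat_lit 228) (nat_lit 2460008216) (nat_lit 46) (nat_lit 4) (nat_lit 49) (nat_lit 5) (nat_lit 49) (nat_lit 4) (nat_lit 475) (nat_lit 367) (nat_lit 358))) (XT.nd (nat_lit 78) (nat_lit 380) (nat_lit 0) (XT.lf (nat_lit 0) (nat_lit 4802221153) (nat_lit 152) (nat_lit 873650117) (nat_lit 228) (nat_lit 7662187358) (nat_lit 43) (nat_lit 5) (nat_lit 45)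 (nat_lit 5) (nat_lit 46) (nat_lit 4) (nat_lit 476) (nat_lit 367) (nat_lit 357)) (XT.nd (nat_lit 78) (nat_lit 152) (nat_lit 0) (XT.lf (nat_lit 0) (nat_lit 467517100) (nat_lit 228) (nat_lit 6141233418) (nat_lit 76) (nat_lit 6949961790) (nat_lit 40) (nat_lit 5) (nat_lit 43) (nat_lit 5) (nat_lit 41) (nat_lit 4) (nat_lit 477) (nat_lit 367) (nat_lit 356)) (XT.lf (nat_lit 0) (nat_lit 8717418420) (nat_lit 228) (nat_lit 3823800428) (nat_lit 0) (nat_lit 1244152224) (nat_lit 38) (nat_lit 5) (nat_lit 41) (nat_lit 4) (nat_lit 38) (nat_lit 4) (nat_lit 478) (nat_lit 367) (nat_lit 355))))) (XT.nd (nat_lit 234) (nat_lit 532) (nat_lit 0) (XT.nd (nat_lit 78) (nat_lit 532) (nat_lit 0) (XT.lf (nat_lit 0) (nat_lit 3165831847) (nat_lit 228) (nat_lit 1589530448) (nat_lit 76) (nat_lit 9262823280) (nat_lit 35) (nat_lit 5) (nat_lit 38) (nat_lit 5) (nat_lit 36) (nat_lit 4) (nat_lit 479) (nat_lit 367) (nat_lit 354)) (XT.nd (nat_lit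 78) (nat_lit 228) (nat_lit 0) (XT.lf (nat_lit 0) (nat_lit 572447505) (nat_lit 152) (nat_lit 10999778663) (nat_lit 152) (nat_lit 2685205383) (nat_lit 31) (nat_lit 4) (nat_lit 33) (nat_lit 5) (nat_lit 33) (nat_lit 4) (nat_lit 480) (nat_lit 367) (nat_lit 353)) (XT.lf (nat_lit 0) (nat_lit 2654059887) (nat_lit 152) (nat_lit 3009841726) (nat_lit 228) (nat_lit 8838974270) (nat_lit 28) (nat_lit 5) (nat_lit 30) (nat_lit 5) (nat_lit 31) (nat_lit 4) (nat_lit 481) (nat_lit 367) (nat_lit 352)))) (XT.nd (nat_lit 78) (nat_lit 380) (nat_lit 0) (XT.lf (nat_lit 0) (nat_lit 4644275321) (nat_lit 152) (nat_lit 9587689966) (nat_lit 152) (nat_lit 523269536) (nat_lit 26) (nat_lit 4) (nat_lit 28) (nat_lit 5) (nat_lit 28) (nat_lit 4) (nat_lit 482) (nat_lit 367) (nat_lit 351)) (XT.nd (nat_lit 78) (nat_lit 228) (nat_lit 0) (XT.lf (nat_lit 0) (nat_lit 6514964960) (nat_lit 76) (nat_lit 1413738562) (nat_lit 152) (nat_lit 7085576671)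 (nat_lit 24) (nat_lit 5) (nat_lit 25) (nat_lit 5) (nat_lit 26) (nat_lit 4) (nat_lit 483) (nat_lit 367) (nat_lit 350)) (XT.lf (nat_lit 0) (nat_lit 1347649888) (nat_lit 228) (nat_lit 7008036930) (nat_lit 76) (nat_lit 6924787064) (nat_lit 21) (nat_lit 5) (nat_lit 24) (nat_lit 5) (nat_lit 22) (nat_lit 4) (nat_lit 484) (nat_lit 367) (nat_lit 349)))))) (XT.nd (nat_lit 60918) (nat_lit 0) (nat_lit 4180) (XT.nd (nat_lit 234) (nat_lit 304) (nat_lit 0) (XT.nd (nat_lit 78) (nat_lit 304) (nat_lit 0) (XT.lf (nat_lit 0) (nat_lit 9909399271) (nat_lit 76) (nat_lit 12953717) (nat_lit 152) (nat_lit 5631673673) (nat_lit 20) (nat_lit 5) (nat_lit 21) (nat_lit 5) (nat_lit 22) (nat_lit 4) (nat_lit 485) (nat_lit 367) (nat_lit 348)) (XT.nd (nat_lit 78) (nat_lit 76) (nat_lit 0) (XT.lf (nat_lit 0) (nat_lit 2912257832) (nat_lit 228) (nat_lit 4436323931) (nat_lit 76) (nat_lit 8486189469) (nat_lit 17) (nat_lit 5) (nat_lit 20) (nat_lit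 5) (nat_lit 18) (nat_lit 4) (nat_lit 486) (nat_lit 367) (nat_lit 347)) (XT.lf (nat_lit 0) (nat_lit 11621144540) (nat_lit 152) (nat_lit 3363491760) (nat_lit 0) (nat_lit 1138858860) (nat_lit 16) (nat_lit 5) (nat_lit 18) (nat_lit 4) (nat_lit 16) (nat_lit 4) (nat_lit 487) (nat_lit 367) (nat_lit 346)))) (XT.nd (nat_lit 78) (nat_lit 76) (nat_lit 0) (XT.lf (nat_lit 0) (nat_lit 4143498239) (nat_lit 228) (nat_lit 2467308482) (nat_lit 76) (nat_lit 9808981305) (nat_lit 13) (nat_lit 5) (nat_lit 16) (nat_lit 5) (nat_lit 14) (nat_lit 4) (nat_lit 488) (nat_lit 367) (nat_lit 345)) (XT.nd (nat_lit 60528) (nat_lit 0) (nat_lit 6080) (XT.lf (nat_lit 0) (nat_lit 12980534342) (nat_lit 152) (nat_lit 1725928372) (nat_lit 0) (nat_lit 2018056310) (nat_lit 12) (nat_lit 5) (nat_lit 14) (nat_lit 4) (nat_lit 12) (nat_lit 4) (nat_lit 489) (nat_lit 367) (nat_lit 344)) (XT.lf (nat_lit 0) (nat_lit 1993758503) (nat_lit 304) (nat_lit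 1779355781) (nat_lit 304) (nat_lit 1779355781) (nat_lit 92) (nat_lit 4) (nat_lit 96) (nat_lit 5) (nat_lit 96) (nat_lit 4) (nat_lit 464) (nat_lit 368) (nat_lit 368))))) (XT.nd (nat_lit 234) (nat_lit 836) (nat_lit 0) (XT.nd (nat_lit 78) (nat_lit 760) (nat_lit 0) (XT.lf (nat_lit 0) (nat_lit 4081606203) (nat_lit 304) (nat_lit 3982362596) (nat_lit 0) (nat_lit 3201947882) (nat_lit 88) (nat_lit 5) (nat_lit 92) (nat_lit 4) (nat_lit 88) (nat_lit 4) (nat_lit 465) (nat_lit 368) (nat_lit 367)) (XT.nd (nat_lit 78) (nat_lit 456) (nat_lit 0) (XT.lf (nat_lit 0) (nat_lit 438860889) (nat_lit 304) (nat_lit 847196530) (nat_lit 76) (nat_lit 10145673519) (nat_lit 84) (nat_lit 5) (nat_lit 88) (nat_lit 5) (nat_lit 85) (nat_lit 4) (nat_lit 466) (nat_lit 368) (nat_lit 366)) (XT.lf (nat_lit 0) (nat_lit 2280749871) (nat_lit 228) (nat_lit 5916674853) (nat_lit 228) (nat_lit 3404069106) (nat_lit 78) (nat_lit 4) (nat_lit 81) (nat_lit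 5) (nat_lit 81) (nat_lit 4) (nat_lit 467) (nat_lit 368) (nat_lit 365)))) (XT.nd (nat_lit 78) (nat_lit 532) (nat_lit 0) (XT.lf (nat_lit 0) (nat_lit 4328777247) (nat_lit 304) (nat_lit 6355838053) (nat_lit 0) (nat_lit 1091685899) (nat_lit 74) (nat_lit 5) (nat_lit 78) (nat_lit 4) (nat_lit 74) (nat_lit 4) (nat_lit 468) (nat_lit 368) (nat_lit 364)) (XT.nd (nat_lit 78) (nat_lit 228) (nat_lit 0) (XT.lf (nat_lit 0) (nat_lit 282250068) (nat_lit 304) (nat_lit 3418162112) (nat_lit 76) (nat_lit 8255569564) (nat_lit 70) (nat_lit 5) (nat_lit 74) (nat_lit 5) (nat_lit 71) (nat_lit 4) (nat_lit 469) (nat_lit 368) (nat_lit 363)) (XT.lf (nat_lit 0) (nat_lit 8122963131) (nat_lit 304) (nat_lit 519686426) (nat_lit 0) (nat_lit 3497822858) (nat_lit 67) (nat_lit 5) (nat_lit 71) (nat_lit 4) (nat_lit 67) (nat_lit 4) (nat_lit 470) (nat_lit 368) (nat_lit 362))))))) (XT.nd (nat_lit 936) (nat_lit 1064) (nat_lit 0) (XT.nd (nat_lit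 468) (nat_lit 1292) (nat_lit 0) (XT.nd (nat_lit 234) (nat_lit 912) (nat_lit 0) (XT.nd (nat_lit 78) (nat_lit 456) (nat_lit 0) (XT.lf (nat_lit 0) (nat_lit 2389953983) (nat_lit 152) (nat_lit 1426532707) (nat_lit 228) (nat_lit 8513540774) (nat_lit 61) (nat_lit 5) (nat_lit 63) (nat_lit 5) (nat_lit 64) (nat_lit 4) (nat_lit 471) (nat_lit 368) (nat_lit 361)) (XT.nd (nat_lit 78) (nat_lit 228) (nat_lit 0) (XT.lf (nat_lit 0) (nat_lit 5266294932) (nat_lit 228) (nat_lit 6567111721) (nat_lit 228) (nat_lit 691289841) (nat_lit 58) (nat_lit 4) (nat_lit 61) (nat_lit 5) (nat_lit 61) (nat_lit 4) (nat_lit 472) (nat_lit 368) (nat_lit 360)) (XT.lf (nat_lit 0) (nat_lit 7245466020) (nat_lit 228) (nat_lit 4623354685) (nat_lit 0) (nat_lit 855907438) (nat_lit 55) (nat_lit 5) (nat_lit 58) (nat_lit 4) (nat_lit 55) (nat_lit 4) (nat_lit 473) (nat_lit 368) (nat_lit 359)))) (XT.nd (nat_lit 78) (nat_lit 608) (nat_lit 0) (XT.lf (nat_lit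 0) (nat_lit 2454932308) (nat_lit 304) (nat_lit 2041225315) (nat_lit 76) (nat_lit 8434053102) (nat_lit 51) (nat_lit 5) (nat_lit 55) (nat_lit 5) (nat_lit 52) (nat_lit 4) (nat_lit 474) (nat_lit 368) (nat_lit 358)) (XT.nd (nat_lit 78) (nat_lit 228) (nat_lit 0) (XT.lf (nat_lit 0) (nat_lit 497551229) (nat_lit 228) (nat_lit 10043981586) (nat_lit 228) (nat_lit 2599831357) (nat_lit 46) (nat_lit 4) (nat_lit 49) (nat_lit 5) (nat_lit 49) (nat_lit 4) (nat_lit 475) (nat_lit 368) (nat_lit 357)) (XT.lf (nat_lit 0) (nat_lit 2998948366) (nat_lit 152) (nat_lit 2450254654) (nat_lit 228) (nat_lit 7908748044) (nat_lit 43) (nat_lit 5) (nat_lit 45) (nat_lit 5) (nat_lit 46) (nat_lit 4) (nat_lit 476) (nat_lit 368) (nat_lit 356))))) (XT.nd (nat_lit 234) (nat_lit 684) (nat_lit 0) (XT.nd (nat_lit 78) (nat_lit 380) (nat_lit 0) (XT.lf (nat_lit 0) (nat_lit 124455072) (nat_lit 228) (nat_lit 8137127780) (nat_lit 76) (nat_lit 5319051817)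 (nat_lit 40) (nat_lit 5) (nat_lit 43) (nat_lit 5) (nat_lit 41) (nat_lit 4) (nat_lit 477) (nat_lit 368) (nat_lit 355)) (XT.nd (nat_lit 78) (nat_lit 228) (nat_lit 0) (XT.lf (nat_lit 0) (nat_lit 7809492225) (nat_lit 152) (nat_lit 467482391) (nat_lit 228) (nat_lit 5532269566) (nat_lit 38) (nat_lit 5) (nat_lit 40) (nat_lit 5) (nat_lit 41) (nat_lit 4) (nat_lit 478) (nat_lit 368) (nat_lit 354)) (XT.lf (nat_lit 0) (nat_lit 2614529214) (nat_lit 228) (nat_lit 3950295639) (nat_lit 76) (nat_lit 7479158597) (nat_lit 35) (nat_lit 5) (nat_lit 38) (nat_lit 5) (nat_lit 36) (nat_lit 4) (nat_lit 479) (nat_lit 368) (nat_lit 353)))) (XT.nd (nat_lit 78) (nat_lit 532) (nat_lit 0) (XT.lf (nat_lit 0) (nat_lit 10915118426) (nat_lit 228) (nat_lit 1978191658) (nat_lit 0) (nat_lit 1392038321) (nat_lit 33) (nat_lit 5) (nat_lit 36) (nat_lit 4) (nat_lit 33) (nat_lit 4) (nat_lit 480) (nat_lit 368) (nat_lit 352)) (XT.nd (nat_lit 78)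 (nat_lit 304) (nat_lit 0) (XT.lf (nat_lit 0) (nat_lit 4883636405) (nat_lit 228) (nat_lit 116822033) (nat_lit 76) (nat_lit 9532510488) (nat_lit 30) (nat_lit 5) (nat_lit 33) (nat_lit 5) (nat_lit 31) (nat_lit 4) (nat_lit 481) (nat_lit 368) (nat_lit 351)) (XT.lf (nat_lit 0) (nat_lit 1681439692) (nat_lit 152) (nat_lit 11664325943) (nat_lit 152) (nat_lit 1441683580) (nat_lit 26) (nat_lit 4) (nat_lit 28) (nat_lit 5) (nat_lit 28) (nat_lit 4) (nat_lit 482) (nat_lit 368) (nat_lit 350)))))) (XT.nd (nat_lit 468) (nat_lit 76) (nat_lit 0) (XT.nd (nat_lit 234) (nat_lit 532) (nat_lit 0) (XT.nd (nat_lit 78) (nat_lit 304) (nat_lit 0) (XT.lf (nat_lit 0) (nat_lit 3351238634) (nat_lit 76) (nat_lit 3578345692) (nat_lit 152) (nat_lit 8118887054) (nat_lit 24) (nat_lit 5) (nat_lit 25) (nat_lit 5) (nat_lit 26) (nat_lit 4) (nat_lit 483) (nat_lit 368) (nat_lit 349)) (XT.nd (nat_lit 78) (nat_lit 76) (nat_lit 0) (XT.lf (nat_lit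 0) (nat_lit 219963694) (nat_lit 228) (nat_lit 10396903777) (nat_lit 76) (nat_lit 4700092744) (nat_lit 21) (nat_lit 5) (nat_lit 24) (nat_lit 5) (nat_lit 22) (nat_lit 4) (nat_lit 484) (nat_lit 368) (nat_lit 348)) (XT.lf (nat_lit 0) (nat_lit 6342941122) (nat_lit 76) (nat_lit 2357991672) (nat_lit 152) (nat_lit 6891457220) (nat_lit 20) (nat_lit 5) (nat_lit 21) (nat_lit 5) (nat_lit 22) (nat_lit 4) (nat_lit 485) (nat_lit 368) (nat_lit 347)))) (XT.nd (nat_lit 78) (nat_lit 304) (nat_lit 0) (XT.lf (nat_lit 0) (nat_lit 1558831662) (nat_lit 228) (nat_lit 8236696020) (nat_lit 76) (nat_lit 6079976015) (nat_lit 17) (nat_lit 5) (nat_lit 20) (nat_lit 5) (nat_lit 18) (nat_lit 4) (nat_lit 486) (nat_lit 368) (nat_lit 346)) (XT.nd (nat_lit 78) (nat_lit 228) (nat_lit 0) (XT.lf (nat_lit 0) (nat_lit 8786547547) (nat_lit 76) (nat_lit 1378833915) (nat_lit 152) (nat_lit 6000895062) (nat_lit 16) (nat_lit 5) (nat_lit 17) (nat_lit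 5) (nat_lit 18) (nat_lit 4) (nat_lit 487) (nat_lit 368) (nat_lit 345)) (XT.lf (nat_lit 0) (nat_lit 2559571839) (nat_lit 228) (nat_lit 6691396970) (nat_lit 76) (nat_lit 7213897944) (nat_lit 13) (nat_lit 5) (nat_lit 16) (nat_lit 5) (nat_lit 14) (nat_lit 4) (nat_lit 488) (nat_lit 368) (nat_lit 344))))) (XT.nd (nat_lit 60528) (nat_lit 0) (nat_lit 5472) (XT.nd (nat_lit 60372) (nat_lit 0) (nat_lit 6384) (XT.lf (nat_lit 0) (nat_lit 10603993360) (nat_lit 76) (nat_lit 683255450) (nat_lit 152) (nat_lit 5484538121) (nat_lit 12) (nat_lit 5) (nat_lit 13) (nat_lit 5) (nat_lit 14) (nat_lit 4) (nat_lit 489) (nat_lit 368) (nat_lit 343)) (XT.nd (nat_lit 78) (nat_lit 608) (nat_lit 0) (XT.lf (nat_lit 0) (nat_lit 2087804793) (nat_lit 304) (nat_lit 1221619182) (nat_lit 0) (nat_lit 2087804793) (nat_lit 104) (nat_lit 5) (nat_lit 108) (nat_lit 4) (nat_lit 104) (nat_lit 4) (nat_lit 462) (nat_lit 369) (nat_lit 369)) (XT.lf (nat_lit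 0) (nat_lit 700396209) (nat_lit 228) (nat_lit 112994197) (nat_lit 304) (nat_lit 10135346191) (nat_lit 96) (nat_lit 5) (nat_lit 99) (nat_lit 5) (nat_lit 100) (nat_lit 4) (nat_lit 463) (nat_lit 369) (nat_lit 368)))) (XT.nd (nat_lit 78) (nat_lit 608) (nat_lit 0) (XT.lf (nat_lit 0) (nat_lit 3846376731) (nat_lit 304) (nat_lit 4540826635) (nat_lit 304) (nat_lit 2719406114) (nat_lit 92) (nat_lit 4) (nat_lit 96) (nat_lit 5) (nat_lit 96) (nat_lit 4) (nat_lit 464) (nat_lit 369) (nat_lit 367)) (XT.nd (nat_lit 78) (nat_lit 304) (nat_lit 0) (XT.lf (nat_lit 0) (nat_lit 4819986982) (nat_lit 304) (nat_lit 4269050221) (nat_lit 0) (nat_lit 2180243384) (nat_lit 88) (nat_lit 5) (nat_lit 92) (nat_lit 4) (nat_lit 88) (nat_lit 4) (nat_lit 465) (nat_lit 369) (nat_lit 366)) (XT.lf (nat_lit 0) (nat_lit 1080706171) (nat_lit 304) (nat_lit 1285879467) (nat_lit 76) (nat_lit 9070089348) (nat_lit 84) (nat_lit 5) (nat_lit 88) (nat_lit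 5) (nat_lit 85) (nat_lit 4) (nat_lit 466) (nat_lit 369) (nat_lit 365))))))))
noncomputable def xc4 : XT := (XT.nd (nat_lit 61932) (nat_lit 0) (nat_lit 1216) (XT.nd (nat_lit 858) (nat_lit 2204) (nat_lit 0) (XT.nd (nat_lit 390) (nat_lit 1520) (nat_lit 0) (XT.nd (nat_lit 156) (nat_lit 988) (nat_lit 0) (XT.nd (nat_lit 78) (nat_lit 304) (nat_lit 0) (XT.lf (nat_lit 0) (nat_lit 1691556424) (nat_lit 228) (nat_lit 7053443629) (nat_lit 228) (nat_lit 2863328032) (nat_lit 78) (nat_lit 4) (nat_lit 81) (nat_lit 5) (nat_lit 81) (nat_lit 4) (nat_lit 467) (nat_lit 369) (nat_lit 364)) (XT.lf (nat_lit 0) (nat_lit 4680658050) (nat_lit 228) (nat_lit 90140894) (nat_lit 304) (nat_lit 7014103417) (nat_lit 74) (nat_lit 5) (nat_lit 77) (nat_lit 5) (nat_lit 78) (nat_lit 4) (nat_lit 468) (nat_lit 369) (nat_lit 363))) (XT.nd (nat_lit 78) (nat_lit 684) (nat_lit 0) (XT.lf (nat_lit 0) (nat_lit 624485550) (nat_lit 304) (nat_lit 4327047386)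 (nat_lit 76) (nat_lit 7014708058) (nat_lit 70) (nat_lit 5) (nat_lit 74) (nat_lit 5) (nat_lit 71) (nat_lit 4) (nat_lit 469) (nat_lit 369) (nat_lit 362)) (XT.nd (nat_lit 78) (nat_lit 456) (nat_lit 0) (XT.lf (nat_lit 0) (nat_lit 8372152227) (nat_lit 304) (nat_lit 1581430834) (nat_lit 0) (nat_lit 2199013760) (nat_lit 67) (nat_lit 5) (nat_lit 71) (nat_lit 4) (nat_lit 67) (nat_lit 4) (nat_lit 470) (nat_lit 369) (nat_lit 361)) (XT.lf (nat_lit 0) (nat_lit 1146679689) (nat_lit 152) (nat_lit 2810650676) (nat_lit 228) (nat_lit 8386656984) (nat_lit 61) (nat_lit 5) (nat_lit 63) (nat_lit 5) (nat_lit 64) (nat_lit 4) (nat_lit 471) (nat_lit 369) (nat_lit 360))))) (XT.nd (nat_lit 234) (nat_lit 760) (nat_lit 0) (XT.nd (nat_lit 78) (nat_lit 532) (nat_lit 0) (XT.lf (nat_lit 0) (nat_lit 3863362790) (nat_lit 228) (nat_lit 8015798697) (nat_lit 228) (nat_lit 661400578) (nat_lit 58) (nat_lit 4) (nat_lit 61) (nat_lit 5) (nat_lit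 61) (nat_lit 4) (nat_lit 472) (nat_lit 369) (nat_lit 359)) (XT.nd (nat_lit 78) (nat_lit 304) (nat_lit 0) (XT.lf (nat_lit 0) (nat_lit 6532383156) (nat_lit 152) (nat_lit 650598958) (nat_lit 228) (nat_lit 5559451062) (nat_lit 55) (nat_lit 5) (nat_lit 57) (nat_lit 5) (nat_lit 58) (nat_lit 4) (nat_lit 473) (nat_lit 369) (nat_lit 358)) (XT.lf (nat_lit 0) (nat_lit 2284525273) (nat_lit 304) (nat_lit 3798927835) (nat_lit 76) (nat_lit 6866301997) (nat_lit 51) (nat_lit 5) (nat_lit 55) (nat_lit 5) (nat_lit 52) (nat_lit 4) (nat_lit 474) (nat_lit 369) (nat_lit 357)))) (XT.nd (nat_lit 78) (nat_lit 608) (nat_lit 0) (XT.lf (nat_lit 0) (nat_lit 10270380955) (nat_lit 228) (nat_lit 1435151471) (nat_lit 0) (nat_lit 1457394461) (nat_lit 49) (nat_lit 5) (nat_lit 52) (nat_lit 4) (nat_lit 49) (nat_lit 4) (nat_lit 475) (nat_lit 369) (nat_lit 356)) (XT.nd (nat_lit 78) (nat_lit 152) (nat_lit 0) (XT.lf (nat_lit 0) (nat_lit 864879122)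 (nat_lit 152) (nat_lit 4197359217) (nat_lit 228) (nat_lit 8319278504) (nat_lit 43) (nat_lit 5) (nat_lit 45) (nat_lit 5) (nat_lit 46) (nat_lit 4) (nat_lit 476) (nat_lit 369) (nat_lit 355)) (XT.lf (nat_lit 0) (nat_lit 3134330799) (nat_lit 152) (nat_lit 10085328894) (nat_lit 152) (nat_lit 386563021) (nat_lit 41) (nat_lit 4) (nat_lit 43) (nat_lit 5) (nat_lit 43) (nat_lit 4) (nat_lit 477) (nat_lit 369) (nat_lit 354)))))) (XT.nd (nat_lit 468) (nat_lit 988) (nat_lit 0) (XT.nd (nat_lit 234) (nat_lit 608) (nat_lit 0) (XT.nd (nat_lit 78) (nat_lit 380) (nat_lit 0) (XT.lf (nat_lit 0) (nat_lit 5312254562) (nat_lit 152) (nat_lit 2369577853) (nat_lit 228) (nat_lit 6154836912) (nat_lit 38) (nat_lit 5) (nat_lit 40) (nat_lit 5) (nat_lit 41) (nat_lit 4) (nat_lit 478) (nat_lit 369) (nat_lit 353)) (XT.nd (nat_lit 78) (nat_lit 152) (nat_lit 0) (XT.lf (nat_lit 0) (nat_lit 1897630637) (nat_lit 228) (nat_lit 6653631123) (nat_lit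 76) (nat_lit 5522280480) (nat_lit 35) (nat_lit 5) (nat_lit 38) (nat_lit 5) (nat_lit 36) (nat_lit 4) (nat_lit 479) (nat_lit 369) (nat_lit 352)) (XT.lf (nat_lit 0) (nat_lit 9445542797) (nat_lit 152) (nat_lit 653590383) (nat_lit 228) (nat_lit 4217758542) (nat_lit 33) (nat_lit 5) (nat_lit 35) (nat_lit 5) (nat_lit 36) (nat_lit 4) (nat_lit 480) (nat_lit 369) (nat_lit 351)))) (XT.nd (nat_lit 78) (nat_lit 380) (nat_lit 0) (XT.lf (nat_lit 0) (nat_lit 3952079702) (nat_lit 228) (nat_lit 3202034705) (nat_lit 76) (nat_lit 7412413422) (nat_lit 30) (nat_lit 5) (nat_lit 33) (nat_lit 5) (nat_lit 31) (nat_lit 4) (nat_lit 481) (nat_lit 369) (nat_lit 350)) (XT.nd (nat_lit 78) (nat_lit 228) (nat_lit 0) (XT.lf (nat_lit 0) (nat_lit 12298003590) (nat_lit 228) (nat_lit 1617124328) (nat_lit 0) (nat_lit 908206889) (nat_lit 28) (nat_lit 5) (nat_lit 31) (nat_lit 4) (nat_lit 28) (nat_lit 4) (nat_lit 482) (nat_lit 369) (nat_lit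 349)) (XT.lf (nat_lit 0) (nat_lit 5757574904) (nat_lit 228) (nat_lit 171028738) (nat_lit 76) (nat_lit 9157947985) (nat_lit 25) (nat_lit 5) (nat_lit 28) (nat_lit 5) (nat_lit 26) (nat_lit 4) (nat_lit 483) (nat_lit 369) (nat_lit 348))))) (XT.nd (nat_lit 234) (nat_lit 380) (nat_lit 0) (XT.nd (nat_lit 78) (nat_lit 380) (nat_lit 0) (XT.lf (nat_lit 0) (nat_lit 1197137354) (nat_lit 152) (nat_lit 13060887683) (nat_lit 152) (nat_lit 1099243585) (nat_lit 22) (nat_lit 4) (nat_lit 24) (nat_lit 5) (nat_lit 24) (nat_lit 4) (nat_lit 484) (nat_lit 369) (nat_lit 347)) (XT.nd (nat_lit 78) (nat_lit 228) (nat_lit 0) (XT.lf (nat_lit 0) (nat_lit 2408239965) (nat_lit 76) (nat_lit 4893833122) (nat_lit 152) (nat_lit 8332651729) (nat_lit 20) (nat_lit 5) (nat_lit 21) (nat_lit 5) (nat_lit 22) (nat_lit 4) (nat_lit 485) (nat_lit 369) (nat_lit 346)) (XT.lf (nat_lit 0) (nat_lit 24739843) (nat_lit 228) (nat_lit 12411961246) (nat_lit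 76) (nat_lit 3483562692) (nat_lit 17) (nat_lit 5) (nat_lit 20) (nat_lit 5) (nat_lit 18) (nat_lit 4) (nat_lit 486) (nat_lit 369) (nat_lit 345)))) (XT.nd (nat_lit 78) (nat_lit 304) (nat_lit 0) (XT.lf (nat_lit 0) (nat_lit 4429366932) (nat_lit 76) (nat_lit 4106646127) (nat_lit 152) (nat_lit 7676931180) (nat_lit 16) (nat_lit 5) (nat_lit 17) (nat_lit 5) (nat_lit 18) (nat_lit 4) (nat_lit 487) (nat_lit 369) (nat_lit 344)) (XT.nd (nat_lit 78) (nat_lit 76) (nat_lit 0) (XT.lf (nat_lit 0) (nat_lit 791180031) (nat_lit 228) (nat_lit 11298470201) (nat_lit 76) (nat_lit 4424390615) (nat_lit 13) (nat_lit 5) (nat_lit 16) (nat_lit 5) (nat_lit 14) (nat_lit 4) (nat_lit 488) (nat_lit 369) (nat_lit 343)) (XT.lf (nat_lit 0) (nat_lit 5811505120) (nat_lit 76) (nat_lit 3610738898) (nat_lit 152) (nat_lit 7400651206) (nat_lit 12) (nat_lit 5) (nat_lit 13) (nat_lit 5) (nat_lit 14) (nat_lit 4) (nat_lit 489) (nat_lit 369) (nat_lit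 342))))))) (XT.nd (nat_lit 858) (nat_lit 2964) (nat_lit 0) (XT.nd (nat_lit 390) (nat_lit 1900) (nat_lit 0) (XT.nd (nat_lit 156) (nat_lit 1216) (nat_lit 0) (XT.nd (nat_lit 78) (nat_lit 304) (nat_lit 0) (XT.lf (nat_lit 0) (nat_lit 490250585) (nat_lit 380) (nat_lit 4268433424) (nat_lit 0) (nat_lit 490250585) (nat_lit 112) (nat_lit 5) (nat_lit 117) (nat_lit 4) (nat_lit 112) (nat_lit 4) (nat_lit 460) (nat_lit 370) (nat_lit 370)) (XT.lf (nat_lit 0) (nat_lit 5083880295) (nat_lit 304) (nat_lit 3275633547) (nat_lit 304) (nat_lit 2285282922) (nat_lit 108) (nat_lit 4) (nat_lit 112) (nat_lit 5) (nat_lit 112) (nat_lit 4) (nat_lit 461) (nat_lit 370) (nat_lit 369))) (XT.nd (nat_lit 78) (nat_lit 912) (nat_lit 0) (XT.lf (nat_lit 0) (nat_lit 5064551670) (nat_lit 304) (nat_lit 2580584137) (nat_lit 0) (nat_lit 3150967271) (nat_lit 104) (nat_lit 5) (nat_lit 108) (nat_lit 4) (nat_lit 104) (nat_lit 4) (nat_lit 462) (nat_lit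 370) (nat_lit 368)) (XT.nd (nat_lit 78) (nat_lit 304) (nat_lit 0) (XT.lf (nat_lit 0) (nat_lit 413848870) (nat_lit 228) (nat_lit 1191413400) (nat_lit 304) (nat_lit 9346685867) (nat_lit 96) (nat_lit 5) (nat_lit 99) (nat_lit 5) (nat_lit 100) (nat_lit 4) (nat_lit 463) (nat_lit 370) (nat_lit 367)) (XT.lf (nat_lit 0) (nat_lit 3422832579) (nat_lit 304) (nat_lit 5666609492) (nat_lit 304) (nat_lit 2022176918) (nat_lit 92) (nat_lit 4) (nat_lit 96) (nat_lit 5) (nat_lit 96) (nat_lit 4) (nat_lit 464) (nat_lit 370) (nat_lit 366))))) (XT.nd (nat_lit 234) (nat_lit 836) (nat_lit 0) (XT.nd (nat_lit 78) (nat_lit 760) (nat_lit 0) (XT.lf (nat_lit 0) (nat_lit 5417735405) (nat_lit 304) (nat_lit 4842675975) (nat_lit 0) (nat_lit 1015599958) (nat_lit 88) (nat_lit 5) (nat_lit 92) (nat_lit 4) (nat_lit 88) (nat_lit 4) (nat_lit 465) (nat_lit 370) (nat_lit 365)) (XT.nd (nat_lit 78) (nat_lit 456) (nat_lit 0) (XT.lf (nat_lit 0) (nat_lit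 1580918238) (nat_lit 304) (nat_lit 2013692580) (nat_lit 76) (nat_lit 7850384067) (nat_lit 84) (nat_lit 5) (nat_lit 88) (nat_lit 5) (nat_lit 85) (nat_lit 4) (nat_lit 466) (nat_lit 370) (nat_lit 364)) (XT.lf (nat_lit 0) (nat_lit 807122773) (nat_lit 228) (nat_lit 8341375436) (nat_lit 228) (nat_lit 2470088722) (nat_lit 78) (nat_lit 4) (nat_lit 81) (nat_lit 5) (nat_lit 81) (nat_lit 4) (nat_lit 467) (nat_lit 370) (nat_lit 363)))) (XT.nd (nat_lit 78) (nat_lit 532) (nat_lit 0) (XT.lf (nat_lit 0) (nat_lit 3635930421) (nat_lit 228) (nat_lit 1438891202) (nat_lit 304) (nat_lit 6721974148) (nat_lit 74) (nat_lit 5) (nat_lit 77) (nat_lit 5) (nat_lit 78) (nat_lit 4) (nat_lit 468) (nat_lit 370) (nat_lit 362)) (XT.nd (nat_lit 78) (nat_lit 228) (nat_lit 0) (XT.lf (nat_lit 0) (nat_lit 819398847) (nat_lit 304) (nat_lit 5538406637) (nat_lit 76) (nat_lit 5622162907) (nat_lit 70) (nat_lit 5) (nat_lit 74) (nat_lit 5) (nat_lit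 71) (nat_lit 4) (nat_lit 469) (nat_lit 370) (nat_lit 361)) (XT.lf (nat_lit 0) (nat_lit 8473306831) (nat_lit 304) (nat_lit 2948120501) (nat_lit 0) (nat_lit 746776166) (nat_lit 67) (nat_lit 5) (nat_lit 71) (nat_lit 4) (nat_lit 67) (nat_lit 4) (nat_lit 470) (nat_lit 370) (nat_lit 360)))))) (XT.nd (nat_lit 468) (nat_lit 1292) (nat_lit 0) (XT.nd (nat_lit 234) (nat_lit 760) (nat_lit 0) (XT.nd (nat_lit 78) (nat_lit 608) (nat_lit 0) (XT.lf (nat_lit 0) (nat_lit 3949524186) (nat_lit 304) (nat_lit 402850238) (nat_lit 76) (nat_lit 8009057044) (nat_lit 63) (nat_lit 5) (nat_lit 67) (nat_lit 5) (nat_lit 64) (nat_lit 4) (nat_lit 471) (nat_lit 370) (nat_lit 359)) (XT.nd (nat_lit 78) (nat_lit 228) (nat_lit 0) (XT.lf (nat_lit 0) (nat_lit 2146172854) (nat_lit 228) (nat_lit 9626604607) (nat_lit 228) (nat_lit 787204074) (nat_lit 58) (nat_lit 4) (nat_lit 61) (nat_lit 5) (nat_lit 61) (nat_lit 4) (nat_lit 472) (nat_lit 370)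 (nat_lit 358)) (XT.lf (nat_lit 0) (nat_lit 4640625240) (nat_lit 152) (nat_lit 2332012048) (nat_lit 228) (nat_lit 5790959130) (nat_lit 55) (nat_lit 5) (nat_lit 57) (nat_lit 5) (nat_lit 58) (nat_lit 4) (nat_lit 473) (nat_lit 370) (nat_lit 357)))) (XT.nd (nat_lit 78) (nat_lit 456) (nat_lit 0) (XT.lf (nat_lit 0) (nat_lit 1958159776) (nat_lit 304) (nat_lit 5879018198) (nat_lit 76) (nat_lit 5135731746) (nat_lit 51) (nat_lit 5) (nat_lit 55) (nat_lit 5) (nat_lit 52) (nat_lit 4) (nat_lit 474) (nat_lit 370) (nat_lit 356)) (XT.nd (nat_lit 78) (nat_lit 304) (nat_lit 0) (XT.lf (nat_lit 0) (nat_lit 9499140888) (nat_lit 152) (nat_lit 348609003) (nat_lit 228) (nat_lit 3340260258) (nat_lit 49) (nat_lit 5) (nat_lit 51) (nat_lit 5) (nat_lit 52) (nat_lit 4) (nat_lit 475) (nat_lit 370) (nat_lit 355)) (XT.lf (nat_lit 0) (nat_lit 4525039385) (nat_lit 304) (nat_lit 1580842732) (nat_lit 76) (nat_lit 7302686433) (nat_lit 45)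 (nat_lit 5) (nat_lit 49) (nat_lit 5) (nat_lit 46) (nat_lit 4) (nat_lit 476) (nat_lit 370) (nat_lit 354))))) (XT.nd (nat_lit 234) (nat_lit 532) (nat_lit 0) (XT.nd (nat_lit 78) (nat_lit 456) (nat_lit 0) (XT.lf (nat_lit 0) (nat_lit 488563971) (nat_lit 152) (nat_lit 12082213286) (nat_lit 152) (nat_lit 1064733917) (nat_lit 41) (nat_lit 4) (nat_lit 43) (nat_lit 5) (nat_lit 43) (nat_lit 4) (nat_lit 477) (nat_lit 370) (nat_lit 353)) (XT.nd (nat_lit 78) (nat_lit 228) (nat_lit 0) (XT.lf (nat_lit 0) (nat_lit 2476024517) (nat_lit 152) (nat_lit 4447262057) (nat_lit 228) (nat_lit 6944547597) (nat_lit 38) (nat_lit 5) (nat_lit 40) (nat_lit 5) (nat_lit 41) (nat_lit 4) (nat_lit 478) (nat_lit 370) (nat_lit 352)) (XT.lf (nat_lit 0) (nat_lit 1014509700) (nat_lit 228) (nat_lit 9701899037) (nat_lit 76) (nat_lit 3390479037) (nat_lit 35) (nat_lit 5) (nat_lit 38) (nat_lit 5) (nat_lit 36) (nat_lit 4) (nat_lit 479) (nat_lit 370)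 (nat_lit 351)))) (XT.nd (nat_lit 78) (nat_lit 380) (nat_lit 0) (XT.lf (nat_lit 0) (nat_lit 6228906879) (nat_lit 152) (nat_lit 2897008814) (nat_lit 228) (nat_lit 5226126206) (nat_lit 33) (nat_lit 5) (nat_lit 35) (nat_lit 5) (nat_lit 36) (nat_lit 4) (nat_lit 480) (nat_lit 370) (nat_lit 350)) (XT.nd (nat_lit 78) (nat_lit 152) (nat_lit 0) (XT.lf (nat_lit 0) (nat_lit 2851185607) (nat_lit 228) (nat_lit 6639082418) (nat_lit 76) (nat_lit 5113658531) (nat_lit 30) (nat_lit 5) (nat_lit 33) (nat_lit 5) (nat_lit 31) (nat_lit 4) (nat_lit 481) (nat_lit 370) (nat_lit 349)) (XT.lf (nat_lit 0) (nat_lit 9603929441) (nat_lit 152) (nat_lit 1496155111) (nat_lit 228) (nat_lit 3762591987) (nat_lit 28) (nat_lit 5) (nat_lit 30) (nat_lit 5) (nat_lit 31) (nat_lit 4) (nat_lit 482) (nat_lit 370) (nat_lit 348))))))))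
noncomputable def xc5 : XT := (XT.nd (nat_lit 61776) (nat_lit 0) (nat_lit 76) (XT.nd (nat_lit 60840) (nat_lit 0) (nat_lit 3268) (XT.nd (nat_lit 390) (nat_lit 380) (nat_lit 0) (XT.nd (nat_lit 156) (nat_lit 532) (nat_lit 0) (XT.nd (nat_lit 78) (nat_lit 76) (nat_lit 0) (XT.lf (nat_lit 0) (nat_lit 4434646096) (nat_lit 228) (nat_lit 4008465109) (nat_lit 76) (nat_lit 6684983100) (nat_lit 25) (nat_lit 5) (nat_lit 28) (nat_lit 5) (nat_lit 26) (nat_lit 4) (nat_lit 483) (nat_lit 370) (nat_lit 347)) (XT.lf (nat_lit 0) (nat_lit 12542317516) (nat_lit 76) (nat_lit 277819804) (nat_lit 152) (nat_lit 2580975476) (nat_lit 24) (nat_lit 5) (nat_lit 25) (nat_lit 5) (nat_lit 26) (nat_lit 4) (nat_lit 484) (nat_lit 370) (nat_lit 346))) (XT.nd (nat_lit 78) (nat_lit 304) (nat_lit 0) (XT.lf (nat_lit 0) (nat_lit 5736875563) (nat_lit 228) (nat_lit 1873247809) (nat_lit 76) (nat_lit 8070698206) (nat_lit 21) (nat_lit 5) (nat_lit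 24) (nat_lit 5) (nat_lit 22) (nat_lit 4) (nat_lit 485) (nat_lit 370) (nat_lit 345)) (XT.nd (nat_lit 78) (nat_lit 228) (nat_lit 0) (XT.lf (nat_lit 0) (nat_lit 14261577479) (nat_lit 152) (nat_lit 994806746) (nat_lit 0) (nat_lit 712352928) (nat_lit 20) (nat_lit 5) (nat_lit 22) (nat_lit 4) (nat_lit 20) (nat_lit 4) (nat_lit 486) (nat_lit 370) (nat_lit 344)) (XT.lf (nat_lit 0) (nat_lit 6726120931) (nat_lit 228) (nat_lit 303667763) (nat_lit 76) (nat_lit 9233860281) (nat_lit 17) (nat_lit 5) (nat_lit 20) (nat_lit 5) (nat_lit 18) (nat_lit 4) (nat_lit 487) (nat_lit 370) (nat_lit 343))))) (XT.nd (nat_lit 60216) (nat_lit 0) (nat_lit 7296) (XT.nd (nat_lit 78) (nat_lit 152) (nat_lit 0) (XT.lf (nat_lit 0) (nat_lit 266993672) (nat_lit 152) (nat_lit 15121525560) (nat_lit 152) (nat_lit 1178680994) (nat_lit 14) (nat_lit 4) (nat_lit 16) (nat_lit 5) (nat_lit 16) (nat_lit 4) (nat_lit 488) (nat_lit 370) (nat_lit 342)) (XT.nd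 (nat_lit 60060) (nat_lit 0) (nat_lit 8664) (XT.lf (nat_lit 0) (nat_lit 630480543) (nat_lit 76) (nat_lit 6740133123) (nat_lit 152) (nat_lit 9507540433) (nat_lit 12) (nat_lit 5) (nat_lit 13) (nat_lit 5) (nat_lit 14) (nat_lit 4) (nat_lit 489) (nat_lit 370) (nat_lit 341)) (XT.lf (nat_lit 0) (nat_lit 3058836103) (nat_lit 304) (nat_lit 1024088445) (nat_lit 304) (nat_lit 1024088445) (nat_lit 126) (nat_lit 4) (nat_lit 130) (nat_lit 5) (nat_lit 130) (nat_lit 4) (nat_lit 458) (nat_lit 371) (nat_lit 371)))) (XT.nd (nat_lit 78) (nat_lit 988) (nat_lit 0) (XT.lf (nat_lit 0) (nat_lit 5118223582) (nat_lit 380) (nat_lit 1158652372) (nat_lit 0) (nat_lit 4077761215) (nat_lit 121) (nat_lit 5) (nat_lit 126) (nat_lit 4) (nat_lit 121) (nat_lit 4) (nat_lit 459) (nat_lit 371) (nat_lit 370)) (XT.nd (nat_lit 78) (nat_lit 304) (nat_lit 0) (XT.lf (nat_lit 0) (nat_lit 1826634559) (nat_lit 304) (nat_lit 92798393) (nat_lit 380) (nat_lit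 8580064857) (nat_lit 112) (nat_lit 5) (nat_lit 116) (nat_lit 5) (nat_lit 117) (nat_lit 4) (nat_lit 460) (nat_lit 371) (nat_lit 369)) (XT.lf (nat_lit 0) (nat_lit 4813489799) (nat_lit 304) (nat_lit 4403246430) (nat_lit 304) (nat_lit 1431329199) (nat_lit 108) (nat_lit 4) (nat_lit 112) (nat_lit 5) (nat_lit 112) (nat_lit 4) (nat_lit 461) (nat_lit 371) (nat_lit 368)))))) (XT.nd (nat_lit 468) (nat_lit 1976) (nat_lit 0) (XT.nd (nat_lit 234) (nat_lit 836) (nat_lit 0) (XT.nd (nat_lit 78) (nat_lit 912) (nat_lit 0) (XT.lf (nat_lit 0) (nat_lit 5818570266) (nat_lit 304) (nat_lit 2992741467) (nat_lit 0) (nat_lit 1989729404) (nat_lit 104) (nat_lit 5) (nat_lit 108) (nat_lit 4) (nat_lit 104) (nat_lit 4) (nat_lit 462) (nat_lit 371) (nat_lit 367)) (XT.nd (nat_lit 78) (nat_lit 532) (nat_lit 0) (XT.lf (nat_lit 0) (nat_lit 2260444122) (nat_lit 380) (nat_lit 151284042) (nat_lit 76) (nat_lit 8546747554) (nat_lit 99) (nat_lit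 5) (nat_lit 104) (nat_lit 5) (nat_lit 100) (nat_lit 4) (nat_lit 463) (nat_lit 371) (nat_lit 366)) (XT.lf (nat_lit 0) (nat_lit 2716514463) (nat_lit 304) (nat_lit 6937043827) (nat_lit 304) (nat_lit 1466414744) (nat_lit 92) (nat_lit 4) (nat_lit 96) (nat_lit 5) (nat_lit 96) (nat_lit 4) (nat_lit 464) (nat_lit 371) (nat_lit 365)))) (XT.nd (nat_lit 78) (nat_lit 532) (nat_lit 0) (XT.lf (nat_lit 0) (nat_lit 5580407549) (nat_lit 228) (nat_lit 296893860) (nat_lit 304) (nat_lit 5408774857) (nat_lit 88) (nat_lit 5) (nat_lit 91) (nat_lit 5) (nat_lit 92) (nat_lit 4) (nat_lit 465) (nat_lit 371) (nat_lit 364)) (XT.nd (nat_lit 78) (nat_lit 228) (nat_lit 0) (XT.lf (nat_lit 0) (nat_lit 1939934169) (nat_lit 304) (nat_lit 3031271824) (nat_lit 76) (nat_lit 6485491915) (nat_lit 84) (nat_lit 5) (nat_lit 88) (nat_lit 5) (nat_lit 85) (nat_lit 4) (nat_lit 466) (nat_lit 371) (nat_lit 363)) (XT.lf (nat_lit 0) (nat_lit 9410695629)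 (nat_lit 304) (nat_lit 368427678) (nat_lit 0) (nat_lit 1853107548) (nat_lit 81) (nat_lit 5) (nat_lit 85) (nat_lit 4) (nat_lit 81) (nat_lit 4) (nat_lit 467) (nat_lit 371) (nat_lit 362))))) (XT.nd (nat_lit 234) (nat_lit 912) (nat_lit 0) (XT.nd (nat_lit 78) (nat_lit 532) (nat_lit 0) (XT.lf (nat_lit 0) (nat_lit 2292693177) (nat_lit 228) (nat_lit 2941235612) (nat_lit 304) (nat_lit 6578206673) (nat_lit 74) (nat_lit 5) (nat_lit 77) (nat_lit 5) (nat_lit 78) (nat_lit 4) (nat_lit 468) (nat_lit 371) (nat_lit 361)) (XT.nd (nat_lit 78) (nat_lit 228) (nat_lit 0) (XT.lf (nat_lit 0) (nat_lit 867160272) (nat_lit 304) (nat_lit 7053298333) (nat_lit 76) (nat_lit 4076717325) (nat_lit 70) (nat_lit 5) (nat_lit 74) (nat_lit 5) (nat_lit 71) (nat_lit 4) (nat_lit 469) (nat_lit 371) (nat_lit 360)) (XT.lf (nat_lit 0) (nat_lit 7560584341) (nat_lit 228) (nat_lit 871589928) (nat_lit 304) (nat_lit 3755018634) (nat_lit 67) (nat_lit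 5) (nat_lit 70) (nat_lit 5) (nat_lit 71) (nat_lit 4) (nat_lit 470) (nat_lit 371) (nat_lit 359)))) (XT.nd (nat_lit 78) (nat_lit 608) (nat_lit 0) (XT.lf (nat_lit 0) (nat_lit 3799885685) (nat_lit 304) (nat_lit 2246204563) (nat_lit 76) (nat_lit 6336148326) (nat_lit 63) (nat_lit 5) (nat_lit 67) (nat_lit 5) (nat_lit 64) (nat_lit 4) (nat_lit 471) (nat_lit 371) (nat_lit 358)) (XT.nd (nat_lit 78) (nat_lit 228) (nat_lit 0) (XT.lf (nat_lit 0) (nat_lit 113224667) (nat_lit 228) (nat_lit 11400936949) (nat_lit 228) (nat_lit 1068810255) (nat_lit 58) (nat_lit 4) (nat_lit 61) (nat_lit 5) (nat_lit 61) (nat_lit 4) (nat_lit 472) (nat_lit 371) (nat_lit 357)) (XT.lf (nat_lit 0) (nat_lit 2430190310) (nat_lit 152) (nat_lit 4178426465) (nat_lit 228) (nat_lit 6179732206) (nat_lit 55) (nat_lit 5) (nat_lit 57) (nat_lit 5) (nat_lit 58) (nat_lit 4) (nat_lit 473) (nat_lit 371) (nat_lit 356))))))) (XT.nd (nat_lit 936) (nat_lit 608)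 (nat_lit 0) (XT.nd (nat_lit 468) (nat_lit 1140) (nat_lit 0) (XT.nd (nat_lit 234) (nat_lit 684) (nat_lit 0) (XT.nd (nat_lit 78) (nat_lit 456) (nat_lit 0) (XT.lf (nat_lit 0) (nat_lit 1475550643) (nat_lit 304) (nat_lit 8283313959) (nat_lit 76) (nat_lit 3240830200) (nat_lit 51) (nat_lit 5) (nat_lit 55) (nat_lit 5) (nat_lit 52) (nat_lit 4) (nat_lit 474) (nat_lit 371) (nat_lit 355)) (XT.nd (nat_lit 78) (nat_lit 304) (nat_lit 0) (XT.lf (nat_lit 0) (nat_lit 6936018795) (nat_lit 152) (nat_lit 2342437589) (nat_lit 228) (nat_lit 3938075775) (nat_lit 49) (nat_lit 5) (nat_lit 51) (nat_lit 5) (nat_lit 52) (nat_lit 4) (nat_lit 475) (nat_lit 371) (nat_lit 354)) (XT.lf (nat_lit 0) (nat_lit 3834516610) (nat_lit 304) (nat_lit 4345646935) (nat_lit 76) (nat_lit 5259018679) (nat_lit 45) (nat_lit 5) (nat_lit 49) (nat_lit 5) (nat_lit 46) (nat_lit 4) (nat_lit 476) (nat_lit 371) (nat_lit 353)))) (XT.nd (nat_lit 78) (nat_lit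 532) (nat_lit 0) (XT.lf (nat_lit 0) (nat_lit 11201848159) (nat_lit 152) (nat_lit 577649040) (nat_lit 228) (nat_lit 1888645790) (nat_lit 43) (nat_lit 5) (nat_lit 45) (nat_lit 5) (nat_lit 46) (nat_lit 4) (nat_lit 477) (nat_lit 371) (nat_lit 352)) (XT.nd (nat_lit 78) (nat_lit 304) (nat_lit 0) (XT.lf (nat_lit 0) (nat_lit 6005230035) (nat_lit 228) (nat_lit 692473558) (nat_lit 76) (nat_lit 7204971239) (nat_lit 40) (nat_lit 5) (nat_lit 43) (nat_lit 5) (nat_lit 41) (nat_lit 4) (nat_lit 478) (nat_lit 371) (nat_lit 351)) (XT.lf (nat_lit 0) (nat_lit 1046047343) (nat_lit 152) (nat_lit 13061918730) (nat_lit 152) (nat_lit 36078431) (nat_lit 36) (nat_lit 4) (nat_lit 38) (nat_lit 5) (nat_lit 38) (nat_lit 4) (nat_lit 479) (nat_lit 371) (nat_lit 350))))) (XT.nd (nat_lit 234) (nat_lit 532) (nat_lit 0) (XT.nd (nat_lit 78) (nat_lit 380) (nat_lit 0) (XT.lf (nat_lit 0) (nat_lit 2663779652) (nat_lit 152) (nat_lit 5321677783)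 (nat_lit 228) (nat_lit 6405555379) (nat_lit 33) (nat_lit 5) (nat_lit 35) (nat_lit 5) (nat_lit 36) (nat_lit 4) (nat_lit 480) (nat_lit 371) (nat_lit 349)) (XT.nd (nat_lit 78) (nat_lit 152) (nat_lit 0) (XT.lf (nat_lit 0) (nat_lit 1579992172) (nat_lit 228) (nat_lit 10430968417) (nat_lit 76) (nat_lit 2634237193) (nat_lit 30) (nat_lit 5) (nat_lit 33) (nat_lit 5) (nat_lit 31) (nat_lit 4) (nat_lit 481) (nat_lit 371) (nat_lit 348)) (XT.lf (nat_lit 0) (nat_lit 5639659703) (nat_lit 152) (nat_lit 4097840387) (nat_lit 228) (nat_lit 5168277931) (nat_lit 28) (nat_lit 5) (nat_lit 30) (nat_lit 5) (nat_lit 31) (nat_lit 4) (nat_lit 482) (nat_lit 371) (nat_lit 347)))) (XT.nd (nat_lit 78) (nat_lit 304) (nat_lit 0) (XT.lf (nat_lit 0) (nat_lit 2937883483) (nat_lit 228) (nat_lit 8208375675) (nat_lit 76) (nat_lit 4027311728) (nat_lit 25) (nat_lit 5) (nat_lit 28) (nat_lit 5) (nat_lit 26) (nat_lit 4) (nat_lit 483) (nat_lit 371)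 (nat_lit 346)) (XT.nd (nat_lit 78) (nat_lit 228) (nat_lit 0) (XT.lf (nat_lit 0) (nat_lit 8166721351) (nat_lit 76) (nat_lit 3064087049) (nat_lit 152) (nat_lit 4217634551) (nat_lit 24) (nat_lit 5) (nat_lit 25) (nat_lit 5) (nat_lit 26) (nat_lit 4) (nat_lit 484) (nat_lit 371) (nat_lit 345)) (XT.lf (nat_lit 0) (nat_lit 4009711328) (nat_lit 228) (nat_lit 6493671023) (nat_lit 76) (nat_lit 5227223455) (nat_lit 21) (nat_lit 5) (nat_lit 24) (nat_lit 5) (nat_lit 22) (nat_lit 4) (nat_lit 485) (nat_lit 371) (nat_lit 344)))))) (XT.nd (nat_lit 60294) (nat_lit 0) (nat_lit 6536) (XT.nd (nat_lit 234) (nat_lit 228) (nat_lit 0) (XT.nd (nat_lit 78) (nat_lit 304) (nat_lit 0) (XT.lf (nat_lit 0) (nat_lit 10179111022) (nat_lit 76) (nat_lit 2256745696) (nat_lit 152) (nat_lit 3584637870) (nat_lit 20) (nat_lit 5) (nat_lit 21) (nat_lit 5) (nat_lit 22) (nat_lit 4) (nat_lit 486) (nat_lit 371) (nat_lit 343)) (XT.nd (nat_lit 78) (nat_lit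 76) (nat_lit 0) (XT.lf (nat_lit 0) (nat_lit 4763375817) (nat_lit 228) (nat_lit 5357602761) (nat_lit 76) (nat_lit 6196871416) (nat_lit 17) (nat_lit 5) (nat_lit 20) (nat_lit 5) (nat_lit 18) (nat_lit 4) (nat_lit 487) (nat_lit 371) (nat_lit 342)) (XT.lf (nat_lit 0) (nat_lit 11603617554) (nat_lit 76) (nat_lit 1715620196) (nat_lit 152) (nat_lit 3304296142) (nat_lit 16) (nat_lit 5) (nat_lit 17) (nat_lit 5) (nat_lit 18) (nat_lit 4) (nat_lit 488) (nat_lit 371) (nat_lit 341)))) (XT.nd (nat_lit 59904) (nat_lit 0) (nat_lit 8892) (XT.lf (nat_lit 0) (nat_lit 5162662245) (nat_lit 228) (nat_lit 4878771179) (nat_lit 76) (nat_lit 6895536470) (nat_lit 13) (nat_lit 5) (nat_lit 16) (nat_lit 5) (nat_lit 14) (nat_lit 4) (nat_lit 489) (nat_lit 371) (nat_lit 340)) (XT.nd (nat_lit 78) (nat_lit 380) (nat_lit 0) (XT.lf (nat_lit 0) (nat_lit 55532709) (nat_lit 380) (nat_lit 2457988868) (nat_lit 380) (nat_lit 2457988868) (nat_lit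 135) (nat_lit 4) (nat_lit 140) (nat_lit 5) (nat_lit 140) (nat_lit 4) (nat_lit 456) (nat_lit 372) (nat_lit 372)) (XT.lf (nat_lit 0) (nat_lit 2070718668) (nat_lit 380) (nat_lit 7029088867) (nat_lit 0) (nat_lit 977608905) (nat_lit 130) (nat_lit 5) (nat_lit 135) (nat_lit 4) (nat_lit 130) (nat_lit 4) (nat_lit 457) (nat_lit 372) (nat_lit 371))))) (XT.nd (nat_lit 234) (nat_lit 988) (nat_lit 0) (XT.nd (nat_lit 78) (nat_lit 1064) (nat_lit 0) (XT.lf (nat_lit 0) (nat_lit 5988345580) (nat_lit 304) (nat_lit 3190831938) (nat_lit 304) (nat_lit 1036450561) (nat_lit 126) (nat_lit 4) (nat_lit 130) (nat_lit 5) (nat_lit 130) (nat_lit 4) (nat_lit 458) (nat_lit 372) (nat_lit 370)) (XT.nd (nat_lit 78) (nat_lit 684) (nat_lit 0) (XT.lf (nat_lit 0) (nat_lit 6029264080) (nat_lit 380) (nat_lit 1421630458) (nat_lit 0) (nat_lit 2906967837) (nat_lit 121) (nat_lit 5) (nat_lit 126) (nat_lit 4) (nat_lit 121) (nat_lit 4) (nat_lit 459)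 (nat_lit 372) (nat_lit 369)) (XT.lf (nat_lit 0) (nat_lit 1417159938) (nat_lit 304) (nat_lit 1315608255) (nat_lit 380) (nat_lit 7771494273) (nat_lit 112) (nat_lit 5) (nat_lit 116) (nat_lit 5) (nat_lit 117) (nat_lit 4) (nat_lit 460) (nat_lit 372) (nat_lit 368)))) (XT.nd (nat_lit 78) (nat_lit 684) (nat_lit 0) (XT.lf (nat_lit 0) (nat_lit 4272472544) (nat_lit 304) (nat_lit 5669106864) (nat_lit 304) (nat_lit 713026206) (nat_lit 108) (nat_lit 4) (nat_lit 112) (nat_lit 5) (nat_lit 112) (nat_lit 4) (nat_lit 461) (nat_lit 372) (nat_lit 367)) (XT.nd (nat_lit 78) (nat_lit 380) (nat_lit 0) (XT.lf (nat_lit 0) (nat_lit 6438324226) (nat_lit 304) (nat_lit 3680070491) (nat_lit 0) (nat_lit 690881312) (nat_lit 104) (nat_lit 5) (nat_lit 108) (nat_lit 4) (nat_lit 104) (nat_lit 4) (nat_lit 462) (nat_lit 372) (nat_lit 366)) (XT.lf (nat_lit 0) (nat_lit 2783024307) (nat_lit 380) (nat_lit 988394307) (nat_lit 76) (nat_lit 7196836114)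 (nat_lit 99) (nat_lit 5) (nat_lit 104) (nat_lit 5) (nat_lit 100) (nat_lit 4) (nat_lit 463) (nat_lit 372) (nat_lit 365))))))))
noncomputable def xc6 : XT := (XT.nd (nat_lit 1794) (nat_lit 532) (nat_lit 0) (XT.nd (nat_lit 858) (nat_lit 2356) (nat_lit 0) (XT.nd (nat_lit 390) (nat_lit 1748) (nat_lit 0) (XT.nd (nat_lit 156) (nat_lit 1064) (nat_lit 0) (XT.nd (nat_lit 78) (nat_lit 304) (nat_lit 0) (XT.lf (nat_lit 0) (nat_lit 1726805212) (nat_lit 304) (nat_lit 8353239728) (nat_lit 304) (nat_lit 1051633975) (nat_lit 92) (nat_lit 4) (nat_lit 96) (nat_lit 5) (nat_lit 96) (nat_lit 4) (nat_lit 464) (nat_lit 372) (nat_lit 364)) (XT.lf (nat_lit 0) (nat_lit 4434880639) (nat_lit 228) (nat_lit 1769912785) (nat_lit 304) (nat_lit 5094576600) (nat_lit 88) (nat_lit 5) (nat_lit 91) (nat_lit 5) (nat_lit 92) (nat_lit 4) (nat_lit 465) (nat_lit 372) (nat_lit 363))) (XT.nd (nat_lit 78) (nat_lit 760) (nat_lit 0) (XT.lf (nat_lit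 0) (nat_lit 2158067667) (nat_lit 304) (nat_lit 4339506345) (nat_lit 76) (nat_lit 4974220266) (nat_lit 84) (nat_lit 5) (nat_lit 88) (nat_lit 5) (nat_lit 85) (nat_lit 4) (nat_lit 466) (nat_lit 372) (nat_lit 362)) (XT.nd (nat_lit 78) (nat_lit 532) (nat_lit 0) (XT.lf (nat_lit 0) (nat_lit 9536564419) (nat_lit 304) (nat_lit 1826541245) (nat_lit 0) (nat_lit 286071253) (nat_lit 81) (nat_lit 5) (nat_lit 85) (nat_lit 4) (nat_lit 81) (nat_lit 4) (nat_lit 467) (nat_lit 372) (nat_lit 361)) (XT.lf (nat_lit 0) (nat_lit 649772617) (nat_lit 228) (nat_lit 4598486852) (nat_lit 304) (nat_lit 6582675370) (nat_lit 74) (nat_lit 5) (nat_lit 77) (nat_lit 5) (nat_lit 78) (nat_lit 4) (nat_lit 468) (nat_lit 372) (nat_lit 360))))) (XT.nd (nat_lit 234) (nat_lit 912) (nat_lit 0) (XT.nd (nat_lit 78) (nat_lit 532) (nat_lit 0) (XT.lf (nat_lit 0) (nat_lit 767811558) (nat_lit 304) (nat_lit 8873046165) (nat_lit 76) (nat_lit 2377020922)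 (nat_lit 70) (nat_lit 5) (nat_lit 74) (nat_lit 5) (nat_lit 71) (nat_lit 4) (nat_lit 469) (nat_lit 372) (nat_lit 359)) (XT.nd (nat_lit 78) (nat_lit 304) (nat_lit 0) (XT.lf (nat_lit 0) (nat_lit 5590938349) (nat_lit 228) (nat_lit 2658056354) (nat_lit 304) (nat_lit 3960581403) (nat_lit 67) (nat_lit 5) (nat_lit 70) (nat_lit 5) (nat_lit 71) (nat_lit 4) (nat_lit 470) (nat_lit 372) (nat_lit 358)) (XT.lf (nat_lit 0) (nat_lit 3500839104) (nat_lit 304) (nat_lit 4400032894) (nat_lit 76) (nat_lit 4505703752) (nat_lit 63) (nat_lit 5) (nat_lit 67) (nat_lit 5) (nat_lit 64) (nat_lit 4) (nat_lit 471) (nat_lit 372) (nat_lit 357)))) (XT.nd (nat_lit 78) (nat_lit 760) (nat_lit 0) (XT.lf (nat_lit 0) (nat_lit 10396540029) (nat_lit 152) (nat_lit 725785998) (nat_lit 228) (nat_lit 1486842376) (nat_lit 61) (nat_lit 5) (nat_lit 63) (nat_lit 5) (nat_lit 64) (nat_lit 4) (nat_lit 472) (nat_lit 372) (nat_lit 356)) (XT.nd (nat_lit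 78) (nat_lit 456) (nat_lit 0) (XT.lf (nat_lit 0) (nat_lit 6091257306) (nat_lit 304) (nat_lit 99530375) (nat_lit 76) (nat_lit 6625911717) (nat_lit 57) (nat_lit 5) (nat_lit 61) (nat_lit 5) (nat_lit 58) (nat_lit 4) (nat_lit 473) (nat_lit 372) (nat_lit 355)) (XT.lf (nat_lit 0) (nat_lit 836276177) (nat_lit 304) (nat_lit 11013915959) (nat_lit 76) (nat_lit 1179941619) (nat_lit 51) (nat_lit 5) (nat_lit 55) (nat_lit 5) (nat_lit 52) (nat_lit 4) (nat_lit 474) (nat_lit 372) (nat_lit 354)))))) (XT.nd (nat_lit 468) (nat_lit 1140) (nat_lit 0) (XT.nd (nat_lit 234) (nat_lit 608) (nat_lit 0) (XT.nd (nat_lit 78) (nat_lit 456) (nat_lit 0) (XT.lf (nat_lit 0) (nat_lit 4045949398) (nat_lit 152) (nat_lit 4506465469) (nat_lit 228) (nat_lit 4696294730) (nat_lit 49) (nat_lit 5) (nat_lit 51) (nat_lit 5) (nat_lit 52) (nat_lit 4) (nat_lit 475) (nat_lit 372) (nat_lit 353)) (XT.nd (nat_lit 78) (nat_lit 152) (nat_lit 0) (XT.lf (nat_lit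 0) (nat_lit 2984451278) (nat_lit 304) (nat_lit 7443292381) (nat_lit 76) (nat_lit 3045753267) (nat_lit 45) (nat_lit 5) (nat_lit 49) (nat_lit 5) (nat_lit 46) (nat_lit 4) (nat_lit 476) (nat_lit 372) (nat_lit 352)) (XT.lf (nat_lit 0) (nat_lit 7941931791) (nat_lit 152) (nat_lit 2899938785) (nat_lit 228) (nat_lit 2862341247) (nat_lit 43) (nat_lit 5) (nat_lit 45) (nat_lit 5) (nat_lit 46) (nat_lit 4) (nat_lit 477) (nat_lit 372) (nat_lit 351)))) (XT.nd (nat_lit 78) (nat_lit 380) (nat_lit 0) (XT.lf (nat_lit 0) (nat_lit 4940611960) (nat_lit 228) (nat_lit 4168230533) (nat_lit 76) (nat_lit 4832104234) (nat_lit 40) (nat_lit 5) (nat_lit 43) (nat_lit 5) (nat_lit 41) (nat_lit 4) (nat_lit 478) (nat_lit 372) (nat_lit 350)) (XT.nd (nat_lit 78) (nat_lit 228) (nat_lit 0) (XT.lf (nat_lit 0) (nat_lit 11542729262) (nat_lit 152) (nat_lit 1398270789) (nat_lit 228) (nat_lit 1243365991) (nat_lit 38) (nat_lit 5) (nat_lit 40) (nat_lit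 5) (nat_lit 41) (nat_lit 4) (nat_lit 479) (nat_lit 372) (nat_lit 349)) (XT.lf (nat_lit 0) (nat_lit 6684896897) (nat_lit 228) (nat_lit 1236521326) (nat_lit 76) (nat_lit 6512257593) (nat_lit 35) (nat_lit 5) (nat_lit 38) (nat_lit 5) (nat_lit 36) (nat_lit 4) (nat_lit 480) (nat_lit 372) (nat_lit 348))))) (XT.nd (nat_lit 234) (nat_lit 380) (nat_lit 0) (XT.nd (nat_lit 78) (nat_lit 380) (nat_lit 0) (XT.lf (nat_lit 0) (nat_lit 109183562) (nat_lit 152) (nat_lit 28389406) (nat_lit 228) (nat_lit 14552800918) (nat_lit 30) (nat_lit 5) (nat_lit 32) (nat_lit 5) (nat_lit 33) (nat_lit 5) (nat_lit 481) (nat_lit 372) (nat_lit 347)) (XT.nd (nat_lit 78) (nat_lit 228) (nat_lit 0) (XT.lf (nat_lit 0) (nat_lit 1316031886) (nat_lit 152) (nat_lit 6887052665) (nat_lit 228) (nat_lit 6749711864) (nat_lit 28) (nat_lit 5) (nat_lit 30) (nat_lit 5) (nat_lit 31) (nat_lit 4) (nat_lit 482) (nat_lit 372) (nat_lit 346)) (XT.lf (nat_lit 0)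 (nat_lit 1265979215) (nat_lit 228) (nat_lit 12774430260) (nat_lit 76) (nat_lit 1182611631) (nat_lit 25) (nat_lit 5) (nat_lit 28) (nat_lit 5) (nat_lit 26) (nat_lit 4) (nat_lit 483) (nat_lit 372) (nat_lit 345)))) (XT.nd (nat_lit 78) (nat_lit 304) (nat_lit 0) (XT.lf (nat_lit 0) (nat_lit 3423606694) (nat_lit 76) (nat_lit 6042213609) (nat_lit 152) (nat_lit 6033936728) (nat_lit 24) (nat_lit 5) (nat_lit 25) (nat_lit 5) (nat_lit 26) (nat_lit 4) (nat_lit 484) (nat_lit 372) (nat_lit 344)) (XT.nd (nat_lit 78) (nat_lit 76) (nat_lit 0) (XT.lf (nat_lit 0) (nat_lit 2103435317) (nat_lit 228) (nat_lit 11488651440) (nat_lit 76) (nat_lit 2192346959) (nat_lit 21) (nat_lit 5) (nat_lit 24) (nat_lit 5) (nat_lit 22) (nat_lit 4) (nat_lit 485) (nat_lit 372) (nat_lit 343)) (XT.lf (nat_lit 0) (nat_lit 5003406799) (nat_lit 76) (nat_lit 5431688439) (nat_lit 152) (nat_lit 5641118989) (nat_lit 20) (nat_lit 5) (nat_lit 21) (nat_lit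 5) (nat_lit 22) (nat_lit 4) (nat_lit 486) (nat_lit 372) (nat_lit 342))))))) (XT.nd (nat_lit 60528) (nat_lit 0) (nat_lit 3344) (XT.nd (nat_lit 60060) (nat_lit 0) (nat_lit 7220) (XT.nd (nat_lit 156) (nat_lit 228) (nat_lit 0) (XT.nd (nat_lit 78) (nat_lit 76) (nat_lit 0) (XT.lf (nat_lit 0) (nat_lit 2617304309) (nat_lit 228) (nat_lit 10794946064) (nat_lit 76) (nat_lit 2963919450) (nat_lit 17) (nat_lit 5) (nat_lit 20) (nat_lit 5) (nat_lit 18) (nat_lit 4) (nat_lit 487) (nat_lit 372) (nat_lit 341)) (XT.lf (nat_lit 0) (nat_lit 5981684902) (nat_lit 76) (nat_lit 5095463050) (nat_lit 152) (nat_lit 5606627999) (nat_lit 16) (nat_lit 5) (nat_lit 17) (nat_lit 5) (nat_lit 18) (nat_lit 4) (nat_lit 488) (nat_lit 372) (nat_lit 340))) (XT.nd (nat_lit 59748) (nat_lit 0) (nat_lit 10032) (XT.lf (nat_lit 0) (nat_lit 2771012401) (nat_lit 228) (nat_lit 10772469069) (nat_lit 76) (nat_lit 3456421494) (nat_lit 13) (nat_lit 5) (nat_lit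 16) (nat_lit 5) (nat_lit 14) (nat_lit 4) (nat_lit 489) (nat_lit 372) (nat_lit 339)) (XT.nd (nat_lit 78) (nat_lit 380) (nat_lit 0) (XT.lf (nat_lit 0) (nat_lit 1046832661) (nat_lit 456) (nat_lit 2748399372) (nat_lit 0) (nat_lit 1046832661) (nat_lit 150) (nat_lit 5) (nat_lit 156) (nat_lit 4) (nat_lit 150) (nat_lit 4) (nat_lit 454) (nat_lit 373) (nat_lit 373)) (XT.lf (nat_lit 0) (nat_lit 7054495366) (nat_lit 380) (nat_lit 1964717134) (nat_lit 380) (nat_lit 793327595) (nat_lit 145) (nat_lit 4) (nat_lit 150) (nat_lit 5) (nat_lit 150) (nat_lit 4) (nat_lit 455) (nat_lit 373) (nat_lit 372))))) (XT.nd (nat_lit 234) (nat_lit 1368) (nat_lit 0) (XT.nd (nat_lit 78) (nat_lit 1064) (nat_lit 0) (XT.lf (nat_lit 0) (nat_lit 6095958391) (nat_lit 380) (nat_lit 16094092) (nat_lit 0) (nat_lit 3832565316) (nat_lit 140) (nat_lit 5) (nat_lit 145) (nat_lit 4) (nat_lit 140) (nat_lit 4) (nat_lit 456) (nat_lit 373) (nat_lit 371))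 (XT.nd (nat_lit 78) (nat_lit 304) (nat_lit 0) (XT.lf (nat_lit 0) (nat_lit 2790819050) (nat_lit 304) (nat_lit 247155787) (nat_lit 380) (nat_lit 7042627664) (nat_lit 130) (nat_lit 5) (nat_lit 134) (nat_lit 5) (nat_lit 135) (nat_lit 4) (nat_lit 457) (nat_lit 373) (nat_lit 370)) (XT.lf (nat_lit 0) (nat_lit 5600252694) (nat_lit 304) (nat_lit 4465414141) (nat_lit 304) (nat_lit 154768917) (nat_lit 126) (nat_lit 4) (nat_lit 130) (nat_lit 5) (nat_lit 130) (nat_lit 4) (nat_lit 458) (nat_lit 373) (nat_lit 369)))) (XT.nd (nat_lit 78) (nat_lit 988) (nat_lit 0) (XT.lf (nat_lit 0) (nat_lit 6811678764) (nat_lit 380) (nat_lit 1947816416) (nat_lit 0) (nat_lit 1604820425) (nat_lit 121) (nat_lit 5) (nat_lit 126) (nat_lit 4) (nat_lit 121) (nat_lit 4) (nat_lit 459) (nat_lit 373) (nat_lit 368)) (XT.nd (nat_lit 78) (nat_lit 304) (nat_lit 0) (XT.lf (nat_lit 0) (nat_lit 738800364) (nat_lit 304) (nat_lit 2675966546) (nat_lit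 380) (nat_lit 7097529428) (nat_lit 112) (nat_lit 5) (nat_lit 116) (nat_lit 5) (nat_lit 117) (nat_lit 4) (nat_lit 460) (nat_lit 373) (nat_lit 367)) (XT.lf (nat_lit 0) (nat_lit 3460355797) (nat_lit 304) (nat_lit 7074320939) (nat_lit 304) (nat_lit 129746299) (nat_lit 108) (nat_lit 4) (nat_lit 112) (nat_lit 5) (nat_lit 112) (nat_lit 4) (nat_lit 461) (nat_lit 373) (nat_lit 366)))))) (XT.nd (nat_lit 468) (nat_lit 1824) (nat_lit 0) (XT.nd (nat_lit 234) (nat_lit 836) (nat_lit 0) (XT.nd (nat_lit 78) (nat_lit 912) (nat_lit 0) (XT.lf (nat_lit 0) (nat_lit 6172632331) (nat_lit 228) (nat_lit 756635329) (nat_lit 304) (nat_lit 3891449036) (nat_lit 104) (nat_lit 5) (nat_lit 107) (nat_lit 5) (nat_lit 108) (nat_lit 4) (nat_lit 462) (nat_lit 373) (nat_lit 365)) (XT.nd (nat_lit 78) (nat_lit 532) (nat_lit 0) (XT.lf (nat_lit 0) (nat_lit 3170772465) (nat_lit 380) (nat_lit 2103641083) (nat_lit 76) (nat_lit 5706933901) (nat_lit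 99) (nat_lit 5) (nat_lit 104) (nat_lit 5) (nat_lit 100) (nat_lit 4) (nat_lit 463) (nat_lit 373) (nat_lit 364)) (XT.lf (nat_lit 0) (nat_lit 452840032) (nat_lit 304) (nat_lit 9916434648) (nat_lit 304) (nat_lit 777472181) (nat_lit 92) (nat_lit 4) (nat_lit 96) (nat_lit 5) (nat_lit 96) (nat_lit 4) (nat_lit 464) (nat_lit 373) (nat_lit 363)))) (XT.nd (nat_lit 78) (nat_lit 532) (nat_lit 0) (XT.lf (nat_lit 0) (nat_lit 3002568899) (nat_lit 228) (nat_lit 3391247131) (nat_lit 304) (nat_lit 4922221832) (nat_lit 88) (nat_lit 5) (nat_lit 91) (nat_lit 5) (nat_lit 92) (nat_lit 4) (nat_lit 465) (nat_lit 373) (nat_lit 362)) (XT.nd (nat_lit 78) (nat_lit 228) (nat_lit 0) (XT.lf (nat_lit 0) (nat_lit 2235509334) (nat_lit 304) (nat_lit 5939539260) (nat_lit 76) (nat_lit 3315248593) (nat_lit 84) (nat_lit 5) (nat_lit 88) (nat_lit 5) (nat_lit 85) (nat_lit 4) (nat_lit 466) (nat_lit 373) (nat_lit 361)) (XT.lf (nat_lit 0) (nat_lit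 8080867712) (nat_lit 228) (nat_lit 1449517704) (nat_lit 304) (nat_lit 2138971096) (nat_lit 81) (nat_lit 5) (nat_lit 84) (nat_lit 5) (nat_lit 85) (nat_lit 4) (nat_lit 467) (nat_lit 373) (nat_lit 360))))) (XT.nd (nat_lit 234) (nat_lit 760) (nat_lit 0) (XT.nd (nat_lit 78) (nat_lit 760) (nat_lit 0) (XT.lf (nat_lit 0) (nat_lit 5126229424) (nat_lit 304) (nat_lit 1277292279) (nat_lit 76) (nat_lit 5449520562) (nat_lit 77) (nat_lit 5) (nat_lit 81) (nat_lit 5) (nat_lit 78) (nat_lit 4) (nat_lit 468) (nat_lit 373) (nat_lit 359)) (XT.nd (nat_lit 78) (nat_lit 228) (nat_lit 0) (XT.lf (nat_lit 0) (nat_lit 521265896) (nat_lit 304) (nat_lit 10999240206) (nat_lit 76) (nat_lit 521588527) (nat_lit 70) (nat_lit 5) (nat_lit 74) (nat_lit 5) (nat_lit 71) (nat_lit 4) (nat_lit 469) (nat_lit 373) (nat_lit 358)) (XT.lf (nat_lit 0) (nat_lit 3314435232) (nat_lit 228) (nat_lit 4604259837) (nat_lit 304) (nat_lit 4316775856) (nat_lit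 67) (nat_lit 5) (nat_lit 70) (nat_lit 5) (nat_lit 71) (nat_lit 4) (nat_lit 470) (nat_lit 373) (nat_lit 357)))) (XT.nd (nat_lit 78) (nat_lit 456) (nat_lit 0) (XT.lf (nat_lit 0) (nat_lit 3052123141) (nat_lit 304) (nat_lit 6866217217) (nat_lit 76) (nat_lit 2516123902) (nat_lit 63) (nat_lit 5) (nat_lit 67) (nat_lit 5) (nat_lit 64) (nat_lit 4) (nat_lit 471) (nat_lit 373) (nat_lit 356)) (XT.nd (nat_lit 78) (nat_lit 304) (nat_lit 0) (XT.lf (nat_lit 0) (nat_lit 7777521397) (nat_lit 152) (nat_lit 2811793628) (nat_lit 228) (nat_lit 2049431261) (nat_lit 61) (nat_lit 5) (nat_lit 63) (nat_lit 5) (nat_lit 64) (nat_lit 4) (nat_lit 472) (nat_lit 373) (nat_lit 355)) (XT.lf (nat_lit 0) (nat_lit 5437325809) (nat_lit 304) (nat_lit 2915964889) (nat_lit 76) (nat_lit 4495037363) (nat_lit 57) (nat_lit 5) (nat_lit 61) (nat_lit 5) (nat_lit 58) (nat_lit 4) (nat_lit 473) (nat_lit 373) (nat_lit 354))))))))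
noncomputable def xc7 : XT := (XT.nd (nat_lit 61308) (nat_lit 0) (nat_lit 1292) (XT.nd (nat_lit 858) (nat_lit 912) (nat_lit 0) (XT.nd (nat_lit 390) (nat_lit 1140) (nat_lit 0) (XT.nd (nat_lit 156) (nat_lit 684) (nat_lit 0) (XT.nd (nat_lit 78) (nat_lit 380) (nat_lit 0) (XT.lf (nat_lit 0) (nat_lit 53273869) (nat_lit 228) (nat_lit 1002669596) (nat_lit 76) (nat_lit 12008039788) (nat_lit 54) (nat_lit 5) (nat_lit 57) (nat_lit 5) (nat_lit 55) (nat_lit 5) (nat_lit 474) (nat_lit 373) (nat_lit 353)) (XT.lf (nat_lit 0) (nat_lit 826407396) (nat_lit 152) (nat_lit 6842583543) (nat_lit 228) (nat_lit 5615579645) (nat_lit 49) (nat_lit 5) (nat_lit 51) (nat_lit 5) (nat_lit 52) (nat_lit 4) (nat_lit 475) (nat_lit 373) (nat_lit 352))) (XT.nd (nat_lit 78) (nat_lit 380) (nat_lit 0) (XT.lf (nat_lit 0) (nat_lit 1974100612) (nat_lit 304) (nat_lit 10876485750) (nat_lit 76) (nat_lit 660956275) (nat_lit 45) (nat_lit 5) (nat_lit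 49) (nat_lit 5) (nat_lit 46) (nat_lit 4) (nat_lit 476) (nat_lit 373) (nat_lit 351)) (XT.nd (nat_lit 78) (nat_lit 228) (nat_lit 0) (XT.lf (nat_lit 0) (nat_lit 4345535571) (nat_lit 152) (nat_lit 5398172255) (nat_lit 228) (nat_lit 4000308771) (nat_lit 43) (nat_lit 5) (nat_lit 45) (nat_lit 5) (nat_lit 46) (nat_lit 4) (nat_lit 477) (nat_lit 373) (nat_lit 350)) (XT.lf (nat_lit 0) (nat_lit 3712426106) (nat_lit 228) (nat_lit 7986756985) (nat_lit 76) (nat_lit 2283821726) (nat_lit 40) (nat_lit 5) (nat_lit 43) (nat_lit 5) (nat_lit 41) (nat_lit 4) (nat_lit 478) (nat_lit 373) (nat_lit 349))))) (XT.nd (nat_lit 234) (nat_lit 608) (nat_lit 0) (XT.nd (nat_lit 78) (nat_lit 380) (nat_lit 0) (XT.lf (nat_lit 0) (nat_lit 7557876584) (nat_lit 152) (nat_lit 4066111920) (nat_lit 228) (nat_lit 2604214750) (nat_lit 38) (nat_lit 5) (nat_lit 40) (nat_lit 5) (nat_lit 41) (nat_lit 4) (nat_lit 479) (nat_lit 373) (nat_lit 348)) (XT.nd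 (nat_lit 78) (nat_lit 152) (nat_lit 0) (XT.lf (nat_lit 0) (nat_lit 5234555656) (nat_lit 228) (nat_lit 5452258947) (nat_lit 76) (nat_lit 3793024424) (nat_lit 35) (nat_lit 5) (nat_lit 38) (nat_lit 5) (nat_lit 36) (nat_lit 4) (nat_lit 480) (nat_lit 373) (nat_lit 347)) (XT.lf (nat_lit 0) (nat_lit 10413695251) (nat_lit 152) (nat_lit 2875085847) (nat_lit 228) (nat_lit 1449589928) (nat_lit 33) (nat_lit 5) (nat_lit 35) (nat_lit 5) (nat_lit 36) (nat_lit 4) (nat_lit 481) (nat_lit 373) (nat_lit 346)))) (XT.nd (nat_lit 78) (nat_lit 380) (nat_lit 0) (XT.lf (nat_lit 0) (nat_lit 6517382210) (nat_lit 228) (nat_lit 3326524180) (nat_lit 76) (nat_lit 5159428713) (nat_lit 30) (nat_lit 5) (nat_lit 33) (nat_lit 5) (nat_lit 31) (nat_lit 4) (nat_lit 482) (nat_lit 373) (nat_lit 345)) (XT.nd (nat_lit 78) (nat_lit 228) (nat_lit 0) (XT.lf (nat_lit 0) (nat_lit 12857737462) (nat_lit 152) (nat_lit 1856286594) (nat_lit 228) (nat_lit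 561829836) (nat_lit 28) (nat_lit 5) (nat_lit 30) (nat_lit 5) (nat_lit 31) (nat_lit 4) (nat_lit 483) (nat_lit 373) (nat_lit 344)) (XT.lf (nat_lit 0) (nat_lit 7534611009) (nat_lit 228) (nat_lit 1668990913) (nat_lit 76) (nat_lit 6351278347) (nat_lit 25) (nat_lit 5) (nat_lit 28) (nat_lit 5) (nat_lit 26) (nat_lit 4) (nat_lit 484) (nat_lit 373) (nat_lit 343)))))) (XT.nd (nat_lit 59982) (nat_lit 0) (nat_lit 8512) (XT.nd (nat_lit 234) (nat_lit 456) (nat_lit 0) (XT.nd (nat_lit 78) (nat_lit 304) (nat_lit 0) (XT.lf (nat_lit 0) (nat_lit 29870465) (nat_lit 152) (nat_lit 1013685926) (nat_lit 76) (nat_lit 14798526180) (nat_lit 23) (nat_lit 5) (nat_lit 25) (nat_lit 5) (nat_lit 24) (nat_lit 5) (nat_lit 485) (nat_lit 373) (nat_lit 342)) (XT.nd (nat_lit 78) (nat_lit 152) (nat_lit 0) (XT.lf (nat_lit 0) (nat_lit 8256448216) (nat_lit 228) (nat_lit 545672757) (nat_lit 76) (nat_lit 7333845712) (nat_lit 21) (nat_lit 5) (nat_lit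 24) (nat_lit 5) (nat_lit 22) (nat_lit 4) (nat_lit 486) (nat_lit 373) (nat_lit 341)) (XT.lf (nat_lit 0) (nat_lit 290309646) (nat_lit 152) (nat_lit 182503275) (nat_lit 76) (nat_lit 15965760932) (nat_lit 19) (nat_lit 5) (nat_lit 21) (nat_lit 5) (nat_lit 20) (nat_lit 5) (nat_lit 487) (nat_lit 373) (nat_lit 340)))) (XT.nd (nat_lit 78) (nat_lit 304) (nat_lit 0) (XT.lf (nat_lit 0) (nat_lit 8649254308) (nat_lit 228) (nat_lit 29896510) (nat_lit 76) (nat_lit 8069048953) (nat_lit 17) (nat_lit 5) (nat_lit 20) (nat_lit 5) (nat_lit 18) (nat_lit 4) (nat_lit 488) (nat_lit 373) (nat_lit 339)) (XT.nd (nat_lit 59592) (nat_lit 0) (nat_lit 11704) (XT.lf (nat_lit 0) (nat_lit 1807351) (nat_lit 152) (nat_lit 188899957) (nat_lit 228) (nat_lit 16876358330) (nat_lit 13) (nat_lit 5) (nat_lit 15) (nat_lit 5) (nat_lit 16) (nat_lit 5) (nat_lit 489) (nat_lit 373) (nat_lit 338)) (XT.lf (nat_lit 0) (nat_lit 4052238877) (nat_lit 456)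 (nat_lit 333199756) (nat_lit 456) (nat_lit 333199756) (nat_lit 167) (nat_lit 4) (nat_lit 173) (nat_lit 5) (nat_lit 173) (nat_lit 4) (nat_lit 452) (nat_lit 374) (nat_lit 374))))) (XT.nd (nat_lit 234) (nat_lit 1444) (nat_lit 0) (XT.nd (nat_lit 78) (nat_lit 912) (nat_lit 0) (XT.lf (nat_lit 0) (nat_lit 1339038957) (nat_lit 380) (nat_lit 4725575381) (nat_lit 380) (nat_lit 3494913531) (nat_lit 156) (nat_lit 4) (nat_lit 161) (nat_lit 5) (nat_lit 161) (nat_lit 4) (nat_lit 453) (nat_lit 374) (nat_lit 373)) (XT.nd (nat_lit 78) (nat_lit 456) (nat_lit 0) (XT.lf (nat_lit 0) (nat_lit 3221535117) (nat_lit 456) (nat_lit 5620560285) (nat_lit 0) (nat_lit 843614352) (nat_lit 150) (nat_lit 5) (nat_lit 156) (nat_lit 4) (nat_lit 150) (nat_lit 4) (nat_lit 454) (nat_lit 374) (nat_lit 372)) (XT.lf (nat_lit 0) (nat_lit 250096704) (nat_lit 456) (nat_lit 3009996818) (nat_lit 76) (nat_lit 6555560459) (nat_lit 144) (nat_lit 5)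 (nat_lit 150) (nat_lit 5) (nat_lit 145) (nat_lit 4) (nat_lit 455) (nat_lit 374) (nat_lit 371)))) (XT.nd (nat_lit 78) (nat_lit 1140) (nat_lit 0) (XT.lf (nat_lit 0) (nat_lit 7042408990) (nat_lit 380) (nat_lit 393312536) (nat_lit 0) (nat_lit 2513645118) (nat_lit 140) (nat_lit 5) (nat_lit 145) (nat_lit 4) (nat_lit 140) (nat_lit 4) (nat_lit 456) (nat_lit 374) (nat_lit 370)) (XT.nd (nat_lit 78) (nat_lit 380) (nat_lit 0) (XT.lf (nat_lit 0) (nat_lit 2269786065) (nat_lit 304) (nat_lit 1616113906) (nat_lit 380) (nat_lit 6200963888) (nat_lit 130) (nat_lit 5) (nat_lit 134) (nat_lit 5) (nat_lit 135) (nat_lit 4) (nat_lit 457) (nat_lit 374) (nat_lit 369)) (XT.lf (nat_lit 0) (nat_lit 589800305) (nat_lit 380) (nat_lit 5279279036) (nat_lit 76) (nat_lit 4359296265) (nat_lit 125) (nat_lit 5) (nat_lit 130) (nat_lit 5) (nat_lit 126) (nat_lit 4) (nat_lit 458) (nat_lit 374) (nat_lit 368))))))) (XT.nd (nat_lit 936) (nat_lit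 2812) (nat_lit 0) (XT.nd (nat_lit 468) (nat_lit 2204) (nat_lit 0) (XT.nd (nat_lit 234) (nat_lit 836) (nat_lit 0) (XT.nd (nat_lit 78) (nat_lit 1064) (nat_lit 0) (XT.lf (nat_lit 0) (nat_lit 7466151297) (nat_lit 380) (nat_lit 2737670020) (nat_lit 0) (nat_lit 170181180) (nat_lit 121) (nat_lit 5) (nat_lit 126) (nat_lit 4) (nat_lit 121) (nat_lit 4) (nat_lit 459) (nat_lit 374) (nat_lit 367)) (XT.nd (nat_lit 78) (nat_lit 684) (nat_lit 0) (XT.lf (nat_lit 0) (nat_lit 3967382231) (nat_lit 380) (nat_lit 206295347) (nat_lit 76) (nat_lit 6349901724) (nat_lit 116) (nat_lit 5) (nat_lit 121) (nat_lit 5) (nat_lit 117) (nat_lit 4) (nat_lit 460) (nat_lit 374) (nat_lit 366)) (XT.lf (nat_lit 0) (nat_lit 314836176) (nat_lit 380) (nat_lit 8303167621) (nat_lit 76) (nat_lit 2059481047) (nat_lit 107) (nat_lit 5) (nat_lit 112) (nat_lit 5) (nat_lit 108) (nat_lit 4) (nat_lit 461) (nat_lit 374) (nat_lit 365)))) (XT.nd (nat_lit 78)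 (nat_lit 608) (nat_lit 0) (XT.lf (nat_lit 0) (nat_lit 4937183757) (nat_lit 228) (nat_lit 2355195254) (nat_lit 304) (nat_lit 3542983137) (nat_lit 104) (nat_lit 5) (nat_lit 107) (nat_lit 5) (nat_lit 108) (nat_lit 4) (nat_lit 462) (nat_lit 374) (nat_lit 364)) (XT.nd (nat_lit 78) (nat_lit 228) (nat_lit 0) (XT.lf (nat_lit 0) (nat_lit 3424027407) (nat_lit 380) (nat_lit 3497998856) (nat_lit 76) (nat_lit 4075739060) (nat_lit 99) (nat_lit 5) (nat_lit 104) (nat_lit 5) (nat_lit 100) (nat_lit 4) (nat_lit 463) (nat_lit 374) (nat_lit 363)) (XT.lf (nat_lit 0) (nat_lit 10070006524) (nat_lit 228) (nat_lit 461675307) (nat_lit 304) (nat_lit 633304575) (nat_lit 96) (nat_lit 5) (nat_lit 99) (nat_lit 5) (nat_lit 100) (nat_lit 4) (nat_lit 464) (nat_lit 374) (nat_lit 362))))) (XT.nd (nat_lit 234) (nat_lit 1064) (nat_lit 0) (XT.nd (nat_lit 78) (nat_lit 532) (nat_lit 0) (XT.lf (nat_lit 0) (nat_lit 1282220793) (nat_lit 228)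 (nat_lit 5162313597) (nat_lit 304) (nat_lit 4891559951) (nat_lit 88) (nat_lit 5) (nat_lit 91) (nat_lit 5) (nat_lit 92) (nat_lit 4) (nat_lit 465) (nat_lit 374) (nat_lit 361)) (XT.nd (nat_lit 78) (nat_lit 228) (nat_lit 0) (XT.lf (nat_lit 0) (nat_lit 2172326837) (nat_lit 304) (nat_lit 7832768656) (nat_lit 76) (nat_lit 1507127308) (nat_lit 84) (nat_lit 5) (nat_lit 88) (nat_lit 5) (nat_lit 85) (nat_lit 4) (nat_lit 466) (nat_lit 374) (nat_lit 360)) (XT.lf (nat_lit 0) (nat_lit 6043651944) (nat_lit 228) (nat_lit 3341957567) (nat_lit 304) (nat_lit 2307308630) (nat_lit 81) (nat_lit 5) (nat_lit 84) (nat_lit 5) (nat_lit 85) (nat_lit 4) (nat_lit 467) (nat_lit 374) (nat_lit 359)))) (XT.nd (nat_lit 78) (nat_lit 760) (nat_lit 0) (XT.lf (nat_lit 0) (nat_lit 4865506291) (nat_lit 304) (nat_lit 3494681338) (nat_lit 76) (nat_lit 3518333940) (nat_lit 77) (nat_lit 5) (nat_lit 81) (nat_lit 5) (nat_lit 78) (nat_lit 4) (nat_lit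 468) (nat_lit 374) (nat_lit 358)) (XT.nd (nat_lit 78) (nat_lit 456) (nat_lit 0) (XT.lf (nat_lit 0) (nat_lit 146038660) (nat_lit 304) (nat_lit 1355881053) (nat_lit 76) (nat_lit 10567550710) (nat_lit 73) (nat_lit 5) (nat_lit 77) (nat_lit 5) (nat_lit 74) (nat_lit 5) (nat_lit 469) (nat_lit 374) (nat_lit 357)) (XT.lf (nat_lit 0) (nat_lit 729085813) (nat_lit 228) (nat_lit 6711900944) (nat_lit 304) (nat_lit 4823913230) (nat_lit 67) (nat_lit 5) (nat_lit 70) (nat_lit 5) (nat_lit 71) (nat_lit 4) (nat_lit 470) (nat_lit 374) (nat_lit 356)))))) (XT.nd (nat_lit 468) (nat_lit 1368) (nat_lit 0) (XT.nd (nat_lit 234) (nat_lit 684) (nat_lit 0) (XT.nd (nat_lit 78) (nat_lit 456) (nat_lit 0) (XT.lf (nat_lit 0) (nat_lit 2453345714) (nat_lit 304) (nat_lit 9646912450) (nat_lit 76) (nat_lit 365670309) (nat_lit 63) (nat_lit 5) (nat_lit 67) (nat_lit 5) (nat_lit 64) (nat_lit 4) (nat_lit 471) (nat_lit 374) (nat_lit 355)) (XT.nd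 (nat_lit 78) (nat_lit 304) (nat_lit 0) (XT.lf (nat_lit 0) (nat_lit 4843309064) (nat_lit 152) (nat_lit 5062846969) (nat_lit 228) (nat_lit 2765745468) (nat_lit 61) (nat_lit 5) (nat_lit 63) (nat_lit 5) (nat_lit 64) (nat_lit 4) (nat_lit 472) (nat_lit 374) (nat_lit 354)) (XT.lf (nat_lit 0) (nat_lit 4630472481) (nat_lit 304) (nat_lit 6053446577) (nat_lit 76) (nat_lit 2199659117) (nat_lit 57) (nat_lit 5) (nat_lit 61) (nat_lit 5) (nat_lit 58) (nat_lit 4) (nat_lit 473) (nat_lit 374) (nat_lit 353)))) (XT.nd (nat_lit 78) (nat_lit 532) (nat_lit 0) (XT.lf (nat_lit 0) (nat_lit 8767855400) (nat_lit 152) (nat_lit 3458123439) (nat_lit 228) (nat_lit 874967450) (nat_lit 55) (nat_lit 5) (nat_lit 57) (nat_lit 5) (nat_lit 58) (nat_lit 4) (nat_lit 474) (nat_lit 374) (nat_lit 352)) (XT.nd (nat_lit 78) (nat_lit 228) (nat_lit 0) (XT.lf (nat_lit 0) (nat_lit 6645107910) (nat_lit 304) (nat_lit 2689676026) (nat_lit 76) (nat_lit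 3989008609) (nat_lit 51) (nat_lit 5) (nat_lit 55) (nat_lit 5) (nat_lit 52) (nat_lit 4) (nat_lit 475) (nat_lit 374) (nat_lit 351)) (XT.lf (nat_lit 0) (nat_lit 822256366) (nat_lit 228) (nat_lit 1093080778) (nat_lit 76) (nat_lit 11637621966) (nat_lit 48) (nat_lit 5) (nat_lit 51) (nat_lit 5) (nat_lit 49) (nat_lit 5) (nat_lit 476) (nat_lit 374) (nat_lit 350))))) (XT.nd (nat_lit 234) (nat_lit 608) (nat_lit 0) (XT.nd (nat_lit 78) (nat_lit 380) (nat_lit 0) (XT.lf (nat_lit 0) (nat_lit 409517017) (nat_lit 152) (nat_lit 8074532374) (nat_lit 228) (nat_lit 5303542704) (nat_lit 43) (nat_lit 5) (nat_lit 45) (nat_lit 5) (nat_lit 46) (nat_lit 4) (nat_lit 477) (nat_lit 374) (nat_lit 349)) (XT.nd (nat_lit 78) (nat_lit 152) (nat_lit 0) (XT.lf (nat_lit 0) (nat_lit 1874529618) (nat_lit 152) (nat_lit 447978254) (nat_lit 228) (nat_lit 11706319807) (nat_lit 40) (nat_lit 5) (nat_lit 42) (nat_lit 5) (nat_lit 43) (nat_lit 5)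 (nat_lit 478) (nat_lit 374) (nat_lit 348)) (XT.lf (nat_lit 0) (nat_lit 3225684695) (nat_lit 152) (nat_lit 6916229748) (nat_lit 228) (nat_lit 4133957323) (nat_lit 38) (nat_lit 5) (nat_lit 40) (nat_lit 5) (nat_lit 41) (nat_lit 4) (nat_lit 479) (nat_lit 374) (nat_lit 347)))) (XT.nd (nat_lit 78) (nat_lit 380) (nat_lit 0) (XT.lf (nat_lit 0) (nat_lit 3615871399) (nat_lit 228) (nat_lit 10022052812) (nat_lit 76) (nat_lit 891964468) (nat_lit 35) (nat_lit 5) (nat_lit 38) (nat_lit 5) (nat_lit 36) (nat_lit 4) (nat_lit 480) (nat_lit 374) (nat_lit 346)) (XT.nd (nat_lit 78) (nat_lit 228) (nat_lit 0) (XT.lf (nat_lit 0) (nat_lit 5672879686) (nat_lit 152) (nat_lit 5906733744) (nat_lit 228) (nat_lit 3210619258) (nat_lit 33) (nat_lit 5) (nat_lit 35) (nat_lit 5) (nat_lit 36) (nat_lit 4) (nat_lit 481) (nat_lit 374) (nat_lit 345)) (XT.lf (nat_lit 0) (nat_lit 4667944835) (nat_lit 228) (nat_lit 8314235185) (nat_lit 76) (nat_lit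 2075477734) (nat_lit 30) (nat_lit 5) (nat_lit 33) (nat_lit 5) (nat_lit 31) (nat_lit 4) (nat_lit 482) (nat_lit 374) (nat_lit 344))))))))
noncomputable def xc8 : XT := (XT.nd (nat_lit 61230) (nat_lit 0) (nat_lit 0) (XT.nd (nat_lit 60294) (nat_lit 0) (nat_lit 5092) (XT.nd (nat_lit 390) (nat_lit 228) (nat_lit 0) (XT.nd (nat_lit 156) (nat_lit 380) (nat_lit 0) (XT.nd (nat_lit 78) (nat_lit 228) (nat_lit 0) (XT.lf (nat_lit 0) (nat_lit 7695354474) (nat_lit 152) (nat_lit 5077383322) (nat_lit 228) (nat_lit 2559277887) (nat_lit 28) (nat_lit 5) (nat_lit 30) (nat_lit 5) (nat_lit 31) (nat_lit 4) (nat_lit 483) (nat_lit 374) (nat_lit 343)) (XT.lf (nat_lit 0) (nat_lit 5449173679) (nat_lit 228) (nat_lit 7087886447) (nat_lit 76) (nat_lit 3076527090) (nat_lit 25) (nat_lit 5) (nat_lit 28) (nat_lit 5) (nat_lit 26) (nat_lit 4) (nat_lit 484) (nat_lit 374) (nat_lit 342))) (XT.nd (nat_lit 78) (nat_lit 304) (nat_lit 0) (XT.lf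 (nat_lit 0) (nat_lit 9231183459) (nat_lit 76) (nat_lit 4462388326) (nat_lit 152) (nat_lit 2209090558) (nat_lit 24) (nat_lit 5) (nat_lit 25) (nat_lit 5) (nat_lit 26) (nat_lit 4) (nat_lit 485) (nat_lit 374) (nat_lit 341)) (XT.nd (nat_lit 78) (nat_lit 76) (nat_lit 0) (XT.lf (nat_lit 0) (nat_lit 5929407133) (nat_lit 228) (nat_lit 6409558149) (nat_lit 76) (nat_lit 3860210988) (nat_lit 21) (nat_lit 5) (nat_lit 24) (nat_lit 5) (nat_lit 22) (nat_lit 4) (nat_lit 486) (nat_lit 374) (nat_lit 340)) (XT.lf (nat_lit 0) (nat_lit 10211565190) (nat_lit 76) (nat_lit 4099200827) (nat_lit 152) (nat_lit 2192956919) (nat_lit 20) (nat_lit 5) (nat_lit 21) (nat_lit 5) (nat_lit 22) (nat_lit 4) (nat_lit 487) (nat_lit 374) (nat_lit 339))))) (XT.nd (nat_lit 59670) (nat_lit 0) (nat_lit 10108) (XT.nd (nat_lit 59514) (nat_lit 0) (nat_lit 11856) (XT.lf (nat_lit 0) (nat_lit 6074642106) (nat_lit 228) (nat_lit 6353141885) (nat_lit 76)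 (nat_lit 4388253517) (nat_lit 17) (nat_lit 5) (nat_lit 20) (nat_lit 5) (nat_lit 18) (nat_lit 4) (nat_lit 488) (nat_lit 374) (nat_lit 338)) (XT.nd (nat_lit 78) (nat_lit 456) (nat_lit 0) (XT.lf (nat_lit 0) (nat_lit 1355731275) (nat_lit 456) (nat_lit 1622479651) (nat_lit 456) (nat_lit 1622479651) (nat_lit 179) (nat_lit 4) (nat_lit 185) (nat_lit 5) (nat_lit 185) (nat_lit 4) (nat_lit 450) (nat_lit 375) (nat_lit 375)) (XT.lf (nat_lit 0) (nat_lit 3312940403) (nat_lit 456) (nat_lit 3985243110) (nat_lit 0) (nat_lit 2020007063) (nat_lit 173) (nat_lit 5) (nat_lit 179) (nat_lit 4) (nat_lit 173) (nat_lit 4) (nat_lit 451) (nat_lit 375) (nat_lit 374)))) (XT.nd (nat_lit 78) (nat_lit 1216) (nat_lit 0) (XT.lf (nat_lit 0) (nat_lit 540800224) (nat_lit 532) (nat_lit 1455791972) (nat_lit 76) (nat_lit 7442161050) (nat_lit 166) (nat_lit 5) (nat_lit 173) (nat_lit 5) (nat_lit 167) (nat_lit 4) (nat_lit 452) (nat_lit 375) (nat_lit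 373)) (XT.nd (nat_lit 78) (nat_lit 456) (nat_lit 0) (XT.lf (nat_lit 0) (nat_lit 1095786439) (nat_lit 380) (nat_lit 6079972911) (nat_lit 380) (nat_lit 2386912026) (nat_lit 156) (nat_lit 4) (nat_lit 161) (nat_lit 5) (nat_lit 161) (nat_lit 4) (nat_lit 453) (nat_lit 375) (nat_lit 372)) (XT.lf (nat_lit 0) (nat_lit 3694944547) (nat_lit 380) (nat_lit 536749639) (nat_lit 456) (nat_lit 5458688342) (nat_lit 150) (nat_lit 5) (nat_lit 155) (nat_lit 5) (nat_lit 156) (nat_lit 4) (nat_lit 454) (nat_lit 375) (nat_lit 371)))))) (XT.nd (nat_lit 468) (nat_lit 2432) (nat_lit 0) (XT.nd (nat_lit 234) (nat_lit 1064) (nat_lit 0) (XT.nd (nat_lit 78) (nat_lit 1064) (nat_lit 0) (XT.lf (nat_lit 0) (nat_lit 1161012121) (nat_lit 456) (nat_lit 3516821826) (nat_lit 76) (nat_lit 5143996511) (nat_lit 144) (nat_lit 5) (nat_lit 150) (nat_lit 5) (nat_lit 145) (nat_lit 4) (nat_lit 455) (nat_lit 375) (nat_lit 370)) (XT.nd (nat_lit 78) (nat_lit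 760) (nat_lit 0) (XT.lf (nat_lit 0) (nat_lit 7866500836) (nat_lit 380) (nat_lit 1022376164) (nat_lit 0) (nat_lit 1068408995) (nat_lit 140) (nat_lit 5) (nat_lit 145) (nat_lit 4) (nat_lit 140) (nat_lit 4) (nat_lit 456) (nat_lit 375) (nat_lit 369)) (XT.lf (nat_lit 0) (nat_lit 1491333617) (nat_lit 304) (nat_lit 3117469722) (nat_lit 380) (nat_lit 5487531279) (nat_lit 130) (nat_lit 5) (nat_lit 134) (nat_lit 5) (nat_lit 135) (nat_lit 4) (nat_lit 457) (nat_lit 375) (nat_lit 368)))) (XT.nd (nat_lit 78) (nat_lit 684) (nat_lit 0) (XT.lf (nat_lit 0) (nat_lit 1205409698) (nat_lit 380) (nat_lit 6201432479) (nat_lit 76) (nat_lit 2832686674) (nat_lit 125) (nat_lit 5) (nat_lit 130) (nat_lit 5) (nat_lit 126) (nat_lit 4) (nat_lit 458) (nat_lit 375) (nat_lit 367)) (XT.nd (nat_lit 78) (nat_lit 380) (nat_lit 0) (XT.lf (nat_lit 0) (nat_lit 6585667402) (nat_lit 304) (nat_lit 1416784853) (nat_lit 380) (nat_lit 2384295288)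 (nat_lit 121) (nat_lit 5) (nat_lit 125) (nat_lit 5) (nat_lit 126) (nat_lit 4) (nat_lit 459) (nat_lit 375) (nat_lit 366)) (XT.lf (nat_lit 0) (nat_lit 4396290416) (nat_lit 380) (nat_lit 1408462350) (nat_lit 76) (nat_lit 4733264579) (nat_lit 116) (nat_lit 5) (nat_lit 121) (nat_lit 5) (nat_lit 117) (nat_lit 4) (nat_lit 460) (nat_lit 375) (nat_lit 365))))) (XT.nd (nat_lit 234) (nat_lit 1140) (nat_lit 0) (XT.nd (nat_lit 78) (nat_lit 608) (nat_lit 0) (XT.lf (nat_lit 0) (nat_lit 625354733) (nat_lit 380) (nat_lit 9678293090) (nat_lit 76) (nat_lit 390196661) (nat_lit 107) (nat_lit 5) (nat_lit 112) (nat_lit 5) (nat_lit 108) (nat_lit 4) (nat_lit 461) (nat_lit 375) (nat_lit 364)) (XT.nd (nat_lit 78) (nat_lit 380) (nat_lit 0) (XT.lf (nat_lit 0) (nat_lit 3426416476) (nat_lit 228) (nat_lit 4097013813) (nat_lit 304) (nat_lit 3329885798) (nat_lit 104) (nat_lit 5) (nat_lit 107) (nat_lit 5) (nat_lit 108) (nat_lit 4) (nat_lit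 462) (nat_lit 375) (nat_lit 363)) (XT.lf (nat_lit 0) (nat_lit 3543010423) (nat_lit 380) (nat_lit 5172685998) (nat_lit 76) (nat_lit 2301826274) (nat_lit 99) (nat_lit 5) (nat_lit 104) (nat_lit 5) (nat_lit 100) (nat_lit 4) (nat_lit 463) (nat_lit 375) (nat_lit 362)))) (XT.nd (nat_lit 78) (nat_lit 912) (nat_lit 0) (XT.lf (nat_lit 0) (nat_lit 8257482746) (nat_lit 228) (nat_lit 2313563033) (nat_lit 304) (nat_lit 615294957) (nat_lit 96) (nat_lit 5) (nat_lit 99) (nat_lit 5) (nat_lit 100) (nat_lit 4) (nat_lit 464) (nat_lit 375) (nat_lit 361)) (XT.nd (nat_lit 78) (nat_lit 532) (nat_lit 0) (XT.lf (nat_lit 0) (nat_lit 6361717322) (nat_lit 380) (nat_lit 718123410) (nat_lit 76) (nat_lit 4279621768) (nat_lit 91) (nat_lit 5) (nat_lit 96) (nat_lit 5) (nat_lit 92) (nat_lit 4) (nat_lit 465) (nat_lit 375) (nat_lit 360)) (XT.lf (nat_lit 0) (nat_lit 1513710167) (nat_lit 228) (nat_lit 457726666) (nat_lit 304) (nat_lit 9566094011)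 (nat_lit 84) (nat_lit 5) (nat_lit 87) (nat_lit 5) (nat_lit 88) (nat_lit 5) (nat_lit 466) (nat_lit 375) (nat_lit 359))))))) (XT.nd (nat_lit 858) (nat_lit 2128) (nat_lit 0) (XT.nd (nat_lit 390) (nat_lit 1596) (nat_lit 0) (XT.nd (nat_lit 156) (nat_lit 836) (nat_lit 0) (XT.nd (nat_lit 78) (nat_lit 304) (nat_lit 0) (XT.lf (nat_lit 0) (nat_lit 3711127967) (nat_lit 228) (nat_lit 5389100188) (nat_lit 304) (nat_lit 2619691883) (nat_lit 81) (nat_lit 5) (nat_lit 84) (nat_lit 5) (nat_lit 85) (nat_lit 4) (nat_lit 467) (nat_lit 375) (nat_lit 358)) (XT.lf (nat_lit 0) (nat_lit 4461643498) (nat_lit 304) (nat_lit 6012853968) (nat_lit 76) (nat_lit 1432981925) (nat_lit 77) (nat_lit 5) (nat_lit 81) (nat_lit 5) (nat_lit 78) (nat_lit 4) (nat_lit 468) (nat_lit 375) (nat_lit 357))) (XT.nd (nat_lit 78) (nat_lit 608) (nat_lit 0) (XT.lf (nat_lit 0) (nat_lit 8049403823) (nat_lit 228) (nat_lit 3682180868) (nat_lit 304) (nat_lit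 368506922) (nat_lit 74) (nat_lit 5) (nat_lit 77) (nat_lit 5) (nat_lit 78) (nat_lit 4) (nat_lit 469) (nat_lit 375) (nat_lit 356)) (XT.nd (nat_lit 78) (nat_lit 304) (nat_lit 0) (XT.lf (nat_lit 0) (nat_lit 6829524351) (nat_lit 304) (nat_lit 2138943516) (nat_lit 76) (nat_lit 3329139702) (nat_lit 70) (nat_lit 5) (nat_lit 74) (nat_lit 5) (nat_lit 71) (nat_lit 4) (nat_lit 470) (nat_lit 375) (nat_lit 355)) (XT.lf (nat_lit 0) (nat_lit 1718462513) (nat_lit 304) (nat_lit 253255798) (nat_lit 76) (nat_lit 10528987993) (nat_lit 66) (nat_lit 5) (nat_lit 70) (nat_lit 5) (nat_lit 67) (nat_lit 5) (nat_lit 471) (nat_lit 375) (nat_lit 354))))) (XT.nd (nat_lit 234) (nat_lit 760) (nat_lit 0) (XT.nd (nat_lit 78) (nat_lit 456) (nat_lit 0) (XT.lf (nat_lit 0) (nat_lit 1591339156) (nat_lit 152) (nat_lit 7480912962) (nat_lit 228) (nat_lit 3636410902) (nat_lit 61) (nat_lit 5) (nat_lit 63) (nat_lit 5) (nat_lit 64) (nat_lit 4) (nat_lit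 472) (nat_lit 375) (nat_lit 353)) (XT.nd (nat_lit 78) (nat_lit 152) (nat_lit 0) (XT.lf (nat_lit 0) (nat_lit 3406003923) (nat_lit 228) (nat_lit 265713570) (nat_lit 304) (nat_lit 9250728544) (nat_lit 57) (nat_lit 5) (nat_lit 60) (nat_lit 5) (nat_lit 61) (nat_lit 5) (nat_lit 473) (nat_lit 375) (nat_lit 352)) (XT.lf (nat_lit 0) (nat_lit 5149286993) (nat_lit 152) (nat_lit 6030820136) (nat_lit 228) (nat_lit 1961452382) (nat_lit 55) (nat_lit 5) (nat_lit 57) (nat_lit 5) (nat_lit 58) (nat_lit 4) (nat_lit 474) (nat_lit 375) (nat_lit 351)))) (XT.nd (nat_lit 78) (nat_lit 456) (nat_lit 0) (XT.lf (nat_lit 0) (nat_lit 5469703582) (nat_lit 304) (nat_lit 6525911613) (nat_lit 76) (nat_lit 1370997910) (nat_lit 51) (nat_lit 5) (nat_lit 55) (nat_lit 5) (nat_lit 52) (nat_lit 4) (nat_lit 475) (nat_lit 375) (nat_lit 350)) (XT.nd (nat_lit 78) (nat_lit 304) (nat_lit 0) (XT.lf (nat_lit 0) (nat_lit 8468735903) (nat_lit 152) (nat_lit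 4655742214) (nat_lit 228) (nat_lit 473139911) (nat_lit 49) (nat_lit 5) (nat_lit 51) (nat_lit 5) (nat_lit 52) (nat_lit 4) (nat_lit 476) (nat_lit 375) (nat_lit 349)) (XT.lf (nat_lit 0) (nat_lit 7086918366) (nat_lit 304) (nat_lit 3818813095) (nat_lit 76) (nat_lit 2928742452) (nat_lit 45) (nat_lit 5) (nat_lit 49) (nat_lit 5) (nat_lit 46) (nat_lit 4) (nat_lit 477) (nat_lit 375) (nat_lit 348)))))) (XT.nd (nat_lit 468) (nat_lit 836) (nat_lit 0) (XT.nd (nat_lit 234) (nat_lit 684) (nat_lit 0) (XT.nd (nat_lit 78) (nat_lit 380) (nat_lit 0) (XT.lf (nat_lit 0) (nat_lit 799884450) (nat_lit 228) (nat_lit 2575378883) (nat_lit 76) (nat_lit 10702587188) (nat_lit 42) (nat_lit 5) (nat_lit 45) (nat_lit 5) (nat_lit 43) (nat_lit 5) (nat_lit 478) (nat_lit 375) (nat_lit 347)) (XT.nd (nat_lit 78) (nat_lit 228) (nat_lit 0) (XT.lf (nat_lit 0) (nat_lit 8502946765) (nat_lit 228) (nat_lit 1438514712) (nat_lit 76) (nat_lit 4385762473)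 (nat_lit 40) (nat_lit 5) (nat_lit 43) (nat_lit 5) (nat_lit 41) (nat_lit 4) (nat_lit 479) (nat_lit 375) (nat_lit 346)) (XT.lf (nat_lit 0) (nat_lit 1844332443) (nat_lit 228) (nat_lit 375753124) (nat_lit 76) (nat_lit 12363444890) (nat_lit 37) (nat_lit 5) (nat_lit 40) (nat_lit 5) (nat_lit 38) (nat_lit 5) (nat_lit 480) (nat_lit 375) (nat_lit 345)))) (XT.nd (nat_lit 78) (nat_lit 380) (nat_lit 0) (XT.lf (nat_lit 0) (nat_lit 572468941) (nat_lit 152) (nat_lit 9127623611) (nat_lit 228) (nat_lit 5145943824) (nat_lit 33) (nat_lit 5) (nat_lit 35) (nat_lit 5) (nat_lit 36) (nat_lit 4) (nat_lit 481) (nat_lit 375) (nat_lit 344)) (XT.nd (nat_lit 78) (nat_lit 152) (nat_lit 0) (XT.lf (nat_lit 0) (nat_lit 1439228568) (nat_lit 152) (nat_lit 1213260583) (nat_lit 228) (nat_lit 12463336025) (nat_lit 30) (nat_lit 5) (nat_lit 32) (nat_lit 5) (nat_lit 33) (nat_lit 5) (nat_lit 482) (nat_lit 375) (nat_lit 343)) (XT.lf (nat_lit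 0) (nat_lit 2164481067) (nat_lit 152) (nat_lit 8492381354) (nat_lit 228) (nat_lit 4735331178) (nat_lit 28) (nat_lit 5) (nat_lit 30) (nat_lit 5) (nat_lit 31) (nat_lit 4) (nat_lit 483) (nat_lit 375) (nat_lit 342))))) (XT.nd (nat_lit 234) (nat_lit 304) (nat_lit 0) (XT.nd (nat_lit 78) (nat_lit 304) (nat_lit 0) (XT.lf (nat_lit 0) (nat_lit 2791028471) (nat_lit 152) (nat_lit 397006923) (nat_lit 228) (nat_lit 12488286790) (nat_lit 25) (nat_lit 5) (nat_lit 27) (nat_lit 5) (nat_lit 28) (nat_lit 5) (nat_lit 484) (nat_lit 375) (nat_lit 341)) (XT.nd (nat_lit 78) (nat_lit 228) (nat_lit 0) (XT.lf (nat_lit 0) (nat_lit 3255941813) (nat_lit 76) (nat_lit 8079776403) (nat_lit 152) (nat_lit 4631615342) (nat_lit 24) (nat_lit 5) (nat_lit 25) (nat_lit 5) (nat_lit 26) (nat_lit 4) (nat_lit 485) (nat_lit 375) (nat_lit 340)) (XT.lf (nat_lit 0) (nat_lit 3419453217) (nat_lit 228) (nat_lit 12658993740) (nat_lit 76) (nat_lit 188100966)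 (nat_lit 21) (nat_lit 5) (nat_lit 24) (nat_lit 5) (nat_lit 22) (nat_lit 4) (nat_lit 486) (nat_lit 375) (nat_lit 339)))) (XT.nd (nat_lit 78) (nat_lit 228) (nat_lit 0) (XT.lf (nat_lit 0) (nat_lit 3777485484) (nat_lit 76) (nat_lit 7927459999) (nat_lit 152) (nat_lit 4868068232) (nat_lit 20) (nat_lit 5) (nat_lit 21) (nat_lit 5) (nat_lit 22) (nat_lit 4) (nat_lit 487) (nat_lit 375) (nat_lit 338)) (XT.nd (nat_lit 59358) (nat_lit 0) (nat_lit 13756) (XT.lf (nat_lit 0) (nat_lit 3312224621) (nat_lit 228) (nat_lit 13072027261) (nat_lit 76) (nat_lit 503873299) (nat_lit 17) (nat_lit 5) (nat_lit 20) (nat_lit 5) (nat_lit 18) (nat_lit 4) (nat_lit 488) (nat_lit 375) (nat_lit 337)) (XT.lf (nat_lit 0) (nat_lit 1668424047) (nat_lit 532) (nat_lit 1151561691) (nat_lit 0) (nat_lit 1668424047) (nat_lit 198) (nat_lit 5) (nat_lit 205) (nat_lit 4) (nat_lit 198) (nat_lit 4) (nat_lit 448) (nat_lit 376) (nat_lit 376))))))))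
noncomputable def xc9 : XT := (XT.nd (nat_lit 1794) (nat_lit 3572) (nat_lit 0) (XT.nd (nat_lit 858) (nat_lit 4180) (nat_lit 0) (XT.nd (nat_lit 390) (nat_lit 2660) (nat_lit 0) (XT.nd (nat_lit 156) (nat_lit 1748) (nat_lit 0) (XT.nd (nat_lit 78) (nat_lit 456) (nat_lit 0) (XT.lf (nat_lit 0) (nat_lit 127194914) (nat_lit 456) (nat_lit 621675281) (nat_lit 532) (nat_lit 8339545152) (nat_lit 185) (nat_lit 5) (nat_lit 191) (nat_lit 5) (nat_lit 192) (nat_lit 4) (nat_lit 449) (nat_lit 376) (nat_lit 375)) (XT.lf (nat_lit 0) (nat_lit 2595534745) (nat_lit 456) (nat_lit 4642270828) (nat_lit 456) (nat_lit 1965123055) (nat_lit 179) (nat_lit 4) (nat_lit 185) (nat_lit 5) (nat_lit 185) (nat_lit 4) (nat_lit 450) (nat_lit 376) (nat_lit 374))) (XT.nd (nat_lit 78) (nat_lit 1292) (nat_lit 0) (XT.lf (nat_lit 0) (nat_lit 4489907490) (nat_lit 456) (nat_lit 4221415969) (nat_lit 0) (nat_lit 609977724) (nat_lit 173) (nat_lit 5) (nat_lit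 179) (nat_lit 4) (nat_lit 173) (nat_lit 4) (nat_lit 451) (nat_lit 376) (nat_lit 373)) (XT.nd (nat_lit 78) (nat_lit 760) (nat_lit 0) (XT.lf (nat_lit 0) (nat_lit 1622438570) (nat_lit 532) (nat_lit 1821317529) (nat_lit 76) (nat_lit 5999499059) (nat_lit 166) (nat_lit 5) (nat_lit 173) (nat_lit 5) (nat_lit 167) (nat_lit 4) (nat_lit 452) (nat_lit 376) (nat_lit 372)) (XT.lf (nat_lit 0) (nat_lit 609068853) (nat_lit 380) (nat_lit 7559289577) (nat_lit 380) (nat_lit 1400602710) (nat_lit 156) (nat_lit 4) (nat_lit 161) (nat_lit 5) (nat_lit 161) (nat_lit 4) (nat_lit 453) (nat_lit 376) (nat_lit 371))))) (XT.nd (nat_lit 234) (nat_lit 1444) (nat_lit 0) (XT.nd (nat_lit 78) (nat_lit 760) (nat_lit 0) (XT.lf (nat_lit 0) (nat_lit 3073453760) (nat_lit 380) (nat_lit 2054452454) (nat_lit 456) (nat_lit 4570187961) (nat_lit 150) (nat_lit 5) (nat_lit 155) (nat_lit 5) (nat_lit 156) (nat_lit 4) (nat_lit 454) (nat_lit 376) (nat_lit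 370)) (XT.nd (nat_lit 78) (nat_lit 304) (nat_lit 0) (XT.lf (nat_lit 0) (nat_lit 1950619233) (nat_lit 456) (nat_lit 4273811803) (nat_lit 76) (nat_lit 3606746904) (nat_lit 144) (nat_lit 5) (nat_lit 150) (nat_lit 5) (nat_lit 145) (nat_lit 4) (nat_lit 455) (nat_lit 376) (nat_lit 369)) (XT.lf (nat_lit 0) (nat_lit 8061163301) (nat_lit 304) (nat_lit 511109169) (nat_lit 380) (nat_lit 1396043933) (nat_lit 140) (nat_lit 5) (nat_lit 144) (nat_lit 5) (nat_lit 145) (nat_lit 4) (nat_lit 456) (nat_lit 376) (nat_lit 368)))) (XT.nd (nat_lit 78) (nat_lit 684) (nat_lit 0) (XT.lf (nat_lit 0) (nat_lit 454781504) (nat_lit 304) (nat_lit 4752535098) (nat_lit 380) (nat_lit 4901706450) (nat_lit 130) (nat_lit 5) (nat_lit 134) (nat_lit 5) (nat_lit 135) (nat_lit 4) (nat_lit 457) (nat_lit 376) (nat_lit 367)) (XT.nd (nat_lit 78) (nat_lit 304) (nat_lit 0) (XT.lf (nat_lit 0) (nat_lit 1694626994) (nat_lit 380) (nat_lit 7386444293)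 (nat_lit 76) (nat_lit 1172854045) (nat_lit 125) (nat_lit 5) (nat_lit 130) (nat_lit 5) (nat_lit 126) (nat_lit 4) (nat_lit 458) (nat_lit 376) (nat_lit 366)) (XT.lf (nat_lit 0) (nat_lit 5270928081) (nat_lit 304) (nat_lit 3142923959) (nat_lit 380) (nat_lit 1988853803) (nat_lit 121) (nat_lit 5) (nat_lit 125) (nat_lit 5) (nat_lit 126) (nat_lit 4) (nat_lit 459) (nat_lit 376) (nat_lit 365)))))) (XT.nd (nat_lit 468) (nat_lit 1900) (nat_lit 0) (XT.nd (nat_lit 234) (nat_lit 988) (nat_lit 0) (XT.nd (nat_lit 78) (nat_lit 912) (nat_lit 0) (XT.lf (nat_lit 0) (nat_lit 4697069460) (nat_lit 380) (nat_lit 2878440582) (nat_lit 76) (nat_lit 2980208980) (nat_lit 116) (nat_lit 5) (nat_lit 121) (nat_lit 5) (nat_lit 117) (nat_lit 4) (nat_lit 460) (nat_lit 376) (nat_lit 364)) (XT.nd (nat_lit 78) (nat_lit 532) (nat_lit 0) (XT.lf (nat_lit 0) (nat_lit 817187893) (nat_lit 380) (nat_lit 617591543) (nat_lit 76) (nat_lit 9278485551)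 (nat_lit 111) (nat_lit 5) (nat_lit 116) (nat_lit 5) (nat_lit 112) (nat_lit 5) (nat_lit 461) (nat_lit 376) (nat_lit 363)) (XT.lf (nat_lit 0) (nat_lit 1639010400) (nat_lit 228) (nat_lit 5983612983) (nat_lit 304) (nat_lit 3251970818) (nat_lit 104) (nat_lit 5) (nat_lit 107) (nat_lit 5) (nat_lit 108) (nat_lit 4) (nat_lit 462) (nat_lit 376) (nat_lit 362)))) (XT.nd (nat_lit 78) (nat_lit 608) (nat_lit 0) (XT.lf (nat_lit 0) (nat_lit 3527825480) (nat_lit 380) (nat_lit 7129165827) (nat_lit 76) (nat_lit 383645523) (nat_lit 99) (nat_lit 5) (nat_lit 104) (nat_lit 5) (nat_lit 100) (nat_lit 4) (nat_lit 463) (nat_lit 376) (nat_lit 361)) (XT.nd (nat_lit 78) (nat_lit 380) (nat_lit 0) (XT.lf (nat_lit 0) (nat_lit 6162787839) (nat_lit 228) (nat_lit 4313598128) (nat_lit 304) (nat_lit 734662844) (nat_lit 96) (nat_lit 5) (nat_lit 99) (nat_lit 5) (nat_lit 100) (nat_lit 4) (nat_lit 464) (nat_lit 376) (nat_lit 360)) (XT.lf (nat_lit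 0) (nat_lit 6150780146) (nat_lit 380) (nat_lit 2989126457) (nat_lit 76) (nat_lit 2246146400) (nat_lit 91) (nat_lit 5) (nat_lit 96) (nat_lit 5) (nat_lit 92) (nat_lit 4) (nat_lit 465) (nat_lit 376) (nat_lit 359))))) (XT.nd (nat_lit 234) (nat_lit 836) (nat_lit 0) (XT.nd (nat_lit 78) (nat_lit 760) (nat_lit 0) (XT.lf (nat_lit 0) (nat_lit 1646817573) (nat_lit 304) (nat_lit 943924768) (nat_lit 76) (nat_lit 8975218011) (nat_lit 87) (nat_lit 5) (nat_lit 91) (nat_lit 5) (nat_lit 88) (nat_lit 5) (nat_lit 466) (nat_lit 376) (nat_lit 358)) (XT.nd (nat_lit 78) (nat_lit 304) (nat_lit 0) (XT.lf (nat_lit 0) (nat_lit 1081257653) (nat_lit 228) (nat_lit 7592734331) (nat_lit 304) (nat_lit 3076393809) (nat_lit 81) (nat_lit 5) (nat_lit 84) (nat_lit 5) (nat_lit 85) (nat_lit 4) (nat_lit 467) (nat_lit 376) (nat_lit 357)) (XT.lf (nat_lit 0) (nat_lit 3100506014) (nat_lit 228) (nat_lit 819100284) (nat_lit 304) (nat_lit 8020228374)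 (nat_lit 77) (nat_lit 5) (nat_lit 80) (nat_lit 5) (nat_lit 81) (nat_lit 5) (nat_lit 468) (nat_lit 376) (nat_lit 356)))) (XT.nd (nat_lit 78) (nat_lit 608) (nat_lit 0) (XT.lf (nat_lit 0) (nat_lit 5080534500) (nat_lit 228) (nat_lit 6021586389) (nat_lit 304) (nat_lit 1032078148) (nat_lit 74) (nat_lit 5) (nat_lit 77) (nat_lit 5) (nat_lit 78) (nat_lit 4) (nat_lit 469) (nat_lit 376) (nat_lit 355)) (XT.nd (nat_lit 78) (nat_lit 304) (nat_lit 0) (XT.lf (nat_lit 0) (nat_lit 6076459311) (nat_lit 304) (nat_lit 5306933587) (nat_lit 76) (nat_lit 950375634) (nat_lit 70) (nat_lit 5) (nat_lit 74) (nat_lit 5) (nat_lit 71) (nat_lit 4) (nat_lit 470) (nat_lit 376) (nat_lit 354)) (XT.lf (nat_lit 0) (nat_lit 856207430) (nat_lit 304) (nat_lit 3603937499) (nat_lit 76) (nat_lit 8078495693) (nat_lit 66) (nat_lit 5) (nat_lit 70) (nat_lit 5) (nat_lit 67) (nat_lit 5) (nat_lit 471) (nat_lit 376) (nat_lit 353))))))) (XT.nd (nat_lit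 936) (nat_lit 836) (nat_lit 0) (XT.nd (nat_lit 468) (nat_lit 1140) (nat_lit 0) (XT.nd (nat_lit 234) (nat_lit 760) (nat_lit 0) (XT.nd (nat_lit 78) (nat_lit 608) (nat_lit 0) (XT.lf (nat_lit 0) (nat_lit 8099738083) (nat_lit 304) (nat_lit 1955245668) (nat_lit 76) (nat_lit 2693821943) (nat_lit 63) (nat_lit 5) (nat_lit 67) (nat_lit 5) (nat_lit 64) (nat_lit 4) (nat_lit 472) (nat_lit 376) (nat_lit 352)) (XT.nd (nat_lit 78) (nat_lit 380) (nat_lit 0) (XT.lf (nat_lit 0) (nat_lit 2576396265) (nat_lit 228) (nat_lit 352459255) (nat_lit 76) (nat_lit 10035786626) (nat_lit 60) (nat_lit 5) (nat_lit 63) (nat_lit 5) (nat_lit 61) (nat_lit 5) (nat_lit 473) (nat_lit 376) (nat_lit 351)) (XT.lf (nat_lit 0) (nat_lit 1202804074) (nat_lit 152) (nat_lit 8776639039) (nat_lit 228) (nat_lit 3206422299) (nat_lit 55) (nat_lit 5) (nat_lit 57) (nat_lit 5) (nat_lit 58) (nat_lit 4) (nat_lit 474) (nat_lit 376) (nat_lit 350)))) (XT.nd (nat_lit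 78) (nat_lit 456) (nat_lit 0) (XT.lf (nat_lit 0) (nat_lit 2707160173) (nat_lit 228) (nat_lit 1438565263) (nat_lit 304) (nat_lit 9267264752) (nat_lit 51) (nat_lit 5) (nat_lit 54) (nat_lit 5) (nat_lit 55) (nat_lit 5) (nat_lit 475) (nat_lit 376) (nat_lit 349)) (XT.nd (nat_lit 78) (nat_lit 304) (nat_lit 0) (XT.lf (nat_lit 0) (nat_lit 4136477427) (nat_lit 152) (nat_lit 7567894715) (nat_lit 228) (nat_lit 1941548240) (nat_lit 49) (nat_lit 5) (nat_lit 51) (nat_lit 5) (nat_lit 52) (nat_lit 4) (nat_lit 476) (nat_lit 376) (nat_lit 348)) (XT.lf (nat_lit 0) (nat_lit 5500883369) (nat_lit 228) (nat_lit 30171272) (nat_lit 304) (nat_lit 8354049163) (nat_lit 45) (nat_lit 5) (nat_lit 48) (nat_lit 5) (nat_lit 49) (nat_lit 5) (nat_lit 477) (nat_lit 376) (nat_lit 347))))) (XT.nd (nat_lit 234) (nat_lit 608) (nat_lit 0) (XT.nd (nat_lit 78) (nat_lit 380) (nat_lit 0) (XT.lf (nat_lit 0) (nat_lit 6777492476) (nat_lit 152) (nat_lit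 6466932063) (nat_lit 228) (nat_lit 885927268) (nat_lit 43) (nat_lit 5) (nat_lit 45) (nat_lit 5) (nat_lit 46) (nat_lit 4) (nat_lit 478) (nat_lit 376) (nat_lit 346)) (XT.nd (nat_lit 78) (nat_lit 152) (nat_lit 0) (XT.lf (nat_lit 0) (nat_lit 6719430768) (nat_lit 228) (nat_lit 6410966793) (nat_lit 76) (nat_lit 1251631571) (nat_lit 40) (nat_lit 5) (nat_lit 43) (nat_lit 5) (nat_lit 41) (nat_lit 4) (nat_lit 479) (nat_lit 376) (nat_lit 345)) (XT.lf (nat_lit 0) (nat_lit 9078929073) (nat_lit 152) (nat_lit 5500857205) (nat_lit 228) (nat_lit 60580624) (nat_lit 38) (nat_lit 5) (nat_lit 40) (nat_lit 5) (nat_lit 41) (nat_lit 4) (nat_lit 480) (nat_lit 376) (nat_lit 344)))) (XT.nd (nat_lit 78) (nat_lit 380) (nat_lit 0) (XT.lf (nat_lit 0) (nat_lit 7680338231) (nat_lit 228) (nat_lit 4827834276) (nat_lit 76) (nat_lit 2397023101) (nat_lit 35) (nat_lit 5) (nat_lit 38) (nat_lit 5) (nat_lit 36) (nat_lit 4) (nat_lit 481) (nat_lit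 376) (nat_lit 343)) (XT.nd (nat_lit 78) (nat_lit 152) (nat_lit 0) (XT.lf (nat_lit 0) (nat_lit 503863876) (nat_lit 228) (nat_lit 4191870390) (nat_lit 76) (nat_lit 10481461736) (nat_lit 32) (nat_lit 5) (nat_lit 35) (nat_lit 5) (nat_lit 33) (nat_lit 5) (nat_lit 482) (nat_lit 376) (nat_lit 342)) (XT.lf (nat_lit 0) (nat_lit 8388829822) (nat_lit 228) (nat_lit 3690668517) (nat_lit 76) (nat_lit 3376456271) (nat_lit 30) (nat_lit 5) (nat_lit 33) (nat_lit 5) (nat_lit 31) (nat_lit 4) (nat_lit 483) (nat_lit 376) (nat_lit 341)))))) (XT.nd (nat_lit 59592) (nat_lit 0) (nat_lit 11172) (XT.nd (nat_lit 234) (nat_lit 304) (nat_lit 0) (XT.nd (nat_lit 78) (nat_lit 304) (nat_lit 0) (XT.lf (nat_lit 0) (nat_lit 789875833) (nat_lit 228) (nat_lit 3298634270) (nat_lit 76) (nat_lit 11653816780) (nat_lit 27) (nat_lit 5) (nat_lit 30) (nat_lit 5) (nat_lit 28) (nat_lit 5) (nat_lit 484) (nat_lit 376) (nat_lit 340)) (XT.nd (nat_lit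 78) (nat_lit 152) (nat_lit 0) (XT.lf (nat_lit 0) (nat_lit 8816875468) (nat_lit 228) (nat_lit 3061661068) (nat_lit 76) (nat_lit 4157217268) (nat_lit 25) (nat_lit 5) (nat_lit 28) (nat_lit 5) (nat_lit 26) (nat_lit 4) (nat_lit 485) (nat_lit 376) (nat_lit 339)) (XT.lf (nat_lit 0) (nat_lit 768028589) (nat_lit 152) (nat_lit 2946870273) (nat_lit 76) (nat_lit 12622368946) (nat_lit 23) (nat_lit 5) (nat_lit 25) (nat_lit 5) (nat_lit 24) (nat_lit 5) (nat_lit 486) (nat_lit 376) (nat_lit 338)))) (XT.nd (nat_lit 78) (nat_lit 152) (nat_lit 0) (XT.lf (nat_lit 0) (nat_lit 8932842828) (nat_lit 228) (nat_lit 3009843186) (nat_lit 76) (nat_lit 4703462887) (nat_lit 21) (nat_lit 5) (nat_lit 24) (nat_lit 5) (nat_lit 22) (nat_lit 4) (nat_lit 487) (nat_lit 376) (nat_lit 337)) (XT.nd (nat_lit 59202) (nat_lit 0) (nat_lit 14668) (XT.lf (nat_lit 0) (nat_lit 404303925) (nat_lit 152) (nat_lit 3209321455) (nat_lit 76) (nat_lit 13350006079)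 (nat_lit 19) (nat_lit 5) (nat_lit 21) (nat_lit 5) (nat_lit 20) (nat_lit 5) (nat_lit 488) (nat_lit 376) (nat_lit 336)) (XT.lf (nat_lit 0) (nat_lit 456046658) (nat_lit 532) (nat_lit 3469510094) (nat_lit 0) (nat_lit 456046658) (nat_lit 212) (nat_lit 5) (nat_lit 219) (nat_lit 4) (nat_lit 212) (nat_lit 4) (nat_lit 446) (nat_lit 377) (nat_lit 377))))) (XT.nd (nat_lit 234) (nat_lit 1900) (nat_lit 0) (XT.nd (nat_lit 78) (nat_lit 1064) (nat_lit 0) (XT.lf (nat_lit 0) (nat_lit 4176415089) (nat_lit 532) (nat_lit 3074103316) (nat_lit 532) (nat_lit 1618472976) (nat_lit 205) (nat_lit 4) (nat_lit 212) (nat_lit 5) (nat_lit 212) (nat_lit 4) (nat_lit 447) (nat_lit 377) (nat_lit 376)) (XT.nd (nat_lit 78) (nat_lit 532) (nat_lit 0) (XT.lf (nat_lit 0) (nat_lit 4687693574) (nat_lit 532) (nat_lit 2415577176) (nat_lit 0) (nat_lit 1875082124) (nat_lit 198) (nat_lit 5) (nat_lit 205) (nat_lit 4) (nat_lit 198) (nat_lit 4) (nat_lit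 448) (nat_lit 377) (nat_lit 375)) (XT.lf (nat_lit 0) (nat_lit 2003671587) (nat_lit 532) (nat_lit 110362689) (nat_lit 76) (nat_lit 6977283480) (nat_lit 191) (nat_lit 5) (nat_lit 198) (nat_lit 5) (nat_lit 192) (nat_lit 4) (nat_lit 449) (nat_lit 377) (nat_lit 374)))) (XT.nd (nat_lit 78) (nat_lit 988) (nat_lit 0) (XT.lf (nat_lit 0) (nat_lit 2247650034) (nat_lit 456) (nat_lit 6158278584) (nat_lit 456) (nat_lit 801643784) (nat_lit 179) (nat_lit 4) (nat_lit 185) (nat_lit 5) (nat_lit 185) (nat_lit 4) (nat_lit 450) (nat_lit 377) (nat_lit 373)) (XT.nd (nat_lit 78) (nat_lit 532) (nat_lit 0) (XT.lf (nat_lit 0) (nat_lit 4627394253) (nat_lit 380) (nat_lit 930584461) (nat_lit 456) (nat_lit 3769425562) (nat_lit 173) (nat_lit 5) (nat_lit 178) (nat_lit 5) (nat_lit 179) (nat_lit 4) (nat_lit 451) (nat_lit 377) (nat_lit 372)) (XT.lf (nat_lit 0) (nat_lit 2588200596) (nat_lit 532) (nat_lit 2425368380) (nat_lit 76) (nat_lit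 4437304006) (nat_lit 166) (nat_lit 5) (nat_lit 173) (nat_lit 5) (nat_lit 167) (nat_lit 4) (nat_lit 452) (nat_lit 377) (nat_lit 371))))))))
noncomputable def xc10 : XT := (XT.nd (nat_lit 1794) (nat_lit 2584) (nat_lit 0) (XT.nd (nat_lit 858) (nat_lit 3420) (nat_lit 0) (XT.nd (nat_lit 390) (nat_lit 2660) (nat_lit 0) (XT.nd (nat_lit 156) (nat_lit 1216) (nat_lit 0) (XT.nd (nat_lit 78) (nat_lit 836) (nat_lit 0) (XT.lf (nat_lit 0) (nat_lit 9044068009) (nat_lit 456) (nat_lit 119945080) (nat_lit 0) (nat_lit 414373783) (nat_lit 161) (nat_lit 5) (nat_lit 167) (nat_lit 4) (nat_lit 161) (nat_lit 4) (nat_lit 453) (nat_lit 377) (nat_lit 370)) (XT.lf (nat_lit 0) (nat_lit 2205795153) (nat_lit 380) (nat_lit 3699609051) (nat_lit 456) (nat_lit 3803558232) (nat_lit 150) (nat_lit 5) (nat_lit 155) (nat_lit 5) (nat_lit 156) (nat_lit 4) (nat_lit 454) (nat_lit 377) (nat_lit 369))) (XT.nd (nat_lit 78) (nat_lit 760) (nat_lit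 0) (XT.lf (nat_lit 0) (nat_lit 2619607989) (nat_lit 456) (nat_lit 5281628196) (nat_lit 76) (nat_lit 1942468411) (nat_lit 144) (nat_lit 5) (nat_lit 150) (nat_lit 5) (nat_lit 145) (nat_lit 4) (nat_lit 455) (nat_lit 377) (nat_lit 368)) (XT.nd (nat_lit 78) (nat_lit 456) (nat_lit 0) (XT.lf (nat_lit 0) (nat_lit 6929403906) (nat_lit 304) (nat_lit 2235492701) (nat_lit 380) (nat_lit 817479778) (nat_lit 140) (nat_lit 5) (nat_lit 144) (nat_lit 5) (nat_lit 145) (nat_lit 4) (nat_lit 456) (nat_lit 377) (nat_lit 367)) (XT.lf (nat_lit 0) (nat_lit 5687421612) (nat_lit 456) (nat_lit 829749068) (nat_lit 76) (nat_lit 3607660395) (nat_lit 134) (nat_lit 5) (nat_lit 140) (nat_lit 5) (nat_lit 135) (nat_lit 4) (nat_lit 457) (nat_lit 377) (nat_lit 366))))) (XT.nd (nat_lit 234) (nat_lit 1292) (nat_lit 0) (XT.nd (nat_lit 78) (nat_lit 684) (nat_lit 0) (XT.lf (nat_lit 0) (nat_lit 1432056095) (nat_lit 304) (nat_lit 629913385) (nat_lit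 380) (nat_lit 8209526354) (nat_lit 125) (nat_lit 5) (nat_lit 129) (nat_lit 5) (nat_lit 130) (nat_lit 5) (nat_lit 458) (nat_lit 377) (nat_lit 365)) (XT.nd (nat_lit 78) (nat_lit 380) (nat_lit 0) (XT.lf (nat_lit 0) (nat_lit 3692107720) (nat_lit 304) (nat_lit 5007482794) (nat_lit 380) (nat_lit 1722323219) (nat_lit 121) (nat_lit 5) (nat_lit 125) (nat_lit 5) (nat_lit 126) (nat_lit 4) (nat_lit 459) (nat_lit 377) (nat_lit 364)) (XT.lf (nat_lit 0) (nat_lit 4869982178) (nat_lit 380) (nat_lit 4617514489) (nat_lit 76) (nat_lit 1089203132) (nat_lit 116) (nat_lit 5) (nat_lit 121) (nat_lit 5) (nat_lit 117) (nat_lit 4) (nat_lit 460) (nat_lit 377) (nat_lit 363)))) (XT.nd (nat_lit 78) (nat_lit 912) (nat_lit 0) (XT.lf (nat_lit 0) (nat_lit 888989860) (nat_lit 380) (nat_lit 2511824713) (nat_lit 76) (nat_lit 7334979018) (nat_lit 111) (nat_lit 5) (nat_lit 116) (nat_lit 5) (nat_lit 112) (nat_lit 5) (nat_lit 461) (nat_lit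 377) (nat_lit 362)) (XT.nd (nat_lit 78) (nat_lit 608) (nat_lit 0) (XT.lf (nat_lit 0) (nat_lit 7592814712) (nat_lit 380) (nat_lit 421001395) (nat_lit 76) (nat_lit 2885343579) (nat_lit 107) (nat_lit 5) (nat_lit 112) (nat_lit 5) (nat_lit 108) (nat_lit 4) (nat_lit 462) (nat_lit 377) (nat_lit 361)) (XT.lf (nat_lit 0) (nat_lit 1686703134) (nat_lit 304) (nat_lit 1702811958) (nat_lit 380) (nat_lit 7677391715) (nat_lit 99) (nat_lit 5) (nat_lit 103) (nat_lit 5) (nat_lit 104) (nat_lit 5) (nat_lit 463) (nat_lit 377) (nat_lit 360)))))) (XT.nd (nat_lit 468) (nat_lit 1520) (nat_lit 0) (XT.nd (nat_lit 234) (nat_lit 988) (nat_lit 0) (XT.nd (nat_lit 78) (nat_lit 684) (nat_lit 0) (XT.lf (nat_lit 0) (nat_lit 3784091488) (nat_lit 228) (nat_lit 6463528196) (nat_lit 304) (nat_lit 991512539) (nat_lit 96) (nat_lit 5) (nat_lit 99) (nat_lit 5) (nat_lit 100) (nat_lit 4) (nat_lit 464) (nat_lit 377) (nat_lit 359)) (XT.nd (nat_lit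 78) (nat_lit 304) (nat_lit 0) (XT.lf (nat_lit 0) (nat_lit 5803213521) (nat_lit 380) (nat_lit 5549589272) (nat_lit 76) (nat_lit 63252790) (nat_lit 91) (nat_lit 5) (nat_lit 96) (nat_lit 5) (nat_lit 92) (nat_lit 4) (nat_lit 465) (nat_lit 377) (nat_lit 358)) (XT.lf (nat_lit 0) (nat_lit 1193807591) (nat_lit 304) (nat_lit 3674298748) (nat_lit 76) (nat_lit 6729517384) (nat_lit 87) (nat_lit 5) (nat_lit 91) (nat_lit 5) (nat_lit 88) (nat_lit 5) (nat_lit 466) (nat_lit 377) (nat_lit 357)))) (XT.nd (nat_lit 78) (nat_lit 760) (nat_lit 0) (XT.lf (nat_lit 0) (nat_lit 8118528669) (nat_lit 304) (nat_lit 1824016720) (nat_lit 76) (nat_lit 1841556638) (nat_lit 84) (nat_lit 5) (nat_lit 88) (nat_lit 5) (nat_lit 85) (nat_lit 4) (nat_lit 467) (nat_lit 377) (nat_lit 356)) (XT.nd (nat_lit 78) (nat_lit 456) (nat_lit 0) (XT.lf (nat_lit 0) (nat_lit 3244105203) (nat_lit 304) (nat_lit 6124782) (nat_lit 76) (nat_lit 8725282013) (nat_lit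 80) (nat_lit 5) (nat_lit 84) (nat_lit 5) (nat_lit 81) (nat_lit 5) (nat_lit 468) (nat_lit 377) (nat_lit 355)) (XT.lf (nat_lit 0) (nat_lit 1805367238) (nat_lit 228) (nat_lit 8523160414) (nat_lit 304) (nat_lit 1843314062) (nat_lit 74) (nat_lit 5) (nat_lit 77) (nat_lit 5) (nat_lit 78) (nat_lit 4) (nat_lit 469) (nat_lit 377) (nat_lit 354))))) (XT.nd (nat_lit 234) (nat_lit 684) (nat_lit 0) (XT.nd (nat_lit 78) (nat_lit 532) (nat_lit 0) (XT.lf (nat_lit 0) (nat_lit 3575624068) (nat_lit 228) (nat_lit 1611237062) (nat_lit 304) (nat_lit 7186438794) (nat_lit 70) (nat_lit 5) (nat_lit 73) (nat_lit 5) (nat_lit 74) (nat_lit 5) (nat_lit 470) (nat_lit 377) (nat_lit 353)) (XT.nd (nat_lit 78) (nat_lit 304) (nat_lit 0) (XT.lf (nat_lit 0) (nat_lit 5308632517) (nat_lit 228) (nat_lit 7114570119) (nat_lit 304) (nat_lit 156956047) (nat_lit 67) (nat_lit 5) (nat_lit 70) (nat_lit 5) (nat_lit 71) (nat_lit 4) (nat_lit 471) (nat_lit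 377) (nat_lit 352)) (XT.lf (nat_lit 0) (nat_lit 6987323299) (nat_lit 304) (nat_lit 5800434903) (nat_lit 76) (nat_lit 4615215) (nat_lit 63) (nat_lit 5) (nat_lit 67) (nat_lit 5) (nat_lit 64) (nat_lit 4) (nat_lit 472) (nat_lit 377) (nat_lit 351)))) (XT.nd (nat_lit 78) (nat_lit 456) (nat_lit 0) (XT.lf (nat_lit 0) (nat_lit 1351000128) (nat_lit 228) (nat_lit 4389503063) (nat_lit 76) (nat_lit 7269551214) (nat_lit 60) (nat_lit 5) (nat_lit 63) (nat_lit 5) (nat_lit 61) (nat_lit 5) (nat_lit 473) (nat_lit 377) (nat_lit 350)) (XT.nd (nat_lit 78) (nat_lit 228) (nat_lit 0) (XT.lf (nat_lit 0) (nat_lit 8642902880) (nat_lit 304) (nat_lit 3034712012) (nat_lit 76) (nat_lit 1555888512) (nat_lit 57) (nat_lit 5) (nat_lit 61) (nat_lit 5) (nat_lit 58) (nat_lit 4) (nat_lit 474) (nat_lit 377) (nat_lit 349)) (XT.lf (nat_lit 0) (nat_lit 2684338418) (nat_lit 228) (nat_lit 1747732863) (nat_lit 76) (nat_lit 9030646603) (nat_lit 54)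 (nat_lit 5) (nat_lit 57) (nat_lit 5) (nat_lit 55) (nat_lit 5) (nat_lit 475) (nat_lit 377) (nat_lit 348))))))) (XT.nd (nat_lit 858) (nat_lit 304) (nat_lit 0) (XT.nd (nat_lit 390) (nat_lit 1064) (nat_lit 0) (XT.nd (nat_lit 156) (nat_lit 532) (nat_lit 0) (XT.nd (nat_lit 78) (nat_lit 456) (nat_lit 0) (XT.lf (nat_lit 0) (nat_lit 10128166876) (nat_lit 304) (nat_lit 528146006) (nat_lit 76) (nat_lit 3041634195) (nat_lit 51) (nat_lit 5) (nat_lit 55) (nat_lit 5) (nat_lit 52) (nat_lit 4) (nat_lit 476) (nat_lit 377) (nat_lit 347)) (XT.lf (nat_lit 0) (nat_lit 622856515) (nat_lit 228) (nat_lit 3209835891) (nat_lit 304) (nat_lit 10106481728) (nat_lit 45) (nat_lit 5) (nat_lit 48) (nat_lit 5) (nat_lit 49) (nat_lit 5) (nat_lit 477) (nat_lit 377) (nat_lit 346))) (XT.nd (nat_lit 78) (nat_lit 380) (nat_lit 0) (XT.lf (nat_lit 0) (nat_lit 1699345763) (nat_lit 152) (nat_lit 9737495958) (nat_lit 228) (nat_lit 2749767263) (nat_lit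 43) (nat_lit 5) (nat_lit 45) (nat_lit 5) (nat_lit 46) (nat_lit 4) (nat_lit 478) (nat_lit 377) (nat_lit 345)) (XT.nd (nat_lit 78) (nat_lit 152) (nat_lit 0) (XT.lf (nat_lit 0) (nat_lit 2688565373) (nat_lit 152) (nat_lit 2093894333) (nat_lit 228) (nat_lit 9658022459) (nat_lit 40) (nat_lit 5) (nat_lit 42) (nat_lit 5) (nat_lit 43) (nat_lit 5) (nat_lit 479) (nat_lit 377) (nat_lit 344)) (XT.lf (nat_lit 0) (nat_lit 3581075939) (nat_lit 152) (nat_lit 8958144473) (nat_lit 228) (nat_lit 2161673668) (nat_lit 38) (nat_lit 5) (nat_lit 40) (nat_lit 5) (nat_lit 41) (nat_lit 4) (nat_lit 480) (nat_lit 377) (nat_lit 343))))) (XT.nd (nat_lit 234) (nat_lit 456) (nat_lit 0) (XT.nd (nat_lit 78) (nat_lit 380) (nat_lit 0) (XT.lf (nat_lit 0) (nat_lit 4376213133) (nat_lit 152) (nat_lit 1123991895) (nat_lit 228) (nat_lit 9467924661) (nat_lit 35) (nat_lit 5) (nat_lit 37) (nat_lit 5) (nat_lit 38) (nat_lit 5) (nat_lit 481) (nat_lit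 377) (nat_lit 342)) (XT.nd (nat_lit 78) (nat_lit 228) (nat_lit 0) (XT.lf (nat_lit 0) (nat_lit 5057424979) (nat_lit 152) (nat_lit 8351411319) (nat_lit 228) (nat_lit 1833339218) (nat_lit 33) (nat_lit 5) (nat_lit 35) (nat_lit 5) (nat_lit 36) (nat_lit 4) (nat_lit 482) (nat_lit 377) (nat_lit 341)) (XT.lf (nat_lit 0) (nat_lit 5630371665) (nat_lit 152) (nat_lit 330641977) (nat_lit 228) (nat_lit 9562453678) (nat_lit 30) (nat_lit 5) (nat_lit 32) (nat_lit 5) (nat_lit 33) (nat_lit 5) (nat_lit 483) (nat_lit 377) (nat_lit 340)))) (XT.nd (nat_lit 78) (nat_lit 304) (nat_lit 0) (XT.lf (nat_lit 0) (nat_lit 6070012970) (nat_lit 152) (nat_lit 7949584639) (nat_lit 228) (nat_lit 1792255635) (nat_lit 28) (nat_lit 5) (nat_lit 30) (nat_lit 5) (nat_lit 31) (nat_lit 4) (nat_lit 484) (nat_lit 377) (nat_lit 339)) (XT.nd (nat_lit 78) (nat_lit 76) (nat_lit 0) (XT.lf (nat_lit 0) (nat_lit 6138345320) (nat_lit 228) (nat_lit 9720069950)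 (nat_lit 76) (nat_lit 249497542) (nat_lit 25) (nat_lit 5) (nat_lit 28) (nat_lit 5) (nat_lit 26) (nat_lit 4) (nat_lit 485) (nat_lit 377) (nat_lit 338)) (XT.lf (nat_lit 0) (nat_lit 6554028506) (nat_lit 76) (nat_lit 7787979635) (nat_lit 152) (nat_lit 2069422823) (nat_lit 24) (nat_lit 5) (nat_lit 25) (nat_lit 5) (nat_lit 26) (nat_lit 4) (nat_lit 486) (nat_lit 377) (nat_lit 337)))))) (XT.nd (nat_lit 59436) (nat_lit 0) (nat_lit 10640) (XT.nd (nat_lit 59202) (nat_lit 0) (nat_lit 14060) (XT.nd (nat_lit 78) (nat_lit 76) (nat_lit 0) (XT.lf (nat_lit 0) (nat_lit 5999334827) (nat_lit 228) (nat_lit 10141607520) (nat_lit 76) (nat_lit 582104073) (nat_lit 21) (nat_lit 5) (nat_lit 24) (nat_lit 5) (nat_lit 22) (nat_lit 4) (nat_lit 487) (nat_lit 377) (nat_lit 336)) (XT.nd (nat_lit 59046) (nat_lit 0) (nat_lit 16264) (XT.lf (nat_lit 0) (nat_lit 6437509928) (nat_lit 76) (nat_lit 7905318384) (nat_lit 152) (nat_lit 2699696009)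 (nat_lit 20) (nat_lit 5) (nat_lit 21) (nat_lit 5) (nat_lit 22) (nat_lit 4) (nat_lit 488) (nat_lit 377) (nat_lit 335)) (XT.lf (nat_lit 0) (nat_lit 2952853409) (nat_lit 532) (nat_lit 663534696) (nat_lit 532) (nat_lit 663534696) (nat_lit 234) (nat_lit 4) (nat_lit 241) (nat_lit 5) (nat_lit 241) (nat_lit 4) (nat_lit 444) (nat_lit 378) (nat_lit 378)))) (XT.nd (nat_lit 78) (nat_lit 1596) (nat_lit 0) (XT.lf (nat_lit 0) (nat_lit 4842793883) (nat_lit 608) (nat_lit 504227513) (nat_lit 0) (nat_lit 3313508649) (nat_lit 226) (nat_lit 5) (nat_lit 234) (nat_lit 4) (nat_lit 226) (nat_lit 4) (nat_lit 445) (nat_lit 378) (nat_lit 377)) (XT.nd (nat_lit 78) (nat_lit 532) (nat_lit 0) (XT.lf (nat_lit 0) (nat_lit 1711083410) (nat_lit 456) (nat_lit 628080743) (nat_lit 532) (nat_lit 6425496101) (nat_lit 212) (nat_lit 5) (nat_lit 218) (nat_lit 5) (nat_lit 219) (nat_lit 4) (nat_lit 446) (nat_lit 378) (nat_lit 376)) (XT.lf (nat_lit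 0) (nat_lit 3955781792) (nat_lit 532) (nat_lit 4642213223) (nat_lit 532) (nat_lit 274050295) (nat_lit 205) (nat_lit 4) (nat_lit 212) (nat_lit 5) (nat_lit 212) (nat_lit 4) (nat_lit 447) (nat_lit 378) (nat_lit 375))))) (XT.nd (nat_lit 234) (nat_lit 1368) (nat_lit 0) (XT.nd (nat_lit 78) (nat_lit 1520) (nat_lit 0) (XT.lf (nat_lit 0) (nat_lit 5928798912) (nat_lit 532) (nat_lit 2753036816) (nat_lit 0) (nat_lit 301118391) (nat_lit 198) (nat_lit 5) (nat_lit 205) (nat_lit 4) (nat_lit 198) (nat_lit 4) (nat_lit 448) (nat_lit 378) (nat_lit 374)) (XT.nd (nat_lit 78) (nat_lit 988) (nat_lit 0) (XT.lf (nat_lit 0) (nat_lit 3148671687) (nat_lit 532) (nat_lit 573351912) (nat_lit 76) (nat_lit 5375248376) (nat_lit 191) (nat_lit 5) (nat_lit 198) (nat_lit 5) (nat_lit 192) (nat_lit 4) (nat_lit 449) (nat_lit 378) (nat_lit 373)) (XT.lf (nat_lit 0) (nat_lit 243262316) (nat_lit 532) (nat_lit 7549412504) (nat_lit 76) (nat_lit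 1422609707) (nat_lit 178) (nat_lit 5) (nat_lit 185) (nat_lit 5) (nat_lit 179) (nat_lit 4) (nat_lit 450) (nat_lit 378) (nat_lit 372)))) (XT.nd (nat_lit 78) (nat_lit 988) (nat_lit 0) (XT.lf (nat_lit 0) (nat_lit 3916333645) (nat_lit 380) (nat_lit 2600506718) (nat_lit 456) (nat_lit 2819689765) (nat_lit 173) (nat_lit 5) (nat_lit 178) (nat_lit 5) (nat_lit 179) (nat_lit 4) (nat_lit 451) (nat_lit 378) (nat_lit 371)) (XT.nd (nat_lit 78) (nat_lit 456) (nat_lit 0) (XT.lf (nat_lit 0) (nat_lit 3438930170) (nat_lit 532) (nat_lit 3268472334) (nat_lit 76) (nat_lit 2754210867) (nat_lit 166) (nat_lit 5) (nat_lit 173) (nat_lit 5) (nat_lit 167) (nat_lit 4) (nat_lit 452) (nat_lit 378) (nat_lit 370)) (XT.lf (nat_lit 0) (nat_lit 223298887) (nat_lit 456) (nat_lit 1092313307) (nat_lit 76) (nat_lit 8275049157) (nat_lit 160) (nat_lit 5) (nat_lit 166) (nat_lit 5) (nat_lit 161) (nat_lit 5) (nat_lit 453) (nat_lit 378) (nat_lit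 369))))))))
noncomputable def xc11 : XT := (XT.nd (nat_lit 1794) (nat_lit 2280) (nat_lit 0) (XT.nd (nat_lit 858) (nat_lit 3420) (nat_lit 0) (XT.nd (nat_lit 390) (nat_lit 2508) (nat_lit 0) (XT.nd (nat_lit 156) (nat_lit 1140) (nat_lit 0) (XT.nd (nat_lit 78) (nat_lit 456) (nat_lit 0) (XT.lf (nat_lit 0) (nat_lit 1091210579) (nat_lit 380) (nat_lit 5473656943) (nat_lit 456) (nat_lit 3158129284) (nat_lit 150) (nat_lit 5) (nat_lit 155) (nat_lit 5) (nat_lit 156) (nat_lit 4) (nat_lit 454) (nat_lit 378) (nat_lit 368)) (XT.lf (nat_lit 0) (nat_lit 3168562941) (nat_lit 456) (nat_lit 6541151622) (nat_lit 76) (nat_lit 149706807) (nat_lit 144) (nat_lit 5) (nat_lit 150) (nat_lit 5) (nat_lit 145) (nat_lit 4) (nat_lit 455) (nat_lit 378) (nat_lit 367))) (XT.nd (nat_lit 78) (nat_lit 836) (nat_lit 0) (XT.lf (nat_lit 0) (nat_lit 5545812317) (nat_lit 304) (nat_lit 4092049751) (nat_lit 380) (nat_lit 361756739) (nat_lit 140)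 (nat_lit 5) (nat_lit 144) (nat_lit 5) (nat_lit 145) (nat_lit 4) (nat_lit 456) (nat_lit 378) (nat_lit 366)) (XT.nd (nat_lit 78) (nat_lit 380) (nat_lit 0) (XT.lf (nat_lit 0) (nat_lit 6048715956) (nat_lit 456) (nat_lit 2365040780) (nat_lit 76) (nat_lit 1730032196) (nat_lit 134) (nat_lit 5) (nat_lit 140) (nat_lit 5) (nat_lit 135) (nat_lit 4) (nat_lit 457) (nat_lit 378) (nat_lit 365)) (XT.lf (nat_lit 0) (nat_lit 2314056480) (nat_lit 380) (nat_lit 270448067) (nat_lit 76) (nat_lit 7707625193) (nat_lit 129) (nat_lit 5) (nat_lit 134) (nat_lit 5) (nat_lit 130) (nat_lit 5) (nat_lit 458) (nat_lit 378) (nat_lit 364))))) (XT.nd (nat_lit 234) (nat_lit 1140) (nat_lit 0) (XT.nd (nat_lit 78) (nat_lit 760) (nat_lit 0) (XT.lf (nat_lit 0) (nat_lit 1847826765) (nat_lit 304) (nat_lit 7012090584) (nat_lit 380) (nat_lit 1584470645) (nat_lit 121) (nat_lit 5) (nat_lit 125) (nat_lit 5) (nat_lit 126) (nat_lit 4) (nat_lit 459)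 (nat_lit 378) (nat_lit 363)) (XT.nd (nat_lit 78) (nat_lit 380) (nat_lit 0) (XT.lf (nat_lit 0) (nat_lit 3967457034) (nat_lit 304) (nat_lit 953916081) (nat_lit 380) (nat_lit 5679481025) (nat_lit 116) (nat_lit 5) (nat_lit 120) (nat_lit 5) (nat_lit 121) (nat_lit 5) (nat_lit 460) (nat_lit 378) (nat_lit 362)) (XT.lf (nat_lit 0) (nat_lit 831645655) (nat_lit 380) (nat_lit 4679538326) (nat_lit 76) (nat_lit 5250449554) (nat_lit 111) (nat_lit 5) (nat_lit 116) (nat_lit 5) (nat_lit 112) (nat_lit 5) (nat_lit 461) (nat_lit 378) (nat_lit 361)))) (XT.nd (nat_lit 78) (nat_lit 836) (nat_lit 0) (XT.lf (nat_lit 0) (nat_lit 7443665589) (nat_lit 380) (nat_lit 2735850457) (nat_lit 76) (nat_lit 747324216) (nat_lit 107) (nat_lit 5) (nat_lit 112) (nat_lit 5) (nat_lit 108) (nat_lit 4) (nat_lit 462) (nat_lit 378) (nat_lit 360)) (XT.nd (nat_lit 78) (nat_lit 532) (nat_lit 0) (XT.lf (nat_lit 0) (nat_lit 3125736912) (nat_lit 304)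 (nat_lit 812887211) (nat_lit 76) (nat_lit 7157775889) (nat_lit 103) (nat_lit 5) (nat_lit 107) (nat_lit 5) (nat_lit 104) (nat_lit 5) (nat_lit 463) (nat_lit 378) (nat_lit 359)) (XT.lf (nat_lit 0) (nat_lit 1119315218) (nat_lit 228) (nat_lit 8765231814) (nat_lit 304) (nat_lit 1386068472) (nat_lit 96) (nat_lit 5) (nat_lit 99) (nat_lit 5) (nat_lit 100) (nat_lit 4) (nat_lit 464) (nat_lit 378) (nat_lit 358)))))) (XT.nd (nat_lit 468) (nat_lit 1672) (nat_lit 0) (XT.nd (nat_lit 234) (nat_lit 836) (nat_lit 0) (XT.nd (nat_lit 78) (nat_lit 532) (nat_lit 0) (XT.lf (nat_lit 0) (nat_lit 3032507924) (nat_lit 304) (nat_lit 2301146394) (nat_lit 380) (nat_lit 6115543329) (nat_lit 91) (nat_lit 5) (nat_lit 95) (nat_lit 5) (nat_lit 96) (nat_lit 5) (nat_lit 465) (nat_lit 378) (nat_lit 357)) (XT.nd (nat_lit 78) (nat_lit 228) (nat_lit 0) (XT.lf (nat_lit 0) (nat_lit 602183046) (nat_lit 304) (nat_lit 6699650116) (nat_lit 76) (nat_lit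 4330912023) (nat_lit 87) (nat_lit 5) (nat_lit 91) (nat_lit 5) (nat_lit 88) (nat_lit 5) (nat_lit 466) (nat_lit 378) (nat_lit 356)) (XT.lf (nat_lit 0) (nat_lit 6803630552) (nat_lit 228) (nat_lit 630789560) (nat_lit 304) (nat_lit 4386656741) (nat_lit 84) (nat_lit 5) (nat_lit 87) (nat_lit 5) (nat_lit 88) (nat_lit 5) (nat_lit 467) (nat_lit 378) (nat_lit 355)))) (XT.nd (nat_lit 78) (nat_lit 532) (nat_lit 0) (XT.lf (nat_lit 0) (nat_lit 2447197420) (nat_lit 304) (nat_lit 3373774012) (nat_lit 76) (nat_lit 6193318166) (nat_lit 80) (nat_lit 5) (nat_lit 84) (nat_lit 5) (nat_lit 81) (nat_lit 5) (nat_lit 468) (nat_lit 378) (nat_lit 354)) (XT.nd (nat_lit 78) (nat_lit 304) (nat_lit 0) (XT.lf (nat_lit 0) (nat_lit 9421679213) (nat_lit 304) (nat_lit 1755628380) (nat_lit 76) (nat_lit 1035513939) (nat_lit 77) (nat_lit 5) (nat_lit 81) (nat_lit 5) (nat_lit 78) (nat_lit 4) (nat_lit 469) (nat_lit 378) (nat_lit 353)) (XT.lf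 (nat_lit 0) (nat_lit 4158077787) (nat_lit 304) (nat_lit 192227453) (nat_lit 76) (nat_lit 8065968541) (nat_lit 73) (nat_lit 5) (nat_lit 77) (nat_lit 5) (nat_lit 74) (nat_lit 5) (nat_lit 470) (nat_lit 378) (nat_lit 352))))) (XT.nd (nat_lit 234) (nat_lit 760) (nat_lit 0) (XT.nd (nat_lit 78) (nat_lit 456) (nat_lit 0) (XT.lf (nat_lit 0) (nat_lit 1360360236) (nat_lit 228) (nat_lit 9931603239) (nat_lit 304) (nat_lit 1333221329) (nat_lit 67) (nat_lit 5) (nat_lit 70) (nat_lit 5) (nat_lit 71) (nat_lit 4) (nat_lit 471) (nat_lit 378) (nat_lit 351)) (XT.nd (nat_lit 78) (nat_lit 152) (nat_lit 0) (XT.lf (nat_lit 0) (nat_lit 2852009654) (nat_lit 228) (nat_lit 2890460860) (nat_lit 304) (nat_lit 7096765049) (nat_lit 63) (nat_lit 5) (nat_lit 66) (nat_lit 5) (nat_lit 67) (nat_lit 5) (nat_lit 472) (nat_lit 378) (nat_lit 350)) (XT.lf (nat_lit 0) (nat_lit 4305653824) (nat_lit 152) (nat_lit 8725484095) (nat_lit 228) (nat_lit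 28023216) (nat_lit 61) (nat_lit 5) (nat_lit 63) (nat_lit 5) (nat_lit 64) (nat_lit 4) (nat_lit 473) (nat_lit 378) (nat_lit 349)))) (XT.nd (nat_lit 78) (nat_lit 456) (nat_lit 0) (XT.lf (nat_lit 0) (nat_lit 5687746833) (nat_lit 228) (nat_lit 1481191061) (nat_lit 304) (nat_lit 6115584830) (nat_lit 57) (nat_lit 5) (nat_lit 60) (nat_lit 5) (nat_lit 61) (nat_lit 5) (nat_lit 474) (nat_lit 378) (nat_lit 348)) (XT.nd (nat_lit 78) (nat_lit 228) (nat_lit 0) (XT.lf (nat_lit 0) (nat_lit 1083517152) (nat_lit 228) (nat_lit 6501962118) (nat_lit 76) (nat_lit 5930375341) (nat_lit 54) (nat_lit 5) (nat_lit 57) (nat_lit 5) (nat_lit 55) (nat_lit 5) (nat_lit 475) (nat_lit 378) (nat_lit 347)) (XT.lf (nat_lit 0) (nat_lit 8274782838) (nat_lit 228) (nat_lit 146260915) (nat_lit 304) (nat_lit 5332168646) (nat_lit 51) (nat_lit 5) (nat_lit 54) (nat_lit 5) (nat_lit 55) (nat_lit 5) (nat_lit 476) (nat_lit 378) (nat_lit 346))))))) (XT.nd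 (nat_lit 59748) (nat_lit 0) (nat_lit 10564) (XT.nd (nat_lit 468) (nat_lit 1064) (nat_lit 0) (XT.nd (nat_lit 234) (nat_lit 532) (nat_lit 0) (XT.nd (nat_lit 78) (nat_lit 456) (nat_lit 0) (XT.lf (nat_lit 0) (nat_lit 2000965528) (nat_lit 228) (nat_lit 4542659144) (nat_lit 76) (nat_lit 7452895120) (nat_lit 48) (nat_lit 5) (nat_lit 51) (nat_lit 5) (nat_lit 49) (nat_lit 5) (nat_lit 477) (nat_lit 378) (nat_lit 345)) (XT.nd (nat_lit 78) (nat_lit 228) (nat_lit 0) (XT.lf (nat_lit 0) (nat_lit 9488366738) (nat_lit 304) (nat_lit 3682104836) (nat_lit 76) (nat_lit 1075820393) (nat_lit 45) (nat_lit 5) (nat_lit 49) (nat_lit 5) (nat_lit 46) (nat_lit 4) (nat_lit 478) (nat_lit 378) (nat_lit 344)) (XT.lf (nat_lit 0) (nat_lit 2705410734) (nat_lit 228) (nat_lit 2920361255) (nat_lit 76) (nat_lit 8876560742) (nat_lit 42) (nat_lit 5) (nat_lit 45) (nat_lit 5) (nat_lit 43) (nat_lit 5) (nat_lit 479) (nat_lit 378) (nat_lit 343))))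 (XT.nd (nat_lit 78) (nat_lit 380) (nat_lit 0) (XT.lf (nat_lit 0) (nat_lit 10343926816) (nat_lit 228) (nat_lit 2248330447) (nat_lit 76) (nat_lit 2172854461) (nat_lit 40) (nat_lit 5) (nat_lit 43) (nat_lit 5) (nat_lit 41) (nat_lit 4) (nat_lit 480) (nat_lit 378) (nat_lit 342)) (XT.nd (nat_lit 78) (nat_lit 152) (nat_lit 0) (XT.lf (nat_lit 0) (nat_lit 3174882656) (nat_lit 228) (nat_lit 1684884629) (nat_lit 76) (nat_lit 10174784432) (nat_lit 37) (nat_lit 5) (nat_lit 40) (nat_lit 5) (nat_lit 38) (nat_lit 5) (nat_lit 481) (nat_lit 378) (nat_lit 341)) (XT.lf (nat_lit 0) (nat_lit 10963764220) (nat_lit 228) (nat_lit 1228598930) (nat_lit 76) (nat_lit 3118631406) (nat_lit 35) (nat_lit 5) (nat_lit 38) (nat_lit 5) (nat_lit 36) (nat_lit 4) (nat_lit 482) (nat_lit 378) (nat_lit 340))))) (XT.nd (nat_lit 234) (nat_lit 456) (nat_lit 0) (XT.nd (nat_lit 78) (nat_lit 380) (nat_lit 0) (XT.lf (nat_lit 0) (nat_lit 3384463159)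 (nat_lit 228) (nat_lit 891474613) (nat_lit 76) (nat_lit 11318589537) (nat_lit 32) (nat_lit 5) (nat_lit 35) (nat_lit 5) (nat_lit 33) (nat_lit 5) (nat_lit 483) (nat_lit 378) (nat_lit 339)) (XT.nd (nat_lit 78) (nat_lit 228) (nat_lit 0) (XT.lf (nat_lit 0) (nat_lit 11321800226) (nat_lit 228) (nat_lit 681082976) (nat_lit 76) (nat_lit 3882456833) (nat_lit 30) (nat_lit 5) (nat_lit 33) (nat_lit 5) (nat_lit 31) (nat_lit 4) (nat_lit 484) (nat_lit 378) (nat_lit 338)) (XT.lf (nat_lit 0) (nat_lit 3306000047) (nat_lit 228) (nat_lit 601419821) (nat_lit 76) (nat_lit 12276289511) (nat_lit 27) (nat_lit 5) (nat_lit 30) (nat_lit 5) (nat_lit 28) (nat_lit 5) (nat_lit 485) (nat_lit 378) (nat_lit 337)))) (XT.nd (nat_lit 78) (nat_lit 304) (nat_lit 0) (XT.lf (nat_lit 0) (nat_lit 11388586271) (nat_lit 228) (nat_lit 670330162) (nat_lit 76) (nat_lit 4430734355) (nat_lit 25) (nat_lit 5) (nat_lit 28) (nat_lit 5) (nat_lit 26) (nat_lit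 4) (nat_lit 486) (nat_lit 378) (nat_lit 336)) (XT.nd (nat_lit 78) (nat_lit 152) (nat_lit 0) (XT.lf (nat_lit 0) (nat_lit 2907788714) (nat_lit 152) (nat_lit 882728569) (nat_lit 76) (nat_lit 13013137567) (nat_lit 23) (nat_lit 5) (nat_lit 25) (nat_lit 5) (nat_lit 24) (nat_lit 5) (nat_lit 487) (nat_lit 378) (nat_lit 335)) (XT.lf (nat_lit 0) (nat_lit 11130968866) (nat_lit 228) (nat_lit 1267972920) (nat_lit 76) (nat_lit 4726598825) (nat_lit 21) (nat_lit 5) (nat_lit 24) (nat_lit 5) (nat_lit 22) (nat_lit 4) (nat_lit 488) (nat_lit 378) (nat_lit 334)))))) (XT.nd (nat_lit 468) (nat_lit 3344) (nat_lit 0) (XT.nd (nat_lit 234) (nat_lit 2204) (nat_lit 0) (XT.nd (nat_lit 78) (nat_lit 1216) (nat_lit 0) (XT.lf (nat_lit 0) (nat_lit 798255077) (nat_lit 608) (nat_lit 1692553011) (nat_lit 608) (nat_lit 1692553011) (nat_lit 249) (nat_lit 4) (nat_lit 257) (nat_lit 5) (nat_lit 257) (nat_lit 4) (nat_lit 442) (nat_lit 379) (nat_lit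 379)) (XT.nd (nat_lit 78) (nat_lit 608) (nat_lit 0) (XT.lf (nat_lit 0) (nat_lit 2644289534) (nat_lit 608) (nat_lit 4780464613) (nat_lit 0) (nat_lit 1037622467) (nat_lit 241) (nat_lit 5) (nat_lit 249) (nat_lit 4) (nat_lit 241) (nat_lit 4) (nat_lit 443) (nat_lit 379) (nat_lit 378)) (XT.lf (nat_lit 0) (nat_lit 200416545) (nat_lit 608) (nat_lit 2761696584) (nat_lit 76) (nat_lit 5599215765) (nat_lit 233) (nat_lit 5) (nat_lit 241) (nat_lit 5) (nat_lit 234) (nat_lit 4) (nat_lit 444) (nat_lit 379) (nat_lit 377)))) (XT.nd (nat_lit 78) (nat_lit 1672) (nat_lit 0) (XT.lf (nat_lit 0) (nat_lit 6267361831) (nat_lit 608) (nat_lit 718028633) (nat_lit 0) (nat_lit 1678169858) (nat_lit 226) (nat_lit 5) (nat_lit 234) (nat_lit 4) (nat_lit 226) (nat_lit 4) (nat_lit 445) (nat_lit 379) (nat_lit 376)) (XT.nd (nat_lit 78) (nat_lit 608) (nat_lit 0) (XT.lf (nat_lit 0) (nat_lit 1373136824) (nat_lit 456) (nat_lit 2292123969) (nat_lit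 532) (nat_lit 5103789702) (nat_lit 212) (nat_lit 5) (nat_lit 218) (nat_lit 5) (nat_lit 219) (nat_lit 4) (nat_lit 446) (nat_lit 379) (nat_lit 375)) (XT.lf (nat_lit 0) (nat_lit 947744442) (nat_lit 608) (nat_lit 5370068585) (nat_lit 76) (nat_lit 2560218104) (nat_lit 204) (nat_lit 5) (nat_lit 212) (nat_lit 5) (nat_lit 205) (nat_lit 4) (nat_lit 447) (nat_lit 379) (nat_lit 374))))) (XT.nd (nat_lit 234) (nat_lit 1368) (nat_lit 0) (XT.nd (nat_lit 78) (nat_lit 1520) (nat_lit 0) (XT.lf (nat_lit 0) (nat_lit 5665526559) (nat_lit 456) (nat_lit 1404843184) (nat_lit 532) (nat_lit 1920075159) (nat_lit 198) (nat_lit 5) (nat_lit 204) (nat_lit 5) (nat_lit 205) (nat_lit 4) (nat_lit 448) (nat_lit 379) (nat_lit 373)) (XT.nd (nat_lit 78) (nat_lit 988) (nat_lit 0) (XT.lf (nat_lit 0) (nat_lit 4184045148) (nat_lit 532) (nat_lit 1263845493) (nat_lit 76) (nat_lit 3658409086) (nat_lit 191) (nat_lit 5) (nat_lit 198) (nat_lit 5)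 (nat_lit 192) (nat_lit 4) (nat_lit 449) (nat_lit 379) (nat_lit 372)) (XT.lf (nat_lit 0) (nat_lit 844641434) (nat_lit 456) (nat_lit 322181298) (nat_lit 532) (nat_lit 8059149971) (nat_lit 178) (nat_lit 5) (nat_lit 184) (nat_lit 5) (nat_lit 185) (nat_lit 5) (nat_lit 450) (nat_lit 379) (nat_lit 371)))) (XT.nd (nat_lit 78) (nat_lit 988) (nat_lit 0) (XT.lf (nat_lit 0) (nat_lit 2970175346) (nat_lit 380) (nat_lit 4393141917) (nat_lit 456) (nat_lit 1985449707) (nat_lit 173) (nat_lit 5) (nat_lit 178) (nat_lit 5) (nat_lit 179) (nat_lit 4) (nat_lit 451) (nat_lit 379) (nat_lit 370)) (XT.nd (nat_lit 78) (nat_lit 456) (nat_lit 0) (XT.lf (nat_lit 0) (nat_lit 4175370650) (nat_lit 532) (nat_lit 4351366086) (nat_lit 76) (nat_lit 948748978) (nat_lit 166) (nat_lit 5) (nat_lit 173) (nat_lit 5) (nat_lit 167) (nat_lit 4) (nat_lit 452) (nat_lit 379) (nat_lit 369)) (XT.lf (nat_lit 0) (nat_lit 861223936) (nat_lit 456) (nat_lit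 2313116269) (nat_lit 76) (nat_lit 6431609329) (nat_lit 160) (nat_lit 5) (nat_lit 166) (nat_lit 5) (nat_lit 161) (nat_lit 5) (nat_lit 453) (nat_lit 379) (nat_lit 368))))))))
noncomputable def xc12 : XT := (XT.nd (nat_lit 1794) (nat_lit 2280) (nat_lit 0) (XT.nd (nat_lit 858) (nat_lit 3648) (nat_lit 0) (XT.nd (nat_lit 390) (nat_lit 2280) (nat_lit 0) (XT.nd (nat_lit 156) (nat_lit 1140) (nat_lit 0) (XT.nd (nat_lit 78) (nat_lit 836) (nat_lit 0) (XT.lf (nat_lit 0) (nat_lit 7108633688) (nat_lit 456) (nat_lit 267716065) (nat_lit 76) (nat_lit 2363824568) (nat_lit 155) (nat_lit 5) (nat_lit 161) (nat_lit 5) (nat_lit 156) (nat_lit 4) (nat_lit 454) (nat_lit 379) (nat_lit 367)) (XT.lf (nat_lit 0) (nat_lit 1812960899) (nat_lit 380) (nat_lit 1796668021) (nat_lit 456) (nat_lit 6268479774) (nat_lit 144) (nat_lit 5) (nat_lit 149) (nat_lit 5) (nat_lit 150) (nat_lit 5) (nat_lit 455) (nat_lit 379) (nat_lit 366))) (XT.nd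 (nat_lit 78) (nat_lit 836) (nat_lit 0) (XT.lf (nat_lit 0) (nat_lit 3909179571) (nat_lit 304) (nat_lit 6082402554) (nat_lit 380) (nat_lit 28476612) (nat_lit 140) (nat_lit 5) (nat_lit 144) (nat_lit 5) (nat_lit 145) (nat_lit 4) (nat_lit 456) (nat_lit 379) (nat_lit 365)) (XT.nd (nat_lit 78) (nat_lit 380) (nat_lit 0) (XT.lf (nat_lit 0) (nat_lit 6005686967) (nat_lit 380) (nat_lit 284724239) (nat_lit 456) (nat_lit 3875524070) (nat_lit 134) (nat_lit 5) (nat_lit 139) (nat_lit 5) (nat_lit 140) (nat_lit 5) (nat_lit 457) (nat_lit 379) (nat_lit 364)) (XT.lf (nat_lit 0) (nat_lit 2452625127) (nat_lit 380) (nat_lit 2214997928) (nat_lit 76) (nat_lit 5648191689) (nat_lit 129) (nat_lit 5) (nat_lit 134) (nat_lit 5) (nat_lit 130) (nat_lit 5) (nat_lit 458) (nat_lit 379) (nat_lit 363))))) (XT.nd (nat_lit 234) (nat_lit 912) (nat_lit 0) (XT.nd (nat_lit 78) (nat_lit 1064) (nat_lit 0) (XT.lf (nat_lit 0) (nat_lit 8896683628)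 (nat_lit 380) (nat_lit 260070094) (nat_lit 76) (nat_lit 1313360327) (nat_lit 125) (nat_lit 5) (nat_lit 130) (nat_lit 5) (nat_lit 126) (nat_lit 4) (nat_lit 459) (nat_lit 379) (nat_lit 362)) (XT.nd (nat_lit 78) (nat_lit 380) (nat_lit 0) (XT.lf (nat_lit 0) (nat_lit 1698418271) (nat_lit 304) (nat_lit 3154765959) (nat_lit 380) (nat_lit 5774980979) (nat_lit 116) (nat_lit 5) (nat_lit 120) (nat_lit 5) (nat_lit 121) (nat_lit 5) (nat_lit 460) (nat_lit 379) (nat_lit 361)) (XT.lf (nat_lit 0) (nat_lit 645105173) (nat_lit 380) (nat_lit 7122626500) (nat_lit 76) (nat_lit 3023075727) (nat_lit 111) (nat_lit 5) (nat_lit 116) (nat_lit 5) (nat_lit 112) (nat_lit 5) (nat_lit 461) (nat_lit 379) (nat_lit 360)))) (XT.nd (nat_lit 78) (nat_lit 608) (nat_lit 0) (XT.lf (nat_lit 0) (nat_lit 5618512966) (nat_lit 304) (nat_lit 1555993722) (nat_lit 380) (nat_lit 3783164206) (nat_lit 107) (nat_lit 5) (nat_lit 111) (nat_lit 5) (nat_lit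 112) (nat_lit 5) (nat_lit 462) (nat_lit 379) (nat_lit 359)) (XT.nd (nat_lit 78) (nat_lit 304) (nat_lit 0) (XT.lf (nat_lit 0) (nat_lit 2741187046) (nat_lit 304) (nat_lit 3571859515) (nat_lit 76) (nat_lit 4815997122) (nat_lit 103) (nat_lit 5) (nat_lit 107) (nat_lit 5) (nat_lit 104) (nat_lit 5) (nat_lit 463) (nat_lit 379) (nat_lit 358)) (XT.lf (nat_lit 0) (nat_lit 9398757465) (nat_lit 380) (nat_lit 1809817886) (nat_lit 76) (nat_lit 96712686) (nat_lit 99) (nat_lit 5) (nat_lit 104) (nat_lit 5) (nat_lit 100) (nat_lit 4) (nat_lit 464) (nat_lit 379) (nat_lit 357)))))) (XT.nd (nat_lit 468) (nat_lit 1672) (nat_lit 0) (XT.nd (nat_lit 234) (nat_lit 836) (nat_lit 0) (XT.nd (nat_lit 78) (nat_lit 836) (nat_lit 0) (XT.lf (nat_lit 0) (nat_lit 4728771619) (nat_lit 304) (nat_lit 92397895) (nat_lit 76) (nat_lit 6664597051) (nat_lit 95) (nat_lit 5) (nat_lit 99) (nat_lit 5) (nat_lit 96) (nat_lit 5) (nat_lit 465) (nat_lit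 379) (nat_lit 356)) (XT.nd (nat_lit 78) (nat_lit 304) (nat_lit 0) (XT.lf (nat_lit 0) (nat_lit 1647870251) (nat_lit 228) (nat_lit 9893186574) (nat_lit 304) (nat_lit 130281684) (nat_lit 88) (nat_lit 5) (nat_lit 91) (nat_lit 5) (nat_lit 92) (nat_lit 4) (nat_lit 466) (nat_lit 379) (nat_lit 355)) (XT.lf (nat_lit 0) (nat_lit 3336249312) (nat_lit 228) (nat_lit 3286849311) (nat_lit 304) (nat_lit 5238203356) (nat_lit 84) (nat_lit 5) (nat_lit 87) (nat_lit 5) (nat_lit 88) (nat_lit 5) (nat_lit 467) (nat_lit 379) (nat_lit 354)))) (XT.nd (nat_lit 78) (nat_lit 532) (nat_lit 0) (XT.lf (nat_lit 0) (nat_lit 1508056079) (nat_lit 304) (nat_lit 7046047974) (nat_lit 76) (nat_lit 3502499911) (nat_lit 80) (nat_lit 5) (nat_lit 84) (nat_lit 5) (nat_lit 81) (nat_lit 5) (nat_lit 468) (nat_lit 379) (nat_lit 353)) (XT.nd (nat_lit 78) (nat_lit 304) (nat_lit 0) (XT.lf (nat_lit 0) (nat_lit 6644399355) (nat_lit 228) (nat_lit 1749934525)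 (nat_lit 304) (nat_lit 3862569403) (nat_lit 77) (nat_lit 5) (nat_lit 80) (nat_lit 5) (nat_lit 81) (nat_lit 5) (nat_lit 469) (nat_lit 379) (nat_lit 352)) (XT.lf (nat_lit 0) (nat_lit 3006959848) (nat_lit 304) (nat_lit 4225150407) (nat_lit 76) (nat_lit 5230262408) (nat_lit 73) (nat_lit 5) (nat_lit 77) (nat_lit 5) (nat_lit 74) (nat_lit 5) (nat_lit 470) (nat_lit 379) (nat_lit 351))))) (XT.nd (nat_lit 234) (nat_lit 912) (nat_lit 0) (XT.nd (nat_lit 78) (nat_lit 532) (nat_lit 0) (XT.lf (nat_lit 0) (nat_lit 9802290609) (nat_lit 228) (nat_lit 229713643) (nat_lit 304) (nat_lit 2641459315) (nat_lit 70) (nat_lit 5) (nat_lit 73) (nat_lit 5) (nat_lit 74) (nat_lit 5) (nat_lit 471) (nat_lit 379) (nat_lit 350)) (XT.nd (nat_lit 78) (nat_lit 228) (nat_lit 0) (XT.lf (nat_lit 0) (nat_lit 4356925860) (nat_lit 304) (nat_lit 1590720111) (nat_lit 76) (nat_lit 6941930430) (nat_lit 66) (nat_lit 5) (nat_lit 70) (nat_lit 5) (nat_lit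 67) (nat_lit 5) (nat_lit 472) (nat_lit 379) (nat_lit 349)) (XT.lf (nat_lit 0) (nat_lit 11532540818) (nat_lit 304) (nat_lit 341656243) (nat_lit 76) (nat_lit 1237568784) (nat_lit 63) (nat_lit 5) (nat_lit 67) (nat_lit 5) (nat_lit 64) (nat_lit 4) (nat_lit 473) (nat_lit 379) (nat_lit 348)))) (XT.nd (nat_lit 78) (nat_lit 456) (nat_lit 0) (XT.lf (nat_lit 0) (nat_lit 834179525) (nat_lit 228) (nat_lit 4716031879) (nat_lit 304) (nat_lit 7788877526) (nat_lit 57) (nat_lit 5) (nat_lit 60) (nat_lit 5) (nat_lit 61) (nat_lit 5) (nat_lit 474) (nat_lit 379) (nat_lit 347)) (XT.nd (nat_lit 78) (nat_lit 304) (nat_lit 0) (XT.lf (nat_lit 0) (nat_lit 1973077277) (nat_lit 152) (nat_lit 10914938452) (nat_lit 228) (nat_lit 684693695) (nat_lit 55) (nat_lit 5) (nat_lit 57) (nat_lit 5) (nat_lit 58) (nat_lit 4) (nat_lit 475) (nat_lit 379) (nat_lit 346)) (XT.lf (nat_lit 0) (nat_lit 3018708193) (nat_lit 228) (nat_lit 3556185583) (nat_lit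 304) (nat_lit 7237003208) (nat_lit 51) (nat_lit 5) (nat_lit 54) (nat_lit 5) (nat_lit 55) (nat_lit 5) (nat_lit 476) (nat_lit 379) (nat_lit 345))))))) (XT.nd (nat_lit 858) (nat_lit 228) (nat_lit 0) (XT.nd (nat_lit 390) (nat_lit 988) (nat_lit 0) (XT.nd (nat_lit 156) (nat_lit 608) (nat_lit 0) (XT.nd (nat_lit 78) (nat_lit 228) (nat_lit 0) (XT.lf (nat_lit 0) (nat_lit 10693611) (nat_lit 228) (nat_lit 10047808478) (nat_lit 76) (nat_lit 3999160393) (nat_lit 48) (nat_lit 5) (nat_lit 51) (nat_lit 5) (nat_lit 49) (nat_lit 5) (nat_lit 477) (nat_lit 379) (nat_lit 344)) (XT.lf (nat_lit 0) (nat_lit 4899525340) (nat_lit 228) (nat_lit 2503129179) (nat_lit 304) (nat_lit 6906691239) (nat_lit 45) (nat_lit 5) (nat_lit 48) (nat_lit 5) (nat_lit 49) (nat_lit 5) (nat_lit 478) (nat_lit 379) (nat_lit 343))) (XT.nd (nat_lit 78) (nat_lit 380) (nat_lit 0) (XT.lf (nat_lit 0) (nat_lit 478809680) (nat_lit 228) (nat_lit 8851057651)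 (nat_lit 76) (nat_lit 5237920730) (nat_lit 42) (nat_lit 5) (nat_lit 45) (nat_lit 5) (nat_lit 43) (nat_lit 5) (nat_lit 479) (nat_lit 379) (nat_lit 342)) (XT.nd (nat_lit 78) (nat_lit 228) (nat_lit 0) (XT.lf (nat_lit 0) (nat_lit 6429859307) (nat_lit 152) (nat_lit 1583233413) (nat_lit 228) (nat_lit 6819561115) (nat_lit 40) (nat_lit 5) (nat_lit 42) (nat_lit 5) (nat_lit 43) (nat_lit 5) (nat_lit 480) (nat_lit 379) (nat_lit 341)) (XT.lf (nat_lit 0) (nat_lit 706300700) (nat_lit 228) (nat_lit 8055285524) (nat_lit 76) (nat_lit 6342854276) (nat_lit 37) (nat_lit 5) (nat_lit 40) (nat_lit 5) (nat_lit 38) (nat_lit 5) (nat_lit 481) (nat_lit 379) (nat_lit 340))))) (XT.nd (nat_lit 234) (nat_lit 456) (nat_lit 0) (XT.nd (nat_lit 78) (nat_lit 380) (nat_lit 0) (XT.lf (nat_lit 0) (nat_lit 7557839609) (nat_lit 152) (nat_lit 825178748) (nat_lit 228) (nat_lit 7000110221) (nat_lit 35) (nat_lit 5) (nat_lit 37) (nat_lit 5) (nat_lit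 38) (nat_lit 5) (nat_lit 482) (nat_lit 379) (nat_lit 339)) (XT.nd (nat_lit 78) (nat_lit 152) (nat_lit 0) (XT.lf (nat_lit 0) (nat_lit 667878600) (nat_lit 228) (nat_lit 7716300115) (nat_lit 76) (nat_lit 7284798920) (nat_lit 32) (nat_lit 5) (nat_lit 35) (nat_lit 5) (nat_lit 33) (nat_lit 5) (nat_lit 483) (nat_lit 379) (nat_lit 338)) (XT.lf (nat_lit 0) (nat_lit 8225915952) (nat_lit 152) (nat_lit 260267075) (nat_lit 228) (nat_lit 7475989797) (nat_lit 30) (nat_lit 5) (nat_lit 32) (nat_lit 5) (nat_lit 33) (nat_lit 5) (nat_lit 484) (nat_lit 379) (nat_lit 337)))) (XT.nd (nat_lit 78) (nat_lit 228) (nat_lit 0) (XT.lf (nat_lit 0) (nat_lit 335014056) (nat_lit 228) (nat_lit 7895980778) (nat_lit 76) (nat_lit 8031861915) (nat_lit 27) (nat_lit 5) (nat_lit 30) (nat_lit 5) (nat_lit 28) (nat_lit 5) (nat_lit 485) (nat_lit 379) (nat_lit 336)) (XT.nd (nat_lit 78) (nat_lit 76) (nat_lit 0) (XT.lf (nat_lit 0) (nat_lit 8293481554)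 (nat_lit 228) (nat_lit 8201575309) (nat_lit 76) (nat_lit 76225342) (nat_lit 25) (nat_lit 5) (nat_lit 28) (nat_lit 5) (nat_lit 26) (nat_lit 4) (nat_lit 486) (nat_lit 379) (nat_lit 335)) (XT.lf (nat_lit 0) (nat_lit 8222510283) (nat_lit 76) (nat_lit 8336395833) (nat_lit 152) (nat_lit 328693548) (nat_lit 24) (nat_lit 5) (nat_lit 25) (nat_lit 5) (nat_lit 26) (nat_lit 4) (nat_lit 487) (nat_lit 379) (nat_lit 334)))))) (XT.nd (nat_lit 59124) (nat_lit 0) (nat_lit 12388) (XT.nd (nat_lit 58890) (nat_lit 0) (nat_lit 16112) (XT.nd (nat_lit 58734) (nat_lit 0) (nat_lit 18468) (XT.lf (nat_lit 0) (nat_lit 7771083309) (nat_lit 228) (nat_lit 9293223151) (nat_lit 76) (nat_lit 147777477) (nat_lit 21) (nat_lit 5) (nat_lit 24) (nat_lit 5) (nat_lit 22) (nat_lit 4) (nat_lit 488) (nat_lit 379) (nat_lit 333)) (XT.nd (nat_lit 78) (nat_lit 684) (nat_lit 0) (XT.lf (nat_lit 0) (nat_lit 1465346086) (nat_lit 684) (nat_lit 1161160401)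 (nat_lit 0) (nat_lit 1465346086) (nat_lit 273) (nat_lit 5) (nat_lit 282) (nat_lit 4) (nat_lit 273) (nat_lit 4) (nat_lit 440) (nat_lit 380) (nat_lit 380)) (XT.lf (nat_lit 0) (nat_lit 637115133) (nat_lit 684) (nat_lit 434751140) (nat_lit 76) (nat_lit 7202696632) (nat_lit 264) (nat_lit 5) (nat_lit 273) (nat_lit 5) (nat_lit 265) (nat_lit 4) (nat_lit 441) (nat_lit 380) (nat_lit 379)))) (XT.nd (nat_lit 78) (nat_lit 1216) (nat_lit 0) (XT.lf (nat_lit 0) (nat_lit 1493798200) (nat_lit 608) (nat_lit 5100601219) (nat_lit 608) (nat_lit 1773836389) (nat_lit 249) (nat_lit 4) (nat_lit 257) (nat_lit 5) (nat_lit 257) (nat_lit 4) (nat_lit 442) (nat_lit 380) (nat_lit 378)) (XT.nd (nat_lit 78) (nat_lit 608) (nat_lit 0) (XT.lf (nat_lit 0) (nat_lit 3470619121) (nat_lit 532) (nat_lit 682080042) (nat_lit 608) (nat_lit 4312625890) (nat_lit 241) (nat_lit 5) (nat_lit 248) (nat_lit 5) (nat_lit 249) (nat_lit 4) (nat_lit 443) (nat_lit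 380) (nat_lit 377)) (XT.lf (nat_lit 0) (nat_lit 1606971294) (nat_lit 608) (nat_lit 3089760876) (nat_lit 76) (nat_lit 3868941958) (nat_lit 233) (nat_lit 5) (nat_lit 241) (nat_lit 5) (nat_lit 234) (nat_lit 4) (nat_lit 444) (nat_lit 380) (nat_lit 376))))) (XT.nd (nat_lit 234) (nat_lit 1520) (nat_lit 0) (XT.nd (nat_lit 78) (nat_lit 1672) (nat_lit 0) (XT.lf (nat_lit 0) (nat_lit 7523371987) (nat_lit 532) (nat_lit 65510609) (nat_lit 608) (nat_lit 1080732419) (nat_lit 226) (nat_lit 5) (nat_lit 233) (nat_lit 5) (nat_lit 234) (nat_lit 4) (nat_lit 445) (nat_lit 380) (nat_lit 375)) (XT.nd (nat_lit 78) (nat_lit 608) (nat_lit 0) (XT.lf (nat_lit 0) (nat_lit 816172206) (nat_lit 456) (nat_lit 4069369139) (nat_lit 532) (nat_lit 3890960043) (nat_lit 212) (nat_lit 5) (nat_lit 218) (nat_lit 5) (nat_lit 219) (nat_lit 4) (nat_lit 446) (nat_lit 380) (nat_lit 374)) (XT.lf (nat_lit 0) (nat_lit 2058419590) (nat_lit 608) (nat_lit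 6049219325) (nat_lit 76) (nat_lit 779418535) (nat_lit 204) (nat_lit 5) (nat_lit 212) (nat_lit 5) (nat_lit 205) (nat_lit 4) (nat_lit 447) (nat_lit 380) (nat_lit 373)))) (XT.nd (nat_lit 78) (nat_lit 1064) (nat_lit 0) (XT.lf (nat_lit 0) (nat_lit 4875629344) (nat_lit 456) (nat_lit 3231383004) (nat_lit 532) (nat_lit 893947248) (nat_lit 198) (nat_lit 5) (nat_lit 204) (nat_lit 5) (nat_lit 205) (nat_lit 4) (nat_lit 448) (nat_lit 380) (nat_lit 372)) (XT.nd (nat_lit 78) (nat_lit 532) (nat_lit 0) (XT.lf (nat_lit 0) (nat_lit 5110696665) (nat_lit 532) (nat_lit 2182446774) (nat_lit 76) (nat_lit 1825265458) (nat_lit 191) (nat_lit 5) (nat_lit 198) (nat_lit 5) (nat_lit 192) (nat_lit 4) (nat_lit 449) (nat_lit 380) (nat_lit 371)) (XT.lf (nat_lit 0) (nat_lit 1989843511) (nat_lit 532) (nat_lit 216789674) (nat_lit 76) (nat_lit 7032927472) (nat_lit 184) (nat_lit 5) (nat_lit 191) (nat_lit 5) (nat_lit 185) (nat_lit 5) (nat_lit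 450) (nat_lit 380) (nat_lit 370))))))))
noncomputable def xc13 : XT := (XT.nd (nat_lit 1794) (nat_lit 3040) (nat_lit 0) (XT.nd (nat_lit 858) (nat_lit 3648) (nat_lit 0) (XT.nd (nat_lit 390) (nat_lit 2508) (nat_lit 0) (XT.nd (nat_lit 156) (nat_lit 1672) (nat_lit 0) (XT.nd (nat_lit 78) (nat_lit 532) (nat_lit 0) (XT.lf (nat_lit 0) (nat_lit 1788092617) (nat_lit 380) (nat_lit 6310056439) (nat_lit 456) (nat_lit 1265976442) (nat_lit 173) (nat_lit 5) (nat_lit 178) (nat_lit 5) (nat_lit 179) (nat_lit 4) (nat_lit 451) (nat_lit 380) (nat_lit 369)) (XT.lf (nat_lit 0) (nat_lit 3810925537) (nat_lit 456) (nat_lit 993691693) (nat_lit 532) (nat_lit 4687755865) (nat_lit 166) (nat_lit 5) (nat_lit 172) (nat_lit 5) (nat_lit 173) (nat_lit 5) (nat_lit 452) (nat_lit 380) (nat_lit 368))) (XT.nd (nat_lit 78) (nat_lit 1216) (nat_lit 0) (XT.lf (nat_lit 0) (nat_lit 1384277185) (nat_lit 456) (nat_lit 3777207337) (nat_lit 76) (nat_lit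 4462904526) (nat_lit 160) (nat_lit 5) (nat_lit 166) (nat_lit 5) (nat_lit 161) (nat_lit 5) (nat_lit 453) (nat_lit 380) (nat_lit 367)) (XT.nd (nat_lit 78) (nat_lit 836) (nat_lit 0) (XT.lf (nat_lit 0) (nat_lit 7544117133) (nat_lit 456) (nat_lit 1858154819) (nat_lit 76) (nat_lit 358099256) (nat_lit 155) (nat_lit 5) (nat_lit 161) (nat_lit 5) (nat_lit 156) (nat_lit 4) (nat_lit 454) (nat_lit 380) (nat_lit 366)) (XT.lf (nat_lit 0) (nat_lit 54854805) (nat_lit 380) (nat_lit 3878512722) (nat_lit 456) (nat_lit 5966611843) (nat_lit 144) (nat_lit 5) (nat_lit 149) (nat_lit 5) (nat_lit 150) (nat_lit 5) (nat_lit 455) (nat_lit 380) (nat_lit 365))))) (XT.nd (nat_lit 234) (nat_lit 1368) (nat_lit 0) (XT.nd (nat_lit 78) (nat_lit 760) (nat_lit 0) (XT.lf (nat_lit 0) (nat_lit 180256307) (nat_lit 380) (nat_lit 8026824329) (nat_lit 76) (nat_lit 1836609679) (nat_lit 139) (nat_lit 5) (nat_lit 144) (nat_lit 5) (nat_lit 140) (nat_lit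 5) (nat_lit 456) (nat_lit 380) (nat_lit 364)) (XT.nd (nat_lit 78) (nat_lit 380) (nat_lit 0) (XT.lf (nat_lit 0) (nat_lit 3963720048) (nat_lit 380) (nat_lit 2459419214) (nat_lit 456) (nat_lit 3767941778) (nat_lit 134) (nat_lit 5) (nat_lit 139) (nat_lit 5) (nat_lit 140) (nat_lit 5) (nat_lit 457) (nat_lit 380) (nat_lit 363)) (XT.lf (nat_lit 0) (nat_lit 2468498644) (nat_lit 380) (nat_lit 4422074279) (nat_lit 76) (nat_lit 3452184576) (nat_lit 129) (nat_lit 5) (nat_lit 134) (nat_lit 5) (nat_lit 130) (nat_lit 5) (nat_lit 458) (nat_lit 380) (nat_lit 362)))) (XT.nd (nat_lit 78) (nat_lit 1064) (nat_lit 0) (XT.lf (nat_lit 0) (nat_lit 7883495747) (nat_lit 304) (nat_lit 944589449) (nat_lit 380) (nat_lit 1670665903) (nat_lit 125) (nat_lit 5) (nat_lit 129) (nat_lit 5) (nat_lit 130) (nat_lit 5) (nat_lit 459) (nat_lit 380) (nat_lit 361)) (XT.nd (nat_lit 78) (nat_lit 684) (nat_lit 0) (XT.lf (nat_lit 0) (nat_lit 4663660877)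 (nat_lit 380) (nat_lit 831553597) (nat_lit 76) (nat_lit 5163476298) (nat_lit 120) (nat_lit 5) (nat_lit 125) (nat_lit 5) (nat_lit 121) (nat_lit 5) (nat_lit 460) (nat_lit 380) (nat_lit 360)) (XT.lf (nat_lit 0) (nat_lit 329205415) (nat_lit 380) (nat_lit 9843223971) (nat_lit 76) (nat_lit 650911287) (nat_lit 111) (nat_lit 5) (nat_lit 116) (nat_lit 5) (nat_lit 112) (nat_lit 5) (nat_lit 461) (nat_lit 380) (nat_lit 359)))))) (XT.nd (nat_lit 468) (nat_lit 1824) (nat_lit 0) (XT.nd (nat_lit 234) (nat_lit 912) (nat_lit 0) (XT.nd (nat_lit 78) (nat_lit 608) (nat_lit 0) (XT.lf (nat_lit 0) (nat_lit 2762792954) (nat_lit 304) (nat_lit 4018081462) (nat_lit 380) (nat_lit 4210888675) (nat_lit 107) (nat_lit 5) (nat_lit 111) (nat_lit 5) (nat_lit 112) (nat_lit 5) (nat_lit 462) (nat_lit 380) (nat_lit 358)) (XT.nd (nat_lit 78) (nat_lit 304) (nat_lit 0) (XT.lf (nat_lit 0) (nat_lit 2224578284) (nat_lit 304) (nat_lit 6614745944)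 (nat_lit 76) (nat_lit 2325761140) (nat_lit 103) (nat_lit 5) (nat_lit 107) (nat_lit 5) (nat_lit 104) (nat_lit 5) (nat_lit 463) (nat_lit 380) (nat_lit 357)) (XT.lf (nat_lit 0) (nat_lit 6315315727) (nat_lit 304) (nat_lit 2487903424) (nat_lit 380) (nat_lit 2539693110) (nat_lit 99) (nat_lit 5) (nat_lit 103) (nat_lit 5) (nat_lit 104) (nat_lit 5) (nat_lit 464) (nat_lit 380) (nat_lit 356)))) (XT.nd (nat_lit 78) (nat_lit 608) (nat_lit 0) (XT.lf (nat_lit 0) (nat_lit 4008613363) (nat_lit 304) (nat_lit 3468152103) (nat_lit 76) (nat_lit 4048617295) (nat_lit 95) (nat_lit 5) (nat_lit 99) (nat_lit 5) (nat_lit 96) (nat_lit 5) (nat_lit 465) (nat_lit 380) (nat_lit 355)) (XT.nd (nat_lit 78) (nat_lit 304) (nat_lit 0) (XT.lf (nat_lit 0) (nat_lit 9793068328) (nat_lit 304) (nat_lit 926518798) (nat_lit 380) (nat_lit 993397456) (nat_lit 91) (nat_lit 5) (nat_lit 95) (nat_lit 5) (nat_lit 96) (nat_lit 5) (nat_lit 466) (nat_lit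 380) (nat_lit 354)) (XT.lf (nat_lit 0) (nat_lit 5674549348) (nat_lit 304) (nat_lit 427055013) (nat_lit 76) (nat_lit 5803394311) (nat_lit 87) (nat_lit 5) (nat_lit 91) (nat_lit 5) (nat_lit 88) (nat_lit 5) (nat_lit 467) (nat_lit 380) (nat_lit 353))))) (XT.nd (nat_lit 234) (nat_lit 760) (nat_lit 0) (XT.nd (nat_lit 78) (nat_lit 532) (nat_lit 0) (XT.lf (nat_lit 0) (nat_lit 425860571) (nat_lit 304) (nat_lit 11026155451) (nat_lit 76) (nat_lit 650476047) (nat_lit 80) (nat_lit 5) (nat_lit 84) (nat_lit 5) (nat_lit 81) (nat_lit 5) (nat_lit 468) (nat_lit 380) (nat_lit 352)) (XT.nd (nat_lit 78) (nat_lit 304) (nat_lit 0) (XT.lf (nat_lit 0) (nat_lit 2515606023) (nat_lit 228) (nat_lit 4714782673) (nat_lit 304) (nat_lit 5074040897) (nat_lit 77) (nat_lit 5) (nat_lit 80) (nat_lit 5) (nat_lit 81) (nat_lit 5) (nat_lit 469) (nat_lit 380) (nat_lit 351)) (XT.lf (nat_lit 0) (nat_lit 1709286158) (nat_lit 304) (nat_lit 8573563661)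 (nat_lit 76) (nat_lit 2229251339) (nat_lit 73) (nat_lit 5) (nat_lit 77) (nat_lit 5) (nat_lit 74) (nat_lit 5) (nat_lit 470) (nat_lit 380) (nat_lit 350)))) (XT.nd (nat_lit 78) (nat_lit 532) (nat_lit 0) (XT.lf (nat_lit 0) (nat_lit 5301829608) (nat_lit 228) (nat_lit 3349704902) (nat_lit 304) (nat_lit 4073316438) (nat_lit 70) (nat_lit 5) (nat_lit 73) (nat_lit 5) (nat_lit 74) (nat_lit 5) (nat_lit 471) (nat_lit 380) (nat_lit 349)) (XT.nd (nat_lit 78) (nat_lit 228) (nat_lit 0) (XT.lf (nat_lit 0) (nat_lit 2839619395) (nat_lit 304) (nat_lit 6319556204) (nat_lit 76) (nat_lit 3784061507) (nat_lit 66) (nat_lit 5) (nat_lit 70) (nat_lit 5) (nat_lit 67) (nat_lit 5) (nat_lit 472) (nat_lit 380) (nat_lit 348)) (XT.lf (nat_lit 0) (nat_lit 7894002118) (nat_lit 228) (nat_lit 2029118595) (nat_lit 304) (nat_lit 3244150850) (nat_lit 63) (nat_lit 5) (nat_lit 66) (nat_lit 5) (nat_lit 67) (nat_lit 5) (nat_lit 473) (nat_lit 380)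 (nat_lit 347))))))) (XT.nd (nat_lit 936) (nat_lit 380) (nat_lit 0) (XT.nd (nat_lit 468) (nat_lit 1292) (nat_lit 0) (XT.nd (nat_lit 234) (nat_lit 684) (nat_lit 0) (XT.nd (nat_lit 78) (nat_lit 456) (nat_lit 0) (XT.lf (nat_lit 0) (nat_lit 3803353044) (nat_lit 228) (nat_lit 4298584751) (nat_lit 76) (nat_lit 5294951024) (nat_lit 60) (nat_lit 5) (nat_lit 63) (nat_lit 5) (nat_lit 61) (nat_lit 5) (nat_lit 474) (nat_lit 380) (nat_lit 346)) (XT.nd (nat_lit 78) (nat_lit 228) (nat_lit 0) (XT.lf (nat_lit 0) (nat_lit 10256812181) (nat_lit 228) (nat_lit 774272668) (nat_lit 304) (nat_lit 2601628447) (nat_lit 57) (nat_lit 5) (nat_lit 60) (nat_lit 5) (nat_lit 61) (nat_lit 5) (nat_lit 475) (nat_lit 380) (nat_lit 345)) (XT.lf (nat_lit 0) (nat_lit 4584861037) (nat_lit 228) (nat_lit 2548733257) (nat_lit 76) (nat_lit 6740522673) (nat_lit 54) (nat_lit 5) (nat_lit 57) (nat_lit 5) (nat_lit 55) (nat_lit 5) (nat_lit 476) (nat_lit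 380) (nat_lit 344)))) (XT.nd (nat_lit 78) (nat_lit 456) (nat_lit 0) (XT.lf (nat_lit 0) (nat_lit 11961725367) (nat_lit 304) (nat_lit 1773650040) (nat_lit 76) (nat_lit 386845636) (nat_lit 51) (nat_lit 5) (nat_lit 55) (nat_lit 5) (nat_lit 52) (nat_lit 4) (nat_lit 477) (nat_lit 380) (nat_lit 343)) (XT.nd (nat_lit 78) (nat_lit 228) (nat_lit 0) (XT.lf (nat_lit 0) (nat_lit 5166207678) (nat_lit 228) (nat_lit 1112149429) (nat_lit 76) (nat_lit 8097701843) (nat_lit 48) (nat_lit 5) (nat_lit 51) (nat_lit 5) (nat_lit 49) (nat_lit 5) (nat_lit 478) (nat_lit 380) (nat_lit 342)) (XT.lf (nat_lit 0) (nat_lit 12698158179) (nat_lit 304) (nat_lit 512760574) (nat_lit 76) (nat_lit 1426016042) (nat_lit 45) (nat_lit 5) (nat_lit 49) (nat_lit 5) (nat_lit 46) (nat_lit 4) (nat_lit 479) (nat_lit 380) (nat_lit 341))))) (XT.nd (nat_lit 234) (nat_lit 532) (nat_lit 0) (XT.nd (nat_lit 78) (nat_lit 532) (nat_lit 0) (XT.lf (nat_lit 0) (nat_lit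 5526933924) (nat_lit 228) (nat_lit 35518857) (nat_lit 76) (nat_lit 9341481601) (nat_lit 42) (nat_lit 5) (nat_lit 45) (nat_lit 5) (nat_lit 43) (nat_lit 5) (nat_lit 480) (nat_lit 380) (nat_lit 340)) (XT.nd (nat_lit 78) (nat_lit 228) (nat_lit 0) (XT.lf (nat_lit 0) (nat_lit 367482308) (nat_lit 152) (nat_lit 12848847289) (nat_lit 228) (nat_lit 1961841027) (nat_lit 38) (nat_lit 5) (nat_lit 40) (nat_lit 5) (nat_lit 41) (nat_lit 4) (nat_lit 481) (nat_lit 380) (nat_lit 339)) (XT.lf (nat_lit 0) (nat_lit 637778108) (nat_lit 152) (nat_lit 5010181341) (nat_lit 228) (nat_lit 9811008848) (nat_lit 35) (nat_lit 5) (nat_lit 37) (nat_lit 5) (nat_lit 38) (nat_lit 5) (nat_lit 482) (nat_lit 380) (nat_lit 338)))) (XT.nd (nat_lit 78) (nat_lit 380) (nat_lit 0) (XT.lf (nat_lit 0) (nat_lit 808754021) (nat_lit 152) (nat_lit 12681292924) (nat_lit 228) (nat_lit 2257274415) (nat_lit 33) (nat_lit 5) (nat_lit 35) (nat_lit 5) (nat_lit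 36) (nat_lit 4) (nat_lit 483) (nat_lit 380) (nat_lit 337)) (XT.nd (nat_lit 78) (nat_lit 152) (nat_lit 0) (XT.lf (nat_lit 0) (nat_lit 836236956) (nat_lit 152) (nat_lit 4659804370) (nat_lit 228) (nat_lit 10546661961) (nat_lit 30) (nat_lit 5) (nat_lit 32) (nat_lit 5) (nat_lit 33) (nat_lit 5) (nat_lit 484) (nat_lit 380) (nat_lit 336)) (XT.lf (nat_lit 0) (nat_lit 743021374) (nat_lit 152) (nat_lit 12745078297) (nat_lit 228) (nat_lit 2857815842) (nat_lit 28) (nat_lit 5) (nat_lit 30) (nat_lit 5) (nat_lit 31) (nat_lit 4) (nat_lit 485) (nat_lit 380) (nat_lit 335)))))) (XT.nd (nat_lit 58968) (nat_lit 0) (nat_lit 14364) (XT.nd (nat_lit 58734) (nat_lit 0) (nat_lit 19000) (XT.nd (nat_lit 78) (nat_lit 152) (nat_lit 0) (XT.lf (nat_lit 0) (nat_lit 494896380) (nat_lit 152) (nat_lit 4546056063) (nat_lit 228) (nat_lit 11615704847) (nat_lit 25) (nat_lit 5) (nat_lit 27) (nat_lit 5) (nat_lit 28) (nat_lit 5) (nat_lit 486)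 (nat_lit 380) (nat_lit 334)) (XT.nd (nat_lit 78) (nat_lit 76) (nat_lit 0) (XT.lf (nat_lit 0) (nat_lit 102371162) (nat_lit 76) (nat_lit 13076770050) (nat_lit 152) (nat_lit 3796379829) (nat_lit 24) (nat_lit 5) (nat_lit 25) (nat_lit 5) (nat_lit 26) (nat_lit 4) (nat_lit 487) (nat_lit 380) (nat_lit 333)) (XT.lf (nat_lit 0) (nat_lit 4251971067) (nat_lit 152) (nat_lit 451783178) (nat_lit 76) (nat_lit 12598640967) (nat_lit 23) (nat_lit 5) (nat_lit 25) (nat_lit 5) (nat_lit 24) (nat_lit 5) (nat_lit 488) (nat_lit 380) (nat_lit 332)))) (XT.nd (nat_lit 78) (nat_lit 1368) (nat_lit 0) (XT.lf (nat_lit 0) (nat_lit 535941681) (nat_lit 684) (nat_lit 2933447790) (nat_lit 0) (nat_lit 535941681) (nat_lit 291) (nat_lit 5) (nat_lit 300) (nat_lit 4) (nat_lit 291) (nat_lit 4) (nat_lit 438) (nat_lit 381) (nat_lit 381)) (XT.nd (nat_lit 78) (nat_lit 684) (nat_lit 0) (XT.lf (nat_lit 0) (nat_lit 3932725744) (nat_lit 684) (nat_lit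 2986207727) (nat_lit 684) (nat_lit 1177364797) (nat_lit 282) (nat_lit 4) (nat_lit 291) (nat_lit 5) (nat_lit 291) (nat_lit 4) (nat_lit 439) (nat_lit 381) (nat_lit 380)) (XT.lf (nat_lit 0) (nat_lit 4629321885) (nat_lit 684) (nat_lit 2421665911) (nat_lit 0) (nat_lit 1134222754) (nat_lit 273) (nat_lit 5) (nat_lit 282) (nat_lit 4) (nat_lit 273) (nat_lit 4) (nat_lit 440) (nat_lit 381) (nat_lit 379))))) (XT.nd (nat_lit 234) (nat_lit 2204) (nat_lit 0) (XT.nd (nat_lit 78) (nat_lit 1748) (nat_lit 0) (XT.lf (nat_lit 0) (nat_lit 2237625401) (nat_lit 684) (nat_lit 646672235) (nat_lit 76) (nat_lit 5393047395) (nat_lit 264) (nat_lit 5) (nat_lit 273) (nat_lit 5) (nat_lit 265) (nat_lit 4) (nat_lit 441) (nat_lit 381) (nat_lit 378)) (XT.nd (nat_lit 78) (nat_lit 608) (nat_lit 0) (XT.lf (nat_lit 0) (nat_lit 1185572584) (nat_lit 608) (nat_lit 6921820953) (nat_lit 608) (nat_lit 265384411) (nat_lit 249) (nat_lit 4) (nat_lit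 257) (nat_lit 5) (nat_lit 257) (nat_lit 4) (nat_lit 442) (nat_lit 381) (nat_lit 377)) (XT.lf (nat_lit 0) (nat_lit 3044698245) (nat_lit 532) (nat_lit 2522559848) (nat_lit 608) (nat_lit 2903904636) (nat_lit 241) (nat_lit 5) (nat_lit 248) (nat_lit 5) (nat_lit 249) (nat_lit 4) (nat_lit 443) (nat_lit 381) (nat_lit 376)))) (XT.nd (nat_lit 78) (nat_lit 1596) (nat_lit 0) (XT.lf (nat_lit 0) (nat_lit 2911228637) (nat_lit 608) (nat_lit 3630002103) (nat_lit 76) (nat_lit 2031826685) (nat_lit 233) (nat_lit 5) (nat_lit 241) (nat_lit 5) (nat_lit 234) (nat_lit 4) (nat_lit 444) (nat_lit 381) (nat_lit 375)) (XT.nd (nat_lit 78) (nat_lit 988) (nat_lit 0) (XT.lf (nat_lit 0) (nat_lit 139516057) (nat_lit 608) (nat_lit 1801494757) (nat_lit 76) (nat_lit 6737443605) (nat_lit 225) (nat_lit 5) (nat_lit 233) (nat_lit 5) (nat_lit 226) (nat_lit 5) (nat_lit 445) (nat_lit 381) (nat_lit 374)) (XT.lf (nat_lit 0) (nat_lit 39702887) (nat_lit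 456) (nat_lit 5961369186) (nat_lit 532) (nat_lit 2785947371) (nat_lit 212) (nat_lit 5) (nat_lit 218) (nat_lit 5) (nat_lit 219) (nat_lit 4) (nat_lit 446) (nat_lit 381) (nat_lit 373))))))))
noncomputable def xc14 : XT := (XT.nd (nat_lit 1794) (nat_lit 4332) (nat_lit 0) (XT.nd (nat_lit 858) (nat_lit 4104) (nat_lit 0) (XT.nd (nat_lit 390) (nat_lit 2964) (nat_lit 0) (XT.nd (nat_lit 156) (nat_lit 1824) (nat_lit 0) (XT.nd (nat_lit 78) (nat_lit 532) (nat_lit 0) (XT.lf (nat_lit 0) (nat_lit 1939149596) (nat_lit 532) (nat_lit 1130731723) (nat_lit 608) (nat_lit 5829139592) (nat_lit 204) (nat_lit 5) (nat_lit 211) (nat_lit 5) (nat_lit 212) (nat_lit 5) (nat_lit 447) (nat_lit 381) (nat_lit 372)) (XT.lf (nat_lit 0) (nat_lit 22801461) (nat_lit 532) (nat_lit 5153140899) (nat_lit 76) (nat_lit 3838601647) (nat_lit 197) (nat_lit 5) (nat_lit 204) (nat_lit 5) (nat_lit 198) (nat_lit 5) (nat_lit 448) (nat_lit 381) (nat_lit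 371))) (XT.nd (nat_lit 78) (nat_lit 1368) (nat_lit 0) (XT.lf (nat_lit 0) (nat_lit 5802807570) (nat_lit 456) (nat_lit 127455890) (nat_lit 532) (nat_lit 3203330056) (nat_lit 191) (nat_lit 5) (nat_lit 197) (nat_lit 5) (nat_lit 198) (nat_lit 5) (nat_lit 449) (nat_lit 381) (nat_lit 370)) (XT.nd (nat_lit 78) (nat_lit 836) (nat_lit 0) (XT.lf (nat_lit 0) (nat_lit 2709263301) (nat_lit 532) (nat_lit 1498533170) (nat_lit 76) (nat_lit 5048339403) (nat_lit 184) (nat_lit 5) (nat_lit 191) (nat_lit 5) (nat_lit 185) (nat_lit 5) (nat_lit 450) (nat_lit 381) (nat_lit 369)) (XT.lf (nat_lit 0) (nat_lit 369052569) (nat_lit 380) (nat_lit 8352925259) (nat_lit 456) (nat_lit 660641303) (nat_lit 173) (nat_lit 5) (nat_lit 178) (nat_lit 5) (nat_lit 179) (nat_lit 4) (nat_lit 451) (nat_lit 381) (nat_lit 368))))) (XT.nd (nat_lit 234) (nat_lit 1596) (nat_lit 0) (XT.nd (nat_lit 78) (nat_lit 836) (nat_lit 0) (XT.lf (nat_lit 0) (nat_lit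 2251788141) (nat_lit 456) (nat_lit 3076042556) (nat_lit 532) (nat_lit 4184447357) (nat_lit 166) (nat_lit 5) (nat_lit 172) (nat_lit 5) (nat_lit 173) (nat_lit 5) (nat_lit 452) (nat_lit 381) (nat_lit 367)) (XT.nd (nat_lit 78) (nat_lit 380) (nat_lit 0) (XT.lf (nat_lit 0) (nat_lit 1792915671) (nat_lit 456) (nat_lit 5485865816) (nat_lit 76) (nat_lit 2367214521) (nat_lit 160) (nat_lit 5) (nat_lit 166) (nat_lit 5) (nat_lit 161) (nat_lit 5) (nat_lit 453) (nat_lit 381) (nat_lit 366)) (XT.lf (nat_lit 0) (nat_lit 6076017589) (nat_lit 380) (nat_lit 1800284564) (nat_lit 456) (nat_lit 1907210885) (nat_lit 155) (nat_lit 5) (nat_lit 160) (nat_lit 5) (nat_lit 161) (nat_lit 5) (nat_lit 454) (nat_lit 381) (nat_lit 365)))) (XT.nd (nat_lit 78) (nat_lit 1140) (nat_lit 0) (XT.lf (nat_lit 0) (nat_lit 4151780142) (nat_lit 456) (nat_lit 1930919229) (nat_lit 76) (nat_lit 3842118769) (nat_lit 149) (nat_lit 5) (nat_lit 155) (nat_lit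 5) (nat_lit 150) (nat_lit 5) (nat_lit 455) (nat_lit 381) (nat_lit 364)) (XT.nd (nat_lit 78) (nat_lit 684) (nat_lit 0) (XT.lf (nat_lit 0) (nat_lit 271742096) (nat_lit 456) (nat_lit 131878350) (nat_lit 76) (nat_lit 9666879745) (nat_lit 143) (nat_lit 5) (nat_lit 149) (nat_lit 5) (nat_lit 144) (nat_lit 5) (nat_lit 456) (nat_lit 381) (nat_lit 363)) (XT.lf (nat_lit 0) (nat_lit 1662672581) (nat_lit 380) (nat_lit 4772961727) (nat_lit 456) (nat_lit 3783841526) (nat_lit 134) (nat_lit 5) (nat_lit 139) (nat_lit 5) (nat_lit 140) (nat_lit 5) (nat_lit 457) (nat_lit 381) (nat_lit 362)))))) (XT.nd (nat_lit 468) (nat_lit 1748) (nat_lit 0) (XT.nd (nat_lit 234) (nat_lit 1292) (nat_lit 0) (XT.nd (nat_lit 78) (nat_lit 684) (nat_lit 0) (XT.lf (nat_lit 0) (nat_lit 2361690899) (nat_lit 380) (nat_lit 6893605634) (nat_lit 76) (nat_lit 1117685012) (nat_lit 129) (nat_lit 5) (nat_lit 134) (nat_lit 5) (nat_lit 130) (nat_lit 5) (nat_lit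 458) (nat_lit 381) (nat_lit 361)) (XT.nd (nat_lit 78) (nat_lit 380) (nat_lit 0) (XT.lf (nat_lit 0) (nat_lit 5283046893) (nat_lit 304) (nat_lit 3362445067) (nat_lit 380) (nat_lit 1885003612) (nat_lit 125) (nat_lit 5) (nat_lit 129) (nat_lit 5) (nat_lit 130) (nat_lit 5) (nat_lit 459) (nat_lit 381) (nat_lit 360)) (XT.lf (nat_lit 0) (nat_lit 4359969500) (nat_lit 380) (nat_lit 3609858492) (nat_lit 76) (nat_lit 2722482868) (nat_lit 120) (nat_lit 5) (nat_lit 125) (nat_lit 5) (nat_lit 121) (nat_lit 5) (nat_lit 460) (nat_lit 381) (nat_lit 359)))) (XT.nd (nat_lit 78) (nat_lit 988) (nat_lit 0) (XT.lf (nat_lit 0) (nat_lit 8887354075) (nat_lit 304) (nat_lit 1879106616) (nat_lit 380) (nat_lit 92283992) (nat_lit 116) (nat_lit 5) (nat_lit 120) (nat_lit 5) (nat_lit 121) (nat_lit 5) (nat_lit 461) (nat_lit 381) (nat_lit 358)) (XT.nd (nat_lit 78) (nat_lit 608) (nat_lit 0) (XT.lf (nat_lit 0) (nat_lit 6259934204) (nat_lit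 380) (nat_lit 368750086) (nat_lit 76) (nat_lit 4400512165) (nat_lit 111) (nat_lit 5) (nat_lit 116) (nat_lit 5) (nat_lit 112) (nat_lit 5) (nat_lit 462) (nat_lit 381) (nat_lit 357)) (XT.lf (nat_lit 0) (nat_lit 1258236689) (nat_lit 228) (nat_lit 319295610) (nat_lit 304) (nat_lit 9626982799) (nat_lit 103) (nat_lit 5) (nat_lit 106) (nat_lit 5) (nat_lit 107) (nat_lit 5) (nat_lit 463) (nat_lit 381) (nat_lit 356))))) (XT.nd (nat_lit 234) (nat_lit 836) (nat_lit 0) (XT.nd (nat_lit 78) (nat_lit 608) (nat_lit 0) (XT.lf (nat_lit 0) (nat_lit 2846970131) (nat_lit 304) (nat_lit 5228648634) (nat_lit 380) (nat_lit 3308338148) (nat_lit 99) (nat_lit 5) (nat_lit 103) (nat_lit 5) (nat_lit 104) (nat_lit 5) (nat_lit 464) (nat_lit 381) (nat_lit 355)) (XT.nd (nat_lit 78) (nat_lit 304) (nat_lit 0) (XT.lf (nat_lit 0) (nat_lit 3152861234) (nat_lit 304) (nat_lit 7137476274) (nat_lit 76) (nat_lit 1278137124) (nat_lit 95) (nat_lit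 5) (nat_lit 99) (nat_lit 5) (nat_lit 96) (nat_lit 5) (nat_lit 465) (nat_lit 381) (nat_lit 354)) (XT.lf (nat_lit 0) (nat_lit 5981789863) (nat_lit 304) (nat_lit 3802783012) (nat_lit 380) (nat_lit 1973092365) (nat_lit 91) (nat_lit 5) (nat_lit 95) (nat_lit 5) (nat_lit 96) (nat_lit 5) (nat_lit 466) (nat_lit 381) (nat_lit 353)))) (XT.nd (nat_lit 78) (nat_lit 532) (nat_lit 0) (XT.lf (nat_lit 0) (nat_lit 4608772133) (nat_lit 304) (nat_lit 4447496825) (nat_lit 76) (nat_lit 2895519583) (nat_lit 87) (nat_lit 5) (nat_lit 91) (nat_lit 5) (nat_lit 88) (nat_lit 5) (nat_lit 467) (nat_lit 381) (nat_lit 352)) (XT.nd (nat_lit 78) (nat_lit 304) (nat_lit 0) (XT.lf (nat_lit 0) (nat_lit 9006415124) (nat_lit 228) (nat_lit 2370481499) (nat_lit 304) (nat_lit 774272509) (nat_lit 84) (nat_lit 5) (nat_lit 87) (nat_lit 5) (nat_lit 88) (nat_lit 5) (nat_lit 468) (nat_lit 381) (nat_lit 351)) (XT.lf (nat_lit 0) (nat_lit 5934517895)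 (nat_lit 304) (nat_lit 1900587871) (nat_lit 76) (nat_lit 4520222396) (nat_lit 80) (nat_lit 5) (nat_lit 84) (nat_lit 5) (nat_lit 81) (nat_lit 5) (nat_lit 469) (nat_lit 381) (nat_lit 350))))))) (XT.nd (nat_lit 858) (nat_lit 1444) (nat_lit 0) (XT.nd (nat_lit 390) (nat_lit 1368) (nat_lit 0) (XT.nd (nat_lit 156) (nat_lit 760) (nat_lit 0) (XT.nd (nat_lit 78) (nat_lit 456) (nat_lit 0) (XT.lf (nat_lit 0) (nat_lit 274533429) (nat_lit 304) (nat_lit 673124404) (nat_lit 76) (nat_lit 11617632673) (nat_lit 76) (nat_lit 5) (nat_lit 80) (nat_lit 5) (nat_lit 77) (nat_lit 5) (nat_lit 470) (nat_lit 381) (nat_lit 349)) (XT.lf (nat_lit 0) (nat_lit 480580955) (nat_lit 228) (nat_lit 6642271875) (nat_lit 304) (nat_lit 5657068924) (nat_lit 70) (nat_lit 5) (nat_lit 73) (nat_lit 5) (nat_lit 74) (nat_lit 5) (nat_lit 471) (nat_lit 381) (nat_lit 348))) (XT.nd (nat_lit 78) (nat_lit 456) (nat_lit 0) (XT.lf (nat_lit 0) (nat_lit 1170708178)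 (nat_lit 304) (nat_lit 11376035236) (nat_lit 76) (nat_lit 453891493) (nat_lit 66) (nat_lit 5) (nat_lit 70) (nat_lit 5) (nat_lit 67) (nat_lit 5) (nat_lit 472) (nat_lit 381) (nat_lit 347)) (XT.nd (nat_lit 78) (nat_lit 228) (nat_lit 0) (XT.lf (nat_lit 0) (nat_lit 2680293697) (nat_lit 228) (nat_lit 5489328154) (nat_lit 304) (nat_lit 5056741926) (nat_lit 63) (nat_lit 5) (nat_lit 66) (nat_lit 5) (nat_lit 67) (nat_lit 5) (nat_lit 473) (nat_lit 381) (nat_lit 346)) (XT.lf (nat_lit 0) (nat_lit 1906160678) (nat_lit 228) (nat_lit 9756795957) (nat_lit 76) (nat_lit 1795429777) (nat_lit 60) (nat_lit 5) (nat_lit 63) (nat_lit 5) (nat_lit 61) (nat_lit 5) (nat_lit 474) (nat_lit 381) (nat_lit 345))))) (XT.nd (nat_lit 234) (nat_lit 684) (nat_lit 0) (XT.nd (nat_lit 78) (nat_lit 456) (nat_lit 0) (XT.lf (nat_lit 0) (nat_lit 4637508552) (nat_lit 228) (nat_lit 4410396226) (nat_lit 304) (nat_lit 4648028324) (nat_lit 57) (nat_lit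 5) (nat_lit 60) (nat_lit 5) (nat_lit 61) (nat_lit 5) (nat_lit 475) (nat_lit 381) (nat_lit 344)) (XT.nd (nat_lit 78) (nat_lit 228) (nat_lit 0) (XT.lf (nat_lit 0) (nat_lit 2454296784) (nat_lit 228) (nat_lit 8422124239) (nat_lit 76) (nat_lit 3063403888) (nat_lit 54) (nat_lit 5) (nat_lit 57) (nat_lit 5) (nat_lit 55) (nat_lit 5) (nat_lit 476) (nat_lit 381) (nat_lit 343)) (XT.lf (nat_lit 0) (nat_lit 6312633302) (nat_lit 228) (nat_lit 3428463456) (nat_lit 304) (nat_lit 4448635788) (nat_lit 51) (nat_lit 5) (nat_lit 54) (nat_lit 5) (nat_lit 55) (nat_lit 5) (nat_lit 477) (nat_lit 381) (nat_lit 342)))) (XT.nd (nat_lit 78) (nat_lit 456) (nat_lit 0) (XT.lf (nat_lit 0) (nat_lit 2796818392) (nat_lit 228) (nat_lit 7414686057) (nat_lit 76) (nat_lit 4234590462) (nat_lit 48) (nat_lit 5) (nat_lit 51) (nat_lit 5) (nat_lit 49) (nat_lit 5) (nat_lit 478) (nat_lit 381) (nat_lit 341)) (XT.nd (nat_lit 78) (nat_lit 228) (nat_lit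 0) (XT.lf (nat_lit 0) (nat_lit 7661818576) (nat_lit 228) (nat_lit 2568385017) (nat_lit 304) (nat_lit 4478740567) (nat_lit 45) (nat_lit 5) (nat_lit 48) (nat_lit 5) (nat_lit 49) (nat_lit 5) (nat_lit 479) (nat_lit 381) (nat_lit 340)) (XT.lf (nat_lit 0) (nat_lit 2912898258) (nat_lit 228) (nat_lit 6781712678) (nat_lit 76) (nat_lit 5283812308) (nat_lit 42) (nat_lit 5) (nat_lit 45) (nat_lit 5) (nat_lit 43) (nat_lit 5) (nat_lit 480) (nat_lit 381) (nat_lit 339)))))) (XT.nd (nat_lit 468) (nat_lit 304) (nat_lit 0) (XT.nd (nat_lit 234) (nat_lit 608) (nat_lit 0) (XT.nd (nat_lit 78) (nat_lit 380) (nat_lit 0) (XT.lf (nat_lit 0) (nat_lit 8636464285) (nat_lit 152) (nat_lit 1857152850) (nat_lit 228) (nat_lit 4761217827) (nat_lit 40) (nat_lit 5) (nat_lit 42) (nat_lit 5) (nat_lit 43) (nat_lit 5) (nat_lit 481) (nat_lit 381) (nat_lit 338)) (XT.nd (nat_lit 78) (nat_lit 152) (nat_lit 0) (XT.lf (nat_lit 0) (nat_lit 2778940341)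 (nat_lit 228) (nat_lit 6575522640) (nat_lit 76) (nat_lit 6183662143) (nat_lit 37) (nat_lit 5) (nat_lit 40) (nat_lit 5) (nat_lit 38) (nat_lit 5) (nat_lit 482) (nat_lit 381) (nat_lit 337)) (XT.lf (nat_lit 0) (nat_lit 9182676573) (nat_lit 152) (nat_lit 1324188042) (nat_lit 228) (nat_lit 5321898630) (nat_lit 35) (nat_lit 5) (nat_lit 37) (nat_lit 5) (nat_lit 38) (nat_lit 5) (nat_lit 483) (nat_lit 381) (nat_lit 336)))) (XT.nd (nat_lit 78) (nat_lit 380) (nat_lit 0) (XT.lf (nat_lit 0) (nat_lit 2368312634) (nat_lit 228) (nat_lit 6854096268) (nat_lit 76) (nat_lit 6904201880) (nat_lit 32) (nat_lit 5) (nat_lit 35) (nat_lit 5) (nat_lit 33) (nat_lit 5) (nat_lit 484) (nat_lit 381) (nat_lit 335)) (XT.nd (nat_lit 78) (nat_lit 228) (nat_lit 0) (XT.lf (nat_lit 0) (nat_lit 9240669912) (nat_lit 152) (nat_lit 1001659435) (nat_lit 228) (nat_lit 6189856152) (nat_lit 30) (nat_lit 5) (nat_lit 32) (nat_lit 5) (nat_lit 33) (nat_lit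 5) (nat_lit 485) (nat_lit 381) (nat_lit 334)) (XT.lf (nat_lit 0) (nat_lit 1651049797) (nat_lit 228) (nat_lit 7681708388) (nat_lit 76) (nat_lit 7412634599) (nat_lit 27) (nat_lit 5) (nat_lit 30) (nat_lit 5) (nat_lit 28) (nat_lit 5) (nat_lit 486) (nat_lit 381) (nat_lit 333))))) (XT.nd (nat_lit 58578) (nat_lit 0) (nat_lit 19608) (XT.nd (nat_lit 78) (nat_lit 152) (nat_lit 0) (XT.lf (nat_lit 0) (nat_lit 8744108447) (nat_lit 152) (nat_lit 924831572) (nat_lit 228) (nat_lit 7397724017) (nat_lit 25) (nat_lit 5) (nat_lit 27) (nat_lit 5) (nat_lit 28) (nat_lit 5) (nat_lit 487) (nat_lit 381) (nat_lit 332)) (XT.nd (nat_lit 58422) (nat_lit 0) (nat_lit 22496) (XT.lf (nat_lit 0) (nat_lit 593522609) (nat_lit 152) (nat_lit 9129625462) (nat_lit 76) (nat_lit 7672945971) (nat_lit 23) (nat_lit 5) (nat_lit 25) (nat_lit 5) (nat_lit 24) (nat_lit 5) (nat_lit 488) (nat_lit 381) (nat_lit 331)) (XT.lf (nat_lit 0) (nat_lit 3321583762)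 (nat_lit 760) (nat_lit 301015979) (nat_lit 760) (nat_lit 301015979) (nat_lit 319) (nat_lit 4) (nat_lit 329) (nat_lit 5) (nat_lit 329) (nat_lit 4) (nat_lit 436) (nat_lit 382) (nat_lit 382)))) (XT.nd (nat_lit 78) (nat_lit 1444) (nat_lit 0) (XT.lf (nat_lit 0) (nat_lit 385211140) (nat_lit 684) (nat_lit 4721592253) (nat_lit 684) (nat_lit 2821221871) (nat_lit 300) (nat_lit 4) (nat_lit 309) (nat_lit 5) (nat_lit 309) (nat_lit 4) (nat_lit 437) (nat_lit 382) (nat_lit 381)) (XT.nd (nat_lit 78) (nat_lit 760) (nat_lit 0) (XT.lf (nat_lit 0) (nat_lit 2042534784) (nat_lit 608) (nat_lit 822774598) (nat_lit 684) (nat_lit 5146757586) (nat_lit 291) (nat_lit 5) (nat_lit 299) (nat_lit 5) (nat_lit 300) (nat_lit 4) (nat_lit 438) (nat_lit 382) (nat_lit 380)) (XT.lf (nat_lit 0) (nat_lit 526615989) (nat_lit 760) (nat_lit 4364345031) (nat_lit 76) (nat_lit 3208272168) (nat_lit 281) (nat_lit 5) (nat_lit 291) (nat_lit 5) (nat_lit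 282) (nat_lit 4) (nat_lit 439) (nat_lit 382) (nat_lit 379))))))))
noncomputable def xc15 : XT := (XT.nd (nat_lit 1794) (nat_lit 6308) (nat_lit 0) (XT.nd (nat_lit 858) (nat_lit 5548) (nat_lit 0) (XT.nd (nat_lit 390) (nat_lit 3724) (nat_lit 0) (XT.nd (nat_lit 156) (nat_lit 2356) (nat_lit 0) (XT.nd (nat_lit 78) (nat_lit 684) (nat_lit 0) (XT.lf (nat_lit 0) (nat_lit 5464828919) (nat_lit 608) (nat_lit 771778108) (nat_lit 684) (nat_lit 1953020827) (nat_lit 273) (nat_lit 5) (nat_lit 281) (nat_lit 5) (nat_lit 282) (nat_lit 4) (nat_lit 440) (nat_lit 382) (nat_lit 378)) (XT.lf (nat_lit 0) (nat_lit 3740901450) (nat_lit 684) (nat_lit 1059521027) (nat_lit 76) (nat_lit 3482712809) (nat_lit 264) (nat_lit 5) (nat_lit 273) (nat_lit 5) (nat_lit 265) (nat_lit 4) (nat_lit 441) (nat_lit 382) (nat_lit 377))) (XT.nd (nat_lit 78) (nat_lit 1140) (nat_lit 0) (XT.lf (nat_lit 0) (nat_lit 660899696) (nat_lit 608) (nat_lit 468739778)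 (nat_lit 684) (nat_lit 7250504015) (nat_lit 248) (nat_lit 5) (nat_lit 256) (nat_lit 5) (nat_lit 257) (nat_lit 5) (nat_lit 442) (nat_lit 382) (nat_lit 376)) (XT.nd (nat_lit 78) (nat_lit 608) (nat_lit 0) (XT.lf (nat_lit 0) (nat_lit 2410740205) (nat_lit 532) (nat_lit 4471635680) (nat_lit 608) (nat_lit 1597655391) (nat_lit 241) (nat_lit 5) (nat_lit 248) (nat_lit 5) (nat_lit 249) (nat_lit 4) (nat_lit 443) (nat_lit 382) (nat_lit 375)) (XT.lf (nat_lit 0) (nat_lit 4114328215) (nat_lit 608) (nat_lit 4382892319) (nat_lit 76) (nat_lit 86264701) (nat_lit 233) (nat_lit 5) (nat_lit 241) (nat_lit 5) (nat_lit 234) (nat_lit 4) (nat_lit 444) (nat_lit 382) (nat_lit 374))))) (XT.nd (nat_lit 234) (nat_lit 1520) (nat_lit 0) (XT.nd (nat_lit 78) (nat_lit 1596) (nat_lit 0) (XT.lf (nat_lit 0) (nat_lit 1243391657) (nat_lit 608) (nat_lit 2678741577) (nat_lit 76) (nat_lit 4768065319) (nat_lit 225) (nat_lit 5) (nat_lit 233) (nat_lit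 5) (nat_lit 226) (nat_lit 5) (nat_lit 445) (nat_lit 382) (nat_lit 373)) (XT.nd (nat_lit 78) (nat_lit 1064) (nat_lit 0) (XT.lf (nat_lit 0) (nat_lit 7019040867) (nat_lit 608) (nat_lit 944399032) (nat_lit 76) (nat_lit 837049694) (nat_lit 218) (nat_lit 5) (nat_lit 226) (nat_lit 5) (nat_lit 219) (nat_lit 4) (nat_lit 446) (nat_lit 382) (nat_lit 372)) (XT.lf (nat_lit 0) (nat_lit 812596612) (nat_lit 532) (nat_lit 3168961022) (nat_lit 608) (nat_lit 4932403449) (nat_lit 204) (nat_lit 5) (nat_lit 211) (nat_lit 5) (nat_lit 212) (nat_lit 5) (nat_lit 447) (nat_lit 382) (nat_lit 371)))) (XT.nd (nat_lit 78) (nat_lit 988) (nat_lit 0) (XT.lf (nat_lit 0) (nat_lit 820971061) (nat_lit 532) (nat_lit 6414199336) (nat_lit 76) (nat_lit 1795940590) (nat_lit 197) (nat_lit 5) (nat_lit 204) (nat_lit 5) (nat_lit 198) (nat_lit 5) (nat_lit 448) (nat_lit 382) (nat_lit 370)) (XT.nd (nat_lit 78) (nat_lit 532) (nat_lit 0) (XT.lf (nat_lit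 0) (nat_lit 4429794113) (nat_lit 456) (nat_lit 2225634537) (nat_lit 532) (nat_lit 2496198863) (nat_lit 191) (nat_lit 5) (nat_lit 197) (nat_lit 5) (nat_lit 198) (nat_lit 5) (nat_lit 449) (nat_lit 382) (nat_lit 369)) (XT.lf (nat_lit 0) (nat_lit 3320226750) (nat_lit 532) (nat_lit 3012786647) (nat_lit 76) (nat_lit 2942809119) (nat_lit 184) (nat_lit 5) (nat_lit 191) (nat_lit 5) (nat_lit 185) (nat_lit 5) (nat_lit 450) (nat_lit 382) (nat_lit 368)))))) (XT.nd (nat_lit 468) (nat_lit 2432) (nat_lit 0) (XT.nd (nat_lit 234) (nat_lit 1292) (nat_lit 0) (XT.nd (nat_lit 78) (nat_lit 1368) (nat_lit 0) (XT.lf (nat_lit 0) (nat_lit 8125352034) (nat_lit 456) (nat_lit 1125668978) (nat_lit 532) (nat_lit 152929570) (nat_lit 178) (nat_lit 5) (nat_lit 184) (nat_lit 5) (nat_lit 185) (nat_lit 5) (nat_lit 451) (nat_lit 382) (nat_lit 367)) (XT.nd (nat_lit 78) (nat_lit 456) (nat_lit 0) (XT.lf (nat_lit 0) (nat_lit 451711690) (nat_lit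 456) (nat_lit 5287514763) (nat_lit 532) (nat_lit 3796116363) (nat_lit 166) (nat_lit 5) (nat_lit 172) (nat_lit 5) (nat_lit 173) (nat_lit 5) (nat_lit 452) (nat_lit 382) (nat_lit 366)) (XT.lf (nat_lit 0) (nat_lit 2087496455) (nat_lit 456) (nat_lit 7440584706) (nat_lit 76) (nat_lit 142708129) (nat_lit 160) (nat_lit 5) (nat_lit 166) (nat_lit 5) (nat_lit 161) (nat_lit 5) (nat_lit 453) (nat_lit 382) (nat_lit 365)))) (XT.nd (nat_lit 78) (nat_lit 912) (nat_lit 0) (XT.lf (nat_lit 0) (nat_lit 4000917451) (nat_lit 380) (nat_lit 4096079888) (nat_lit 456) (nat_lit 1712792325) (nat_lit 155) (nat_lit 5) (nat_lit 160) (nat_lit 5) (nat_lit 161) (nat_lit 5) (nat_lit 454) (nat_lit 382) (nat_lit 364)) (XT.nd (nat_lit 78) (nat_lit 456) (nat_lit 0) (XT.lf (nat_lit 0) (nat_lit 4254355439) (nat_lit 456) (nat_lit 4167714736) (nat_lit 76) (nat_lit 1530790575) (nat_lit 149) (nat_lit 5) (nat_lit 155) (nat_lit 5) (nat_lit 150)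 (nat_lit 5) (nat_lit 455) (nat_lit 382) (nat_lit 363)) (XT.lf (nat_lit 0) (nat_lit 270771489) (nat_lit 456) (nat_lit 2521060263) (nat_lit 76) (nat_lit 7308196990) (nat_lit 143) (nat_lit 5) (nat_lit 149) (nat_lit 5) (nat_lit 144) (nat_lit 5) (nat_lit 456) (nat_lit 382) (nat_lit 362))))) (XT.nd (nat_lit 234) (nat_lit 1064) (nat_lit 0) (XT.nd (nat_lit 78) (nat_lit 1064) (nat_lit 0) (XT.lf (nat_lit 0) (nat_lit 6333747194) (nat_lit 380) (nat_lit 887669398) (nat_lit 76) (nat_lit 3029611077) (nat_lit 139) (nat_lit 5) (nat_lit 144) (nat_lit 5) (nat_lit 140) (nat_lit 5) (nat_lit 457) (nat_lit 382) (nat_lit 361)) (XT.nd (nat_lit 78) (nat_lit 304) (nat_lit 0) (XT.lf (nat_lit 0) (nat_lit 765653198) (nat_lit 304) (nat_lit 1375385282) (nat_lit 380) (nat_lit 8265296216) (nat_lit 129) (nat_lit 5) (nat_lit 133) (nat_lit 5) (nat_lit 134) (nat_lit 5) (nat_lit 458) (nat_lit 382) (nat_lit 360)) (XT.lf (nat_lit 0) (nat_lit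 2415238493) (nat_lit 304) (nat_lit 5924865349) (nat_lit 380) (nat_lit 2225444173) (nat_lit 125) (nat_lit 5) (nat_lit 129) (nat_lit 5) (nat_lit 130) (nat_lit 5) (nat_lit 459) (nat_lit 382) (nat_lit 359)))) (XT.nd (nat_lit 78) (nat_lit 684) (nat_lit 0) (XT.lf (nat_lit 0) (nat_lit 3930817480) (nat_lit 380) (nat_lit 6661199120) (nat_lit 76) (nat_lit 137258797) (nat_lit 120) (nat_lit 5) (nat_lit 125) (nat_lit 5) (nat_lit 121) (nat_lit 5) (nat_lit 460) (nat_lit 382) (nat_lit 358)) (XT.nd (nat_lit 78) (nat_lit 380) (nat_lit 0) (XT.lf (nat_lit 0) (nat_lit 5703537049) (nat_lit 304) (nat_lit 4557454323) (nat_lit 380) (nat_lit 636248425) (nat_lit 116) (nat_lit 5) (nat_lit 120) (nat_lit 5) (nat_lit 121) (nat_lit 5) (nat_lit 461) (nat_lit 382) (nat_lit 357)) (XT.lf (nat_lit 0) (nat_lit 5628581073) (nat_lit 380) (nat_lit 3743805022) (nat_lit 76) (nat_lit 1697270594) (nat_lit 111) (nat_lit 5) (nat_lit 116) (nat_lit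 5) (nat_lit 112) (nat_lit 5) (nat_lit 462) (nat_lit 382) (nat_lit 356))))))) (XT.nd (nat_lit 936) (nat_lit 2660) (nat_lit 0) (XT.nd (nat_lit 468) (nat_lit 1596) (nat_lit 0) (XT.nd (nat_lit 234) (nat_lit 836) (nat_lit 0) (XT.nd (nat_lit 78) (nat_lit 836) (nat_lit 0) (XT.lf (nat_lit 0) (nat_lit 828886294) (nat_lit 380) (nat_lit 2305873789) (nat_lit 76) (nat_lit 8112019192) (nat_lit 106) (nat_lit 5) (nat_lit 111) (nat_lit 5) (nat_lit 107) (nat_lit 5) (nat_lit 463) (nat_lit 382) (nat_lit 355)) (XT.nd (nat_lit 78) (nat_lit 608) (nat_lit 0) (XT.lf (nat_lit 0) (nat_lit 7220605244) (nat_lit 304) (nat_lit 899987870) (nat_lit 76) (nat_lit 3307759047) (nat_lit 103) (nat_lit 5) (nat_lit 107) (nat_lit 5) (nat_lit 104) (nat_lit 5) (nat_lit 464) (nat_lit 382) (nat_lit 354)) (XT.lf (nat_lit 0) (nat_lit 500435786) (nat_lit 228) (nat_lit 1671182123) (nat_lit 304) (nat_lit 9443244914) (nat_lit 95) (nat_lit 5) (nat_lit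 98) (nat_lit 5) (nat_lit 99) (nat_lit 5) (nat_lit 465) (nat_lit 382) (nat_lit 353)))) (XT.nd (nat_lit 78) (nat_lit 532) (nat_lit 0) (XT.lf (nat_lit 0) (nat_lit 1872505528) (nat_lit 304) (nat_lit 6840364492) (nat_lit 380) (nat_lit 3092996041) (nat_lit 91) (nat_lit 5) (nat_lit 95) (nat_lit 5) (nat_lit 96) (nat_lit 5) (nat_lit 466) (nat_lit 382) (nat_lit 352)) (XT.nd (nat_lit 78) (nat_lit 228) (nat_lit 0) (XT.lf (nat_lit 0) (nat_lit 3228637624) (nat_lit 228) (nat_lit 175677562) (nat_lit 304) (nat_lit 8597807693) (nat_lit 87) (nat_lit 5) (nat_lit 90) (nat_lit 5) (nat_lit 91) (nat_lit 5) (nat_lit 467) (nat_lit 382) (nat_lit 351)) (XT.lf (nat_lit 0) (nat_lit 4535022934) (nat_lit 228) (nat_lit 5555665645) (nat_lit 304) (nat_lit 2112453091) (nat_lit 84) (nat_lit 5) (nat_lit 87) (nat_lit 5) (nat_lit 88) (nat_lit 5) (nat_lit 468) (nat_lit 382) (nat_lit 350))))) (XT.nd (nat_lit 234) (nat_lit 760) (nat_lit 0)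 (XT.nd (nat_lit 78) (nat_lit 532) (nat_lit 0) (XT.lf (nat_lit 0) (nat_lit 4511462536) (nat_lit 304) (nat_lit 6596176925) (nat_lit 76) (nat_lit 1301886536) (nat_lit 80) (nat_lit 5) (nat_lit 84) (nat_lit 5) (nat_lit 81) (nat_lit 5) (nat_lit 469) (nat_lit 382) (nat_lit 349)) (XT.nd (nat_lit 78) (nat_lit 304) (nat_lit 0) (XT.lf (nat_lit 0) (nat_lit 7048353861) (nat_lit 228) (nat_lit 4290357584) (nat_lit 304) (nat_lit 1282450790) (nat_lit 77) (nat_lit 5) (nat_lit 80) (nat_lit 5) (nat_lit 81) (nat_lit 5) (nat_lit 470) (nat_lit 382) (nat_lit 348)) (XT.lf (nat_lit 0) (nat_lit 5474916083) (nat_lit 304) (nat_lit 4604477015) (nat_lit 76) (nat_lit 2758725153) (nat_lit 73) (nat_lit 5) (nat_lit 77) (nat_lit 5) (nat_lit 74) (nat_lit 5) (nat_lit 471) (nat_lit 382) (nat_lit 347)))) (XT.nd (nat_lit 78) (nat_lit 532) (nat_lit 0) (XT.lf (nat_lit 0) (nat_lit 9382459803) (nat_lit 228) (nat_lit 3063311587) (nat_lit 304)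 (nat_lit 615083711) (nat_lit 70) (nat_lit 5) (nat_lit 73) (nat_lit 5) (nat_lit 74) (nat_lit 5) (nat_lit 472) (nat_lit 382) (nat_lit 346)) (XT.nd (nat_lit 78) (nat_lit 228) (nat_lit 0) (XT.lf (nat_lit 0) (nat_lit 6280986346) (nat_lit 304) (nat_lit 2829661871) (nat_lit 76) (nat_lit 4178236419) (nat_lit 66) (nat_lit 5) (nat_lit 70) (nat_lit 5) (nat_lit 67) (nat_lit 5) (nat_lit 473) (nat_lit 382) (nat_lit 345)) (XT.lf (nat_lit 0) (nat_lit 11504165296) (nat_lit 228) (nat_lit 1894650390) (nat_lit 304) (nat_lit 124398476) (nat_lit 63) (nat_lit 5) (nat_lit 66) (nat_lit 5) (nat_lit 67) (nat_lit 5) (nat_lit 474) (nat_lit 382) (nat_lit 344)))))) (XT.nd (nat_lit 468) (nat_lit 1064) (nat_lit 0) (XT.nd (nat_lit 234) (nat_lit 912) (nat_lit 0) (XT.nd (nat_lit 78) (nat_lit 456) (nat_lit 0) (XT.lf (nat_lit 0) (nat_lit 6915133228) (nat_lit 228) (nat_lit 1307529848) (nat_lit 76) (nat_lit 5540193194) (nat_lit 60) (nat_lit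 5) (nat_lit 63) (nat_lit 5) (nat_lit 61) (nat_lit 5) (nat_lit 475) (nat_lit 382) (nat_lit 343)) (XT.nd (nat_lit 78) (nat_lit 152) (nat_lit 0) (XT.lf (nat_lit 0) (nat_lit 171161694) (nat_lit 304) (nat_lit 633654651) (nat_lit 76) (nat_lit 13204465439) (nat_lit 56) (nat_lit 5) (nat_lit 60) (nat_lit 5) (nat_lit 57) (nat_lit 5) (nat_lit 476) (nat_lit 382) (nat_lit 342)) (XT.lf (nat_lit 0) (nat_lit 7360648103) (nat_lit 228) (nat_lit 77664435) (nat_lit 76) (nat_lit 6822825359) (nat_lit 54) (nat_lit 5) (nat_lit 57) (nat_lit 5) (nat_lit 55) (nat_lit 5) (nat_lit 477) (nat_lit 382) (nat_lit 341)))) (XT.nd (nat_lit 78) (nat_lit 456) (nat_lit 0) (XT.lf (nat_lit 0) (nat_lit 260605351) (nat_lit 228) (nat_lit 14077849770) (nat_lit 76) (nat_lit 181695933) (nat_lit 48) (nat_lit 5) (nat_lit 51) (nat_lit 5) (nat_lit 49) (nat_lit 5) (nat_lit 478) (nat_lit 382) (nat_lit 340)) (XT.nd (nat_lit 78) (nat_lit 228) (nat_lit 0)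 (XT.lf (nat_lit 0) (nat_lit 826968089) (nat_lit 228) (nat_lit 6776856192) (nat_lit 304) (nat_lit 7180981386) (nat_lit 45) (nat_lit 5) (nat_lit 48) (nat_lit 5) (nat_lit 49) (nat_lit 5) (nat_lit 479) (nat_lit 382) (nat_lit 339)) (XT.lf (nat_lit 0) (nat_lit 126954701) (nat_lit 228) (nat_lit 13898945651) (nat_lit 76) (nat_lit 1031120098) (nat_lit 42) (nat_lit 5) (nat_lit 45) (nat_lit 5) (nat_lit 43) (nat_lit 5) (nat_lit 480) (nat_lit 382) (nat_lit 338))))) (XT.nd (nat_lit 234) (nat_lit 532) (nat_lit 0) (XT.nd (nat_lit 78) (nat_lit 380) (nat_lit 0) (XT.lf (nat_lit 0) (nat_lit 1342914453) (nat_lit 152) (nat_lit 6272693281) (nat_lit 228) (nat_lit 7719667636) (nat_lit 40) (nat_lit 5) (nat_lit 42) (nat_lit 5) (nat_lit 43) (nat_lit 5) (nat_lit 481) (nat_lit 382) (nat_lit 337)) (XT.nd (nat_lit 78) (nat_lit 228) (nat_lit 0) (XT.lf (nat_lit 0) (nat_lit 1457248056) (nat_lit 152) (nat_lit 13897430641) (nat_lit 228)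 (nat_lit 266687786) (nat_lit 38) (nat_lit 5) (nat_lit 40) (nat_lit 5) (nat_lit 41) (nat_lit 4) (nat_lit 482) (nat_lit 382) (nat_lit 336)) (XT.lf (nat_lit 0) (nat_lit 1414646754) (nat_lit 152) (nat_lit 5955983963) (nat_lit 228) (nat_lit 8543292327) (nat_lit 35) (nat_lit 5) (nat_lit 37) (nat_lit 5) (nat_lit 38) (nat_lit 5) (nat_lit 483) (nat_lit 382) (nat_lit 335)))) (XT.nd (nat_lit 78) (nat_lit 380) (nat_lit 0) (XT.lf (nat_lit 0) (nat_lit 1281648147) (nat_lit 152) (nat_lit 13983638099) (nat_lit 228) (nat_lit 949301416) (nat_lit 33) (nat_lit 5) (nat_lit 35) (nat_lit 5) (nat_lit 36) (nat_lit 4) (nat_lit 484) (nat_lit 382) (nat_lit 334)) (XT.nd (nat_lit 78) (nat_lit 152) (nat_lit 0) (XT.lf (nat_lit 0) (nat_lit 981748121) (nat_lit 152) (nat_lit 5859136120) (nat_lit 228) (nat_lit 9681328644) (nat_lit 30) (nat_lit 5) (nat_lit 32) (nat_lit 5) (nat_lit 33) (nat_lit 5) (nat_lit 485) (nat_lit 382) (nat_lit 333))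 (XT.lf (nat_lit 0) (nat_lit 568516829) (nat_lit 152) (nat_lit 14319733562) (nat_lit 228) (nat_lit 1949966700) (nat_lit 28) (nat_lit 5) (nat_lit 30) (nat_lit 5) (nat_lit 31) (nat_lit 4) (nat_lit 486) (nat_lit 382) (nat_lit 332))))))))
noncomputable def xc16 : XT := (XT.nd (nat_lit 59982) (nat_lit 0) (nat_lit 2204) (XT.nd (nat_lit 59046) (nat_lit 0) (nat_lit 9880) (XT.nd (nat_lit 58578) (nat_lit 0) (nat_lit 17556) (XT.nd (nat_lit 58344) (nat_lit 0) (nat_lit 22268) (XT.nd (nat_lit 78) (nat_lit 152) (nat_lit 0) (XT.lf (nat_lit 0) (nat_lit 5995043467) (nat_lit 228) (nat_lit 22480032) (nat_lit 76) (nat_lit 11144188627) (nat_lit 27) (nat_lit 5) (nat_lit 30) (nat_lit 5) (nat_lit 28) (nat_lit 5) (nat_lit 487) (nat_lit 382) (nat_lit 331)) (XT.lf (nat_lit 0) (nat_lit 14195594575) (nat_lit 228) (nat_lit 742820732) (nat_lit 76) (nat_lit 2555368189) (nat_lit 25) (nat_lit 5) (nat_lit 28) (nat_lit 5) (nat_lit 26)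 (nat_lit 4) (nat_lit 488) (nat_lit 382) (nat_lit 330))) (XT.nd (nat_lit 78) (nat_lit 1596) (nat_lit 0) (XT.lf (nat_lit 0) (nat_lit 1756560233) (nat_lit 760) (nat_lit 1044977982) (nat_lit 760) (nat_lit 1044977982) (nat_lit 339) (nat_lit 4) (nat_lit 349) (nat_lit 5) (nat_lit 349) (nat_lit 4) (nat_lit 434) (nat_lit 383) (nat_lit 383)) (XT.nd (nat_lit 78) (nat_lit 836) (nat_lit 0) (XT.lf (nat_lit 0) (nat_lit 3501190527) (nat_lit 760) (nat_lit 2763369729) (nat_lit 0) (nat_lit 1504661404) (nat_lit 329) (nat_lit 5) (nat_lit 339) (nat_lit 4) (nat_lit 329) (nat_lit 4) (nat_lit 435) (nat_lit 383) (nat_lit 382)) (XT.lf (nat_lit 0) (nat_lit 1301586060) (nat_lit 836) (nat_lit 1305703069) (nat_lit 76) (nat_lit 5241265248) (nat_lit 318) (nat_lit 5) (nat_lit 329) (nat_lit 5) (nat_lit 319) (nat_lit 4) (nat_lit 436) (nat_lit 383) (nat_lit 381))))) (XT.nd (nat_lit 234) (nat_lit 1900) (nat_lit 0) (XT.nd (nat_lit 78) (nat_lit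 1444) (nat_lit 0) (XT.lf (nat_lit 0) (nat_lit 195068331) (nat_lit 684) (nat_lit 6719373139) (nat_lit 684) (nat_lit 1016601476) (nat_lit 300) (nat_lit 4) (nat_lit 309) (nat_lit 5) (nat_lit 309) (nat_lit 4) (nat_lit 437) (nat_lit 383) (nat_lit 380)) (XT.nd (nat_lit 78) (nat_lit 760) (nat_lit 0) (XT.lf (nat_lit 0) (nat_lit 1741806238) (nat_lit 608) (nat_lit 2830401310) (nat_lit 684) (nat_lit 3444134551) (nat_lit 291) (nat_lit 5) (nat_lit 299) (nat_lit 5) (nat_lit 300) (nat_lit 4) (nat_lit 438) (nat_lit 383) (nat_lit 379)) (XT.lf (nat_lit 0) (nat_lit 2120050656) (nat_lit 760) (nat_lit 4769616413) (nat_lit 76) (nat_lit 1215367504) (nat_lit 281) (nat_lit 5) (nat_lit 291) (nat_lit 5) (nat_lit 282) (nat_lit 4) (nat_lit 439) (nat_lit 383) (nat_lit 378)))) (XT.nd (nat_lit 78) (nat_lit 1292) (nat_lit 0) (XT.lf (nat_lit 0) (nat_lit 4961802310) (nat_lit 608) (nat_lit 2795261338) (nat_lit 684) (nat_lit 439835037)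 (nat_lit 273) (nat_lit 5) (nat_lit 281) (nat_lit 5) (nat_lit 282) (nat_lit 4) (nat_lit 440) (nat_lit 383) (nat_lit 377)) (XT.nd (nat_lit 78) (nat_lit 608) (nat_lit 0) (XT.lf (nat_lit 0) (nat_lit 5148256819) (nat_lit 684) (nat_lit 1673658258) (nat_lit 76) (nat_lit 1470023653) (nat_lit 264) (nat_lit 5) (nat_lit 273) (nat_lit 5) (nat_lit 265) (nat_lit 4) (nat_lit 441) (nat_lit 383) (nat_lit 376)) (XT.lf (nat_lit 0) (nat_lit 2432992886) (nat_lit 608) (nat_lit 80469927) (nat_lit 76) (nat_lit 5876848595) (nat_lit 256) (nat_lit 5) (nat_lit 264) (nat_lit 5) (nat_lit 257) (nat_lit 5) (nat_lit 442) (nat_lit 383) (nat_lit 375)))))) (XT.nd (nat_lit 468) (nat_lit 3192) (nat_lit 0) (XT.nd (nat_lit 234) (nat_lit 2128) (nat_lit 0) (XT.nd (nat_lit 78) (nat_lit 1216) (nat_lit 0) (XT.lf (nat_lit 0) (nat_lit 1568191055) (nat_lit 532) (nat_lit 6531010615) (nat_lit 608) (nat_lit 392736772) (nat_lit 241) (nat_lit 5) (nat_lit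 248) (nat_lit 5) (nat_lit 249) (nat_lit 4) (nat_lit 443) (nat_lit 383) (nat_lit 374)) (XT.nd (nat_lit 78) (nat_lit 608) (nat_lit 0) (XT.lf (nat_lit 0) (nat_lit 3234661276) (nat_lit 532) (nat_lit 1995616874) (nat_lit 608) (nat_lit 3366429385) (nat_lit 233) (nat_lit 5) (nat_lit 240) (nat_lit 5) (nat_lit 241) (nat_lit 5) (nat_lit 444) (nat_lit 383) (nat_lit 373)) (XT.lf (nat_lit 0) (nat_lit 2246032931) (nat_lit 608) (nat_lit 3771733184) (nat_lit 76) (nat_lit 2687231900) (nat_lit 225) (nat_lit 5) (nat_lit 233) (nat_lit 5) (nat_lit 226) (nat_lit 5) (nat_lit 445) (nat_lit 383) (nat_lit 372)))) (XT.nd (nat_lit 78) (nat_lit 1596) (nat_lit 0) (XT.lf (nat_lit 0) (nat_lit 6662390642) (nat_lit 532) (nat_lit 1281742920) (nat_lit 608) (nat_lit 872714113) (nat_lit 218) (nat_lit 5) (nat_lit 225) (nat_lit 5) (nat_lit 226) (nat_lit 5) (nat_lit 446) (nat_lit 383) (nat_lit 371)) (XT.nd (nat_lit 78) (nat_lit 1064) (nat_lit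 0) (XT.lf (nat_lit 0) (nat_lit 4792607684) (nat_lit 532) (nat_lit 530524493) (nat_lit 76) (nat_lit 3608791594) (nat_lit 211) (nat_lit 5) (nat_lit 218) (nat_lit 5) (nat_lit 212) (nat_lit 5) (nat_lit 447) (nat_lit 383) (nat_lit 370)) (XT.lf (nat_lit 0) (nat_lit 1144531710) (nat_lit 456) (nat_lit 370859415) (nat_lit 532) (nat_lit 7535351810) (nat_lit 197) (nat_lit 5) (nat_lit 203) (nat_lit 5) (nat_lit 204) (nat_lit 5) (nat_lit 448) (nat_lit 383) (nat_lit 369))))) (XT.nd (nat_lit 234) (nat_lit 1672) (nat_lit 0) (XT.nd (nat_lit 78) (nat_lit 1064) (nat_lit 0) (XT.lf (nat_lit 0) (nat_lit 2827970524) (nat_lit 456) (nat_lit 4446847024) (nat_lit 532) (nat_lit 1897949264) (nat_lit 191) (nat_lit 5) (nat_lit 197) (nat_lit 5) (nat_lit 198) (nat_lit 5) (nat_lit 449) (nat_lit 383) (nat_lit 368)) (XT.nd (nat_lit 78) (nat_lit 532) (nat_lit 0) (XT.lf (nat_lit 0) (nat_lit 3823267710) (nat_lit 532) (nat_lit 4760873238)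 (nat_lit 76) (nat_lit 714496835) (nat_lit 184) (nat_lit 5) (nat_lit 191) (nat_lit 5) (nat_lit 185) (nat_lit 5) (nat_lit 450) (nat_lit 383) (nat_lit 367)) (XT.lf (nat_lit 0) (nat_lit 250042727) (nat_lit 532) (nat_lit 3167137143) (nat_lit 76) (nat_lit 6011008790) (nat_lit 177) (nat_lit 5) (nat_lit 184) (nat_lit 5) (nat_lit 178) (nat_lit 5) (nat_lit 451) (nat_lit 383) (nat_lit 366)))) (XT.nd (nat_lit 78) (nat_lit 1292) (nat_lit 0) (XT.lf (nat_lit 0) (nat_lit 6049493000) (nat_lit 456) (nat_lit 1570012061) (nat_lit 76) (nat_lit 1941875895) (nat_lit 172) (nat_lit 5) (nat_lit 178) (nat_lit 5) (nat_lit 173) (nat_lit 5) (nat_lit 452) (nat_lit 383) (nat_lit 365)) (XT.nd (nat_lit 78) (nat_lit 380) (nat_lit 0) (XT.lf (nat_lit 0) (nat_lit 40871113) (nat_lit 380) (nat_lit 2241962130) (nat_lit 456) (nat_lit 7415666190) (nat_lit 160) (nat_lit 5) (nat_lit 165) (nat_lit 5) (nat_lit 166) (nat_lit 5) (nat_lit 453) (nat_lit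 383) (nat_lit 364)) (XT.lf (nat_lit 0) (nat_lit 1677505814) (nat_lit 380) (nat_lit 6526533799) (nat_lit 456) (nat_lit 1635231553) (nat_lit 155) (nat_lit 5) (nat_lit 160) (nat_lit 5) (nat_lit 161) (nat_lit 5) (nat_lit 454) (nat_lit 383) (nat_lit 363))))))) (XT.nd (nat_lit 858) (nat_lit 3344) (nat_lit 0) (XT.nd (nat_lit 390) (nat_lit 2356) (nat_lit 0) (XT.nd (nat_lit 156) (nat_lit 1064) (nat_lit 0) (XT.nd (nat_lit 78) (nat_lit 456) (nat_lit 0) (XT.lf (nat_lit 0) (nat_lit 3319793784) (nat_lit 380) (nat_lit 927052146) (nat_lit 456) (nat_lit 5737172518) (nat_lit 149) (nat_lit 5) (nat_lit 154) (nat_lit 5) (nat_lit 155) (nat_lit 5) (nat_lit 455) (nat_lit 383) (nat_lit 362)) (XT.lf (nat_lit 0) (nat_lit 152085828) (nat_lit 456) (nat_lit 5167055968) (nat_lit 76) (nat_lit 4813665131) (nat_lit 143) (nat_lit 5) (nat_lit 149) (nat_lit 5) (nat_lit 144) (nat_lit 5) (nat_lit 456) (nat_lit 383) (nat_lit 361))) (XT.nd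 (nat_lit 78) (nat_lit 760) (nat_lit 0) (XT.lf (nat_lit 0) (nat_lit 6124048744) (nat_lit 380) (nat_lit 3676081444) (nat_lit 76) (nat_lit 485500732) (nat_lit 139) (nat_lit 5) (nat_lit 144) (nat_lit 5) (nat_lit 140) (nat_lit 5) (nat_lit 457) (nat_lit 383) (nat_lit 360)) (XT.nd (nat_lit 78) (nat_lit 304) (nat_lit 0) (XT.lf (nat_lit 0) (nat_lit 1820130820) (nat_lit 456) (nat_lit 2193052956) (nat_lit 76) (nat_lit 6429386671) (nat_lit 133) (nat_lit 5) (nat_lit 139) (nat_lit 5) (nat_lit 134) (nat_lit 5) (nat_lit 458) (nat_lit 383) (nat_lit 359)) (XT.lf (nat_lit 0) (nat_lit 7916344529) (nat_lit 380) (nat_lit 712960433) (nat_lit 76) (nat_lit 1974540284) (nat_lit 129) (nat_lit 5) (nat_lit 134) (nat_lit 5) (nat_lit 130) (nat_lit 5) (nat_lit 459) (nat_lit 383) (nat_lit 358))))) (XT.nd (nat_lit 234) (nat_lit 988) (nat_lit 0) (XT.nd (nat_lit 78) (nat_lit 684) (nat_lit 0) (XT.lf (nat_lit 0) (nat_lit 763964823) (nat_lit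 304) (nat_lit 2628933788) (nat_lit 380) (nat_lit 7376376693) (nat_lit 120) (nat_lit 5) (nat_lit 124) (nat_lit 5) (nat_lit 125) (nat_lit 5) (nat_lit 460) (nat_lit 383) (nat_lit 357)) (XT.nd (nat_lit 78) (nat_lit 380) (nat_lit 0) (XT.lf (nat_lit 0) (nat_lit 2243031583) (nat_lit 304) (nat_lit 7386479146) (nat_lit 380) (nat_lit 1309604317) (nat_lit 116) (nat_lit 5) (nat_lit 120) (nat_lit 5) (nat_lit 121) (nat_lit 5) (nat_lit 461) (nat_lit 383) (nat_lit 356)) (XT.lf (nat_lit 0) (nat_lit 3704222777) (nat_lit 304) (nat_lit 1171710214) (nat_lit 380) (nat_lit 6237452763) (nat_lit 111) (nat_lit 5) (nat_lit 115) (nat_lit 5) (nat_lit 116) (nat_lit 5) (nat_lit 462) (nat_lit 383) (nat_lit 355)))) (XT.nd (nat_lit 78) (nat_lit 684) (nat_lit 0) (XT.lf (nat_lit 0) (nat_lit 5152176632) (nat_lit 304) (nat_lit 6097132117) (nat_lit 380) (nat_lit 43009116) (nat_lit 107) (nat_lit 5) (nat_lit 111) (nat_lit 5) (nat_lit 112)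 (nat_lit 5) (nat_lit 463) (nat_lit 383) (nat_lit 354)) (XT.nd (nat_lit 78) (nat_lit 380) (nat_lit 0) (XT.lf (nat_lit 0) (nat_lit 6251897677) (nat_lit 304) (nat_lit 4899610620) (nat_lit 76) (nat_lit 324339178) (nat_lit 103) (nat_lit 5) (nat_lit 107) (nat_lit 5) (nat_lit 104) (nat_lit 5) (nat_lit 464) (nat_lit 383) (nat_lit 353)) (XT.lf (nat_lit 0) (nat_lit 1086883678) (nat_lit 380) (nat_lit 3687457223) (nat_lit 76) (nat_lit 6889789813) (nat_lit 98) (nat_lit 5) (nat_lit 103) (nat_lit 5) (nat_lit 99) (nat_lit 5) (nat_lit 465) (nat_lit 383) (nat_lit 352)))))) (XT.nd (nat_lit 468) (nat_lit 1444) (nat_lit 0) (XT.nd (nat_lit 234) (nat_lit 1064) (nat_lit 0) (XT.nd (nat_lit 78) (nat_lit 608) (nat_lit 0) (XT.lf (nat_lit 0) (nat_lit 7520022940) (nat_lit 304) (nat_lit 2505084064) (nat_lit 76) (nat_lit 1832192543) (nat_lit 95) (nat_lit 5) (nat_lit 99) (nat_lit 5) (nat_lit 96) (nat_lit 5) (nat_lit 466) (nat_lit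 383) (nat_lit 351)) (XT.nd (nat_lit 78) (nat_lit 228) (nat_lit 0) (XT.lf (nat_lit 0) (nat_lit 2088019613) (nat_lit 380) (nat_lit 1354123563) (nat_lit 76) (nat_lit 8613344622) (nat_lit 90) (nat_lit 5) (nat_lit 95) (nat_lit 5) (nat_lit 91) (nat_lit 5) (nat_lit 467) (nat_lit 383) (nat_lit 350)) (XT.lf (nat_lit 0) (nat_lit 8664695932) (nat_lit 304) (nat_lit 242828548) (nat_lit 76) (nat_lit 3351179136) (nat_lit 87) (nat_lit 5) (nat_lit 91) (nat_lit 5) (nat_lit 88) (nat_lit 5) (nat_lit 468) (nat_lit 383) (nat_lit 349)))) (XT.nd (nat_lit 78) (nat_lit 532) (nat_lit 0) (XT.lf (nat_lit 0) (nat_lit 845152279) (nat_lit 228) (nat_lit 2112207764) (nat_lit 304) (nat_lit 9509762797) (nat_lit 80) (nat_lit 5) (nat_lit 83) (nat_lit 5) (nat_lit 84) (nat_lit 5) (nat_lit 469) (nat_lit 383) (nat_lit 348)) (XT.nd (nat_lit 78) (nat_lit 304) (nat_lit 0) (XT.lf (nat_lit 0) (nat_lit 1884555939) (nat_lit 228) (nat_lit 7803996381)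 (nat_lit 304) (nat_lit 2992130741) (nat_lit 77) (nat_lit 5) (nat_lit 80) (nat_lit 5) (nat_lit 81) (nat_lit 5) (nat_lit 470) (nat_lit 383) (nat_lit 347)) (XT.lf (nat_lit 0) (nat_lit 2886285800) (nat_lit 228) (nat_lit 800134007) (nat_lit 304) (nat_lit 9213468775) (nat_lit 73) (nat_lit 5) (nat_lit 76) (nat_lit 5) (nat_lit 77) (nat_lit 5) (nat_lit 471) (nat_lit 383) (nat_lit 346))))) (XT.nd (nat_lit 234) (nat_lit 684) (nat_lit 0) (XT.nd (nat_lit 78) (nat_lit 532) (nat_lit 0) (XT.lf (nat_lit 0) (nat_lit 3822965185) (nat_lit 228) (nat_lit 6745417353) (nat_lit 304) (nat_lit 2556023379) (nat_lit 70) (nat_lit 5) (nat_lit 73) (nat_lit 5) (nat_lit 74) (nat_lit 5) (nat_lit 472) (nat_lit 383) (nat_lit 345)) (XT.nd (nat_lit 78) (nat_lit 228) (nat_lit 0) (XT.lf (nat_lit 0) (nat_lit 4256532774) (nat_lit 304) (nat_lit 8638722053) (nat_lit 76) (nat_lit 459614565) (nat_lit 66) (nat_lit 5) (nat_lit 70) (nat_lit 5) (nat_lit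 67) (nat_lit 5) (nat_lit 473) (nat_lit 383) (nat_lit 344)) (XT.lf (nat_lit 0) (nat_lit 5535514236) (nat_lit 228) (nat_lit 5753664084) (nat_lit 304) (nat_lit 2301726709) (nat_lit 63) (nat_lit 5) (nat_lit 66) (nat_lit 5) (nat_lit 67) (nat_lit 5) (nat_lit 474) (nat_lit 383) (nat_lit 343)))) (XT.nd (nat_lit 78) (nat_lit 456) (nat_lit 0) (XT.lf (nat_lit 0) (nat_lit 4654668238) (nat_lit 228) (nat_lit 7535499229) (nat_lit 76) (nat_lit 1642898578) (nat_lit 60) (nat_lit 5) (nat_lit 63) (nat_lit 5) (nat_lit 61) (nat_lit 5) (nat_lit 475) (nat_lit 383) (nat_lit 342)) (XT.nd (nat_lit 78) (nat_lit 228) (nat_lit 0) (XT.lf (nat_lit 0) (nat_lit 6984998921) (nat_lit 228) (nat_lit 4850474407) (nat_lit 304) (nat_lit 2245779050) (nat_lit 57) (nat_lit 5) (nat_lit 60) (nat_lit 5) (nat_lit 61) (nat_lit 5) (nat_lit 476) (nat_lit 383) (nat_lit 341)) (XT.lf (nat_lit 0) (nat_lit 4858555612) (nat_lit 228) (nat_lit 6738851498)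 (nat_lit 76) (nat_lit 2738287255) (nat_lit 54) (nat_lit 5) (nat_lit 57) (nat_lit 5) (nat_lit 55) (nat_lit 5) (nat_lit 477) (nat_lit 383) (nat_lit 340))))))))
noncomputable def xc17 : XT := (XT.nd (nat_lit 59826) (nat_lit 0) (nat_lit 4940) (XT.nd (nat_lit 58890) (nat_lit 0) (nat_lit 16340) (XT.nd (nat_lit 390) (nat_lit 1140) (nat_lit 0) (XT.nd (nat_lit 156) (nat_lit 608) (nat_lit 0) (XT.nd (nat_lit 78) (nat_lit 228) (nat_lit 0) (XT.lf (nat_lit 0) (nat_lit 8130248776) (nat_lit 228) (nat_lit 4059310116) (nat_lit 304) (nat_lit 2407037051) (nat_lit 51) (nat_lit 5) (nat_lit 54) (nat_lit 5) (nat_lit 55) (nat_lit 5) (nat_lit 478) (nat_lit 383) (nat_lit 339)) (XT.lf (nat_lit 0) (nat_lit 4848745951) (nat_lit 228) (nat_lit 6293147502) (nat_lit 76) (nat_lit 3722051738) (nat_lit 48) (nat_lit 5) (nat_lit 51) (nat_lit 5) (nat_lit 49) (nat_lit 5) (nat_lit 479) (nat_lit 383) (nat_lit 338))) (XT.nd (nat_lit 78) (nat_lit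 380) (nat_lit 0) (XT.lf (nat_lit 0) (nat_lit 8925665455) (nat_lit 228) (nat_lit 3405609584) (nat_lit 304) (nat_lit 2806890074) (nat_lit 45) (nat_lit 5) (nat_lit 48) (nat_lit 5) (nat_lit 49) (nat_lit 5) (nat_lit 480) (nat_lit 383) (nat_lit 337)) (XT.nd (nat_lit 78) (nat_lit 152) (nat_lit 0) (XT.lf (nat_lit 0) (nat_lit 4603193864) (nat_lit 228) (nat_lit 6247500479) (nat_lit 76) (nat_lit 4568399643) (nat_lit 42) (nat_lit 5) (nat_lit 45) (nat_lit 5) (nat_lit 43) (nat_lit 5) (nat_lit 481) (nat_lit 383) (nat_lit 336)) (XT.lf (nat_lit 0) (nat_lit 9320715004) (nat_lit 152) (nat_lit 2917062116) (nat_lit 228) (nat_lit 3469499509) (nat_lit 40) (nat_lit 5) (nat_lit 42) (nat_lit 5) (nat_lit 43) (nat_lit 5) (nat_lit 482) (nat_lit 383) (nat_lit 335))))) (XT.nd (nat_lit 234) (nat_lit 532) (nat_lit 0) (XT.nd (nat_lit 78) (nat_lit 380) (nat_lit 0) (XT.lf (nat_lit 0) (nat_lit 4097008673) (nat_lit 228) (nat_lit 6656305387)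 (nat_lit 76) (nat_lit 5249193031) (nat_lit 37) (nat_lit 5) (nat_lit 40) (nat_lit 5) (nat_lit 38) (nat_lit 5) (nat_lit 483) (nat_lit 383) (nat_lit 334)) (XT.nd (nat_lit 78) (nat_lit 228) (nat_lit 0) (XT.lf (nat_lit 0) (nat_lit 9259368998) (nat_lit 152) (nat_lit 2623906688) (nat_lit 228) (nat_lit 4422065436) (nat_lit 35) (nat_lit 5) (nat_lit 37) (nat_lit 5) (nat_lit 38) (nat_lit 5) (nat_lit 484) (nat_lit 383) (nat_lit 333)) (XT.lf (nat_lit 0) (nat_lit 3302177354) (nat_lit 228) (nat_lit 7579830297) (nat_lit 76) (nat_lit 5733640980) (nat_lit 32) (nat_lit 5) (nat_lit 35) (nat_lit 5) (nat_lit 33) (nat_lit 5) (nat_lit 485) (nat_lit 383) (nat_lit 332)))) (XT.nd (nat_lit 78) (nat_lit 380) (nat_lit 0) (XT.lf (nat_lit 0) (nat_lit 8679489028) (nat_lit 152) (nat_lit 2559257944) (nat_lit 228) (nat_lit 5695123314) (nat_lit 30) (nat_lit 5) (nat_lit 32) (nat_lit 5) (nat_lit 33) (nat_lit 5) (nat_lit 486) (nat_lit 383)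 (nat_lit 331)) (XT.nd (nat_lit 78) (nat_lit 152) (nat_lit 0) (XT.lf (nat_lit 0) (nat_lit 2187256441) (nat_lit 228) (nat_lit 9084867866) (nat_lit 76) (nat_lit 5987963754) (nat_lit 27) (nat_lit 5) (nat_lit 30) (nat_lit 5) (nat_lit 28) (nat_lit 5) (nat_lit 487) (nat_lit 383) (nat_lit 330)) (XT.lf (nat_lit 0) (nat_lit 7512148466) (nat_lit 152) (nat_lit 2759462634) (nat_lit 228) (nat_lit 7322873660) (nat_lit 25) (nat_lit 5) (nat_lit 27) (nat_lit 5) (nat_lit 28) (nat_lit 5) (nat_lit 488) (nat_lit 383) (nat_lit 329)))))) (XT.nd (nat_lit 468) (nat_lit 5168) (nat_lit 0) (XT.nd (nat_lit 234) (nat_lit 2356) (nat_lit 0) (XT.nd (nat_lit 78) (nat_lit 1596) (nat_lit 0) (XT.lf (nat_lit 0) (nat_lit 374577634) (nat_lit 836) (nat_lit 1699814648) (nat_lit 836) (nat_lit 1699814648) (nat_lit 360) (nat_lit 4) (nat_lit 371) (nat_lit 5) (nat_lit 371) (nat_lit 4) (nat_lit 432) (nat_lit 384) (nat_lit 384)) (XT.nd (nat_lit 78)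 (nat_lit 760) (nat_lit 0) (XT.lf (nat_lit 0) (nat_lit 2069026691) (nat_lit 760) (nat_lit 14404624) (nat_lit 836) (nat_lit 5536594303) (nat_lit 349) (nat_lit 5) (nat_lit 359) (nat_lit 5) (nat_lit 360) (nat_lit 4) (nat_lit 433) (nat_lit 384) (nat_lit 383)) (XT.lf (nat_lit 0) (nat_lit 3423660362) (nat_lit 760) (nat_lit 4202444075) (nat_lit 760) (nat_lit 68430873) (nat_lit 339) (nat_lit 4) (nat_lit 349) (nat_lit 5) (nat_lit 349) (nat_lit 4) (nat_lit 434) (nat_lit 384) (nat_lit 382)))) (XT.nd (nat_lit 78) (nat_lit 1596) (nat_lit 0) (XT.lf (nat_lit 0) (nat_lit 4821475989) (nat_lit 684) (nat_lit 590719325) (nat_lit 760) (nat_lit 2359958718) (nat_lit 329) (nat_lit 5) (nat_lit 338) (nat_lit 5) (nat_lit 339) (nat_lit 4) (nat_lit 435) (nat_lit 384) (nat_lit 381)) (XT.nd (nat_lit 78) (nat_lit 760) (nat_lit 0) (XT.lf (nat_lit 0) (nat_lit 3107109403) (nat_lit 836) (nat_lit 1596891097) (nat_lit 76) (nat_lit 3148800207)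 (nat_lit 318) (nat_lit 5) (nat_lit 329) (nat_lit 5) (nat_lit 319) (nat_lit 4) (nat_lit 436) (nat_lit 384) (nat_lit 380)) (XT.lf (nat_lit 0) (nat_lit 691772213) (nat_lit 760) (nat_lit 193279709) (nat_lit 76) (nat_lit 7051798402) (nat_lit 308) (nat_lit 5) (nat_lit 318) (nat_lit 5) (nat_lit 309) (nat_lit 5) (nat_lit 437) (nat_lit 384) (nat_lit 379))))) (XT.nd (nat_lit 234) (nat_lit 2432) (nat_lit 0) (XT.nd (nat_lit 78) (nat_lit 1444) (nat_lit 0) (XT.lf (nat_lit 0) (nat_lit 1248511218) (nat_lit 608) (nat_lit 4938506242) (nat_lit 684) (nat_lit 1836615010) (nat_lit 291) (nat_lit 5) (nat_lit 299) (nat_lit 5) (nat_lit 300) (nat_lit 4) (nat_lit 438) (nat_lit 384) (nat_lit 378)) (XT.nd (nat_lit 78) (nat_lit 684) (nat_lit 0) (XT.lf (nat_lit 0) (nat_lit 2735871915) (nat_lit 684) (nat_lit 889677335) (nat_lit 760) (nat_lit 4488195600) (nat_lit 281) (nat_lit 5) (nat_lit 290) (nat_lit 5) (nat_lit 291) (nat_lit 5)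 (nat_lit 439) (nat_lit 384) (nat_lit 377)) (XT.lf (nat_lit 0) (nat_lit 964561162) (nat_lit 684) (nat_lit 3951887928) (nat_lit 76) (nat_lit 3290602631) (nat_lit 272) (nat_lit 5) (nat_lit 281) (nat_lit 5) (nat_lit 273) (nat_lit 5) (nat_lit 440) (nat_lit 384) (nat_lit 376)))) (XT.nd (nat_lit 78) (nat_lit 1824) (nat_lit 0) (XT.lf (nat_lit 0) (nat_lit 5809802277) (nat_lit 608) (nat_lit 655374084) (nat_lit 684) (nat_lit 1838501590) (nat_lit 264) (nat_lit 5) (nat_lit 272) (nat_lit 5) (nat_lit 273) (nat_lit 5) (nat_lit 441) (nat_lit 384) (nat_lit 375)) (XT.nd (nat_lit 78) (nat_lit 1216) (nat_lit 0) (XT.lf (nat_lit 0) (nat_lit 3644865474) (nat_lit 608) (nat_lit 1017390017) (nat_lit 76) (nat_lit 3741158152) (nat_lit 256) (nat_lit 5) (nat_lit 264) (nat_lit 5) (nat_lit 257) (nat_lit 5) (nat_lit 442) (nat_lit 384) (nat_lit 374)) (XT.lf (nat_lit 0) (nat_lit 510318501) (nat_lit 532) (nat_lit 193505175) (nat_lit 608)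 (nat_lit 7802953385) (nat_lit 240) (nat_lit 5) (nat_lit 247) (nat_lit 5) (nat_lit 248) (nat_lit 5) (nat_lit 443) (nat_lit 384) (nat_lit 373))))))) (XT.nd (nat_lit 936) (nat_lit 4484) (nat_lit 0) (XT.nd (nat_lit 468) (nat_lit 3192) (nat_lit 0) (XT.nd (nat_lit 234) (nat_lit 2052) (nat_lit 0) (XT.nd (nat_lit 78) (nat_lit 1140) (nat_lit 0) (XT.lf (nat_lit 0) (nat_lit 2056313857) (nat_lit 532) (nat_lit 4192075493) (nat_lit 608) (nat_lit 2364579810) (nat_lit 233) (nat_lit 5) (nat_lit 240) (nat_lit 5) (nat_lit 241) (nat_lit 5) (nat_lit 444) (nat_lit 384) (nat_lit 372)) (XT.nd (nat_lit 78) (nat_lit 532) (nat_lit 0) (XT.lf (nat_lit 0) (nat_lit 3148315974) (nat_lit 608) (nat_lit 5081424620) (nat_lit 76) (nat_lit 493125144) (nat_lit 225) (nat_lit 5) (nat_lit 233) (nat_lit 5) (nat_lit 226) (nat_lit 5) (nat_lit 445) (nat_lit 384) (nat_lit 371)) (XT.lf (nat_lit 0) (nat_lit 5246167812) (nat_lit 532) (nat_lit 3528670326)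 (nat_lit 608) (nat_lit 61316254) (nat_lit 218) (nat_lit 5) (nat_lit 225) (nat_lit 5) (nat_lit 226) (nat_lit 5) (nat_lit 446) (nat_lit 384) (nat_lit 370)))) (XT.nd (nat_lit 78) (nat_lit 1520) (nat_lit 0) (XT.lf (nat_lit 0) (nat_lit 5506982265) (nat_lit 532) (nat_lit 2084838254) (nat_lit 76) (nat_lit 1361039308) (nat_lit 211) (nat_lit 5) (nat_lit 218) (nat_lit 5) (nat_lit 212) (nat_lit 5) (nat_lit 447) (nat_lit 384) (nat_lit 369)) (XT.nd (nat_lit 78) (nat_lit 912) (nat_lit 0) (XT.lf (nat_lit 0) (nat_lit 2120555122) (nat_lit 608) (nat_lit 559987928) (nat_lit 76) (nat_lit 6392636223) (nat_lit 203) (nat_lit 5) (nat_lit 211) (nat_lit 5) (nat_lit 204) (nat_lit 5) (nat_lit 448) (nat_lit 384) (nat_lit 368)) (XT.lf (nat_lit 0) (nat_lit 995937151) (nat_lit 456) (nat_lit 6793034217) (nat_lit 532) (nat_lit 1408058517) (nat_lit 191) (nat_lit 5) (nat_lit 197) (nat_lit 5) (nat_lit 198) (nat_lit 5) (nat_lit 449) (nat_lit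 384) (nat_lit 367))))) (XT.nd (nat_lit 234) (nat_lit 1748) (nat_lit 0) (XT.nd (nat_lit 78) (nat_lit 912) (nat_lit 0) (XT.lf (nat_lit 0) (nat_lit 2569285719) (nat_lit 456) (nat_lit 1660319910) (nat_lit 532) (nat_lit 5094780387) (nat_lit 184) (nat_lit 5) (nat_lit 190) (nat_lit 5) (nat_lit 191) (nat_lit 5) (nat_lit 450) (nat_lit 384) (nat_lit 366)) (XT.nd (nat_lit 78) (nat_lit 380) (nat_lit 0) (XT.lf (nat_lit 0) (nat_lit 542057986) (nat_lit 532) (nat_lit 5294924727) (nat_lit 76) (nat_lit 3618582336) (nat_lit 177) (nat_lit 5) (nat_lit 184) (nat_lit 5) (nat_lit 178) (nat_lit 5) (nat_lit 451) (nat_lit 384) (nat_lit 365)) (XT.lf (nat_lit 0) (nat_lit 5760342847) (nat_lit 380) (nat_lit 495959591) (nat_lit 456) (nat_lit 3334164768) (nat_lit 172) (nat_lit 5) (nat_lit 177) (nat_lit 5) (nat_lit 178) (nat_lit 5) (nat_lit 452) (nat_lit 384) (nat_lit 364)))) (XT.nd (nat_lit 78) (nat_lit 1216) (nat_lit 0) (XT.lf (nat_lit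 0) (nat_lit 2381901800) (nat_lit 532) (nat_lit 2365337658) (nat_lit 76) (nat_lit 4981855090) (nat_lit 165) (nat_lit 5) (nat_lit 172) (nat_lit 5) (nat_lit 166) (nat_lit 5) (nat_lit 453) (nat_lit 384) (nat_lit 363)) (XT.nd (nat_lit 78) (nat_lit 836) (nat_lit 0) (XT.lf (nat_lit 0) (nat_lit 8203341542) (nat_lit 456) (nat_lit 884493038) (nat_lit 76) (nat_lit 784032344) (nat_lit 160) (nat_lit 5) (nat_lit 166) (nat_lit 5) (nat_lit 161) (nat_lit 5) (nat_lit 454) (nat_lit 384) (nat_lit 362)) (XT.lf (nat_lit 0) (nat_lit 590644458) (nat_lit 380) (nat_lit 3543545271) (nat_lit 456) (nat_lit 5884029834) (nat_lit 149) (nat_lit 5) (nat_lit 154) (nat_lit 5) (nat_lit 155) (nat_lit 5) (nat_lit 455) (nat_lit 384) (nat_lit 361)))))) (XT.nd (nat_lit 468) (nat_lit 2280) (nat_lit 0) (XT.nd (nat_lit 234) (nat_lit 988) (nat_lit 0) (XT.nd (nat_lit 78) (nat_lit 836) (nat_lit 0) (XT.lf (nat_lit 0) (nat_lit 2096119392) (nat_lit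 380) (nat_lit 7987192413) (nat_lit 456) (nat_lit 85540472) (nat_lit 144) (nat_lit 5) (nat_lit 149) (nat_lit 5) (nat_lit 150) (nat_lit 5) (nat_lit 456) (nat_lit 384) (nat_lit 360)) (XT.nd (nat_lit 78) (nat_lit 456) (nat_lit 0) (XT.lf (nat_lit 0) (nat_lit 3581970102) (nat_lit 304) (nat_lit 2228056471) (nat_lit 380) (nat_lit 4513215831) (nat_lit 139) (nat_lit 5) (nat_lit 143) (nat_lit 5) (nat_lit 144) (nat_lit 5) (nat_lit 457) (nat_lit 384) (nat_lit 359)) (XT.lf (nat_lit 0) (nat_lit 1383612941) (nat_lit 456) (nat_lit 5407424771) (nat_lit 76) (nat_lit 3690984245) (nat_lit 133) (nat_lit 5) (nat_lit 139) (nat_lit 5) (nat_lit 134) (nat_lit 5) (nat_lit 458) (nat_lit 384) (nat_lit 358)))) (XT.nd (nat_lit 78) (nat_lit 684) (nat_lit 0) (XT.lf (nat_lit 0) (nat_lit 6561148467) (nat_lit 304) (nat_lit 830846330) (nat_lit 380) (nat_lit 3253062911) (nat_lit 129) (nat_lit 5) (nat_lit 133) (nat_lit 5) (nat_lit 134) (nat_lit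 5) (nat_lit 459) (nat_lit 384) (nat_lit 357)) (XT.nd (nat_lit 78) (nat_lit 304) (nat_lit 0) (XT.lf (nat_lit 0) (nat_lit 2748833186) (nat_lit 380) (nat_lit 2780314909) (nat_lit 76) (nat_lit 5283135633) (nat_lit 124) (nat_lit 5) (nat_lit 129) (nat_lit 5) (nat_lit 125) (nat_lit 5) (nat_lit 460) (nat_lit 384) (nat_lit 356)) (XT.lf (nat_lit 0) (nat_lit 8881187711) (nat_lit 380) (nat_lit 1477550198) (nat_lit 76) (nat_lit 625474700) (nat_lit 120) (nat_lit 5) (nat_lit 125) (nat_lit 5) (nat_lit 121) (nat_lit 5) (nat_lit 461) (nat_lit 384) (nat_lit 355))))) (XT.nd (nat_lit 234) (nat_lit 988) (nat_lit 0) (XT.nd (nat_lit 78) (nat_lit 912) (nat_lit 0) (XT.lf (nat_lit 0) (nat_lit 4007268181) (nat_lit 380) (nat_lit 209470019) (nat_lit 76) (nat_lit 6943564944) (nat_lit 115) (nat_lit 5) (nat_lit 120) (nat_lit 5) (nat_lit 116) (nat_lit 5) (nat_lit 462) (nat_lit 384) (nat_lit 354)) (XT.nd (nat_lit 78) (nat_lit 304) (nat_lit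 0) (XT.lf (nat_lit 0) (nat_lit 1070755674) (nat_lit 304) (nat_lit 9211172488) (nat_lit 380) (nat_lit 1059285093) (nat_lit 107) (nat_lit 5) (nat_lit 111) (nat_lit 5) (nat_lit 112) (nat_lit 5) (nat_lit 463) (nat_lit 384) (nat_lit 353)) (XT.lf (nat_lit 0) (nat_lit 2315225458) (nat_lit 228) (nat_lit 2853466340) (nat_lit 304) (nat_lit 6357791713) (nat_lit 103) (nat_lit 5) (nat_lit 106) (nat_lit 5) (nat_lit 107) (nat_lit 5) (nat_lit 464) (nat_lit 384) (nat_lit 352)))) (XT.nd (nat_lit 78) (nat_lit 684) (nat_lit 0) (XT.lf (nat_lit 0) (nat_lit 3549706977) (nat_lit 304) (nat_lit 8035649930) (nat_lit 380) (nat_lit 131497035) (nat_lit 99) (nat_lit 5) (nat_lit 103) (nat_lit 5) (nat_lit 104) (nat_lit 5) (nat_lit 465) (nat_lit 384) (nat_lit 351)) (XT.nd (nat_lit 78) (nat_lit 380) (nat_lit 0) (XT.lf (nat_lit 0) (nat_lit 4742766505) (nat_lit 228) (nat_lit 1469408731) (nat_lit 304) (nat_lit 5699691689) (nat_lit 95)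 (nat_lit 5) (nat_lit 98) (nat_lit 5) (nat_lit 99) (nat_lit 5) (nat_lit 466) (nat_lit 384) (nat_lit 350)) (XT.lf (nat_lit 0) (nat_lit 653742471) (nat_lit 380) (nat_lit 6200171222) (nat_lit 76) (nat_lit 5258116089) (nat_lit 90) (nat_lit 5) (nat_lit 95) (nat_lit 5) (nat_lit 91) (nat_lit 5) (nat_lit 467) (nat_lit 384) (nat_lit 349))))))))
noncomputable def xc18 : XT := (XT.nd (nat_lit 59670) (nat_lit 0) (nat_lit 10108) (XT.nd (nat_lit 858) (nat_lit 1824) (nat_lit 0) (XT.nd (nat_lit 390) (nat_lit 1672) (nat_lit 0) (XT.nd (nat_lit 156) (nat_lit 760) (nat_lit 0) (XT.nd (nat_lit 78) (nat_lit 304) (nat_lit 0) (XT.lf (nat_lit 0) (nat_lit 7045810953) (nat_lit 228) (nat_lit 82279161) (nat_lit 304) (nat_lit 5189205057) (nat_lit 87) (nat_lit 5) (nat_lit 90) (nat_lit 5) (nat_lit 91) (nat_lit 5) (nat_lit 468) (nat_lit 384) (nat_lit 348)) (XT.lf (nat_lit 0) (nat_lit 1295709610) (nat_lit 304) (nat_lit 4391711292) (nat_lit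 76) (nat_lit 6840250972) (nat_lit 83) (nat_lit 5) (nat_lit 87) (nat_lit 5) (nat_lit 84) (nat_lit 5) (nat_lit 469) (nat_lit 384) (nat_lit 347))) (XT.nd (nat_lit 78) (nat_lit 532) (nat_lit 0) (XT.lf (nat_lit 0) (nat_lit 7914975111) (nat_lit 304) (nat_lit 3554657920) (nat_lit 76) (nat_lit 1273840369) (nat_lit 80) (nat_lit 5) (nat_lit 84) (nat_lit 5) (nat_lit 81) (nat_lit 5) (nat_lit 470) (nat_lit 384) (nat_lit 346)) (XT.nd (nat_lit 78) (nat_lit 228) (nat_lit 0) (XT.lf (nat_lit 0) (nat_lit 1785010647) (nat_lit 304) (nat_lit 2770051764) (nat_lit 76) (nat_lit 8409640121) (nat_lit 76) (nat_lit 5) (nat_lit 80) (nat_lit 5) (nat_lit 77) (nat_lit 5) (nat_lit 471) (nat_lit 384) (nat_lit 345)) (XT.lf (nat_lit 0) (nat_lit 8553212762) (nat_lit 304) (nat_lit 2041244835) (nat_lit 76) (nat_lit 2597040041) (nat_lit 73) (nat_lit 5) (nat_lit 77) (nat_lit 5) (nat_lit 74) (nat_lit 5) (nat_lit 472) (nat_lit 384) (nat_lit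 344))))) (XT.nd (nat_lit 234) (nat_lit 836) (nat_lit 0) (XT.nd (nat_lit 78) (nat_lit 532) (nat_lit 0) (XT.lf (nat_lit 0) (nat_lit 2108713524) (nat_lit 304) (nat_lit 1367301524) (nat_lit 76) (nat_lit 9948076229) (nat_lit 69) (nat_lit 5) (nat_lit 73) (nat_lit 5) (nat_lit 70) (nat_lit 5) (nat_lit 473) (nat_lit 384) (nat_lit 343)) (XT.nd (nat_lit 78) (nat_lit 304) (nat_lit 0) (XT.lf (nat_lit 0) (nat_lit 9028716286) (nat_lit 304) (nat_lit 764420900) (nat_lit 76) (nat_lit 3869244948) (nat_lit 66) (nat_lit 5) (nat_lit 70) (nat_lit 5) (nat_lit 67) (nat_lit 5) (nat_lit 474) (nat_lit 384) (nat_lit 342)) (XT.lf (nat_lit 0) (nat_lit 2251916726) (nat_lit 304) (nat_lit 218900973) (nat_lit 76) (nat_lit 11436058434) (nat_lit 62) (nat_lit 5) (nat_lit 66) (nat_lit 5) (nat_lit 63) (nat_lit 5) (nat_lit 475) (nat_lit 384) (nat_lit 341)))) (XT.nd (nat_lit 78) (nat_lit 456) (nat_lit 0) (XT.lf (nat_lit 0) (nat_lit 241747273)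 (nat_lit 228) (nat_lit 9085717836) (nat_lit 304) (nat_lit 4829704676) (nat_lit 57) (nat_lit 5) (nat_lit 60) (nat_lit 5) (nat_lit 61) (nat_lit 5) (nat_lit 476) (nat_lit 384) (nat_lit 340)) (XT.nd (nat_lit 78) (nat_lit 228) (nat_lit 0) (XT.lf (nat_lit 0) (nat_lit 644433741) (nat_lit 152) (nat_lit 1557324630) (nat_lit 228) (nat_lit 12212326217) (nat_lit 54) (nat_lit 5) (nat_lit 56) (nat_lit 5) (nat_lit 57) (nat_lit 5) (nat_lit 477) (nat_lit 384) (nat_lit 339)) (XT.lf (nat_lit 0) (nat_lit 938882462) (nat_lit 228) (nat_lit 8494151276) (nat_lit 304) (nat_lit 5243949006) (nat_lit 51) (nat_lit 5) (nat_lit 54) (nat_lit 5) (nat_lit 55) (nat_lit 5) (nat_lit 478) (nat_lit 384) (nat_lit 338)))))) (XT.nd (nat_lit 468) (nat_lit 608) (nat_lit 0) (XT.nd (nat_lit 234) (nat_lit 532) (nat_lit 0) (XT.nd (nat_lit 78) (nat_lit 456) (nat_lit 0) (XT.lf (nat_lit 0) (nat_lit 1169352568) (nat_lit 152) (nat_lit 764539339) (nat_lit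 228) (nat_lit 13013113364) (nat_lit 48) (nat_lit 5) (nat_lit 50) (nat_lit 5) (nat_lit 51) (nat_lit 5) (nat_lit 479) (nat_lit 384) (nat_lit 337)) (XT.nd (nat_lit 78) (nat_lit 228) (nat_lit 0) (XT.lf (nat_lit 0) (nat_lit 1270643002) (nat_lit 228) (nat_lit 8049208379) (nat_lit 304) (nat_lit 5903307069) (nat_lit 45) (nat_lit 5) (nat_lit 48) (nat_lit 5) (nat_lit 49) (nat_lit 5) (nat_lit 480) (nat_lit 384) (nat_lit 336)) (XT.lf (nat_lit 0) (nat_lit 1304337067) (nat_lit 152) (nat_lit 120278416) (nat_lit 228) (nat_lit 14082331122) (nat_lit 42) (nat_lit 5) (nat_lit 44) (nat_lit 5) (nat_lit 45) (nat_lit 5) (nat_lit 481) (nat_lit 384) (nat_lit 335)))) (XT.nd (nat_lit 78) (nat_lit 380) (nat_lit 0) (XT.lf (nat_lit 0) (nat_lit 1185881148) (nat_lit 152) (nat_lit 7778802771) (nat_lit 228) (nat_lit 6832337352) (nat_lit 40) (nat_lit 5) (nat_lit 42) (nat_lit 5) (nat_lit 43) (nat_lit 5) (nat_lit 482) (nat_lit 384) (nat_lit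 334)) (XT.nd (nat_lit 78) (nat_lit 152) (nat_lit 0) (XT.lf (nat_lit 0) (nat_lit 651080510) (nat_lit 228) (nat_lit 15101988343) (nat_lit 76) (nat_lit 342165088) (nat_lit 37) (nat_lit 5) (nat_lit 40) (nat_lit 5) (nat_lit 38) (nat_lit 5) (nat_lit 483) (nat_lit 384) (nat_lit 333)) (XT.lf (nat_lit 0) (nat_lit 627924776) (nat_lit 152) (nat_lit 7713419073) (nat_lit 228) (nat_lit 8058645789) (nat_lit 35) (nat_lit 5) (nat_lit 37) (nat_lit 5) (nat_lit 38) (nat_lit 5) (nat_lit 484) (nat_lit 384) (nat_lit 332))))) (XT.nd (nat_lit 234) (nat_lit 228) (nat_lit 0) (XT.nd (nat_lit 78) (nat_lit 228) (nat_lit 0) (XT.lf (nat_lit 0) (nat_lit 176487695) (nat_lit 152) (nat_lit 16113545490) (nat_lit 228) (nat_lit 423303600) (nat_lit 33) (nat_lit 5) (nat_lit 35) (nat_lit 5) (nat_lit 36) (nat_lit 4) (nat_lit 485) (nat_lit 384) (nat_lit 331)) (XT.nd (nat_lit 78) (nat_lit 152) (nat_lit 0) (XT.lf (nat_lit 0) (nat_lit 7423425770)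 (nat_lit 228) (nat_lit 459926681) (nat_lit 76) (nat_lit 9150170267) (nat_lit 32) (nat_lit 5) (nat_lit 35) (nat_lit 5) (nat_lit 33) (nat_lit 5) (nat_lit 486) (nat_lit 384) (nat_lit 330)) (XT.lf (nat_lit 0) (nat_lit 15532027069) (nat_lit 228) (nat_lit 1198884789) (nat_lit 76) (nat_lit 631704892) (nat_lit 30) (nat_lit 5) (nat_lit 33) (nat_lit 5) (nat_lit 31) (nat_lit 4) (nat_lit 487) (nat_lit 384) (nat_lit 329)))) (XT.nd (nat_lit 57954) (nat_lit 0) (nat_lit 26904) (XT.lf (nat_lit 0) (nat_lit 6182915376) (nat_lit 228) (nat_lit 2137239414) (nat_lit 76) (nat_lit 9378994890) (nat_lit 27) (nat_lit 5) (nat_lit 30) (nat_lit 5) (nat_lit 28) (nat_lit 5) (nat_lit 488) (nat_lit 384) (nat_lit 328)) (XT.nd (nat_lit 78) (nat_lit 912) (nat_lit 0) (XT.lf (nat_lit 0) (nat_lit 1446136454) (nat_lit 912) (nat_lit 814213426) (nat_lit 0) (nat_lit 1446136454) (nat_lit 393) (nat_lit 5) (nat_lit 405) (nat_lit 4) (nat_lit 393)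 (nat_lit 4) (nat_lit 430) (nat_lit 385) (nat_lit 385)) (XT.lf (nat_lit 0) (nat_lit 862367533) (nat_lit 912) (nat_lit 505781080) (nat_lit 76) (nat_lit 6111900277) (nat_lit 381) (nat_lit 5) (nat_lit 393) (nat_lit 5) (nat_lit 382) (nat_lit 4) (nat_lit 431) (nat_lit 385) (nat_lit 384))))))) (XT.nd (nat_lit 858) (nat_lit 7296) (nat_lit 0) (XT.nd (nat_lit 390) (nat_lit 4712) (nat_lit 0) (XT.nd (nat_lit 156) (nat_lit 2356) (nat_lit 0) (XT.nd (nat_lit 78) (nat_lit 836) (nat_lit 0) (XT.lf (nat_lit 0) (nat_lit 661856777) (nat_lit 836) (nat_lit 5615632048) (nat_lit 836) (nat_lit 1272437778) (nat_lit 360) (nat_lit 4) (nat_lit 371) (nat_lit 5) (nat_lit 371) (nat_lit 4) (nat_lit 432) (nat_lit 385) (nat_lit 383)) (XT.lf (nat_lit 0) (nat_lit 1878158764) (nat_lit 760) (nat_lit 2230030311) (nat_lit 836) (nat_lit 3514576170) (nat_lit 349) (nat_lit 5) (nat_lit 359) (nat_lit 5) (nat_lit 360) (nat_lit 4) (nat_lit 433) (nat_lit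 385) (nat_lit 382))) (XT.nd (nat_lit 78) (nat_lit 1520) (nat_lit 0) (XT.lf (nat_lit 0) (nat_lit 1839452227) (nat_lit 836) (nat_lit 4555945149) (nat_lit 76) (nat_lit 1303405959) (nat_lit 338) (nat_lit 5) (nat_lit 349) (nat_lit 5) (nat_lit 339) (nat_lit 4) (nat_lit 434) (nat_lit 385) (nat_lit 381)) (XT.nd (nat_lit 78) (nat_lit 836) (nat_lit 0) (XT.lf (nat_lit 0) (nat_lit 4445757800) (nat_lit 684) (nat_lit 2800259544) (nat_lit 760) (nat_lit 531870562) (nat_lit 329) (nat_lit 5) (nat_lit 338) (nat_lit 5) (nat_lit 339) (nat_lit 4) (nat_lit 435) (nat_lit 385) (nat_lit 380)) (XT.lf (nat_lit 0) (nat_lit 4824011468) (nat_lit 836) (nat_lit 2073973646) (nat_lit 76) (nat_lit 962067201) (nat_lit 318) (nat_lit 5) (nat_lit 329) (nat_lit 5) (nat_lit 319) (nat_lit 4) (nat_lit 436) (nat_lit 385) (nat_lit 379))))) (XT.nd (nat_lit 234) (nat_lit 1900) (nat_lit 0) (XT.nd (nat_lit 78) (nat_lit 2052) (nat_lit 0) (XT.lf (nat_lit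 0) (nat_lit 2306527267) (nat_lit 760) (nat_lit 781882269) (nat_lit 76) (nat_lit 4856930239) (nat_lit 308) (nat_lit 5) (nat_lit 318) (nat_lit 5) (nat_lit 309) (nat_lit 5) (nat_lit 437) (nat_lit 385) (nat_lit 378)) (XT.nd (nat_lit 78) (nat_lit 760) (nat_lit 0) (XT.lf (nat_lit 0) (nat_lit 562218688) (nat_lit 608) (nat_lit 7148931429) (nat_lit 684) (nat_lit 322794337) (nat_lit 291) (nat_lit 5) (nat_lit 299) (nat_lit 5) (nat_lit 300) (nat_lit 4) (nat_lit 438) (nat_lit 385) (nat_lit 377)) (XT.lf (nat_lit 0) (nat_lit 1932780348) (nat_lit 684) (nat_lit 3114534356) (nat_lit 760) (nat_lit 3077999175) (nat_lit 281) (nat_lit 5) (nat_lit 290) (nat_lit 5) (nat_lit 291) (nat_lit 5) (nat_lit 439) (nat_lit 385) (nat_lit 376)))) (XT.nd (nat_lit 78) (nat_lit 1216) (nat_lit 0) (XT.lf (nat_lit 0) (nat_lit 2269698547) (nat_lit 684) (nat_lit 4871689207) (nat_lit 76) (nat_lit 1078790295) (nat_lit 272) (nat_lit 5) (nat_lit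 281) (nat_lit 5) (nat_lit 273) (nat_lit 5) (nat_lit 440) (nat_lit 385) (nat_lit 375)) (XT.nd (nat_lit 78) (nat_lit 608) (nat_lit 0) (XT.lf (nat_lit 0) (nat_lit 4791241555) (nat_lit 608) (nat_lit 2907678719) (nat_lit 684) (nat_lit 619320744) (nat_lit 264) (nat_lit 5) (nat_lit 272) (nat_lit 5) (nat_lit 273) (nat_lit 5) (nat_lit 441) (nat_lit 385) (nat_lit 374)) (XT.lf (nat_lit 0) (nat_lit 4762025159) (nat_lit 608) (nat_lit 2159347060) (nat_lit 76) (nat_lit 1498175247) (nat_lit 256) (nat_lit 5) (nat_lit 264) (nat_lit 5) (nat_lit 257) (nat_lit 5) (nat_lit 442) (nat_lit 385) (nat_lit 373)))))) (XT.nd (nat_lit 468) (nat_lit 3268) (nat_lit 0) (XT.nd (nat_lit 234) (nat_lit 1672) (nat_lit 0) (XT.nd (nat_lit 78) (nat_lit 1672) (nat_lit 0) (XT.lf (nat_lit 0) (nat_lit 1715864332) (nat_lit 684) (nat_lit 763487839) (nat_lit 76) (nat_lit 6044914678) (nat_lit 247) (nat_lit 5) (nat_lit 256) (nat_lit 5) (nat_lit 248)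 (nat_lit 5) (nat_lit 443) (nat_lit 385) (nat_lit 372)) (XT.nd (nat_lit 78) (nat_lit 608) (nat_lit 0) (XT.lf (nat_lit 0) (nat_lit 665099919) (nat_lit 532) (nat_lit 6503883978) (nat_lit 608) (nat_lit 1463311773) (nat_lit 233) (nat_lit 5) (nat_lit 240) (nat_lit 5) (nat_lit 241) (nat_lit 5) (nat_lit 444) (nat_lit 385) (nat_lit 371)) (XT.lf (nat_lit 0) (nat_lit 2122669588) (nat_lit 532) (nat_lit 1840308100) (nat_lit 608) (nat_lit 4780600674) (nat_lit 225) (nat_lit 5) (nat_lit 232) (nat_lit 5) (nat_lit 233) (nat_lit 5) (nat_lit 445) (nat_lit 385) (nat_lit 370)))) (XT.nd (nat_lit 78) (nat_lit 1064) (nat_lit 0) (XT.lf (nat_lit 0) (nat_lit 639340297) (nat_lit 608) (nat_lit 5250941298) (nat_lit 76) (nat_lit 2968171034) (nat_lit 217) (nat_lit 5) (nat_lit 225) (nat_lit 5) (nat_lit 218) (nat_lit 5) (nat_lit 446) (nat_lit 385) (nat_lit 369)) (XT.nd (nat_lit 78) (nat_lit 608) (nat_lit 0) (XT.lf (nat_lit 0) (nat_lit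 5107785493) (nat_lit 456) (nat_lit 1018859290) (nat_lit 532) (nat_lit 2850115978) (nat_lit 211) (nat_lit 5) (nat_lit 217) (nat_lit 5) (nat_lit 218) (nat_lit 5) (nat_lit 447) (nat_lit 385) (nat_lit 368)) (XT.lf (nat_lit 0) (nat_lit 2630407132) (nat_lit 608) (nat_lit 2475518937) (nat_lit 76) (nat_lit 3992645228) (nat_lit 203) (nat_lit 5) (nat_lit 211) (nat_lit 5) (nat_lit 204) (nat_lit 5) (nat_lit 448) (nat_lit 385) (nat_lit 367))))) (XT.nd (nat_lit 234) (nat_lit 1292) (nat_lit 0) (XT.nd (nat_lit 78) (nat_lit 1520) (nat_lit 0) (XT.lf (nat_lit 0) (nat_lit 8170164211) (nat_lit 456) (nat_lit 35338156) (nat_lit 532) (nat_lit 1018792304) (nat_lit 197) (nat_lit 5) (nat_lit 203) (nat_lit 5) (nat_lit 204) (nat_lit 5) (nat_lit 449) (nat_lit 385) (nat_lit 366)) (XT.nd (nat_lit 78) (nat_lit 532) (nat_lit 0) (XT.lf (nat_lit 0) (nat_lit 361239018) (nat_lit 456) (nat_lit 4173101973) (nat_lit 532) (nat_lit 4818853811)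 (nat_lit 184) (nat_lit 5) (nat_lit 190) (nat_lit 5) (nat_lit 191) (nat_lit 5) (nat_lit 450) (nat_lit 385) (nat_lit 365)) (XT.lf (nat_lit 0) (nat_lit 725377061) (nat_lit 532) (nat_lit 7662827611) (nat_lit 76) (nat_lit 1097918853) (nat_lit 177) (nat_lit 5) (nat_lit 184) (nat_lit 5) (nat_lit 178) (nat_lit 5) (nat_lit 451) (nat_lit 385) (nat_lit 364)))) (XT.nd (nat_lit 78) (nat_lit 912) (nat_lit 0) (XT.lf (nat_lit 0) (nat_lit 3275542365) (nat_lit 380) (nat_lit 3091771015) (nat_lit 456) (nat_lit 3255164041) (nat_lit 172) (nat_lit 5) (nat_lit 177) (nat_lit 5) (nat_lit 178) (nat_lit 5) (nat_lit 452) (nat_lit 385) (nat_lit 363)) (XT.nd (nat_lit 78) (nat_lit 380) (nat_lit 0) (XT.lf (nat_lit 0) (nat_lit 2370159953) (nat_lit 532) (nat_lit 5017220128) (nat_lit 76) (nat_lit 2375513863) (nat_lit 165) (nat_lit 5) (nat_lit 172) (nat_lit 5) (nat_lit 166) (nat_lit 5) (nat_lit 453) (nat_lit 385) (nat_lit 362)) (XT.lf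 (nat_lit 0) (nat_lit 6221167726) (nat_lit 380) (nat_lit 1892731002) (nat_lit 456) (nat_lit 1793326766) (nat_lit 160) (nat_lit 5) (nat_lit 165) (nat_lit 5) (nat_lit 166) (nat_lit 5) (nat_lit 454) (nat_lit 385) (nat_lit 361))))))))
noncomputable def xc19 : XT := (XT.nd (nat_lit 1794) (nat_lit 2280) (nat_lit 0) (XT.nd (nat_lit 858) (nat_lit 3496) (nat_lit 0) (XT.nd (nat_lit 390) (nat_lit 1976) (nat_lit 0) (XT.nd (nat_lit 156) (nat_lit 1520) (nat_lit 0) (XT.nd (nat_lit 78) (nat_lit 380) (nat_lit 0) (XT.lf (nat_lit 0) (nat_lit 3921763533) (nat_lit 456) (nat_lit 2363011070) (nat_lit 76) (nat_lit 3770609874) (nat_lit 154) (nat_lit 5) (nat_lit 160) (nat_lit 5) (nat_lit 155) (nat_lit 5) (nat_lit 455) (nat_lit 385) (nat_lit 360)) (XT.lf (nat_lit 0) (nat_lit 9184008490) (nat_lit 380) (nat_lit 589923058) (nat_lit 456) (nat_lit 434029489) (nat_lit 149) (nat_lit 5) (nat_lit 154) (nat_lit 5) (nat_lit 155) (nat_lit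 5) (nat_lit 456) (nat_lit 385) (nat_lit 359))) (XT.nd (nat_lit 78) (nat_lit 760) (nat_lit 0) (XT.lf (nat_lit 0) (nat_lit 288528233) (nat_lit 304) (nat_lit 5092531451) (nat_lit 380) (nat_lit 4983042234) (nat_lit 139) (nat_lit 5) (nat_lit 143) (nat_lit 5) (nat_lit 144) (nat_lit 5) (nat_lit 457) (nat_lit 385) (nat_lit 358)) (XT.nd (nat_lit 78) (nat_lit 304) (nat_lit 0) (XT.lf (nat_lit 0) (nat_lit 826132289) (nat_lit 456) (nat_lit 8890312599) (nat_lit 76) (nat_lit 808378228) (nat_lit 133) (nat_lit 5) (nat_lit 139) (nat_lit 5) (nat_lit 134) (nat_lit 5) (nat_lit 458) (nat_lit 385) (nat_lit 357)) (XT.lf (nat_lit 0) (nat_lit 2948579333) (nat_lit 304) (nat_lit 3810890715) (nat_lit 380) (nat_lit 3929893891) (nat_lit 129) (nat_lit 5) (nat_lit 133) (nat_lit 5) (nat_lit 134) (nat_lit 5) (nat_lit 459) (nat_lit 385) (nat_lit 356))))) (XT.nd (nat_lit 234) (nat_lit 912) (nat_lit 0) (XT.nd (nat_lit 78) (nat_lit 684)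 (nat_lit 0) (XT.lf (nat_lit 0) (nat_lit 1985621613) (nat_lit 380) (nat_lit 6590237052) (nat_lit 76) (nat_lit 2282728318) (nat_lit 124) (nat_lit 5) (nat_lit 129) (nat_lit 5) (nat_lit 125) (nat_lit 5) (nat_lit 460) (nat_lit 385) (nat_lit 355)) (XT.nd (nat_lit 78) (nat_lit 380) (nat_lit 0) (XT.lf (nat_lit 0) (nat_lit 5568097777) (nat_lit 304) (nat_lit 2469978730) (nat_lit 380) (nat_lit 2994041223) (nat_lit 120) (nat_lit 5) (nat_lit 124) (nat_lit 5) (nat_lit 125) (nat_lit 5) (nat_lit 461) (nat_lit 385) (nat_lit 354)) (XT.lf (nat_lit 0) (nat_lit 3035194949) (nat_lit 380) (nat_lit 4357699022) (nat_lit 76) (nat_lit 3817288535) (nat_lit 115) (nat_lit 5) (nat_lit 120) (nat_lit 5) (nat_lit 116) (nat_lit 5) (nat_lit 462) (nat_lit 385) (nat_lit 353)))) (XT.nd (nat_lit 78) (nat_lit 608) (nat_lit 0) (XT.lf (nat_lit 0) (nat_lit 8127944059) (nat_lit 304) (nat_lit 1084333835) (nat_lit 380) (nat_lit 2180769843) (nat_lit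 111) (nat_lit 5) (nat_lit 115) (nat_lit 5) (nat_lit 116) (nat_lit 5) (nat_lit 463) (nat_lit 385) (nat_lit 352)) (XT.nd (nat_lit 78) (nat_lit 228) (nat_lit 0) (XT.lf (nat_lit 0) (nat_lit 3969244116) (nat_lit 380) (nat_lit 2213313895) (nat_lit 76) (nat_lit 5397762444) (nat_lit 106) (nat_lit 5) (nat_lit 111) (nat_lit 5) (nat_lit 107) (nat_lit 5) (nat_lit 464) (nat_lit 385) (nat_lit 351)) (XT.lf (nat_lit 0) (nat_lit 10278316030) (nat_lit 304) (nat_lit 1167784400) (nat_lit 76) (nat_lit 326745626) (nat_lit 103) (nat_lit 5) (nat_lit 107) (nat_lit 5) (nat_lit 104) (nat_lit 5) (nat_lit 465) (nat_lit 385) (nat_lit 350)))))) (XT.nd (nat_lit 468) (nat_lit 1520) (nat_lit 0) (XT.nd (nat_lit 234) (nat_lit 760) (nat_lit 0) (XT.nd (nat_lit 78) (nat_lit 836) (nat_lit 0) (XT.lf (nat_lit 0) (nat_lit 4780792517) (nat_lit 380) (nat_lit 179587617) (nat_lit 76) (nat_lit 7009383570) (nat_lit 98) (nat_lit 5) (nat_lit 103) (nat_lit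 5) (nat_lit 99) (nat_lit 5) (nat_lit 466) (nat_lit 385) (nat_lit 349)) (XT.nd (nat_lit 78) (nat_lit 304) (nat_lit 0) (XT.lf (nat_lit 0) (nat_lit 809954966) (nat_lit 304) (nat_lit 10429173383) (nat_lit 380) (nat_lit 932967990) (nat_lit 91) (nat_lit 5) (nat_lit 95) (nat_lit 5) (nat_lit 96) (nat_lit 5) (nat_lit 467) (nat_lit 385) (nat_lit 348)) (XT.lf (nat_lit 0) (nat_lit 1741667029) (nat_lit 228) (nat_lit 3731038331) (nat_lit 304) (nat_lit 6906398630) (nat_lit 87) (nat_lit 5) (nat_lit 90) (nat_lit 5) (nat_lit 91) (nat_lit 5) (nat_lit 468) (nat_lit 385) (nat_lit 347)))) (XT.nd (nat_lit 78) (nat_lit 532) (nat_lit 0) (XT.lf (nat_lit 0) (nat_lit 2652260009) (nat_lit 228) (nat_lit 9427948585) (nat_lit 304) (nat_lit 511548971) (nat_lit 84) (nat_lit 5) (nat_lit 87) (nat_lit 5) (nat_lit 88) (nat_lit 5) (nat_lit 469) (nat_lit 385) (nat_lit 346)) (XT.nd (nat_lit 78) (nat_lit 228) (nat_lit 0) (XT.lf (nat_lit 0)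 (nat_lit 3500749893) (nat_lit 228) (nat_lit 2523016758) (nat_lit 304) (nat_lit 6785674732) (nat_lit 80) (nat_lit 5) (nat_lit 83) (nat_lit 5) (nat_lit 84) (nat_lit 5) (nat_lit 470) (nat_lit 385) (nat_lit 345)) (XT.lf (nat_lit 0) (nat_lit 4314838352) (nat_lit 228) (nat_lit 8468315043) (nat_lit 304) (nat_lit 249740760) (nat_lit 77) (nat_lit 5) (nat_lit 80) (nat_lit 5) (nat_lit 81) (nat_lit 5) (nat_lit 471) (nat_lit 385) (nat_lit 344))))) (XT.nd (nat_lit 234) (nat_lit 684) (nat_lit 0) (XT.nd (nat_lit 78) (nat_lit 532) (nat_lit 0) (XT.lf (nat_lit 0) (nat_lit 5065052043) (nat_lit 228) (nat_lit 1355820285) (nat_lit 304) (nat_lit 6840869136) (nat_lit 73) (nat_lit 5) (nat_lit 76) (nat_lit 5) (nat_lit 77) (nat_lit 5) (nat_lit 472) (nat_lit 385) (nat_lit 343)) (XT.nd (nat_lit 78) (nat_lit 304) (nat_lit 0) (XT.lf (nat_lit 0) (nat_lit 5765971297) (nat_lit 228) (nat_lit 7569493050) (nat_lit 304) (nat_lit 161016653)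 (nat_lit 70) (nat_lit 5) (nat_lit 73) (nat_lit 5) (nat_lit 74) (nat_lit 5) (nat_lit 473) (nat_lit 385) (nat_lit 342)) (XT.lf (nat_lit 0) (nat_lit 6401232872) (nat_lit 228) (nat_lit 248997627) (nat_lit 304) (nat_lit 7086781908) (nat_lit 66) (nat_lit 5) (nat_lit 69) (nat_lit 5) (nat_lit 70) (nat_lit 5) (nat_lit 474) (nat_lit 385) (nat_lit 341)))) (XT.nd (nat_lit 78) (nat_lit 456) (nat_lit 0) (XT.lf (nat_lit 0) (nat_lit 6970636399) (nat_lit 228) (nat_lit 6752074314) (nat_lit 304) (nat_lit 260850617) (nat_lit 63) (nat_lit 5) (nat_lit 66) (nat_lit 5) (nat_lit 67) (nat_lit 5) (nat_lit 475) (nat_lit 385) (nat_lit 340)) (XT.nd (nat_lit 78) (nat_lit 228) (nat_lit 0) (XT.lf (nat_lit 0) (nat_lit 6701056872) (nat_lit 228) (nat_lit 6768916054) (nat_lit 76) (nat_lit 766259289) (nat_lit 60) (nat_lit 5) (nat_lit 63) (nat_lit 5) (nat_lit 61) (nat_lit 5) (nat_lit 476) (nat_lit 385) (nat_lit 339)) (XT.lf (nat_lit 0)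 (nat_lit 7890114389) (nat_lit 228) (nat_lit 6038241452) (nat_lit 304) (nat_lit 566895517) (nat_lit 57) (nat_lit 5) (nat_lit 60) (nat_lit 5) (nat_lit 61) (nat_lit 5) (nat_lit 477) (nat_lit 385) (nat_lit 338))))))) (XT.nd (nat_lit 58656) (nat_lit 0) (nat_lit 18620) (XT.nd (nat_lit 468) (nat_lit 988) (nat_lit 0) (XT.nd (nat_lit 234) (nat_lit 608) (nat_lit 0) (XT.nd (nat_lit 78) (nat_lit 456) (nat_lit 0) (XT.lf (nat_lit 0) (nat_lit 6551207875) (nat_lit 228) (nat_lit 6533892946) (nat_lit 76) (nat_lit 1675536405) (nat_lit 54) (nat_lit 5) (nat_lit 57) (nat_lit 5) (nat_lit 55) (nat_lit 5) (nat_lit 478) (nat_lit 385) (nat_lit 337)) (XT.nd (nat_lit 78) (nat_lit 228) (nat_lit 0) (XT.lf (nat_lit 0) (nat_lit 8481557343) (nat_lit 228) (nat_lit 5452005388) (nat_lit 304) (nat_lit 1099182654) (nat_lit 51) (nat_lit 5) (nat_lit 54) (nat_lit 5) (nat_lit 55) (nat_lit 5) (nat_lit 479) (nat_lit 385) (nat_lit 336)) (XT.lf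 (nat_lit 0) (nat_lit 6178439729) (nat_lit 228) (nat_lit 6675267316) (nat_lit 76) (nat_lit 2457791124) (nat_lit 48) (nat_lit 5) (nat_lit 51) (nat_lit 5) (nat_lit 49) (nat_lit 5) (nat_lit 480) (nat_lit 385) (nat_lit 335)))) (XT.nd (nat_lit 78) (nat_lit 380) (nat_lit 0) (XT.lf (nat_lit 0) (nat_lit 8697513850) (nat_lit 228) (nat_lit 5019462911) (nat_lit 304) (nat_lit 1880344643) (nat_lit 45) (nat_lit 5) (nat_lit 48) (nat_lit 5) (nat_lit 49) (nat_lit 5) (nat_lit 481) (nat_lit 385) (nat_lit 334)) (XT.nd (nat_lit 78) (nat_lit 152) (nat_lit 0) (XT.lf (nat_lit 0) (nat_lit 5559457082) (nat_lit 228) (nat_lit 7244142114) (nat_lit 76) (nat_lit 3086541271) (nat_lit 42) (nat_lit 5) (nat_lit 45) (nat_lit 5) (nat_lit 43) (nat_lit 5) (nat_lit 482) (nat_lit 385) (nat_lit 333)) (XT.lf (nat_lit 0) (nat_lit 8485406508) (nat_lit 152) (nat_lit 4769076894) (nat_lit 228) (nat_lit 2935863876) (nat_lit 40) (nat_lit 5) (nat_lit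 42) (nat_lit 5) (nat_lit 43) (nat_lit 5) (nat_lit 483) (nat_lit 385) (nat_lit 332))))) (XT.nd (nat_lit 234) (nat_lit 380) (nat_lit 0) (XT.nd (nat_lit 78) (nat_lit 380) (nat_lit 0) (XT.lf (nat_lit 0) (nat_lit 4668038179) (nat_lit 228) (nat_lit 8297102382) (nat_lit 76) (nat_lit 3532842506) (nat_lit 37) (nat_lit 5) (nat_lit 40) (nat_lit 5) (nat_lit 38) (nat_lit 5) (nat_lit 484) (nat_lit 385) (nat_lit 331)) (XT.nd (nat_lit 78) (nat_lit 228) (nat_lit 0) (XT.lf (nat_lit 0) (nat_lit 7786956586) (nat_lit 152) (nat_lit 4731981847) (nat_lit 228) (nat_lit 4294349065) (nat_lit 35) (nat_lit 5) (nat_lit 37) (nat_lit 5) (nat_lit 38) (nat_lit 5) (nat_lit 485) (nat_lit 385) (nat_lit 330)) (XT.lf (nat_lit 0) (nat_lit 3474747677) (nat_lit 228) (nat_lit 9896824205) (nat_lit 76) (nat_lit 3764973688) (nat_lit 32) (nat_lit 5) (nat_lit 35) (nat_lit 5) (nat_lit 33) (nat_lit 5) (nat_lit 486) (nat_lit 385) (nat_lit 329)))) (XT.nd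 (nat_lit 78) (nat_lit 228) (nat_lit 0) (XT.lf (nat_lit 0) (nat_lit 6537550197) (nat_lit 152) (nat_lit 4942317790) (nat_lit 228) (nat_lit 5987842622) (nat_lit 30) (nat_lit 5) (nat_lit 32) (nat_lit 5) (nat_lit 33) (nat_lit 5) (nat_lit 487) (nat_lit 385) (nat_lit 328)) (XT.nd (nat_lit 57798) (nat_lit 0) (nat_lit 29640) (XT.lf (nat_lit 0) (nat_lit 1946617594) (nat_lit 228) (nat_lit 12112745681) (nat_lit 76) (nat_lit 3748092778) (nat_lit 27) (nat_lit 5) (nat_lit 30) (nat_lit 5) (nat_lit 28) (nat_lit 5) (nat_lit 488) (nat_lit 385) (nat_lit 327)) (XT.lf (nat_lit 0) (nat_lit 912361774) (nat_lit 988) (nat_lit 1818628728) (nat_lit 0) (nat_lit 912361774) (nat_lit 417) (nat_lit 5) (nat_lit 430) (nat_lit 4) (nat_lit 417) (nat_lit 4) (nat_lit 428) (nat_lit 386) (nat_lit 386)))))) (XT.nd (nat_lit 468) (nat_lit 5016) (nat_lit 0) (XT.nd (nat_lit 234) (nat_lit 3268) (nat_lit 0) (XT.nd (nat_lit 78) (nat_lit 1824) (nat_lit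 0) (XT.lf (nat_lit 0) (nat_lit 4654015736) (nat_lit 912) (nat_lit 2528309466) (nat_lit 912) (nat_lit 166809136) (nat_lit 405) (nat_lit 4) (nat_lit 417) (nat_lit 5) (nat_lit 417) (nat_lit 4) (nat_lit 429) (nat_lit 386) (nat_lit 385)) (XT.nd (nat_lit 78) (nat_lit 912) (nat_lit 0) (XT.lf (nat_lit 0) (nat_lit 5132520033) (nat_lit 912) (nat_lit 1712405183) (nat_lit 0) (nat_lit 569560133) (nat_lit 393) (nat_lit 5) (nat_lit 405) (nat_lit 4) (nat_lit 393) (nat_lit 4) (nat_lit 430) (nat_lit 386) (nat_lit 384)) (XT.lf (nat_lit 0) (nat_lit 2997383171) (nat_lit 912) (nat_lit 690540550) (nat_lit 76) (nat_lit 3794847319) (nat_lit 381) (nat_lit 5) (nat_lit 393) (nat_lit 5) (nat_lit 382) (nat_lit 4) (nat_lit 431) (nat_lit 386) (nat_lit 383)))) (XT.nd (nat_lit 78) (nat_lit 1596) (nat_lit 0) (XT.lf (nat_lit 0) (nat_lit 392364786) (nat_lit 836) (nat_lit 367754285) (nat_lit 912) (nat_lit 6794199623) (nat_lit 359) (nat_lit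 5) (nat_lit 370) (nat_lit 5) (nat_lit 371) (nat_lit 5) (nat_lit 432) (nat_lit 386) (nat_lit 382)) (XT.nd (nat_lit 78) (nat_lit 836) (nat_lit 0) (XT.lf (nat_lit 0) (nat_lit 1510331822) (nat_lit 760) (nat_lit 4537788790) (nat_lit 836) (nat_lit 1580402279) (nat_lit 349) (nat_lit 5) (nat_lit 359) (nat_lit 5) (nat_lit 360) (nat_lit 4) (nat_lit 433) (nat_lit 386) (nat_lit 381)) (XT.lf (nat_lit 0) (nat_lit 2676392353) (nat_lit 760) (nat_lit 990113454) (nat_lit 836) (nat_lit 4039450542) (nat_lit 338) (nat_lit 5) (nat_lit 348) (nat_lit 5) (nat_lit 349) (nat_lit 5) (nat_lit 434) (nat_lit 386) (nat_lit 380))))) (XT.nd (nat_lit 234) (nat_lit 2736) (nat_lit 0) (XT.nd (nat_lit 78) (nat_lit 1520) (nat_lit 0) (XT.lf (nat_lit 0) (nat_lit 1191893979) (nat_lit 760) (nat_lit 3906001545) (nat_lit 76) (nat_lit 2688573919) (nat_lit 328) (nat_lit 5) (nat_lit 338) (nat_lit 5) (nat_lit 329) (nat_lit 5) (nat_lit 435) (nat_lit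 386) (nat_lit 379)) (XT.nd (nat_lit 78) (nat_lit 760) (nat_lit 0) (XT.lf (nat_lit 0) (nat_lit 5124084394) (nat_lit 760) (nat_lit 1338397834) (nat_lit 836) (nat_lit 1407659518) (nat_lit 318) (nat_lit 5) (nat_lit 328) (nat_lit 5) (nat_lit 329) (nat_lit 5) (nat_lit 436) (nat_lit 386) (nat_lit 378)) (XT.lf (nat_lit 0) (nat_lit 3833116731) (nat_lit 760) (nat_lit 1559187262) (nat_lit 76) (nat_lit 2564532553) (nat_lit 308) (nat_lit 5) (nat_lit 318) (nat_lit 5) (nat_lit 309) (nat_lit 5) (nat_lit 437) (nat_lit 386) (nat_lit 377)))) (XT.nd (nat_lit 78) (nat_lit 1976) (nat_lit 0) (XT.lf (nat_lit 0) (nat_lit 1095683372) (nat_lit 760) (nat_lit 330017487) (nat_lit 76) (nat_lit 6621214693) (nat_lit 298) (nat_lit 5) (nat_lit 308) (nat_lit 5) (nat_lit 299) (nat_lit 5) (nat_lit 438) (nat_lit 386) (nat_lit 376)) (XT.nd (nat_lit 78) (nat_lit 684) (nat_lit 0) (XT.lf (nat_lit 0) (nat_lit 933597486) (nat_lit 684) (nat_lit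 5444996014) (nat_lit 760) (nat_lit 1761318188) (nat_lit 281) (nat_lit 5) (nat_lit 290) (nat_lit 5) (nat_lit 291) (nat_lit 5) (nat_lit 439) (nat_lit 386) (nat_lit 375)) (XT.lf (nat_lit 0) (nat_lit 2235586453) (nat_lit 608) (nat_lit 1255048195) (nat_lit 684) (nat_lit 4745548632) (nat_lit 272) (nat_lit 5) (nat_lit 280) (nat_lit 5) (nat_lit 281) (nat_lit 5) (nat_lit 440) (nat_lit 386) (nat_lit 374))))))))
noncomputable def xc20 : XT := (XT.nd (nat_lit 1794) (nat_lit 5776) (nat_lit 0) (XT.nd (nat_lit 858) (nat_lit 5472) (nat_lit 0) (XT.nd (nat_lit 390) (nat_lit 3192) (nat_lit 0) (XT.nd (nat_lit 156) (nat_lit 2356) (nat_lit 0) (XT.nd (nat_lit 78) (nat_lit 532) (nat_lit 0) (XT.lf (nat_lit 0) (nat_lit 498437326) (nat_lit 684) (nat_lit 4767540339) (nat_lit 76) (nat_lit 3069790830) (nat_lit 263) (nat_lit 5) (nat_lit 272) (nat_lit 5) (nat_lit 264) (nat_lit 5) (nat_lit 441) (nat_lit 386) (nat_lit 373)) (XT.lf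 (nat_lit 0) (nat_lit 4925656899) (nat_lit 532) (nat_lit 865410014) (nat_lit 608) (nat_lit 2647547682) (nat_lit 256) (nat_lit 5) (nat_lit 263) (nat_lit 5) (nat_lit 264) (nat_lit 5) (nat_lit 442) (nat_lit 386) (nat_lit 372))) (XT.nd (nat_lit 78) (nat_lit 1672) (nat_lit 0) (XT.lf (nat_lit 0) (nat_lit 2636195175) (nat_lit 684) (nat_lit 2239287318) (nat_lit 76) (nat_lit 3669256094) (nat_lit 247) (nat_lit 5) (nat_lit 256) (nat_lit 5) (nat_lit 248) (nat_lit 5) (nat_lit 443) (nat_lit 386) (nat_lit 371)) (XT.nd (nat_lit 78) (nat_lit 1140) (nat_lit 0) (XT.lf (nat_lit 0) (nat_lit 7724889580) (nat_lit 532) (nat_lit 275872137) (nat_lit 608) (nat_lit 653784327) (nat_lit 240) (nat_lit 5) (nat_lit 247) (nat_lit 5) (nat_lit 248) (nat_lit 5) (nat_lit 444) (nat_lit 386) (nat_lit 370)) (XT.lf (nat_lit 0) (nat_lit 383725621) (nat_lit 532) (nat_lit 4299060705) (nat_lit 608) (nat_lit 4084526533) (nat_lit 225) (nat_lit 5)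 (nat_lit 232) (nat_lit 5) (nat_lit 233) (nat_lit 5) (nat_lit 445) (nat_lit 386) (nat_lit 369))))) (XT.nd (nat_lit 234) (nat_lit 1520) (nat_lit 0) (XT.nd (nat_lit 78) (nat_lit 1064) (nat_lit 0) (XT.lf (nat_lit 0) (nat_lit 1238900345) (nat_lit 608) (nat_lit 7134300934) (nat_lit 76) (nat_lit 510650021) (nat_lit 217) (nat_lit 5) (nat_lit 225) (nat_lit 5) (nat_lit 218) (nat_lit 5) (nat_lit 446) (nat_lit 386) (nat_lit 368)) (XT.nd (nat_lit 78) (nat_lit 608) (nat_lit 0) (XT.lf (nat_lit 0) (nat_lit 3115962007) (nat_lit 456) (nat_lit 3539303076) (nat_lit 532) (nat_lit 2348319806) (nat_lit 211) (nat_lit 5) (nat_lit 217) (nat_lit 5) (nat_lit 218) (nat_lit 5) (nat_lit 447) (nat_lit 386) (nat_lit 367)) (XT.lf (nat_lit 0) (nat_lit 3037961599) (nat_lit 608) (nat_lit 4618745821) (nat_lit 76) (nat_lit 1470382398) (nat_lit 203) (nat_lit 5) (nat_lit 211) (nat_lit 5) (nat_lit 204) (nat_lit 5) (nat_lit 448) (nat_lit 386)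 (nat_lit 366)))) (XT.nd (nat_lit 78) (nat_lit 1064) (nat_lit 0) (XT.lf (nat_lit 0) (nat_lit 5915958337) (nat_lit 456) (nat_lit 2626222273) (nat_lit 532) (nat_lit 712056264) (nat_lit 197) (nat_lit 5) (nat_lit 203) (nat_lit 5) (nat_lit 204) (nat_lit 5) (nat_lit 449) (nat_lit 386) (nat_lit 365)) (XT.nd (nat_lit 78) (nat_lit 532) (nat_lit 0) (XT.lf (nat_lit 0) (nat_lit 4746566966) (nat_lit 532) (nat_lit 2056184655) (nat_lit 76) (nat_lit 2582161157) (nat_lit 190) (nat_lit 5) (nat_lit 197) (nat_lit 5) (nat_lit 191) (nat_lit 5) (nat_lit 450) (nat_lit 386) (nat_lit 364)) (XT.lf (nat_lit 0) (nat_lit 815335254) (nat_lit 532) (nat_lit 753433988) (nat_lit 76) (nat_lit 7950818044) (nat_lit 183) (nat_lit 5) (nat_lit 190) (nat_lit 5) (nat_lit 184) (nat_lit 5) (nat_lit 451) (nat_lit 386) (nat_lit 363)))))) (XT.nd (nat_lit 468) (nat_lit 2432) (nat_lit 0) (XT.nd (nat_lit 234) (nat_lit 1292) (nat_lit 0) (XT.nd (nat_lit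 78) (nat_lit 912) (nat_lit 0) (XT.lf (nat_lit 0) (nat_lit 547827275) (nat_lit 380) (nat_lit 5822020054) (nat_lit 456) (nat_lit 3287847755) (nat_lit 172) (nat_lit 5) (nat_lit 177) (nat_lit 5) (nat_lit 178) (nat_lit 5) (nat_lit 452) (nat_lit 386) (nat_lit 362)) (XT.nd (nat_lit 78) (nat_lit 380) (nat_lit 0) (XT.lf (nat_lit 0) (nat_lit 1879853420) (nat_lit 456) (nat_lit 369880169) (nat_lit 532) (nat_lit 7550150843) (nat_lit 165) (nat_lit 5) (nat_lit 171) (nat_lit 5) (nat_lit 172) (nat_lit 5) (nat_lit 453) (nat_lit 386) (nat_lit 361)) (XT.lf (nat_lit 0) (nat_lit 3200327184) (nat_lit 380) (nat_lit 4718170513) (nat_lit 456) (nat_lit 2027222783) (nat_lit 160) (nat_lit 5) (nat_lit 165) (nat_lit 5) (nat_lit 166) (nat_lit 5) (nat_lit 454) (nat_lit 386) (nat_lit 360)))) (XT.nd (nat_lit 78) (nat_lit 836) (nat_lit 0) (XT.lf (nat_lit 0) (nat_lit 3599335341) (nat_lit 456) (nat_lit 5564047367) (nat_lit 76) (nat_lit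 932363886) (nat_lit 154) (nat_lit 5) (nat_lit 160) (nat_lit 5) (nat_lit 155) (nat_lit 5) (nat_lit 455) (nat_lit 386) (nat_lit 359)) (XT.nd (nat_lit 78) (nat_lit 456) (nat_lit 0) (XT.lf (nat_lit 0) (nat_lit 5859621966) (nat_lit 380) (nat_lit 3518846164) (nat_lit 456) (nat_lit 871320352) (nat_lit 149) (nat_lit 5) (nat_lit 154) (nat_lit 5) (nat_lit 155) (nat_lit 5) (nat_lit 456) (nat_lit 386) (nat_lit 358)) (XT.lf (nat_lit 0) (nat_lit 4854812748) (nat_lit 456) (nat_lit 3227504099) (nat_lit 76) (nat_lit 2325567527) (nat_lit 143) (nat_lit 5) (nat_lit 149) (nat_lit 5) (nat_lit 144) (nat_lit 5) (nat_lit 457) (nat_lit 386) (nat_lit 357))))) (XT.nd (nat_lit 234) (nat_lit 988) (nat_lit 0) (XT.nd (nat_lit 78) (nat_lit 1064) (nat_lit 0) (XT.lf (nat_lit 0) (nat_lit 175374176) (nat_lit 380) (nat_lit 2061259108) (nat_lit 76) (nat_lit 8333814593) (nat_lit 138) (nat_lit 5) (nat_lit 143) (nat_lit 5) (nat_lit 139) (nat_lit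 5) (nat_lit 458) (nat_lit 386) (nat_lit 356)) (XT.nd (nat_lit 78) (nat_lit 684) (nat_lit 0) (XT.lf (nat_lit 0) (nat_lit 6011309061) (nat_lit 456) (nat_lit 924443627) (nat_lit 76) (nat_lit 3801188138) (nat_lit 133) (nat_lit 5) (nat_lit 139) (nat_lit 5) (nat_lit 134) (nat_lit 5) (nat_lit 459) (nat_lit 386) (nat_lit 355)) (XT.lf (nat_lit 0) (nat_lit 223346695) (nat_lit 304) (nat_lit 880003716) (nat_lit 380) (nat_lit 9804860052) (nat_lit 124) (nat_lit 5) (nat_lit 128) (nat_lit 5) (nat_lit 129) (nat_lit 5) (nat_lit 460) (nat_lit 386) (nat_lit 354)))) (XT.nd (nat_lit 78) (nat_lit 684) (nat_lit 0) (XT.lf (nat_lit 0) (nat_lit 1345031634) (nat_lit 304) (nat_lit 5728917234) (nat_lit 380) (nat_lit 4009433230) (nat_lit 120) (nat_lit 5) (nat_lit 124) (nat_lit 5) (nat_lit 125) (nat_lit 5) (nat_lit 461) (nat_lit 386) (nat_lit 353)) (XT.nd (nat_lit 78) (nat_lit 304) (nat_lit 0) (XT.lf (nat_lit 0) (nat_lit 1934813642)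 (nat_lit 380) (nat_lit 8792670443) (nat_lit 76) (nat_lit 536064346) (nat_lit 115) (nat_lit 5) (nat_lit 120) (nat_lit 5) (nat_lit 116) (nat_lit 5) (nat_lit 462) (nat_lit 386) (nat_lit 352)) (XT.lf (nat_lit 0) (nat_lit 3555382725) (nat_lit 304) (nat_lit 4479407960) (nat_lit 380) (nat_lit 3413168569) (nat_lit 111) (nat_lit 5) (nat_lit 115) (nat_lit 5) (nat_lit 116) (nat_lit 5) (nat_lit 463) (nat_lit 386) (nat_lit 351))))))) (XT.nd (nat_lit 858) (nat_lit 2584) (nat_lit 0) (XT.nd (nat_lit 390) (nat_lit 1596) (nat_lit 0) (XT.nd (nat_lit 156) (nat_lit 988) (nat_lit 0) (XT.nd (nat_lit 78) (nat_lit 228) (nat_lit 0) (XT.lf (nat_lit 0) (nat_lit 2652770408) (nat_lit 380) (nat_lit 7006318443) (nat_lit 76) (nat_lit 1978311221) (nat_lit 106) (nat_lit 5) (nat_lit 111) (nat_lit 5) (nat_lit 107) (nat_lit 5) (nat_lit 464) (nat_lit 386) (nat_lit 350)) (XT.lf (nat_lit 0) (nat_lit 5673070176) (nat_lit 228) (nat_lit 3208421921)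 (nat_lit 304) (nat_lit 2950043791) (nat_lit 103) (nat_lit 5) (nat_lit 106) (nat_lit 5) (nat_lit 107) (nat_lit 5) (nat_lit 465) (nat_lit 386) (nat_lit 349))) (XT.nd (nat_lit 78) (nat_lit 608) (nat_lit 0) (XT.lf (nat_lit 0) (nat_lit 3244176012) (nat_lit 380) (nat_lit 5343009175) (nat_lit 76) (nat_lit 3443464249) (nat_lit 98) (nat_lit 5) (nat_lit 103) (nat_lit 5) (nat_lit 99) (nat_lit 5) (nat_lit 466) (nat_lit 386) (nat_lit 348)) (XT.nd (nat_lit 78) (nat_lit 380) (nat_lit 0) (XT.lf (nat_lit 0) (nat_lit 7674843148) (nat_lit 228) (nat_lit 1931551434) (nat_lit 304) (nat_lit 2628512800) (nat_lit 95) (nat_lit 5) (nat_lit 98) (nat_lit 5) (nat_lit 99) (nat_lit 5) (nat_lit 467) (nat_lit 386) (nat_lit 347)) (XT.lf (nat_lit 0) (nat_lit 3700231101) (nat_lit 380) (nat_lit 3827833325) (nat_lit 76) (nat_lit 4916056940) (nat_lit 90) (nat_lit 5) (nat_lit 95) (nat_lit 5) (nat_lit 91) (nat_lit 5) (nat_lit 468) (nat_lit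 386) (nat_lit 346))))) (XT.nd (nat_lit 234) (nat_lit 836) (nat_lit 0) (XT.nd (nat_lit 78) (nat_lit 532) (nat_lit 0) (XT.lf (nat_lit 0) (nat_lit 9535186068) (nat_lit 228) (nat_lit 665151234) (nat_lit 304) (nat_lit 2458588322) (nat_lit 87) (nat_lit 5) (nat_lit 90) (nat_lit 5) (nat_lit 91) (nat_lit 5) (nat_lit 469) (nat_lit 386) (nat_lit 345)) (XT.nd (nat_lit 78) (nat_lit 228) (nat_lit 0) (XT.lf (nat_lit 0) (nat_lit 4010555240) (nat_lit 304) (nat_lit 2488339624) (nat_lit 76) (nat_lit 6379804174) (nat_lit 83) (nat_lit 5) (nat_lit 87) (nat_lit 5) (nat_lit 84) (nat_lit 5) (nat_lit 470) (nat_lit 386) (nat_lit 344)) (XT.lf (nat_lit 0) (nat_lit 10656261720) (nat_lit 304) (nat_lit 1882199966) (nat_lit 76) (nat_lit 565966262) (nat_lit 80) (nat_lit 5) (nat_lit 84) (nat_lit 5) (nat_lit 81) (nat_lit 5) (nat_lit 471) (nat_lit 386) (nat_lit 343)))) (XT.nd (nat_lit 78) (nat_lit 532) (nat_lit 0) (XT.lf (nat_lit 0) (nat_lit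 4163058813) (nat_lit 304) (nat_lit 1354843572) (nat_lit 76) (nat_lit 7817425172) (nat_lit 76) (nat_lit 5) (nat_lit 80) (nat_lit 5) (nat_lit 77) (nat_lit 5) (nat_lit 472) (nat_lit 386) (nat_lit 342)) (XT.nd (nat_lit 78) (nat_lit 304) (nat_lit 0) (XT.lf (nat_lit 0) (nat_lit 10961925403) (nat_lit 304) (nat_lit 867667086) (nat_lit 76) (nat_lit 1742791454) (nat_lit 73) (nat_lit 5) (nat_lit 77) (nat_lit 5) (nat_lit 74) (nat_lit 5) (nat_lit 473) (nat_lit 386) (nat_lit 341)) (XT.lf (nat_lit 0) (nat_lit 4143798370) (nat_lit 304) (nat_lit 460765562) (nat_lit 76) (nat_lit 9210454017) (nat_lit 69) (nat_lit 5) (nat_lit 73) (nat_lit 5) (nat_lit 70) (nat_lit 5) (nat_lit 474) (nat_lit 386) (nat_lit 340)))))) (XT.nd (nat_lit 468) (nat_lit 988) (nat_lit 0) (XT.nd (nat_lit 234) (nat_lit 684) (nat_lit 0) (XT.nd (nat_lit 78) (nat_lit 684) (nat_lit 0) (XT.lf (nat_lit 0) (nat_lit 11098436281) (nat_lit 304) (nat_lit 110917107)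 (nat_lit 76) (nat_lit 2854572494) (nat_lit 66) (nat_lit 5) (nat_lit 70) (nat_lit 5) (nat_lit 67) (nat_lit 5) (nat_lit 475) (nat_lit 386) (nat_lit 339)) (XT.nd (nat_lit 78) (nat_lit 228) (nat_lit 0) (XT.lf (nat_lit 0) (nat_lit 159084706) (nat_lit 152) (nat_lit 3778762096) (nat_lit 228) (nat_lit 10380984089) (nat_lit 60) (nat_lit 5) (nat_lit 62) (nat_lit 5) (nat_lit 63) (nat_lit 5) (nat_lit 476) (nat_lit 386) (nat_lit 338)) (XT.lf (nat_lit 0) (nat_lit 353920431) (nat_lit 228) (nat_lit 10697510300) (nat_lit 304) (nat_lit 3528695604) (nat_lit 57) (nat_lit 5) (nat_lit 60) (nat_lit 5) (nat_lit 61) (nat_lit 5) (nat_lit 477) (nat_lit 386) (nat_lit 337)))) (XT.nd (nat_lit 78) (nat_lit 456) (nat_lit 0) (XT.lf (nat_lit 0) (nat_lit 463751097) (nat_lit 152) (nat_lit 3063206375) (nat_lit 228) (nat_lit 11320967130) (nat_lit 54) (nat_lit 5) (nat_lit 56) (nat_lit 5) (nat_lit 57) (nat_lit 5) (nat_lit 478) (nat_lit 386)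 (nat_lit 336)) (XT.nd (nat_lit 78) (nat_lit 228) (nat_lit 0) (XT.lf (nat_lit 0) (nat_lit 476292536) (nat_lit 228) (nat_lit 10321872921) (nat_lit 304) (nat_lit 4324092088) (nat_lit 51) (nat_lit 5) (nat_lit 54) (nat_lit 5) (nat_lit 55) (nat_lit 5) (nat_lit 479) (nat_lit 386) (nat_lit 335)) (XT.lf (nat_lit 0) (nat_lit 401401301) (nat_lit 152) (nat_lit 2485839013) (nat_lit 228) (nat_lit 12516362245) (nat_lit 48) (nat_lit 5) (nat_lit 50) (nat_lit 5) (nat_lit 51) (nat_lit 5) (nat_lit 480) (nat_lit 386) (nat_lit 334))))) (XT.nd (nat_lit 234) (nat_lit 532) (nat_lit 0) (XT.nd (nat_lit 78) (nat_lit 228) (nat_lit 0) (XT.lf (nat_lit 0) (nat_lit 206647752) (nat_lit 228) (nat_lit 10109513235) (nat_lit 304) (nat_lit 5375458842) (nat_lit 45) (nat_lit 5) (nat_lit 48) (nat_lit 5) (nat_lit 49) (nat_lit 5) (nat_lit 481) (nat_lit 386) (nat_lit 333)) (XT.nd (nat_lit 78) (nat_lit 152) (nat_lit 0) (XT.lf (nat_lit 0) (nat_lit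 1995684341) (nat_lit 304) (nat_lit 77530156) (nat_lit 76) (nat_lit 13913969824) (nat_lit 44) (nat_lit 5) (nat_lit 48) (nat_lit 5) (nat_lit 45) (nat_lit 5) (nat_lit 482) (nat_lit 386) (nat_lit 332)) (XT.lf (nat_lit 0) (nat_lit 9584198650) (nat_lit 228) (nat_lit 501581980) (nat_lit 76) (nat_lit 6203742320) (nat_lit 42) (nat_lit 5) (nat_lit 45) (nat_lit 5) (nat_lit 43) (nat_lit 5) (nat_lit 483) (nat_lit 386) (nat_lit 331)))) (XT.nd (nat_lit 78) (nat_lit 304) (nat_lit 0) (XT.lf (nat_lit 0) (nat_lit 831020339) (nat_lit 228) (nat_lit 1018628949) (nat_lit 76) (nat_lit 14750340322) (nat_lit 39) (nat_lit 5) (nat_lit 42) (nat_lit 5) (nat_lit 40) (nat_lit 5) (nat_lit 484) (nat_lit 386) (nat_lit 330)) (XT.nd (nat_lit 78) (nat_lit 152) (nat_lit 0) (XT.lf (nat_lit 0) (nat_lit 8576036016) (nat_lit 228) (nat_lit 1704705612) (nat_lit 76) (nat_lit 6636671561) (nat_lit 37) (nat_lit 5) (nat_lit 40) (nat_lit 5) (nat_lit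 38) (nat_lit 5) (nat_lit 485) (nat_lit 386) (nat_lit 329)) (XT.lf (nat_lit 0) (nat_lit 14750883000) (nat_lit 152) (nat_lit 1845531652) (nat_lit 228) (nat_lit 647087448) (nat_lit 35) (nat_lit 5) (nat_lit 37) (nat_lit 5) (nat_lit 38) (nat_lit 5) (nat_lit 486) (nat_lit 386) (nat_lit 328))))))))
noncomputable def xc21 : XT := (XT.nd (nat_lit 59358) (nat_lit 0) (nat_lit 4028) (XT.nd (nat_lit 58422) (nat_lit 0) (nat_lit 14744) (XT.nd (nat_lit 57954) (nat_lit 0) (nat_lit 23408) (XT.nd (nat_lit 57720) (nat_lit 0) (nat_lit 29412) (XT.nd (nat_lit 78) (nat_lit 152) (nat_lit 0) (XT.lf (nat_lit 0) (nat_lit 7259857421) (nat_lit 228) (nat_lit 3469909967) (nat_lit 76) (nat_lit 6847118368) (nat_lit 32) (nat_lit 5) (nat_lit 35) (nat_lit 5) (nat_lit 33) (nat_lit 5) (nat_lit 487) (nat_lit 386) (nat_lit 327)) (XT.lf (nat_lit 0) (nat_lit 13348409692) (nat_lit 152) (nat_lit 2092459154) (nat_lit 228) (nat_lit 2478406193)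 (nat_lit 30) (nat_lit 5) (nat_lit 32) (nat_lit 5) (nat_lit 33) (nat_lit 5) (nat_lit 488) (nat_lit 386) (nat_lit 326))) (XT.nd (nat_lit 78) (nat_lit 1976) (nat_lit 0) (XT.lf (nat_lit 0) (nat_lit 470423982) (nat_lit 1748) (nat_lit 2643931082) (nat_lit 0) (nat_lit 470423982) (nat_lit 443) (nat_lit 5) (nat_lit 466) (nat_lit 4) (nat_lit 443) (nat_lit 4) (nat_lit 426) (nat_lit 387) (nat_lit 387)) (XT.nd (nat_lit 78) (nat_lit 988) (nat_lit 0) (XT.lf (nat_lit 0) (nat_lit 2696926646) (nat_lit 988) (nat_lit 3505694774) (nat_lit 988) (nat_lit 1024702527) (nat_lit 430) (nat_lit 4) (nat_lit 443) (nat_lit 5) (nat_lit 443) (nat_lit 4) (nat_lit 427) (nat_lit 387) (nat_lit 386)) (XT.lf (nat_lit 0) (nat_lit 3565104944) (nat_lit 912) (nat_lit 620453238) (nat_lit 988) (nat_lit 3102590971) (nat_lit 417) (nat_lit 5) (nat_lit 429) (nat_lit 5) (nat_lit 430) (nat_lit 4) (nat_lit 428) (nat_lit 387) (nat_lit 385))))) (XT.nd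 (nat_lit 234) (nat_lit 3268) (nat_lit 0) (XT.nd (nat_lit 78) (nat_lit 1748) (nat_lit 0) (XT.lf (nat_lit 0) (nat_lit 2084864207) (nat_lit 988) (nat_lit 2875138740) (nat_lit 76) (nat_lit 2391884180) (nat_lit 404) (nat_lit 5) (nat_lit 417) (nat_lit 5) (nat_lit 405) (nat_lit 4) (nat_lit 429) (nat_lit 387) (nat_lit 384)) (XT.nd (nat_lit 78) (nat_lit 912) (nat_lit 0) (XT.lf (nat_lit 0) (nat_lit 5442279565) (nat_lit 836) (nat_lit 1862069224) (nat_lit 912) (nat_lit 114434118) (nat_lit 393) (nat_lit 5) (nat_lit 404) (nat_lit 5) (nat_lit 405) (nat_lit 4) (nat_lit 430) (nat_lit 387) (nat_lit 383)) (XT.lf (nat_lit 0) (nat_lit 5050996321) (nat_lit 912) (nat_lit 1045626960) (nat_lit 76) (nat_lit 1391886320) (nat_lit 381) (nat_lit 5) (nat_lit 393) (nat_lit 5) (nat_lit 382) (nat_lit 4) (nat_lit 431) (nat_lit 387) (nat_lit 382)))) (XT.nd (nat_lit 78) (nat_lit 2432) (nat_lit 0) (XT.lf (nat_lit 0) (nat_lit 2705676860)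 (nat_lit 836) (nat_lit 72459684) (nat_lit 76) (nat_lit 4783176001) (nat_lit 370) (nat_lit 5) (nat_lit 381) (nat_lit 5) (nat_lit 371) (nat_lit 5) (nat_lit 432) (nat_lit 387) (nat_lit 381)) (XT.nd (nat_lit 78) (nat_lit 760) (nat_lit 0) (XT.lf (nat_lit 0) (nat_lit 264107575) (nat_lit 836) (nat_lit 6673816673) (nat_lit 76) (nat_lit 699344584) (nat_lit 348) (nat_lit 5) (nat_lit 359) (nat_lit 5) (nat_lit 349) (nat_lit 5) (nat_lit 433) (nat_lit 387) (nat_lit 380)) (XT.lf (nat_lit 0) (nat_lit 2021491983) (nat_lit 760) (nat_lit 3396493072) (nat_lit 836) (nat_lit 2297969212) (nat_lit 338) (nat_lit 5) (nat_lit 348) (nat_lit 5) (nat_lit 349) (nat_lit 5) (nat_lit 434) (nat_lit 387) (nat_lit 379)))))) (XT.nd (nat_lit 468) (nat_lit 3648) (nat_lit 0) (XT.nd (nat_lit 234) (nat_lit 2736) (nat_lit 0) (XT.nd (nat_lit 78) (nat_lit 1520) (nat_lit 0) (XT.lf (nat_lit 0) (nat_lit 2822859563) (nat_lit 760) (nat_lit 4667834169)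 (nat_lit 76) (nat_lit 307311603) (nat_lit 328) (nat_lit 5) (nat_lit 338) (nat_lit 5) (nat_lit 329) (nat_lit 5) (nat_lit 435) (nat_lit 387) (nat_lit 378)) (XT.nd (nat_lit 78) (nat_lit 684) (nat_lit 0) (XT.lf (nat_lit 0) (nat_lit 137294438) (nat_lit 836) (nat_lit 3612910633) (nat_lit 76) (nat_lit 4132889118) (nat_lit 317) (nat_lit 5) (nat_lit 328) (nat_lit 5) (nat_lit 318) (nat_lit 5) (nat_lit 436) (nat_lit 387) (nat_lit 377)) (XT.lf (nat_lit 0) (nat_lit 5272874516) (nat_lit 760) (nat_lit 2525873887) (nat_lit 76) (nat_lit 172602275) (nat_lit 308) (nat_lit 5) (nat_lit 318) (nat_lit 5) (nat_lit 309) (nat_lit 5) (nat_lit 437) (nat_lit 387) (nat_lit 376)))) (XT.nd (nat_lit 78) (nat_lit 1976) (nat_lit 0) (XT.lf (nat_lit 0) (nat_lit 2431445663) (nat_lit 760) (nat_lit 1414745698) (nat_lit 76) (nat_lit 4216478351) (nat_lit 298) (nat_lit 5) (nat_lit 308) (nat_lit 5) (nat_lit 299) (nat_lit 5) (nat_lit 438) (nat_lit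 387) (nat_lit 375)) (XT.nd (nat_lit 78) (nat_lit 1368) (nat_lit 0) (XT.lf (nat_lit 0) (nat_lit 7622253538) (nat_lit 684) (nat_lit 259106357) (nat_lit 76) (nat_lit 276157044) (nat_lit 290) (nat_lit 5) (nat_lit 299) (nat_lit 5) (nat_lit 291) (nat_lit 5) (nat_lit 439) (nat_lit 387) (nat_lit 374)) (XT.lf (nat_lit 0) (nat_lit 915841786) (nat_lit 608) (nat_lit 3712243932) (nat_lit 684) (nat_lit 3627002693) (nat_lit 272) (nat_lit 5) (nat_lit 280) (nat_lit 5) (nat_lit 281) (nat_lit 5) (nat_lit 440) (nat_lit 387) (nat_lit 373))))) (XT.nd (nat_lit 234) (nat_lit 1748) (nat_lit 0) (XT.nd (nat_lit 78) (nat_lit 1216) (nat_lit 0) (XT.lf (nat_lit 0) (nat_lit 1515486978) (nat_lit 684) (nat_lit 6216712133) (nat_lit 76) (nat_lit 624073991) (nat_lit 263) (nat_lit 5) (nat_lit 272) (nat_lit 5) (nat_lit 264) (nat_lit 5) (nat_lit 441) (nat_lit 387) (nat_lit 372)) (XT.nd (nat_lit 78) (nat_lit 684) (nat_lit 0) (XT.lf (nat_lit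 0) (nat_lit 3376162722) (nat_lit 532) (nat_lit 3361692159) (nat_lit 608) (nat_lit 1722677513) (nat_lit 256) (nat_lit 5) (nat_lit 263) (nat_lit 5) (nat_lit 264) (nat_lit 5) (nat_lit 442) (nat_lit 387) (nat_lit 371)) (XT.lf (nat_lit 0) (nat_lit 3462307052) (nat_lit 684) (nat_lit 3925062388) (nat_lit 76) (nat_lit 1180906991) (nat_lit 247) (nat_lit 5) (nat_lit 256) (nat_lit 5) (nat_lit 248) (nat_lit 5) (nat_lit 443) (nat_lit 387) (nat_lit 370)))) (XT.nd (nat_lit 78) (nat_lit 1140) (nat_lit 0) (XT.lf (nat_lit 0) (nat_lit 76490029) (nat_lit 608) (nat_lit 2743582700) (nat_lit 76) (nat_lit 5859406013) (nat_lit 239) (nat_lit 5) (nat_lit 247) (nat_lit 5) (nat_lit 240) (nat_lit 5) (nat_lit 444) (nat_lit 387) (nat_lit 369)) (XT.nd (nat_lit 78) (nat_lit 608) (nat_lit 0) (XT.lf (nat_lit 0) (nat_lit 5315343464) (nat_lit 608) (nat_lit 1552963059) (nat_lit 76) (nat_lit 1925643993) (nat_lit 232) (nat_lit 5) (nat_lit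 240) (nat_lit 5) (nat_lit 233) (nat_lit 5) (nat_lit 445) (nat_lit 387) (nat_lit 368)) (XT.lf (nat_lit 0) (nat_lit 1754520476) (nat_lit 608) (nat_lit 338311341) (nat_lit 76) (nat_lit 6819232172) (nat_lit 224) (nat_lit 5) (nat_lit 232) (nat_lit 5) (nat_lit 225) (nat_lit 5) (nat_lit 446) (nat_lit 387) (nat_lit 367))))))) (XT.nd (nat_lit 936) (nat_lit 4256) (nat_lit 0) (XT.nd (nat_lit 468) (nat_lit 2888) (nat_lit 0) (XT.nd (nat_lit 234) (nat_lit 1520) (nat_lit 0) (XT.nd (nat_lit 78) (nat_lit 1064) (nat_lit 0) (XT.lf (nat_lit 0) (nat_lit 899943977) (nat_lit 456) (nat_lit 6184406883) (nat_lit 532) (nat_lit 1949183875) (nat_lit 211) (nat_lit 5) (nat_lit 217) (nat_lit 5) (nat_lit 218) (nat_lit 5) (nat_lit 447) (nat_lit 387) (nat_lit 366)) (XT.nd (nat_lit 78) (nat_lit 456) (nat_lit 0) (XT.lf (nat_lit 0) (nat_lit 2159324484) (nat_lit 532) (nat_lit 1191989340) (nat_lit 608) (nat_lit 5807291147) (nat_lit 203)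 (nat_lit 5) (nat_lit 210) (nat_lit 5) (nat_lit 211) (nat_lit 5) (nat_lit 448) (nat_lit 387) (nat_lit 365)) (XT.lf (nat_lit 0) (nat_lit 3431535834) (nat_lit 456) (nat_lit 5345524943) (nat_lit 532) (nat_lit 510266668) (nat_lit 197) (nat_lit 5) (nat_lit 203) (nat_lit 5) (nat_lit 204) (nat_lit 5) (nat_lit 449) (nat_lit 387) (nat_lit 364)))) (XT.nd (nat_lit 78) (nat_lit 988) (nat_lit 0) (XT.lf (nat_lit 0) (nat_lit 4714233053) (nat_lit 456) (nat_lit 143524546) (nat_lit 532) (nat_lit 4561984286) (nat_lit 190) (nat_lit 5) (nat_lit 196) (nat_lit 5) (nat_lit 197) (nat_lit 5) (nat_lit 450) (nat_lit 387) (nat_lit 363)) (XT.nd (nat_lit 78) (nat_lit 456) (nat_lit 0) (XT.lf (nat_lit 0) (nat_lit 818377207) (nat_lit 532) (nat_lit 3552464176) (nat_lit 76) (nat_lit 5185016872) (nat_lit 183) (nat_lit 5) (nat_lit 190) (nat_lit 5) (nat_lit 184) (nat_lit 5) (nat_lit 451) (nat_lit 387) (nat_lit 362)) (XT.lf (nat_lit 0) (nat_lit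 6279652414) (nat_lit 532) (nat_lit 2393379114) (nat_lit 76) (nat_lit 1022804520) (nat_lit 177) (nat_lit 5) (nat_lit 184) (nat_lit 5) (nat_lit 178) (nat_lit 5) (nat_lit 452) (nat_lit 387) (nat_lit 361))))) (XT.nd (nat_lit 234) (nat_lit 1140) (nat_lit 0) (XT.nd (nat_lit 78) (nat_lit 1292) (nat_lit 0) (XT.lf (nat_lit 0) (nat_lit 2042760734) (nat_lit 456) (nat_lit 1234212287) (nat_lit 76) (nat_lit 6562680446) (nat_lit 171) (nat_lit 5) (nat_lit 177) (nat_lit 5) (nat_lit 172) (nat_lit 5) (nat_lit 453) (nat_lit 387) (nat_lit 360)) (XT.nd (nat_lit 78) (nat_lit 836) (nat_lit 0) (XT.lf (nat_lit 0) (nat_lit 7612280489) (nat_lit 532) (nat_lit 71574846) (nat_lit 76) (nat_lit 2303623925) (nat_lit 165) (nat_lit 5) (nat_lit 172) (nat_lit 5) (nat_lit 166) (nat_lit 5) (nat_lit 454) (nat_lit 387) (nat_lit 359)) (XT.lf (nat_lit 0) (nat_lit 1102677740) (nat_lit 380) (nat_lit 2073573841) (nat_lit 456) (nat_lit 6962897036)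 (nat_lit 154) (nat_lit 5) (nat_lit 159) (nat_lit 5) (nat_lit 160) (nat_lit 5) (nat_lit 455) (nat_lit 387) (nat_lit 358)))) (XT.nd (nat_lit 78) (nat_lit 760) (nat_lit 0) (XT.lf (nat_lit 0) (nat_lit 2276237263) (nat_lit 380) (nat_lit 6592465853) (nat_lit 456) (nat_lit 1426225504) (nat_lit 149) (nat_lit 5) (nat_lit 154) (nat_lit 5) (nat_lit 155) (nat_lit 5) (nat_lit 456) (nat_lit 387) (nat_lit 357)) (XT.nd (nat_lit 78) (nat_lit 304) (nat_lit 0) (XT.lf (nat_lit 0) (nat_lit 3445038649) (nat_lit 380) (nat_lit 773172295) (nat_lit 456) (nat_lit 6236669384) (nat_lit 143) (nat_lit 5) (nat_lit 148) (nat_lit 5) (nat_lit 149) (nat_lit 5) (nat_lit 457) (nat_lit 387) (nat_lit 356)) (XT.lf (nat_lit 0) (nat_lit 4605454855) (nat_lit 304) (nat_lit 5427194102) (nat_lit 380) (nat_lit 586400600) (nat_lit 139) (nat_lit 5) (nat_lit 143) (nat_lit 5) (nat_lit 144) (nat_lit 5) (nat_lit 458) (nat_lit 387) (nat_lit 355)))))) (XT.nd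 (nat_lit 468) (nat_lit 2052) (nat_lit 0) (XT.nd (nat_lit 234) (nat_lit 1064) (nat_lit 0) (XT.nd (nat_lit 78) (nat_lit 684) (nat_lit 0) (XT.lf (nat_lit 0) (nat_lit 5161707899) (nat_lit 456) (nat_lit 5031308018) (nat_lit 76) (nat_lit 594517026) (nat_lit 133) (nat_lit 5) (nat_lit 139) (nat_lit 5) (nat_lit 134) (nat_lit 5) (nat_lit 459) (nat_lit 387) (nat_lit 354)) (XT.nd (nat_lit 78) (nat_lit 304) (nat_lit 0) (XT.lf (nat_lit 0) (nat_lit 138289048) (nat_lit 380) (nat_lit 4063094660) (nat_lit 76) (nat_lit 6759073010) (nat_lit 128) (nat_lit 5) (nat_lit 133) (nat_lit 5) (nat_lit 129) (nat_lit 5) (nat_lit 460) (nat_lit 387) (nat_lit 353)) (XT.lf (nat_lit 0) (nat_lit 6004377375) (nat_lit 380) (nat_lit 3120558234) (nat_lit 76) (nat_lit 2012786597) (nat_lit 124) (nat_lit 5) (nat_lit 129) (nat_lit 5) (nat_lit 125) (nat_lit 5) (nat_lit 461) (nat_lit 387) (nat_lit 352)))) (XT.nd (nat_lit 78) (nat_lit 684) (nat_lit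 0) (XT.lf (nat_lit 0) (nat_lit 738657411) (nat_lit 380) (nat_lit 2188212251) (nat_lit 76) (nat_lit 8392907993) (nat_lit 119) (nat_lit 5) (nat_lit 124) (nat_lit 5) (nat_lit 120) (nat_lit 5) (nat_lit 462) (nat_lit 387) (nat_lit 351)) (XT.nd (nat_lit 78) (nat_lit 380) (nat_lit 0) (XT.lf (nat_lit 0) (nat_lit 6736019201) (nat_lit 380) (nat_lit 1292194989) (nat_lit 76) (nat_lit 3478029966) (nat_lit 115) (nat_lit 5) (nat_lit 120) (nat_lit 5) (nat_lit 116) (nat_lit 5) (nat_lit 463) (nat_lit 387) (nat_lit 350)) (XT.lf (nat_lit 0) (nat_lit 1216305438) (nat_lit 380) (nat_lit 405636633) (nat_lit 76) (nat_lit 10075866464) (nat_lit 110) (nat_lit 5) (nat_lit 115) (nat_lit 5) (nat_lit 111) (nat_lit 5) (nat_lit 464) (nat_lit 387) (nat_lit 349))))) (XT.nd (nat_lit 234) (nat_lit 912) (nat_lit 0) (XT.nd (nat_lit 78) (nat_lit 608) (nat_lit 0) (XT.lf (nat_lit 0) (nat_lit 438151206) (nat_lit 228) (nat_lit 6914850310) (nat_lit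 304) (nat_lit 4540786465) (nat_lit 103) (nat_lit 5) (nat_lit 106) (nat_lit 5) (nat_lit 107) (nat_lit 5) (nat_lit 465) (nat_lit 387) (nat_lit 348)) (XT.nd (nat_lit 78) (nat_lit 228) (nat_lit 0) (XT.lf (nat_lit 0) (nat_lit 1279040312) (nat_lit 304) (nat_lit 293052238) (nat_lit 380) (nat_lit 10523062581) (nat_lit 98) (nat_lit 5) (nat_lit 102) (nat_lit 5) (nat_lit 103) (nat_lit 5) (nat_lit 466) (nat_lit 387) (nat_lit 347)) (XT.lf (nat_lit 0) (nat_lit 2056842866) (nat_lit 228) (nat_lit 5795438171) (nat_lit 304) (nat_lit 4448775523) (nat_lit 95) (nat_lit 5) (nat_lit 98) (nat_lit 5) (nat_lit 99) (nat_lit 5) (nat_lit 467) (nat_lit 387) (nat_lit 346)))) (XT.nd (nat_lit 78) (nat_lit 532) (nat_lit 0) (XT.lf (nat_lit 0) (nat_lit 1797306549) (nat_lit 380) (nat_lit 9691416954) (nat_lit 76) (nat_lit 1023916849) (nat_lit 90) (nat_lit 5) (nat_lit 95) (nat_lit 5) (nat_lit 91) (nat_lit 5) (nat_lit 468) (nat_lit 387)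 (nat_lit 345)) (XT.nd (nat_lit 78) (nat_lit 304) (nat_lit 0) (XT.lf (nat_lit 0) (nat_lit 3520730860) (nat_lit 228) (nat_lit 4695103305) (nat_lit 304) (nat_lit 4513244676) (nat_lit 87) (nat_lit 5) (nat_lit 90) (nat_lit 5) (nat_lit 91) (nat_lit 5) (nat_lit 469) (nat_lit 387) (nat_lit 344)) (XT.lf (nat_lit 0) (nat_lit 1873693278) (nat_lit 304) (nat_lit 8757984185) (nat_lit 76) (nat_lit 2319627185) (nat_lit 83) (nat_lit 5) (nat_lit 87) (nat_lit 5) (nat_lit 84) (nat_lit 5) (nat_lit 470) (nat_lit 387) (nat_lit 343))))))))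
noncomputable def xc22 : XT := (XT.nd (nat_lit 59202) (nat_lit 0) (nat_lit 11628) (XT.nd (nat_lit 858) (nat_lit 1368) (nat_lit 0) (XT.nd (nat_lit 390) (nat_lit 1368) (nat_lit 0) (XT.nd (nat_lit 156) (nat_lit 760) (nat_lit 0) (XT.nd (nat_lit 78) (nat_lit 304) (nat_lit 0) (XT.lf (nat_lit 0) (nat_lit 4801253793) (nat_lit 228) (nat_lit 3631259831) (nat_lit 304) (nat_lit 4746260118) (nat_lit 80) (nat_lit 5) (nat_lit 83) (nat_lit 5) (nat_lit 84) (nat_lit 5) (nat_lit 471) (nat_lit 387) (nat_lit 342)) (XT.lf (nat_lit 0) (nat_lit 1786891360) (nat_lit 304) (nat_lit 8044737040) (nat_lit 76) (nat_lit 3580509976) (nat_lit 76) (nat_lit 5) (nat_lit 80) (nat_lit 5) (nat_lit 77) (nat_lit 5) (nat_lit 472) (nat_lit 387) (nat_lit 341))) (XT.nd (nat_lit 78) (nat_lit 532) (nat_lit 0) (XT.lf (nat_lit 0) (nat_lit 5866944740) (nat_lit 228) (nat_lit 2622466903) (nat_lit 304) (nat_lit 5161712318) (nat_lit 73) (nat_lit 5) (nat_lit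 76) (nat_lit 5) (nat_lit 77) (nat_lit 5) (nat_lit 473) (nat_lit 387) (nat_lit 340)) (XT.nd (nat_lit 78) (nat_lit 228) (nat_lit 0) (XT.lf (nat_lit 0) (nat_lit 1522583016) (nat_lit 304) (nat_lit 7585631615) (nat_lit 76) (nat_lit 4787945223) (nat_lit 69) (nat_lit 5) (nat_lit 73) (nat_lit 5) (nat_lit 70) (nat_lit 5) (nat_lit 474) (nat_lit 387) (nat_lit 339)) (XT.lf (nat_lit 0) (nat_lit 6683079779) (nat_lit 228) (nat_lit 1688627515) (nat_lit 304) (nat_lit 5775472867) (nat_lit 66) (nat_lit 5) (nat_lit 69) (nat_lit 5) (nat_lit 70) (nat_lit 5) (nat_lit 475) (nat_lit 387) (nat_lit 338))))) (XT.nd (nat_lit 234) (nat_lit 608) (nat_lit 0) (XT.nd (nat_lit 78) (nat_lit 456) (nat_lit 0) (XT.lf (nat_lit 0) (nat_lit 1064427791) (nat_lit 304) (nat_lit 7418128209) (nat_lit 76) (nat_lit 5921901838) (nat_lit 62) (nat_lit 5) (nat_lit 66) (nat_lit 5) (nat_lit 63) (nat_lit 5) (nat_lit 476) (nat_lit 387) (nat_lit 337)) (XT.nd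 (nat_lit 78) (nat_lit 304) (nat_lit 0) (XT.lf (nat_lit 0) (nat_lit 7211292259) (nat_lit 152) (nat_lit 851202833) (nat_lit 228) (nat_lit 6605570464) (nat_lit 60) (nat_lit 5) (nat_lit 62) (nat_lit 5) (nat_lit 63) (nat_lit 5) (nat_lit 477) (nat_lit 387) (nat_lit 336)) (XT.lf (nat_lit 0) (nat_lit 393879244) (nat_lit 304) (nat_lit 7583599066) (nat_lit 76) (nat_lit 6960718046) (nat_lit 56) (nat_lit 5) (nat_lit 60) (nat_lit 5) (nat_lit 57) (nat_lit 5) (nat_lit 478) (nat_lit 387) (nat_lit 335)))) (XT.nd (nat_lit 78) (nat_lit 456) (nat_lit 0) (XT.lf (nat_lit 0) (nat_lit 7409149041) (nat_lit 152) (nat_lit 133444117) (nat_lit 228) (nat_lit 7672387817) (nat_lit 54) (nat_lit 5) (nat_lit 56) (nat_lit 5) (nat_lit 57) (nat_lit 5) (nat_lit 479) (nat_lit 387) (nat_lit 334)) (XT.nd (nat_lit 78) (nat_lit 228) (nat_lit 0) (XT.lf (nat_lit 0) (nat_lit 7367421006) (nat_lit 228) (nat_lit 7614334122) (nat_lit 304) (nat_lit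 516797807) (nat_lit 51) (nat_lit 5) (nat_lit 54) (nat_lit 5) (nat_lit 55) (nat_lit 5) (nat_lit 480) (nat_lit 387) (nat_lit 333)) (XT.lf (nat_lit 0) (nat_lit 6793181550) (nat_lit 228) (nat_lit 8562378470) (nat_lit 76) (nat_lit 433593334) (nat_lit 48) (nat_lit 5) (nat_lit 51) (nat_lit 5) (nat_lit 49) (nat_lit 5) (nat_lit 481) (nat_lit 387) (nat_lit 332)))))) (XT.nd (nat_lit 468) (nat_lit 152) (nat_lit 0) (XT.nd (nat_lit 234) (nat_lit 608) (nat_lit 0) (XT.nd (nat_lit 78) (nat_lit 380) (nat_lit 0) (XT.lf (nat_lit 0) (nat_lit 6974601546) (nat_lit 228) (nat_lit 7419167360) (nat_lit 304) (nat_lit 1693071230) (nat_lit 45) (nat_lit 5) (nat_lit 48) (nat_lit 5) (nat_lit 49) (nat_lit 5) (nat_lit 482) (nat_lit 387) (nat_lit 331)) (XT.nd (nat_lit 78) (nat_lit 152) (nat_lit 0) (XT.lf (nat_lit 0) (nat_lit 5786751669) (nat_lit 228) (nat_lit 9776690363) (nat_lit 76) (nat_lit 828576043) (nat_lit 42) (nat_lit 5) (nat_lit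 45) (nat_lit 5) (nat_lit 43) (nat_lit 5) (nat_lit 483) (nat_lit 387) (nat_lit 330)) (XT.lf (nat_lit 0) (nat_lit 6124047099) (nat_lit 152) (nat_lit 7423934177) (nat_lit 228) (nat_lit 3156548987) (nat_lit 40) (nat_lit 5) (nat_lit 42) (nat_lit 5) (nat_lit 43) (nat_lit 5) (nat_lit 484) (nat_lit 387) (nat_lit 329)))) (XT.nd (nat_lit 78) (nat_lit 380) (nat_lit 0) (XT.lf (nat_lit 0) (nat_lit 4494843641) (nat_lit 228) (nat_lit 11506794794) (nat_lit 76) (nat_lit 1023427147) (nat_lit 37) (nat_lit 5) (nat_lit 40) (nat_lit 5) (nat_lit 38) (nat_lit 5) (nat_lit 485) (nat_lit 387) (nat_lit 328)) (XT.nd (nat_lit 78) (nat_lit 228) (nat_lit 0) (XT.lf (nat_lit 0) (nat_lit 4755107985) (nat_lit 152) (nat_lit 7660742990) (nat_lit 228) (nat_lit 4937292320) (nat_lit 35) (nat_lit 5) (nat_lit 37) (nat_lit 5) (nat_lit 38) (nat_lit 5) (nat_lit 486) (nat_lit 387) (nat_lit 327)) (XT.lf (nat_lit 0) (nat_lit 2886554260) (nat_lit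 228) (nat_lit 13817901332) (nat_lit 76) (nat_lit 985417065) (nat_lit 32) (nat_lit 5) (nat_lit 35) (nat_lit 5) (nat_lit 33) (nat_lit 5) (nat_lit 487) (nat_lit 387) (nat_lit 326))))) (XT.nd (nat_lit 57642) (nat_lit 0) (nat_lit 29412) (XT.nd (nat_lit 57486) (nat_lit 0) (nat_lit 33136) (XT.lf (nat_lit 0) (nat_lit 2800566921) (nat_lit 152) (nat_lit 8164839831) (nat_lit 228) (nat_lit 7068899638) (nat_lit 30) (nat_lit 5) (nat_lit 32) (nat_lit 5) (nat_lit 33) (nat_lit 5) (nat_lit 488) (nat_lit 387) (nat_lit 325)) (XT.nd (nat_lit 78) (nat_lit 1748) (nat_lit 0) (XT.lf (nat_lit 0) (nat_lit 120208492) (nat_lit 1748) (nat_lit 3290285048) (nat_lit 0) (nat_lit 120208492) (nat_lit 489) (nat_lit 5) (nat_lit 512) (nat_lit 4) (nat_lit 489) (nat_lit 4) (nat_lit 424) (nat_lit 388) (nat_lit 388)) (XT.lf (nat_lit 0) (nat_lit 1108127904) (nat_lit 1748) (nat_lit 4306497403) (nat_lit 1748) (nat_lit 1699966948) (nat_lit 466)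 (nat_lit 4) (nat_lit 489) (nat_lit 5) (nat_lit 489) (nat_lit 4) (nat_lit 425) (nat_lit 388) (nat_lit 387)))) (XT.nd (nat_lit 78) (nat_lit 1976) (nat_lit 0) (XT.lf (nat_lit 0) (nat_lit 1792897675) (nat_lit 1672) (nat_lit 1637815305) (nat_lit 1748) (nat_lit 3740171367) (nat_lit 443) (nat_lit 5) (nat_lit 465) (nat_lit 5) (nat_lit 466) (nat_lit 4) (nat_lit 426) (nat_lit 388) (nat_lit 386)) (XT.nd (nat_lit 78) (nat_lit 912) (nat_lit 0) (XT.lf (nat_lit 0) (nat_lit 1358420038) (nat_lit 1064) (nat_lit 4701136122) (nat_lit 76) (nat_lit 1170642696) (nat_lit 429) (nat_lit 5) (nat_lit 443) (nat_lit 5) (nat_lit 430) (nat_lit 4) (nat_lit 427) (nat_lit 388) (nat_lit 385)) (XT.lf (nat_lit 0) (nat_lit 3307428745) (nat_lit 912) (nat_lit 3173336842) (nat_lit 988) (nat_lit 811628898) (nat_lit 417) (nat_lit 5) (nat_lit 429) (nat_lit 5) (nat_lit 430) (nat_lit 4) (nat_lit 428) (nat_lit 388) (nat_lit 384))))))) (XT.nd (nat_lit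 858) (nat_lit 8056) (nat_lit 0) (XT.nd (nat_lit 390) (nat_lit 4484) (nat_lit 0) (XT.nd (nat_lit 156) (nat_lit 3344) (nat_lit 0) (XT.nd (nat_lit 78) (nat_lit 912) (nat_lit 0) (XT.lf (nat_lit 0) (nat_lit 4134683696) (nat_lit 912) (nat_lit 121376531) (nat_lit 988) (nat_lit 3101582430) (nat_lit 404) (nat_lit 5) (nat_lit 416) (nat_lit 5) (nat_lit 417) (nat_lit 5) (nat_lit 429) (nat_lit 388) (nat_lit 383)) (XT.lf (nat_lit 0) (nat_lit 1949934991) (nat_lit 912) (nat_lit 2425997098) (nat_lit 76) (nat_lit 3049836113) (nat_lit 392) (nat_lit 5) (nat_lit 404) (nat_lit 5) (nat_lit 393) (nat_lit 5) (nat_lit 430) (nat_lit 388) (nat_lit 382))) (XT.nd (nat_lit 78) (nat_lit 2508) (nat_lit 0) (XT.lf (nat_lit 0) (nat_lit 5918543585) (nat_lit 836) (nat_lit 1113688621) (nat_lit 912) (nat_lit 464892762) (nat_lit 381) (nat_lit 5) (nat_lit 392) (nat_lit 5) (nat_lit 393) (nat_lit 5) (nat_lit 431) (nat_lit 388) (nat_lit 381))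 (XT.nd (nat_lit 78) (nat_lit 1672) (nat_lit 0) (XT.lf (nat_lit 0) (nat_lit 4573161432) (nat_lit 836) (nat_lit 705189454) (nat_lit 76) (nat_lit 2292917861) (nat_lit 370) (nat_lit 5) (nat_lit 381) (nat_lit 5) (nat_lit 371) (nat_lit 5) (nat_lit 432) (nat_lit 388) (nat_lit 380)) (XT.lf (nat_lit 0) (nat_lit 216994520) (nat_lit 760) (nat_lit 1799146240) (nat_lit 836) (nat_lit 5632476866) (nat_lit 348) (nat_lit 5) (nat_lit 358) (nat_lit 5) (nat_lit 359) (nat_lit 5) (nat_lit 433) (nat_lit 388) (nat_lit 379))))) (XT.nd (nat_lit 234) (nat_lit 2128) (nat_lit 0) (XT.nd (nat_lit 78) (nat_lit 1596) (nat_lit 0) (XT.lf (nat_lit 0) (nat_lit 1186331371) (nat_lit 760) (nat_lit 5900513977) (nat_lit 836) (nat_lit 642131975) (nat_lit 338) (nat_lit 5) (nat_lit 348) (nat_lit 5) (nat_lit 349) (nat_lit 5) (nat_lit 434) (nat_lit 388) (nat_lit 378)) (XT.nd (nat_lit 78) (nat_lit 836) (nat_lit 0) (XT.lf (nat_lit 0) (nat_lit 2183161126)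 (nat_lit 684) (nat_lit 2200553207) (nat_lit 760) (nat_lit 3428574645) (nat_lit 328) (nat_lit 5) (nat_lit 337) (nat_lit 5) (nat_lit 338) (nat_lit 5) (nat_lit 435) (nat_lit 388) (nat_lit 377)) (XT.lf (nat_lit 0) (nat_lit 1578216642) (nat_lit 836) (nat_lit 4676634000) (nat_lit 76) (nat_lit 1644043458) (nat_lit 317) (nat_lit 5) (nat_lit 328) (nat_lit 5) (nat_lit 318) (nat_lit 5) (nat_lit 436) (nat_lit 388) (nat_lit 376)))) (XT.nd (nat_lit 78) (nat_lit 1444) (nat_lit 0) (XT.lf (nat_lit 0) (nat_lit 4290533236) (nat_lit 684) (nat_lit 2351794841) (nat_lit 760) (nat_lit 1346261391) (nat_lit 308) (nat_lit 5) (nat_lit 317) (nat_lit 5) (nat_lit 318) (nat_lit 5) (nat_lit 437) (nat_lit 388) (nat_lit 375)) (XT.nd (nat_lit 78) (nat_lit 684) (nat_lit 0) (XT.lf (nat_lit 0) (nat_lit 3680381901) (nat_lit 760) (nat_lit 2692330554) (nat_lit 76) (nat_lit 1708740383) (nat_lit 298) (nat_lit 5) (nat_lit 308) (nat_lit 5) (nat_lit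 299) (nat_lit 5) (nat_lit 438) (nat_lit 388) (nat_lit 374)) (XT.lf (nat_lit 0) (nat_lit 613877010) (nat_lit 684) (nat_lit 1653766976) (nat_lit 76) (nat_lit 5910012439) (nat_lit 289) (nat_lit 5) (nat_lit 298) (nat_lit 5) (nat_lit 290) (nat_lit 5) (nat_lit 439) (nat_lit 388) (nat_lit 373)))))) (XT.nd (nat_lit 468) (nat_lit 3724) (nat_lit 0) (XT.nd (nat_lit 234) (nat_lit 1824) (nat_lit 0) (XT.nd (nat_lit 78) (nat_lit 1824) (nat_lit 0) (XT.lf (nat_lit 0) (nat_lit 5679874188) (nat_lit 760) (nat_lit 596728872) (nat_lit 76) (nat_lit 2000370328) (nat_lit 280) (nat_lit 5) (nat_lit 290) (nat_lit 5) (nat_lit 281) (nat_lit 5) (nat_lit 440) (nat_lit 388) (nat_lit 372)) (XT.nd (nat_lit 78) (nat_lit 532) (nat_lit 0) (XT.lf (nat_lit 0) (nat_lit 495123359) (nat_lit 608) (nat_lit 1958431475) (nat_lit 684) (nat_lit 5926044033) (nat_lit 263) (nat_lit 5) (nat_lit 271) (nat_lit 5) (nat_lit 272) (nat_lit 5) (nat_lit 441)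 (nat_lit 388) (nat_lit 371)) (XT.lf (nat_lit 0) (nat_lit 1620417491) (nat_lit 532) (nat_lit 5972942443) (nat_lit 608) (nat_lit 892157206) (nat_lit 256) (nat_lit 5) (nat_lit 263) (nat_lit 5) (nat_lit 264) (nat_lit 5) (nat_lit 442) (nat_lit 388) (nat_lit 370)))) (XT.nd (nat_lit 78) (nat_lit 1140) (nat_lit 0) (XT.lf (nat_lit 0) (nat_lit 2763070464) (nat_lit 608) (nat_lit 1441208626) (nat_lit 684) (nat_lit 4390434712) (nat_lit 247) (nat_lit 5) (nat_lit 255) (nat_lit 5) (nat_lit 256) (nat_lit 5) (nat_lit 443) (nat_lit 388) (nat_lit 369)) (XT.nd (nat_lit 78) (nat_lit 532) (nat_lit 0) (XT.lf (nat_lit 0) (nat_lit 703196297) (nat_lit 608) (nat_lit 4776128558) (nat_lit 76) (nat_lit 3228094224) (nat_lit 239) (nat_lit 5) (nat_lit 247) (nat_lit 5) (nat_lit 240) (nat_lit 5) (nat_lit 444) (nat_lit 388) (nat_lit 368)) (XT.lf (nat_lit 0) (nat_lit 5116895746) (nat_lit 532) (nat_lit 742823580) (nat_lit 608) (nat_lit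 2963824930) (nat_lit 232) (nat_lit 5) (nat_lit 239) (nat_lit 5) (nat_lit 240) (nat_lit 5) (nat_lit 445) (nat_lit 388) (nat_lit 367))))) (XT.nd (nat_lit 234) (nat_lit 2052) (nat_lit 0) (XT.nd (nat_lit 78) (nat_lit 1064) (nat_lit 0) (XT.lf (nat_lit 0) (nat_lit 2187808082) (nat_lit 608) (nat_lit 2626845805) (nat_lit 76) (nat_lit 4128438327) (nat_lit 224) (nat_lit 5) (nat_lit 232) (nat_lit 5) (nat_lit 225) (nat_lit 5) (nat_lit 446) (nat_lit 388) (nat_lit 366)) (XT.nd (nat_lit 78) (nat_lit 532) (nat_lit 0) (XT.lf (nat_lit 0) (nat_lit 7424290060) (nat_lit 608) (nat_lit 1521978627) (nat_lit 76) (nat_lit 120167519) (nat_lit 217) (nat_lit 5) (nat_lit 225) (nat_lit 5) (nat_lit 218) (nat_lit 5) (nat_lit 447) (nat_lit 388) (nat_lit 365)) (XT.lf (nat_lit 0) (nat_lit 3576283910) (nat_lit 532) (nat_lit 423250929) (nat_lit 76) (nat_lit 5193498527) (nat_lit 210) (nat_lit 5) (nat_lit 217) (nat_lit 5) (nat_lit 211) (nat_lit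 5) (nat_lit 448) (nat_lit 388) (nat_lit 364)))) (XT.nd (nat_lit 78) (nat_lit 1064) (nat_lit 0) (XT.lf (nat_lit 0) (nat_lit 714725848) (nat_lit 456) (nat_lit 8195622255) (nat_lit 532) (nat_lit 413247197) (nat_lit 197) (nat_lit 5) (nat_lit 203) (nat_lit 5) (nat_lit 204) (nat_lit 5) (nat_lit 449) (nat_lit 388) (nat_lit 363)) (XT.nd (nat_lit 78) (nat_lit 532) (nat_lit 0) (XT.lf (nat_lit 0) (nat_lit 1846720583) (nat_lit 456) (nat_lit 3035858486) (nat_lit 532) (nat_lit 4574842106) (nat_lit 190) (nat_lit 5) (nat_lit 196) (nat_lit 5) (nat_lit 197) (nat_lit 5) (nat_lit 450) (nat_lit 388) (nat_lit 362)) (XT.lf (nat_lit 0) (nat_lit 715396543) (nat_lit 532) (nat_lit 6592882272) (nat_lit 76) (nat_lit 2287071488) (nat_lit 183) (nat_lit 5) (nat_lit 190) (nat_lit 5) (nat_lit 184) (nat_lit 5) (nat_lit 451) (nat_lit 388) (nat_lit 361))))))))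
noncomputable def xc23 : XT := (XT.nd (nat_lit 1794) (nat_lit 3116) (nat_lit 0) (XT.nd (nat_lit 858) (nat_lit 3572) (nat_lit 0) (XT.nd (nat_lit 390) (nat_lit 2584) (nat_lit 0) (XT.nd (nat_lit 156) (nat_lit 1292) (nat_lit 0) (XT.nd (nat_lit 78) (nat_lit 456) (nat_lit 0) (XT.lf (nat_lit 0) (nat_lit 4152209599) (nat_lit 456) (nat_lit 1946484782) (nat_lit 532) (nat_lit 3638198368) (nat_lit 177) (nat_lit 5) (nat_lit 183) (nat_lit 5) (nat_lit 184) (nat_lit 5) (nat_lit 452) (nat_lit 388) (nat_lit 360)) (XT.lf (nat_lit 0) (nat_lit 1739143025) (nat_lit 456) (nat_lit 4571767431) (nat_lit 76) (nat_lit 3571523694) (nat_lit 171) (nat_lit 5) (nat_lit 177) (nat_lit 5) (nat_lit 172) (nat_lit 5) (nat_lit 453) (nat_lit 388) (nat_lit 359))) (XT.nd (nat_lit 78) (nat_lit 836) (nat_lit 0) (XT.lf (nat_lit 0) (nat_lit 6474113776) (nat_lit 456) (nat_lit 747682359) (nat_lit 532) (nat_lit 2810205859) (nat_lit 165) (nat_lit 5)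 (nat_lit 171) (nat_lit 5) (nat_lit 172) (nat_lit 5) (nat_lit 454) (nat_lit 388) (nat_lit 358)) (XT.nd (nat_lit 78) (nat_lit 380) (nat_lit 0) (XT.lf (nat_lit 0) (nat_lit 2662566732) (nat_lit 456) (nat_lit 2557176405) (nat_lit 76) (nat_lit 4965676849) (nat_lit 159) (nat_lit 5) (nat_lit 165) (nat_lit 5) (nat_lit 160) (nat_lit 5) (nat_lit 455) (nat_lit 388) (nat_lit 357)) (XT.lf (nat_lit 0) (nat_lit 8254379865) (nat_lit 456) (nat_lit 1548695387) (nat_lit 76) (nat_lit 540141866) (nat_lit 154) (nat_lit 5) (nat_lit 160) (nat_lit 5) (nat_lit 155) (nat_lit 5) (nat_lit 456) (nat_lit 388) (nat_lit 356))))) (XT.nd (nat_lit 234) (nat_lit 988) (nat_lit 0) (XT.nd (nat_lit 78) (nat_lit 1140) (nat_lit 0) (XT.lf (nat_lit 0) (nat_lit 3483781355) (nat_lit 456) (nat_lit 564373564) (nat_lit 76) (nat_lit 6456714260) (nat_lit 148) (nat_lit 5) (nat_lit 154) (nat_lit 5) (nat_lit 149) (nat_lit 5) (nat_lit 457) (nat_lit 388)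 (nat_lit 355)) (XT.nd (nat_lit 78) (nat_lit 456) (nat_lit 0) (XT.lf (nat_lit 0) (nat_lit 430861832) (nat_lit 304) (nat_lit 8768114723) (nat_lit 380) (nat_lit 1472050738) (nat_lit 139) (nat_lit 5) (nat_lit 143) (nat_lit 5) (nat_lit 144) (nat_lit 5) (nat_lit 458) (nat_lit 388) (nat_lit 354)) (XT.lf (nat_lit 0) (nat_lit 1408749426) (nat_lit 380) (nat_lit 2800211464) (nat_lit 456) (nat_lit 6632242875) (nat_lit 133) (nat_lit 5) (nat_lit 138) (nat_lit 5) (nat_lit 139) (nat_lit 5) (nat_lit 459) (nat_lit 388) (nat_lit 353)))) (XT.nd (nat_lit 78) (nat_lit 684) (nat_lit 0) (XT.lf (nat_lit 0) (nat_lit 2382981381) (nat_lit 304) (nat_lit 7671540083) (nat_lit 380) (nat_lit 961494660) (nat_lit 129) (nat_lit 5) (nat_lit 133) (nat_lit 5) (nat_lit 134) (nat_lit 5) (nat_lit 460) (nat_lit 388) (nat_lit 352)) (XT.nd (nat_lit 78) (nat_lit 304) (nat_lit 0) (XT.lf (nat_lit 0) (nat_lit 3332817320) (nat_lit 304) (nat_lit 1495373445)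 (nat_lit 380) (nat_lit 6366999505) (nat_lit 124) (nat_lit 5) (nat_lit 128) (nat_lit 5) (nat_lit 129) (nat_lit 5) (nat_lit 461) (nat_lit 388) (nat_lit 351)) (XT.lf (nat_lit 0) (nat_lit 4268488578) (nat_lit 304) (nat_lit 6537768689) (nat_lit 380) (nat_lit 572807179) (nat_lit 120) (nat_lit 5) (nat_lit 124) (nat_lit 5) (nat_lit 125) (nat_lit 5) (nat_lit 462) (nat_lit 388) (nat_lit 350)))))) (XT.nd (nat_lit 468) (nat_lit 1672) (nat_lit 0) (XT.nd (nat_lit 234) (nat_lit 836) (nat_lit 0) (XT.nd (nat_lit 78) (nat_lit 684) (nat_lit 0) (XT.lf (nat_lit 0) (nat_lit 5180925737) (nat_lit 304) (nat_lit 151385627) (nat_lit 380) (nat_lit 6235292354) (nat_lit 115) (nat_lit 5) (nat_lit 119) (nat_lit 5) (nat_lit 120) (nat_lit 5) (nat_lit 463) (nat_lit 388) (nat_lit 349)) (XT.nd (nat_lit 78) (nat_lit 380) (nat_lit 0) (XT.lf (nat_lit 0) (nat_lit 6067166678) (nat_lit 304) (nat_lit 5381209465) (nat_lit 380) (nat_lit 312522255)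 (nat_lit 111) (nat_lit 5) (nat_lit 115) (nat_lit 5) (nat_lit 116) (nat_lit 5) (nat_lit 464) (nat_lit 388) (nat_lit 348)) (XT.lf (nat_lit 0) (nat_lit 5722485135) (nat_lit 380) (nat_lit 5035162166) (nat_lit 76) (nat_lit 1201389901) (nat_lit 106) (nat_lit 5) (nat_lit 111) (nat_lit 5) (nat_lit 107) (nat_lit 5) (nat_lit 465) (nat_lit 388) (nat_lit 347)))) (XT.nd (nat_lit 78) (nat_lit 608) (nat_lit 0) (XT.lf (nat_lit 0) (nat_lit 7756944527) (nat_lit 228) (nat_lit 4216802583) (nat_lit 304) (nat_lit 188548700) (nat_lit 103) (nat_lit 5) (nat_lit 106) (nat_lit 5) (nat_lit 107) (nat_lit 5) (nat_lit 466) (nat_lit 388) (nat_lit 346)) (XT.nd (nat_lit 78) (nat_lit 228) (nat_lit 0) (XT.lf (nat_lit 0) (nat_lit 5983727942) (nat_lit 380) (nat_lit 3824884657) (nat_lit 76) (nat_lit 2561819614) (nat_lit 98) (nat_lit 5) (nat_lit 103) (nat_lit 5) (nat_lit 99) (nat_lit 5) (nat_lit 467) (nat_lit 388) (nat_lit 345)) (XT.lf (nat_lit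 0) (nat_lit 9313645022) (nat_lit 228) (nat_lit 3060174530) (nat_lit 304) (nat_lit 210269574) (nat_lit 95) (nat_lit 5) (nat_lit 98) (nat_lit 5) (nat_lit 99) (nat_lit 5) (nat_lit 468) (nat_lit 388) (nat_lit 344))))) (XT.nd (nat_lit 234) (nat_lit 760) (nat_lit 0) (XT.nd (nat_lit 78) (nat_lit 532) (nat_lit 0) (XT.lf (nat_lit 0) (nat_lit 6105339543) (nat_lit 380) (nat_lit 2780970950) (nat_lit 76) (nat_lit 3916360537) (nat_lit 90) (nat_lit 5) (nat_lit 95) (nat_lit 5) (nat_lit 91) (nat_lit 5) (nat_lit 469) (nat_lit 388) (nat_lit 343)) (XT.nd (nat_lit 78) (nat_lit 304) (nat_lit 0) (XT.lf (nat_lit 0) (nat_lit 10710710570) (nat_lit 228) (nat_lit 1927802541) (nat_lit 304) (nat_lit 388655517) (nat_lit 87) (nat_lit 5) (nat_lit 90) (nat_lit 5) (nat_lit 91) (nat_lit 5) (nat_lit 470) (nat_lit 388) (nat_lit 342)) (XT.lf (nat_lit 0) (nat_lit 6075990293) (nat_lit 304) (nat_lit 1932107886) (nat_lit 76) (nat_lit 5248577835)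 (nat_lit 83) (nat_lit 5) (nat_lit 87) (nat_lit 5) (nat_lit 84) (nat_lit 5) (nat_lit 471) (nat_lit 388) (nat_lit 341)))) (XT.nd (nat_lit 78) (nat_lit 532) (nat_lit 0) (XT.lf (nat_lit 0) (nat_lit 11918902861) (nat_lit 228) (nat_lit 837189906) (nat_lit 304) (nat_lit 736393229) (nat_lit 80) (nat_lit 5) (nat_lit 83) (nat_lit 5) (nat_lit 84) (nat_lit 5) (nat_lit 472) (nat_lit 388) (nat_lit 340)) (XT.nd (nat_lit 78) (nat_lit 228) (nat_lit 0) (XT.lf (nat_lit 0) (nat_lit 5882603896) (nat_lit 304) (nat_lit 1309877613) (nat_lit 76) (nat_lit 6540951524) (nat_lit 76) (nat_lit 5) (nat_lit 80) (nat_lit 5) (nat_lit 77) (nat_lit 5) (nat_lit 473) (nat_lit 388) (nat_lit 339)) (XT.lf (nat_lit 0) (nat_lit 12714280572) (nat_lit 304) (nat_lit 1076336944) (nat_lit 76) (nat_lit 190415678) (nat_lit 73) (nat_lit 5) (nat_lit 77) (nat_lit 5) (nat_lit 74) (nat_lit 5) (nat_lit 474) (nat_lit 388) (nat_lit 338))))))) (XT.nd (nat_lit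 936) (nat_lit 380) (nat_lit 0) (XT.nd (nat_lit 468) (nat_lit 1292) (nat_lit 0) (XT.nd (nat_lit 234) (nat_lit 608) (nat_lit 0) (XT.nd (nat_lit 78) (nat_lit 532) (nat_lit 0) (XT.lf (nat_lit 0) (nat_lit 5510206124) (nat_lit 304) (nat_lit 949104918) (nat_lit 76) (nat_lit 7774684572) (nat_lit 69) (nat_lit 5) (nat_lit 73) (nat_lit 5) (nat_lit 70) (nat_lit 5) (nat_lit 475) (nat_lit 388) (nat_lit 337)) (XT.nd (nat_lit 78) (nat_lit 304) (nat_lit 0) (XT.lf (nat_lit 0) (nat_lit 12501251098) (nat_lit 304) (nat_lit 865083733) (nat_lit 76) (nat_lit 1127488880) (nat_lit 66) (nat_lit 5) (nat_lit 70) (nat_lit 5) (nat_lit 67) (nat_lit 5) (nat_lit 476) (nat_lit 388) (nat_lit 336)) (XT.lf (nat_lit 0) (nat_lit 4941755056) (nat_lit 304) (nat_lit 888238430) (nat_lit 76) (nat_lit 8929496021) (nat_lit 62) (nat_lit 5) (nat_lit 66) (nat_lit 5) (nat_lit 63) (nat_lit 5) (nat_lit 477) (nat_lit 388) (nat_lit 335)))) (XT.nd (nat_lit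 78) (nat_lit 456) (nat_lit 0) (XT.lf (nat_lit 0) (nat_lit 12093810546) (nat_lit 228) (nat_lit 974792053) (nat_lit 76) (nat_lit 1963527589) (nat_lit 60) (nat_lit 5) (nat_lit 63) (nat_lit 5) (nat_lit 61) (nat_lit 5) (nat_lit 478) (nat_lit 388) (nat_lit 334)) (XT.nd (nat_lit 78) (nat_lit 152) (nat_lit 0) (XT.lf (nat_lit 0) (nat_lit 4157951117) (nat_lit 304) (nat_lit 1169769433) (nat_lit 76) (nat_lit 9983397143) (nat_lit 56) (nat_lit 5) (nat_lit 60) (nat_lit 5) (nat_lit 57) (nat_lit 5) (nat_lit 479) (nat_lit 388) (nat_lit 333)) (XT.lf (nat_lit 0) (nat_lit 11471857875) (nat_lit 228) (nat_lit 1450135168) (nat_lit 76) (nat_lit 2675203406) (nat_lit 54) (nat_lit 5) (nat_lit 57) (nat_lit 5) (nat_lit 55) (nat_lit 5) (nat_lit 480) (nat_lit 388) (nat_lit 332))))) (XT.nd (nat_lit 234) (nat_lit 532) (nat_lit 0) (XT.nd (nat_lit 78) (nat_lit 456) (nat_lit 0) (XT.lf (nat_lit 0) (nat_lit 3137025006) (nat_lit 304) (nat_lit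 1840692399) (nat_lit 76) (nat_lit 10912448503) (nat_lit 50) (nat_lit 5) (nat_lit 54) (nat_lit 5) (nat_lit 51) (nat_lit 5) (nat_lit 481) (nat_lit 388) (nat_lit 331)) (XT.nd (nat_lit 78) (nat_lit 304) (nat_lit 0) (XT.lf (nat_lit 0) (nat_lit 10612725827) (nat_lit 228) (nat_lit 2340538430) (nat_lit 76) (nat_lit 3237087726) (nat_lit 48) (nat_lit 5) (nat_lit 51) (nat_lit 5) (nat_lit 49) (nat_lit 5) (nat_lit 482) (nat_lit 388) (nat_lit 330)) (XT.lf (nat_lit 0) (nat_lit 1854501349) (nat_lit 304) (nat_lit 2953011761) (nat_lit 76) (nat_lit 11690495562) (nat_lit 44) (nat_lit 5) (nat_lit 48) (nat_lit 5) (nat_lit 45) (nat_lit 5) (nat_lit 483) (nat_lit 388) (nat_lit 329)))) (XT.nd (nat_lit 78) (nat_lit 380) (nat_lit 0) (XT.lf (nat_lit 0) (nat_lit 9490932173) (nat_lit 228) (nat_lit 3700710918) (nat_lit 76) (nat_lit 3621375189) (nat_lit 42) (nat_lit 5) (nat_lit 45) (nat_lit 5) (nat_lit 43) (nat_lit 5) (nat_lit 484)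 (nat_lit 388) (nat_lit 328)) (XT.nd (nat_lit 78) (nat_lit 152) (nat_lit 0) (XT.lf (nat_lit 0) (nat_lit 282935750) (nat_lit 228) (nat_lit 4564299916) (nat_lit 76) (nat_lit 12288880267) (nat_lit 39) (nat_lit 5) (nat_lit 42) (nat_lit 5) (nat_lit 40) (nat_lit 5) (nat_lit 485) (nat_lit 388) (nat_lit 327)) (XT.lf (nat_lit 0) (nat_lit 8077903089) (nat_lit 228) (nat_lit 5591230997) (nat_lit 76) (nat_lit 3797581693) (nat_lit 37) (nat_lit 5) (nat_lit 40) (nat_lit 5) (nat_lit 38) (nat_lit 5) (nat_lit 486) (nat_lit 388) (nat_lit 326)))))) (XT.nd (nat_lit 57720) (nat_lit 0) (nat_lit 26448) (XT.nd (nat_lit 57486) (nat_lit 0) (nat_lit 32908) (XT.nd (nat_lit 78) (nat_lit 228) (nat_lit 0) (XT.lf (nat_lit 0) (nat_lit 11056955348) (nat_lit 152) (nat_lit 5119141447) (nat_lit 228) (nat_lit 1629751909) (nat_lit 35) (nat_lit 5) (nat_lit 37) (nat_lit 5) (nat_lit 38) (nat_lit 5) (nat_lit 487) (nat_lit 388) (nat_lit 325)) (XT.nd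 (nat_lit 57330) (nat_lit 0) (nat_lit 39672) (XT.lf (nat_lit 0) (nat_lit 6341665908) (nat_lit 228) (nat_lit 8079191528) (nat_lit 76) (nat_lit 3732214045) (nat_lit 32) (nat_lit 5) (nat_lit 35) (nat_lit 5) (nat_lit 33) (nat_lit 5) (nat_lit 488) (nat_lit 388) (nat_lit 324)) (XT.lf (nat_lit 0) (nat_lit 3206228701) (nat_lit 1444) (nat_lit 137382691) (nat_lit 1444) (nat_lit 137382691) (nat_lit 554) (nat_lit 4) (nat_lit 573) (nat_lit 5) (nat_lit 573) (nat_lit 4) (nat_lit 422) (nat_lit 389) (nat_lit 389)))) (XT.nd (nat_lit 78) (nat_lit 5168) (nat_lit 0) (XT.lf (nat_lit 0) (nat_lit 4819036748) (nat_lit 1596) (nat_lit 111152390) (nat_lit 0) (nat_lit 2080615852) (nat_lit 533) (nat_lit 5) (nat_lit 554) (nat_lit 4) (nat_lit 533) (nat_lit 4) (nat_lit 423) (nat_lit 389) (nat_lit 388)) (XT.nd (nat_lit 78) (nat_lit 1824) (nat_lit 0) (XT.lf (nat_lit 0) (nat_lit 388821664) (nat_lit 1672) (nat_lit 2475487060) (nat_lit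 1748) (nat_lit 4198327911) (nat_lit 489) (nat_lit 5) (nat_lit 511) (nat_lit 5) (nat_lit 512) (nat_lit 4) (nat_lit 424) (nat_lit 389) (nat_lit 387)) (XT.lf (nat_lit 0) (nat_lit 818227923) (nat_lit 1824) (nat_lit 6169048511) (nat_lit 76) (nat_lit 130290949) (nat_lit 465) (nat_lit 5) (nat_lit 489) (nat_lit 5) (nat_lit 466) (nat_lit 4) (nat_lit 425) (nat_lit 389) (nat_lit 386))))) (XT.nd (nat_lit 234) (nat_lit 2736) (nat_lit 0) (XT.nd (nat_lit 78) (nat_lit 2052) (nat_lit 0) (XT.lf (nat_lit 0) (nat_lit 1541276035) (nat_lit 1672) (nat_lit 4310233813) (nat_lit 1748) (nat_lit 1323645607) (nat_lit 443) (nat_lit 5) (nat_lit 465) (nat_lit 5) (nat_lit 466) (nat_lit 4) (nat_lit 426) (nat_lit 389) (nat_lit 385)) (XT.nd (nat_lit 78) (nat_lit 988) (nat_lit 0) (XT.lf (nat_lit 0) (nat_lit 2186274243) (nat_lit 988) (nat_lit 1474704378) (nat_lit 1064) (nat_lit 3574836994) (nat_lit 429) (nat_lit 5) (nat_lit 442) (nat_lit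 5) (nat_lit 443) (nat_lit 5) (nat_lit 427) (nat_lit 389) (nat_lit 384)) (XT.lf (nat_lit 0) (nat_lit 1382292232) (nat_lit 988) (nat_lit 4420340181) (nat_lit 76) (nat_lit 1496870063) (nat_lit 416) (nat_lit 5) (nat_lit 429) (nat_lit 5) (nat_lit 417) (nat_lit 5) (nat_lit 428) (nat_lit 389) (nat_lit 383)))) (XT.nd (nat_lit 78) (nat_lit 1824) (nat_lit 0) (XT.lf (nat_lit 0) (nat_lit 3612804041) (nat_lit 912) (nat_lit 2753572940) (nat_lit 988) (nat_lit 999740375) (nat_lit 404) (nat_lit 5) (nat_lit 416) (nat_lit 5) (nat_lit 417) (nat_lit 5) (nat_lit 429) (nat_lit 389) (nat_lit 382)) (XT.nd (nat_lit 78) (nat_lit 912) (nat_lit 0) (XT.lf (nat_lit 0) (nat_lit 3934598511) (nat_lit 912) (nat_lit 3044920852) (nat_lit 76) (nat_lit 456255140) (nat_lit 392) (nat_lit 5) (nat_lit 404) (nat_lit 5) (nat_lit 393) (nat_lit 5) (nat_lit 430) (nat_lit 389) (nat_lit 381)) (XT.lf (nat_lit 0) (nat_lit 1417917562) (nat_lit 912) (nat_lit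 2301711256) (nat_lit 76) (nat_lit 3788759018) (nat_lit 380) (nat_lit 5) (nat_lit 392) (nat_lit 5) (nat_lit 381) (nat_lit 5) (nat_lit 431) (nat_lit 389) (nat_lit 380))))))))
noncomputable def xc24 : XT := (XT.nd (nat_lit 1794) (nat_lit 7828) (nat_lit 0) (XT.nd (nat_lit 858) (nat_lit 7448) (nat_lit 0) (XT.nd (nat_lit 390) (nat_lit 4104) (nat_lit 0) (XT.nd (nat_lit 156) (nat_lit 3116) (nat_lit 0) (XT.nd (nat_lit 78) (nat_lit 912) (nat_lit 0) (XT.lf (nat_lit 0) (nat_lit 6070784725) (nat_lit 760) (nat_lit 292773229) (nat_lit 836) (nat_lit 1220650978) (nat_lit 370) (nat_lit 5) (nat_lit 380) (nat_lit 5) (nat_lit 381) (nat_lit 5) (nat_lit 432) (nat_lit 389) (nat_lit 379)) (XT.lf (nat_lit 0) (nat_lit 3696122962) (nat_lit 912) (nat_lit 703292135) (nat_lit 76) (nat_lit 3263405960) (nat_lit 358) (nat_lit 5) (nat_lit 370) (nat_lit 5) (nat_lit 359) (nat_lit 5) (nat_lit 433) (nat_lit 389) (nat_lit 378))) (XT.nd (nat_lit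 78) (nat_lit 1520) (nat_lit 0) (XT.lf (nat_lit 0) (nat_lit 158970097) (nat_lit 760) (nat_lit 763303123) (nat_lit 836) (nat_lit 6822543861) (nat_lit 337) (nat_lit 5) (nat_lit 347) (nat_lit 5) (nat_lit 348) (nat_lit 5) (nat_lit 434) (nat_lit 389) (nat_lit 377)) (XT.nd (nat_lit 78) (nat_lit 836) (nat_lit 0) (XT.lf (nat_lit 0) (nat_lit 1050463569) (nat_lit 684) (nat_lit 4813737715) (nat_lit 760) (nat_lit 1965363986) (nat_lit 328) (nat_lit 5) (nat_lit 337) (nat_lit 5) (nat_lit 338) (nat_lit 5) (nat_lit 435) (nat_lit 389) (nat_lit 376)) (XT.lf (nat_lit 0) (nat_lit 1982371739) (nat_lit 760) (nat_lit 958680511) (nat_lit 836) (nat_lit 4976561341) (nat_lit 317) (nat_lit 5) (nat_lit 327) (nat_lit 5) (nat_lit 328) (nat_lit 5) (nat_lit 436) (nat_lit 389) (nat_lit 375))))) (XT.nd (nat_lit 234) (nat_lit 1976) (nat_lit 0) (XT.nd (nat_lit 78) (nat_lit 1444) (nat_lit 0) (XT.lf (nat_lit 0) (nat_lit 2945543037) (nat_lit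 684) (nat_lit 4983666677) (nat_lit 760) (nat_lit 79627550) (nat_lit 308) (nat_lit 5) (nat_lit 317) (nat_lit 5) (nat_lit 318) (nat_lit 5) (nat_lit 437) (nat_lit 389) (nat_lit 374)) (XT.nd (nat_lit 78) (nat_lit 684) (nat_lit 0) (XT.lf (nat_lit 0) (nat_lit 3933325360) (nat_lit 684) (nat_lit 916206651) (nat_lit 760) (nat_lit 3253630362) (nat_lit 298) (nat_lit 5) (nat_lit 307) (nat_lit 5) (nat_lit 308) (nat_lit 5) (nat_lit 438) (nat_lit 389) (nat_lit 373)) (XT.lf (nat_lit 0) (nat_lit 1670720299) (nat_lit 684) (nat_lit 3250481590) (nat_lit 76) (nat_lit 3279534401) (nat_lit 289) (nat_lit 5) (nat_lit 298) (nat_lit 5) (nat_lit 290) (nat_lit 5) (nat_lit 439) (nat_lit 389) (nat_lit 372)))) (XT.nd (nat_lit 78) (nat_lit 1292) (nat_lit 0) (XT.lf (nat_lit 0) (nat_lit 6000738742) (nat_lit 684) (nat_lit 653754003) (nat_lit 760) (nat_lit 1647213120) (nat_lit 280) (nat_lit 5) (nat_lit 289) (nat_lit 5) (nat_lit 290) (nat_lit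 5) (nat_lit 440) (nat_lit 389) (nat_lit 371)) (XT.nd (nat_lit 78) (nat_lit 608) (nat_lit 0) (XT.lf (nat_lit 0) (nat_lit 3314405621) (nat_lit 684) (nat_lit 1340672077) (nat_lit 76) (nat_lit 3750669572) (nat_lit 271) (nat_lit 5) (nat_lit 280) (nat_lit 5) (nat_lit 272) (nat_lit 5) (nat_lit 441) (nat_lit 389) (nat_lit 370)) (XT.lf (nat_lit 0) (nat_lit 8173687527) (nat_lit 608) (nat_lit 188091004) (nat_lit 684) (nat_lit 151743157) (nat_lit 263) (nat_lit 5) (nat_lit 271) (nat_lit 5) (nat_lit 272) (nat_lit 5) (nat_lit 442) (nat_lit 389) (nat_lit 369)))))) (XT.nd (nat_lit 468) (nat_lit 3420) (nat_lit 0) (XT.nd (nat_lit 234) (nat_lit 1672) (nat_lit 0) (XT.nd (nat_lit 78) (nat_lit 1140) (nat_lit 0) (XT.lf (nat_lit 0) (nat_lit 664219880) (nat_lit 608) (nat_lit 4197714055) (nat_lit 684) (nat_lit 3762156380) (nat_lit 247) (nat_lit 5) (nat_lit 255) (nat_lit 5) (nat_lit 256) (nat_lit 5) (nat_lit 443) (nat_lit 389)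 (nat_lit 368)) (XT.nd (nat_lit 78) (nat_lit 532) (nat_lit 0) (XT.lf (nat_lit 0) (nat_lit 1235456582) (nat_lit 608) (nat_lit 7024825246) (nat_lit 76) (nat_lit 478194536) (nat_lit 239) (nat_lit 5) (nat_lit 247) (nat_lit 5) (nat_lit 240) (nat_lit 5) (nat_lit 444) (nat_lit 389) (nat_lit 367)) (XT.lf (nat_lit 0) (nat_lit 2763114601) (nat_lit 532) (nat_lit 3559420776) (nat_lit 608) (nat_lit 2533461647) (nat_lit 232) (nat_lit 5) (nat_lit 239) (nat_lit 5) (nat_lit 240) (nat_lit 5) (nat_lit 445) (nat_lit 389) (nat_lit 366)))) (XT.nd (nat_lit 78) (nat_lit 1064) (nat_lit 0) (XT.lf (nat_lit 0) (nat_lit 2524400735) (nat_lit 608) (nat_lit 5137616593) (nat_lit 76) (nat_lit 1315240577) (nat_lit 224) (nat_lit 5) (nat_lit 232) (nat_lit 5) (nat_lit 225) (nat_lit 5) (nat_lit 446) (nat_lit 389) (nat_lit 365)) (XT.nd (nat_lit 78) (nat_lit 532) (nat_lit 0) (XT.lf (nat_lit 0) (nat_lit 4926698459) (nat_lit 532) (nat_lit 2763929838)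 (nat_lit 608) (nat_lit 1411384786) (nat_lit 217) (nat_lit 5) (nat_lit 224) (nat_lit 5) (nat_lit 225) (nat_lit 5) (nat_lit 447) (nat_lit 389) (nat_lit 364)) (XT.lf (nat_lit 0) (nat_lit 3716131193) (nat_lit 532) (nat_lit 3206044441) (nat_lit 76) (nat_lit 2308168199) (nat_lit 210) (nat_lit 5) (nat_lit 217) (nat_lit 5) (nat_lit 211) (nat_lit 5) (nat_lit 448) (nat_lit 389) (nat_lit 363))))) (XT.nd (nat_lit 234) (nat_lit 1824) (nat_lit 0) (XT.nd (nat_lit 78) (nat_lit 1064) (nat_lit 0) (XT.lf (nat_lit 0) (nat_lit 7143184360) (nat_lit 532) (nat_lit 1825349154) (nat_lit 608) (nat_lit 394011123) (nat_lit 203) (nat_lit 5) (nat_lit 210) (nat_lit 5) (nat_lit 211) (nat_lit 5) (nat_lit 449) (nat_lit 389) (nat_lit 362)) (XT.nd (nat_lit 78) (nat_lit 532) (nat_lit 0) (XT.lf (nat_lit 0) (nat_lit 4812239343) (nat_lit 532) (nat_lit 1242475373) (nat_lit 76) (nat_lit 3443445133) (nat_lit 196) (nat_lit 5) (nat_lit 203) (nat_lit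 5) (nat_lit 197) (nat_lit 5) (nat_lit 450) (nat_lit 389) (nat_lit 361)) (XT.lf (nat_lit 0) (nat_lit 512794050) (nat_lit 532) (nat_lit 241046663) (nat_lit 76) (nat_lit 8884127410) (nat_lit 189) (nat_lit 5) (nat_lit 196) (nat_lit 5) (nat_lit 190) (nat_lit 5) (nat_lit 451) (nat_lit 389) (nat_lit 360)))) (XT.nd (nat_lit 78) (nat_lit 912) (nat_lit 0) (XT.lf (nat_lit 0) (nat_lit 750032856) (nat_lit 456) (nat_lit 5068206904) (nat_lit 532) (nat_lit 3962832807) (nat_lit 177) (nat_lit 5) (nat_lit 183) (nat_lit 5) (nat_lit 184) (nat_lit 5) (nat_lit 452) (nat_lit 389) (nat_lit 359)) (XT.nd (nat_lit 78) (nat_lit 456) (nat_lit 0) (XT.lf (nat_lit 0) (nat_lit 1326409911) (nat_lit 456) (nat_lit 8160382936) (nat_lit 76) (nat_lit 441715121) (nat_lit 171) (nat_lit 5) (nat_lit 177) (nat_lit 5) (nat_lit 172) (nat_lit 5) (nat_lit 453) (nat_lit 389) (nat_lit 358)) (XT.lf (nat_lit 0) (nat_lit 2764662146) (nat_lit 456) (nat_lit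 3972487072) (nat_lit 532) (nat_lit 3342369449) (nat_lit 165) (nat_lit 5) (nat_lit 171) (nat_lit 5) (nat_lit 172) (nat_lit 5) (nat_lit 454) (nat_lit 389) (nat_lit 357))))))) (XT.nd (nat_lit 858) (nat_lit 3344) (nat_lit 0) (XT.nd (nat_lit 390) (nat_lit 2432) (nat_lit 0) (XT.nd (nat_lit 156) (nat_lit 1216) (nat_lit 0) (XT.nd (nat_lit 78) (nat_lit 380) (nat_lit 0) (XT.lf (nat_lit 0) (nat_lit 2043718752) (nat_lit 456) (nat_lit 6460922509) (nat_lit 76) (nat_lit 1730242137) (nat_lit 159) (nat_lit 5) (nat_lit 165) (nat_lit 5) (nat_lit 160) (nat_lit 5) (nat_lit 455) (nat_lit 389) (nat_lit 356)) (XT.lf (nat_lit 0) (nat_lit 4770317204) (nat_lit 380) (nat_lit 2789057684) (nat_lit 456) (nat_lit 2834833014) (nat_lit 154) (nat_lit 5) (nat_lit 159) (nat_lit 5) (nat_lit 160) (nat_lit 5) (nat_lit 456) (nat_lit 389) (nat_lit 355))) (XT.nd (nat_lit 78) (nat_lit 760) (nat_lit 0) (XT.lf (nat_lit 0) (nat_lit 2655983316)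 (nat_lit 456) (nat_lit 4794544220) (nat_lit 76) (nat_lit 3107265049) (nat_lit 148) (nat_lit 5) (nat_lit 154) (nat_lit 5) (nat_lit 149) (nat_lit 5) (nat_lit 457) (nat_lit 389) (nat_lit 354)) (XT.nd (nat_lit 78) (nat_lit 380) (nat_lit 0) (XT.lf (nat_lit 0) (nat_lit 6751411945) (nat_lit 380) (nat_lit 1531040112) (nat_lit 456) (nat_lit 2443277082) (nat_lit 143) (nat_lit 5) (nat_lit 148) (nat_lit 5) (nat_lit 149) (nat_lit 5) (nat_lit 458) (nat_lit 389) (nat_lit 353)) (XT.lf (nat_lit 0) (nat_lit 3159872653) (nat_lit 380) (nat_lit 3177958744) (nat_lit 76) (nat_lit 4560016049) (nat_lit 138) (nat_lit 5) (nat_lit 143) (nat_lit 5) (nat_lit 139) (nat_lit 5) (nat_lit 459) (nat_lit 389) (nat_lit 352))))) (XT.nd (nat_lit 234) (nat_lit 1368) (nat_lit 0) (XT.nd (nat_lit 78) (nat_lit 684) (nat_lit 0) (XT.lf (nat_lit 0) (nat_lit 8691179097) (nat_lit 380) (nat_lit 211640644) (nat_lit 456) (nat_lit 2171895947) (nat_lit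 133) (nat_lit 5) (nat_lit 138) (nat_lit 5) (nat_lit 139) (nat_lit 5) (nat_lit 460) (nat_lit 389) (nat_lit 351)) (XT.nd (nat_lit 78) (nat_lit 304) (nat_lit 0) (XT.lf (nat_lit 0) (nat_lit 3550915179) (nat_lit 380) (nat_lit 1629193591) (nat_lit 76) (nat_lit 6075596658) (nat_lit 128) (nat_lit 5) (nat_lit 133) (nat_lit 5) (nat_lit 129) (nat_lit 5) (nat_lit 461) (nat_lit 389) (nat_lit 350)) (XT.lf (nat_lit 0) (nat_lit 9423264140) (nat_lit 380) (nat_lit 877873463) (nat_lit 76) (nat_lit 1140559692) (nat_lit 124) (nat_lit 5) (nat_lit 129) (nat_lit 5) (nat_lit 125) (nat_lit 5) (nat_lit 462) (nat_lit 389) (nat_lit 349)))) (XT.nd (nat_lit 78) (nat_lit 988) (nat_lit 0) (XT.lf (nat_lit 0) (nat_lit 3823432102) (nat_lit 380) (nat_lit 167794973) (nat_lit 76) (nat_lit 7640844648) (nat_lit 119) (nat_lit 5) (nat_lit 124) (nat_lit 5) (nat_lit 120) (nat_lit 5) (nat_lit 463) (nat_lit 389) (nat_lit 348)) (XT.nd (nat_lit 78)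 (nat_lit 380) (nat_lit 0) (XT.lf (nat_lit 0) (nat_lit 535146325) (nat_lit 304) (nat_lit 9300260887) (nat_lit 380) (nat_lit 1992044072) (nat_lit 111) (nat_lit 5) (nat_lit 115) (nat_lit 5) (nat_lit 116) (nat_lit 5) (nat_lit 464) (nat_lit 389) (nat_lit 347)) (XT.lf (nat_lit 0) (nat_lit 1200700626) (nat_lit 304) (nat_lit 2777554788) (nat_lit 380) (nat_lit 8049290404) (nat_lit 106) (nat_lit 5) (nat_lit 110) (nat_lit 5) (nat_lit 111) (nat_lit 5) (nat_lit 465) (nat_lit 389) (nat_lit 346)))))) (XT.nd (nat_lit 468) (nat_lit 1596) (nat_lit 0) (XT.nd (nat_lit 234) (nat_lit 912) (nat_lit 0) (XT.nd (nat_lit 78) (nat_lit 608) (nat_lit 0) (XT.lf (nat_lit 0) (nat_lit 1837723772) (nat_lit 228) (nat_lit 8294311746) (nat_lit 304) (nat_lit 2100721400) (nat_lit 103) (nat_lit 5) (nat_lit 106) (nat_lit 5) (nat_lit 107) (nat_lit 5) (nat_lit 466) (nat_lit 389) (nat_lit 345)) (XT.nd (nat_lit 78) (nat_lit 228) (nat_lit 0) (XT.lf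 (nat_lit 0) (nat_lit 2437762944) (nat_lit 304) (nat_lit 1561724046) (nat_lit 380) (nat_lit 8443600283) (nat_lit 98) (nat_lit 5) (nat_lit 102) (nat_lit 5) (nat_lit 103) (nat_lit 5) (nat_lit 467) (nat_lit 389) (nat_lit 344)) (XT.lf (nat_lit 0) (nat_lit 2993544120) (nat_lit 228) (nat_lit 7304913038) (nat_lit 304) (nat_lit 2360112093) (nat_lit 95) (nat_lit 5) (nat_lit 98) (nat_lit 5) (nat_lit 99) (nat_lit 5) (nat_lit 468) (nat_lit 389) (nat_lit 343)))) (XT.nd (nat_lit 78) (nat_lit 532) (nat_lit 0) (XT.lf (nat_lit 0) (nat_lit 3515327932) (nat_lit 304) (nat_lit 360711338) (nat_lit 380) (nat_lit 9003546624) (nat_lit 90) (nat_lit 5) (nat_lit 94) (nat_lit 5) (nat_lit 95) (nat_lit 5) (nat_lit 469) (nat_lit 389) (nat_lit 342)) (XT.nd (nat_lit 78) (nat_lit 304) (nat_lit 0) (XT.lf (nat_lit 0) (nat_lit 3975550816) (nat_lit 228) (nat_lit 6348671088) (nat_lit 304) (nat_lit 2781563842) (nat_lit 87) (nat_lit 5) (nat_lit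 90) (nat_lit 5) (nat_lit 91) (nat_lit 5) (nat_lit 470) (nat_lit 389) (nat_lit 341)) (XT.lf (nat_lit 0) (nat_lit 3601568370) (nat_lit 304) (nat_lit 8938211051) (nat_lit 76) (nat_lit 798084696) (nat_lit 83) (nat_lit 5) (nat_lit 87) (nat_lit 5) (nat_lit 84) (nat_lit 5) (nat_lit 471) (nat_lit 389) (nat_lit 340))))) (XT.nd (nat_lit 234) (nat_lit 836) (nat_lit 0) (XT.nd (nat_lit 78) (nat_lit 532) (nat_lit 0) (XT.lf (nat_lit 0) (nat_lit 4753978436) (nat_lit 228) (nat_lit 5443241452) (nat_lit 304) (nat_lit 3378145482) (nat_lit 80) (nat_lit 5) (nat_lit 83) (nat_lit 5) (nat_lit 84) (nat_lit 5) (nat_lit 472) (nat_lit 389) (nat_lit 339)) (XT.nd (nat_lit 78) (nat_lit 228) (nat_lit 0) (XT.lf (nat_lit 0) (nat_lit 3159504827) (nat_lit 304) (nat_lit 8756198855) (nat_lit 76) (nat_lit 1903273785) (nat_lit 76) (nat_lit 5) (nat_lit 80) (nat_lit 5) (nat_lit 77) (nat_lit 5) (nat_lit 473) (nat_lit 389) (nat_lit 338)) (XT.lf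 (nat_lit 0) (nat_lit 5296023388) (nat_lit 228) (nat_lit 4607516308) (nat_lit 304) (nat_lit 4164792847) (nat_lit 73) (nat_lit 5) (nat_lit 76) (nat_lit 5) (nat_lit 77) (nat_lit 5) (nat_lit 474) (nat_lit 389) (nat_lit 337)))) (XT.nd (nat_lit 78) (nat_lit 532) (nat_lit 0) (XT.lf (nat_lit 0) (nat_lit 2532146664) (nat_lit 304) (nat_lit 8851280016) (nat_lit 76) (nat_lit 2940607137) (nat_lit 69) (nat_lit 5) (nat_lit 73) (nat_lit 5) (nat_lit 70) (nat_lit 5) (nat_lit 475) (nat_lit 389) (nat_lit 336)) (XT.nd (nat_lit 78) (nat_lit 304) (nat_lit 0) (XT.lf (nat_lit 0) (nat_lit 5565482716) (nat_lit 228) (nat_lit 3861826210) (nat_lit 304) (nat_lit 5158472563) (nat_lit 66) (nat_lit 5) (nat_lit 69) (nat_lit 5) (nat_lit 70) (nat_lit 5) (nat_lit 476) (nat_lit 389) (nat_lit 335)) (XT.lf (nat_lit 0) (nat_lit 1702058893) (nat_lit 304) (nat_lit 9262508473) (nat_lit 76) (nat_lit 3889599203) (nat_lit 62) (nat_lit 5) (nat_lit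 66) (nat_lit 5) (nat_lit 63) (nat_lit 5) (nat_lit 477) (nat_lit 389) (nat_lit 334))))))))
noncomputable def xc25 : XT := (XT.nd (nat_lit 58890) (nat_lit 0) (nat_lit 9880) (XT.nd (nat_lit 57954) (nat_lit 0) (nat_lit 26296) (XT.nd (nat_lit 390) (nat_lit 1064) (nat_lit 0) (XT.nd (nat_lit 156) (nat_lit 608) (nat_lit 0) (XT.nd (nat_lit 78) (nat_lit 304) (nat_lit 0) (XT.lf (nat_lit 0) (nat_lit 5522357439) (nat_lit 152) (nat_lit 3228158134) (nat_lit 228) (nat_lit 6378365430) (nat_lit 60) (nat_lit 5) (nat_lit 62) (nat_lit 5) (nat_lit 63) (nat_lit 5) (nat_lit 478) (nat_lit 389) (nat_lit 333)) (XT.lf (nat_lit 0) (nat_lit 649540713) (nat_lit 304) (nat_lit 10033010950) (nat_lit 76) (nat_lit 4728034867) (nat_lit 56) (nat_lit 5) (nat_lit 60) (nat_lit 5) (nat_lit 57) (nat_lit 5) (nat_lit 479) (nat_lit 389) (nat_lit 332))) (XT.nd (nat_lit 78) (nat_lit 456) (nat_lit 0) (XT.lf (nat_lit 0) (nat_lit 5122416555) (nat_lit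 152) (nat_lit 2730391902) (nat_lit 228) (nat_lit 7846071250) (nat_lit 54) (nat_lit 5) (nat_lit 56) (nat_lit 5) (nat_lit 57) (nat_lit 5) (nat_lit 480) (nat_lit 389) (nat_lit 331)) (XT.nd (nat_lit 78) (nat_lit 228) (nat_lit 0) (XT.lf (nat_lit 0) (nat_lit 4779793584) (nat_lit 228) (nat_lit 10558515114) (nat_lit 304) (nat_lit 656193527) (nat_lit 51) (nat_lit 5) (nat_lit 54) (nat_lit 5) (nat_lit 55) (nat_lit 5) (nat_lit 481) (nat_lit 389) (nat_lit 330)) (XT.lf (nat_lit 0) (nat_lit 4316717408) (nat_lit 152) (nat_lit 2394557240) (nat_lit 228) (nat_lit 9585837153) (nat_lit 48) (nat_lit 5) (nat_lit 50) (nat_lit 5) (nat_lit 51) (nat_lit 5) (nat_lit 482) (nat_lit 389) (nat_lit 329))))) (XT.nd (nat_lit 234) (nat_lit 456) (nat_lit 0) (XT.nd (nat_lit 78) (nat_lit 380) (nat_lit 0) (XT.lf (nat_lit 0) (nat_lit 3745170863) (nat_lit 228) (nat_lit 10618442928) (nat_lit 304) (nat_lit 2243646874) (nat_lit 45) (nat_lit 5)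 (nat_lit 48) (nat_lit 5) (nat_lit 49) (nat_lit 5) (nat_lit 483) (nat_lit 389) (nat_lit 328)) (XT.nd (nat_lit 78) (nat_lit 152) (nat_lit 0) (XT.lf (nat_lit 0) (nat_lit 3051077725) (nat_lit 152) (nat_lit 2249113958) (nat_lit 228) (nat_lit 11624811698) (nat_lit 42) (nat_lit 5) (nat_lit 44) (nat_lit 5) (nat_lit 45) (nat_lit 5) (nat_lit 484) (nat_lit 389) (nat_lit 327)) (XT.lf (nat_lit 0) (nat_lit 2221054704) (nat_lit 152) (nat_lit 10896934329) (nat_lit 228) (nat_lit 4132432979) (nat_lit 40) (nat_lit 5) (nat_lit 42) (nat_lit 5) (nat_lit 43) (nat_lit 5) (nat_lit 485) (nat_lit 389) (nat_lit 326)))) (XT.nd (nat_lit 78) (nat_lit 228) (nat_lit 0) (XT.lf (nat_lit 0) (nat_lit 1265494106) (nat_lit 152) (nat_lit 2325257971) (nat_lit 228) (nat_lit 13993327285) (nat_lit 37) (nat_lit 5) (nat_lit 39) (nat_lit 5) (nat_lit 40) (nat_lit 5) (nat_lit 486) (nat_lit 389) (nat_lit 325)) (XT.nd (nat_lit 78) (nat_lit 76) (nat_lit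 0) (XT.lf (nat_lit 0) (nat_lit 144298539) (nat_lit 152) (nat_lit 11427151065) (nat_lit 228) (nat_lit 6354113864) (nat_lit 35) (nat_lit 5) (nat_lit 37) (nat_lit 5) (nat_lit 38) (nat_lit 5) (nat_lit 487) (nat_lit 389) (nat_lit 324)) (XT.lf (nat_lit 0) (nat_lit 1557941517) (nat_lit 228) (nat_lit 1091986798) (nat_lit 76) (nat_lit 15625899068) (nat_lit 34) (nat_lit 5) (nat_lit 37) (nat_lit 5) (nat_lit 35) (nat_lit 5) (nat_lit 488) (nat_lit 389) (nat_lit 323)))))) (XT.nd (nat_lit 468) (nat_lit 6460) (nat_lit 0) (XT.nd (nat_lit 234) (nat_lit 6688) (nat_lit 0) (XT.nd (nat_lit 78) (nat_lit 2964) (nat_lit 0) (XT.lf (nat_lit 0) (nat_lit 2829736663) (nat_lit 1292) (nat_lit 302965058) (nat_lit 1292) (nat_lit 302965058) (nat_lit 592) (nat_lit 4) (nat_lit 609) (nat_lit 5) (nat_lit 609) (nat_lit 4) (nat_lit 420) (nat_lit 390) (nat_lit 390)) (XT.nd (nat_lit 78) (nat_lit 1520) (nat_lit 0) (XT.lf (nat_lit 0) (nat_lit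 4420137181) (nat_lit 1444) (nat_lit 952490622) (nat_lit 0) (nat_lit 1543152188) (nat_lit 573) (nat_lit 5) (nat_lit 592) (nat_lit 4) (nat_lit 573) (nat_lit 4) (nat_lit 421) (nat_lit 390) (nat_lit 389)) (XT.lf (nat_lit 0) (nat_lit 2490845834) (nat_lit 1520) (nat_lit 638665721) (nat_lit 76) (nat_lit 3833700290) (nat_lit 553) (nat_lit 5) (nat_lit 573) (nat_lit 5) (nat_lit 554) (nat_lit 4) (nat_lit 422) (nat_lit 390) (nat_lit 388)))) (XT.nd (nat_lit 78) (nat_lit 5092) (nat_lit 0) (XT.lf (nat_lit 0) (nat_lit 471234690) (nat_lit 1596) (nat_lit 266484445) (nat_lit 76) (nat_lit 6276022906) (nat_lit 532) (nat_lit 5) (nat_lit 553) (nat_lit 5) (nat_lit 533) (nat_lit 5) (nat_lit 423) (nat_lit 390) (nat_lit 387)) (XT.nd (nat_lit 78) (nat_lit 1824) (nat_lit 0) (XT.lf (nat_lit 0) (nat_lit 143370085) (nat_lit 1672) (nat_lit 5273585311) (nat_lit 1748) (nat_lit 1649981314) (nat_lit 489) (nat_lit 5) (nat_lit 511) (nat_lit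 5) (nat_lit 512) (nat_lit 4) (nat_lit 424) (nat_lit 390) (nat_lit 386)) (XT.lf (nat_lit 0) (nat_lit 606342677) (nat_lit 1748) (nat_lit 2650730085) (nat_lit 1824) (nat_lit 3866000053) (nat_lit 465) (nat_lit 5) (nat_lit 488) (nat_lit 5) (nat_lit 489) (nat_lit 5) (nat_lit 425) (nat_lit 390) (nat_lit 385))))) (XT.nd (nat_lit 234) (nat_lit 2736) (nat_lit 0) (XT.nd (nat_lit 78) (nat_lit 1976) (nat_lit 0) (XT.lf (nat_lit 0) (nat_lit 1003331346) (nat_lit 1748) (nat_lit 6056175078) (nat_lit 76) (nat_lit 122860503) (nat_lit 442) (nat_lit 5) (nat_lit 465) (nat_lit 5) (nat_lit 443) (nat_lit 5) (nat_lit 426) (nat_lit 390) (nat_lit 384)) (XT.nd (nat_lit 78) (nat_lit 988) (nat_lit 0) (XT.lf (nat_lit 0) (nat_lit 1676403454) (nat_lit 988) (nat_lit 4220691759) (nat_lit 1064) (nat_lit 1347243564) (nat_lit 429) (nat_lit 5) (nat_lit 442) (nat_lit 5) (nat_lit 443) (nat_lit 5) (nat_lit 427) (nat_lit 390) (nat_lit 383)) (XT.lf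 (nat_lit 0) (nat_lit 2276259105) (nat_lit 912) (nat_lit 1221508941) (nat_lit 988) (nat_lit 3811639285) (nat_lit 416) (nat_lit 5) (nat_lit 428) (nat_lit 5) (nat_lit 429) (nat_lit 5) (nat_lit 428) (nat_lit 390) (nat_lit 382)))) (XT.nd (nat_lit 78) (nat_lit 1748) (nat_lit 0) (XT.lf (nat_lit 0) (nat_lit 1010855270) (nat_lit 988) (nat_lit 4457579501) (nat_lit 76) (nat_lit 1909065571) (nat_lit 403) (nat_lit 5) (nat_lit 416) (nat_lit 5) (nat_lit 404) (nat_lit 5) (nat_lit 429) (nat_lit 390) (nat_lit 381)) (XT.nd (nat_lit 78) (nat_lit 912) (nat_lit 0) (XT.lf (nat_lit 0) (nat_lit 3600808385) (nat_lit 836) (nat_lit 2256634621) (nat_lit 912) (nat_lit 1591089378) (nat_lit 392) (nat_lit 5) (nat_lit 403) (nat_lit 5) (nat_lit 404) (nat_lit 5) (nat_lit 430) (nat_lit 390) (nat_lit 380)) (XT.lf (nat_lit 0) (nat_lit 3217016719) (nat_lit 912) (nat_lit 3199662508) (nat_lit 76) (nat_lit 1105948537) (nat_lit 380) (nat_lit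 5) (nat_lit 392) (nat_lit 5) (nat_lit 381) (nat_lit 5) (nat_lit 431) (nat_lit 390) (nat_lit 379))))))) (XT.nd (nat_lit 936) (nat_lit 6916) (nat_lit 0) (XT.nd (nat_lit 468) (nat_lit 3952) (nat_lit 0) (XT.nd (nat_lit 234) (nat_lit 3040) (nat_lit 0) (XT.nd (nat_lit 78) (nat_lit 1672) (nat_lit 0) (XT.lf (nat_lit 0) (nat_lit 485904899) (nat_lit 836) (nat_lit 2514866787) (nat_lit 76) (nat_lit 4599032790) (nat_lit 369) (nat_lit 5) (nat_lit 380) (nat_lit 5) (nat_lit 370) (nat_lit 5) (nat_lit 432) (nat_lit 390) (nat_lit 378)) (XT.nd (nat_lit 78) (nat_lit 836) (nat_lit 0) (XT.lf (nat_lit 0) (nat_lit 5298863184) (nat_lit 912) (nat_lit 1797676115) (nat_lit 76) (nat_lit 583485418) (nat_lit 358) (nat_lit 5) (nat_lit 370) (nat_lit 5) (nat_lit 359) (nat_lit 5) (nat_lit 433) (nat_lit 390) (nat_lit 377)) (XT.lf (nat_lit 0) (nat_lit 2416103084) (nat_lit 836) (nat_lit 1052891013) (nat_lit 76) (nat_lit 4294248985) (nat_lit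 347) (nat_lit 5) (nat_lit 358) (nat_lit 5) (nat_lit 348) (nat_lit 5) (nat_lit 434) (nat_lit 390) (nat_lit 376)))) (XT.nd (nat_lit 78) (nat_lit 2280) (nat_lit 0) (XT.lf (nat_lit 0) (nat_lit 7265324820) (nat_lit 836) (nat_lit 263349245) (nat_lit 76) (nat_lit 321181026) (nat_lit 337) (nat_lit 5) (nat_lit 348) (nat_lit 5) (nat_lit 338) (nat_lit 5) (nat_lit 435) (nat_lit 390) (nat_lit 375)) (XT.nd (nat_lit 78) (nat_lit 760) (nat_lit 0) (XT.lf (nat_lit 0) (nat_lit 544062103) (nat_lit 760) (nat_lit 3688197602) (nat_lit 836) (nat_lit 3706903956) (nat_lit 317) (nat_lit 5) (nat_lit 327) (nat_lit 5) (nat_lit 328) (nat_lit 5) (nat_lit 436) (nat_lit 390) (nat_lit 374)) (XT.lf (nat_lit 0) (nat_lit 1086929158) (nat_lit 760) (nat_lit 6628796107) (nat_lit 76) (nat_lit 316266188) (nat_lit 307) (nat_lit 5) (nat_lit 317) (nat_lit 5) (nat_lit 308) (nat_lit 5) (nat_lit 437) (nat_lit 390) (nat_lit 373))))) (XT.nd (nat_lit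 234) (nat_lit 1900) (nat_lit 0) (XT.nd (nat_lit 78) (nat_lit 1368) (nat_lit 0) (XT.lf (nat_lit 0) (nat_lit 2273146312) (nat_lit 684) (nat_lit 3672766242) (nat_lit 760) (nat_lit 2181784833) (nat_lit 298) (nat_lit 5) (nat_lit 307) (nat_lit 5) (nat_lit 308) (nat_lit 5) (nat_lit 438) (nat_lit 390) (nat_lit 372)) (XT.nd (nat_lit 78) (nat_lit 684) (nat_lit 0) (XT.lf (nat_lit 0) (nat_lit 2641381141) (nat_lit 684) (nat_lit 5045341245) (nat_lit 76) (nat_lit 540160397) (nat_lit 289) (nat_lit 5) (nat_lit 298) (nat_lit 5) (nat_lit 290) (nat_lit 5) (nat_lit 439) (nat_lit 390) (nat_lit 371)) (XT.lf (nat_lit 0) (nat_lit 4109215470) (nat_lit 684) (nat_lit 3447275752) (nat_lit 760) (nat_lit 772742263) (nat_lit 280) (nat_lit 5) (nat_lit 289) (nat_lit 5) (nat_lit 290) (nat_lit 5) (nat_lit 440) (nat_lit 390) (nat_lit 370)))) (XT.nd (nat_lit 78) (nat_lit 1216) (nat_lit 0) (XT.lf (nat_lit 0) (nat_lit 4090413965) (nat_lit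 684) (nat_lit 3373870650) (nat_lit 76) (nat_lit 970624096) (nat_lit 271) (nat_lit 5) (nat_lit 280) (nat_lit 5) (nat_lit 272) (nat_lit 5) (nat_lit 441) (nat_lit 390) (nat_lit 369)) (XT.nd (nat_lit 78) (nat_lit 532) (nat_lit 0) (XT.lf (nat_lit 0) (nat_lit 518481815) (nat_lit 684) (nat_lit 2506216591) (nat_lit 76) (nat_lit 5519290926) (nat_lit 262) (nat_lit 5) (nat_lit 271) (nat_lit 5) (nat_lit 263) (nat_lit 5) (nat_lit 442) (nat_lit 390) (nat_lit 368)) (XT.lf (nat_lit 0) (nat_lit 5438772134) (nat_lit 608) (nat_lit 1625643204) (nat_lit 76) (nat_lit 1591957781) (nat_lit 255) (nat_lit 5) (nat_lit 263) (nat_lit 5) (nat_lit 256) (nat_lit 5) (nat_lit 443) (nat_lit 390) (nat_lit 367)))))) (XT.nd (nat_lit 468) (nat_lit 2964) (nat_lit 0) (XT.nd (nat_lit 234) (nat_lit 1596) (nat_lit 0) (XT.nd (nat_lit 78) (nat_lit 1672) (nat_lit 0) (XT.lf (nat_lit 0) (nat_lit 1694249599) (nat_lit 684) (nat_lit 725376289) (nat_lit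 76) (nat_lit 6352641576) (nat_lit 246) (nat_lit 5) (nat_lit 255) (nat_lit 5) (nat_lit 247) (nat_lit 5) (nat_lit 444) (nat_lit 390) (nat_lit 366)) (XT.nd (nat_lit 78) (nat_lit 608) (nat_lit 0) (XT.lf (nat_lit 0) (nat_lit 190509406) (nat_lit 532) (nat_lit 6501017901) (nat_lit 608) (nat_lit 2200063243) (nat_lit 232) (nat_lit 5) (nat_lit 239) (nat_lit 5) (nat_lit 240) (nat_lit 5) (nat_lit 445) (nat_lit 390) (nat_lit 365)) (XT.lf (nat_lit 0) (nat_lit 1130883363) (nat_lit 532) (nat_lit 1644385623) (nat_lit 608) (nat_lit 6239108401) (nat_lit 224) (nat_lit 5) (nat_lit 231) (nat_lit 5) (nat_lit 232) (nat_lit 5) (nat_lit 446) (nat_lit 390) (nat_lit 364)))) (XT.nd (nat_lit 78) (nat_lit 1064) (nat_lit 0) (XT.lf (nat_lit 0) (nat_lit 2082887993) (nat_lit 532) (nat_lit 5778533864) (nat_lit 608) (nat_lit 1279318121) (nat_lit 217) (nat_lit 5) (nat_lit 224) (nat_lit 5) (nat_lit 225) (nat_lit 5) (nat_lit 447) (nat_lit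 390) (nat_lit 363)) (XT.nd (nat_lit 78) (nat_lit 532) (nat_lit 0) (XT.lf (nat_lit 0) (nat_lit 3046304750) (nat_lit 456) (nat_lit 715297537) (nat_lit 532) (nat_lit 5509154196) (nat_lit 210) (nat_lit 5) (nat_lit 216) (nat_lit 5) (nat_lit 217) (nat_lit 5) (nat_lit 448) (nat_lit 390) (nat_lit 362)) (XT.lf (nat_lit 0) (nat_lit 4017895541) (nat_lit 532) (nat_lit 4921809144) (nat_lit 608) (nat_lit 464744071) (nat_lit 203) (nat_lit 5) (nat_lit 210) (nat_lit 5) (nat_lit 211) (nat_lit 5) (nat_lit 449) (nat_lit 390) (nat_lit 361))))) (XT.nd (nat_lit 234) (nat_lit 1444) (nat_lit 0) (XT.nd (nat_lit 78) (nat_lit 988) (nat_lit 0) (XT.lf (nat_lit 0) (nat_lit 4652049912) (nat_lit 532) (nat_lit 4545200751) (nat_lit 76) (nat_lit 344635381) (nat_lit 196) (nat_lit 5) (nat_lit 203) (nat_lit 5) (nat_lit 197) (nat_lit 5) (nat_lit 450) (nat_lit 390) (nat_lit 360)) (XT.nd (nat_lit 78) (nat_lit 456) (nat_lit 0) (XT.lf (nat_lit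 0) (nat_lit 241027636) (nat_lit 532) (nat_lit 3701665487) (nat_lit 76) (nat_lit 5740443133) (nat_lit 189) (nat_lit 5) (nat_lit 196) (nat_lit 5) (nat_lit 190) (nat_lit 5) (nat_lit 451) (nat_lit 390) (nat_lit 359)) (XT.lf (nat_lit 0) (nat_lit 5450144428) (nat_lit 532) (nat_lit 2862146095) (nat_lit 76) (nat_lit 1515881567) (nat_lit 183) (nat_lit 5) (nat_lit 190) (nat_lit 5) (nat_lit 184) (nat_lit 5) (nat_lit 452) (nat_lit 390) (nat_lit 358)))) (XT.nd (nat_lit 78) (nat_lit 912) (nat_lit 0) (XT.lf (nat_lit 0) (nat_lit 836088487) (nat_lit 532) (nat_lit 2017455682) (nat_lit 76) (nat_lit 7123733254) (nat_lit 176) (nat_lit 5) (nat_lit 183) (nat_lit 5) (nat_lit 177) (nat_lit 5) (nat_lit 453) (nat_lit 390) (nat_lit 357)) (XT.nd (nat_lit 78) (nat_lit 532) (nat_lit 0) (XT.lf (nat_lit 0) (nat_lit 6150553551) (nat_lit 456) (nat_lit 1184491939) (nat_lit 76) (nat_lit 2795172565) (nat_lit 171) (nat_lit 5) (nat_lit 177)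 (nat_lit 5) (nat_lit 172) (nat_lit 5) (nat_lit 454) (nat_lit 390) (nat_lit 356)) (XT.lf (nat_lit 0) (nat_lit 1325138595) (nat_lit 532) (nat_lit 345197841) (nat_lit 76) (nat_lit 8617126203) (nat_lit 164) (nat_lit 5) (nat_lit 171) (nat_lit 5) (nat_lit 165) (nat_lit 5) (nat_lit 455) (nat_lit 390) (nat_lit 355))))))))
noncomputable def xc26 : XT := (XT.nd (nat_lit 1794) (nat_lit 2052) (nat_lit 0) (XT.nd (nat_lit 858) (nat_lit 3344) (nat_lit 0) (XT.nd (nat_lit 390) (nat_lit 2052) (nat_lit 0) (XT.nd (nat_lit 156) (nat_lit 1140) (nat_lit 0) (XT.nd (nat_lit 78) (nat_lit 456) (nat_lit 0) (XT.lf (nat_lit 0) (nat_lit 479347548) (nat_lit 380) (nat_lit 6275357233) (nat_lit 456) (nat_lit 3693808270) (nat_lit 154) (nat_lit 5) (nat_lit 159) (nat_lit 5) (nat_lit 160) (nat_lit 5) (nat_lit 456) (nat_lit 390) (nat_lit 354)) (XT.lf (nat_lit 0) (nat_lit 1317162172) (nat_lit 380) (nat_lit 397142374) (nat_lit 456) (nat_lit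 8899788023) (nat_lit 148) (nat_lit 5) (nat_lit 153) (nat_lit 5) (nat_lit 154) (nat_lit 5) (nat_lit 457) (nat_lit 390) (nat_lit 353))) (XT.nd (nat_lit 78) (nat_lit 760) (nat_lit 0) (XT.lf (nat_lit 0) (nat_lit 2122633645) (nat_lit 380) (nat_lit 5141687044) (nat_lit 456) (nat_lit 3519241283) (nat_lit 143) (nat_lit 5) (nat_lit 148) (nat_lit 5) (nat_lit 149) (nat_lit 5) (nat_lit 458) (nat_lit 390) (nat_lit 352)) (XT.nd (nat_lit 78) (nat_lit 380) (nat_lit 0) (XT.lf (nat_lit 0) (nat_lit 1999663674) (nat_lit 380) (nat_lit 8024019966) (nat_lit 76) (nat_lit 934107094) (nat_lit 138) (nat_lit 5) (nat_lit 143) (nat_lit 5) (nat_lit 139) (nat_lit 5) (nat_lit 459) (nat_lit 390) (nat_lit 351)) (XT.lf (nat_lit 0) (nat_lit 3712490624) (nat_lit 380) (nat_lit 3955196777) (nat_lit 456) (nat_lit 3468473553) (nat_lit 133) (nat_lit 5) (nat_lit 138) (nat_lit 5) (nat_lit 139) (nat_lit 5) (nat_lit 460) (nat_lit 390) (nat_lit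 350))))) (XT.nd (nat_lit 234) (nat_lit 988) (nat_lit 0) (XT.nd (nat_lit 78) (nat_lit 684) (nat_lit 0) (XT.lf (nat_lit 0) (nat_lit 2170987579) (nat_lit 380) (nat_lit 6833851645) (nat_lit 76) (nat_lit 2314490272) (nat_lit 128) (nat_lit 5) (nat_lit 133) (nat_lit 5) (nat_lit 129) (nat_lit 5) (nat_lit 461) (nat_lit 390) (nat_lit 349)) (XT.nd (nat_lit 78) (nat_lit 380) (nat_lit 0) (XT.lf (nat_lit 0) (nat_lit 5230383096) (nat_lit 304) (nat_lit 2729343850) (nat_lit 380) (nat_lit 3547269852) (nat_lit 124) (nat_lit 5) (nat_lit 128) (nat_lit 5) (nat_lit 129) (nat_lit 5) (nat_lit 462) (nat_lit 390) (nat_lit 348)) (XT.lf (nat_lit 0) (nat_lit 2219656696) (nat_lit 380) (nat_lit 5743806691) (nat_lit 76) (nat_lit 3736009243) (nat_lit 119) (nat_lit 5) (nat_lit 124) (nat_lit 5) (nat_lit 120) (nat_lit 5) (nat_lit 463) (nat_lit 390) (nat_lit 347)))) (XT.nd (nat_lit 78) (nat_lit 684) (nat_lit 0) (XT.lf (nat_lit 0) (nat_lit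 6656166133) (nat_lit 304) (nat_lit 1477966452) (nat_lit 380) (nat_lit 3762672586) (nat_lit 115) (nat_lit 5) (nat_lit 119) (nat_lit 5) (nat_lit 120) (nat_lit 5) (nat_lit 464) (nat_lit 390) (nat_lit 346)) (XT.nd (nat_lit 78) (nat_lit 304) (nat_lit 0) (XT.lf (nat_lit 0) (nat_lit 2138343086) (nat_lit 380) (nat_lit 4775609786) (nat_lit 76) (nat_lit 5185029728) (nat_lit 110) (nat_lit 5) (nat_lit 115) (nat_lit 5) (nat_lit 111) (nat_lit 5) (nat_lit 465) (nat_lit 390) (nat_lit 345)) (XT.lf (nat_lit 0) (nat_lit 7967858650) (nat_lit 304) (nat_lit 215426738) (nat_lit 380) (nat_lit 4123087836) (nat_lit 106) (nat_lit 5) (nat_lit 110) (nat_lit 5) (nat_lit 111) (nat_lit 5) (nat_lit 466) (nat_lit 390) (nat_lit 344)))))) (XT.nd (nat_lit 468) (nat_lit 1596) (nat_lit 0) (XT.nd (nat_lit 234) (nat_lit 836) (nat_lit 0) (XT.nd (nat_lit 78) (nat_lit 608) (nat_lit 0) (XT.lf (nat_lit 0) (nat_lit 1918341188) (nat_lit 304) (nat_lit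 3952988929) (nat_lit 76) (nat_lit 6647344768) (nat_lit 102) (nat_lit 5) (nat_lit 106) (nat_lit 5) (nat_lit 103) (nat_lit 5) (nat_lit 467) (nat_lit 390) (nat_lit 343)) (XT.nd (nat_lit 78) (nat_lit 304) (nat_lit 0) (XT.lf (nat_lit 0) (nat_lit 8104931837) (nat_lit 380) (nat_lit 3601919295) (nat_lit 76) (nat_lit 1029555882) (nat_lit 98) (nat_lit 5) (nat_lit 103) (nat_lit 5) (nat_lit 99) (nat_lit 5) (nat_lit 468) (nat_lit 390) (nat_lit 342)) (XT.lf (nat_lit 0) (nat_lit 1549464142) (nat_lit 304) (nat_lit 3301935453) (nat_lit 76) (nat_lit 8108021470) (nat_lit 94) (nat_lit 5) (nat_lit 98) (nat_lit 5) (nat_lit 95) (nat_lit 5) (nat_lit 469) (nat_lit 390) (nat_lit 341)))) (XT.nd (nat_lit 78) (nat_lit 532) (nat_lit 0) (XT.lf (nat_lit 0) (nat_lit 7883024971) (nat_lit 380) (nat_lit 3052665861) (nat_lit 76) (nat_lit 2252224886) (nat_lit 90) (nat_lit 5) (nat_lit 95) (nat_lit 5) (nat_lit 91) (nat_lit 5) (nat_lit 470)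 (nat_lit 390) (nat_lit 340)) (XT.nd (nat_lit 78) (nat_lit 228) (nat_lit 0) (XT.lf (nat_lit 0) (nat_lit 1019926075) (nat_lit 304) (nat_lit 2850988152) (nat_lit 76) (nat_lit 9551237962) (nat_lit 86) (nat_lit 5) (nat_lit 90) (nat_lit 5) (nat_lit 87) (nat_lit 5) (nat_lit 471) (nat_lit 390) (nat_lit 339)) (XT.lf (nat_lit 0) (nat_lit 7503871641) (nat_lit 304) (nat_lit 2719269735) (nat_lit 76) (nat_lit 3438748370) (nat_lit 83) (nat_lit 5) (nat_lit 87) (nat_lit 5) (nat_lit 84) (nat_lit 5) (nat_lit 472) (nat_lit 390) (nat_lit 338))))) (XT.nd (nat_lit 234) (nat_lit 836) (nat_lit 0) (XT.nd (nat_lit 78) (nat_lit 456) (nat_lit 0) (XT.lf (nat_lit 0) (nat_lit 316209150) (nat_lit 304) (nat_lit 2631544314) (nat_lit 76) (nat_lit 10960109067) (nat_lit 79) (nat_lit 5) (nat_lit 83) (nat_lit 5) (nat_lit 80) (nat_lit 5) (nat_lit 473) (nat_lit 390) (nat_lit 337)) (XT.nd (nat_lit 78) (nat_lit 228) (nat_lit 0) (XT.lf (nat_lit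 0) (nat_lit 6953389378) (nat_lit 304) (nat_lit 2634672169) (nat_lit 76) (nat_lit 4571295173) (nat_lit 76) (nat_lit 5) (nat_lit 80) (nat_lit 5) (nat_lit 77) (nat_lit 5) (nat_lit 474) (nat_lit 390) (nat_lit 336)) (XT.lf (nat_lit 0) (nat_lit 11735540477) (nat_lit 228) (nat_lit 2097242115) (nat_lit 304) (nat_lit 584755172) (nat_lit 73) (nat_lit 5) (nat_lit 76) (nat_lit 5) (nat_lit 77) (nat_lit 5) (nat_lit 475) (nat_lit 390) (nat_lit 335)))) (XT.nd (nat_lit 78) (nat_lit 532) (nat_lit 0) (XT.lf (nat_lit 0) (nat_lit 6215549717) (nat_lit 304) (nat_lit 2835198537) (nat_lit 76) (nat_lit 5630665511) (nat_lit 69) (nat_lit 5) (nat_lit 73) (nat_lit 5) (nat_lit 70) (nat_lit 5) (nat_lit 476) (nat_lit 390) (nat_lit 334)) (XT.nd (nat_lit 78) (nat_lit 304) (nat_lit 0) (XT.lf (nat_lit 0) (nat_lit 11912155258) (nat_lit 228) (nat_lit 1340463325) (nat_lit 304) (nat_lit 1699699851) (nat_lit 66) (nat_lit 5) (nat_lit 69) (nat_lit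 5) (nat_lit 70) (nat_lit 5) (nat_lit 477) (nat_lit 390) (nat_lit 333)) (XT.lf (nat_lit 0) (nat_lit 5272201299) (nat_lit 304) (nat_lit 3360950415) (nat_lit 76) (nat_lit 6596080538) (nat_lit 62) (nat_lit 5) (nat_lit 66) (nat_lit 5) (nat_lit 63) (nat_lit 5) (nat_lit 478) (nat_lit 390) (nat_lit 332))))))) (XT.nd (nat_lit 57798) (nat_lit 0) (nat_lit 27056) (XT.nd (nat_lit 390) (nat_lit 988) (nat_lit 0) (XT.nd (nat_lit 156) (nat_lit 608) (nat_lit 0) (XT.nd (nat_lit 78) (nat_lit 304) (nat_lit 0) (XT.lf (nat_lit 0) (nat_lit 11767207511) (nat_lit 152) (nat_lit 701876740) (nat_lit 228) (nat_lit 3044369593) (nat_lit 60) (nat_lit 5) (nat_lit 62) (nat_lit 5) (nat_lit 63) (nat_lit 5) (nat_lit 479) (nat_lit 390) (nat_lit 331)) (XT.lf (nat_lit 0) (nat_lit 4102872255) (nat_lit 304) (nat_lit 4256236563) (nat_lit 76) (nat_lit 7444954186) (nat_lit 56) (nat_lit 5) (nat_lit 60) (nat_lit 5) (nat_lit 57) (nat_lit 5) (nat_lit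 480) (nat_lit 390) (nat_lit 330))) (XT.nd (nat_lit 78) (nat_lit 456) (nat_lit 0) (XT.lf (nat_lit 0) (nat_lit 11255249255) (nat_lit 152) (nat_lit 205794538) (nat_lit 228) (nat_lit 4641189850) (nat_lit 54) (nat_lit 5) (nat_lit 56) (nat_lit 5) (nat_lit 57) (nat_lit 5) (nat_lit 481) (nat_lit 390) (nat_lit 329)) (XT.nd (nat_lit 78) (nat_lit 152) (nat_lit 0) (XT.lf (nat_lit 0) (nat_lit 2684549897) (nat_lit 304) (nat_lit 5570047027) (nat_lit 76) (nat_lit 8152645080) (nat_lit 50) (nat_lit 5) (nat_lit 54) (nat_lit 5) (nat_lit 51) (nat_lit 5) (nat_lit 482) (nat_lit 390) (nat_lit 328)) (XT.lf (nat_lit 0) (nat_lit 10205521807) (nat_lit 228) (nat_lit 6394854063) (nat_lit 76) (nat_lit 119643772) (nat_lit 48) (nat_lit 5) (nat_lit 51) (nat_lit 5) (nat_lit 49) (nat_lit 5) (nat_lit 483) (nat_lit 390) (nat_lit 327))))) (XT.nd (nat_lit 234) (nat_lit 380) (nat_lit 0) (XT.nd (nat_lit 78) (nat_lit 304) (nat_lit 0) (XT.lf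 (nat_lit 0) (nat_lit 991435504) (nat_lit 304) (nat_lit 7356575025) (nat_lit 76) (nat_lit 8692186139) (nat_lit 44) (nat_lit 5) (nat_lit 48) (nat_lit 5) (nat_lit 45) (nat_lit 5) (nat_lit 484) (nat_lit 390) (nat_lit 326)) (XT.nd (nat_lit 78) (nat_lit 152) (nat_lit 0) (XT.lf (nat_lit 0) (nat_lit 8675135579) (nat_lit 228) (nat_lit 8446308994) (nat_lit 76) (nat_lit 246853994) (nat_lit 42) (nat_lit 5) (nat_lit 45) (nat_lit 5) (nat_lit 43) (nat_lit 5) (nat_lit 485) (nat_lit 390) (nat_lit 325)) (XT.lf (nat_lit 0) (nat_lit 8021914705) (nat_lit 152) (nat_lit 8663717197) (nat_lit 228) (nat_lit 1018688520) (nat_lit 40) (nat_lit 5) (nat_lit 42) (nat_lit 5) (nat_lit 43) (nat_lit 5) (nat_lit 486) (nat_lit 390) (nat_lit 324)))) (XT.nd (nat_lit 78) (nat_lit 152) (nat_lit 0) (XT.lf (nat_lit 0) (nat_lit 6838529019) (nat_lit 228) (nat_lit 11063103496) (nat_lit 76) (nat_lit 147042320) (nat_lit 37) (nat_lit 5) (nat_lit 40)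 (nat_lit 5) (nat_lit 38) (nat_lit 5) (nat_lit 487) (nat_lit 390) (nat_lit 323)) (XT.nd (nat_lit 57018) (nat_lit 0) (nat_lit 44916) (XT.lf (nat_lit 0) (nat_lit 5785162626) (nat_lit 152) (nat_lit 9233720192) (nat_lit 228) (nat_lit 3382319603) (nat_lit 35) (nat_lit 5) (nat_lit 37) (nat_lit 5) (nat_lit 38) (nat_lit 5) (nat_lit 488) (nat_lit 390) (nat_lit 322)) (XT.lf (nat_lit 0) (nat_lit 2640546833) (nat_lit 1140) (nat_lit 377099799) (nat_lit 1140) (nat_lit 377099799) (nat_lit 626) (nat_lit 4) (nat_lit 641) (nat_lit 5) (nat_lit 641) (nat_lit 4) (nat_lit 418) (nat_lit 391) (nat_lit 391)))))) (XT.nd (nat_lit 468) (nat_lit 9044) (nat_lit 0) (XT.nd (nat_lit 234) (nat_lit 4712) (nat_lit 0) (XT.nd (nat_lit 78) (nat_lit 2812) (nat_lit 0) (XT.lf (nat_lit 0) (nat_lit 4211193702) (nat_lit 1292) (nat_lit 1429752211) (nat_lit 0) (nat_lit 1188633268) (nat_lit 609) (nat_lit 5) (nat_lit 626) (nat_lit 4) (nat_lit 609)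 (nat_lit 4) (nat_lit 419) (nat_lit 391) (nat_lit 390)) (XT.nd (nat_lit 78) (nat_lit 1444) (nat_lit 0) (XT.lf (nat_lit 0) (nat_lit 2306798111) (nat_lit 1368) (nat_lit 1297352941) (nat_lit 76) (nat_lit 3268448977) (nat_lit 591) (nat_lit 5) (nat_lit 609) (nat_lit 5) (nat_lit 592) (nat_lit 4) (nat_lit 420) (nat_lit 391) (nat_lit 389)) (XT.lf (nat_lit 0) (nat_lit 314958817) (nat_lit 1444) (nat_lit 1106438249) (nat_lit 76) (nat_lit 5497287252) (nat_lit 572) (nat_lit 5) (nat_lit 591) (nat_lit 5) (nat_lit 573) (nat_lit 5) (nat_lit 421) (nat_lit 391) (nat_lit 388)))) (XT.nd (nat_lit 78) (nat_lit 3268) (nat_lit 0) (XT.lf (nat_lit 0) (nat_lit 5183473147) (nat_lit 1520) (nat_lit 874687377) (nat_lit 76) (nat_lit 909352646) (nat_lit 553) (nat_lit 5) (nat_lit 573) (nat_lit 5) (nat_lit 554) (nat_lit 4) (nat_lit 422) (nat_lit 391) (nat_lit 387)) (XT.nd (nat_lit 78) (nat_lit 1672) (nat_lit 0) (XT.lf (nat_lit 0) (nat_lit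 3048980080) (nat_lit 1596) (nat_lit 597412527) (nat_lit 76) (nat_lit 3372823541) (nat_lit 532) (nat_lit 5) (nat_lit 553) (nat_lit 5) (nat_lit 533) (nat_lit 5) (nat_lit 423) (nat_lit 391) (nat_lit 386)) (XT.lf (nat_lit 0) (nat_lit 822644670) (nat_lit 1672) (nat_lit 263287629) (nat_lit 76) (nat_lit 5988124414) (nat_lit 510) (nat_lit 5) (nat_lit 532) (nat_lit 5) (nat_lit 511) (nat_lit 5) (nat_lit 424) (nat_lit 391) (nat_lit 385))))) (XT.nd (nat_lit 234) (nat_lit 2812) (nat_lit 0) (XT.nd (nat_lit 78) (nat_lit 2812) (nat_lit 0) (XT.lf (nat_lit 0) (nat_lit 108704389) (nat_lit 1748) (nat_lit 5516460169) (nat_lit 1824) (nat_lit 1506486136) (nat_lit 465) (nat_lit 5) (nat_lit 488) (nat_lit 5) (nat_lit 489) (nat_lit 5) (nat_lit 425) (nat_lit 391) (nat_lit 384)) (XT.nd (nat_lit 78) (nat_lit 1064) (nat_lit 0) (XT.lf (nat_lit 0) (nat_lit 527668329) (nat_lit 1672) (nat_lit 2729806459) (nat_lit 1748) (nat_lit 3934665687)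 (nat_lit 442) (nat_lit 5) (nat_lit 464) (nat_lit 5) (nat_lit 465) (nat_lit 5) (nat_lit 426) (nat_lit 391) (nat_lit 383)) (XT.lf (nat_lit 0) (nat_lit 794533352) (nat_lit 1064) (nat_lit 6254296539) (nat_lit 76) (nat_lit 206995386) (nat_lit 428) (nat_lit 5) (nat_lit 442) (nat_lit 5) (nat_lit 429) (nat_lit 5) (nat_lit 427) (nat_lit 391) (nat_lit 382)))) (XT.nd (nat_lit 78) (nat_lit 1900) (nat_lit 0) (XT.lf (nat_lit 0) (nat_lit 1501029937) (nat_lit 912) (nat_lit 4048749438) (nat_lit 988) (nat_lit 1772393967) (nat_lit 416) (nat_lit 5) (nat_lit 428) (nat_lit 5) (nat_lit 429) (nat_lit 5) (nat_lit 428) (nat_lit 391) (nat_lit 381)) (XT.nd (nat_lit 78) (nat_lit 912) (nat_lit 0) (XT.lf (nat_lit 0) (nat_lit 2050214352) (nat_lit 912) (nat_lit 888849012) (nat_lit 988) (nat_lit 4452635956) (nat_lit 403) (nat_lit 5) (nat_lit 415) (nat_lit 5) (nat_lit 416) (nat_lit 5) (nat_lit 429) (nat_lit 391) (nat_lit 380)) (XT.lf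 (nat_lit 0) (nat_lit 241606622) (nat_lit 912) (nat_lit 4825640482) (nat_lit 76) (nat_lit 2396995237) (nat_lit 391) (nat_lit 5) (nat_lit 403) (nat_lit 5) (nat_lit 392) (nat_lit 5) (nat_lit 430) (nat_lit 391) (nat_lit 379))))))))
noncomputable def xc27 : XT := (XT.nd (nat_lit 1794) (nat_lit 8360) (nat_lit 0) (XT.nd (nat_lit 858) (nat_lit 7220) (nat_lit 0) (XT.nd (nat_lit 390) (nat_lit 4940) (nat_lit 0) (XT.nd (nat_lit 156) (nat_lit 2508) (nat_lit 0) (XT.nd (nat_lit 78) (nat_lit 836) (nat_lit 0) (XT.lf (nat_lit 0) (nat_lit 3258507218) (nat_lit 836) (nat_lit 1692555865) (nat_lit 912) (nat_lit 2588634696) (nat_lit 380) (nat_lit 5) (nat_lit 391) (nat_lit 5) (nat_lit 392) (nat_lit 5) (nat_lit 431) (nat_lit 391) (nat_lit 378)) (XT.lf (nat_lit 0) (nat_lit 2099146151) (nat_lit 836) (nat_lit 3699524403) (nat_lit 76) (nat_lit 1819615805) (nat_lit 369) (nat_lit 5) (nat_lit 380) (nat_lit 5) (nat_lit 370) (nat_lit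 5) (nat_lit 432) (nat_lit 391) (nat_lit 377))) (XT.nd (nat_lit 78) (nat_lit 1672) (nat_lit 0) (XT.lf (nat_lit 0) (nat_lit 4615589048) (nat_lit 836) (nat_lit 2223198436) (nat_lit 912) (nat_lit 861195641) (nat_lit 358) (nat_lit 5) (nat_lit 369) (nat_lit 5) (nat_lit 370) (nat_lit 5) (nat_lit 433) (nat_lit 391) (nat_lit 376)) (XT.nd (nat_lit 78) (nat_lit 836) (nat_lit 0) (XT.lf (nat_lit 0) (nat_lit 3832370419) (nat_lit 836) (nat_lit 2443335056) (nat_lit 76) (nat_lit 1508983615) (nat_lit 347) (nat_lit 5) (nat_lit 358) (nat_lit 5) (nat_lit 348) (nat_lit 5) (nat_lit 434) (nat_lit 391) (nat_lit 375)) (XT.lf (nat_lit 0) (nat_lit 728434104) (nat_lit 836) (nat_lit 1767745686) (nat_lit 76) (nat_lit 5376449915) (nat_lit 336) (nat_lit 5) (nat_lit 347) (nat_lit 5) (nat_lit 337) (nat_lit 5) (nat_lit 435) (nat_lit 391) (nat_lit 374))))) (XT.nd (nat_lit 234) (nat_lit 2052) (nat_lit 0) (XT.nd (nat_lit 78) (nat_lit 2204)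 (nat_lit 0) (XT.lf (nat_lit 0) (nat_lit 5449182034) (nat_lit 760) (nat_lit 1068690846) (nat_lit 76) (nat_lit 1445765967) (nat_lit 327) (nat_lit 5) (nat_lit 337) (nat_lit 5) (nat_lit 328) (nat_lit 5) (nat_lit 436) (nat_lit 391) (nat_lit 373)) (XT.nd (nat_lit 78) (nat_lit 1368) (nat_lit 0) (XT.lf (nat_lit 0) (nat_lit 2187649415) (nat_lit 836) (nat_lit 342742272) (nat_lit 76) (nat_lit 5527450392) (nat_lit 316) (nat_lit 5) (nat_lit 327) (nat_lit 5) (nat_lit 317) (nat_lit 5) (nat_lit 437) (nat_lit 391) (nat_lit 372)) (XT.lf (nat_lit 0) (nat_lit 418601046) (nat_lit 684) (nat_lit 6540638773) (nat_lit 760) (nat_lit 1196064332) (nat_lit 298) (nat_lit 5) (nat_lit 307) (nat_lit 5) (nat_lit 308) (nat_lit 5) (nat_lit 438) (nat_lit 391) (nat_lit 371)))) (XT.nd (nat_lit 78) (nat_lit 1368) (nat_lit 0) (XT.lf (nat_lit 0) (nat_lit 1200699791) (nat_lit 608) (nat_lit 2341208573) (nat_lit 684) (nat_lit 4713906371) (nat_lit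 289) (nat_lit 5) (nat_lit 297) (nat_lit 5) (nat_lit 298) (nat_lit 5) (nat_lit 439) (nat_lit 391) (nat_lit 370)) (XT.nd (nat_lit 78) (nat_lit 608) (nat_lit 0) (XT.lf (nat_lit 0) (nat_lit 13474859) (nat_lit 760) (nat_lit 6342486707) (nat_lit 76) (nat_lit 2003880169) (nat_lit 279) (nat_lit 5) (nat_lit 289) (nat_lit 5) (nat_lit 280) (nat_lit 5) (nat_lit 440) (nat_lit 391) (nat_lit 369)) (XT.lf (nat_lit 0) (nat_lit 2841515228) (nat_lit 608) (nat_lit 1950189962) (nat_lit 684) (nat_lit 3675214536) (nat_lit 271) (nat_lit 5) (nat_lit 279) (nat_lit 5) (nat_lit 280) (nat_lit 5) (nat_lit 441) (nat_lit 391) (nat_lit 368)))))) (XT.nd (nat_lit 468) (nat_lit 3648) (nat_lit 0) (XT.nd (nat_lit 234) (nat_lit 1672) (nat_lit 0) (XT.nd (nat_lit 78) (nat_lit 1216) (nat_lit 0) (XT.lf (nat_lit 0) (nat_lit 1097671601) (nat_lit 684) (nat_lit 4882399288) (nat_lit 76) (nat_lit 2597475735) (nat_lit 262) (nat_lit 5) (nat_lit 271)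 (nat_lit 5) (nat_lit 263) (nat_lit 5) (nat_lit 442) (nat_lit 391) (nat_lit 367)) (XT.nd (nat_lit 78) (nat_lit 684) (nat_lit 0) (XT.lf (nat_lit 0) (nat_lit 4563966588) (nat_lit 532) (nat_lit 1375261994) (nat_lit 608) (nat_lit 2752283226) (nat_lit 255) (nat_lit 5) (nat_lit 262) (nat_lit 5) (nat_lit 263) (nat_lit 5) (nat_lit 443) (nat_lit 391) (nat_lit 366)) (XT.lf (nat_lit 0) (nat_lit 2075965103) (nat_lit 684) (nat_lit 3360163521) (nat_lit 76) (nat_lit 3372773502) (nat_lit 246) (nat_lit 5) (nat_lit 255) (nat_lit 5) (nat_lit 247) (nat_lit 5) (nat_lit 444) (nat_lit 391) (nat_lit 365)))) (XT.nd (nat_lit 78) (nat_lit 1140) (nat_lit 0) (XT.lf (nat_lit 0) (nat_lit 6356811002) (nat_lit 532) (nat_lit 631206238) (nat_lit 608) (nat_lit 1941918703) (nat_lit 239) (nat_lit 5) (nat_lit 246) (nat_lit 5) (nat_lit 247) (nat_lit 5) (nat_lit 445) (nat_lit 391) (nat_lit 364)) (XT.nd (nat_lit 78) (nat_lit 532) (nat_lit 0)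 (XT.lf (nat_lit 0) (nat_lit 2951196876) (nat_lit 608) (nat_lit 1787422004) (nat_lit 76) (nat_lit 4315652919) (nat_lit 231) (nat_lit 5) (nat_lit 239) (nat_lit 5) (nat_lit 232) (nat_lit 5) (nat_lit 446) (nat_lit 391) (nat_lit 363)) (XT.lf (nat_lit 0) (nat_lit 7942448389) (nat_lit 608) (nat_lit 975685960) (nat_lit 76) (nat_lit 264403814) (nat_lit 224) (nat_lit 5) (nat_lit 232) (nat_lit 5) (nat_lit 225) (nat_lit 5) (nat_lit 447) (nat_lit 391) (nat_lit 362))))) (XT.nd (nat_lit 234) (nat_lit 1520) (nat_lit 0) (XT.nd (nat_lit 78) (nat_lit 1520) (nat_lit 0) (XT.lf (nat_lit 0) (nat_lit 3725296899) (nat_lit 608) (nat_lit 176092931) (nat_lit 76) (nat_lit 5412665599) (nat_lit 216) (nat_lit 5) (nat_lit 224) (nat_lit 5) (nat_lit 217) (nat_lit 5) (nat_lit 448) (nat_lit 391) (nat_lit 361)) (XT.nd (nat_lit 78) (nat_lit 532) (nat_lit 0) (XT.lf (nat_lit 0) (nat_lit 657981060) (nat_lit 532) (nat_lit 8153824546) (nat_lit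 608) (nat_lit 637779281) (nat_lit 203) (nat_lit 5) (nat_lit 210) (nat_lit 5) (nat_lit 211) (nat_lit 5) (nat_lit 449) (nat_lit 391) (nat_lit 360)) (XT.lf (nat_lit 0) (nat_lit 1480925773) (nat_lit 456) (nat_lit 2927965187) (nat_lit 532) (nat_lit 5179606602) (nat_lit 196) (nat_lit 5) (nat_lit 202) (nat_lit 5) (nat_lit 203) (nat_lit 5) (nat_lit 450) (nat_lit 391) (nat_lit 359)))) (XT.nd (nat_lit 78) (nat_lit 1064) (nat_lit 0) (XT.lf (nat_lit 0) (nat_lit 2324038506) (nat_lit 456) (nat_lit 7270959226) (nat_lit 532) (nat_lit 136571506) (nat_lit 190) (nat_lit 5) (nat_lit 196) (nat_lit 5) (nat_lit 197) (nat_lit 5) (nat_lit 451) (nat_lit 391) (nat_lit 358)) (XT.nd (nat_lit 78) (nat_lit 532) (nat_lit 0) (XT.lf (nat_lit 0) (nat_lit 3153873729) (nat_lit 456) (nat_lit 1839812790) (nat_lit 532) (nat_lit 4884553957) (nat_lit 183) (nat_lit 5) (nat_lit 189) (nat_lit 5) (nat_lit 190) (nat_lit 5) (nat_lit 452) (nat_lit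 391) (nat_lit 357)) (XT.lf (nat_lit 0) (nat_lit 252845375) (nat_lit 532) (nat_lit 6034571347) (nat_lit 76) (nat_lit 3741666508) (nat_lit 176) (nat_lit 5) (nat_lit 183) (nat_lit 5) (nat_lit 177) (nat_lit 5) (nat_lit 453) (nat_lit 391) (nat_lit 356))))))) (XT.nd (nat_lit 936) (nat_lit 3344) (nat_lit 0) (XT.nd (nat_lit 468) (nat_lit 2432) (nat_lit 0) (XT.nd (nat_lit 234) (nat_lit 1292) (nat_lit 0) (XT.nd (nat_lit 78) (nat_lit 912) (nat_lit 0) (XT.lf (nat_lit 0) (nat_lit 4826697964) (nat_lit 380) (nat_lit 650855901) (nat_lit 456) (nat_lit 4706269444) (nat_lit 171) (nat_lit 5) (nat_lit 176) (nat_lit 5) (nat_lit 177) (nat_lit 5) (nat_lit 454) (nat_lit 391) (nat_lit 355)) (XT.nd (nat_lit 78) (nat_lit 380) (nat_lit 0) (XT.lf (nat_lit 0) (nat_lit 531701748) (nat_lit 532) (nat_lit 4685846293) (nat_lit 76) (nat_lit 5125145543) (nat_lit 164) (nat_lit 5) (nat_lit 171) (nat_lit 5) (nat_lit 165) (nat_lit 5) (nat_lit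 455) (nat_lit 391) (nat_lit 354)) (XT.lf (nat_lit 0) (nat_lit 5862593273) (nat_lit 456) (nat_lit 4025021572) (nat_lit 76) (nat_lit 618106634) (nat_lit 159) (nat_lit 5) (nat_lit 165) (nat_lit 5) (nat_lit 160) (nat_lit 5) (nat_lit 456) (nat_lit 391) (nat_lit 353)))) (XT.nd (nat_lit 78) (nat_lit 836) (nat_lit 0) (XT.lf (nat_lit 0) (nat_lit 698999999) (nat_lit 456) (nat_lit 3376026696) (nat_lit 76) (nat_lit 6597970074) (nat_lit 153) (nat_lit 5) (nat_lit 159) (nat_lit 5) (nat_lit 154) (nat_lit 5) (nat_lit 457) (nat_lit 391) (nat_lit 352)) (XT.nd (nat_lit 78) (nat_lit 456) (nat_lit 0) (XT.lf (nat_lit 0) (nat_lit 6146452891) (nat_lit 456) (nat_lit 2744856742) (nat_lit 76) (nat_lit 1953211491) (nat_lit 148) (nat_lit 5) (nat_lit 154) (nat_lit 5) (nat_lit 149) (nat_lit 5) (nat_lit 458) (nat_lit 391) (nat_lit 351)) (XT.lf (nat_lit 0) (nat_lit 750876581) (nat_lit 456) (nat_lit 2121796778) (nat_lit 76) (nat_lit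 8147941524) (nat_lit 142) (nat_lit 5) (nat_lit 148) (nat_lit 5) (nat_lit 143) (nat_lit 5) (nat_lit 459) (nat_lit 391) (nat_lit 350))))) (XT.nd (nat_lit 234) (nat_lit 1368) (nat_lit 0) (XT.nd (nat_lit 78) (nat_lit 760) (nat_lit 0) (XT.lf (nat_lit 0) (nat_lit 6320735737) (nat_lit 380) (nat_lit 1529693819) (nat_lit 76) (nat_lit 3350522244) (nat_lit 138) (nat_lit 5) (nat_lit 143) (nat_lit 5) (nat_lit 139) (nat_lit 5) (nat_lit 460) (nat_lit 391) (nat_lit 349)) (XT.nd (nat_lit 78) (nat_lit 304) (nat_lit 0) (XT.lf (nat_lit 0) (nat_lit 682336882) (nat_lit 456) (nat_lit 941150257) (nat_lit 76) (nat_lit 9762728234) (nat_lit 132) (nat_lit 5) (nat_lit 138) (nat_lit 5) (nat_lit 133) (nat_lit 5) (nat_lit 461) (nat_lit 391) (nat_lit 348)) (XT.lf (nat_lit 0) (nat_lit 6380122251) (nat_lit 380) (nat_lit 398231194) (nat_lit 76) (nat_lit 4797351459) (nat_lit 128) (nat_lit 5) (nat_lit 133) (nat_lit 5) (nat_lit 129) (nat_lit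 5) (nat_lit 462) (nat_lit 391) (nat_lit 347)))) (XT.nd (nat_lit 78) (nat_lit 684) (nat_lit 0) (XT.lf (nat_lit 0) (nat_lit 148357364) (nat_lit 304) (nat_lit 339794589) (nat_lit 380) (nat_lit 11282342016) (nat_lit 119) (nat_lit 5) (nat_lit 123) (nat_lit 5) (nat_lit 124) (nat_lit 5) (nat_lit 463) (nat_lit 391) (nat_lit 346)) (XT.nd (nat_lit 78) (nat_lit 380) (nat_lit 0) (XT.lf (nat_lit 0) (nat_lit 637579071) (nat_lit 304) (nat_lit 5684633391) (nat_lit 380) (nat_lit 5647225265) (nat_lit 115) (nat_lit 5) (nat_lit 119) (nat_lit 5) (nat_lit 120) (nat_lit 5) (nat_lit 464) (nat_lit 391) (nat_lit 345)) (XT.lf (nat_lit 0) (nat_lit 171623889) (nat_lit 380) (nat_lit 11045873889) (nat_lit 76) (nat_lit 956502518) (nat_lit 110) (nat_lit 5) (nat_lit 115) (nat_lit 5) (nat_lit 111) (nat_lit 5) (nat_lit 465) (nat_lit 391) (nat_lit 344)))))) (XT.nd (nat_lit 468) (nat_lit 1596) (nat_lit 0) (XT.nd (nat_lit 234) (nat_lit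 836) (nat_lit 0) (XT.nd (nat_lit 78) (nat_lit 608) (nat_lit 0) (XT.lf (nat_lit 0) (nat_lit 1550837090) (nat_lit 304) (nat_lit 4585977103) (nat_lit 380) (nat_lit 6246174456) (nat_lit 106) (nat_lit 5) (nat_lit 110) (nat_lit 5) (nat_lit 111) (nat_lit 5) (nat_lit 466) (nat_lit 391) (nat_lit 343)) (XT.nd (nat_lit 78) (nat_lit 380) (nat_lit 0) (XT.lf (nat_lit 0) (nat_lit 1964377836) (nat_lit 228) (nat_lit 10343057006) (nat_lit 304) (nat_lit 290287616) (nat_lit 103) (nat_lit 5) (nat_lit 106) (nat_lit 5) (nat_lit 107) (nat_lit 5) (nat_lit 467) (nat_lit 391) (nat_lit 342)) (XT.lf (nat_lit 0) (nat_lit 2311691634) (nat_lit 304) (nat_lit 3500215849) (nat_lit 380) (nat_lit 7005351337) (nat_lit 98) (nat_lit 5) (nat_lit 102) (nat_lit 5) (nat_lit 103) (nat_lit 5) (nat_lit 468) (nat_lit 391) (nat_lit 341)))) (XT.nd (nat_lit 78) (nat_lit 608) (nat_lit 0) (XT.lf (nat_lit 0) (nat_lit 2633469863) (nat_lit 228) (nat_lit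 9498231094) (nat_lit 304) (nat_lit 910877309) (nat_lit 95) (nat_lit 5) (nat_lit 98) (nat_lit 5) (nat_lit 99) (nat_lit 5) (nat_lit 469) (nat_lit 391) (nat_lit 340)) (XT.nd (nat_lit 78) (nat_lit 228) (nat_lit 0) (XT.lf (nat_lit 0) (nat_lit 2893202955) (nat_lit 304) (nat_lit 2443367488) (nat_lit 380) (nat_lit 7936584241) (nat_lit 90) (nat_lit 5) (nat_lit 94) (nat_lit 5) (nat_lit 95) (nat_lit 5) (nat_lit 470) (nat_lit 391) (nat_lit 339)) (XT.lf (nat_lit 0) (nat_lit 3108328924) (nat_lit 228) (nat_lit 8701004060) (nat_lit 304) (nat_lit 1700194185) (nat_lit 87) (nat_lit 5) (nat_lit 90) (nat_lit 5) (nat_lit 91) (nat_lit 5) (nat_lit 471) (nat_lit 391) (nat_lit 338))))) (XT.nd (nat_lit 234) (nat_lit 760) (nat_lit 0) (XT.nd (nat_lit 78) (nat_lit 532) (nat_lit 0) (XT.lf (nat_lit 0) (nat_lit 3265755416) (nat_lit 228) (nat_lit 1432479293) (nat_lit 304) (nat_lit 9053409216) (nat_lit 83) (nat_lit 5) (nat_lit 86) (nat_lit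 5) (nat_lit 87) (nat_lit 5) (nat_lit 472) (nat_lit 391) (nat_lit 337)) (XT.nd (nat_lit 78) (nat_lit 304) (nat_lit 0) (XT.lf (nat_lit 0) (nat_lit 3357893833) (nat_lit 228) (nat_lit 7969346021) (nat_lit 304) (nat_lit 2672329297) (nat_lit 80) (nat_lit 5) (nat_lit 83) (nat_lit 5) (nat_lit 84) (nat_lit 5) (nat_lit 473) (nat_lit 391) (nat_lit 336)) (XT.lf (nat_lit 0) (nat_lit 3396734234) (nat_lit 228) (nat_lit 485810839) (nat_lit 304) (nat_lit 10371214317) (nat_lit 76) (nat_lit 5) (nat_lit 79) (nat_lit 5) (nat_lit 80) (nat_lit 5) (nat_lit 474) (nat_lit 391) (nat_lit 335)))) (XT.nd (nat_lit 78) (nat_lit 532) (nat_lit 0) (XT.lf (nat_lit 0) (nat_lit 3347929086) (nat_lit 228) (nat_lit 7322554916) (nat_lit 304) (nat_lit 3843287422) (nat_lit 73) (nat_lit 5) (nat_lit 76) (nat_lit 5) (nat_lit 77) (nat_lit 5) (nat_lit 475) (nat_lit 391) (nat_lit 334)) (XT.nd (nat_lit 78) (nat_lit 228) (nat_lit 0) (XT.lf (nat_lit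 0) (nat_lit 2875649435) (nat_lit 304) (nat_lit 11532880047) (nat_lit 76) (nat_lit 372024972) (nat_lit 69) (nat_lit 5) (nat_lit 73) (nat_lit 5) (nat_lit 70) (nat_lit 5) (nat_lit 476) (nat_lit 391) (nat_lit 333)) (XT.lf (nat_lit 0) (nat_lit 3040653424) (nat_lit 228) (nat_lit 6781461641) (nat_lit 304) (nat_lit 5231157882) (nat_lit 66) (nat_lit 5) (nat_lit 69) (nat_lit 5) (nat_lit 70) (nat_lit 5) (nat_lit 477) (nat_lit 391) (nat_lit 332))))))))
noncomputable def xc28 : XT := (XT.nd (nat_lit 58578) (nat_lit 0) (nat_lit 12540) (XT.nd (nat_lit 57642) (nat_lit 0) (nat_lit 29716) (XT.nd (nat_lit 390) (nat_lit 1064) (nat_lit 0) (XT.nd (nat_lit 156) (nat_lit 684) (nat_lit 0) (XT.nd (nat_lit 78) (nat_lit 152) (nat_lit 0) (XT.lf (nat_lit 0) (nat_lit 1659151114) (nat_lit 304) (nat_lit 12554365148) (nat_lit 76) (nat_lit 1119688906) (nat_lit 62) (nat_lit 5) (nat_lit 66) (nat_lit 5) (nat_lit 63) (nat_lit 5) (nat_lit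 478) (nat_lit 391) (nat_lit 331)) (XT.lf (nat_lit 0) (nat_lit 2394331724) (nat_lit 152) (nat_lit 6368652219) (nat_lit 228) (nat_lit 6856305445) (nat_lit 60) (nat_lit 5) (nat_lit 62) (nat_lit 5) (nat_lit 63) (nat_lit 5) (nat_lit 479) (nat_lit 391) (nat_lit 330))) (XT.nd (nat_lit 78) (nat_lit 380) (nat_lit 0) (XT.lf (nat_lit 0) (nat_lit 209007379) (nat_lit 304) (nat_lit 13963314741) (nat_lit 76) (nat_lit 1740711433) (nat_lit 56) (nat_lit 5) (nat_lit 60) (nat_lit 5) (nat_lit 57) (nat_lit 5) (nat_lit 480) (nat_lit 391) (nat_lit 329)) (XT.nd (nat_lit 78) (nat_lit 228) (nat_lit 0) (XT.lf (nat_lit 0) (nat_lit 1362826208) (nat_lit 152) (nat_lit 6108709138) (nat_lit 228) (nat_lit 8741583220) (nat_lit 54) (nat_lit 5) (nat_lit 56) (nat_lit 5) (nat_lit 57) (nat_lit 5) (nat_lit 481) (nat_lit 391) (nat_lit 328)) (XT.lf (nat_lit 0) (nat_lit 701899298) (nat_lit 228) (nat_lit 14301155605) (nat_lit 304) (nat_lit 1518131873)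 (nat_lit 51) (nat_lit 5) (nat_lit 54) (nat_lit 5) (nat_lit 55) (nat_lit 5) (nat_lit 482) (nat_lit 391) (nat_lit 327))))) (XT.nd (nat_lit 234) (nat_lit 532) (nat_lit 0) (XT.nd (nat_lit 78) (nat_lit 456) (nat_lit 0) (XT.lf (nat_lit 0) (nat_lit 5924257806) (nat_lit 304) (nat_lit 103521691) (nat_lit 76) (nat_lit 10808353297) (nat_lit 50) (nat_lit 5) (nat_lit 54) (nat_lit 5) (nat_lit 51) (nat_lit 5) (nat_lit 483) (nat_lit 391) (nat_lit 326)) (XT.nd (nat_lit 78) (nat_lit 304) (nat_lit 0) (XT.lf (nat_lit 0) (nat_lit 13630664164) (nat_lit 228) (nat_lit 998106325) (nat_lit 76) (nat_lit 2530331333) (nat_lit 48) (nat_lit 5) (nat_lit 51) (nat_lit 5) (nat_lit 49) (nat_lit 5) (nat_lit 484) (nat_lit 391) (nat_lit 325)) (XT.lf (nat_lit 0) (nat_lit 4105430788) (nat_lit 304) (nat_lit 2038226926) (nat_lit 76) (nat_lit 11345927622) (nat_lit 44) (nat_lit 5) (nat_lit 48) (nat_lit 5) (nat_lit 45) (nat_lit 5) (nat_lit 485)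 (nat_lit 391) (nat_lit 324)))) (XT.nd (nat_lit 78) (nat_lit 380) (nat_lit 0) (XT.lf (nat_lit 0) (nat_lit 11980897203) (nat_lit 228) (nat_lit 3205501251) (nat_lit 76) (nat_lit 2641910582) (nat_lit 42) (nat_lit 5) (nat_lit 45) (nat_lit 5) (nat_lit 43) (nat_lit 5) (nat_lit 486) (nat_lit 391) (nat_lit 323)) (XT.nd (nat_lit 78) (nat_lit 152) (nat_lit 0) (XT.lf (nat_lit 0) (nat_lit 1976345454) (nat_lit 228) (nat_lit 4520857435) (nat_lit 76) (nat_lit 11678024567) (nat_lit 39) (nat_lit 5) (nat_lit 42) (nat_lit 5) (nat_lit 40) (nat_lit 5) (nat_lit 487) (nat_lit 391) (nat_lit 322)) (XT.lf (nat_lit 0) (nat_lit 10018144696) (nat_lit 228) (nat_lit 5994403437) (nat_lit 76) (nat_lit 2517979152) (nat_lit 37) (nat_lit 5) (nat_lit 40) (nat_lit 5) (nat_lit 38) (nat_lit 5) (nat_lit 488) (nat_lit 391) (nat_lit 321)))))) (XT.nd (nat_lit 468) (nat_lit 10944) (nat_lit 0) (XT.nd (nat_lit 234) (nat_lit 4028) (nat_lit 0) (XT.nd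 (nat_lit 78) (nat_lit 2356) (nat_lit 0) (XT.lf (nat_lit 0) (nat_lit 2639352628) (nat_lit 988) (nat_lit 359426646) (nat_lit 988) (nat_lit 359426646) (nat_lit 656) (nat_lit 4) (nat_lit 669) (nat_lit 5) (nat_lit 669) (nat_lit 4) (nat_lit 416) (nat_lit 392) (nat_lit 392)) (XT.nd (nat_lit 78) (nat_lit 1216) (nat_lit 0) (XT.lf (nat_lit 0) (nat_lit 4192938539) (nat_lit 1140) (nat_lit 1541763979) (nat_lit 0) (nat_lit 1017436547) (nat_lit 641) (nat_lit 5) (nat_lit 656) (nat_lit 4) (nat_lit 641) (nat_lit 4) (nat_lit 417) (nat_lit 392) (nat_lit 391)) (XT.lf (nat_lit 0) (nat_lit 2310441137) (nat_lit 1216) (nat_lit 1591422537) (nat_lit 76) (nat_lit 2888915297) (nat_lit 625) (nat_lit 5) (nat_lit 641) (nat_lit 5) (nat_lit 626) (nat_lit 4) (nat_lit 418) (nat_lit 392) (nat_lit 390)))) (XT.nd (nat_lit 78) (nat_lit 2736) (nat_lit 0) (XT.lf (nat_lit 0) (nat_lit 343253832) (nat_lit 1292) (nat_lit 1582251992) (nat_lit 76)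 (nat_lit 4906946831) (nat_lit 608) (nat_lit 5) (nat_lit 625) (nat_lit 5) (nat_lit 609) (nat_lit 5) (nat_lit 419) (nat_lit 392) (nat_lit 389)) (XT.nd (nat_lit 78) (nat_lit 1444) (nat_lit 0) (XT.lf (nat_lit 0) (nat_lit 5144723424) (nat_lit 1368) (nat_lit 1527034157) (nat_lit 76) (nat_lit 205180400) (nat_lit 591) (nat_lit 5) (nat_lit 609) (nat_lit 5) (nat_lit 592) (nat_lit 4) (nat_lit 420) (nat_lit 392) (nat_lit 388)) (XT.lf (nat_lit 0) (nat_lit 3035270064) (nat_lit 1444) (nat_lit 1429604772) (nat_lit 76) (nat_lit 2459317940) (nat_lit 572) (nat_lit 5) (nat_lit 591) (nat_lit 5) (nat_lit 573) (nat_lit 5) (nat_lit 421) (nat_lit 392) (nat_lit 387))))) (XT.nd (nat_lit 234) (nat_lit 6232) (nat_lit 0) (XT.nd (nat_lit 78) (nat_lit 3192) (nat_lit 0) (XT.lf (nat_lit 0) (nat_lit 837043554) (nat_lit 1520) (nat_lit 1275275921) (nat_lit 76) (nat_lit 4862226948) (nat_lit 552) (nat_lit 5) (nat_lit 572) (nat_lit 5) (nat_lit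 553) (nat_lit 5) (nat_lit 422) (nat_lit 392) (nat_lit 386)) (XT.nd (nat_lit 78) (nat_lit 1672) (nat_lit 0) (XT.lf (nat_lit 0) (nat_lit 5558686848) (nat_lit 1596) (nat_lit 1076216469) (nat_lit 76) (nat_lit 392888961) (nat_lit 532) (nat_lit 5) (nat_lit 553) (nat_lit 5) (nat_lit 533) (nat_lit 5) (nat_lit 423) (nat_lit 392) (nat_lit 385)) (XT.lf (nat_lit 0) (nat_lit 3217364389) (nat_lit 1672) (nat_lit 841114416) (nat_lit 76) (nat_lit 3025315666) (nat_lit 510) (nat_lit 5) (nat_lit 532) (nat_lit 5) (nat_lit 511) (nat_lit 5) (nat_lit 424) (nat_lit 392) (nat_lit 384)))) (XT.nd (nat_lit 78) (nat_lit 4484) (nat_lit 0) (XT.lf (nat_lit 0) (nat_lit 782456957) (nat_lit 1748) (nat_lit 550659723) (nat_lit 76) (nat_lit 5809861600) (nat_lit 487) (nat_lit 5) (nat_lit 510) (nat_lit 5) (nat_lit 488) (nat_lit 5) (nat_lit 425) (nat_lit 392) (nat_lit 383)) (XT.nd (nat_lit 78) (nat_lit 2736) (nat_lit 0) (XT.lf (nat_lit 0)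 (nat_lit 5443237314) (nat_lit 1824) (nat_lit 226350201) (nat_lit 76) (nat_lit 1535366544) (nat_lit 464) (nat_lit 5) (nat_lit 488) (nat_lit 5) (nat_lit 465) (nat_lit 5) (nat_lit 426) (nat_lit 392) (nat_lit 382)) (XT.lf (nat_lit 0) (nat_lit 139920916) (nat_lit 988) (nat_lit 2723991420) (nat_lit 1064) (nat_lit 4405958316) (nat_lit 428) (nat_lit 5) (nat_lit 441) (nat_lit 5) (nat_lit 442) (nat_lit 5) (nat_lit 427) (nat_lit 392) (nat_lit 381))))))) (XT.nd (nat_lit 858) (nat_lit 7980) (nat_lit 0) (XT.nd (nat_lit 390) (nat_lit 4712) (nat_lit 0) (XT.nd (nat_lit 156) (nat_lit 2584) (nat_lit 0) (XT.nd (nat_lit 78) (nat_lit 912) (nat_lit 0) (XT.lf (nat_lit 0) (nat_lit 189741226) (nat_lit 988) (nat_lit 6776414725) (nat_lit 76) (nat_lit 371827704) (nat_lit 415) (nat_lit 5) (nat_lit 428) (nat_lit 5) (nat_lit 416) (nat_lit 5) (nat_lit 428) (nat_lit 392) (nat_lit 380)) (XT.lf (nat_lit 0) (nat_lit 1002010778) (nat_lit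 912) (nat_lit 3805056663) (nat_lit 988) (nat_lit 2601641337) (nat_lit 403) (nat_lit 5) (nat_lit 415) (nat_lit 5) (nat_lit 416) (nat_lit 5) (nat_lit 429) (nat_lit 392) (nat_lit 379))) (XT.nd (nat_lit 78) (nat_lit 1672) (nat_lit 0) (XT.lf (nat_lit 0) (nat_lit 1494815569) (nat_lit 836) (nat_lit 487137133) (nat_lit 912) (nat_lit 5500797210) (nat_lit 391) (nat_lit 5) (nat_lit 402) (nat_lit 5) (nat_lit 403) (nat_lit 5) (nat_lit 430) (nat_lit 392) (nat_lit 378)) (XT.nd (nat_lit 78) (nat_lit 836) (nat_lit 0) (XT.lf (nat_lit 0) (nat_lit 2015525948) (nat_lit 836) (nat_lit 4602954137) (nat_lit 912) (nat_lit 941194547) (nat_lit 380) (nat_lit 5) (nat_lit 391) (nat_lit 5) (nat_lit 392) (nat_lit 5) (nat_lit 431) (nat_lit 392) (nat_lit 377)) (XT.lf (nat_lit 0) (nat_lit 2572228159) (nat_lit 760) (nat_lit 1071218363) (nat_lit 836) (nat_lit 3996243615) (nat_lit 369) (nat_lit 5) (nat_lit 379) (nat_lit 5) (nat_lit 380)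 (nat_lit 5) (nat_lit 432) (nat_lit 392) (nat_lit 376))))) (XT.nd (nat_lit 234) (nat_lit 2204) (nat_lit 0) (XT.nd (nat_lit 78) (nat_lit 1596) (nat_lit 0) (XT.lf (nat_lit 0) (nat_lit 576714211) (nat_lit 912) (nat_lit 4558414250) (nat_lit 76) (nat_lit 2587708381) (nat_lit 357) (nat_lit 5) (nat_lit 369) (nat_lit 5) (nat_lit 358) (nat_lit 5) (nat_lit 433) (nat_lit 392) (nat_lit 375)) (XT.nd (nat_lit 78) (nat_lit 836) (nat_lit 0) (XT.lf (nat_lit 0) (nat_lit 3784287170) (nat_lit 760) (nat_lit 1396057562) (nat_lit 836) (nat_lit 2628668474) (nat_lit 347) (nat_lit 5) (nat_lit 357) (nat_lit 5) (nat_lit 358) (nat_lit 5) (nat_lit 434) (nat_lit 392) (nat_lit 374)) (XT.lf (nat_lit 0) (nat_lit 1957037402) (nat_lit 836) (nat_lit 3462856210) (nat_lit 76) (nat_lit 2478451028) (nat_lit 336) (nat_lit 5) (nat_lit 347) (nat_lit 5) (nat_lit 337) (nat_lit 5) (nat_lit 435) (nat_lit 392) (nat_lit 373)))) (XT.nd (nat_lit 78)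 (nat_lit 1520) (nat_lit 0) (XT.lf (nat_lit 0) (nat_lit 5119416437) (nat_lit 684) (nat_lit 1480809979) (nat_lit 760) (nat_lit 1390687243) (nat_lit 327) (nat_lit 5) (nat_lit 336) (nat_lit 5) (nat_lit 337) (nat_lit 5) (nat_lit 436) (nat_lit 392) (nat_lit 372)) (XT.nd (nat_lit 78) (nat_lit 684) (nat_lit 0) (XT.lf (nat_lit 0) (nat_lit 3219005330) (nat_lit 836) (nat_lit 2262935193) (nat_lit 76) (nat_lit 2604592225) (nat_lit 316) (nat_lit 5) (nat_lit 327) (nat_lit 5) (nat_lit 317) (nat_lit 5) (nat_lit 437) (nat_lit 392) (nat_lit 371)) (XT.lf (nat_lit 0) (nat_lit 6566370701) (nat_lit 684) (nat_lit 1343346009) (nat_lit 760) (nat_lit 275903729) (nat_lit 307) (nat_lit 5) (nat_lit 316) (nat_lit 5) (nat_lit 317) (nat_lit 5) (nat_lit 438) (nat_lit 392) (nat_lit 370)))))) (XT.nd (nat_lit 468) (nat_lit 3344) (nat_lit 0) (XT.nd (nat_lit 234) (nat_lit 1900) (nat_lit 0) (XT.nd (nat_lit 78) (nat_lit 1976) (nat_lit 0)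 (XT.lf (nat_lit 0) (nat_lit 4368558573) (nat_lit 760) (nat_lit 969980884) (nat_lit 76) (nat_lit 2949108578) (nat_lit 297) (nat_lit 5) (nat_lit 307) (nat_lit 5) (nat_lit 298) (nat_lit 5) (nat_lit 439) (nat_lit 392) (nat_lit 369)) (XT.nd (nat_lit 78) (nat_lit 1292) (nat_lit 0) (XT.lf (nat_lit 0) (nat_lit 711660556) (nat_lit 684) (nat_lit 283951204) (nat_lit 76) (nat_lit 7397691488) (nat_lit 288) (nat_lit 5) (nat_lit 297) (nat_lit 5) (nat_lit 289) (nat_lit 5) (nat_lit 440) (nat_lit 392) (nat_lit 368)) (XT.lf (nat_lit 0) (nat_lit 410190384) (nat_lit 608) (nat_lit 5003188869) (nat_lit 684) (nat_lit 3088539289) (nat_lit 271) (nat_lit 5) (nat_lit 279) (nat_lit 5) (nat_lit 280) (nat_lit 5) (nat_lit 441) (nat_lit 392) (nat_lit 367)))) (XT.nd (nat_lit 78) (nat_lit 1216) (nat_lit 0) (XT.lf (nat_lit 0) (nat_lit 1141792803) (nat_lit 608) (nat_lit 449447735) (nat_lit 684) (nat_lit 7022943689) (nat_lit 262) (nat_lit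 5) (nat_lit 270) (nat_lit 5) (nat_lit 271) (nat_lit 5) (nat_lit 442) (nat_lit 392) (nat_lit 366)) (XT.nd (nat_lit 78) (nat_lit 684) (nat_lit 0) (XT.lf (nat_lit 0) (nat_lit 1874856094) (nat_lit 532) (nat_lit 4486908770) (nat_lit 608) (nat_lit 2367811734) (nat_lit 255) (nat_lit 5) (nat_lit 262) (nat_lit 5) (nat_lit 263) (nat_lit 5) (nat_lit 443) (nat_lit 392) (nat_lit 365)) (XT.lf (nat_lit 0) (nat_lit 2366643622) (nat_lit 684) (nat_lit 6212320809) (nat_lit 76) (nat_lit 269733789) (nat_lit 246) (nat_lit 5) (nat_lit 255) (nat_lit 5) (nat_lit 247) (nat_lit 5) (nat_lit 444) (nat_lit 392) (nat_lit 364))))) (XT.nd (nat_lit 234) (nat_lit 1672) (nat_lit 0) (XT.nd (nat_lit 78) (nat_lit 1140) (nat_lit 0) (XT.lf (nat_lit 0) (nat_lit 3399714450) (nat_lit 532) (nat_lit 3810765448) (nat_lit 608) (nat_lit 1760622495) (nat_lit 239) (nat_lit 5) (nat_lit 246) (nat_lit 5) (nat_lit 247) (nat_lit 5) (nat_lit 445) (nat_lit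 392) (nat_lit 363)) (XT.nd (nat_lit 78) (nat_lit 532) (nat_lit 0) (XT.lf (nat_lit 0) (nat_lit 3040732175) (nat_lit 608) (nat_lit 4914963973) (nat_lit 76) (nat_lit 1141511968) (nat_lit 231) (nat_lit 5) (nat_lit 239) (nat_lit 5) (nat_lit 232) (nat_lit 5) (nat_lit 446) (nat_lit 392) (nat_lit 362)) (XT.lf (nat_lit 0) (nat_lit 4973145741) (nat_lit 532) (nat_lit 2988632025) (nat_lit 608) (nat_lit 1265106414) (nat_lit 224) (nat_lit 5) (nat_lit 231) (nat_lit 5) (nat_lit 232) (nat_lit 5) (nat_lit 447) (nat_lit 392) (nat_lit 361)))) (XT.nd (nat_lit 78) (nat_lit 1064) (nat_lit 0) (XT.lf (nat_lit 0) (nat_lit 3612136851) (nat_lit 608) (nat_lit 3589539816) (nat_lit 76) (nat_lit 2158502770) (nat_lit 216) (nat_lit 5) (nat_lit 224) (nat_lit 5) (nat_lit 217) (nat_lit 5) (nat_lit 448) (nat_lit 392) (nat_lit 360)) (XT.nd (nat_lit 78) (nat_lit 608) (nat_lit 0) (XT.lf (nat_lit 0) (nat_lit 6583198867) (nat_lit 456) (nat_lit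 2033815685) (nat_lit 532) (nat_lit 880332119) (nat_lit 210) (nat_lit 5) (nat_lit 216) (nat_lit 5) (nat_lit 217) (nat_lit 5) (nat_lit 449) (nat_lit 392) (nat_lit 359)) (XT.lf (nat_lit 0) (nat_lit 4081493298) (nat_lit 608) (nat_lit 2248615928) (nat_lit 76) (nat_lit 3307947041) (nat_lit 202) (nat_lit 5) (nat_lit 210) (nat_lit 5) (nat_lit 203) (nat_lit 5) (nat_lit 450) (nat_lit 392) (nat_lit 358))))))))
noncomputable def xc29 : XT := (XT.nd (nat_lit 1794) (nat_lit 3496) (nat_lit 0) (XT.nd (nat_lit 858) (nat_lit 3800) (nat_lit 0) (XT.nd (nat_lit 390) (nat_lit 2432) (nat_lit 0) (XT.nd (nat_lit 156) (nat_lit 1824) (nat_lit 0) (XT.nd (nat_lit 78) (nat_lit 532) (nat_lit 0) (XT.lf (nat_lit 0) (nat_lit 8217462440) (nat_lit 456) (nat_lit 959174403) (nat_lit 532) (nat_lit 606315129) (nat_lit 196) (nat_lit 5) (nat_lit 202) (nat_lit 5) (nat_lit 203) (nat_lit 5) (nat_lit 451) (nat_lit 392) (nat_lit 357)) (XT.lf (nat_lit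 0) (nat_lit 4448507325) (nat_lit 532) (nat_lit 905323379) (nat_lit 76) (nat_lit 4577489968) (nat_lit 189) (nat_lit 5) (nat_lit 196) (nat_lit 5) (nat_lit 190) (nat_lit 5) (nat_lit 452) (nat_lit 392) (nat_lit 356))) (XT.nd (nat_lit 78) (nat_lit 1368) (nat_lit 0) (XT.lf (nat_lit 0) (nat_lit 9641608287) (nat_lit 532) (nat_lit 222718288) (nat_lit 76) (nat_lit 219845214) (nat_lit 183) (nat_lit 5) (nat_lit 190) (nat_lit 5) (nat_lit 184) (nat_lit 5) (nat_lit 453) (nat_lit 392) (nat_lit 355)) (XT.nd (nat_lit 78) (nat_lit 456) (nat_lit 0) (XT.lf (nat_lit 0) (nat_lit 432170482) (nat_lit 380) (nat_lit 4282565803) (nat_lit 456) (nat_lit 5525701504) (nat_lit 171) (nat_lit 5) (nat_lit 176) (nat_lit 5) (nat_lit 177) (nat_lit 5) (nat_lit 454) (nat_lit 392) (nat_lit 354)) (XT.lf (nat_lit 0) (nat_lit 1109024160) (nat_lit 456) (nat_lit 8914063506) (nat_lit 532) (nat_lit 378206949) (nat_lit 165) (nat_lit 5) (nat_lit 171)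 (nat_lit 5) (nat_lit 172) (nat_lit 5) (nat_lit 455) (nat_lit 392) (nat_lit 353))))) (XT.nd (nat_lit 234) (nat_lit 1140) (nat_lit 0) (XT.nd (nat_lit 78) (nat_lit 836) (nat_lit 0) (XT.lf (nat_lit 0) (nat_lit 1755191720) (nat_lit 380) (nat_lit 3125730828) (nat_lit 456) (nat_lit 5684987391) (nat_lit 159) (nat_lit 5) (nat_lit 164) (nat_lit 5) (nat_lit 165) (nat_lit 5) (nat_lit 456) (nat_lit 392) (nat_lit 352)) (XT.nd (nat_lit 78) (nat_lit 456) (nat_lit 0) (XT.lf (nat_lit 0) (nat_lit 2408776102) (nat_lit 380) (nat_lit 7897597006) (nat_lit 456) (nat_lit 428774541) (nat_lit 154) (nat_lit 5) (nat_lit 159) (nat_lit 5) (nat_lit 160) (nat_lit 5) (nat_lit 457) (nat_lit 392) (nat_lit 351)) (XT.lf (nat_lit 0) (nat_lit 3035795889) (nat_lit 380) (nat_lit 1901946730) (nat_lit 456) (nat_lit 5970719826) (nat_lit 148) (nat_lit 5) (nat_lit 153) (nat_lit 5) (nat_lit 154) (nat_lit 5) (nat_lit 458) (nat_lit 392) (nat_lit 350))))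 (XT.nd (nat_lit 78) (nat_lit 760) (nat_lit 0) (XT.lf (nat_lit 0) (nat_lit 3657113122) (nat_lit 380) (nat_lit 6829229174) (nat_lit 456) (nat_lit 600046511) (nat_lit 143) (nat_lit 5) (nat_lit 148) (nat_lit 5) (nat_lit 149) (nat_lit 5) (nat_lit 459) (nat_lit 392) (nat_lit 349)) (XT.nd (nat_lit 78) (nat_lit 380) (nat_lit 0) (XT.lf (nat_lit 0) (nat_lit 4256866466) (nat_lit 304) (nat_lit 623875970) (nat_lit 380) (nat_lit 6388003314) (nat_lit 138) (nat_lit 5) (nat_lit 142) (nat_lit 5) (nat_lit 143) (nat_lit 5) (nat_lit 460) (nat_lit 392) (nat_lit 348)) (XT.lf (nat_lit 0) (nat_lit 4836271446) (nat_lit 380) (nat_lit 5721965251) (nat_lit 456) (nat_lit 897455217) (nat_lit 133) (nat_lit 5) (nat_lit 138) (nat_lit 5) (nat_lit 139) (nat_lit 5) (nat_lit 461) (nat_lit 392) (nat_lit 347)))))) (XT.nd (nat_lit 468) (nat_lit 1748) (nat_lit 0) (XT.nd (nat_lit 234) (nat_lit 988) (nat_lit 0) (XT.nd (nat_lit 78) (nat_lit 684)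 (nat_lit 0) (XT.lf (nat_lit 0) (nat_lit 4708836112) (nat_lit 380) (nat_lit 6252078135) (nat_lit 76) (nat_lit 686452078) (nat_lit 128) (nat_lit 5) (nat_lit 133) (nat_lit 5) (nat_lit 129) (nat_lit 5) (nat_lit 462) (nat_lit 392) (nat_lit 346)) (XT.nd (nat_lit 78) (nat_lit 380) (nat_lit 0) (XT.lf (nat_lit 0) (nat_lit 5926991760) (nat_lit 304) (nat_lit 4589138322) (nat_lit 380) (nat_lit 1327648131) (nat_lit 124) (nat_lit 5) (nat_lit 128) (nat_lit 5) (nat_lit 129) (nat_lit 5) (nat_lit 463) (nat_lit 392) (nat_lit 345)) (XT.lf (nat_lit 0) (nat_lit 4414918796) (nat_lit 380) (nat_lit 5613831259) (nat_lit 76) (nat_lit 2016325258) (nat_lit 119) (nat_lit 5) (nat_lit 124) (nat_lit 5) (nat_lit 120) (nat_lit 5) (nat_lit 464) (nat_lit 392) (nat_lit 344)))) (XT.nd (nat_lit 78) (nat_lit 684) (nat_lit 0) (XT.lf (nat_lit 0) (nat_lit 6908306121) (nat_lit 304) (nat_lit 3444545395) (nat_lit 380) (nat_lit 1898567338) (nat_lit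 115) (nat_lit 5) (nat_lit 119) (nat_lit 5) (nat_lit 120) (nat_lit 5) (nat_lit 465) (nat_lit 392) (nat_lit 343)) (XT.nd (nat_lit 78) (nat_lit 304) (nat_lit 0) (XT.lf (nat_lit 0) (nat_lit 3986725763) (nat_lit 380) (nat_lit 5115720336) (nat_lit 76) (nat_lit 3360306198) (nat_lit 110) (nat_lit 5) (nat_lit 115) (nat_lit 5) (nat_lit 111) (nat_lit 5) (nat_lit 466) (nat_lit 392) (nat_lit 342)) (XT.lf (nat_lit 0) (nat_lit 7757306090) (nat_lit 304) (nat_lit 2302590618) (nat_lit 380) (nat_lit 2619540927) (nat_lit 106) (nat_lit 5) (nat_lit 110) (nat_lit 5) (nat_lit 111) (nat_lit 5) (nat_lit 467) (nat_lit 392) (nat_lit 341))))) (XT.nd (nat_lit 234) (nat_lit 836) (nat_lit 0) (XT.nd (nat_lit 78) (nat_lit 608) (nat_lit 0) (XT.lf (nat_lit 0) (nat_lit 3414640701) (nat_lit 304) (nat_lit 4782489135) (nat_lit 76) (nat_lit 4704120275) (nat_lit 102) (nat_lit 5) (nat_lit 106) (nat_lit 5) (nat_lit 103) (nat_lit 5) (nat_lit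 468) (nat_lit 392) (nat_lit 340)) (XT.nd (nat_lit 78) (nat_lit 304) (nat_lit 0) (XT.lf (nat_lit 0) (nat_lit 8448889842) (nat_lit 304) (nat_lit 1178436946) (nat_lit 380) (nat_lit 3501387259) (nat_lit 98) (nat_lit 5) (nat_lit 102) (nat_lit 5) (nat_lit 103) (nat_lit 5) (nat_lit 469) (nat_lit 392) (nat_lit 339)) (XT.lf (nat_lit 0) (nat_lit 2687535822) (nat_lit 304) (nat_lit 4641259541) (nat_lit 76) (nat_lit 6032683712) (nat_lit 94) (nat_lit 5) (nat_lit 98) (nat_lit 5) (nat_lit 95) (nat_lit 5) (nat_lit 470) (nat_lit 392) (nat_lit 338)))) (XT.nd (nat_lit 78) (nat_lit 532) (nat_lit 0) (XT.lf (nat_lit 0) (nat_lit 8955485787) (nat_lit 304) (nat_lit 88167662) (nat_lit 380) (nat_lit 4556533172) (nat_lit 90) (nat_lit 5) (nat_lit 94) (nat_lit 5) (nat_lit 95) (nat_lit 5) (nat_lit 471) (nat_lit 392) (nat_lit 337)) (XT.nd (nat_lit 78) (nat_lit 228) (nat_lit 0) (XT.lf (nat_lit 0) (nat_lit 1792648263) (nat_lit 304)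 (nat_lit 4721823229) (nat_lit 76) (nat_lit 7329939027) (nat_lit 86) (nat_lit 5) (nat_lit 90) (nat_lit 5) (nat_lit 87) (nat_lit 5) (nat_lit 472) (nat_lit 392) (nat_lit 336)) (XT.lf (nat_lit 0) (nat_lit 8301884059) (nat_lit 304) (nat_lit 4854281386) (nat_lit 76) (nat_lit 938567687) (nat_lit 83) (nat_lit 5) (nat_lit 87) (nat_lit 5) (nat_lit 84) (nat_lit 5) (nat_lit 473) (nat_lit 392) (nat_lit 335))))))) (XT.nd (nat_lit 936) (nat_lit 608) (nat_lit 0) (XT.nd (nat_lit 468) (nat_lit 1292) (nat_lit 0) (XT.nd (nat_lit 234) (nat_lit 836) (nat_lit 0) (XT.nd (nat_lit 78) (nat_lit 456) (nat_lit 0) (XT.lf (nat_lit 0) (nat_lit 715440925) (nat_lit 304) (nat_lit 5056961228) (nat_lit 76) (nat_lit 8578678543) (nat_lit 79) (nat_lit 5) (nat_lit 83) (nat_lit 5) (nat_lit 80) (nat_lit 5) (nat_lit 474) (nat_lit 392) (nat_lit 334)) (XT.nd (nat_lit 78) (nat_lit 228) (nat_lit 0) (XT.lf (nat_lit 0) (nat_lit 7380972561) (nat_lit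 304) (nat_lit 5337028119) (nat_lit 76) (nat_lit 1895542043) (nat_lit 76) (nat_lit 5) (nat_lit 80) (nat_lit 5) (nat_lit 77) (nat_lit 5) (nat_lit 475) (nat_lit 392) (nat_lit 333)) (XT.lf (nat_lit 0) (nat_lit 9196038963) (nat_lit 228) (nat_lit 5118479168) (nat_lit 304) (nat_lit 568003163) (nat_lit 73) (nat_lit 5) (nat_lit 76) (nat_lit 5) (nat_lit 77) (nat_lit 5) (nat_lit 476) (nat_lit 392) (nat_lit 332)))) (XT.nd (nat_lit 78) (nat_lit 532) (nat_lit 0) (XT.lf (nat_lit 0) (nat_lit 6263236313) (nat_lit 304) (nat_lit 6130294408) (nat_lit 76) (nat_lit 2764238042) (nat_lit 69) (nat_lit 5) (nat_lit 73) (nat_lit 5) (nat_lit 70) (nat_lit 5) (nat_lit 477) (nat_lit 392) (nat_lit 331)) (XT.nd (nat_lit 78) (nat_lit 304) (nat_lit 0) (XT.lf (nat_lit 0) (nat_lit 8787181315) (nat_lit 228) (nat_lit 4571477734) (nat_lit 304) (nat_lit 2081203626) (nat_lit 66) (nat_lit 5) (nat_lit 69) (nat_lit 5) (nat_lit 70) (nat_lit 5)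 (nat_lit 478) (nat_lit 392) (nat_lit 330)) (XT.lf (nat_lit 0) (nat_lit 4929382943) (nat_lit 304) (nat_lit 7275939247) (nat_lit 76) (nat_lit 3523307366) (nat_lit 62) (nat_lit 5) (nat_lit 66) (nat_lit 5) (nat_lit 63) (nat_lit 5) (nat_lit 479) (nat_lit 392) (nat_lit 329))))) (XT.nd (nat_lit 234) (nat_lit 684) (nat_lit 0) (XT.nd (nat_lit 78) (nat_lit 456) (nat_lit 0) (XT.lf (nat_lit 0) (nat_lit 8029471953) (nat_lit 152) (nat_lit 4159179778) (nat_lit 228) (nat_lit 3835802889) (nat_lit 60) (nat_lit 5) (nat_lit 62) (nat_lit 5) (nat_lit 63) (nat_lit 5) (nat_lit 480) (nat_lit 392) (nat_lit 328)) (XT.nd (nat_lit 78) (nat_lit 152) (nat_lit 0) (XT.lf (nat_lit 0) (nat_lit 3357732505) (nat_lit 304) (nat_lit 8820198496) (nat_lit 76) (nat_lit 4149494179) (nat_lit 56) (nat_lit 5) (nat_lit 60) (nat_lit 5) (nat_lit 57) (nat_lit 5) (nat_lit 481) (nat_lit 392) (nat_lit 327)) (XT.lf (nat_lit 0) (nat_lit 6875489585) (nat_lit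 152) (nat_lit 3906645330) (nat_lit 228) (nat_lit 5855502235) (nat_lit 54) (nat_lit 5) (nat_lit 56) (nat_lit 5) (nat_lit 57) (nat_lit 5) (nat_lit 482) (nat_lit 392) (nat_lit 326)))) (XT.nd (nat_lit 78) (nat_lit 380) (nat_lit 0) (XT.lf (nat_lit 0) (nat_lit 1523988770) (nat_lit 304) (nat_lit 10814173151) (nat_lit 76) (nat_lit 4617381496) (nat_lit 50) (nat_lit 5) (nat_lit 54) (nat_lit 5) (nat_lit 51) (nat_lit 5) (nat_lit 483) (nat_lit 392) (nat_lit 325)) (XT.nd (nat_lit 78) (nat_lit 228) (nat_lit 0) (XT.lf (nat_lit 0) (nat_lit 5272759370) (nat_lit 152) (nat_lit 3841282470) (nat_lit 228) (nat_lit 8166798980) (nat_lit 48) (nat_lit 5) (nat_lit 50) (nat_lit 5) (nat_lit 51) (nat_lit 5) (nat_lit 484) (nat_lit 392) (nat_lit 324)) (XT.lf (nat_lit 0) (nat_lit 4296079580) (nat_lit 228) (nat_lit 12711332188) (nat_lit 304) (nat_lit 606975651) (nat_lit 45) (nat_lit 5) (nat_lit 48) (nat_lit 5) (nat_lit 49) (nat_lit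 5) (nat_lit 485) (nat_lit 392) (nat_lit 323)))))) (XT.nd (nat_lit 57096) (nat_lit 0) (nat_lit 39140) (XT.nd (nat_lit 56862) (nat_lit 0) (nat_lit 46968) (XT.nd (nat_lit 78) (nat_lit 380) (nat_lit 0) (XT.lf (nat_lit 0) (nat_lit 3163193604) (nat_lit 152) (nat_lit 3993141181) (nat_lit 228) (nat_lit 10799258690) (nat_lit 42) (nat_lit 5) (nat_lit 44) (nat_lit 5) (nat_lit 45) (nat_lit 5) (nat_lit 486) (nat_lit 392) (nat_lit 322)) (XT.nd (nat_lit 78) (nat_lit 228) (nat_lit 0) (XT.lf (nat_lit 0) (nat_lit 1902087559) (nat_lit 152) (nat_lit 13321269137) (nat_lit 228) (nat_lit 3082019988) (nat_lit 40) (nat_lit 5) (nat_lit 42) (nat_lit 5) (nat_lit 43) (nat_lit 5) (nat_lit 487) (nat_lit 392) (nat_lit 321)) (XT.lf (nat_lit 0) (nat_lit 482475409) (nat_lit 152) (nat_lit 4395234932) (nat_lit 228) (nat_lit 13785817304) (nat_lit 37) (nat_lit 5) (nat_lit 39) (nat_lit 5) (nat_lit 40) (nat_lit 5) (nat_lit 488) (nat_lit 392)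 (nat_lit 320)))) (XT.nd (nat_lit 78) (nat_lit 2052) (nat_lit 0) (XT.lf (nat_lit 0) (nat_lit 2827132992) (nat_lit 836) (nat_lit 249447136) (nat_lit 836) (nat_lit 249447136) (nat_lit 682) (nat_lit 4) (nat_lit 693) (nat_lit 5) (nat_lit 693) (nat_lit 4) (nat_lit 414) (nat_lit 393) (nat_lit 393)) (XT.nd (nat_lit 78) (nat_lit 1064) (nat_lit 0) (XT.lf (nat_lit 0) (nat_lit 4366390047) (nat_lit 988) (nat_lit 1286816761) (nat_lit 0) (nat_lit 1030207654) (nat_lit 669) (nat_lit 5) (nat_lit 682) (nat_lit 4) (nat_lit 669) (nat_lit 4) (nat_lit 415) (nat_lit 393) (nat_lit 392)) (XT.lf (nat_lit 0) (nat_lit 2502850326) (nat_lit 1064) (nat_lit 1519436764) (nat_lit 76) (nat_lit 2695407265) (nat_lit 655) (nat_lit 5) (nat_lit 669) (nat_lit 5) (nat_lit 656) (nat_lit 4) (nat_lit 416) (nat_lit 393) (nat_lit 391))))) (XT.nd (nat_lit 234) (nat_lit 4256) (nat_lit 0) (XT.nd (nat_lit 78) (nat_lit 2432) (nat_lit 0) (XT.lf (nat_lit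 0) (nat_lit 557258650) (nat_lit 1140) (nat_lit 1692752526) (nat_lit 76) (nat_lit 4504972375) (nat_lit 640) (nat_lit 5) (nat_lit 655) (nat_lit 5) (nat_lit 641) (nat_lit 5) (nat_lit 417) (nat_lit 393) (nat_lit 390)) (XT.nd (nat_lit 78) (nat_lit 1292) (nat_lit 0) (XT.lf (nat_lit 0) (nat_lit 4978381951) (nat_lit 1140) (nat_lit 324651957) (nat_lit 1216) (nat_lit 1492081146) (nat_lit 625) (nat_lit 5) (nat_lit 640) (nat_lit 5) (nat_lit 641) (nat_lit 5) (nat_lit 418) (nat_lit 393) (nat_lit 389)) (XT.lf (nat_lit 0) (nat_lit 3213223496) (nat_lit 1292) (nat_lit 1897509193) (nat_lit 76) (nat_lit 1727266939) (nat_lit 608) (nat_lit 5) (nat_lit 625) (nat_lit 5) (nat_lit 609) (nat_lit 5) (nat_lit 419) (nat_lit 393) (nat_lit 388)))) (XT.nd (nat_lit 78) (nat_lit 2888) (nat_lit 0) (XT.lf (nat_lit 0) (nat_lit 1039694209) (nat_lit 1368) (nat_lit 1923293547) (nat_lit 76) (nat_lit 3920919667) (nat_lit 590) (nat_lit 5) (nat_lit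 608) (nat_lit 5) (nat_lit 591) (nat_lit 5) (nat_lit 420) (nat_lit 393) (nat_lit 387)) (XT.nd (nat_lit 78) (nat_lit 1520) (nat_lit 0) (XT.lf (nat_lit 0) (nat_lit 5032605736) (nat_lit 1368) (nat_lit 661870722) (nat_lit 1444) (nat_lit 1238276232) (nat_lit 572) (nat_lit 5) (nat_lit 590) (nat_lit 5) (nat_lit 591) (nat_lit 5) (nat_lit 421) (nat_lit 393) (nat_lit 386)) (XT.lf (nat_lit 0) (nat_lit 3374299540) (nat_lit 1520) (nat_lit 1839186575) (nat_lit 76) (nat_lit 1770863526) (nat_lit 552) (nat_lit 5) (nat_lit 572) (nat_lit 5) (nat_lit 553) (nat_lit 5) (nat_lit 422) (nat_lit 393) (nat_lit 385))))))))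
noncomputable def xc30 : XT := (XT.nd (nat_lit 1794) (nat_lit 10412) (nat_lit 0) (XT.nd (nat_lit 858) (nat_lit 8968) (nat_lit 0) (XT.nd (nat_lit 390) (nat_lit 6384) (nat_lit 0) (XT.nd (nat_lit 156) (nat_lit 5244) (nat_lit 0) (XT.nd (nat_lit 78) (nat_lit 1596) (nat_lit 0) (XT.lf (nat_lit 0) (nat_lit 968097353) (nat_lit 1596) (nat_lit 1727225710) (nat_lit 76) (nat_lit 4343676641) (nat_lit 531) (nat_lit 5) (nat_lit 552) (nat_lit 5) (nat_lit 532) (nat_lit 5) (nat_lit 423) (nat_lit 393) (nat_lit 384)) (XT.lf (nat_lit 0) (nat_lit 5526599333) (nat_lit 1596) (nat_lit 18624354) (nat_lit 1672) (nat_lit 1551402791) (nat_lit 510) (nat_lit 5) (nat_lit 531) (nat_lit 5) (nat_lit 532) (nat_lit 5) (nat_lit 424) (nat_lit 393) (nat_lit 383))) (XT.nd (nat_lit 78) (nat_lit 3496) (nat_lit 0) (XT.lf (nat_lit 0) (nat_lit 2994904032) (nat_lit 1748) (nat_lit 1382732112) (nat_lit 76) (nat_lit 2779331058) (nat_lit 487) (nat_lit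 5) (nat_lit 510) (nat_lit 5) (nat_lit 488) (nat_lit 5) (nat_lit 425) (nat_lit 393) (nat_lit 382)) (XT.nd (nat_lit 78) (nat_lit 1672) (nat_lit 0) (XT.lf (nat_lit 0) (nat_lit 349156976) (nat_lit 1824) (nat_lit 1141703670) (nat_lit 76) (nat_lit 5729675282) (nat_lit 463) (nat_lit 5) (nat_lit 487) (nat_lit 5) (nat_lit 464) (nat_lit 5) (nat_lit 426) (nat_lit 393) (nat_lit 381)) (XT.lf (nat_lit 0) (nat_lit 4870363417) (nat_lit 1748) (nat_lit 872591245) (nat_lit 76) (nat_lit 1543907608) (nat_lit 441) (nat_lit 5) (nat_lit 464) (nat_lit 5) (nat_lit 442) (nat_lit 5) (nat_lit 427) (nat_lit 393) (nat_lit 380))))) (XT.nd (nat_lit 234) (nat_lit 2584) (nat_lit 0) (XT.nd (nat_lit 78) (nat_lit 2736) (nat_lit 0) (XT.lf (nat_lit 0) (nat_lit 2077587356) (nat_lit 1064) (nat_lit 562956209) (nat_lit 76) (nat_lit 4715695373) (nat_lit 427) (nat_lit 5) (nat_lit 441) (nat_lit 5) (nat_lit 428) (nat_lit 5) (nat_lit 428) (nat_lit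 393) (nat_lit 379)) (XT.nd (nat_lit 78) (nat_lit 1824) (nat_lit 0) (XT.lf (nat_lit 0) (nat_lit 6605321702) (nat_lit 988) (nat_lit 210004108) (nat_lit 76) (nat_lit 613441331) (nat_lit 415) (nat_lit 5) (nat_lit 428) (nat_lit 5) (nat_lit 416) (nat_lit 5) (nat_lit 429) (nat_lit 393) (nat_lit 378)) (XT.lf (nat_lit 0) (nat_lit 165488794) (nat_lit 836) (nat_lit 3500081819) (nat_lit 912) (nat_lit 3838442589) (nat_lit 391) (nat_lit 5) (nat_lit 402) (nat_lit 5) (nat_lit 403) (nat_lit 5) (nat_lit 430) (nat_lit 393) (nat_lit 377)))) (XT.nd (nat_lit 78) (nat_lit 1672) (nat_lit 0) (XT.lf (nat_lit 0) (nat_lit 596003519) (nat_lit 836) (nat_lit 26624657) (nat_lit 912) (nat_lit 6960007762) (nat_lit 379) (nat_lit 5) (nat_lit 390) (nat_lit 5) (nat_lit 391) (nat_lit 5) (nat_lit 431) (nat_lit 393) (nat_lit 376)) (XT.nd (nat_lit 78) (nat_lit 912) (nat_lit 0) (XT.lf (nat_lit 0) (nat_lit 1038379236) (nat_lit 760) (nat_lit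 4087443303) (nat_lit 836) (nat_lit 2538098631) (nat_lit 369) (nat_lit 5) (nat_lit 379) (nat_lit 5) (nat_lit 380) (nat_lit 5) (nat_lit 432) (nat_lit 393) (nat_lit 375)) (XT.lf (nat_lit 0) (nat_lit 1527512230) (nat_lit 836) (nat_lit 402395986) (nat_lit 912) (nat_lit 5818696270) (nat_lit 357) (nat_lit 5) (nat_lit 368) (nat_lit 5) (nat_lit 369) (nat_lit 5) (nat_lit 433) (nat_lit 393) (nat_lit 374)))))) (XT.nd (nat_lit 468) (nat_lit 4408) (nat_lit 0) (XT.nd (nat_lit 234) (nat_lit 2280) (nat_lit 0) (XT.nd (nat_lit 78) (nat_lit 1520) (nat_lit 0) (XT.lf (nat_lit 0) (nat_lit 2036220533) (nat_lit 760) (nat_lit 4426522942) (nat_lit 836) (nat_lit 1373462418) (nat_lit 347) (nat_lit 5) (nat_lit 357) (nat_lit 5) (nat_lit 358) (nat_lit 5) (nat_lit 434) (nat_lit 393) (nat_lit 373)) (XT.nd (nat_lit 78) (nat_lit 684) (nat_lit 0) (XT.lf (nat_lit 0) (nat_lit 2579378046) (nat_lit 760) (nat_lit 531968195) (nat_lit 836) (nat_lit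 4815725491) (nat_lit 336) (nat_lit 5) (nat_lit 346) (nat_lit 5) (nat_lit 347) (nat_lit 5) (nat_lit 435) (nat_lit 393) (nat_lit 372)) (XT.lf (nat_lit 0) (nat_lit 3147403297) (nat_lit 684) (nat_lit 4536062432) (nat_lit 760) (nat_lit 337604855) (nat_lit 327) (nat_lit 5) (nat_lit 336) (nat_lit 5) (nat_lit 337) (nat_lit 5) (nat_lit 436) (nat_lit 393) (nat_lit 371)))) (XT.nd (nat_lit 78) (nat_lit 1444) (nat_lit 0) (XT.lf (nat_lit 0) (nat_lit 3740072266) (nat_lit 760) (nat_lit 433435018) (nat_lit 836) (nat_lit 3944749064) (nat_lit 316) (nat_lit 5) (nat_lit 326) (nat_lit 5) (nat_lit 327) (nat_lit 5) (nat_lit 437) (nat_lit 393) (nat_lit 370)) (XT.nd (nat_lit 78) (nat_lit 684) (nat_lit 0) (XT.lf (nat_lit 0) (nat_lit 567883778) (nat_lit 760) (nat_lit 3861872970) (nat_lit 76) (nat_lit 3788921081) (nat_lit 306) (nat_lit 5) (nat_lit 316) (nat_lit 5) (nat_lit 307) (nat_lit 5) (nat_lit 438) (nat_lit 393) (nat_lit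 369)) (XT.lf (nat_lit 0) (nat_lit 4998317563) (nat_lit 684) (nat_lit 123699791) (nat_lit 760) (nat_lit 3200393876) (nat_lit 297) (nat_lit 5) (nat_lit 306) (nat_lit 5) (nat_lit 307) (nat_lit 5) (nat_lit 439) (nat_lit 393) (nat_lit 368))))) (XT.nd (nat_lit 234) (nat_lit 2356) (nat_lit 0) (XT.nd (nat_lit 78) (nat_lit 1368) (nat_lit 0) (XT.lf (nat_lit 0) (nat_lit 1352678199) (nat_lit 684) (nat_lit 2773685922) (nat_lit 76) (nat_lit 4302981110) (nat_lit 288) (nat_lit 5) (nat_lit 297) (nat_lit 5) (nat_lit 289) (nat_lit 5) (nat_lit 440) (nat_lit 393) (nat_lit 367)) (XT.nd (nat_lit 78) (nat_lit 684) (nat_lit 0) (XT.lf (nat_lit 0) (nat_lit 5964062885) (nat_lit 760) (nat_lit 2199319730) (nat_lit 76) (nat_lit 376391455) (nat_lit 279) (nat_lit 5) (nat_lit 289) (nat_lit 5) (nat_lit 280) (nat_lit 5) (nat_lit 441) (nat_lit 393) (nat_lit 366)) (XT.lf (nat_lit 0) (nat_lit 2025236290) (nat_lit 684) (nat_lit 1618284960)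 (nat_lit 76) (nat_lit 5009900577) (nat_lit 270) (nat_lit 5) (nat_lit 279) (nat_lit 5) (nat_lit 271) (nat_lit 5) (nat_lit 442) (nat_lit 393) (nat_lit 365)))) (XT.nd (nat_lit 78) (nat_lit 1748) (nat_lit 0) (XT.lf (nat_lit 0) (nat_lit 6702952978) (nat_lit 684) (nat_lit 1014782475) (nat_lit 76) (nat_lit 1052941240) (nat_lit 262) (nat_lit 5) (nat_lit 271) (nat_lit 5) (nat_lit 263) (nat_lit 5) (nat_lit 443) (nat_lit 393) (nat_lit 364)) (XT.nd (nat_lit 78) (nat_lit 1140) (nat_lit 0) (XT.lf (nat_lit 0) (nat_lit 2588685767) (nat_lit 608) (nat_lit 407097412) (nat_lit 76) (nat_lit 5895464410) (nat_lit 254) (nat_lit 5) (nat_lit 262) (nat_lit 5) (nat_lit 255) (nat_lit 5) (nat_lit 444) (nat_lit 393) (nat_lit 363)) (XT.lf (nat_lit 0) (nat_lit 221786304) (nat_lit 532) (nat_lit 7120367135) (nat_lit 608) (nat_lit 1673311557) (nat_lit 239) (nat_lit 5) (nat_lit 246) (nat_lit 5) (nat_lit 247) (nat_lit 5) (nat_lit 445)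 (nat_lit 393) (nat_lit 362))))))) (XT.nd (nat_lit 858) (nat_lit 4712) (nat_lit 0) (XT.nd (nat_lit 390) (nat_lit 2888) (nat_lit 0) (XT.nd (nat_lit 156) (nat_lit 1672) (nat_lit 0) (XT.nd (nat_lit 78) (nat_lit 532) (nat_lit 0) (XT.lf (nat_lit 0) (nat_lit 859551793) (nat_lit 532) (nat_lit 2191286165) (nat_lit 608) (nat_lit 6092248205) (nat_lit 231) (nat_lit 5) (nat_lit 238) (nat_lit 5) (nat_lit 239) (nat_lit 5) (nat_lit 446) (nat_lit 393) (nat_lit 361)) (XT.lf (nat_lit 0) (nat_lit 1509783042) (nat_lit 532) (nat_lit 6379309556) (nat_lit 608) (nat_lit 1385330864) (nat_lit 224) (nat_lit 5) (nat_lit 231) (nat_lit 5) (nat_lit 232) (nat_lit 5) (nat_lit 447) (nat_lit 393) (nat_lit 360))) (XT.nd (nat_lit 78) (nat_lit 1064) (nat_lit 0) (XT.lf (nat_lit 0) (nat_lit 2164341408) (nat_lit 532) (nat_lit 1245993038) (nat_lit 608) (nat_lit 5999068136) (nat_lit 216) (nat_lit 5) (nat_lit 223) (nat_lit 5) (nat_lit 224) (nat_lit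 5) (nat_lit 448) (nat_lit 393) (nat_lit 359)) (XT.nd (nat_lit 78) (nat_lit 608) (nat_lit 0) (XT.lf (nat_lit 0) (nat_lit 2823528126) (nat_lit 456) (nat_lit 5514544127) (nat_lit 532) (nat_lit 1210045366) (nat_lit 210) (nat_lit 5) (nat_lit 216) (nat_lit 5) (nat_lit 217) (nat_lit 5) (nat_lit 449) (nat_lit 393) (nat_lit 358)) (XT.lf (nat_lit 0) (nat_lit 3489397085) (nat_lit 532) (nat_lit 175442562) (nat_lit 608) (nat_lit 6025860441) (nat_lit 202) (nat_lit 5) (nat_lit 209) (nat_lit 5) (nat_lit 210) (nat_lit 5) (nat_lit 450) (nat_lit 393) (nat_lit 357))))) (XT.nd (nat_lit 234) (nat_lit 1444) (nat_lit 0) (XT.nd (nat_lit 78) (nat_lit 988) (nat_lit 0) (XT.lf (nat_lit 0) (nat_lit 4150339284) (nat_lit 456) (nat_lit 4538826680) (nat_lit 532) (nat_lit 1147850801) (nat_lit 196) (nat_lit 5) (nat_lit 202) (nat_lit 5) (nat_lit 203) (nat_lit 5) (nat_lit 451) (nat_lit 393) (nat_lit 356)) (XT.nd (nat_lit 78) (nat_lit 456)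 (nat_lit 0) (XT.lf (nat_lit 0) (nat_lit 3820312474) (nat_lit 532) (nat_lit 5172306927) (nat_lit 76) (nat_lit 994716016) (nat_lit 189) (nat_lit 5) (nat_lit 196) (nat_lit 5) (nat_lit 190) (nat_lit 5) (nat_lit 452) (nat_lit 393) (nat_lit 355)) (XT.lf (nat_lit 0) (nat_lit 5476909989) (nat_lit 456) (nat_lit 3464611799) (nat_lit 532) (nat_lit 1200106855) (nat_lit 183) (nat_lit 5) (nat_lit 189) (nat_lit 5) (nat_lit 190) (nat_lit 5) (nat_lit 453) (nat_lit 393) (nat_lit 354)))) (XT.nd (nat_lit 78) (nat_lit 912) (nat_lit 0) (XT.lf (nat_lit 0) (nat_lit 3870463099) (nat_lit 532) (nat_lit 4167554522) (nat_lit 76) (nat_lit 2261912763) (nat_lit 176) (nat_lit 5) (nat_lit 183) (nat_lit 5) (nat_lit 177) (nat_lit 5) (nat_lit 454) (nat_lit 393) (nat_lit 353)) (XT.nd (nat_lit 78) (nat_lit 532) (nat_lit 0) (XT.lf (nat_lit 0) (nat_lit 6789165322) (nat_lit 380) (nat_lit 2304168024) (nat_lit 456) (nat_lit 1369167439) (nat_lit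 171) (nat_lit 5) (nat_lit 176) (nat_lit 5) (nat_lit 177) (nat_lit 5) (nat_lit 455) (nat_lit 393) (nat_lit 352)) (XT.lf (nat_lit 0) (nat_lit 3811549959) (nat_lit 532) (nat_lit 3200942586) (nat_lit 76) (nat_lit 3616584178) (nat_lit 164) (nat_lit 5) (nat_lit 171) (nat_lit 5) (nat_lit 165) (nat_lit 5) (nat_lit 456) (nat_lit 393) (nat_lit 351)))))) (XT.nd (nat_lit 468) (nat_lit 2280) (nat_lit 0) (XT.nd (nat_lit 234) (nat_lit 1216) (nat_lit 0) (XT.nd (nat_lit 78) (nat_lit 836) (nat_lit 0) (XT.lf (nat_lit 0) (nat_lit 8072108013) (nat_lit 380) (nat_lit 1069694586) (nat_lit 456) (nat_lit 1658419442) (nat_lit 159) (nat_lit 5) (nat_lit 164) (nat_lit 5) (nat_lit 165) (nat_lit 5) (nat_lit 457) (nat_lit 393) (nat_lit 350)) (XT.nd (nat_lit 78) (nat_lit 380) (nat_lit 0) (XT.lf (nat_lit 0) (nat_lit 3639942944) (nat_lit 456) (nat_lit 2288549291) (nat_lit 76) (nat_lit 5046893387) (nat_lit 153) (nat_lit 5) (nat_lit 159)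 (nat_lit 5) (nat_lit 154) (nat_lit 5) (nat_lit 458) (nat_lit 393) (nat_lit 349)) (XT.lf (nat_lit 0) (nat_lit 9084564878) (nat_lit 456) (nat_lit 1847242080) (nat_lit 76) (nat_lit 223587955) (nat_lit 148) (nat_lit 5) (nat_lit 154) (nat_lit 5) (nat_lit 149) (nat_lit 5) (nat_lit 459) (nat_lit 393) (nat_lit 348)))) (XT.nd (nat_lit 78) (nat_lit 760) (nat_lit 0) (XT.lf (nat_lit 0) (nat_lit 3350932811) (nat_lit 456) (nat_lit 1447667802) (nat_lit 76) (nat_lit 6540911753) (nat_lit 142) (nat_lit 5) (nat_lit 148) (nat_lit 5) (nat_lit 143) (nat_lit 5) (nat_lit 460) (nat_lit 393) (nat_lit 347)) (XT.nd (nat_lit 78) (nat_lit 456) (nat_lit 0) (XT.lf (nat_lit 0) (nat_lit 8922486366) (nat_lit 380) (nat_lit 1054541672) (nat_lit 76) (nat_lit 1551552424) (nat_lit 138) (nat_lit 5) (nat_lit 143) (nat_lit 5) (nat_lit 139) (nat_lit 5) (nat_lit 461) (nat_lit 393) (nat_lit 346)) (XT.lf (nat_lit 0) (nat_lit 2938670049) (nat_lit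 456) (nat_lit 696992837) (nat_lit 76) (nat_lit 8086495553) (nat_lit 132) (nat_lit 5) (nat_lit 138) (nat_lit 5) (nat_lit 133) (nat_lit 5) (nat_lit 462) (nat_lit 393) (nat_lit 345))))) (XT.nd (nat_lit 234) (nat_lit 988) (nat_lit 0) (XT.nd (nat_lit 78) (nat_lit 988) (nat_lit 0) (XT.lf (nat_lit 0) (nat_lit 8642452848) (nat_lit 380) (nat_lit 362517830) (nat_lit 76) (nat_lit 2915672753) (nat_lit 128) (nat_lit 5) (nat_lit 133) (nat_lit 5) (nat_lit 129) (nat_lit 5) (nat_lit 463) (nat_lit 393) (nat_lit 344)) (XT.nd (nat_lit 78) (nat_lit 608) (nat_lit 0) (XT.lf (nat_lit 0) (nat_lit 2396093416) (nat_lit 380) (nat_lit 56822835) (nat_lit 76) (nat_lit 9671157601) (nat_lit 123) (nat_lit 5) (nat_lit 128) (nat_lit 5) (nat_lit 124) (nat_lit 5) (nat_lit 464) (nat_lit 393) (nat_lit 343)) (XT.lf (nat_lit 0) (nat_lit 210425043) (nat_lit 304) (nat_lit 8027999911) (nat_lit 380) (nat_lit 4093907123) (nat_lit 115) (nat_lit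 5) (nat_lit 119) (nat_lit 5) (nat_lit 120) (nat_lit 5) (nat_lit 465) (nat_lit 393) (nat_lit 342)))) (XT.nd (nat_lit 78) (nat_lit 608) (nat_lit 0) (XT.lf (nat_lit 0) (nat_lit 456710146) (nat_lit 304) (nat_lit 1261102511) (nat_lit 380) (nat_lit 10828187783) (nat_lit 110) (nat_lit 5) (nat_lit 114) (nat_lit 5) (nat_lit 115) (nat_lit 5) (nat_lit 466) (nat_lit 393) (nat_lit 341)) (XT.nd (nat_lit 78) (nat_lit 304) (nat_lit 0) (XT.lf (nat_lit 0) (nat_lit 641311312) (nat_lit 304) (nat_lit 7060426302) (nat_lit 380) (nat_lit 5062735545) (nat_lit 106) (nat_lit 5) (nat_lit 110) (nat_lit 5) (nat_lit 111) (nat_lit 5) (nat_lit 467) (nat_lit 393) (nat_lit 340)) (XT.lf (nat_lit 0) (nat_lit 812102718) (nat_lit 228) (nat_lit 78357640) (nat_lit 304) (nat_lit 12098405449) (nat_lit 102) (nat_lit 5) (nat_lit 105) (nat_lit 5) (nat_lit 106) (nat_lit 5) (nat_lit 468) (nat_lit 393) (nat_lit 339))))))))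
noncomputable def xc31 : XT := (XT.nd (nat_lit 58266) (nat_lit 0) (nat_lit 20216) (XT.nd (nat_lit 858) (nat_lit 1900) (nat_lit 0) (XT.nd (nat_lit 390) (nat_lit 1368) (nat_lit 0) (XT.nd (nat_lit 156) (nat_lit 912) (nat_lit 0) (XT.nd (nat_lit 78) (nat_lit 228) (nat_lit 0) (XT.lf (nat_lit 0) (nat_lit 899686761) (nat_lit 304) (nat_lit 6119997233) (nat_lit 380) (nat_lit 6198317272) (nat_lit 98) (nat_lit 5) (nat_lit 102) (nat_lit 5) (nat_lit 103) (nat_lit 5) (nat_lit 469) (nat_lit 393) (nat_lit 338)) (XT.lf (nat_lit 0) (nat_lit 973980544) (nat_lit 228) (nat_lit 12387511092) (nat_lit 304) (nat_lit 91949488) (nat_lit 95) (nat_lit 5) (nat_lit 98) (nat_lit 5) (nat_lit 99) (nat_lit 5) (nat_lit 470) (nat_lit 393) (nat_lit 337))) (XT.nd (nat_lit 78) (nat_lit 532) (nat_lit 0) (XT.lf (nat_lit 0) (nat_lit 957415819) (nat_lit 304) (nat_lit 5222971061) (nat_lit 380) (nat_lit 7513475576) (nat_lit 90) (nat_lit 5) (nat_lit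 94) (nat_lit 5) (nat_lit 95) (nat_lit 5) (nat_lit 471) (nat_lit 393) (nat_lit 336)) (XT.nd (nat_lit 78) (nat_lit 304) (nat_lit 0) (XT.lf (nat_lit 0) (nat_lit 913209369) (nat_lit 228) (nat_lit 11765329944) (nat_lit 304) (nat_lit 1262171197) (nat_lit 87) (nat_lit 5) (nat_lit 90) (nat_lit 5) (nat_lit 91) (nat_lit 5) (nat_lit 472) (nat_lit 393) (nat_lit 335)) (XT.lf (nat_lit 0) (nat_lit 783560810) (nat_lit 228) (nat_lit 4386722298) (nat_lit 304) (nat_lit 9022782557) (nat_lit 83) (nat_lit 5) (nat_lit 86) (nat_lit 5) (nat_lit 87) (nat_lit 5) (nat_lit 473) (nat_lit 393) (nat_lit 334))))) (XT.nd (nat_lit 234) (nat_lit 608) (nat_lit 0) (XT.nd (nat_lit 78) (nat_lit 532) (nat_lit 0) (XT.lf (nat_lit 0) (nat_lit 603828278) (nat_lit 228) (nat_lit 11223991501) (nat_lit 304) (nat_lit 2624023529) (nat_lit 80) (nat_lit 5) (nat_lit 83) (nat_lit 5) (nat_lit 84) (nat_lit 5) (nat_lit 474) (nat_lit 393) (nat_lit 333)) (XT.nd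 (nat_lit 78) (nat_lit 228) (nat_lit 0) (XT.lf (nat_lit 0) (nat_lit 344049672) (nat_lit 228) (nat_lit 3629927171) (nat_lit 304) (nat_lit 10742709941) (nat_lit 76) (nat_lit 5) (nat_lit 79) (nat_lit 5) (nat_lit 80) (nat_lit 5) (nat_lit 475) (nat_lit 393) (nat_lit 332)) (XT.lf (nat_lit 0) (nat_lit 10071035) (nat_lit 228) (nat_lit 10783271732) (nat_lit 304) (nat_lit 4194607923) (nat_lit 73) (nat_lit 5) (nat_lit 76) (nat_lit 5) (nat_lit 77) (nat_lit 5) (nat_lit 476) (nat_lit 393) (nat_lit 331)))) (XT.nd (nat_lit 78) (nat_lit 532) (nat_lit 0) (XT.lf (nat_lit 0) (nat_lit 2576663790) (nat_lit 304) (nat_lit 393459891) (nat_lit 76) (nat_lit 12295697690) (nat_lit 72) (nat_lit 5) (nat_lit 76) (nat_lit 5) (nat_lit 73) (nat_lit 5) (nat_lit 477) (nat_lit 393) (nat_lit 330)) (XT.nd (nat_lit 78) (nat_lit 304) (nat_lit 0) (XT.lf (nat_lit 0) (nat_lit 9562941674) (nat_lit 304) (nat_lit 895622752) (nat_lit 76) (nat_lit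 5091535361) (nat_lit 69) (nat_lit 5) (nat_lit 73) (nat_lit 5) (nat_lit 70) (nat_lit 5) (nat_lit 478) (nat_lit 393) (nat_lit 329)) (XT.lf (nat_lit 0) (nat_lit 960653719) (nat_lit 304) (nat_lit 1466634725) (nat_lit 76) (nat_lit 13414367000) (nat_lit 65) (nat_lit 5) (nat_lit 69) (nat_lit 5) (nat_lit 66) (nat_lit 5) (nat_lit 479) (nat_lit 393) (nat_lit 328)))))) (XT.nd (nat_lit 468) (nat_lit 608) (nat_lit 0) (XT.nd (nat_lit 234) (nat_lit 608) (nat_lit 0) (XT.nd (nat_lit 78) (nat_lit 456) (nat_lit 0) (XT.lf (nat_lit 0) (nat_lit 8112854305) (nat_lit 304) (nat_lit 2163783966) (nat_lit 76) (nat_lit 5862985088) (nat_lit 62) (nat_lit 5) (nat_lit 66) (nat_lit 5) (nat_lit 63) (nat_lit 5) (nat_lit 480) (nat_lit 393) (nat_lit 327)) (XT.nd (nat_lit 78) (nat_lit 304) (nat_lit 0) (XT.lf (nat_lit 0) (nat_lit 13514309619) (nat_lit 152) (nat_lit 2021223522) (nat_lit 228) (nat_lit 909881858) (nat_lit 60) (nat_lit 5) (nat_lit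 62) (nat_lit 5) (nat_lit 63) (nat_lit 5) (nat_lit 481) (nat_lit 393) (nat_lit 326)) (XT.lf (nat_lit 0) (nat_lit 6420529618) (nat_lit 304) (nat_lit 3842071217) (nat_lit 76) (nat_lit 6495264143) (nat_lit 56) (nat_lit 5) (nat_lit 60) (nat_lit 5) (nat_lit 57) (nat_lit 5) (nat_lit 482) (nat_lit 393) (nat_lit 325)))) (XT.nd (nat_lit 78) (nat_lit 456) (nat_lit 0) (XT.lf (nat_lit 0) (nat_lit 12239430388) (nat_lit 152) (nat_lit 1775447025) (nat_lit 228) (nat_lit 3063565754) (nat_lit 54) (nat_lit 5) (nat_lit 56) (nat_lit 5) (nat_lit 57) (nat_lit 5) (nat_lit 483) (nat_lit 393) (nat_lit 324)) (XT.nd (nat_lit 78) (nat_lit 152) (nat_lit 0) (XT.lf (nat_lit 0) (nat_lit 4460797802) (nat_lit 304) (nat_lit 5983031816) (nat_lit 76) (nat_lit 6962427411) (nat_lit 50) (nat_lit 5) (nat_lit 54) (nat_lit 5) (nat_lit 51) (nat_lit 5) (nat_lit 484) (nat_lit 393) (nat_lit 323)) (XT.lf (nat_lit 0) (nat_lit 10502865739) (nat_lit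 152) (nat_lit 1724410531) (nat_lit 228) (nat_lit 5515066420) (nat_lit 48) (nat_lit 5) (nat_lit 50) (nat_lit 5) (nat_lit 51) (nat_lit 5) (nat_lit 485) (nat_lit 393) (nat_lit 322))))) (XT.nd (nat_lit 56706) (nat_lit 0) (nat_lit 48716) (XT.nd (nat_lit 78) (nat_lit 304) (nat_lit 0) (XT.lf (nat_lit 0) (nat_lit 2205542184) (nat_lit 304) (nat_lit 8644786807) (nat_lit 76) (nat_lit 7235999708) (nat_lit 44) (nat_lit 5) (nat_lit 48) (nat_lit 5) (nat_lit 45) (nat_lit 5) (nat_lit 486) (nat_lit 393) (nat_lit 321)) (XT.nd (nat_lit 78) (nat_lit 152) (nat_lit 0) (XT.lf (nat_lit 0) (nat_lit 8244861881) (nat_lit 152) (nat_lit 1898858532) (nat_lit 228) (nat_lit 8294969509) (nat_lit 42) (nat_lit 5) (nat_lit 44) (nat_lit 5) (nat_lit 45) (nat_lit 5) (nat_lit 487) (nat_lit 393) (nat_lit 320)) (XT.lf (nat_lit 0) (nat_lit 6905545940) (nat_lit 152) (nat_lit 11512520757) (nat_lit 228) (nat_lit 381597075) (nat_lit 40) (nat_lit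 5) (nat_lit 42) (nat_lit 5) (nat_lit 43) (nat_lit 5) (nat_lit 488) (nat_lit 393) (nat_lit 319)))) (XT.nd (nat_lit 78) (nat_lit 1748) (nat_lit 0) (XT.lf (nat_lit 0) (nat_lit 3205167143) (nat_lit 684) (nat_lit 46517222) (nat_lit 684) (nat_lit 46517222) (nat_lit 704) (nat_lit 4) (nat_lit 713) (nat_lit 5) (nat_lit 713) (nat_lit 4) (nat_lit 412) (nat_lit 394) (nat_lit 394)) (XT.nd (nat_lit 78) (nat_lit 912) (nat_lit 0) (XT.lf (nat_lit 0) (nat_lit 4732868011) (nat_lit 836) (nat_lit 662635596) (nat_lit 0) (nat_lit 1227874789) (nat_lit 693) (nat_lit 5) (nat_lit 704) (nat_lit 4) (nat_lit 693) (nat_lit 4) (nat_lit 413) (nat_lit 394) (nat_lit 393)) (XT.lf (nat_lit 0) (nat_lit 2885392288) (nat_lit 912) (nat_lit 1079406839) (nat_lit 76) (nat_lit 2688510994) (nat_lit 681) (nat_lit 5) (nat_lit 693) (nat_lit 5) (nat_lit 682) (nat_lit 4) (nat_lit 414) (nat_lit 394) (nat_lit 392))))))) (XT.nd (nat_lit 936) (nat_lit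 11932) (nat_lit 0) (XT.nd (nat_lit 468) (nat_lit 9652) (nat_lit 0) (XT.nd (nat_lit 234) (nat_lit 3800) (nat_lit 0) (XT.nd (nat_lit 78) (nat_lit 2128) (nat_lit 0) (XT.lf (nat_lit 0) (nat_lit 958392722) (nat_lit 988) (nat_lit 1436230562) (nat_lit 76) (nat_lit 4291608540) (nat_lit 668) (nat_lit 5) (nat_lit 681) (nat_lit 5) (nat_lit 669) (nat_lit 5) (nat_lit 415) (nat_lit 394) (nat_lit 391)) (XT.nd (nat_lit 78) (nat_lit 1140) (nat_lit 0) (XT.lf (nat_lit 0) (nat_lit 4981623869) (nat_lit 988) (nat_lit 676291854) (nat_lit 1064) (nat_lit 1064113172) (nat_lit 655) (nat_lit 5) (nat_lit 668) (nat_lit 5) (nat_lit 669) (nat_lit 5) (nat_lit 416) (nat_lit 394) (nat_lit 390)) (XT.lf (nat_lit 0) (nat_lit 3584339385) (nat_lit 1140) (nat_lit 1999942715) (nat_lit 76) (nat_lit 1176291287) (nat_lit 640) (nat_lit 5) (nat_lit 655) (nat_lit 5) (nat_lit 641) (nat_lit 5) (nat_lit 417) (nat_lit 394) (nat_lit 389)))) (XT.nd (nat_lit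 78) (nat_lit 2584) (nat_lit 0) (XT.lf (nat_lit 0) (nat_lit 1432157833) (nat_lit 1216) (nat_lit 2206414109) (nat_lit 76) (nat_lit 3163495233) (nat_lit 624) (nat_lit 5) (nat_lit 640) (nat_lit 5) (nat_lit 625) (nat_lit 5) (nat_lit 418) (nat_lit 394) (nat_lit 388)) (XT.nd (nat_lit 78) (nat_lit 1368) (nat_lit 0) (XT.lf (nat_lit 0) (nat_lit 4485563570) (nat_lit 1216) (nat_lit 1544967487) (nat_lit 1292) (nat_lit 815990708) (nat_lit 608) (nat_lit 5) (nat_lit 624) (nat_lit 5) (nat_lit 625) (nat_lit 5) (nat_lit 419) (nat_lit 394) (nat_lit 387)) (XT.lf (nat_lit 0) (nat_lit 3726485245) (nat_lit 1368) (nat_lit 2473015289) (nat_lit 76) (nat_lit 694283153) (nat_lit 590) (nat_lit 5) (nat_lit 608) (nat_lit 5) (nat_lit 591) (nat_lit 5) (nat_lit 420) (nat_lit 394) (nat_lit 386))))) (XT.nd (nat_lit 234) (nat_lit 5168) (nat_lit 0) (XT.nd (nat_lit 78) (nat_lit 3040) (nat_lit 0) (XT.lf (nat_lit 0) (nat_lit 1345286571) (nat_lit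 1444) (nat_lit 2539713461) (nat_lit 76) (nat_lit 3058946755) (nat_lit 571) (nat_lit 5) (nat_lit 590) (nat_lit 5) (nat_lit 572) (nat_lit 5) (nat_lit 421) (nat_lit 394) (nat_lit 385)) (XT.nd (nat_lit 78) (nat_lit 1596) (nat_lit 0) (XT.lf (nat_lit 0) (nat_lit 4438586464) (nat_lit 1444) (nat_lit 1417940503) (nat_lit 1520) (nat_lit 1140572412) (nat_lit 552) (nat_lit 5) (nat_lit 571) (nat_lit 5) (nat_lit 572) (nat_lit 5) (nat_lit 422) (nat_lit 394) (nat_lit 384)) (XT.lf (nat_lit 0) (nat_lit 3323224094) (nat_lit 1596) (nat_lit 2539326677) (nat_lit 76) (nat_lit 1190531097) (nat_lit 531) (nat_lit 5) (nat_lit 552) (nat_lit 5) (nat_lit 532) (nat_lit 5) (nat_lit 423) (nat_lit 394) (nat_lit 383)))) (XT.nd (nat_lit 78) (nat_lit 3496) (nat_lit 0) (XT.lf (nat_lit 0) (nat_lit 707035198) (nat_lit 1672) (nat_lit 2475646291) (nat_lit 76) (nat_lit 3929382785) (nat_lit 509) (nat_lit 5) (nat_lit 531) (nat_lit 5) (nat_lit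 510) (nat_lit 5) (nat_lit 424) (nat_lit 394) (nat_lit 382)) (XT.nd (nat_lit 78) (nat_lit 1824) (nat_lit 0) (XT.lf (nat_lit 0) (nat_lit 4802608973) (nat_lit 1672) (nat_lit 340747105) (nat_lit 1748) (nat_lit 2030653026) (nat_lit 487) (nat_lit 5) (nat_lit 509) (nat_lit 5) (nat_lit 510) (nat_lit 5) (nat_lit 425) (nat_lit 394) (nat_lit 381)) (XT.lf (nat_lit 0) (nat_lit 2379602897) (nat_lit 1824) (nat_lit 2235851576) (nat_lit 76) (nat_lit 2623318959) (nat_lit 463) (nat_lit 5) (nat_lit 487) (nat_lit 5) (nat_lit 464) (nat_lit 5) (nat_lit 426) (nat_lit 394) (nat_lit 380)))))) (XT.nd (nat_lit 468) (nat_lit 5548) (nat_lit 0) (XT.nd (nat_lit 234) (nat_lit 2660) (nat_lit 0) (XT.nd (nat_lit 78) (nat_lit 2052) (nat_lit 0) (XT.lf (nat_lit 0) (nat_lit 5253388586) (nat_lit 1672) (nat_lit 1567279787) (nat_lit 1748) (nat_lit 486046031) (nat_lit 441) (nat_lit 5) (nat_lit 463) (nat_lit 5) (nat_lit 464) (nat_lit 5) (nat_lit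 427) (nat_lit 394) (nat_lit 379)) (XT.nd (nat_lit 78) (nat_lit 988) (nat_lit 0) (XT.lf (nat_lit 0) (nat_lit 3902946153) (nat_lit 1064) (nat_lit 1845316284) (nat_lit 76) (nat_lit 1629184718) (nat_lit 427) (nat_lit 5) (nat_lit 441) (nat_lit 5) (nat_lit 428) (nat_lit 5) (nat_lit 428) (nat_lit 394) (nat_lit 378)) (XT.lf (nat_lit 0) (nat_lit 894489887) (nat_lit 988) (nat_lit 1596438677) (nat_lit 76) (nat_lit 4960397210) (nat_lit 414) (nat_lit 5) (nat_lit 427) (nat_lit 5) (nat_lit 415) (nat_lit 5) (nat_lit 429) (nat_lit 394) (nat_lit 377)))) (XT.nd (nat_lit 78) (nat_lit 1748) (nat_lit 0) (XT.lf (nat_lit 0) (nat_lit 5286825940) (nat_lit 988) (nat_lit 1316953296) (nat_lit 76) (nat_lit 924413669) (nat_lit 402) (nat_lit 5) (nat_lit 415) (nat_lit 5) (nat_lit 403) (nat_lit 5) (nat_lit 430) (nat_lit 394) (nat_lit 376)) (XT.nd (nat_lit 78) (nat_lit 836) (nat_lit 0) (XT.lf (nat_lit 0) (nat_lit 2127645952) (nat_lit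 912) (nat_lit 1009736084) (nat_lit 76) (nat_lit 4470658345) (nat_lit 390) (nat_lit 5) (nat_lit 402) (nat_lit 5) (nat_lit 391) (nat_lit 5) (nat_lit 431) (nat_lit 394) (nat_lit 375)) (XT.lf (nat_lit 0) (nat_lit 6539960838) (nat_lit 912) (nat_lit 663102209) (nat_lit 76) (nat_lit 488089756) (nat_lit 379) (nat_lit 5) (nat_lit 391) (nat_lit 5) (nat_lit 380) (nat_lit 5) (nat_lit 432) (nat_lit 394) (nat_lit 374))))) (XT.nd (nat_lit 234) (nat_lit 2280) (nat_lit 0) (XT.nd (nat_lit 78) (nat_lit 2432) (nat_lit 0) (XT.lf (nat_lit 0) (nat_lit 3227945357) (nat_lit 836) (nat_lit 302247599) (nat_lit 76) (nat_lit 4246885806) (nat_lit 368) (nat_lit 5) (nat_lit 379) (nat_lit 5) (nat_lit 369) (nat_lit 5) (nat_lit 433) (nat_lit 394) (nat_lit 373)) (XT.nd (nat_lit 78) (nat_lit 836) (nat_lit 0) (XT.lf (nat_lit 0) (nat_lit 105752761) (nat_lit 760) (nat_lit 7565006904) (nat_lit 836) (nat_lit 195729796) (nat_lit 347) (nat_lit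 5) (nat_lit 357) (nat_lit 5) (nat_lit 358) (nat_lit 5) (nat_lit 434) (nat_lit 394) (nat_lit 372)) (XT.lf (nat_lit 0) (nat_lit 521100165) (nat_lit 760) (nat_lit 3684828740) (nat_lit 836) (nat_lit 3752635982) (nat_lit 336) (nat_lit 5) (nat_lit 346) (nat_lit 5) (nat_lit 347) (nat_lit 5) (nat_lit 435) (nat_lit 394) (nat_lit 371)))) (XT.nd (nat_lit 78) (nat_lit 1520) (nat_lit 0) (XT.lf (nat_lit 0) (nat_lit 627667299) (nat_lit 760) (nat_lit 7071568284) (nat_lit 76) (nat_lit 355008038) (nat_lit 326) (nat_lit 5) (nat_lit 336) (nat_lit 5) (nat_lit 327) (nat_lit 5) (nat_lit 436) (nat_lit 394) (nat_lit 370)) (XT.nd (nat_lit 78) (nat_lit 760) (nat_lit 0) (XT.lf (nat_lit 0) (nat_lit 1447345657) (nat_lit 760) (nat_lit 3619700244) (nat_lit 836) (nat_lit 3085693565) (nat_lit 316) (nat_lit 5) (nat_lit 326) (nat_lit 5) (nat_lit 327) (nat_lit 5) (nat_lit 437) (nat_lit 394) (nat_lit 369)) (XT.lf (nat_lit 0) (nat_lit 1327452354)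 (nat_lit 760) (nat_lit 6303635074) (nat_lit 76) (nat_lit 623733800) (nat_lit 306) (nat_lit 5) (nat_lit 316) (nat_lit 5) (nat_lit 307) (nat_lit 5) (nat_lit 438) (nat_lit 394) (nat_lit 368))))))))
noncomputable def xc32 : XT := (XT.nd (nat_lit 1794) (nat_lit 6384) (nat_lit 0) (XT.nd (nat_lit 858) (nat_lit 5928) (nat_lit 0) (XT.nd (nat_lit 390) (nat_lit 3496) (nat_lit 0) (XT.nd (nat_lit 156) (nat_lit 1976) (nat_lit 0) (XT.nd (nat_lit 78) (nat_lit 684) (nat_lit 0) (XT.lf (nat_lit 0) (nat_lit 2461097971) (nat_lit 684) (nat_lit 3353411809) (nat_lit 760) (nat_lit 2545393583) (nat_lit 297) (nat_lit 5) (nat_lit 306) (nat_lit 5) (nat_lit 307) (nat_lit 5) (nat_lit 439) (nat_lit 394) (nat_lit 367)) (XT.lf (nat_lit 0) (nat_lit 1910719163) (nat_lit 684) (nat_lit 5467211865) (nat_lit 76) (nat_lit 1090595525) (nat_lit 288) (nat_lit 5) (nat_lit 297) (nat_lit 5) (nat_lit 289) (nat_lit 5) (nat_lit 440) (nat_lit 394)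 (nat_lit 366))) (XT.nd (nat_lit 78) (nat_lit 1292) (nat_lit 0) (XT.lf (nat_lit 0) (nat_lit 3551094747) (nat_lit 684) (nat_lit 2901524150) (nat_lit 760) (nat_lit 2127732858) (nat_lit 279) (nat_lit 5) (nat_lit 288) (nat_lit 5) (nat_lit 289) (nat_lit 5) (nat_lit 441) (nat_lit 394) (nat_lit 365)) (XT.nd (nat_lit 78) (nat_lit 608) (nat_lit 0) (XT.lf (nat_lit 0) (nat_lit 2381091207) (nat_lit 684) (nat_lit 4573820830) (nat_lit 76) (nat_lit 1740760609) (nat_lit 270) (nat_lit 5) (nat_lit 279) (nat_lit 5) (nat_lit 271) (nat_lit 5) (nat_lit 442) (nat_lit 394) (nat_lit 364)) (XT.lf (nat_lit 0) (nat_lit 4706076724) (nat_lit 608) (nat_lit 2278705963) (nat_lit 684) (nat_lit 1829631488) (nat_lit 262) (nat_lit 5) (nat_lit 270) (nat_lit 5) (nat_lit 271) (nat_lit 5) (nat_lit 443) (nat_lit 394) (nat_lit 363))))) (XT.nd (nat_lit 234) (nat_lit 1672) (nat_lit 0) (XT.nd (nat_lit 78) (nat_lit 1216) (nat_lit 0) (XT.lf (nat_lit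 0) (nat_lit 2741299282) (nat_lit 608) (nat_lit 3635070759) (nat_lit 76) (nat_lit 2560237096) (nat_lit 254) (nat_lit 5) (nat_lit 262) (nat_lit 5) (nat_lit 255) (nat_lit 5) (nat_lit 444) (nat_lit 394) (nat_lit 362)) (XT.nd (nat_lit 78) (nat_lit 608) (nat_lit 0) (XT.lf (nat_lit 0) (nat_lit 5914676167) (nat_lit 608) (nat_lit 1498853349) (nat_lit 684) (nat_lit 1648925468) (nat_lit 246) (nat_lit 5) (nat_lit 254) (nat_lit 5) (nat_lit 255) (nat_lit 5) (nat_lit 445) (nat_lit 394) (nat_lit 361)) (XT.lf (nat_lit 0) (nat_lit 2993185233) (nat_lit 608) (nat_lit 2662770589) (nat_lit 76) (nat_lit 3535756960) (nat_lit 238) (nat_lit 5) (nat_lit 246) (nat_lit 5) (nat_lit 239) (nat_lit 5) (nat_lit 446) (nat_lit 394) (nat_lit 360)))) (XT.nd (nat_lit 78) (nat_lit 1140) (nat_lit 0) (XT.lf (nat_lit 0) (nat_lit 7165301473) (nat_lit 532) (nat_lit 575206166) (nat_lit 608) (nat_lit 1584366345) (nat_lit 231) (nat_lit 5) (nat_lit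 238) (nat_lit 5) (nat_lit 239) (nat_lit 5) (nat_lit 447) (nat_lit 394) (nat_lit 359)) (XT.nd (nat_lit 78) (nat_lit 532) (nat_lit 0) (XT.lf (nat_lit 0) (nat_lit 3137698723) (nat_lit 608) (nat_lit 1669047402) (nat_lit 76) (nat_lit 4654662042) (nat_lit 223) (nat_lit 5) (nat_lit 231) (nat_lit 5) (nat_lit 224) (nat_lit 5) (nat_lit 448) (nat_lit 394) (nat_lit 358)) (XT.lf (nat_lit 0) (nat_lit 7969592632) (nat_lit 608) (nat_lit 1159203746) (nat_lit 76) (nat_lit 473248566) (nat_lit 216) (nat_lit 5) (nat_lit 224) (nat_lit 5) (nat_lit 217) (nat_lit 5) (nat_lit 449) (nat_lit 394) (nat_lit 357)))))) (XT.nd (nat_lit 468) (nat_lit 2508) (nat_lit 0) (XT.nd (nat_lit 234) (nat_lit 1368) (nat_lit 0) (XT.nd (nat_lit 78) (nat_lit 1520) (nat_lit 0) (XT.lf (nat_lit 0) (nat_lit 3174886872) (nat_lit 532) (nat_lit 666469940) (nat_lit 76) (nat_lit 5904791794) (nat_lit 209) (nat_lit 5) (nat_lit 216) (nat_lit 5) (nat_lit 210)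 (nat_lit 5) (nat_lit 450) (nat_lit 394) (nat_lit 356)) (XT.nd (nat_lit 78) (nat_lit 988) (nat_lit 0) (XT.lf (nat_lit 0) (nat_lit 8102039839) (nat_lit 608) (nat_lit 160944323) (nat_lit 76) (nat_lit 1631429079) (nat_lit 202) (nat_lit 5) (nat_lit 210) (nat_lit 5) (nat_lit 203) (nat_lit 5) (nat_lit 451) (nat_lit 394) (nat_lit 355)) (XT.lf (nat_lit 0) (nat_lit 336230995) (nat_lit 456) (nat_lit 2769828588) (nat_lit 532) (nat_lit 6940323945) (nat_lit 189) (nat_lit 5) (nat_lit 195) (nat_lit 5) (nat_lit 196) (nat_lit 5) (nat_lit 452) (nat_lit 394) (nat_lit 354)))) (XT.nd (nat_lit 78) (nat_lit 912) (nat_lit 0) (XT.lf (nat_lit 0) (nat_lit 836467500) (nat_lit 456) (nat_lit 7301943028) (nat_lit 532) (nat_lit 2064047544) (nat_lit 183) (nat_lit 5) (nat_lit 189) (nat_lit 5) (nat_lit 190) (nat_lit 5) (nat_lit 453) (nat_lit 394) (nat_lit 353)) (XT.nd (nat_lit 78) (nat_lit 380) (nat_lit 0) (XT.lf (nat_lit 0) (nat_lit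 1329411404) (nat_lit 456) (nat_lit 1602069021) (nat_lit 532) (nat_lit 7431122977) (nat_lit 176) (nat_lit 5) (nat_lit 182) (nat_lit 5) (nat_lit 183) (nat_lit 5) (nat_lit 454) (nat_lit 394) (nat_lit 352)) (XT.lf (nat_lit 0) (nat_lit 1809624858) (nat_lit 380) (nat_lit 6262454159) (nat_lit 456) (nat_lit 2454744055) (nat_lit 171) (nat_lit 5) (nat_lit 176) (nat_lit 5) (nat_lit 177) (nat_lit 5) (nat_lit 455) (nat_lit 394) (nat_lit 351))))) (XT.nd (nat_lit 234) (nat_lit 1140) (nat_lit 0) (XT.nd (nat_lit 78) (nat_lit 836) (nat_lit 0) (XT.lf (nat_lit 0) (nat_lit 2289311750) (nat_lit 456) (nat_lit 354558518) (nat_lit 532) (nat_lit 8051600171) (nat_lit 164) (nat_lit 5) (nat_lit 170) (nat_lit 5) (nat_lit 171) (nat_lit 5) (nat_lit 456) (nat_lit 394) (nat_lit 350)) (XT.nd (nat_lit 78) (nat_lit 456) (nat_lit 0) (XT.lf (nat_lit 0) (nat_lit 2741020478) (nat_lit 380) (nat_lit 5157799336) (nat_lit 456) (nat_lit 2969305549)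 (nat_lit 159) (nat_lit 5) (nat_lit 164) (nat_lit 5) (nat_lit 165) (nat_lit 5) (nat_lit 457) (nat_lit 394) (nat_lit 349)) (XT.lf (nat_lit 0) (nat_lit 2245544720) (nat_lit 456) (nat_lit 7851837061) (nat_lit 76) (nat_lit 948094851) (nat_lit 153) (nat_lit 5) (nat_lit 159) (nat_lit 5) (nat_lit 154) (nat_lit 5) (nat_lit 458) (nat_lit 394) (nat_lit 348)))) (XT.nd (nat_lit 78) (nat_lit 760) (nat_lit 0) (XT.lf (nat_lit 0) (nat_lit 3614170594) (nat_lit 380) (nat_lit 4000257857) (nat_lit 456) (nat_lit 3612575514) (nat_lit 148) (nat_lit 5) (nat_lit 153) (nat_lit 5) (nat_lit 154) (nat_lit 5) (nat_lit 459) (nat_lit 394) (nat_lit 347)) (XT.nd (nat_lit 78) (nat_lit 304) (nat_lit 0) (XT.lf (nat_lit 0) (nat_lit 1727928377) (nat_lit 456) (nat_lit 7384443275) (nat_lit 76) (nat_lit 2300982668) (nat_lit 142) (nat_lit 5) (nat_lit 148) (nat_lit 5) (nat_lit 143) (nat_lit 5) (nat_lit 460) (nat_lit 394) (nat_lit 346)) (XT.lf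 (nat_lit 0) (nat_lit 4411297970) (nat_lit 304) (nat_lit 2802308383) (nat_lit 380) (nat_lit 4390536602) (nat_lit 138) (nat_lit 5) (nat_lit 142) (nat_lit 5) (nat_lit 143) (nat_lit 5) (nat_lit 461) (nat_lit 394) (nat_lit 345))))))) (XT.nd (nat_lit 858) (nat_lit 2736) (nat_lit 0) (XT.nd (nat_lit 390) (nat_lit 1900) (nat_lit 0) (XT.nd (nat_lit 156) (nat_lit 988) (nat_lit 0) (XT.nd (nat_lit 78) (nat_lit 304) (nat_lit 0) (XT.lf (nat_lit 0) (nat_lit 1082497271) (nat_lit 456) (nat_lit 7020816502) (nat_lit 76) (nat_lit 3696544427) (nat_lit 132) (nat_lit 5) (nat_lit 138) (nat_lit 5) (nat_lit 133) (nat_lit 5) (nat_lit 462) (nat_lit 394) (nat_lit 344)) (XT.lf (nat_lit 0) (nat_lit 5113139174) (nat_lit 304) (nat_lit 1576755515) (nat_lit 380) (nat_lit 5310379008) (nat_lit 128) (nat_lit 5) (nat_lit 132) (nat_lit 5) (nat_lit 133) (nat_lit 5) (nat_lit 463) (nat_lit 394) (nat_lit 343))) (XT.nd (nat_lit 78) (nat_lit 608)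 (nat_lit 0) (XT.lf (nat_lit 0) (nat_lit 301814850) (nat_lit 380) (nat_lit 6781729771) (nat_lit 76) (nat_lit 5122200898) (nat_lit 123) (nat_lit 5) (nat_lit 128) (nat_lit 5) (nat_lit 124) (nat_lit 5) (nat_lit 464) (nat_lit 394) (nat_lit 342)) (XT.nd (nat_lit 78) (nat_lit 304) (nat_lit 0) (XT.lf (nat_lit 0) (nat_lit 5698735410) (nat_lit 304) (nat_lit 336862211) (nat_lit 380) (nat_lit 6380579685) (nat_lit 119) (nat_lit 5) (nat_lit 123) (nat_lit 5) (nat_lit 124) (nat_lit 5) (nat_lit 465) (nat_lit 394) (nat_lit 341)) (XT.lf (nat_lit 0) (nat_lit 5937837096) (nat_lit 304) (nat_lit 6062774717) (nat_lit 380) (nat_lit 631130968) (nat_lit 115) (nat_lit 5) (nat_lit 119) (nat_lit 5) (nat_lit 120) (nat_lit 5) (nat_lit 466) (nat_lit 394) (nat_lit 340))))) (XT.nd (nat_lit 234) (nat_lit 912) (nat_lit 0) (XT.nd (nat_lit 78) (nat_lit 608) (nat_lit 0) (XT.lf (nat_lit 0) (nat_lit 5247560340) (nat_lit 380) (nat_lit 6713348708)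 (nat_lit 76) (nat_lit 891661017) (nat_lit 110) (nat_lit 5) (nat_lit 115) (nat_lit 5) (nat_lit 111) (nat_lit 5) (nat_lit 467) (nat_lit 394) (nat_lit 339)) (XT.nd (nat_lit 78) (nat_lit 304) (nat_lit 0) (XT.lf (nat_lit 0) (nat_lit 6297771923) (nat_lit 304) (nat_lit 5056712433) (nat_lit 380) (nat_lit 1724250152) (nat_lit 106) (nat_lit 5) (nat_lit 110) (nat_lit 5) (nat_lit 111) (nat_lit 5) (nat_lit 468) (nat_lit 394) (nat_lit 338)) (XT.lf (nat_lit 0) (nat_lit 4311565407) (nat_lit 304) (nat_lit 6897026419) (nat_lit 76) (nat_lit 2101824685) (nat_lit 102) (nat_lit 5) (nat_lit 106) (nat_lit 5) (nat_lit 103) (nat_lit 5) (nat_lit 469) (nat_lit 394) (nat_lit 337)))) (XT.nd (nat_lit 78) (nat_lit 608) (nat_lit 0) (XT.lf (nat_lit 0) (nat_lit 6479617356) (nat_lit 304) (nat_lit 4082744752) (nat_lit 380) (nat_lit 2985316624) (nat_lit 98) (nat_lit 5) (nat_lit 102) (nat_lit 5) (nat_lit 103) (nat_lit 5) (nat_lit 470) (nat_lit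 394) (nat_lit 336)) (XT.nd (nat_lit 78) (nat_lit 304) (nat_lit 0) (XT.lf (nat_lit 0) (nat_lit 3213338804) (nat_lit 304) (nat_lit 7294630980) (nat_lit 76) (nat_lit 3282740593) (nat_lit 94) (nat_lit 5) (nat_lit 98) (nat_lit 5) (nat_lit 95) (nat_lit 5) (nat_lit 471) (nat_lit 394) (nat_lit 335)) (XT.lf (nat_lit 0) (nat_lit 6454555147) (nat_lit 304) (nat_lit 3157237895) (nat_lit 380) (nat_lit 4427761333) (nat_lit 90) (nat_lit 5) (nat_lit 94) (nat_lit 5) (nat_lit 95) (nat_lit 5) (nat_lit 472) (nat_lit 394) (nat_lit 334)))))) (XT.nd (nat_lit 468) (nat_lit 1140) (nat_lit 0) (XT.nd (nat_lit 234) (nat_lit 760) (nat_lit 0) (XT.nd (nat_lit 78) (nat_lit 532) (nat_lit 0) (XT.lf (nat_lit 0) (nat_lit 1939118731) (nat_lit 304) (nat_lit 7937300822) (nat_lit 76) (nat_lit 4418044755) (nat_lit 86) (nat_lit 5) (nat_lit 90) (nat_lit 5) (nat_lit 87) (nat_lit 5) (nat_lit 473) (nat_lit 394) (nat_lit 333)) (XT.nd (nat_lit 78)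 (nat_lit 304) (nat_lit 0) (XT.lf (nat_lit 0) (nat_lit 6190866105) (nat_lit 228) (nat_lit 2297737827) (nat_lit 304) (nat_lit 6066800878) (nat_lit 83) (nat_lit 5) (nat_lit 86) (nat_lit 5) (nat_lit 87) (nat_lit 5) (nat_lit 474) (nat_lit 394) (nat_lit 332)) (XT.lf (nat_lit 0) (nat_lit 473323024) (nat_lit 304) (nat_lit 8859298284) (nat_lit 76) (nat_lit 5490136359) (nat_lit 79) (nat_lit 5) (nat_lit 83) (nat_lit 5) (nat_lit 80) (nat_lit 5) (nat_lit 475) (nat_lit 394) (nat_lit 331)))) (XT.nd (nat_lit 78) (nat_lit 532) (nat_lit 0) (XT.lf (nat_lit 0) (nat_lit 5653589016) (nat_lit 228) (nat_lit 1523159075) (nat_lit 304) (nat_lit 7919593990) (nat_lit 76) (nat_lit 5) (nat_lit 79) (nat_lit 5) (nat_lit 80) (nat_lit 5) (nat_lit 476) (nat_lit 394) (nat_lit 330)) (XT.nd (nat_lit 78) (nat_lit 304) (nat_lit 0) (XT.lf (nat_lit 0) (nat_lit 5270307262) (nat_lit 228) (nat_lit 8888693095) (nat_lit 304) (nat_lit 1217582516)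 (nat_lit 73) (nat_lit 5) (nat_lit 76) (nat_lit 5) (nat_lit 77) (nat_lit 5) (nat_lit 477) (nat_lit 394) (nat_lit 329)) (XT.lf (nat_lit 0) (nat_lit 4804146060) (nat_lit 228) (nat_lit 853988986) (nat_lit 304) (nat_lit 10005416497) (nat_lit 69) (nat_lit 5) (nat_lit 72) (nat_lit 5) (nat_lit 73) (nat_lit 5) (nat_lit 478) (nat_lit 394) (nat_lit 328))))) (XT.nd (nat_lit 234) (nat_lit 456) (nat_lit 0) (XT.nd (nat_lit 78) (nat_lit 456) (nat_lit 0) (XT.lf (nat_lit 0) (nat_lit 4240657349) (nat_lit 228) (nat_lit 8569883482) (nat_lit 304) (nat_lit 3146691380) (nat_lit 66) (nat_lit 5) (nat_lit 69) (nat_lit 5) (nat_lit 70) (nat_lit 5) (nat_lit 479) (nat_lit 394) (nat_lit 327)) (XT.nd (nat_lit 78) (nat_lit 152) (nat_lit 0) (XT.lf (nat_lit 0) (nat_lit 3599931041) (nat_lit 228) (nat_lit 312509391) (nat_lit 304) (nat_lit 12345856512) (nat_lit 62) (nat_lit 5) (nat_lit 65) (nat_lit 5) (nat_lit 66) (nat_lit 5) (nat_lit 480)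 (nat_lit 394) (nat_lit 326)) (XT.lf (nat_lit 0) (nat_lit 2832901295) (nat_lit 152) (nat_lit 8403066308) (nat_lit 228) (nat_lit 5330105416) (nat_lit 60) (nat_lit 5) (nat_lit 62) (nat_lit 5) (nat_lit 63) (nat_lit 5) (nat_lit 481) (nat_lit 394) (nat_lit 325)))) (XT.nd (nat_lit 78) (nat_lit 152) (nat_lit 0) (XT.lf (nat_lit 0) (nat_lit 1917393893) (nat_lit 304) (nat_lit 14888569265) (nat_lit 76) (nat_lit 75952840) (nat_lit 56) (nat_lit 5) (nat_lit 60) (nat_lit 5) (nat_lit 57) (nat_lit 5) (nat_lit 482) (nat_lit 394) (nat_lit 324)) (XT.nd (nat_lit 78) (nat_lit 0) (nat_lit 0) (XT.lf (nat_lit 0) (nat_lit 997528307) (nat_lit 152) (nat_lit 8414124297) (nat_lit 228) (nat_lit 7792844660) (nat_lit 54) (nat_lit 5) (nat_lit 56) (nat_lit 5) (nat_lit 57) (nat_lit 5) (nat_lit 483) (nat_lit 394) (nat_lit 323)) (XT.lf (nat_lit 0) (nat_lit 17179484599) (nat_lit 228) (nat_lit 69490542) (nat_lit 76) (nat_lit 286808470) (nat_lit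 54) (nat_lit 5) (nat_lit 57) (nat_lit 5) (nat_lit 55) (nat_lit 5) (nat_lit 484) (nat_lit 394) (nat_lit 322))))))))
noncomputable def xc33 : XT := (XT.nd (nat_lit 58110) (nat_lit 0) (nat_lit 11628) (XT.nd (nat_lit 57174) (nat_lit 0) (nat_lit 29260) (XT.nd (nat_lit 56706) (nat_lit 0) (nat_lit 46512) (XT.nd (nat_lit 156) (nat_lit 456) (nat_lit 0) (XT.nd (nat_lit 78) (nat_lit 152) (nat_lit 0) (XT.lf (nat_lit 0) (nat_lit 7319750748) (nat_lit 304) (nat_lit 1302906850) (nat_lit 76) (nat_lit 9251161171) (nat_lit 50) (nat_lit 5) (nat_lit 54) (nat_lit 5) (nat_lit 51) (nat_lit 5) (nat_lit 485) (nat_lit 394) (nat_lit 321)) (XT.lf (nat_lit 0) (nat_lit 15273019364) (nat_lit 228) (nat_lit 2624359637) (nat_lit 76) (nat_lit 323535678) (nat_lit 48) (nat_lit 5) (nat_lit 51) (nat_lit 5) (nat_lit 49) (nat_lit 5) (nat_lit 486) (nat_lit 394) (nat_lit 320))) (XT.nd (nat_lit 78) (nat_lit 152) (nat_lit 0) (XT.lf (nat_lit 0)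 (nat_lit 4932211507) (nat_lit 304) (nat_lit 4126101236) (nat_lit 76) (nat_lit 9517281730) (nat_lit 44) (nat_lit 5) (nat_lit 48) (nat_lit 5) (nat_lit 45) (nat_lit 5) (nat_lit 487) (nat_lit 394) (nat_lit 319)) (XT.nd (nat_lit 56394) (nat_lit 0) (nat_lit 50996) (XT.lf (nat_lit 0) (nat_lit 13062415088) (nat_lit 228) (nat_lit 5747601767) (nat_lit 76) (nat_lit 129435397) (nat_lit 42) (nat_lit 5) (nat_lit 45) (nat_lit 5) (nat_lit 43) (nat_lit 5) (nat_lit 488) (nat_lit 394) (nat_lit 318)) (XT.lf (nat_lit 0) (nat_lit 251816689) (nat_lit 684) (nat_lit 2770964486) (nat_lit 0) (nat_lit 251816689) (nat_lit 713) (nat_lit 5) (nat_lit 722) (nat_lit 4) (nat_lit 713) (nat_lit 4) (nat_lit 410) (nat_lit 395) (nat_lit 395))))) (XT.nd (nat_lit 234) (nat_lit 2888) (nat_lit 0) (XT.nd (nat_lit 78) (nat_lit 912) (nat_lit 0) (XT.lf (nat_lit 0) (nat_lit 338083507) (nat_lit 684) (nat_lit 4958120253) (nat_lit 684) (nat_lit 1275774374)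 (nat_lit 704) (nat_lit 4) (nat_lit 713) (nat_lit 5) (nat_lit 713) (nat_lit 4) (nat_lit 411) (nat_lit 395) (nat_lit 394)) (XT.nd (nat_lit 78) (nat_lit 836) (nat_lit 0) (XT.lf (nat_lit 0) (nat_lit 3459740349) (nat_lit 760) (nat_lit 268763459) (nat_lit 76) (nat_lit 2869104566) (nat_lit 703) (nat_lit 5) (nat_lit 713) (nat_lit 5) (nat_lit 704) (nat_lit 4) (nat_lit 412) (nat_lit 395) (nat_lit 393)) (XT.lf (nat_lit 0) (nat_lit 1548372069) (nat_lit 836) (nat_lit 810410849) (nat_lit 76) (nat_lit 4267387578) (nat_lit 692) (nat_lit 5) (nat_lit 703) (nat_lit 5) (nat_lit 693) (nat_lit 5) (nat_lit 413) (nat_lit 395) (nat_lit 392)))) (XT.nd (nat_lit 78) (nat_lit 2052) (nat_lit 0) (XT.lf (nat_lit 0) (nat_lit 5362969985) (nat_lit 836) (nat_lit 846801221) (nat_lit 912) (nat_lit 447899438) (nat_lit 681) (nat_lit 5) (nat_lit 692) (nat_lit 5) (nat_lit 693) (nat_lit 5) (nat_lit 414) (nat_lit 395) (nat_lit 391)) (XT.nd (nat_lit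 78) (nat_lit 1064) (nat_lit 0) (XT.lf (nat_lit 0) (nat_lit 4150415490) (nat_lit 988) (nat_lit 1735185646) (nat_lit 76) (nat_lit 806267936) (nat_lit 668) (nat_lit 5) (nat_lit 681) (nat_lit 5) (nat_lit 669) (nat_lit 5) (nat_lit 415) (nat_lit 395) (nat_lit 390)) (XT.lf (nat_lit 0) (nat_lit 2016282864) (nat_lit 1064) (nat_lit 2123189603) (nat_lit 76) (nat_lit 2589499076) (nat_lit 654) (nat_lit 5) (nat_lit 668) (nat_lit 5) (nat_lit 655) (nat_lit 5) (nat_lit 416) (nat_lit 395) (nat_lit 389)))))) (XT.nd (nat_lit 468) (nat_lit 9424) (nat_lit 0) (XT.nd (nat_lit 234) (nat_lit 4256) (nat_lit 0) (XT.nd (nat_lit 78) (nat_lit 2508) (nat_lit 0) (XT.lf (nat_lit 0) (nat_lit 4314218243) (nat_lit 1064) (nat_lit 2251915774) (nat_lit 1140) (nat_lit 202954103) (nat_lit 640) (nat_lit 5) (nat_lit 654) (nat_lit 5) (nat_lit 655) (nat_lit 5) (nat_lit 417) (nat_lit 395) (nat_lit 388)) (XT.nd (nat_lit 78) (nat_lit 1292) (nat_lit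 0) (XT.lf (nat_lit 0) (nat_lit 4068989550) (nat_lit 1140) (nat_lit 208201205) (nat_lit 1216) (nat_lit 2534806618) (nat_lit 624) (nat_lit 5) (nat_lit 639) (nat_lit 5) (nat_lit 640) (nat_lit 5) (nat_lit 418) (nat_lit 395) (nat_lit 387)) (XT.lf (nat_lit 0) (nat_lit 1916003590) (nat_lit 1292) (nat_lit 2987427422) (nat_lit 76) (nat_lit 1954307035) (nat_lit 607) (nat_lit 5) (nat_lit 624) (nat_lit 5) (nat_lit 608) (nat_lit 5) (nat_lit 419) (nat_lit 395) (nat_lit 386)))) (XT.nd (nat_lit 78) (nat_lit 2964) (nat_lit 0) (XT.lf (nat_lit 0) (nat_lit 3725244771) (nat_lit 1292) (nat_lit 2643786170) (nat_lit 1368) (nat_lit 537453269) (nat_lit 590) (nat_lit 5) (nat_lit 607) (nat_lit 5) (nat_lit 608) (nat_lit 5) (nat_lit 420) (nat_lit 395) (nat_lit 385)) (XT.nd (nat_lit 78) (nat_lit 1520) (nat_lit 0) (XT.lf (nat_lit 0) (nat_lit 3625181469) (nat_lit 1368) (nat_lit 226293164) (nat_lit 1444) (nat_lit 3106629037) (nat_lit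 571) (nat_lit 5) (nat_lit 589) (nat_lit 5) (nat_lit 590) (nat_lit 5) (nat_lit 421) (nat_lit 395) (nat_lit 384)) (XT.lf (nat_lit 0) (nat_lit 1259384007) (nat_lit 1520) (nat_lit 3445141998) (nat_lit 76) (nat_lit 2308055598) (nat_lit 551) (nat_lit 5) (nat_lit 571) (nat_lit 5) (nat_lit 552) (nat_lit 5) (nat_lit 422) (nat_lit 395) (nat_lit 383))))) (XT.nd (nat_lit 234) (nat_lit 4484) (nat_lit 0) (XT.nd (nat_lit 78) (nat_lit 3420) (nat_lit 0) (XT.lf (nat_lit 0) (nat_lit 3555476880) (nat_lit 1520) (nat_lit 2072980621) (nat_lit 1596) (nat_lit 1441567195) (nat_lit 531) (nat_lit 5) (nat_lit 551) (nat_lit 5) (nat_lit 552) (nat_lit 5) (nat_lit 423) (nat_lit 395) (nat_lit 382)) (XT.nd (nat_lit 78) (nat_lit 1748) (nat_lit 0) (XT.lf (nat_lit 0) (nat_lit 2880472441) (nat_lit 1672) (nat_lit 3543851549) (nat_lit 76) (nat_lit 706095590) (nat_lit 509) (nat_lit 5) (nat_lit 531) (nat_lit 5) (nat_lit 510) (nat_lit 5) (nat_lit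 424) (nat_lit 395) (nat_lit 381)) (XT.lf (nat_lit 0) (nat_lit 51863654) (nat_lit 1748) (nat_lit 3534517295) (nat_lit 76) (nat_lit 3607398137) (nat_lit 486) (nat_lit 5) (nat_lit 509) (nat_lit 5) (nat_lit 487) (nat_lit 5) (nat_lit 425) (nat_lit 395) (nat_lit 380)))) (XT.nd (nat_lit 78) (nat_lit 2736) (nat_lit 0) (XT.lf (nat_lit 0) (nat_lit 3768130041) (nat_lit 1748) (nat_lit 579967931) (nat_lit 1824) (nat_lit 2911941351) (nat_lit 463) (nat_lit 5) (nat_lit 486) (nat_lit 5) (nat_lit 487) (nat_lit 5) (nat_lit 426) (nat_lit 395) (nat_lit 379)) (XT.nd (nat_lit 78) (nat_lit 988) (nat_lit 0) (XT.lf (nat_lit 0) (nat_lit 1368564033) (nat_lit 1748) (nat_lit 3414732925) (nat_lit 76) (nat_lit 2545973948) (nat_lit 440) (nat_lit 5) (nat_lit 463) (nat_lit 5) (nat_lit 441) (nat_lit 5) (nat_lit 427) (nat_lit 395) (nat_lit 378)) (XT.lf (nat_lit 0) (nat_lit 4099805937) (nat_lit 988) (nat_lit 1571702677) (nat_lit 1064)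 (nat_lit 1730036303) (nat_lit 427) (nat_lit 5) (nat_lit 440) (nat_lit 5) (nat_lit 441) (nat_lit 5) (nat_lit 428) (nat_lit 395) (nat_lit 377))))))) (XT.nd (nat_lit 936) (nat_lit 7068) (nat_lit 0) (XT.nd (nat_lit 468) (nat_lit 5168) (nat_lit 0) (XT.nd (nat_lit 234) (nat_lit 2584) (nat_lit 0) (XT.nd (nat_lit 78) (nat_lit 1824) (nat_lit 0) (XT.lf (nat_lit 0) (nat_lit 2537198565) (nat_lit 988) (nat_lit 3159123958) (nat_lit 76) (nat_lit 1780462417) (nat_lit 414) (nat_lit 5) (nat_lit 427) (nat_lit 5) (nat_lit 415) (nat_lit 5) (nat_lit 429) (nat_lit 395) (nat_lit 376)) (XT.nd (nat_lit 78) (nat_lit 912) (nat_lit 0) (XT.lf (nat_lit 0) (nat_lit 4573429233) (nat_lit 912) (nat_lit 2282041598) (nat_lit 988) (nat_lit 699672602) (nat_lit 402) (nat_lit 5) (nat_lit 414) (nat_lit 5) (nat_lit 415) (nat_lit 5) (nat_lit 430) (nat_lit 395) (nat_lit 375)) (XT.lf (nat_lit 0) (nat_lit 3566463050) (nat_lit 912) (nat_lit 2780381221)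 (nat_lit 76) (nat_lit 1289609199) (nat_lit 390) (nat_lit 5) (nat_lit 402) (nat_lit 5) (nat_lit 391) (nat_lit 5) (nat_lit 431) (nat_lit 395) (nat_lit 374)))) (XT.nd (nat_lit 78) (nat_lit 1672) (nat_lit 0) (XT.lf (nat_lit 0) (nat_lit 184922793) (nat_lit 912) (nat_lit 2545523174) (nat_lit 76) (nat_lit 4990513197) (nat_lit 378) (nat_lit 5) (nat_lit 390) (nat_lit 5) (nat_lit 379) (nat_lit 5) (nat_lit 432) (nat_lit 395) (nat_lit 373)) (XT.nd (nat_lit 78) (nat_lit 912) (nat_lit 0) (XT.lf (nat_lit 0) (nat_lit 4464038702) (nat_lit 836) (nat_lit 2290702247) (nat_lit 76) (nat_lit 1053702025) (nat_lit 368) (nat_lit 5) (nat_lit 379) (nat_lit 5) (nat_lit 369) (nat_lit 5) (nat_lit 433) (nat_lit 395) (nat_lit 372)) (XT.lf (nat_lit 0) (nat_lit 926024805) (nat_lit 912) (nat_lit 2007637044) (nat_lit 76) (nat_lit 4965464074) (nat_lit 356) (nat_lit 5) (nat_lit 368) (nat_lit 5) (nat_lit 357) (nat_lit 5) (nat_lit 434) (nat_lit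 395) (nat_lit 371))))) (XT.nd (nat_lit 234) (nat_lit 2888) (nat_lit 0) (XT.nd (nat_lit 78) (nat_lit 1520) (nat_lit 0) (XT.lf (nat_lit 0) (nat_lit 5236632902) (nat_lit 836) (nat_lit 1701894712) (nat_lit 76) (nat_lit 1054426189) (nat_lit 346) (nat_lit 5) (nat_lit 357) (nat_lit 5) (nat_lit 347) (nat_lit 5) (nat_lit 435) (nat_lit 395) (nat_lit 370)) (XT.nd (nat_lit 78) (nat_lit 684) (nat_lit 0) (XT.lf (nat_lit 0) (nat_lit 1538953122) (nat_lit 836) (nat_lit 1375242612) (nat_lit 76) (nat_lit 5175754480) (nat_lit 335) (nat_lit 5) (nat_lit 346) (nat_lit 5) (nat_lit 336) (nat_lit 5) (nat_lit 436) (nat_lit 395) (nat_lit 369)) (XT.lf (nat_lit 0) (nat_lit 5890013040) (nat_lit 760) (nat_lit 1025479359) (nat_lit 76) (nat_lit 1274727608) (nat_lit 326) (nat_lit 5) (nat_lit 336) (nat_lit 5) (nat_lit 327) (nat_lit 5) (nat_lit 437) (nat_lit 395) (nat_lit 368)))) (XT.nd (nat_lit 78) (nat_lit 2052) (nat_lit 0) (XT.lf (nat_lit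 0) (nat_lit 2028911013) (nat_lit 836) (nat_lit 659827013) (nat_lit 76) (nat_lit 5604943482) (nat_lit 315) (nat_lit 5) (nat_lit 326) (nat_lit 5) (nat_lit 316) (nat_lit 5) (nat_lit 438) (nat_lit 395) (nat_lit 367)) (XT.nd (nat_lit 78) (nat_lit 1368) (nat_lit 0) (XT.lf (nat_lit 0) (nat_lit 6429033604) (nat_lit 760) (nat_lit 272793263) (nat_lit 76) (nat_lit 1698682475) (nat_lit 306) (nat_lit 5) (nat_lit 316) (nat_lit 5) (nat_lit 307) (nat_lit 5) (nat_lit 439) (nat_lit 395) (nat_lit 366)) (XT.lf (nat_lit 0) (nat_lit 128952022) (nat_lit 608) (nat_lit 2272070824) (nat_lit 684) (nat_lit 6109563566) (nat_lit 288) (nat_lit 5) (nat_lit 296) (nat_lit 5) (nat_lit 297) (nat_lit 5) (nat_lit 440) (nat_lit 395) (nat_lit 365)))))) (XT.nd (nat_lit 468) (nat_lit 3268) (nat_lit 0) (XT.nd (nat_lit 234) (nat_lit 1824) (nat_lit 0) (XT.nd (nat_lit 78) (nat_lit 1292) (nat_lit 0) (XT.lf (nat_lit 0) (nat_lit 552147271) (nat_lit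 684) (nat_lit 6309094188) (nat_lit 760) (nat_lit 1762810248) (nat_lit 279) (nat_lit 5) (nat_lit 288) (nat_lit 5) (nat_lit 289) (nat_lit 5) (nat_lit 441) (nat_lit 395) (nat_lit 364)) (XT.nd (nat_lit 78) (nat_lit 608) (nat_lit 0) (XT.lf (nat_lit 0) (nat_lit 987657550) (nat_lit 608) (nat_lit 1674920096) (nat_lit 684) (nat_lit 6078326727) (nat_lit 270) (nat_lit 5) (nat_lit 278) (nat_lit 5) (nat_lit 279) (nat_lit 5) (nat_lit 442) (nat_lit 395) (nat_lit 363)) (XT.lf (nat_lit 0) (nat_lit 1435155007) (nat_lit 608) (nat_lit 5753128018) (nat_lit 684) (nat_lit 1672928579) (nat_lit 262) (nat_lit 5) (nat_lit 270) (nat_lit 5) (nat_lit 271) (nat_lit 5) (nat_lit 443) (nat_lit 395) (nat_lit 362)))) (XT.nd (nat_lit 78) (nat_lit 1216) (nat_lit 0) (XT.lf (nat_lit 0) (nat_lit 1895977012) (nat_lit 532) (nat_lit 915682296) (nat_lit 608) (nat_lit 6173416355) (nat_lit 254) (nat_lit 5) (nat_lit 261) (nat_lit 5) (nat_lit 262)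 (nat_lit 5) (nat_lit 444) (nat_lit 395) (nat_lit 361)) (XT.nd (nat_lit 78) (nat_lit 608) (nat_lit 0) (XT.lf (nat_lit 0) (nat_lit 2361031264) (nat_lit 608) (nat_lit 5049468587) (nat_lit 684) (nat_lit 1701896978) (nat_lit 246) (nat_lit 5) (nat_lit 254) (nat_lit 5) (nat_lit 255) (nat_lit 5) (nat_lit 445) (nat_lit 395) (nat_lit 360)) (XT.lf (nat_lit 0) (nat_lit 2842176674) (nat_lit 532) (nat_lit 7630122) (nat_lit 608) (nat_lit 6393682002) (nat_lit 238) (nat_lit 5) (nat_lit 245) (nat_lit 5) (nat_lit 246) (nat_lit 5) (nat_lit 446) (nat_lit 395) (nat_lit 359))))) (XT.nd (nat_lit 234) (nat_lit 1596) (nat_lit 0) (XT.nd (nat_lit 78) (nat_lit 1140) (nat_lit 0) (XT.lf (nat_lit 0) (nat_lit 3317949447) (nat_lit 532) (nat_lit 4211205571) (nat_lit 608) (nat_lit 1848859573) (nat_lit 231) (nat_lit 5) (nat_lit 238) (nat_lit 5) (nat_lit 239) (nat_lit 5) (nat_lit 447) (nat_lit 395) (nat_lit 358)) (XT.nd (nat_lit 78) (nat_lit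 532) (nat_lit 0) (XT.lf (nat_lit 0) (nat_lit 2784399214) (nat_lit 608) (nat_lit 5709082647) (nat_lit 76) (nat_lit 1022951620) (nat_lit 223) (nat_lit 5) (nat_lit 231) (nat_lit 5) (nat_lit 224) (nat_lit 5) (nat_lit 448) (nat_lit 395) (nat_lit 357)) (XT.lf (nat_lit 0) (nat_lit 4293710035) (nat_lit 532) (nat_lit 3250920993) (nat_lit 608) (nat_lit 2113877192) (nat_lit 216) (nat_lit 5) (nat_lit 223) (nat_lit 5) (nat_lit 224) (nat_lit 5) (nat_lit 449) (nat_lit 395) (nat_lit 356)))) (XT.nd (nat_lit 78) (nat_lit 1064) (nat_lit 0) (XT.lf (nat_lit 0) (nat_lit 2609309013) (nat_lit 532) (nat_lit 5019466783) (nat_lit 76) (nat_lit 2175712431) (nat_lit 209) (nat_lit 5) (nat_lit 216) (nat_lit 5) (nat_lit 210) (nat_lit 5) (nat_lit 450) (nat_lit 395) (nat_lit 355)) (XT.nd (nat_lit 78) (nat_lit 532) (nat_lit 0) (XT.lf (nat_lit 0) (nat_lit 5275614835) (nat_lit 532) (nat_lit 2180800409) (nat_lit 608) (nat_lit 2497942912)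 (nat_lit 202) (nat_lit 5) (nat_lit 209) (nat_lit 5) (nat_lit 210) (nat_lit 5) (nat_lit 451) (nat_lit 395) (nat_lit 354)) (XT.lf (nat_lit 0) (nat_lit 2323238991) (nat_lit 532) (nat_lit 4345868076) (nat_lit 76) (nat_lit 3439047243) (nat_lit 195) (nat_lit 5) (nat_lit 202) (nat_lit 5) (nat_lit 196) (nat_lit 5) (nat_lit 452) (nat_lit 395) (nat_lit 353))))))))
noncomputable def xc34 : XT := (XT.nd (nat_lit 1794) (nat_lit 3116) (nat_lit 0) (XT.nd (nat_lit 858) (nat_lit 3724) (nat_lit 0) (XT.nd (nat_lit 390) (nat_lit 2432) (nat_lit 0) (XT.nd (nat_lit 156) (nat_lit 1368) (nat_lit 0) (XT.nd (nat_lit 78) (nat_lit 532) (nat_lit 0) (XT.lf (nat_lit 0) (nat_lit 6250334082) (nat_lit 456) (nat_lit 1012743873) (nat_lit 532) (nat_lit 3003005168) (nat_lit 189) (nat_lit 5) (nat_lit 195) (nat_lit 5) (nat_lit 196) (nat_lit 5) (nat_lit 453) (nat_lit 395) (nat_lit 352)) (XT.lf (nat_lit 0) (nat_lit 1923998214) (nat_lit 532)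 (nat_lit 3702477280) (nat_lit 76) (nat_lit 4801495506) (nat_lit 182) (nat_lit 5) (nat_lit 189) (nat_lit 5) (nat_lit 183) (nat_lit 5) (nat_lit 454) (nat_lit 395) (nat_lit 351))) (XT.nd (nat_lit 78) (nat_lit 912) (nat_lit 0) (XT.lf (nat_lit 0) (nat_lit 6963810842) (nat_lit 532) (nat_lit 3392044440) (nat_lit 76) (nat_lit 238354830) (nat_lit 176) (nat_lit 5) (nat_lit 183) (nat_lit 5) (nat_lit 177) (nat_lit 5) (nat_lit 455) (nat_lit 395) (nat_lit 350)) (XT.nd (nat_lit 78) (nat_lit 456) (nat_lit 0) (XT.lf (nat_lit 0) (nat_lit 1408417960) (nat_lit 456) (nat_lit 3104369740) (nat_lit 76) (nat_lit 6251730307) (nat_lit 170) (nat_lit 5) (nat_lit 176) (nat_lit 5) (nat_lit 171) (nat_lit 5) (nat_lit 456) (nat_lit 395) (nat_lit 349)) (XT.lf (nat_lit 0) (nat_lit 6560744252) (nat_lit 532) (nat_lit 2828746762) (nat_lit 76) (nat_lit 1549737823) (nat_lit 164) (nat_lit 5) (nat_lit 171) (nat_lit 5) (nat_lit 165) (nat_lit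 5) (nat_lit 457) (nat_lit 395) (nat_lit 348))))) (XT.nd (nat_lit 234) (nat_lit 1140) (nat_lit 0) (XT.nd (nat_lit 78) (nat_lit 836) (nat_lit 0) (XT.lf (nat_lit 0) (nat_lit 772308843) (nat_lit 456) (nat_lit 2567662860) (nat_lit 76) (nat_lit 7778445435) (nat_lit 158) (nat_lit 5) (nat_lit 164) (nat_lit 5) (nat_lit 159) (nat_lit 5) (nat_lit 458) (nat_lit 395) (nat_lit 347)) (XT.nd (nat_lit 78) (nat_lit 456) (nat_lit 0) (XT.lf (nat_lit 0) (nat_lit 6042834971) (nat_lit 456) (nat_lit 2335959292) (nat_lit 76) (nat_lit 2923120539) (nat_lit 153) (nat_lit 5) (nat_lit 159) (nat_lit 5) (nat_lit 154) (nat_lit 5) (nat_lit 459) (nat_lit 395) (nat_lit 346)) (XT.lf (nat_lit 0) (nat_lit 10409064) (nat_lit 456) (nat_lit 2109685597) (nat_lit 76) (nat_lit 9370239513) (nat_lit 147) (nat_lit 5) (nat_lit 153) (nat_lit 5) (nat_lit 148) (nat_lit 5) (nat_lit 460) (nat_lit 395) (nat_lit 345)))) (XT.nd (nat_lit 78) (nat_lit 760)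 (nat_lit 0) (XT.lf (nat_lit 0) (nat_lit 5404527866) (nat_lit 456) (nat_lit 1931665077) (nat_lit 76) (nat_lit 4346763987) (nat_lit 142) (nat_lit 5) (nat_lit 148) (nat_lit 5) (nat_lit 143) (nat_lit 5) (nat_lit 461) (nat_lit 395) (nat_lit 344)) (XT.nd (nat_lit 78) (nat_lit 456) (nat_lit 0) (XT.lf (nat_lit 0) (nat_lit 10125889442) (nat_lit 304) (nat_lit 859554843) (nat_lit 380) (nat_lit 895420396) (nat_lit 138) (nat_lit 5) (nat_lit 142) (nat_lit 5) (nat_lit 143) (nat_lit 5) (nat_lit 462) (nat_lit 395) (nat_lit 343)) (XT.lf (nat_lit 0) (nat_lit 4639114566) (nat_lit 456) (nat_lit 1635341912) (nat_lit 76) (nat_lit 5808634810) (nat_lit 132) (nat_lit 5) (nat_lit 138) (nat_lit 5) (nat_lit 133) (nat_lit 5) (nat_lit 463) (nat_lit 395) (nat_lit 342)))))) (XT.nd (nat_lit 468) (nat_lit 1672) (nat_lit 0) (XT.nd (nat_lit 234) (nat_lit 1064) (nat_lit 0) (XT.nd (nat_lit 78) (nat_lit 684) (nat_lit 0) (XT.lf (nat_lit 0)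 (nat_lit 10350586052) (nat_lit 380) (nat_lit 1521775992) (nat_lit 76) (nat_lit 418448315) (nat_lit 128) (nat_lit 5) (nat_lit 133) (nat_lit 5) (nat_lit 129) (nat_lit 5) (nat_lit 464) (nat_lit 395) (nat_lit 341)) (XT.nd (nat_lit 78) (nat_lit 304) (nat_lit 0) (XT.lf (nat_lit 0) (nat_lit 3738657094) (nat_lit 380) (nat_lit 1468169052) (nat_lit 76) (nat_lit 7296277407) (nat_lit 123) (nat_lit 5) (nat_lit 128) (nat_lit 5) (nat_lit 124) (nat_lit 5) (nat_lit 465) (nat_lit 395) (nat_lit 340)) (XT.lf (nat_lit 0) (nat_lit 9591004006) (nat_lit 380) (nat_lit 1435094877) (nat_lit 76) (nat_lit 1694825928) (nat_lit 119) (nat_lit 5) (nat_lit 124) (nat_lit 5) (nat_lit 120) (nat_lit 5) (nat_lit 466) (nat_lit 395) (nat_lit 339)))) (XT.nd (nat_lit 78) (nat_lit 684) (nat_lit 0) (XT.lf (nat_lit 0) (nat_lit 2693900226) (nat_lit 380) (nat_lit 1453252219) (nat_lit 76) (nat_lit 8796679291) (nat_lit 114) (nat_lit 5) (nat_lit 119)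 (nat_lit 5) (nat_lit 115) (nat_lit 5) (nat_lit 467) (nat_lit 395) (nat_lit 338)) (XT.nd (nat_lit 78) (nat_lit 380) (nat_lit 0) (XT.lf (nat_lit 0) (nat_lit 8691486211) (nat_lit 380) (nat_lit 1513498587) (nat_lit 76) (nat_lit 2967200394) (nat_lit 110) (nat_lit 5) (nat_lit 115) (nat_lit 5) (nat_lit 111) (nat_lit 5) (nat_lit 468) (nat_lit 395) (nat_lit 337)) (XT.lf (nat_lit 0) (nat_lit 1494171675) (nat_lit 380) (nat_lit 1615869087) (nat_lit 76) (nat_lit 10296128436) (nat_lit 105) (nat_lit 5) (nat_lit 110) (nat_lit 5) (nat_lit 106) (nat_lit 5) (nat_lit 469) (nat_lit 395) (nat_lit 336))))) (XT.nd (nat_lit 234) (nat_lit 836) (nat_lit 0) (XT.nd (nat_lit 78) (nat_lit 608) (nat_lit 0) (XT.lf (nat_lit 0) (nat_lit 7640945597) (nat_lit 304) (nat_lit 1783439944) (nat_lit 76) (nat_lit 4221128412) (nat_lit 102) (nat_lit 5) (nat_lit 106) (nat_lit 5) (nat_lit 103) (nat_lit 5) (nat_lit 470) (nat_lit 395) (nat_lit 335))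 (XT.nd (nat_lit 78) (nat_lit 228) (nat_lit 0) (XT.lf (nat_lit 0) (nat_lit 127269060) (nat_lit 380) (nat_lit 1983737607) (nat_lit 76) (nat_lit 11780061294) (nat_lit 97) (nat_lit 5) (nat_lit 102) (nat_lit 5) (nat_lit 98) (nat_lit 5) (nat_lit 471) (nat_lit 395) (nat_lit 334)) (XT.lf (nat_lit 0) (nat_lit 6426719519) (nat_lit 304) (nat_lit 2273957692) (nat_lit 76) (nat_lit 5441216747) (nat_lit 94) (nat_lit 5) (nat_lit 98) (nat_lit 5) (nat_lit 95) (nat_lit 5) (nat_lit 472) (nat_lit 395) (nat_lit 333)))) (XT.nd (nat_lit 78) (nat_lit 532) (nat_lit 0) (XT.lf (nat_lit 0) (nat_lit 11802699158) (nat_lit 304) (nat_lit 1157108866) (nat_lit 380) (nat_lit 1439547411) (nat_lit 90) (nat_lit 5) (nat_lit 94) (nat_lit 5) (nat_lit 95) (nat_lit 5) (nat_lit 473) (nat_lit 395) (nat_lit 332)) (XT.nd (nat_lit 78) (nat_lit 228) (nat_lit 0) (XT.lf (nat_lit 0) (nat_lit 5034435148) (nat_lit 304) (nat_lit 3016983938) (nat_lit 76)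 (nat_lit 6610953209) (nat_lit 86) (nat_lit 5) (nat_lit 90) (nat_lit 5) (nat_lit 87) (nat_lit 5) (nat_lit 474) (nat_lit 395) (nat_lit 331)) (XT.lf (nat_lit 0) (nat_lit 11451338503) (nat_lit 228) (nat_lit 273554551) (nat_lit 304) (nat_lit 3207363529) (nat_lit 83) (nat_lit 5) (nat_lit 86) (nat_lit 5) (nat_lit 87) (nat_lit 5) (nat_lit 475) (nat_lit 395) (nat_lit 330))))))) (XT.nd (nat_lit 858) (nat_lit 456) (nat_lit 0) (XT.nd (nat_lit 390) (nat_lit 1368) (nat_lit 0) (XT.nd (nat_lit 156) (nat_lit 760) (nat_lit 0) (XT.nd (nat_lit 78) (nat_lit 228) (nat_lit 0) (XT.lf (nat_lit 0) (nat_lit 3447858546) (nat_lit 304) (nat_lit 4047681447) (nat_lit 76) (nat_lit 7712524496) (nat_lit 79) (nat_lit 5) (nat_lit 83) (nat_lit 5) (nat_lit 80) (nat_lit 5) (nat_lit 476) (nat_lit 395) (nat_lit 329)) (XT.lf (nat_lit 0) (nat_lit 10301967724) (nat_lit 304) (nat_lit 4676093196) (nat_lit 76) (nat_lit 512808816) (nat_lit 76) (nat_lit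 5) (nat_lit 80) (nat_lit 5) (nat_lit 77) (nat_lit 5) (nat_lit 477) (nat_lit 395) (nat_lit 328))) (XT.nd (nat_lit 78) (nat_lit 456) (nat_lit 0) (XT.lf (nat_lit 0) (nat_lit 1648725886) (nat_lit 304) (nat_lit 5404814076) (nat_lit 76) (nat_lit 8726619136) (nat_lit 72) (nat_lit 5) (nat_lit 76) (nat_lit 5) (nat_lit 73) (nat_lit 5) (nat_lit 478) (nat_lit 395) (nat_lit 327)) (XT.nd (nat_lit 78) (nat_lit 228) (nat_lit 0) (XT.lf (nat_lit 0) (nat_lit 8669913480) (nat_lit 304) (nat_lit 6220707906) (nat_lit 76) (nat_lit 1185844217) (nat_lit 69) (nat_lit 5) (nat_lit 73) (nat_lit 5) (nat_lit 70) (nat_lit 5) (nat_lit 479) (nat_lit 395) (nat_lit 326)) (XT.lf (nat_lit 0) (nat_lit 9246195678) (nat_lit 228) (nat_lit 6745136004) (nat_lit 304) (nat_lit 388540628) (nat_lit 66) (nat_lit 5) (nat_lit 69) (nat_lit 5) (nat_lit 70) (nat_lit 5) (nat_lit 480) (nat_lit 395) (nat_lit 325))))) (XT.nd (nat_lit 234) (nat_lit 608) (nat_lit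 0) (XT.nd (nat_lit 78) (nat_lit 456) (nat_lit 0) (XT.lf (nat_lit 0) (nat_lit 6805718510) (nat_lit 304) (nat_lit 8157925272) (nat_lit 76) (nat_lit 1726743695) (nat_lit 62) (nat_lit 5) (nat_lit 66) (nat_lit 5) (nat_lit 63) (nat_lit 5) (nat_lit 481) (nat_lit 395) (nat_lit 324)) (XT.nd (nat_lit 78) (nat_lit 304) (nat_lit 0) (XT.lf (nat_lit 0) (nat_lit 7716848649) (nat_lit 152) (nat_lit 6584438301) (nat_lit 228) (nat_lit 2707067261) (nat_lit 60) (nat_lit 5) (nat_lit 62) (nat_lit 5) (nat_lit 63) (nat_lit 5) (nat_lit 482) (nat_lit 395) (nat_lit 323)) (XT.lf (nat_lit 0) (nat_lit 4685624915) (nat_lit 304) (nat_lit 10537382752) (nat_lit 76) (nat_lit 2111021993) (nat_lit 56) (nat_lit 5) (nat_lit 60) (nat_lit 5) (nat_lit 57) (nat_lit 5) (nat_lit 483) (nat_lit 395) (nat_lit 322)))) (XT.nd (nat_lit 78) (nat_lit 456) (nat_lit 0) (XT.lf (nat_lit 0) (nat_lit 5747458434) (nat_lit 152) (nat_lit 6608945656) (nat_lit 228)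 (nat_lit 5310854196) (nat_lit 54) (nat_lit 5) (nat_lit 56) (nat_lit 5) (nat_lit 57) (nat_lit 5) (nat_lit 484) (nat_lit 395) (nat_lit 321)) (XT.nd (nat_lit 78) (nat_lit 152) (nat_lit 0) (XT.lf (nat_lit 0) (nat_lit 2283107443) (nat_lit 304) (nat_lit 13413933438) (nat_lit 76) (nat_lit 2311838451) (nat_lit 50) (nat_lit 5) (nat_lit 54) (nat_lit 5) (nat_lit 51) (nat_lit 5) (nat_lit 485) (nat_lit 395) (nat_lit 320)) (XT.lf (nat_lit 0) (nat_lit 3281700117) (nat_lit 152) (nat_lit 6847645585) (nat_lit 228) (nat_lit 8228771275) (nat_lit 48) (nat_lit 5) (nat_lit 50) (nat_lit 5) (nat_lit 51) (nat_lit 5) (nat_lit 486) (nat_lit 395) (nat_lit 319)))))) (XT.nd (nat_lit 56628) (nat_lit 0) (nat_lit 45372) (XT.nd (nat_lit 56394) (nat_lit 0) (nat_lit 50236) (XT.nd (nat_lit 78) (nat_lit 228) (nat_lit 0) (XT.lf (nat_lit 0) (nat_lit 1865412617) (nat_lit 228) (nat_lit 16413922305) (nat_lit 304) (nat_lit 437131779) (nat_lit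 45) (nat_lit 5) (nat_lit 48) (nat_lit 5) (nat_lit 49) (nat_lit 5) (nat_lit 487) (nat_lit 395) (nat_lit 318)) (XT.nd (nat_lit 56238) (nat_lit 0) (nat_lit 52212) (XT.lf (nat_lit 0) (nat_lit 257240232) (nat_lit 152) (nat_lit 7332387091) (nat_lit 228) (nat_lit 11492938514) (nat_lit 42) (nat_lit 5) (nat_lit 44) (nat_lit 5) (nat_lit 45) (nat_lit 5) (nat_lit 488) (nat_lit 395) (nat_lit 317)) (XT.lf (nat_lit 0) (nat_lit 645790118) (nat_lit 532) (nat_lit 1963702318) (nat_lit 0) (nat_lit 645790118) (nat_lit 729) (nat_lit 5) (nat_lit 736) (nat_lit 4) (nat_lit 729) (nat_lit 4) (nat_lit 408) (nat_lit 396) (nat_lit 396)))) (XT.nd (nat_lit 78) (nat_lit 1444) (nat_lit 0) (XT.lf (nat_lit 0) (nat_lit 1728197903) (nat_lit 532) (nat_lit 4334802475) (nat_lit 532) (nat_lit 466129895) (nat_lit 722) (nat_lit 4) (nat_lit 729) (nat_lit 5) (nat_lit 729) (nat_lit 4) (nat_lit 409) (nat_lit 396) (nat_lit 395)) (XT.nd (nat_lit 78)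 (nat_lit 760) (nat_lit 0) (XT.lf (nat_lit 0) (nat_lit 927840990) (nat_lit 608) (nat_lit 3306073052) (nat_lit 684) (nat_lit 2316554829) (nat_lit 713) (nat_lit 5) (nat_lit 721) (nat_lit 5) (nat_lit 722) (nat_lit 4) (nat_lit 410) (nat_lit 396) (nat_lit 394)) (XT.lf (nat_lit 0) (nat_lit 190069824) (nat_lit 684) (nat_lit 2140389287) (nat_lit 760) (nat_lit 4244306945) (nat_lit 703) (nat_lit 5) (nat_lit 712) (nat_lit 5) (nat_lit 713) (nat_lit 5) (nat_lit 411) (nat_lit 396) (nat_lit 393))))) (XT.nd (nat_lit 234) (nat_lit 3116) (nat_lit 0) (XT.nd (nat_lit 78) (nat_lit 1672) (nat_lit 0) (XT.lf (nat_lit 0) (nat_lit 353950587) (nat_lit 760) (nat_lit 479366463) (nat_lit 76) (nat_lit 5768659032) (nat_lit 702) (nat_lit 5) (nat_lit 712) (nat_lit 5) (nat_lit 703) (nat_lit 5) (nat_lit 412) (nat_lit 396) (nat_lit 392)) (XT.nd (nat_lit 78) (nat_lit 912) (nat_lit 0) (XT.lf (nat_lit 0) (nat_lit 4913565263) (nat_lit 836)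 (nat_lit 1100951830) (nat_lit 76) (nat_lit 617342813) (nat_lit 692) (nat_lit 5) (nat_lit 703) (nat_lit 5) (nat_lit 693) (nat_lit 5) (nat_lit 413) (nat_lit 396) (nat_lit 391)) (XT.lf (nat_lit 0) (nat_lit 2794222459) (nat_lit 912) (nat_lit 1671620181) (nat_lit 76) (nat_lit 2198742027) (nat_lit 680) (nat_lit 5) (nat_lit 692) (nat_lit 5) (nat_lit 681) (nat_lit 5) (nat_lit 414) (nat_lit 396) (nat_lit 390)))) (XT.nd (nat_lit 78) (nat_lit 2128) (nat_lit 0) (XT.lf (nat_lit 0) (nat_lit 595152785) (nat_lit 988) (nat_lit 2184062931) (nat_lit 76) (nat_lit 3921113020) (nat_lit 667) (nat_lit 5) (nat_lit 680) (nat_lit 5) (nat_lit 668) (nat_lit 5) (nat_lit 415) (nat_lit 396) (nat_lit 389)) (XT.nd (nat_lit 78) (nat_lit 1140) (nat_lit 0) (XT.lf (nat_lit 0) (nat_lit 4089140715) (nat_lit 988) (nat_lit 941555937) (nat_lit 1064) (nat_lit 1708199114) (nat_lit 654) (nat_lit 5) (nat_lit 667) (nat_lit 5) (nat_lit 668) (nat_lit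 5) (nat_lit 416) (nat_lit 396) (nat_lit 388)) (XT.lf (nat_lit 0) (nat_lit 2682520289) (nat_lit 1140) (nat_lit 3069164743) (nat_lit 76) (nat_lit 1028625492) (nat_lit 639) (nat_lit 5) (nat_lit 654) (nat_lit 5) (nat_lit 640) (nat_lit 5) (nat_lit 417) (nat_lit 396) (nat_lit 387))))))))
noncomputable def xc35 : XT := (XT.nd (nat_lit 1794) (nat_lit 12768) (nat_lit 0) (XT.nd (nat_lit 858) (nat_lit 9956) (nat_lit 0) (XT.nd (nat_lit 390) (nat_lit 9424) (nat_lit 0) (XT.nd (nat_lit 156) (nat_lit 4256) (nat_lit 0) (XT.nd (nat_lit 78) (nat_lit 1216) (nat_lit 0) (XT.lf (nat_lit 0) (nat_lit 256899841) (nat_lit 1216) (nat_lit 3438936155) (nat_lit 76) (nat_lit 3128839269) (nat_lit 623) (nat_lit 5) (nat_lit 639) (nat_lit 5) (nat_lit 624) (nat_lit 5) (nat_lit 418) (nat_lit 396) (nat_lit 386)) (XT.lf (nat_lit 0) (nat_lit 3103826576) (nat_lit 1216) (nat_lit 1483384271) (nat_lit 1292) (nat_lit 2284636299) (nat_lit 607)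 (nat_lit 5) (nat_lit 623) (nat_lit 5) (nat_lit 624) (nat_lit 5) (nat_lit 419) (nat_lit 396) (nat_lit 385))) (XT.nd (nat_lit 78) (nat_lit 2888) (nat_lit 0) (XT.lf (nat_lit 0) (nat_lit 2008596687) (nat_lit 1368) (nat_lit 4049710711) (nat_lit 76) (nat_lit 863690172) (nat_lit 589) (nat_lit 5) (nat_lit 607) (nat_lit 5) (nat_lit 590) (nat_lit 5) (nat_lit 420) (nat_lit 396) (nat_lit 384)) (XT.nd (nat_lit 78) (nat_lit 1520) (nat_lit 0) (XT.lf (nat_lit 0) (nat_lit 2683397547) (nat_lit 1368) (nat_lit 3634509121) (nat_lit 1444) (nat_lit 657106061) (nat_lit 571) (nat_lit 5) (nat_lit 589) (nat_lit 5) (nat_lit 590) (nat_lit 5) (nat_lit 421) (nat_lit 396) (nat_lit 383)) (XT.lf (nat_lit 0) (nat_lit 2537195300) (nat_lit 1444) (nat_lit 1052282395) (nat_lit 1520) (nat_lit 3441454384) (nat_lit 551) (nat_lit 5) (nat_lit 570) (nat_lit 5) (nat_lit 571) (nat_lit 5) (nat_lit 422) (nat_lit 396) (nat_lit 382))))) (XT.nd (nat_lit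 234) (nat_lit 4484) (nat_lit 0) (XT.nd (nat_lit 78) (nat_lit 3344) (nat_lit 0) (XT.lf (nat_lit 0) (nat_lit 780423341) (nat_lit 1596) (nat_lit 4653802977) (nat_lit 76) (nat_lit 1655615442) (nat_lit 530) (nat_lit 5) (nat_lit 551) (nat_lit 5) (nat_lit 531) (nat_lit 5) (nat_lit 423) (nat_lit 396) (nat_lit 381)) (XT.nd (nat_lit 78) (nat_lit 1748) (nat_lit 0) (XT.lf (nat_lit 0) (nat_lit 2368927092) (nat_lit 1596) (nat_lit 2639364398) (nat_lit 1672) (nat_lit 2143275673) (nat_lit 509) (nat_lit 5) (nat_lit 530) (nat_lit 5) (nat_lit 531) (nat_lit 5) (nat_lit 424) (nat_lit 396) (nat_lit 380)) (XT.lf (nat_lit 0) (nat_lit 2043566178) (nat_lit 1748) (nat_lit 4867235439) (nat_lit 76) (nat_lit 305610095) (nat_lit 486) (nat_lit 5) (nat_lit 509) (nat_lit 5) (nat_lit 487) (nat_lit 5) (nat_lit 425) (nat_lit 396) (nat_lit 379)))) (XT.nd (nat_lit 78) (nat_lit 2736) (nat_lit 0) (XT.lf (nat_lit 0) (nat_lit 2359000067) (nat_lit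 1748) (nat_lit 3911458058) (nat_lit 1824) (nat_lit 1013612138) (nat_lit 463) (nat_lit 5) (nat_lit 486) (nat_lit 5) (nat_lit 487) (nat_lit 5) (nat_lit 426) (nat_lit 396) (nat_lit 378)) (XT.nd (nat_lit 78) (nat_lit 988) (nat_lit 0) (XT.lf (nat_lit 0) (nat_lit 2408370177) (nat_lit 1672) (nat_lit 747775703) (nat_lit 1748) (nat_lit 4198637385) (nat_lit 440) (nat_lit 5) (nat_lit 462) (nat_lit 5) (nat_lit 463) (nat_lit 5) (nat_lit 427) (nat_lit 396) (nat_lit 377)) (XT.lf (nat_lit 0) (nat_lit 2493893564) (nat_lit 988) (nat_lit 4892066536) (nat_lit 1064) (nat_lit 42570380) (nat_lit 427) (nat_lit 5) (nat_lit 440) (nat_lit 5) (nat_lit 441) (nat_lit 5) (nat_lit 428) (nat_lit 396) (nat_lit 376)))))) (XT.nd (nat_lit 468) (nat_lit 4560) (nat_lit 0) (XT.nd (nat_lit 234) (nat_lit 2584) (nat_lit 0) (XT.nd (nat_lit 78) (nat_lit 1824) (nat_lit 0) (XT.lf (nat_lit 0) (nat_lit 2605289429) (nat_lit 912) (nat_lit 1517415721)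 (nat_lit 988) (nat_lit 3382452875) (nat_lit 414) (nat_lit 5) (nat_lit 426) (nat_lit 5) (nat_lit 427) (nat_lit 5) (nat_lit 429) (nat_lit 396) (nat_lit 375)) (XT.nd (nat_lit 78) (nat_lit 836) (nat_lit 0) (XT.lf (nat_lit 0) (nat_lit 768433630) (nat_lit 988) (nat_lit 4829390201) (nat_lit 76) (nat_lit 1987146574) (nat_lit 401) (nat_lit 5) (nat_lit 414) (nat_lit 5) (nat_lit 402) (nat_lit 5) (nat_lit 430) (nat_lit 396) (nat_lit 374)) (XT.lf (nat_lit 0) (nat_lit 2929302327) (nat_lit 836) (nat_lit 2020281719) (nat_lit 912) (nat_lit 2718131040) (nat_lit 390) (nat_lit 5) (nat_lit 401) (nat_lit 5) (nat_lit 402) (nat_lit 5) (nat_lit 431) (nat_lit 396) (nat_lit 373)))) (XT.nd (nat_lit 78) (nat_lit 1672) (nat_lit 0) (XT.lf (nat_lit 0) (nat_lit 1438666125) (nat_lit 912) (nat_lit 4616112126) (nat_lit 76) (nat_lit 1698883579) (nat_lit 378) (nat_lit 5) (nat_lit 390) (nat_lit 5) (nat_lit 379) (nat_lit 5) (nat_lit 432)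 (nat_lit 396) (nat_lit 372)) (XT.nd (nat_lit 78) (nat_lit 912) (nat_lit 0) (XT.lf (nat_lit 0) (nat_lit 3368227905) (nat_lit 760) (nat_lit 2275899455) (nat_lit 836) (nat_lit 2198499989) (nat_lit 368) (nat_lit 5) (nat_lit 378) (nat_lit 5) (nat_lit 379) (nat_lit 5) (nat_lit 433) (nat_lit 396) (nat_lit 371)) (XT.lf (nat_lit 0) (nat_lit 1975342168) (nat_lit 912) (nat_lit 4306645708) (nat_lit 76) (nat_lit 1652812984) (nat_lit 356) (nat_lit 5) (nat_lit 368) (nat_lit 5) (nat_lit 357) (nat_lit 5) (nat_lit 434) (nat_lit 396) (nat_lit 370))))) (XT.nd (nat_lit 234) (nat_lit 2280) (nat_lit 0) (XT.nd (nat_lit 78) (nat_lit 1520) (nat_lit 0) (XT.lf (nat_lit 0) (nat_lit 3910283453) (nat_lit 760) (nat_lit 2302430203) (nat_lit 836) (nat_lit 1817387776) (nat_lit 346) (nat_lit 5) (nat_lit 356) (nat_lit 5) (nat_lit 357) (nat_lit 5) (nat_lit 435) (nat_lit 396) (nat_lit 369)) (XT.nd (nat_lit 78) (nat_lit 684) (nat_lit 0)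 (XT.lf (nat_lit 0) (nat_lit 2384163385) (nat_lit 836) (nat_lit 3912798194) (nat_lit 76) (nat_lit 1831650089) (nat_lit 335) (nat_lit 5) (nat_lit 346) (nat_lit 5) (nat_lit 336) (nat_lit 5) (nat_lit 436) (nat_lit 396) (nat_lit 368)) (XT.lf (nat_lit 0) (nat_lit 4543981769) (nat_lit 684) (nat_lit 2116806308) (nat_lit 760) (nat_lit 1569589445) (nat_lit 326) (nat_lit 5) (nat_lit 335) (nat_lit 5) (nat_lit 336) (nat_lit 5) (nat_lit 437) (nat_lit 396) (nat_lit 367)))) (XT.nd (nat_lit 78) (nat_lit 1444) (nat_lit 0) (XT.lf (nat_lit 0) (nat_lit 2669905144) (nat_lit 836) (nat_lit 3446167041) (nat_lit 76) (nat_lit 2219279790) (nat_lit 315) (nat_lit 5) (nat_lit 326) (nat_lit 5) (nat_lit 316) (nat_lit 5) (nat_lit 438) (nat_lit 396) (nat_lit 366)) (XT.nd (nat_lit 78) (nat_lit 760) (nat_lit 0) (XT.lf (nat_lit 0) (nat_lit 5258028149) (nat_lit 684) (nat_lit 1734860312) (nat_lit 760) (nat_lit 1450840931) (nat_lit 306) (nat_lit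 5) (nat_lit 315) (nat_lit 5) (nat_lit 316) (nat_lit 5) (nat_lit 439) (nat_lit 396) (nat_lit 365)) (XT.lf (nat_lit 0) (nat_lit 2836438736) (nat_lit 760) (nat_lit 2918243139) (nat_lit 76) (nat_lit 2800631265) (nat_lit 296) (nat_lit 5) (nat_lit 306) (nat_lit 5) (nat_lit 297) (nat_lit 5) (nat_lit 440) (nat_lit 396) (nat_lit 364))))))) (XT.nd (nat_lit 936) (nat_lit 5092) (nat_lit 0) (XT.nd (nat_lit 468) (nat_lit 3800) (nat_lit 0) (XT.nd (nat_lit 234) (nat_lit 1900) (nat_lit 0) (XT.nd (nat_lit 78) (nat_lit 1368) (nat_lit 0) (XT.lf (nat_lit 0) (nat_lit 6041216253) (nat_lit 608) (nat_lit 1171448576) (nat_lit 684) (nat_lit 1457799738) (nat_lit 288) (nat_lit 5) (nat_lit 296) (nat_lit 5) (nat_lit 297) (nat_lit 5) (nat_lit 441) (nat_lit 396) (nat_lit 363)) (XT.nd (nat_lit 78) (nat_lit 608) (nat_lit 0) (XT.lf (nat_lit 0) (nat_lit 2886746950) (nat_lit 760) (nat_lit 2340515721) (nat_lit 76) (nat_lit 3561557754) (nat_lit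 278) (nat_lit 5) (nat_lit 288) (nat_lit 5) (nat_lit 279) (nat_lit 5) (nat_lit 442) (nat_lit 396) (nat_lit 362)) (XT.lf (nat_lit 0) (nat_lit 6882322005) (nat_lit 608) (nat_lit 440570283) (nat_lit 684) (nat_lit 1588032373) (nat_lit 270) (nat_lit 5) (nat_lit 278) (nat_lit 5) (nat_lit 279) (nat_lit 5) (nat_lit 443) (nat_lit 396) (nat_lit 361)))) (XT.nd (nat_lit 78) (nat_lit 1216) (nat_lit 0) (XT.lf (nat_lit 0) (nat_lit 2822933008) (nat_lit 684) (nat_lit 1724579853) (nat_lit 76) (nat_lit 4488720542) (nat_lit 261) (nat_lit 5) (nat_lit 270) (nat_lit 5) (nat_lit 262) (nat_lit 5) (nat_lit 444) (nat_lit 396) (nat_lit 360)) (XT.nd (nat_lit 78) (nat_lit 684) (nat_lit 0) (XT.lf (nat_lit 0) (nat_lit 7328363388) (nat_lit 608) (nat_lit 1398377361) (nat_lit 76) (nat_lit 438687389) (nat_lit 254) (nat_lit 5) (nat_lit 262) (nat_lit 5) (nat_lit 255) (nat_lit 5) (nat_lit 445) (nat_lit 396) (nat_lit 359)) (XT.lf (nat_lit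 0) (nat_lit 2646222825) (nat_lit 684) (nat_lit 1082247423) (nat_lit 76) (nat_lit 5569476295) (nat_lit 245) (nat_lit 5) (nat_lit 254) (nat_lit 5) (nat_lit 246) (nat_lit 5) (nat_lit 446) (nat_lit 396) (nat_lit 358))))) (XT.nd (nat_lit 234) (nat_lit 2128) (nat_lit 0) (XT.nd (nat_lit 78) (nat_lit 1140) (nat_lit 0) (XT.lf (nat_lit 0) (nat_lit 7231009100) (nat_lit 608) (nat_lit 751467791) (nat_lit 76) (nat_lit 1451891642) (nat_lit 238) (nat_lit 5) (nat_lit 246) (nat_lit 5) (nat_lit 239) (nat_lit 5) (nat_lit 447) (nat_lit 396) (nat_lit 357)) (XT.nd (nat_lit 78) (nat_lit 532) (nat_lit 0) (XT.lf (nat_lit 0) (nat_lit 2356960464) (nat_lit 608) (nat_lit 425662579) (nat_lit 76) (nat_lit 6791766897) (nat_lit 230) (nat_lit 5) (nat_lit 238) (nat_lit 5) (nat_lit 231) (nat_lit 5) (nat_lit 448) (nat_lit 396) (nat_lit 356)) (XT.lf (nat_lit 0) (nat_lit 7028051317) (nat_lit 608) (nat_lit 97329806) (nat_lit 76) (nat_lit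 2592870956) (nat_lit 223) (nat_lit 5) (nat_lit 231) (nat_lit 5) (nat_lit 224) (nat_lit 5) (nat_lit 449) (nat_lit 396) (nat_lit 355)))) (XT.nd (nat_lit 78) (nat_lit 1064) (nat_lit 0) (XT.lf (nat_lit 0) (nat_lit 235668168) (nat_lit 456) (nat_lit 1720458584) (nat_lit 532) (nat_lit 7909872877) (nat_lit 209) (nat_lit 5) (nat_lit 215) (nat_lit 5) (nat_lit 216) (nat_lit 5) (nat_lit 450) (nat_lit 396) (nat_lit 354)) (XT.nd (nat_lit 78) (nat_lit 532) (nat_lit 0) (XT.lf (nat_lit 0) (nat_lit 558525085) (nat_lit 532) (nat_lit 6163785605) (nat_lit 608) (nat_lit 3295181548) (nat_lit 202) (nat_lit 5) (nat_lit 209) (nat_lit 5) (nat_lit 210) (nat_lit 5) (nat_lit 451) (nat_lit 396) (nat_lit 353)) (XT.lf (nat_lit 0) (nat_lit 890979664) (nat_lit 456) (nat_lit 552475180) (nat_lit 532) (nat_lit 8729801129) (nat_lit 195) (nat_lit 5) (nat_lit 201) (nat_lit 5) (nat_lit 202) (nat_lit 5) (nat_lit 452) (nat_lit 396) (nat_lit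 352)))))) (XT.nd (nat_lit 468) (nat_lit 2356) (nat_lit 0) (XT.nd (nat_lit 234) (nat_lit 1292) (nat_lit 0) (XT.nd (nat_lit 78) (nat_lit 988) (nat_lit 0) (XT.lf (nat_lit 0) (nat_lit 1196323475) (nat_lit 456) (nat_lit 5112636123) (nat_lit 532) (nat_lit 4023715785) (nat_lit 189) (nat_lit 5) (nat_lit 195) (nat_lit 5) (nat_lit 196) (nat_lit 5) (nat_lit 453) (nat_lit 396) (nat_lit 351)) (XT.nd (nat_lit 78) (nat_lit 456) (nat_lit 0) (XT.lf (nat_lit 0) (nat_lit 818242936) (nat_lit 532) (nat_lit 8980813000) (nat_lit 76) (nat_lit 697612220) (nat_lit 182) (nat_lit 5) (nat_lit 189) (nat_lit 5) (nat_lit 183) (nat_lit 5) (nat_lit 454) (nat_lit 396) (nat_lit 350)) (XT.lf (nat_lit 0) (nat_lit 1800303659) (nat_lit 456) (nat_lit 3984303869) (nat_lit 532) (nat_lit 4879772317) (nat_lit 176) (nat_lit 5) (nat_lit 182) (nat_lit 5) (nat_lit 183) (nat_lit 5) (nat_lit 455) (nat_lit 396) (nat_lit 349)))) (XT.nd (nat_lit 78) (nat_lit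 836) (nat_lit 0) (XT.lf (nat_lit 0) (nat_lit 76538426) (nat_lit 456) (nat_lit 8740993247) (nat_lit 76) (nat_lit 2019299588) (nat_lit 170) (nat_lit 5) (nat_lit 176) (nat_lit 5) (nat_lit 171) (nat_lit 5) (nat_lit 456) (nat_lit 396) (nat_lit 348)) (XT.nd (nat_lit 78) (nat_lit 380) (nat_lit 0) (XT.lf (nat_lit 0) (nat_lit 2355045413) (nat_lit 456) (nat_lit 2790474557) (nat_lit 532) (nat_lit 5867692358) (nat_lit 164) (nat_lit 5) (nat_lit 170) (nat_lit 5) (nat_lit 171) (nat_lit 5) (nat_lit 457) (nat_lit 396) (nat_lit 347)) (XT.lf (nat_lit 0) (nat_lit 2613384857) (nat_lit 380) (nat_lit 7780650884) (nat_lit 456) (nat_lit 800306375) (nat_lit 159) (nat_lit 5) (nat_lit 164) (nat_lit 5) (nat_lit 165) (nat_lit 5) (nat_lit 458) (nat_lit 396) (nat_lit 346))))) (XT.nd (nat_lit 234) (nat_lit 1064) (nat_lit 0) (XT.nd (nat_lit 78) (nat_lit 836) (nat_lit 0) (XT.lf (nat_lit 0) (nat_lit 2844014413) (nat_lit 380) (nat_lit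 1542916287) (nat_lit 456) (nat_lit 6992891793) (nat_lit 153) (nat_lit 5) (nat_lit 158) (nat_lit 5) (nat_lit 159) (nat_lit 5) (nat_lit 459) (nat_lit 396) (nat_lit 345)) (XT.nd (nat_lit 78) (nat_lit 456) (nat_lit 0) (XT.lf (nat_lit 0) (nat_lit 3055309973) (nat_lit 380) (nat_lit 6704458164) (nat_lit 456) (nat_lit 1810182305) (nat_lit 148) (nat_lit 5) (nat_lit 153) (nat_lit 5) (nat_lit 154) (nat_lit 5) (nat_lit 460) (nat_lit 396) (nat_lit 344)) (XT.lf (nat_lit 0) (nat_lit 3249387408) (nat_lit 380) (nat_lit 253597926) (nat_lit 456) (nat_lit 8261919618) (nat_lit 142) (nat_lit 5) (nat_lit 147) (nat_lit 5) (nat_lit 148) (nat_lit 5) (nat_lit 461) (nat_lit 396) (nat_lit 343)))) (XT.nd (nat_lit 78) (nat_lit 760) (nat_lit 0) (XT.lf (nat_lit 0) (nat_lit 3403606686) (nat_lit 304) (nat_lit 5601840978) (nat_lit 380) (nat_lit 2958936889) (nat_lit 138) (nat_lit 5) (nat_lit 142) (nat_lit 5) (nat_lit 143) (nat_lit 5)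 (nat_lit 462) (nat_lit 396) (nat_lit 342)) (XT.nd (nat_lit 78) (nat_lit 304) (nat_lit 0) (XT.lf (nat_lit 0) (nat_lit 2493591105) (nat_lit 456) (nat_lit 8624254382) (nat_lit 76) (nat_lit 1051217672) (nat_lit 132) (nat_lit 5) (nat_lit 138) (nat_lit 5) (nat_lit 133) (nat_lit 5) (nat_lit 463) (nat_lit 396) (nat_lit 341)) (XT.lf (nat_lit 0) (nat_lit 3638173230) (nat_lit 304) (nat_lit 4485578395) (nat_lit 380) (nat_lit 4254659383) (nat_lit 128) (nat_lit 5) (nat_lit 132) (nat_lit 5) (nat_lit 133) (nat_lit 5) (nat_lit 464) (nat_lit 396) (nat_lit 340))))))))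
noncomputable def xc36 : XT := (XT.nd (nat_lit 1794) (nat_lit 304) (nat_lit 0) (XT.nd (nat_lit 858) (nat_lit 2660) (nat_lit 0) (XT.nd (nat_lit 390) (nat_lit 1748) (nat_lit 0) (XT.nd (nat_lit 156) (nat_lit 988) (nat_lit 0) (XT.nd (nat_lit 78) (nat_lit 304) (nat_lit 0) (XT.lf (nat_lit 0) (nat_lit 1345347738) (nat_lit 380) (nat_lit 8878634136) (nat_lit 76) (nat_lit 2369209872) (nat_lit 123) (nat_lit 5) (nat_lit 128) (nat_lit 5) (nat_lit 124) (nat_lit 5) (nat_lit 465) (nat_lit 396) (nat_lit 339)) (XT.lf (nat_lit 0) (nat_lit 3737112294) (nat_lit 304) (nat_lit 3368987081) (nat_lit 380) (nat_lit 5706747901) (nat_lit 119) (nat_lit 5) (nat_lit 123) (nat_lit 5) (nat_lit 124) (nat_lit 5) (nat_lit 466) (nat_lit 396) (nat_lit 338))) (XT.nd (nat_lit 78) (nat_lit 608) (nat_lit 0) (XT.lf (nat_lit 0) (nat_lit 46964156) (nat_lit 380) (nat_lit 9300659529) (nat_lit 76) (nat_lit 3690545468) (nat_lit 114) (nat_lit 5) (nat_lit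 119) (nat_lit 5) (nat_lit 115) (nat_lit 5) (nat_lit 467) (nat_lit 396) (nat_lit 337)) (XT.nd (nat_lit 78) (nat_lit 304) (nat_lit 0) (XT.lf (nat_lit 0) (nat_lit 3676497736) (nat_lit 304) (nat_lit 2266061299) (nat_lit 380) (nat_lit 7326005581) (nat_lit 110) (nat_lit 5) (nat_lit 114) (nat_lit 5) (nat_lit 115) (nat_lit 5) (nat_lit 468) (nat_lit 396) (nat_lit 336)) (XT.lf (nat_lit 0) (nat_lit 3579235475) (nat_lit 304) (nat_lit 8494074663) (nat_lit 380) (nat_lit 1431400346) (nat_lit 106) (nat_lit 5) (nat_lit 110) (nat_lit 5) (nat_lit 111) (nat_lit 5) (nat_lit 469) (nat_lit 396) (nat_lit 335))))) (XT.nd (nat_lit 234) (nat_lit 836) (nat_lit 0) (XT.nd (nat_lit 78) (nat_lit 608) (nat_lit 0) (XT.lf (nat_lit 0) (nat_lit 3430119798) (nat_lit 228) (nat_lit 1191621828) (nat_lit 304) (nat_lit 9124749607) (nat_lit 102) (nat_lit 5) (nat_lit 105) (nat_lit 5) (nat_lit 106) (nat_lit 5) (nat_lit 470) (nat_lit 396) (nat_lit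 334)) (XT.nd (nat_lit 78) (nat_lit 304) (nat_lit 0) (XT.lf (nat_lit 0) (nat_lit 3220371568) (nat_lit 304) (nat_lit 7687049415) (nat_lit 380) (nat_lit 3086511368) (nat_lit 98) (nat_lit 5) (nat_lit 102) (nat_lit 5) (nat_lit 103) (nat_lit 5) (nat_lit 471) (nat_lit 396) (nat_lit 333)) (XT.lf (nat_lit 0) (nat_lit 2969206386) (nat_lit 228) (nat_lit 161475166) (nat_lit 304) (nat_lit 11116934211) (nat_lit 94) (nat_lit 5) (nat_lit 97) (nat_lit 5) (nat_lit 98) (nat_lit 5) (nat_lit 472) (nat_lit 396) (nat_lit 332)))) (XT.nd (nat_lit 78) (nat_lit 532) (nat_lit 0) (XT.lf (nat_lit 0) (nat_lit 2631073358) (nat_lit 304) (nat_lit 6943583535) (nat_lit 380) (nat_lit 4932204422) (nat_lit 90) (nat_lit 5) (nat_lit 94) (nat_lit 5) (nat_lit 95) (nat_lit 5) (nat_lit 473) (nat_lit 396) (nat_lit 331)) (XT.nd (nat_lit 78) (nat_lit 228) (nat_lit 0) (XT.lf (nat_lit 0) (nat_lit 1459944479) (nat_lit 304) (nat_lit 12516115699) (nat_lit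 76) (nat_lit 796826065) (nat_lit 86) (nat_lit 5) (nat_lit 90) (nat_lit 5) (nat_lit 87) (nat_lit 5) (nat_lit 474) (nat_lit 396) (nat_lit 330)) (XT.lf (nat_lit 0) (nat_lit 1778147857) (nat_lit 228) (nat_lit 6281663692) (nat_lit 304) (nat_lit 6984772474) (nat_lit 83) (nat_lit 5) (nat_lit 86) (nat_lit 5) (nat_lit 87) (nat_lit 5) (nat_lit 475) (nat_lit 396) (nat_lit 329)))))) (XT.nd (nat_lit 468) (nat_lit 1292) (nat_lit 0) (XT.nd (nat_lit 234) (nat_lit 836) (nat_lit 0) (XT.nd (nat_lit 78) (nat_lit 304) (nat_lit 0) (XT.lf (nat_lit 0) (nat_lit 1260011478) (nat_lit 228) (nat_lit 13646262782) (nat_lit 304) (nat_lit 417189784) (nat_lit 80) (nat_lit 5) (nat_lit 83) (nat_lit 5) (nat_lit 84) (nat_lit 5) (nat_lit 476) (nat_lit 396) (nat_lit 328)) (XT.nd (nat_lit 78) (nat_lit 0) (nat_lit 0) (XT.lf (nat_lit 0) (nat_lit 625017827) (nat_lit 228) (nat_lit 5720734950) (nat_lit 304) (nat_lit 9262504999) (nat_lit 76) (nat_lit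 5) (nat_lit 79) (nat_lit 5) (nat_lit 80) (nat_lit 5) (nat_lit 477) (nat_lit 396) (nat_lit 327)) (XT.lf (nat_lit 0) (nat_lit 13363504114) (nat_lit 304) (nat_lit 65922206) (nat_lit 76) (nat_lit 2470965128) (nat_lit 76) (nat_lit 5) (nat_lit 80) (nat_lit 5) (nat_lit 77) (nat_lit 5) (nat_lit 478) (nat_lit 396) (nat_lit 326)))) (XT.nd (nat_lit 78) (nat_lit 532) (nat_lit 0) (XT.lf (nat_lit 0) (nat_lit 4418885184) (nat_lit 304) (nat_lit 857271166) (nat_lit 76) (nat_lit 10922846193) (nat_lit 72) (nat_lit 5) (nat_lit 76) (nat_lit 5) (nat_lit 73) (nat_lit 5) (nat_lit 479) (nat_lit 396) (nat_lit 325)) (XT.nd (nat_lit 78) (nat_lit 304) (nat_lit 0) (XT.lf (nat_lit 0) (nat_lit 11614284035) (nat_lit 304) (nat_lit 1733214015) (nat_lit 76) (nat_lit 3157432974) (nat_lit 69) (nat_lit 5) (nat_lit 73) (nat_lit 5) (nat_lit 70) (nat_lit 5) (nat_lit 480) (nat_lit 396) (nat_lit 324)) (XT.lf (nat_lit 0) (nat_lit 2258591035)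 (nat_lit 304) (nat_lit 2711405092) (nat_lit 76) (nat_lit 11848117341) (nat_lit 65) (nat_lit 5) (nat_lit 69) (nat_lit 5) (nat_lit 66) (nat_lit 5) (nat_lit 481) (nat_lit 396) (nat_lit 323))))) (XT.nd (nat_lit 234) (nat_lit 608) (nat_lit 0) (XT.nd (nat_lit 78) (nat_lit 456) (nat_lit 0) (XT.lf (nat_lit 0) (nat_lit 9628416555) (nat_lit 304) (nat_lit 3804584305) (nat_lit 76) (nat_lit 3705595485) (nat_lit 62) (nat_lit 5) (nat_lit 66) (nat_lit 5) (nat_lit 63) (nat_lit 5) (nat_lit 482) (nat_lit 396) (nat_lit 322)) (XT.nd (nat_lit 78) (nat_lit 304) (nat_lit 0) (XT.lf (nat_lit 0) (nat_lit 12471834470) (nat_lit 152) (nat_lit 4830119252) (nat_lit 228) (nat_lit 165090177) (nat_lit 60) (nat_lit 5) (nat_lit 62) (nat_lit 5) (nat_lit 63) (nat_lit 5) (nat_lit 483) (nat_lit 396) (nat_lit 321)) (XT.lf (nat_lit 0) (nat_lit 7381297071) (nat_lit 304) (nat_lit 6331076494) (nat_lit 76) (nat_lit 4090452726) (nat_lit 56) (nat_lit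 5) (nat_lit 60) (nat_lit 5) (nat_lit 57) (nat_lit 5) (nat_lit 484) (nat_lit 396) (nat_lit 320)))) (XT.nd (nat_lit 78) (nat_lit 456) (nat_lit 0) (XT.lf (nat_lit 0) (nat_lit 10368938911) (nat_lit 152) (nat_lit 4867726450) (nat_lit 228) (nat_lit 2910300658) (nat_lit 54) (nat_lit 5) (nat_lit 56) (nat_lit 5) (nat_lit 57) (nat_lit 5) (nat_lit 485) (nat_lit 396) (nat_lit 319)) (XT.nd (nat_lit 78) (nat_lit 152) (nat_lit 0) (XT.lf (nat_lit 0) (nat_lit 4845479752) (nat_lit 304) (nat_lit 9369114464) (nat_lit 76) (nat_lit 4284560995) (nat_lit 50) (nat_lit 5) (nat_lit 54) (nat_lit 5) (nat_lit 51) (nat_lit 5) (nat_lit 486) (nat_lit 396) (nat_lit 318)) (XT.lf (nat_lit 0) (nat_lit 7755236961) (nat_lit 152) (nat_lit 5127636902) (nat_lit 228) (nat_lit 5976884037) (nat_lit 48) (nat_lit 5) (nat_lit 50) (nat_lit 5) (nat_lit 51) (nat_lit 5) (nat_lit 487) (nat_lit 396) (nat_lit 317))))))) (XT.nd (nat_lit 56862) (nat_lit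 0) (nat_lit 30096) (XT.nd (nat_lit 56394) (nat_lit 0) (nat_lit 47348) (XT.nd (nat_lit 56160) (nat_lit 0) (nat_lit 51452) (XT.nd (nat_lit 56082) (nat_lit 0) (nat_lit 52972) (XT.lf (nat_lit 0) (nat_lit 1990396503) (nat_lit 304) (nat_lit 12981088865) (nat_lit 76) (nat_lit 4257734706) (nat_lit 44) (nat_lit 5) (nat_lit 48) (nat_lit 5) (nat_lit 45) (nat_lit 5) (nat_lit 488) (nat_lit 396) (nat_lit 316)) (XT.lf (nat_lit 0) (nat_lit 1136226680) (nat_lit 380) (nat_lit 967844561) (nat_lit 0) (nat_lit 1136226680) (nat_lit 741) (nat_lit 5) (nat_lit 746) (nat_lit 4) (nat_lit 741) (nat_lit 4) (nat_lit 406) (nat_lit 397) (nat_lit 397))) (XT.nd (nat_lit 78) (nat_lit 1064) (nat_lit 0) (XT.lf (nat_lit 0) (nat_lit 529257156) (nat_lit 456) (nat_lit 2995327956) (nat_lit 76) (nat_lit 2970294199) (nat_lit 735) (nat_lit 5) (nat_lit 741) (nat_lit 5) (nat_lit 736) (nat_lit 4) (nat_lit 407) (nat_lit 397) (nat_lit 396)) (XT.nd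 (nat_lit 78) (nat_lit 608) (nat_lit 0) (XT.lf (nat_lit 0) (nat_lit 2510644724) (nat_lit 456) (nat_lit 2697829616) (nat_lit 532) (nat_lit 1303471111) (nat_lit 729) (nat_lit 5) (nat_lit 735) (nat_lit 5) (nat_lit 736) (nat_lit 4) (nat_lit 408) (nat_lit 397) (nat_lit 395)) (XT.lf (nat_lit 0) (nat_lit 1581975368) (nat_lit 532) (nat_lit 1731603881) (nat_lit 608) (nat_lit 3218317187) (nat_lit 721) (nat_lit 5) (nat_lit 728) (nat_lit 5) (nat_lit 729) (nat_lit 5) (nat_lit 409) (nat_lit 397) (nat_lit 394))))) (XT.nd (nat_lit 234) (nat_lit 2660) (nat_lit 0) (XT.nd (nat_lit 78) (nat_lit 760) (nat_lit 0) (XT.lf (nat_lit 0) (nat_lit 716355773) (nat_lit 608) (nat_lit 628450577) (nat_lit 684) (nat_lit 5210009758) (nat_lit 712) (nat_lit 5) (nat_lit 720) (nat_lit 5) (nat_lit 721) (nat_lit 5) (nat_lit 410) (nat_lit 397) (nat_lit 393)) (XT.nd (nat_lit 78) (nat_lit 760) (nat_lit 0) (XT.lf (nat_lit 0) (nat_lit 5876234600)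 (nat_lit 684) (nat_lit 94359421) (nat_lit 76) (nat_lit 609943259) (nat_lit 712) (nat_lit 5) (nat_lit 721) (nat_lit 5) (nat_lit 713) (nat_lit 5) (nat_lit 411) (nat_lit 397) (nat_lit 392)) (XT.lf (nat_lit 0) (nat_lit 3768451682) (nat_lit 760) (nat_lit 849124636) (nat_lit 76) (nat_lit 1991312546) (nat_lit 702) (nat_lit 5) (nat_lit 712) (nat_lit 5) (nat_lit 703) (nat_lit 5) (nat_lit 412) (nat_lit 397) (nat_lit 391)))) (XT.nd (nat_lit 78) (nat_lit 1824) (nat_lit 0) (XT.lf (nat_lit 0) (nat_lit 1583556727) (nat_lit 836) (nat_lit 1544905524) (nat_lit 76) (nat_lit 3511781487) (nat_lit 691) (nat_lit 5) (nat_lit 702) (nat_lit 5) (nat_lit 692) (nat_lit 5) (nat_lit 413) (nat_lit 397) (nat_lit 390)) (XT.nd (nat_lit 78) (nat_lit 988) (nat_lit 0) (XT.lf (nat_lit 0) (nat_lit 4487861397) (nat_lit 836) (nat_lit 1497123939) (nat_lit 912) (nat_lit 689549324) (nat_lit 680) (nat_lit 5) (nat_lit 691) (nat_lit 5) (nat_lit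 692) (nat_lit 5) (nat_lit 414) (nat_lit 397) (nat_lit 389)) (XT.lf (nat_lit 0) (nat_lit 3647420363) (nat_lit 988) (nat_lit 2783184520) (nat_lit 76) (nat_lit 281014730) (nat_lit 667) (nat_lit 5) (nat_lit 680) (nat_lit 5) (nat_lit 668) (nat_lit 5) (nat_lit 415) (nat_lit 397) (nat_lit 388)))))) (XT.nd (nat_lit 468) (nat_lit 9880) (nat_lit 0) (XT.nd (nat_lit 234) (nat_lit 4028) (nat_lit 0) (XT.nd (nat_lit 78) (nat_lit 2280) (nat_lit 0) (XT.lf (nat_lit 0) (nat_lit 1238927250) (nat_lit 1064) (nat_lit 3333197674) (nat_lit 76) (nat_lit 2179432585) (nat_lit 653) (nat_lit 5) (nat_lit 667) (nat_lit 5) (nat_lit 654) (nat_lit 5) (nat_lit 416) (nat_lit 397) (nat_lit 387)) (XT.nd (nat_lit 78) (nat_lit 1216) (nat_lit 0) (XT.lf (nat_lit 0) (nat_lit 2958837299) (nat_lit 1064) (nat_lit 2566415241) (nat_lit 1140) (nat_lit 1269153765) (nat_lit 639) (nat_lit 5) (nat_lit 653) (nat_lit 5) (nat_lit 654) (nat_lit 5) (nat_lit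 417) (nat_lit 397) (nat_lit 386)) (XT.lf (nat_lit 0) (nat_lit 2549140150) (nat_lit 1140) (nat_lit 410891666) (nat_lit 1216) (nat_lit 3880155316) (nat_lit 623) (nat_lit 5) (nat_lit 638) (nat_lit 5) (nat_lit 639) (nat_lit 5) (nat_lit 418) (nat_lit 397) (nat_lit 385)))) (XT.nd (nat_lit 78) (nat_lit 2736) (nat_lit 0) (XT.lf (nat_lit 0) (nat_lit 321244550) (nat_lit 1292) (nat_lit 4703974503) (nat_lit 76) (nat_lit 1863631243) (nat_lit 606) (nat_lit 5) (nat_lit 623) (nat_lit 5) (nat_lit 607) (nat_lit 5) (nat_lit 419) (nat_lit 397) (nat_lit 384)) (XT.nd (nat_lit 78) (nat_lit 1444) (nat_lit 0) (XT.lf (nat_lit 0) (nat_lit 1858600914) (nat_lit 1292) (nat_lit 2647453480) (nat_lit 1368) (nat_lit 2434232960) (nat_lit 589) (nat_lit 5) (nat_lit 606) (nat_lit 5) (nat_lit 607) (nat_lit 5) (nat_lit 420) (nat_lit 397) (nat_lit 383)) (XT.lf (nat_lit 0) (nat_lit 1586302122) (nat_lit 1368) (nat_lit 123311201) (nat_lit 1444)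 (nat_lit 5285237054) (nat_lit 570) (nat_lit 5) (nat_lit 588) (nat_lit 5) (nat_lit 589) (nat_lit 5) (nat_lit 421) (nat_lit 397) (nat_lit 382))))) (XT.nd (nat_lit 234) (nat_lit 5244) (nat_lit 0) (XT.nd (nat_lit 78) (nat_lit 3192) (nat_lit 0) (XT.lf (nat_lit 0) (nat_lit 1345417856) (nat_lit 1444) (nat_lit 4530196337) (nat_lit 1520) (nat_lit 1176522539) (nat_lit 551) (nat_lit 5) (nat_lit 570) (nat_lit 5) (nat_lit 571) (nat_lit 5) (nat_lit 422) (nat_lit 397) (nat_lit 381)) (XT.nd (nat_lit 78) (nat_lit 1596) (nat_lit 0) (XT.lf (nat_lit 0) (nat_lit 1146721046) (nat_lit 1520) (nat_lit 1787235941) (nat_lit 1596) (nat_lit 4178441591) (nat_lit 530) (nat_lit 5) (nat_lit 550) (nat_lit 5) (nat_lit 551) (nat_lit 5) (nat_lit 423) (nat_lit 397) (nat_lit 380)) (XT.lf (nat_lit 0) (nat_lit 994580471) (nat_lit 1596) (nat_lit 6085860085) (nat_lit 1672) (nat_lit 95323162) (nat_lit 509) (nat_lit 5) (nat_lit 530) (nat_lit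 5) (nat_lit 531) (nat_lit 5) (nat_lit 424) (nat_lit 397) (nat_lit 379)))) (XT.nd (nat_lit 78) (nat_lit 3496) (nat_lit 0) (XT.lf (nat_lit 0) (nat_lit 863932462) (nat_lit 1672) (nat_lit 3129211703) (nat_lit 1748) (nat_lit 3248639941) (nat_lit 486) (nat_lit 5) (nat_lit 508) (nat_lit 5) (nat_lit 509) (nat_lit 5) (nat_lit 425) (nat_lit 397) (nat_lit 378)) (XT.nd (nat_lit 78) (nat_lit 1672) (nat_lit 0) (XT.lf (nat_lit 0) (nat_lit 786322936) (nat_lit 1748) (nat_lit 22945256) (nat_lit 1824) (nat_lit 6501854789) (nat_lit 462) (nat_lit 5) (nat_lit 485) (nat_lit 5) (nat_lit 486) (nat_lit 5) (nat_lit 426) (nat_lit 397) (nat_lit 377)) (XT.lf (nat_lit 0) (nat_lit 724011998) (nat_lit 1672) (nat_lit 4173149502) (nat_lit 1748) (nat_lit 2485924880) (nat_lit 440) (nat_lit 5) (nat_lit 462) (nat_lit 5) (nat_lit 463) (nat_lit 5) (nat_lit 427) (nat_lit 397) (nat_lit 376))))))))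
noncomputable def xc37 : XT := (XT.nd (nat_lit 1794) (nat_lit 9500) (nat_lit 0) (XT.nd (nat_lit 858) (nat_lit 7600) (nat_lit 0) (XT.nd (nat_lit 390) (nat_lit 4788) (nat_lit 0) (XT.nd (nat_lit 156) (nat_lit 2736) (nat_lit 0) (XT.nd (nat_lit 78) (nat_lit 912) (nat_lit 0) (XT.lf (nat_lit 0) (nat_lit 707804504) (nat_lit 988) (nat_lit 855486943) (nat_lit 1064) (nat_lit 5895034289) (nat_lit 426) (nat_lit 5) (nat_lit 439) (nat_lit 5) (nat_lit 440) (nat_lit 5) (nat_lit 428) (nat_lit 397) (nat_lit 375)) (XT.lf (nat_lit 0) (nat_lit 713709106) (nat_lit 912) (nat_lit 4941202679) (nat_lit 988) (nat_lit 1881507699) (nat_lit 414) (nat_lit 5) (nat_lit 426) (nat_lit 5) (nat_lit 427) (nat_lit 5) (nat_lit 429) (nat_lit 397) (nat_lit 374))) (XT.nd (nat_lit 78) (nat_lit 1748) (nat_lit 0) (XT.lf (nat_lit 0) (nat_lit 753914668) (nat_lit 912) (nat_lit 1415245560) (nat_lit 988) (nat_lit 5448496722) (nat_lit 401) (nat_lit 5)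 (nat_lit 413) (nat_lit 5) (nat_lit 414) (nat_lit 5) (nat_lit 430) (nat_lit 397) (nat_lit 373)) (XT.nd (nat_lit 78) (nat_lit 912) (nat_lit 0) (XT.lf (nat_lit 0) (nat_lit 820341983) (nat_lit 836) (nat_lit 5453923512) (nat_lit 912) (nat_lit 1427666088) (nat_lit 390) (nat_lit 5) (nat_lit 401) (nat_lit 5) (nat_lit 402) (nat_lit 5) (nat_lit 431) (nat_lit 397) (nat_lit 372)) (XT.lf (nat_lit 0) (nat_lit 912127559) (nat_lit 836) (nat_lit 1722052387) (nat_lit 912) (nat_lit 5155099953) (nat_lit 378) (nat_lit 5) (nat_lit 389) (nat_lit 5) (nat_lit 390) (nat_lit 5) (nat_lit 432) (nat_lit 397) (nat_lit 371))))) (XT.nd (nat_lit 234) (nat_lit 2356) (nat_lit 0) (XT.nd (nat_lit 78) (nat_lit 1672) (nat_lit 0) (XT.lf (nat_lit 0) (nat_lit 1031694455) (nat_lit 760) (nat_lit 5730410791) (nat_lit 836) (nat_lit 1117699253) (nat_lit 368) (nat_lit 5) (nat_lit 378) (nat_lit 5) (nat_lit 379) (nat_lit 5) (nat_lit 433) (nat_lit 397)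 (nat_lit 370)) (XT.nd (nat_lit 78) (nat_lit 760) (nat_lit 0) (XT.lf (nat_lit 0) (nat_lit 1170339866) (nat_lit 836) (nat_lit 1794333147) (nat_lit 912) (nat_lit 5008718512) (nat_lit 356) (nat_lit 5) (nat_lit 367) (nat_lit 5) (nat_lit 368) (nat_lit 5) (nat_lit 434) (nat_lit 397) (nat_lit 369)) (XT.lf (nat_lit 0) (nat_lit 1335914060) (nat_lit 760) (nat_lit 5788449346) (nat_lit 836) (nat_lit 945890041) (nat_lit 346) (nat_lit 5) (nat_lit 356) (nat_lit 5) (nat_lit 357) (nat_lit 5) (nat_lit 435) (nat_lit 397) (nat_lit 368)))) (XT.nd (nat_lit 78) (nat_lit 1520) (nat_lit 0) (XT.lf (nat_lit 0) (nat_lit 1516768635) (nat_lit 760) (nat_lit 1649244751) (nat_lit 836) (nat_lit 5004208844) (nat_lit 335) (nat_lit 5) (nat_lit 345) (nat_lit 5) (nat_lit 346) (nat_lit 5) (nat_lit 436) (nat_lit 397) (nat_lit 367)) (XT.nd (nat_lit 78) (nat_lit 836) (nat_lit 0) (XT.lf (nat_lit 0) (nat_lit 1721410509) (nat_lit 684) (nat_lit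 5644642488) (nat_lit 760) (nat_lit 907473929) (nat_lit 326) (nat_lit 5) (nat_lit 335) (nat_lit 5) (nat_lit 336) (nat_lit 5) (nat_lit 437) (nat_lit 397) (nat_lit 366)) (XT.lf (nat_lit 0) (nat_lit 1939849109) (nat_lit 760) (nat_lit 1302805324) (nat_lit 836) (nat_lit 5137381415) (nat_lit 315) (nat_lit 5) (nat_lit 325) (nat_lit 5) (nat_lit 326) (nat_lit 5) (nat_lit 438) (nat_lit 397) (nat_lit 365)))))) (XT.nd (nat_lit 468) (nat_lit 3496) (nat_lit 0) (XT.nd (nat_lit 234) (nat_lit 2052) (nat_lit 0) (XT.nd (nat_lit 78) (nat_lit 1368) (nat_lit 0) (XT.lf (nat_lit 0) (nat_lit 2176753734) (nat_lit 684) (nat_lit 5314538300) (nat_lit 760) (nat_lit 998614745) (nat_lit 306) (nat_lit 5) (nat_lit 315) (nat_lit 5) (nat_lit 316) (nat_lit 5) (nat_lit 439) (nat_lit 397) (nat_lit 364)) (XT.nd (nat_lit 78) (nat_lit 608) (nat_lit 0) (XT.lf (nat_lit 0) (nat_lit 2428131764) (nat_lit 684) (nat_lit 770018441) (nat_lit 760) (nat_lit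 5404979556) (nat_lit 296) (nat_lit 5) (nat_lit 305) (nat_lit 5) (nat_lit 306) (nat_lit 5) (nat_lit 440) (nat_lit 397) (nat_lit 363)) (XT.lf (nat_lit 0) (nat_lit 2690570669) (nat_lit 608) (nat_lit 4812750658) (nat_lit 684) (nat_lit 1216387058) (nat_lit 288) (nat_lit 5) (nat_lit 296) (nat_lit 5) (nat_lit 297) (nat_lit 5) (nat_lit 441) (nat_lit 397) (nat_lit 362)))) (XT.nd (nat_lit 78) (nat_lit 1292) (nat_lit 0) (XT.lf (nat_lit 0) (nat_lit 2970177708) (nat_lit 684) (nat_lit 64992433) (nat_lit 760) (nat_lit 5804665025) (nat_lit 278) (nat_lit 5) (nat_lit 287) (nat_lit 5) (nat_lit 288) (nat_lit 5) (nat_lit 442) (nat_lit 397) (nat_lit 361)) (XT.nd (nat_lit 78) (nat_lit 684) (nat_lit 0) (XT.lf (nat_lit 0) (nat_lit 3251439932) (nat_lit 608) (nat_lit 4153075869) (nat_lit 684) (nat_lit 1558765231) (nat_lit 270) (nat_lit 5) (nat_lit 278) (nat_lit 5) (nat_lit 279) (nat_lit 5) (nat_lit 443) (nat_lit 397) (nat_lit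 360)) (XT.lf (nat_lit 0) (nat_lit 2760694506) (nat_lit 684) (nat_lit 5541253237) (nat_lit 76) (nat_lit 788466031) (nat_lit 261) (nat_lit 5) (nat_lit 270) (nat_lit 5) (nat_lit 262) (nat_lit 5) (nat_lit 444) (nat_lit 397) (nat_lit 359))))) (XT.nd (nat_lit 234) (nat_lit 1748) (nat_lit 0) (XT.nd (nat_lit 78) (nat_lit 1216) (nat_lit 0) (XT.lf (nat_lit 0) (nat_lit 3847783494) (nat_lit 532) (nat_lit 3348605768) (nat_lit 608) (nat_lit 2024619168) (nat_lit 254) (nat_lit 5) (nat_lit 261) (nat_lit 5) (nat_lit 262) (nat_lit 5) (nat_lit 445) (nat_lit 397) (nat_lit 358)) (XT.nd (nat_lit 78) (nat_lit 532) (nat_lit 0) (XT.lf (nat_lit 0) (nat_lit 2371825611) (nat_lit 684) (nat_lit 5198112304) (nat_lit 76) (nat_lit 1785404284) (nat_lit 245) (nat_lit 5) (nat_lit 254) (nat_lit 5) (nat_lit 246) (nat_lit 5) (nat_lit 446) (nat_lit 397) (nat_lit 357)) (XT.lf (nat_lit 0) (nat_lit 4467754408) (nat_lit 532) (nat_lit 2411838132)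 (nat_lit 608) (nat_lit 2613716850) (nat_lit 238) (nat_lit 5) (nat_lit 245) (nat_lit 5) (nat_lit 246) (nat_lit 5) (nat_lit 447) (nat_lit 397) (nat_lit 356)))) (XT.nd (nat_lit 78) (nat_lit 1140) (nat_lit 0) (XT.lf (nat_lit 0) (nat_lit 1868100833) (nat_lit 608) (nat_lit 4852234424) (nat_lit 76) (nat_lit 2914731089) (nat_lit 230) (nat_lit 5) (nat_lit 238) (nat_lit 5) (nat_lit 231) (nat_lit 5) (nat_lit 448) (nat_lit 397) (nat_lit 355)) (XT.nd (nat_lit 78) (nat_lit 608) (nat_lit 0) (XT.lf (nat_lit 0) (nat_lit 5099119609) (nat_lit 532) (nat_lit 1354785252) (nat_lit 608) (nat_lit 3326733807) (nat_lit 223) (nat_lit 5) (nat_lit 230) (nat_lit 5) (nat_lit 231) (nat_lit 5) (nat_lit 449) (nat_lit 397) (nat_lit 354)) (XT.lf (nat_lit 0) (nat_lit 1248590202) (nat_lit 608) (nat_lit 4516523132) (nat_lit 76) (nat_lit 4164946809) (nat_lit 215) (nat_lit 5) (nat_lit 223) (nat_lit 5) (nat_lit 216) (nat_lit 5) (nat_lit 450)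 (nat_lit 397) (nat_lit 353))))))) (XT.nd (nat_lit 936) (nat_lit 3952) (nat_lit 0) (XT.nd (nat_lit 468) (nat_lit 2584) (nat_lit 0) (XT.nd (nat_lit 234) (nat_lit 1444) (nat_lit 0) (XT.nd (nat_lit 78) (nat_lit 1064) (nat_lit 0) (XT.lf (nat_lit 0) (nat_lit 5729136747) (nat_lit 456) (nat_lit 189081507) (nat_lit 532) (nat_lit 4165269727) (nat_lit 209) (nat_lit 5) (nat_lit 215) (nat_lit 5) (nat_lit 216) (nat_lit 5) (nat_lit 451) (nat_lit 397) (nat_lit 352)) (XT.nd (nat_lit 78) (nat_lit 456) (nat_lit 0) (XT.lf (nat_lit 0) (nat_lit 511454482) (nat_lit 608) (nat_lit 4204491017) (nat_lit 76) (nat_lit 5524889584) (nat_lit 201) (nat_lit 5) (nat_lit 209) (nat_lit 5) (nat_lit 202) (nat_lit 5) (nat_lit 452) (nat_lit 397) (nat_lit 351)) (XT.lf (nat_lit 0) (nat_lit 5277487253) (nat_lit 532) (nat_lit 4064935782) (nat_lit 76) (nat_lit 1059824695) (nat_lit 195) (nat_lit 5) (nat_lit 202) (nat_lit 5) (nat_lit 196) (nat_lit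 5) (nat_lit 453) (nat_lit 397) (nat_lit 350)))) (XT.nd (nat_lit 78) (nat_lit 988) (nat_lit 0) (XT.lf (nat_lit 0) (nat_lit 6635224322) (nat_lit 456) (nat_lit 3581990219) (nat_lit 532) (nat_lit 350681432) (nat_lit 189) (nat_lit 5) (nat_lit 195) (nat_lit 5) (nat_lit 196) (nat_lit 5) (nat_lit 454) (nat_lit 397) (nat_lit 349)) (XT.nd (nat_lit 78) (nat_lit 456) (nat_lit 0) (XT.lf (nat_lit 0) (nat_lit 4523567508) (nat_lit 532) (nat_lit 3822816078) (nat_lit 76) (nat_lit 2391207421) (nat_lit 182) (nat_lit 5) (nat_lit 189) (nat_lit 5) (nat_lit 183) (nat_lit 5) (nat_lit 455) (nat_lit 397) (nat_lit 348)) (XT.lf (nat_lit 0) (nat_lit 7193680619) (nat_lit 456) (nat_lit 2372702031) (nat_lit 532) (nat_lit 1345412737) (nat_lit 176) (nat_lit 5) (nat_lit 182) (nat_lit 5) (nat_lit 183) (nat_lit 5) (nat_lit 456) (nat_lit 397) (nat_lit 347))))) (XT.nd (nat_lit 234) (nat_lit 1216) (nat_lit 0) (XT.nd (nat_lit 78) (nat_lit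 912) (nat_lit 0) (XT.lf (nat_lit 0) (nat_lit 3651221914) (nat_lit 456) (nat_lit 3642388673) (nat_lit 76) (nat_lit 3796543661) (nat_lit 170) (nat_lit 5) (nat_lit 176) (nat_lit 5) (nat_lit 171) (nat_lit 5) (nat_lit 457) (nat_lit 397) (nat_lit 346)) (XT.nd (nat_lit 78) (nat_lit 456) (nat_lit 0) (XT.lf (nat_lit 0) (nat_lit 7699557977) (nat_lit 456) (nat_lit 1102906215) (nat_lit 532) (nat_lit 2470768462) (nat_lit 164) (nat_lit 5) (nat_lit 170) (nat_lit 5) (nat_lit 171) (nat_lit 5) (nat_lit 458) (nat_lit 397) (nat_lit 345)) (XT.lf (nat_lit 0) (nat_lit 2655415251) (nat_lit 456) (nat_lit 3540405430) (nat_lit 76) (nat_lit 5264771500) (nat_lit 158) (nat_lit 5) (nat_lit 164) (nat_lit 5) (nat_lit 159) (nat_lit 5) (nat_lit 459) (nat_lit 397) (nat_lit 344)))) (XT.nd (nat_lit 78) (nat_lit 836) (nat_lit 0) (XT.lf (nat_lit 0) (nat_lit 7921629212) (nat_lit 456) (nat_lit 3518188328) (nat_lit 76) (nat_lit 213037969) (nat_lit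 153) (nat_lit 5) (nat_lit 159) (nat_lit 5) (nat_lit 154) (nat_lit 5) (nat_lit 460) (nat_lit 397) (nat_lit 343)) (XT.nd (nat_lit 78) (nat_lit 380) (nat_lit 0) (XT.lf (nat_lit 0) (nat_lit 1530030191) (nat_lit 456) (nat_lit 3534918587) (nat_lit 76) (nat_lit 6784655584) (nat_lit 147) (nat_lit 5) (nat_lit 153) (nat_lit 5) (nat_lit 148) (nat_lit 5) (nat_lit 461) (nat_lit 397) (nat_lit 342)) (XT.lf (nat_lit 0) (nat_lit 6923549351) (nat_lit 456) (nat_lit 3576488310) (nat_lit 76) (nat_lit 1551227856) (nat_lit 142) (nat_lit 5) (nat_lit 148) (nat_lit 5) (nat_lit 143) (nat_lit 5) (nat_lit 462) (nat_lit 397) (nat_lit 341)))))) (XT.nd (nat_lit 468) (nat_lit 1824) (nat_lit 0) (XT.nd (nat_lit 234) (nat_lit 1064) (nat_lit 0) (XT.nd (nat_lit 78) (nat_lit 684) (nat_lit 0) (XT.lf (nat_lit 0) (nat_lit 267801397) (nat_lit 380) (nat_lit 3645467749) (nat_lit 76) (nat_lit 8344668248) (nat_lit 137) (nat_lit 5) (nat_lit 142)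 (nat_lit 5) (nat_lit 138) (nat_lit 5) (nat_lit 463) (nat_lit 397) (nat_lit 340)) (XT.nd (nat_lit 78) (nat_lit 304) (nat_lit 0) (XT.lf (nat_lit 0) (nat_lit 5793488342) (nat_lit 456) (nat_lit 3761758611) (nat_lit 76) (nat_lit 2914130246) (nat_lit 132) (nat_lit 5) (nat_lit 138) (nat_lit 5) (nat_lit 133) (nat_lit 5) (nat_lit 464) (nat_lit 397) (nat_lit 339)) (XT.lf (nat_lit 0) (nat_lit 8785456064) (nat_lit 304) (nat_lit 2745873899) (nat_lit 380) (nat_lit 1154907453) (nat_lit 128) (nat_lit 5) (nat_lit 132) (nat_lit 5) (nat_lit 133) (nat_lit 5) (nat_lit 465) (nat_lit 397) (nat_lit 338)))) (XT.nd (nat_lit 78) (nat_lit 684) (nat_lit 0) (XT.lf (nat_lit 0) (nat_lit 4522619584) (nat_lit 380) (nat_lit 4096145084) (nat_lit 76) (nat_lit 4289247969) (nat_lit 123) (nat_lit 5) (nat_lit 128) (nat_lit 5) (nat_lit 124) (nat_lit 5) (nat_lit 466) (nat_lit 397) (nat_lit 337)) (XT.nd (nat_lit 78) (nat_lit 380) (nat_lit 0)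 (XT.lf (nat_lit 0) (nat_lit 8816162178) (nat_lit 304) (nat_lit 1580913887) (nat_lit 380) (nat_lit 2738371014) (nat_lit 119) (nat_lit 5) (nat_lit 123) (nat_lit 5) (nat_lit 124) (nat_lit 5) (nat_lit 467) (nat_lit 397) (nat_lit 336)) (XT.lf (nat_lit 0) (nat_lit 3100772635) (nat_lit 380) (nat_lit 4603825341) (nat_lit 76) (nat_lit 5663449585) (nat_lit 114) (nat_lit 5) (nat_lit 119) (nat_lit 5) (nat_lit 115) (nat_lit 5) (nat_lit 468) (nat_lit 397) (nat_lit 335))))) (XT.nd (nat_lit 234) (nat_lit 912) (nat_lit 0) (XT.nd (nat_lit 78) (nat_lit 608) (nat_lit 0) (XT.lf (nat_lit 0) (nat_lit 8681919323) (nat_lit 304) (nat_lit 434193604) (nat_lit 380) (nat_lit 4490390778) (nat_lit 110) (nat_lit 5) (nat_lit 114) (nat_lit 5) (nat_lit 115) (nat_lit 5) (nat_lit 469) (nat_lit 397) (nat_lit 334)) (XT.nd (nat_lit 78) (nat_lit 228) (nat_lit 0) (XT.lf (nat_lit 0) (nat_lit 1516328072) (nat_lit 380) (nat_lit 5311260714) (nat_lit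 76) (nat_lit 7022825696) (nat_lit 105) (nat_lit 5) (nat_lit 110) (nat_lit 5) (nat_lit 106) (nat_lit 5) (nat_lit 470) (nat_lit 397) (nat_lit 333)) (XT.lf (nat_lit 0) (nat_lit 7680908690) (nat_lit 304) (nat_lit 5748884977) (nat_lit 76) (nat_lit 670485811) (nat_lit 102) (nat_lit 5) (nat_lit 106) (nat_lit 5) (nat_lit 103) (nat_lit 5) (nat_lit 471) (nat_lit 397) (nat_lit 332)))) (XT.nd (nat_lit 78) (nat_lit 608) (nat_lit 0) (XT.lf (nat_lit 0) (nat_lit 8106997531) (nat_lit 304) (nat_lit 6001934110) (nat_lit 380) (nat_lit 247142438) (nat_lit 98) (nat_lit 5) (nat_lit 102) (nat_lit 5) (nat_lit 103) (nat_lit 5) (nat_lit 472) (nat_lit 397) (nat_lit 331)) (XT.nd (nat_lit 78) (nat_lit 304) (nat_lit 0) (XT.lf (nat_lit 0) (nat_lit 6076000895) (nat_lit 304) (nat_lit 6820785898) (nat_lit 76) (nat_lit 1721048156) (nat_lit 94) (nat_lit 5) (nat_lit 98) (nat_lit 5) (nat_lit 95) (nat_lit 5) (nat_lit 473) (nat_lit 397) (nat_lit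 330)) (XT.lf (nat_lit 0) (nat_lit 7427109973) (nat_lit 304) (nat_lit 5234810045) (nat_lit 380) (nat_lit 2223970641) (nat_lit 90) (nat_lit 5) (nat_lit 94) (nat_lit 5) (nat_lit 95) (nat_lit 5) (nat_lit 474) (nat_lit 397) (nat_lit 329))))))))
noncomputable def xc38 : XT := (XT.nd (nat_lit 57642) (nat_lit 0) (nat_lit 23408) (XT.nd (nat_lit 858) (nat_lit 608) (nat_lit 0) (XT.nd (nat_lit 390) (nat_lit 1216) (nat_lit 0) (XT.nd (nat_lit 156) (nat_lit 836) (nat_lit 0) (XT.nd (nat_lit 78) (nat_lit 228) (nat_lit 0) (XT.lf (nat_lit 0) (nat_lit 4283158766) (nat_lit 304) (nat_lit 8170899573) (nat_lit 76) (nat_lit 2706258625) (nat_lit 86) (nat_lit 5) (nat_lit 90) (nat_lit 5) (nat_lit 87) (nat_lit 5) (nat_lit 475) (nat_lit 397) (nat_lit 328)) (XT.lf (nat_lit 0) (nat_lit 6475604147) (nat_lit 228) (nat_lit 4554616492) (nat_lit 304) (nat_lit 4410965941) (nat_lit 83) (nat_lit 5) (nat_lit 86) (nat_lit 5) (nat_lit 87) (nat_lit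 5) (nat_lit 476) (nat_lit 397) (nat_lit 327))) (XT.nd (nat_lit 78) (nat_lit 532) (nat_lit 0) (XT.lf (nat_lit 0) (nat_lit 2285056831) (nat_lit 304) (nat_lit 9836029806) (nat_lit 76) (nat_lit 3607799760) (nat_lit 79) (nat_lit 5) (nat_lit 83) (nat_lit 5) (nat_lit 80) (nat_lit 5) (nat_lit 477) (nat_lit 397) (nat_lit 326)) (XT.nd (nat_lit 78) (nat_lit 304) (nat_lit 0) (XT.lf (nat_lit 0) (nat_lit 5214920233) (nat_lit 228) (nat_lit 3981104120) (nat_lit 304) (nat_lit 6827132852) (nat_lit 76) (nat_lit 5) (nat_lit 79) (nat_lit 5) (nat_lit 80) (nat_lit 5) (nat_lit 478) (nat_lit 397) (nat_lit 325)) (XT.lf (nat_lit 0) (nat_lit 62280166) (nat_lit 304) (nat_lit 11856734132) (nat_lit 76) (nat_lit 4405765029) (nat_lit 72) (nat_lit 5) (nat_lit 76) (nat_lit 5) (nat_lit 73) (nat_lit 5) (nat_lit 479) (nat_lit 397) (nat_lit 324))))) (XT.nd (nat_lit 234) (nat_lit 456) (nat_lit 0) (XT.nd (nat_lit 78) (nat_lit 532) (nat_lit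 0) (XT.lf (nat_lit 0) (nat_lit 3603604633) (nat_lit 228) (nat_lit 3535762452) (nat_lit 304) (nat_lit 9493708312) (nat_lit 69) (nat_lit 5) (nat_lit 72) (nat_lit 5) (nat_lit 73) (nat_lit 5) (nat_lit 480) (nat_lit 397) (nat_lit 323)) (XT.nd (nat_lit 78) (nat_lit 304) (nat_lit 0) (XT.lf (nat_lit 0) (nat_lit 2655417642) (nat_lit 228) (nat_lit 11854720537) (nat_lit 304) (nat_lit 2438857393) (nat_lit 66) (nat_lit 5) (nat_lit 69) (nat_lit 5) (nat_lit 70) (nat_lit 5) (nat_lit 481) (nat_lit 397) (nat_lit 322)) (XT.lf (nat_lit 0) (nat_lit 1595874037) (nat_lit 228) (nat_lit 3242051424) (nat_lit 304) (nat_lit 12434371502) (nat_lit 62) (nat_lit 5) (nat_lit 65) (nat_lit 5) (nat_lit 66) (nat_lit 5) (nat_lit 482) (nat_lit 397) (nat_lit 321)))) (XT.nd (nat_lit 78) (nat_lit 304) (nat_lit 0) (XT.lf (nat_lit 0) (nat_lit 420928920) (nat_lit 152) (nat_lit 11967285438) (nat_lit 228) (nat_lit 5214996334) (nat_lit 60) (nat_lit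 5) (nat_lit 62) (nat_lit 5) (nat_lit 63) (nat_lit 5) (nat_lit 483) (nat_lit 397) (nat_lit 320)) (XT.nd (nat_lit 78) (nat_lit 228) (nat_lit 0) (XT.lf (nat_lit 0) (nat_lit 2272365885) (nat_lit 228) (nat_lit 847600276) (nat_lit 76) (nat_lit 14822188930) (nat_lit 59) (nat_lit 5) (nat_lit 62) (nat_lit 5) (nat_lit 60) (nat_lit 5) (nat_lit 484) (nat_lit 397) (nat_lit 319)) (XT.lf (nat_lit 0) (nat_lit 10011166003) (nat_lit 304) (nat_lit 2258186900) (nat_lit 76) (nat_lit 6019274398) (nat_lit 56) (nat_lit 5) (nat_lit 60) (nat_lit 5) (nat_lit 57) (nat_lit 5) (nat_lit 485) (nat_lit 397) (nat_lit 318)))))) (XT.nd (nat_lit 56316) (nat_lit 0) (nat_lit 49628) (XT.nd (nat_lit 56082) (nat_lit 0) (nat_lit 52668) (XT.nd (nat_lit 78) (nat_lit 456) (nat_lit 0) (XT.lf (nat_lit 0) (nat_lit 14873669746) (nat_lit 152) (nat_lit 3185605188) (nat_lit 228) (nat_lit 584678051) (nat_lit 54) (nat_lit 5) (nat_lit 56) (nat_lit 5) (nat_lit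 57) (nat_lit 5) (nat_lit 486) (nat_lit 397) (nat_lit 317)) (XT.nd (nat_lit 78) (nat_lit 152) (nat_lit 0) (XT.lf (nat_lit 0) (nat_lit 7341564369) (nat_lit 304) (nat_lit 5458240516) (nat_lit 76) (nat_lit 6207204141) (nat_lit 50) (nat_lit 5) (nat_lit 54) (nat_lit 5) (nat_lit 51) (nat_lit 5) (nat_lit 487) (nat_lit 397) (nat_lit 316)) (XT.lf (nat_lit 0) (nat_lit 12111832085) (nat_lit 152) (nat_lit 3466555980) (nat_lit 228) (nat_lit 3800878676) (nat_lit 48) (nat_lit 5) (nat_lit 50) (nat_lit 5) (nat_lit 51) (nat_lit 5) (nat_lit 488) (nat_lit 397) (nat_lit 315)))) (XT.nd (nat_lit 78) (nat_lit 380) (nat_lit 0) (XT.lf (nat_lit 0) (nat_lit 222109488) (nat_lit 228) (nat_lit 1503766297) (nat_lit 228) (nat_lit 1503766297) (nat_lit 746) (nat_lit 4) (nat_lit 749) (nat_lit 5) (nat_lit 749) (nat_lit 4) (nat_lit 404) (nat_lit 398) (nat_lit 398)) (XT.nd (nat_lit 78) (nat_lit 304) (nat_lit 0) (XT.lf (nat_lit 0) (nat_lit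 1711405597) (nat_lit 304) (nat_lit 813048132) (nat_lit 76) (nat_lit 3944800395) (nat_lit 745) (nat_lit 5) (nat_lit 749) (nat_lit 5) (nat_lit 746) (nat_lit 4) (nat_lit 405) (nat_lit 398) (nat_lit 397)) (XT.lf (nat_lit 0) (nat_lit 4480619616) (nat_lit 304) (nat_lit 1903748213) (nat_lit 380) (nat_lit 97741686) (nat_lit 741) (nat_lit 5) (nat_lit 745) (nat_lit 5) (nat_lit 746) (nat_lit 4) (nat_lit 406) (nat_lit 398) (nat_lit 396))))) (XT.nd (nat_lit 234) (nat_lit 1444) (nat_lit 0) (XT.nd (nat_lit 78) (nat_lit 1140) (nat_lit 0) (XT.lf (nat_lit 0) (nat_lit 3358738073) (nat_lit 380) (nat_lit 1136389987) (nat_lit 456) (nat_lit 2002567166) (nat_lit 735) (nat_lit 5) (nat_lit 740) (nat_lit 5) (nat_lit 741) (nat_lit 5) (nat_lit 407) (nat_lit 398) (nat_lit 395)) (XT.nd (nat_lit 78) (nat_lit 608) (nat_lit 0) (XT.lf (nat_lit 0) (nat_lit 2301186009) (nat_lit 456) (nat_lit 233063269) (nat_lit 532) (nat_lit 3981998236)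 (nat_lit 728) (nat_lit 5) (nat_lit 734) (nat_lit 5) (nat_lit 735) (nat_lit 5) (nat_lit 408) (nat_lit 398) (nat_lit 394)) (XT.lf (nat_lit 0) (nat_lit 505237238) (nat_lit 608) (nat_lit 5235849046) (nat_lit 76) (nat_lit 796588484) (nat_lit 720) (nat_lit 5) (nat_lit 728) (nat_lit 5) (nat_lit 721) (nat_lit 5) (nat_lit 409) (nat_lit 398) (nat_lit 393)))) (XT.nd (nat_lit 78) (nat_lit 836) (nat_lit 0) (XT.lf (nat_lit 0) (nat_lit 352106553) (nat_lit 608) (nat_lit 4591964110) (nat_lit 684) (nat_lit 1617768223) (nat_lit 712) (nat_lit 5) (nat_lit 720) (nat_lit 5) (nat_lit 721) (nat_lit 5) (nat_lit 410) (nat_lit 398) (nat_lit 392)) (XT.nd (nat_lit 78) (nat_lit 760) (nat_lit 0) (XT.lf (nat_lit 0) (nat_lit 2767758218) (nat_lit 684) (nat_lit 533196748) (nat_lit 76) (nat_lit 3287895910) (nat_lit 711) (nat_lit 5) (nat_lit 720) (nat_lit 5) (nat_lit 712) (nat_lit 5) (nat_lit 411) (nat_lit 398) (nat_lit 391)) (XT.lf (nat_lit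 0) (nat_lit 517177192) (nat_lit 760) (nat_lit 1354564859) (nat_lit 76) (nat_lit 4747086630) (nat_lit 701) (nat_lit 5) (nat_lit 711) (nat_lit 5) (nat_lit 702) (nat_lit 5) (nat_lit 412) (nat_lit 398) (nat_lit 390))))))) (XT.nd (nat_lit 858) (nat_lit 14744) (nat_lit 0) (XT.nd (nat_lit 390) (nat_lit 6688) (nat_lit 0) (XT.nd (nat_lit 156) (nat_lit 3116) (nat_lit 0) (XT.nd (nat_lit 78) (nat_lit 912) (nat_lit 0) (XT.lf (nat_lit 0) (nat_lit 4522520654) (nat_lit 760) (nat_lit 292999629) (nat_lit 836) (nat_lit 1836080625) (nat_lit 691) (nat_lit 5) (nat_lit 701) (nat_lit 5) (nat_lit 702) (nat_lit 5) (nat_lit 413) (nat_lit 398) (nat_lit 389)) (XT.lf (nat_lit 0) (nat_lit 2418624358) (nat_lit 912) (nat_lit 2858512488) (nat_lit 76) (nat_lit 1410028422) (nat_lit 679) (nat_lit 5) (nat_lit 691) (nat_lit 5) (nat_lit 680) (nat_lit 5) (nat_lit 414) (nat_lit 398) (nat_lit 388))) (XT.nd (nat_lit 78) (nat_lit 2204) (nat_lit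 0) (XT.lf (nat_lit 0) (nat_lit 3191930607) (nat_lit 912) (nat_lit 3476650392) (nat_lit 988) (nat_lit 57155919) (nat_lit 667) (nat_lit 5) (nat_lit 679) (nat_lit 5) (nat_lit 680) (nat_lit 5) (nat_lit 415) (nat_lit 398) (nat_lit 387)) (XT.nd (nat_lit 78) (nat_lit 1140) (nat_lit 0) (XT.lf (nat_lit 0) (nat_lit 2597534323) (nat_lit 988) (nat_lit 1521035992) (nat_lit 1064) (nat_lit 2648489311) (nat_lit 653) (nat_lit 5) (nat_lit 666) (nat_lit 5) (nat_lit 667) (nat_lit 5) (nat_lit 416) (nat_lit 398) (nat_lit 386)) (XT.lf (nat_lit 0) (nat_lit 1489588510) (nat_lit 1140) (nat_lit 4753832717) (nat_lit 76) (nat_lit 567984947) (nat_lit 638) (nat_lit 5) (nat_lit 653) (nat_lit 5) (nat_lit 639) (nat_lit 5) (nat_lit 417) (nat_lit 398) (nat_lit 385))))) (XT.nd (nat_lit 234) (nat_lit 2964) (nat_lit 0) (XT.nd (nat_lit 78) (nat_lit 2584) (nat_lit 0) (XT.lf (nat_lit 0) (nat_lit 1556446147) (nat_lit 1140) (nat_lit 4072183207)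 (nat_lit 1216) (nat_lit 1229877656) (nat_lit 623) (nat_lit 5) (nat_lit 638) (nat_lit 5) (nat_lit 639) (nat_lit 5) (nat_lit 418) (nat_lit 398) (nat_lit 384)) (XT.nd (nat_lit 78) (nat_lit 1292) (nat_lit 0) (XT.lf (nat_lit 0) (nat_lit 1101591167) (nat_lit 1216) (nat_lit 1749908349) (nat_lit 1292) (nat_lit 4057045894) (nat_lit 606) (nat_lit 5) (nat_lit 622) (nat_lit 5) (nat_lit 623) (nat_lit 5) (nat_lit 419) (nat_lit 398) (nat_lit 383)) (XT.lf (nat_lit 0) (nat_lit 698049502) (nat_lit 1292) (nat_lit 6255131764) (nat_lit 1368) (nat_lit 8477460) (nat_lit 589) (nat_lit 5) (nat_lit 606) (nat_lit 5) (nat_lit 607) (nat_lit 5) (nat_lit 420) (nat_lit 398) (nat_lit 382)))) (XT.nd (nat_lit 78) (nat_lit 1520) (nat_lit 0) (XT.lf (nat_lit 0) (nat_lit 318306732) (nat_lit 1368) (nat_lit 3713883108) (nat_lit 1444) (nat_lit 2985157248) (nat_lit 570) (nat_lit 5) (nat_lit 588) (nat_lit 5) (nat_lit 589) (nat_lit 5) (nat_lit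 421) (nat_lit 398) (nat_lit 381)) (XT.nd (nat_lit 78) (nat_lit 1444) (nat_lit 0) (XT.lf (nat_lit 0) (nat_lit 1021327743) (nat_lit 1444) (nat_lit 6971940) (nat_lit 76) (nat_lit 6047950148) (nat_lit 569) (nat_lit 5) (nat_lit 588) (nat_lit 5) (nat_lit 570) (nat_lit 5) (nat_lit 422) (nat_lit 398) (nat_lit 380)) (XT.lf (nat_lit 0) (nat_lit 5041667598) (nat_lit 1520) (nat_lit 299939946) (nat_lit 76) (nat_lit 1796257592) (nat_lit 550) (nat_lit 5) (nat_lit 570) (nat_lit 5) (nat_lit 551) (nat_lit 5) (nat_lit 423) (nat_lit 398) (nat_lit 379)))))) (XT.nd (nat_lit 468) (nat_lit 5320) (nat_lit 0) (XT.nd (nat_lit 234) (nat_lit 4484) (nat_lit 0) (XT.nd (nat_lit 78) (nat_lit 3344) (nat_lit 0) (XT.lf (nat_lit 0) (nat_lit 1885673746) (nat_lit 1596) (nat_lit 554274578) (nat_lit 76) (nat_lit 4762539177) (nat_lit 529) (nat_lit 5) (nat_lit 550) (nat_lit 5) (nat_lit 530) (nat_lit 5) (nat_lit 424) (nat_lit 398) (nat_lit 378))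 (XT.nd (nat_lit 78) (nat_lit 1748) (nat_lit 0) (XT.lf (nat_lit 0) (nat_lit 5889664205) (nat_lit 1672) (nat_lit 769488002) (nat_lit 76) (nat_lit 611018971) (nat_lit 508) (nat_lit 5) (nat_lit 530) (nat_lit 5) (nat_lit 509) (nat_lit 5) (nat_lit 425) (nat_lit 398) (nat_lit 377)) (XT.lf (nat_lit 0) (nat_lit 2585552839) (nat_lit 1748) (nat_lit 962428179) (nat_lit 76) (nat_lit 3792643997) (nat_lit 485) (nat_lit 5) (nat_lit 508) (nat_lit 5) (nat_lit 486) (nat_lit 5) (nat_lit 426) (nat_lit 398) (nat_lit 376)))) (XT.nd (nat_lit 78) (nat_lit 2736) (nat_lit 0) (XT.lf (nat_lit 0) (nat_lit 6304336004) (nat_lit 1748) (nat_lit 281162595) (nat_lit 1824) (nat_lit 828859054) (nat_lit 462) (nat_lit 5) (nat_lit 485) (nat_lit 5) (nat_lit 486) (nat_lit 5) (nat_lit 427) (nat_lit 398) (nat_lit 375)) (XT.nd (nat_lit 78) (nat_lit 988) (nat_lit 0) (XT.lf (nat_lit 0) (nat_lit 3129947329) (nat_lit 1748) (nat_lit 1244893148) (nat_lit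 76) (nat_lit 3115924694) (nat_lit 439) (nat_lit 5) (nat_lit 462) (nat_lit 5) (nat_lit 440) (nat_lit 5) (nat_lit 428) (nat_lit 398) (nat_lit 374)) (XT.lf (nat_lit 0) (nat_lit 6235557611) (nat_lit 988) (nat_lit 902489897) (nat_lit 1064) (nat_lit 432491321) (nat_lit 426) (nat_lit 5) (nat_lit 439) (nat_lit 5) (nat_lit 440) (nat_lit 5) (nat_lit 429) (nat_lit 398) (nat_lit 373))))) (XT.nd (nat_lit 234) (nat_lit 2508) (nat_lit 0) (XT.nd (nat_lit 78) (nat_lit 1824) (nat_lit 0) (XT.lf (nat_lit 0) (nat_lit 3526783529) (nat_lit 988) (nat_lit 1414545490) (nat_lit 76) (nat_lit 2711715945) (nat_lit 413) (nat_lit 5) (nat_lit 426) (nat_lit 5) (nat_lit 414) (nat_lit 5) (nat_lit 430) (nat_lit 398) (nat_lit 372)) (XT.nd (nat_lit 78) (nat_lit 912) (nat_lit 0) (XT.lf (nat_lit 0) (nat_lit 6285938206) (nat_lit 912) (nat_lit 1264960614) (nat_lit 988) (nat_lit 188049362) (nat_lit 401) (nat_lit 5) (nat_lit 413) (nat_lit 5)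 (nat_lit 414) (nat_lit 5) (nat_lit 431) (nat_lit 398) (nat_lit 371)) (XT.lf (nat_lit 0) (nat_lit 3782978623) (nat_lit 912) (nat_lit 1483778553) (nat_lit 76) (nat_lit 2560877922) (nat_lit 389) (nat_lit 5) (nat_lit 401) (nat_lit 5) (nat_lit 390) (nat_lit 5) (nat_lit 432) (nat_lit 398) (nat_lit 370)))) (XT.nd (nat_lit 78) (nat_lit 1672) (nat_lit 0) (XT.lf (nat_lit 0) (nat_lit 6443435142) (nat_lit 836) (nat_lit 1387242228) (nat_lit 912) (nat_lit 89094978) (nat_lit 378) (nat_lit 5) (nat_lit 389) (nat_lit 5) (nat_lit 390) (nat_lit 5) (nat_lit 433) (nat_lit 398) (nat_lit 369)) (XT.nd (nat_lit 78) (nat_lit 836) (nat_lit 0) (XT.lf (nat_lit 0) (nat_lit 3904480637) (nat_lit 836) (nat_lit 1464603327) (nat_lit 76) (nat_lit 2645655696) (nat_lit 367) (nat_lit 5) (nat_lit 378) (nat_lit 5) (nat_lit 368) (nat_lit 5) (nat_lit 434) (nat_lit 398) (nat_lit 368)) (XT.lf (nat_lit 0) (nat_lit 6696372722) (nat_lit 836) (nat_lit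 1286689521) (nat_lit 912) (nat_lit 130169018) (nat_lit 356) (nat_lit 5) (nat_lit 367) (nat_lit 5) (nat_lit 368) (nat_lit 5) (nat_lit 435) (nat_lit 398) (nat_lit 367))))))))
noncomputable def xc39 : XT := (XT.nd (nat_lit 1794) (nat_lit 7448) (nat_lit 0) (XT.nd (nat_lit 858) (nat_lit 6764) (nat_lit 0) (XT.nd (nat_lit 390) (nat_lit 3952) (nat_lit 0) (XT.nd (nat_lit 156) (nat_lit 2280) (nat_lit 0) (XT.nd (nat_lit 78) (nat_lit 760) (nat_lit 0) (XT.lf (nat_lit 0) (nat_lit 3896301717) (nat_lit 836) (nat_lit 1368748076) (nat_lit 76) (nat_lit 2949546155) (nat_lit 345) (nat_lit 5) (nat_lit 356) (nat_lit 5) (nat_lit 346) (nat_lit 5) (nat_lit 436) (nat_lit 398) (nat_lit 366)) (XT.lf (nat_lit 0) (nat_lit 7033342181) (nat_lit 760) (nat_lit 979475149) (nat_lit 836) (nat_lit 306760729) (nat_lit 335) (nat_lit 5) (nat_lit 345) (nat_lit 5) (nat_lit 346) (nat_lit 5) (nat_lit 437) (nat_lit 398) (nat_lit 365))) (XT.nd (nat_lit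 78) (nat_lit 1520) (nat_lit 0) (XT.lf (nat_lit 0) (nat_lit 3762544824) (nat_lit 760) (nat_lit 1207758098) (nat_lit 76) (nat_lit 3457171540) (nat_lit 325) (nat_lit 5) (nat_lit 335) (nat_lit 5) (nat_lit 326) (nat_lit 5) (nat_lit 438) (nat_lit 398) (nat_lit 364)) (XT.nd (nat_lit 78) (nat_lit 760) (nat_lit 0) (XT.lf (nat_lit 0) (nat_lit 7443101298) (nat_lit 760) (nat_lit 480714075) (nat_lit 836) (nat_lit 615283769) (nat_lit 315) (nat_lit 5) (nat_lit 325) (nat_lit 5) (nat_lit 326) (nat_lit 5) (nat_lit 439) (nat_lit 398) (nat_lit 363)) (XT.lf (nat_lit 0) (nat_lit 3506423960) (nat_lit 760) (nat_lit 993096405) (nat_lit 76) (nat_lit 4154158676) (nat_lit 305) (nat_lit 5) (nat_lit 315) (nat_lit 5) (nat_lit 306) (nat_lit 5) (nat_lit 440) (nat_lit 398) (nat_lit 362))))) (XT.nd (nat_lit 234) (nat_lit 1900) (nat_lit 0) (XT.nd (nat_lit 78) (nat_lit 1368) (nat_lit 0) (XT.lf (nat_lit 0) (nat_lit 7720324344) (nat_lit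 760) (nat_lit 858910342) (nat_lit 76) (nat_lit 192854316) (nat_lit 296) (nat_lit 5) (nat_lit 306) (nat_lit 5) (nat_lit 297) (nat_lit 5) (nat_lit 441) (nat_lit 398) (nat_lit 361)) (XT.nd (nat_lit 78) (nat_lit 684) (nat_lit 0) (XT.lf (nat_lit 0) (nat_lit 3130277935) (nat_lit 684) (nat_lit 736246160) (nat_lit 76) (nat_lit 5027023058) (nat_lit 287) (nat_lit 5) (nat_lit 296) (nat_lit 5) (nat_lit 288) (nat_lit 5) (nat_lit 442) (nat_lit 398) (nat_lit 360)) (XT.lf (nat_lit 0) (nat_lit 7407398320) (nat_lit 760) (nat_lit 589460214) (nat_lit 76) (nat_lit 1021984462) (nat_lit 278) (nat_lit 5) (nat_lit 288) (nat_lit 5) (nat_lit 279) (nat_lit 5) (nat_lit 443) (nat_lit 398) (nat_lit 359)))) (XT.nd (nat_lit 78) (nat_lit 1216) (nat_lit 0) (XT.lf (nat_lit 0) (nat_lit 2635577697) (nat_lit 684) (nat_lit 448815724) (nat_lit 76) (nat_lit 6063056933) (nat_lit 269) (nat_lit 5) (nat_lit 278) (nat_lit 5) (nat_lit 270) (nat_lit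 5) (nat_lit 444) (nat_lit 398) (nat_lit 358)) (XT.nd (nat_lit 78) (nat_lit 608) (nat_lit 0) (XT.lf (nat_lit 0) (nat_lit 6983113304) (nat_lit 684) (nat_lit 296193386) (nat_lit 76) (nat_lit 2000506557) (nat_lit 261) (nat_lit 5) (nat_lit 270) (nat_lit 5) (nat_lit 262) (nat_lit 5) (nat_lit 445) (nat_lit 398) (nat_lit 357)) (XT.lf (nat_lit 0) (nat_lit 2022927122) (nat_lit 608) (nat_lit 142647213) (nat_lit 76) (nat_lit 7250220547) (nat_lit 253) (nat_lit 5) (nat_lit 261) (nat_lit 5) (nat_lit 254) (nat_lit 5) (nat_lit 446) (nat_lit 398) (nat_lit 356)))))) (XT.nd (nat_lit 468) (nat_lit 2888) (nat_lit 0) (XT.nd (nat_lit 234) (nat_lit 1596) (nat_lit 0) (XT.nd (nat_lit 78) (nat_lit 1140) (nat_lit 0) (XT.lf (nat_lit 0) (nat_lit 9047305) (nat_lit 532) (nat_lit 6438822305) (nat_lit 608) (nat_lit 3107553624) (nat_lit 238) (nat_lit 5) (nat_lit 245) (nat_lit 5) (nat_lit 246) (nat_lit 5) (nat_lit 447) (nat_lit 398) (nat_lit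 355)) (XT.nd (nat_lit 78) (nat_lit 532) (nat_lit 0) (XT.lf (nat_lit 0) (nat_lit 172330637) (nat_lit 532) (nat_lit 1120845436) (nat_lit 608) (nat_lit 8405823987) (nat_lit 230) (nat_lit 5) (nat_lit 237) (nat_lit 5) (nat_lit 238) (nat_lit 5) (nat_lit 448) (nat_lit 398) (nat_lit 354)) (XT.lf (nat_lit 0) (nat_lit 317701366) (nat_lit 532) (nat_lit 5485329217) (nat_lit 608) (nat_lit 4043065108) (nat_lit 223) (nat_lit 5) (nat_lit 230) (nat_lit 5) (nat_lit 231) (nat_lit 5) (nat_lit 449) (nat_lit 398) (nat_lit 353)))) (XT.nd (nat_lit 78) (nat_lit 988) (nat_lit 0) (XT.lf (nat_lit 0) (nat_lit 445196582) (nat_lit 608) (nat_lit 9514777391) (nat_lit 76) (nat_lit 37569464) (nat_lit 215) (nat_lit 5) (nat_lit 223) (nat_lit 5) (nat_lit 216) (nat_lit 5) (nat_lit 450) (nat_lit 398) (nat_lit 352)) (XT.nd (nat_lit 78) (nat_lit 532) (nat_lit 0) (XT.lf (nat_lit 0) (nat_lit 612758810) (nat_lit 456) (nat_lit 4432399924) (nat_lit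 532) (nat_lit 5107209849) (nat_lit 209) (nat_lit 5) (nat_lit 215) (nat_lit 5) (nat_lit 216) (nat_lit 5) (nat_lit 451) (nat_lit 398) (nat_lit 351)) (XT.lf (nat_lit 0) (nat_lit 762031756) (nat_lit 532) (nat_lit 9026440155) (nat_lit 608) (nat_lit 523267393) (nat_lit 202) (nat_lit 5) (nat_lit 209) (nat_lit 5) (nat_lit 210) (nat_lit 5) (nat_lit 452) (nat_lit 398) (nat_lit 350))))) (XT.nd (nat_lit 234) (nat_lit 1368) (nat_lit 0) (XT.nd (nat_lit 78) (nat_lit 988) (nat_lit 0) (XT.lf (nat_lit 0) (nat_lit 880477735) (nat_lit 456) (nat_lit 3291379163) (nat_lit 532) (nat_lit 6302922114) (nat_lit 195) (nat_lit 5) (nat_lit 201) (nat_lit 5) (nat_lit 202) (nat_lit 5) (nat_lit 453) (nat_lit 398) (nat_lit 349)) (XT.nd (nat_lit 78) (nat_lit 532) (nat_lit 0) (XT.lf (nat_lit 0) (nat_lit 1003116547) (nat_lit 456) (nat_lit 8015816205) (nat_lit 532) (nat_lit 1623351112) (nat_lit 189) (nat_lit 5) (nat_lit 195) (nat_lit 5)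 (nat_lit 196) (nat_lit 5) (nat_lit 454) (nat_lit 398) (nat_lit 348)) (XT.lf (nat_lit 0) (nat_lit 1106309605) (nat_lit 456) (nat_lit 2073478457) (nat_lit 532) (nat_lit 7634115524) (nat_lit 182) (nat_lit 5) (nat_lit 188) (nat_lit 5) (nat_lit 189) (nat_lit 5) (nat_lit 455) (nat_lit 398) (nat_lit 347)))) (XT.nd (nat_lit 78) (nat_lit 912) (nat_lit 0) (XT.lf (nat_lit 0) (nat_lit 1194024410) (nat_lit 456) (nat_lit 6942488131) (nat_lit 532) (nat_lit 2853320547) (nat_lit 176) (nat_lit 5) (nat_lit 182) (nat_lit 5) (nat_lit 183) (nat_lit 5) (nat_lit 456) (nat_lit 398) (nat_lit 346)) (XT.nd (nat_lit 78) (nat_lit 456) (nat_lit 0) (XT.lf (nat_lit 0) (nat_lit 1274751136) (nat_lit 380) (nat_lit 789884823) (nat_lit 456) (nat_lit 9105724039) (nat_lit 170) (nat_lit 5) (nat_lit 175) (nat_lit 5) (nat_lit 176) (nat_lit 5) (nat_lit 457) (nat_lit 398) (nat_lit 345)) (XT.lf (nat_lit 0) (nat_lit 1318735668) (nat_lit 456) (nat_lit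 5817902697) (nat_lit 532) (nat_lit 4218387895) (nat_lit 164) (nat_lit 5) (nat_lit 170) (nat_lit 5) (nat_lit 171) (nat_lit 5) (nat_lit 458) (nat_lit 398) (nat_lit 344))))))) (XT.nd (nat_lit 936) (nat_lit 3344) (nat_lit 0) (XT.nd (nat_lit 468) (nat_lit 1672) (nat_lit 0) (XT.nd (nat_lit 234) (nat_lit 1216) (nat_lit 0) (XT.nd (nat_lit 78) (nat_lit 760) (nat_lit 0) (XT.lf (nat_lit 0) (nat_lit 824616121) (nat_lit 456) (nat_lit 10179182472) (nat_lit 76) (nat_lit 540939038) (nat_lit 158) (nat_lit 5) (nat_lit 164) (nat_lit 5) (nat_lit 159) (nat_lit 5) (nat_lit 459) (nat_lit 398) (nat_lit 343)) (XT.nd (nat_lit 78) (nat_lit 380) (nat_lit 0) (XT.lf (nat_lit 0) (nat_lit 1360029450) (nat_lit 380) (nat_lit 4653668056) (nat_lit 456) (nat_lit 5724848930) (nat_lit 153) (nat_lit 5) (nat_lit 158) (nat_lit 5) (nat_lit 159) (nat_lit 5) (nat_lit 460) (nat_lit 398) (nat_lit 342)) (XT.lf (nat_lit 0) (nat_lit 1355277252) (nat_lit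 380) (nat_lit 10030265324) (nat_lit 456) (nat_lit 552090674) (nat_lit 148) (nat_lit 5) (nat_lit 153) (nat_lit 5) (nat_lit 154) (nat_lit 5) (nat_lit 461) (nat_lit 398) (nat_lit 341)))) (XT.nd (nat_lit 78) (nat_lit 760) (nat_lit 0) (XT.lf (nat_lit 0) (nat_lit 1299305323) (nat_lit 380) (nat_lit 3461671088) (nat_lit 456) (nat_lit 7380146153) (nat_lit 142) (nat_lit 5) (nat_lit 147) (nat_lit 5) (nat_lit 148) (nat_lit 5) (nat_lit 462) (nat_lit 398) (nat_lit 340)) (XT.nd (nat_lit 78) (nat_lit 456) (nat_lit 0) (XT.lf (nat_lit 0) (nat_lit 1227020577) (nat_lit 304) (nat_lit 9038953115) (nat_lit 380) (nat_lit 2083874247) (nat_lit 138) (nat_lit 5) (nat_lit 142) (nat_lit 5) (nat_lit 143) (nat_lit 5) (nat_lit 463) (nat_lit 398) (nat_lit 339)) (XT.lf (nat_lit 0) (nat_lit 1116389881) (nat_lit 380) (nat_lit 2254199975) (nat_lit 456) (nat_lit 9192941963) (nat_lit 132) (nat_lit 5) (nat_lit 137) (nat_lit 5) (nat_lit 138)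 (nat_lit 5) (nat_lit 464) (nat_lit 398) (nat_lit 338))))) (XT.nd (nat_lit 234) (nat_lit 684) (nat_lit 0) (XT.nd (nat_lit 78) (nat_lit 684) (nat_lit 0) (XT.lf (nat_lit 0) (nat_lit 965292848) (nat_lit 304) (nat_lit 8048223637) (nat_lit 380) (nat_lit 3768776193) (nat_lit 128) (nat_lit 5) (nat_lit 132) (nat_lit 5) (nat_lit 133) (nat_lit 5) (nat_lit 465) (nat_lit 398) (nat_lit 337)) (XT.nd (nat_lit 78) (nat_lit 304) (nat_lit 0) (XT.lf (nat_lit 0) (nat_lit 789326443) (nat_lit 304) (nat_lit 1044073126) (nat_lit 380) (nat_lit 11173202634) (nat_lit 123) (nat_lit 5) (nat_lit 127) (nat_lit 5) (nat_lit 128) (nat_lit 5) (nat_lit 466) (nat_lit 398) (nat_lit 336)) (XT.lf (nat_lit 0) (nat_lit 547170343) (nat_lit 304) (nat_lit 7071520287) (nat_lit 380) (nat_lit 5617131487) (nat_lit 119) (nat_lit 5) (nat_lit 123) (nat_lit 5) (nat_lit 124) (nat_lit 5) (nat_lit 467) (nat_lit 398) (nat_lit 335)))) (XT.nd (nat_lit 78) (nat_lit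 304) (nat_lit 0) (XT.lf (nat_lit 0) (nat_lit 139929278) (nat_lit 380) (nat_lit 13178077378) (nat_lit 76) (nat_lit 153188587) (nat_lit 114) (nat_lit 5) (nat_lit 119) (nat_lit 5) (nat_lit 115) (nat_lit 5) (nat_lit 468) (nat_lit 398) (nat_lit 334)) (XT.nd (nat_lit 78) (nat_lit 304) (nat_lit 0) (XT.lf (nat_lit 0) (nat_lit 6070975146) (nat_lit 380) (nat_lit 51720500) (nat_lit 76) (nat_lit 7588643631) (nat_lit 114) (nat_lit 5) (nat_lit 119) (nat_lit 5) (nat_lit 115) (nat_lit 5) (nat_lit 469) (nat_lit 398) (nat_lit 333)) (XT.lf (nat_lit 0) (nat_lit 12221655631) (nat_lit 380) (nat_lit 410252070) (nat_lit 76) (nat_lit 1325949810) (nat_lit 110) (nat_lit 5) (nat_lit 115) (nat_lit 5) (nat_lit 111) (nat_lit 5) (nat_lit 470) (nat_lit 398) (nat_lit 332)))))) (XT.nd (nat_lit 468) (nat_lit 1520) (nat_lit 0) (XT.nd (nat_lit 234) (nat_lit 836) (nat_lit 0) (XT.nd (nat_lit 78) (nat_lit 608) (nat_lit 0) (XT.lf (nat_lit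 0) (nat_lit 4362585341) (nat_lit 380) (nat_lit 849610566) (nat_lit 76) (nat_lit 8997525180) (nat_lit 105) (nat_lit 5) (nat_lit 110) (nat_lit 5) (nat_lit 106) (nat_lit 5) (nat_lit 471) (nat_lit 398) (nat_lit 331)) (XT.nd (nat_lit 78) (nat_lit 380) (nat_lit 0) (XT.lf (nat_lit 0) (nat_lit 10671712723) (nat_lit 304) (nat_lit 1331843847) (nat_lit 76) (nat_lit 2464338824) (nat_lit 102) (nat_lit 5) (nat_lit 106) (nat_lit 5) (nat_lit 103) (nat_lit 5) (nat_lit 472) (nat_lit 398) (nat_lit 330)) (XT.lf (nat_lit 0) (nat_lit 2476193507) (nat_lit 380) (nat_lit 1883425831) (nat_lit 76) (nat_lit 10372445759) (nat_lit 97) (nat_lit 5) (nat_lit 102) (nat_lit 5) (nat_lit 98) (nat_lit 5) (nat_lit 473) (nat_lit 398) (nat_lit 329)))) (XT.nd (nat_lit 78) (nat_lit 608) (nat_lit 0) (XT.lf (nat_lit 0) (nat_lit 8947015726) (nat_lit 304) (nat_lit 2505760211) (nat_lit 76) (nat_lit 3549648466) (nat_lit 94) (nat_lit 5) (nat_lit 98)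 (nat_lit 5) (nat_lit 95) (nat_lit 5) (nat_lit 474) (nat_lit 398) (nat_lit 328)) (XT.nd (nat_lit 78) (nat_lit 228) (nat_lit 0) (XT.lf (nat_lit 0) (nat_lit 396286158) (nat_lit 380) (nat_lit 3185876194) (nat_lit 76) (nat_lit 11697301150) (nat_lit 89) (nat_lit 5) (nat_lit 94) (nat_lit 5) (nat_lit 90) (nat_lit 5) (nat_lit 475) (nat_lit 398) (nat_lit 327)) (XT.lf (nat_lit 0) (nat_lit 7031519635) (nat_lit 304) (nat_lit 3966314431) (nat_lit 76) (nat_lit 4564737153) (nat_lit 86) (nat_lit 5) (nat_lit 90) (nat_lit 5) (nat_lit 87) (nat_lit 5) (nat_lit 476) (nat_lit 398) (nat_lit 326))))) (XT.nd (nat_lit 234) (nat_lit 760) (nat_lit 0) (XT.nd (nat_lit 78) (nat_lit 532) (nat_lit 0) (XT.lf (nat_lit 0) (nat_lit 11047393107) (nat_lit 228) (nat_lit 2885715246) (nat_lit 304) (nat_lit 1919720871) (nat_lit 83) (nat_lit 5) (nat_lit 86) (nat_lit 5) (nat_lit 87) (nat_lit 5) (nat_lit 477) (nat_lit 398) (nat_lit 325)) (XT.nd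 (nat_lit 78) (nat_lit 228) (nat_lit 0) (XT.lf (nat_lit 0) (nat_lit 4907220228) (nat_lit 304) (nat_lit 5751304493) (nat_lit 76) (nat_lit 5491010087) (nat_lit 79) (nat_lit 5) (nat_lit 83) (nat_lit 5) (nat_lit 80) (nat_lit 5) (nat_lit 478) (nat_lit 398) (nat_lit 324)) (XT.lf (nat_lit 0) (nat_lit 9680116894) (nat_lit 228) (nat_lit 2298998099) (nat_lit 304) (nat_lit 4474451034) (nat_lit 76) (nat_lit 5) (nat_lit 79) (nat_lit 5) (nat_lit 80) (nat_lit 5) (nat_lit 479) (nat_lit 398) (nat_lit 323)))) (XT.nd (nat_lit 78) (nat_lit 456) (nat_lit 0) (XT.lf (nat_lit 0) (nat_lit 2553972216) (nat_lit 304) (nat_lit 7902405077) (nat_lit 76) (nat_lit 6308214072) (nat_lit 72) (nat_lit 5) (nat_lit 76) (nat_lit 5) (nat_lit 73) (nat_lit 5) (nat_lit 480) (nat_lit 398) (nat_lit 322)) (XT.nd (nat_lit 78) (nat_lit 228) (nat_lit 0) (XT.lf (nat_lit 0) (nat_lit 7951818718) (nat_lit 228) (nat_lit 1846563469) (nat_lit 304) (nat_lit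 7284657848) (nat_lit 69) (nat_lit 5) (nat_lit 72) (nat_lit 5) (nat_lit 73) (nat_lit 5) (nat_lit 481) (nat_lit 398) (nat_lit 321)) (XT.lf (nat_lit 0) (nat_lit 6943160655) (nat_lit 228) (nat_lit 10414545246) (nat_lit 304) (nat_lit 51387138) (nat_lit 66) (nat_lit 5) (nat_lit 69) (nat_lit 5) (nat_lit 70) (nat_lit 5) (nat_lit 482) (nat_lit 398) (nat_lit 320))))))))
noncomputable def xc40 : XT := (XT.nd (nat_lit 57486) (nat_lit 0) (nat_lit 18696) (XT.nd (nat_lit 56550) (nat_lit 0) (nat_lit 43472) (XT.nd (nat_lit 390) (nat_lit 0) (nat_lit 0) (XT.nd (nat_lit 156) (nat_lit 760) (nat_lit 0) (XT.nd (nat_lit 78) (nat_lit 152) (nat_lit 0) (XT.lf (nat_lit 0) (nat_lit 5815430363) (nat_lit 228) (nat_lit 1552353413) (nat_lit 304) (nat_lit 10374866680) (nat_lit 62) (nat_lit 5) (nat_lit 65) (nat_lit 5) (nat_lit 66) (nat_lit 5) (nat_lit 483) (nat_lit 398) (nat_lit 319)) (XT.lf (nat_lit 0) (nat_lit 4573182111) (nat_lit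 152) (nat_lit 10540082743) (nat_lit 228) (nat_lit 2970856598) (nat_lit 60) (nat_lit 5) (nat_lit 62) (nat_lit 5) (nat_lit 63) (nat_lit 5) (nat_lit 484) (nat_lit 398) (nat_lit 318))) (XT.nd (nat_lit 78) (nat_lit 456) (nat_lit 0) (XT.lf (nat_lit 0) (nat_lit 3218921129) (nat_lit 228) (nat_lit 1442617494) (nat_lit 304) (nat_lit 13772349263) (nat_lit 56) (nat_lit 5) (nat_lit 59) (nat_lit 5) (nat_lit 60) (nat_lit 5) (nat_lit 485) (nat_lit 398) (nat_lit 317)) (XT.nd (nat_lit 78) (nat_lit 304) (nat_lit 0) (XT.lf (nat_lit 0) (nat_lit 1714674226) (nat_lit 152) (nat_lit 10878135843) (nat_lit 228) (nat_lit 6198741304) (nat_lit 54) (nat_lit 5) (nat_lit 56) (nat_lit 5) (nat_lit 57) (nat_lit 5) (nat_lit 486) (nat_lit 398) (nat_lit 316)) (XT.lf (nat_lit 0) (nat_lit 104754166) (nat_lit 228) (nat_lit 1546195837) (nat_lit 304) (nat_lit 17507391030) (nat_lit 50) (nat_lit 5) (nat_lit 53) (nat_lit 5) (nat_lit 54) (nat_lit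 5) (nat_lit 487) (nat_lit 398) (nat_lit 315))))) (XT.nd (nat_lit 55926) (nat_lit 0) (nat_lit 52440) (XT.nd (nat_lit 55770) (nat_lit 0) (nat_lit 53124) (XT.lf (nat_lit 0) (nat_lit 9777590567) (nat_lit 304) (nat_lit 1670675279) (nat_lit 76) (nat_lit 8084537538) (nat_lit 50) (nat_lit 5) (nat_lit 54) (nat_lit 5) (nat_lit 51) (nat_lit 5) (nat_lit 488) (nat_lit 398) (nat_lit 314)) (XT.nd (nat_lit 78) (nat_lit 228) (nat_lit 0) (XT.lf (nat_lit 0) (nat_lit 1621633400) (nat_lit 76) (nat_lit 800796872) (nat_lit 76) (nat_lit 800796872) (nat_lit 752) (nat_lit 4) (nat_lit 753) (nat_lit 5) (nat_lit 753) (nat_lit 4) (nat_lit 402) (nat_lit 399) (nat_lit 399)) (XT.lf (nat_lit 0) (nat_lit 1777777806) (nat_lit 152) (nat_lit 1323178466) (nat_lit 228) (nat_lit 3351191209) (nat_lit 749) (nat_lit 5) (nat_lit 751) (nat_lit 5) (nat_lit 752) (nat_lit 4) (nat_lit 403) (nat_lit 399) (nat_lit 398)))) (XT.nd (nat_lit 78) (nat_lit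 380) (nat_lit 0) (XT.lf (nat_lit 0) (nat_lit 378498770) (nat_lit 228) (nat_lit 910527375) (nat_lit 304) (nat_lit 5171770791) (nat_lit 745) (nat_lit 5) (nat_lit 748) (nat_lit 5) (nat_lit 749) (nat_lit 5) (nat_lit 404) (nat_lit 399) (nat_lit 397)) (XT.nd (nat_lit 78) (nat_lit 380) (nat_lit 0) (XT.lf (nat_lit 0) (nat_lit 5525250679) (nat_lit 228) (nat_lit 352945887) (nat_lit 304) (nat_lit 594011018) (nat_lit 745) (nat_lit 5) (nat_lit 748) (nat_lit 5) (nat_lit 749) (nat_lit 5) (nat_lit 405) (nat_lit 399) (nat_lit 396)) (XT.lf (nat_lit 0) (nat_lit 3924504341) (nat_lit 380) (nat_lit 2215351455) (nat_lit 76) (nat_lit 346468027) (nat_lit 740) (nat_lit 5) (nat_lit 745) (nat_lit 5) (nat_lit 741) (nat_lit 5) (nat_lit 406) (nat_lit 399) (nat_lit 395)))))) (XT.nd (nat_lit 468) (nat_lit 6004) (nat_lit 0) (XT.nd (nat_lit 234) (nat_lit 1444) (nat_lit 0) (XT.nd (nat_lit 78) (nat_lit 1064) (nat_lit 0) (XT.lf (nat_lit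 0) (nat_lit 1902852797) (nat_lit 456) (nat_lit 3425004708) (nat_lit 76) (nat_lit 1175498737) (nat_lit 734) (nat_lit 5) (nat_lit 740) (nat_lit 5) (nat_lit 735) (nat_lit 5) (nat_lit 407) (nat_lit 399) (nat_lit 394)) (XT.nd (nat_lit 78) (nat_lit 608) (nat_lit 0) (XT.lf (nat_lit 0) (nat_lit 1947593330) (nat_lit 456) (nat_lit 4382442813) (nat_lit 532) (nat_lit 193301506) (nat_lit 728) (nat_lit 5) (nat_lit 734) (nat_lit 5) (nat_lit 735) (nat_lit 5) (nat_lit 408) (nat_lit 399) (nat_lit 393)) (XT.lf (nat_lit 0) (nat_lit 865928448) (nat_lit 532) (nat_lit 3290635560) (nat_lit 608) (nat_lit 2389483259) (nat_lit 720) (nat_lit 5) (nat_lit 727) (nat_lit 5) (nat_lit 728) (nat_lit 5) (nat_lit 409) (nat_lit 399) (nat_lit 392)))) (XT.nd (nat_lit 78) (nat_lit 1368) (nat_lit 0) (XT.lf (nat_lit 0) (nat_lit 1910457803) (nat_lit 608) (nat_lit 152577950) (nat_lit 76) (nat_lit 4508695736) (nat_lit 719) (nat_lit 5) (nat_lit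 727) (nat_lit 5) (nat_lit 720) (nat_lit 5) (nat_lit 410) (nat_lit 399) (nat_lit 391)) (XT.nd (nat_lit 78) (nat_lit 760) (nat_lit 0) (XT.lf (nat_lit 0) (nat_lit 5497543275) (nat_lit 608) (nat_lit 691321255) (nat_lit 684) (nat_lit 411406080) (nat_lit 711) (nat_lit 5) (nat_lit 719) (nat_lit 5) (nat_lit 720) (nat_lit 5) (nat_lit 411) (nat_lit 399) (nat_lit 390)) (XT.lf (nat_lit 0) (nat_lit 3799275343) (nat_lit 760) (nat_lit 2012275559) (nat_lit 76) (nat_lit 819930382) (nat_lit 701) (nat_lit 5) (nat_lit 711) (nat_lit 5) (nat_lit 702) (nat_lit 5) (nat_lit 412) (nat_lit 399) (nat_lit 389))))) (XT.nd (nat_lit 234) (nat_lit 3344) (nat_lit 0) (XT.nd (nat_lit 78) (nat_lit 1824) (nat_lit 0) (XT.lf (nat_lit 0) (nat_lit 1336945688) (nat_lit 836) (nat_lit 2869196095) (nat_lit 76) (nat_lit 2459495364) (nat_lit 690) (nat_lit 5) (nat_lit 701) (nat_lit 5) (nat_lit 691) (nat_lit 5) (nat_lit 413) (nat_lit 399) (nat_lit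 388)) (XT.nd (nat_lit 78) (nat_lit 988) (nat_lit 0) (XT.lf (nat_lit 0) (nat_lit 3025274000) (nat_lit 836) (nat_lit 2456611368) (nat_lit 912) (nat_lit 1220808262) (nat_lit 679) (nat_lit 5) (nat_lit 690) (nat_lit 5) (nat_lit 691) (nat_lit 5) (nat_lit 414) (nat_lit 399) (nat_lit 387)) (XT.lf (nat_lit 0) (nat_lit 2303864480) (nat_lit 912) (nat_lit 559690295) (nat_lit 988) (nat_lit 3879094207) (nat_lit 666) (nat_lit 5) (nat_lit 678) (nat_lit 5) (nat_lit 679) (nat_lit 5) (nat_lit 415) (nat_lit 399) (nat_lit 386)))) (XT.nd (nat_lit 78) (nat_lit 2280) (nat_lit 0) (XT.lf (nat_lit 0) (nat_lit 172775463) (nat_lit 1064) (nat_lit 5154474847) (nat_lit 76) (nat_lit 1458265227) (nat_lit 652) (nat_lit 5) (nat_lit 666) (nat_lit 5) (nat_lit 653) (nat_lit 5) (nat_lit 416) (nat_lit 399) (nat_lit 385)) (XT.nd (nat_lit 78) (nat_lit 1216) (nat_lit 0) (XT.lf (nat_lit 0) (nat_lit 994209088) (nat_lit 1064) (nat_lit 3204424388)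 (nat_lit 1140) (nat_lit 2632449203) (nat_lit 638) (nat_lit 5) (nat_lit 652) (nat_lit 5) (nat_lit 653) (nat_lit 5) (nat_lit 417) (nat_lit 399) (nat_lit 384)) (XT.lf (nat_lit 0) (nat_lit 412524671) (nat_lit 1140) (nat_lit 940061956) (nat_lit 1216) (nat_lit 5527176729) (nat_lit 622) (nat_lit 5) (nat_lit 637) (nat_lit 5) (nat_lit 638) (nat_lit 5) (nat_lit 418) (nat_lit 399) (nat_lit 383))))))) (XT.nd (nat_lit 858) (nat_lit 9804) (nat_lit 0) (XT.nd (nat_lit 390) (nat_lit 9500) (nat_lit 0) (XT.nd (nat_lit 156) (nat_lit 4180) (nat_lit 0) (XT.nd (nat_lit 78) (nat_lit 1292) (nat_lit 0) (XT.lf (nat_lit 0) (nat_lit 5340608555) (nat_lit 1216) (nat_lit 131564287) (nat_lit 76) (nat_lit 1459027410) (nat_lit 622) (nat_lit 5) (nat_lit 638) (nat_lit 5) (nat_lit 623) (nat_lit 5) (nat_lit 419) (nat_lit 399) (nat_lit 382)) (XT.lf (nat_lit 0) (nat_lit 2352794728) (nat_lit 1292) (nat_lit 631614572) (nat_lit 76) (nat_lit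 4001057031) (nat_lit 605) (nat_lit 5) (nat_lit 622) (nat_lit 5) (nat_lit 606) (nat_lit 5) (nat_lit 420) (nat_lit 399) (nat_lit 381))) (XT.nd (nat_lit 78) (nat_lit 2888) (nat_lit 0) (XT.lf (nat_lit 0) (nat_lit 5959998978) (nat_lit 1292) (nat_lit 348696235) (nat_lit 1368) (nat_lit 734164149) (nat_lit 588) (nat_lit 5) (nat_lit 605) (nat_lit 5) (nat_lit 606) (nat_lit 5) (nat_lit 421) (nat_lit 399) (nat_lit 380)) (XT.nd (nat_lit 78) (nat_lit 1444) (nat_lit 0) (XT.lf (nat_lit 0) (nat_lit 3173113987) (nat_lit 1444) (nat_lit 1512584381) (nat_lit 76) (nat_lit 2417177179) (nat_lit 569) (nat_lit 5) (nat_lit 588) (nat_lit 5) (nat_lit 570) (nat_lit 5) (nat_lit 422) (nat_lit 399) (nat_lit 379)) (XT.lf (nat_lit 0) (nat_lit 5273106856) (nat_lit 1444) (nat_lit 1839796793) (nat_lit 1520) (nat_lit 53209903) (nat_lit 550) (nat_lit 5) (nat_lit 569) (nat_lit 5) (nat_lit 570) (nat_lit 5) (nat_lit 423) (nat_lit 399) (nat_lit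 378))))) (XT.nd (nat_lit 234) (nat_lit 4560) (nat_lit 0) (XT.nd (nat_lit 78) (nat_lit 3344) (nat_lit 0) (XT.lf (nat_lit 0) (nat_lit 3821579143) (nat_lit 1596) (nat_lit 2250636190) (nat_lit 76) (nat_lit 1159872190) (nat_lit 529) (nat_lit 5) (nat_lit 550) (nat_lit 5) (nat_lit 530) (nat_lit 5) (nat_lit 424) (nat_lit 399) (nat_lit 377)) (XT.nd (nat_lit 78) (nat_lit 1672) (nat_lit 0) (XT.lf (nat_lit 0) (nat_lit 446793015) (nat_lit 1672) (nat_lit 2569841440) (nat_lit 76) (nat_lit 4284521253) (nat_lit 507) (nat_lit 5) (nat_lit 529) (nat_lit 5) (nat_lit 508) (nat_lit 5) (nat_lit 425) (nat_lit 399) (nat_lit 376)) (XT.lf (nat_lit 0) (nat_lit 4307756675) (nat_lit 1748) (nat_lit 2859856494) (nat_lit 76) (nat_lit 205567212) (nat_lit 485) (nat_lit 5) (nat_lit 508) (nat_lit 5) (nat_lit 486) (nat_lit 5) (nat_lit 426) (nat_lit 399) (nat_lit 375)))) (XT.nd (nat_lit 78) (nat_lit 2736) (nat_lit 0) (XT.lf (nat_lit 0) (nat_lit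 782363566) (nat_lit 1824) (nat_lit 3123487100) (nat_lit 76) (nat_lit 3542303098) (nat_lit 461) (nat_lit 5) (nat_lit 485) (nat_lit 5) (nat_lit 462) (nat_lit 5) (nat_lit 427) (nat_lit 399) (nat_lit 374)) (XT.nd (nat_lit 78) (nat_lit 1064) (nat_lit 0) (XT.lf (nat_lit 0) (nat_lit 4169446928) (nat_lit 1672) (nat_lit 473754341) (nat_lit 1748) (nat_lit 2883003852) (nat_lit 439) (nat_lit 5) (nat_lit 461) (nat_lit 5) (nat_lit 462) (nat_lit 5) (nat_lit 428) (nat_lit 399) (nat_lit 373)) (XT.lf (nat_lit 0) (nat_lit 962107023) (nat_lit 1064) (nat_lit 3566843768) (nat_lit 76) (nat_lit 3078291418) (nat_lit 425) (nat_lit 5) (nat_lit 439) (nat_lit 5) (nat_lit 426) (nat_lit 5) (nat_lit 429) (nat_lit 399) (nat_lit 372)))))) (XT.nd (nat_lit 468) (nat_lit 4484) (nat_lit 0) (XT.nd (nat_lit 234) (nat_lit 2584) (nat_lit 0) (XT.nd (nat_lit 78) (nat_lit 1824) (nat_lit 0) (XT.lf (nat_lit 0) (nat_lit 3940586528) (nat_lit 912)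 (nat_lit 891328426) (nat_lit 988) (nat_lit 2859461911) (nat_lit 413) (nat_lit 5) (nat_lit 425) (nat_lit 5) (nat_lit 426) (nat_lit 5) (nat_lit 430) (nat_lit 399) (nat_lit 371)) (XT.nd (nat_lit 78) (nat_lit 836) (nat_lit 0) (XT.lf (nat_lit 0) (nat_lit 992902973) (nat_lit 988) (nat_lit 3912651671) (nat_lit 76) (nat_lit 2873027706) (nat_lit 400) (nat_lit 5) (nat_lit 413) (nat_lit 5) (nat_lit 401) (nat_lit 5) (nat_lit 431) (nat_lit 399) (nat_lit 370)) (XT.lf (nat_lit 0) (nat_lit 3815733468) (nat_lit 836) (nat_lit 1063386346) (nat_lit 912) (nat_lit 2989780050) (nat_lit 389) (nat_lit 5) (nat_lit 400) (nat_lit 5) (nat_lit 401) (nat_lit 5) (nat_lit 432) (nat_lit 399) (nat_lit 369)))) (XT.nd (nat_lit 78) (nat_lit 1672) (nat_lit 0) (XT.lf (nat_lit 0) (nat_lit 880644853) (nat_lit 912) (nat_lit 4173245818) (nat_lit 76) (nat_lit 2908478163) (nat_lit 377) (nat_lit 5) (nat_lit 389) (nat_lit 5) (nat_lit 378) (nat_lit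 5) (nat_lit 433) (nat_lit 399) (nat_lit 368)) (XT.nd (nat_lit 78) (nat_lit 912) (nat_lit 0) (XT.lf (nat_lit 0) (nat_lit 3782889079) (nat_lit 760) (nat_lit 1007539100) (nat_lit 836) (nat_lit 3268556378) (nat_lit 367) (nat_lit 5) (nat_lit 377) (nat_lit 5) (nat_lit 378) (nat_lit 5) (nat_lit 434) (nat_lit 399) (nat_lit 367)) (XT.lf (nat_lit 0) (nat_lit 630274901) (nat_lit 912) (nat_lit 4360655193) (nat_lit 76) (nat_lit 3167899347) (nat_lit 355) (nat_lit 5) (nat_lit 367) (nat_lit 5) (nat_lit 356) (nat_lit 5) (nat_lit 435) (nat_lit 399) (nat_lit 366))))) (XT.nd (nat_lit 234) (nat_lit 2204) (nat_lit 0) (XT.nd (nat_lit 78) (nat_lit 1520) (nat_lit 0) (XT.lf (nat_lit 0) (nat_lit 3830345216) (nat_lit 760) (nat_lit 740177218) (nat_lit 836) (nat_lit 3691352045) (nat_lit 345) (nat_lit 5) (nat_lit 355) (nat_lit 5) (nat_lit 356) (nat_lit 5) (nat_lit 436) (nat_lit 399) (nat_lit 365)) (XT.nd (nat_lit 78) (nat_lit 684)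 (nat_lit 0) (XT.lf (nat_lit 0) (nat_lit 245812543) (nat_lit 836) (nat_lit 4486701779) (nat_lit 76) (nat_lit 3635710685) (nat_lit 334) (nat_lit 5) (nat_lit 345) (nat_lit 5) (nat_lit 335) (nat_lit 5) (nat_lit 437) (nat_lit 399) (nat_lit 364)) (XT.lf (nat_lit 0) (nat_lit 3946584714) (nat_lit 684) (nat_lit 276596037) (nat_lit 760) (nat_lit 4254665516) (nat_lit 325) (nat_lit 5) (nat_lit 334) (nat_lit 5) (nat_lit 335) (nat_lit 5) (nat_lit 438) (nat_lit 399) (nat_lit 363)))) (XT.nd (nat_lit 78) (nat_lit 1444) (nat_lit 0) (XT.lf (nat_lit 0) (nat_lit 4025940005) (nat_lit 760) (nat_lit 4291667214) (nat_lit 836) (nat_lit 273206829) (nat_lit 315) (nat_lit 5) (nat_lit 325) (nat_lit 5) (nat_lit 326) (nat_lit 5) (nat_lit 439) (nat_lit 399) (nat_lit 362)) (XT.nd (nat_lit 78) (nat_lit 684) (nat_lit 0) (XT.lf (nat_lit 0) (nat_lit 3753691441) (nat_lit 760) (nat_lit 4589423909) (nat_lit 76) (nat_lit 364046559) (nat_lit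 305) (nat_lit 5) (nat_lit 315) (nat_lit 5) (nat_lit 306) (nat_lit 5) (nat_lit 440) (nat_lit 399) (nat_lit 361)) (XT.lf (nat_lit 0) (nat_lit 4219339466) (nat_lit 684) (nat_lit 3681626176) (nat_lit 760) (nat_lit 925944500) (nat_lit 296) (nat_lit 5) (nat_lit 305) (nat_lit 5) (nat_lit 306) (nat_lit 5) (nat_lit 441) (nat_lit 399) (nat_lit 360))))))))
noncomputable def xc41 : XT := (XT.nd (nat_lit 1794) (nat_lit 6612) (nat_lit 0) (XT.nd (nat_lit 858) (nat_lit 5472) (nat_lit 0) (XT.nd (nat_lit 390) (nat_lit 3344) (nat_lit 0) (XT.nd (nat_lit 156) (nat_lit 1900) (nat_lit 0) (XT.nd (nat_lit 78) (nat_lit 684) (nat_lit 0) (XT.lf (nat_lit 0) (nat_lit 3164570230) (nat_lit 684) (nat_lit 4618292441) (nat_lit 76) (nat_lit 1167292311) (nat_lit 287) (nat_lit 5) (nat_lit 296) (nat_lit 5) (nat_lit 288) (nat_lit 5) (nat_lit 442) (nat_lit 399) (nat_lit 359)) (XT.lf (nat_lit 0) (nat_lit 4451935977) (nat_lit 684) (nat_lit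 2917212223) (nat_lit 760) (nat_lit 1707758786) (nat_lit 278) (nat_lit 5) (nat_lit 287) (nat_lit 5) (nat_lit 288) (nat_lit 5) (nat_lit 443) (nat_lit 399) (nat_lit 358))) (XT.nd (nat_lit 78) (nat_lit 1216) (nat_lit 0) (XT.lf (nat_lit 0) (nat_lit 2455094623) (nat_lit 684) (nat_lit 4627920781) (nat_lit 76) (nat_lit 2124225145) (nat_lit 269) (nat_lit 5) (nat_lit 278) (nat_lit 5) (nat_lit 270) (nat_lit 5) (nat_lit 444) (nat_lit 399) (nat_lit 357)) (XT.nd (nat_lit 78) (nat_lit 608) (nat_lit 0) (XT.lf (nat_lit 0) (nat_lit 4712119262) (nat_lit 608) (nat_lit 2010920982) (nat_lit 684) (nat_lit 2618159908) (nat_lit 261) (nat_lit 5) (nat_lit 269) (nat_lit 5) (nat_lit 270) (nat_lit 5) (nat_lit 445) (nat_lit 399) (nat_lit 356)) (XT.lf (nat_lit 0) (nat_lit 1625476786) (nat_lit 608) (nat_lit 4630421650) (nat_lit 76) (nat_lit 3222933894) (nat_lit 253) (nat_lit 5) (nat_lit 261) (nat_lit 5) (nat_lit 254) (nat_lit 5) (nat_lit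 446) (nat_lit 399) (nat_lit 355))))) (XT.nd (nat_lit 234) (nat_lit 1596) (nat_lit 0) (XT.nd (nat_lit 78) (nat_lit 1140) (nat_lit 0) (XT.lf (nat_lit 0) (nat_lit 4987994065) (nat_lit 608) (nat_lit 974678895) (nat_lit 684) (nat_lit 3657547185) (nat_lit 245) (nat_lit 5) (nat_lit 253) (nat_lit 5) (nat_lit 254) (nat_lit 5) (nat_lit 447) (nat_lit 399) (nat_lit 354)) (XT.nd (nat_lit 78) (nat_lit 532) (nat_lit 0) (XT.lf (nat_lit 0) (nat_lit 675060514) (nat_lit 608) (nat_lit 4638283639) (nat_lit 76) (nat_lit 4452035260) (nat_lit 237) (nat_lit 5) (nat_lit 245) (nat_lit 5) (nat_lit 238) (nat_lit 5) (nat_lit 448) (nat_lit 399) (nat_lit 353)) (XT.lf (nat_lit 0) (nat_lit 5088382559) (nat_lit 608) (nat_lit 4648336914) (nat_lit 76) (nat_lit 177690413) (nat_lit 230) (nat_lit 5) (nat_lit 238) (nat_lit 5) (nat_lit 231) (nat_lit 5) (nat_lit 449) (nat_lit 399) (nat_lit 352)))) (XT.nd (nat_lit 78) (nat_lit 1064) (nat_lit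 0) (XT.lf (nat_lit 0) (nat_lit 5400209100) (nat_lit 532) (nat_lit 4264127970) (nat_lit 608) (nat_lit 402977810) (nat_lit 223) (nat_lit 5) (nat_lit 230) (nat_lit 5) (nat_lit 231) (nat_lit 5) (nat_lit 450) (nat_lit 399) (nat_lit 351)) (XT.nd (nat_lit 78) (nat_lit 456) (nat_lit 0) (XT.lf (nat_lit 0) (nat_lit 4104312081) (nat_lit 608) (nat_lit 4696588484) (nat_lit 76) (nat_lit 1423254809) (nat_lit 215) (nat_lit 5) (nat_lit 223) (nat_lit 5) (nat_lit 216) (nat_lit 5) (nat_lit 451) (nat_lit 399) (nat_lit 350)) (XT.lf (nat_lit 0) (nat_lit 5651973432) (nat_lit 456) (nat_lit 3116711063) (nat_lit 532) (nat_lit 1616424178) (nat_lit 209) (nat_lit 5) (nat_lit 215) (nat_lit 5) (nat_lit 216) (nat_lit 5) (nat_lit 452) (nat_lit 399) (nat_lit 349)))))) (XT.nd (nat_lit 468) (nat_lit 2508) (nat_lit 0) (XT.nd (nat_lit 234) (nat_lit 1368) (nat_lit 0) (XT.nd (nat_lit 78) (nat_lit 988) (nat_lit 0) (XT.lf (nat_lit 0) (nat_lit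 3001445092) (nat_lit 608) (nat_lit 4784586969) (nat_lit 76) (nat_lit 2764093689) (nat_lit 201) (nat_lit 5) (nat_lit 209) (nat_lit 5) (nat_lit 202) (nat_lit 5) (nat_lit 453) (nat_lit 399) (nat_lit 348)) (XT.nd (nat_lit 78) (nat_lit 532) (nat_lit 0) (XT.lf (nat_lit 0) (nat_lit 5873104924) (nat_lit 456) (nat_lit 1886580638) (nat_lit 532) (nat_lit 2959725224) (nat_lit 195) (nat_lit 5) (nat_lit 201) (nat_lit 5) (nat_lit 202) (nat_lit 5) (nat_lit 454) (nat_lit 399) (nat_lit 347)) (XT.lf (nat_lit 0) (nat_lit 1776158986) (nat_lit 532) (nat_lit 4927091321) (nat_lit 76) (nat_lit 4189652678) (nat_lit 188) (nat_lit 5) (nat_lit 195) (nat_lit 5) (nat_lit 189) (nat_lit 5) (nat_lit 455) (nat_lit 399) (nat_lit 346)))) (XT.nd (nat_lit 78) (nat_lit 912) (nat_lit 0) (XT.lf (nat_lit 0) (nat_lit 6048930612) (nat_lit 456) (nat_lit 584613151) (nat_lit 532) (nat_lit 4437278731) (nat_lit 182) (nat_lit 5) (nat_lit 188) (nat_lit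 5) (nat_lit 189) (nat_lit 5) (nat_lit 456) (nat_lit 399) (nat_lit 345)) (XT.nd (nat_lit 78) (nat_lit 380) (nat_lit 0) (XT.lf (nat_lit 0) (nat_lit 423857175) (nat_lit 532) (nat_lit 5139831241) (nat_lit 76) (nat_lit 5689421616) (nat_lit 175) (nat_lit 5) (nat_lit 182) (nat_lit 5) (nat_lit 176) (nat_lit 5) (nat_lit 457) (nat_lit 399) (nat_lit 344)) (XT.lf (nat_lit 0) (nat_lit 5390533202) (nat_lit 456) (nat_lit 5281271957) (nat_lit 76) (nat_lit 768080632) (nat_lit 170) (nat_lit 5) (nat_lit 176) (nat_lit 5) (nat_lit 171) (nat_lit 5) (nat_lit 458) (nat_lit 399) (nat_lit 343))))) (XT.nd (nat_lit 234) (nat_lit 1216) (nat_lit 0) (XT.nd (nat_lit 78) (nat_lit 836) (nat_lit 0) (XT.lf (nat_lit 0) (nat_lit 6184627830) (nat_lit 456) (nat_lit 4371465300) (nat_lit 532) (nat_lit 1075179870) (nat_lit 164) (nat_lit 5) (nat_lit 170) (nat_lit 5) (nat_lit 171) (nat_lit 5) (nat_lit 459) (nat_lit 399) (nat_lit 342)) (XT.nd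 (nat_lit 78) (nat_lit 380) (nat_lit 0) (XT.lf (nat_lit 0) (nat_lit 4023907600) (nat_lit 456) (nat_lit 5641053078) (nat_lit 76) (nat_lit 2162345387) (nat_lit 158) (nat_lit 5) (nat_lit 164) (nat_lit 5) (nat_lit 159) (nat_lit 5) (nat_lit 460) (nat_lit 399) (nat_lit 341)) (XT.lf (nat_lit 0) (nat_lit 6165755089) (nat_lit 380) (nat_lit 3141380682) (nat_lit 456) (nat_lit 2721032110) (nat_lit 153) (nat_lit 5) (nat_lit 158) (nat_lit 5) (nat_lit 159) (nat_lit 5) (nat_lit 461) (nat_lit 399) (nat_lit 340)))) (XT.nd (nat_lit 78) (nat_lit 760) (nat_lit 0) (XT.lf (nat_lit 0) (nat_lit 2522891357) (nat_lit 456) (nat_lit 6116298830) (nat_lit 76) (nat_lit 3594702980) (nat_lit 147) (nat_lit 5) (nat_lit 153) (nat_lit 5) (nat_lit 148) (nat_lit 5) (nat_lit 462) (nat_lit 399) (nat_lit 339)) (XT.nd (nat_lit 78) (nat_lit 380) (nat_lit 0) (XT.lf (nat_lit 0) (nat_lit 6040573099) (nat_lit 380) (nat_lit 1888021972) (nat_lit 456)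 (nat_lit 4516011803) (nat_lit 142) (nat_lit 5) (nat_lit 147) (nat_lit 5) (nat_lit 148) (nat_lit 5) (nat_lit 463) (nat_lit 399) (nat_lit 338)) (XT.lf (nat_lit 0) (nat_lit 879338535) (nat_lit 380) (nat_lit 6727450170) (nat_lit 76) (nat_lit 5053640447) (nat_lit 137) (nat_lit 5) (nat_lit 142) (nat_lit 5) (nat_lit 138) (nat_lit 5) (nat_lit 464) (nat_lit 399) (nat_lit 337))))))) (XT.nd (nat_lit 936) (nat_lit 2736) (nat_lit 0) (XT.nd (nat_lit 468) (nat_lit 1824) (nat_lit 0) (XT.nd (nat_lit 234) (nat_lit 988) (nat_lit 0) (XT.nd (nat_lit 78) (nat_lit 684) (nat_lit 0) (XT.lf (nat_lit 0) (nat_lit 5788510480) (nat_lit 380) (nat_lit 623584723) (nat_lit 456) (nat_lit 6469300482) (nat_lit 132) (nat_lit 5) (nat_lit 137) (nat_lit 5) (nat_lit 138) (nat_lit 5) (nat_lit 465) (nat_lit 399) (nat_lit 336)) (XT.nd (nat_lit 78) (nat_lit 380) (nat_lit 0) (XT.lf (nat_lit 0) (nat_lit 5604861270) (nat_lit 304) (nat_lit 6574446097)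 (nat_lit 380) (nat_lit 928318873) (nat_lit 128) (nat_lit 5) (nat_lit 132) (nat_lit 5) (nat_lit 133) (nat_lit 5) (nat_lit 466) (nat_lit 399) (nat_lit 335)) (XT.lf (nat_lit 0) (nat_lit 4752137693) (nat_lit 380) (nat_lit 7956400647) (nat_lit 76) (nat_lit 630770653) (nat_lit 123) (nat_lit 5) (nat_lit 128) (nat_lit 5) (nat_lit 124) (nat_lit 5) (nat_lit 467) (nat_lit 399) (nat_lit 334)))) (XT.nd (nat_lit 78) (nat_lit 684) (nat_lit 0) (XT.lf (nat_lit 0) (nat_lit 5109035977) (nat_lit 304) (nat_lit 5554832613) (nat_lit 380) (nat_lit 2912485600) (nat_lit 119) (nat_lit 5) (nat_lit 123) (nat_lit 5) (nat_lit 124) (nat_lit 5) (nat_lit 468) (nat_lit 399) (nat_lit 333)) (XT.nd (nat_lit 78) (nat_lit 304) (nat_lit 0) (XT.lf (nat_lit 0) (nat_lit 2937505149) (nat_lit 380) (nat_lit 9019808437) (nat_lit 76) (nat_lit 1861949835) (nat_lit 114) (nat_lit 5) (nat_lit 119) (nat_lit 5) (nat_lit 115) (nat_lit 5) (nat_lit 469) (nat_lit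 399) (nat_lit 332)) (XT.lf (nat_lit 0) (nat_lit 4425754255) (nat_lit 304) (nat_lit 4568102545) (nat_lit 380) (nat_lit 5073813316) (nat_lit 110) (nat_lit 5) (nat_lit 114) (nat_lit 5) (nat_lit 115) (nat_lit 5) (nat_lit 470) (nat_lit 399) (nat_lit 331))))) (XT.nd (nat_lit 234) (nat_lit 912) (nat_lit 0) (XT.nd (nat_lit 78) (nat_lit 532) (nat_lit 0) (XT.lf (nat_lit 0) (nat_lit 951559049) (nat_lit 380) (nat_lit 10306798816) (nat_lit 76) (nat_lit 3063954787) (nat_lit 105) (nat_lit 5) (nat_lit 110) (nat_lit 5) (nat_lit 106) (nat_lit 5) (nat_lit 471) (nat_lit 399) (nat_lit 330)) (XT.nd (nat_lit 78) (nat_lit 304) (nat_lit 0) (XT.lf (nat_lit 0) (nat_lit 3526881153) (nat_lit 228) (nat_lit 3629472519) (nat_lit 304) (nat_lit 7426221685) (nat_lit 102) (nat_lit 5) (nat_lit 105) (nat_lit 5) (nat_lit 106) (nat_lit 5) (nat_lit 472) (nat_lit 399) (nat_lit 329)) (XT.lf (nat_lit 0) (nat_lit 2993512455) (nat_lit 304) (nat_lit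 10619707370) (nat_lit 380) (nat_lit 1236110998) (nat_lit 98) (nat_lit 5) (nat_lit 102) (nat_lit 5) (nat_lit 103) (nat_lit 5) (nat_lit 473) (nat_lit 399) (nat_lit 328)))) (XT.nd (nat_lit 78) (nat_lit 608) (nat_lit 0) (XT.lf (nat_lit 0) (nat_lit 2381502476) (nat_lit 228) (nat_lit 2755286204) (nat_lit 304) (nat_lit 9985346260) (nat_lit 94) (nat_lit 5) (nat_lit 97) (nat_lit 5) (nat_lit 98) (nat_lit 5) (nat_lit 474) (nat_lit 399) (nat_lit 327)) (XT.nd (nat_lit 78) (nat_lit 304) (nat_lit 0) (XT.lf (nat_lit 0) (nat_lit 1701586502) (nat_lit 304) (nat_lit 10059277950) (nat_lit 380) (nat_lit 3640562829) (nat_lit 90) (nat_lit 5) (nat_lit 94) (nat_lit 5) (nat_lit 95) (nat_lit 5) (nat_lit 475) (nat_lit 399) (nat_lit 326)) (XT.lf (nat_lit 0) (nat_lit 955602269) (nat_lit 228) (nat_lit 1963191158) (nat_lit 304) (nat_lit 12768688276) (nat_lit 86) (nat_lit 5) (nat_lit 89) (nat_lit 5) (nat_lit 90) (nat_lit 5) (nat_lit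 476) (nat_lit 399) (nat_lit 325)))))) (XT.nd (nat_lit 468) (nat_lit 1444) (nat_lit 0) (XT.nd (nat_lit 234) (nat_lit 760) (nat_lit 0) (XT.nd (nat_lit 78) (nat_lit 304) (nat_lit 0) (XT.lf (nat_lit 0) (nat_lit 110424825) (nat_lit 228) (nat_lit 9602232424) (nat_lit 304) (nat_lit 6267238402) (nat_lit 83) (nat_lit 5) (nat_lit 86) (nat_lit 5) (nat_lit 87) (nat_lit 5) (nat_lit 477) (nat_lit 399) (nat_lit 324)) (XT.nd (nat_lit 78) (nat_lit 228) (nat_lit 0) (XT.lf (nat_lit 0) (nat_lit 489157027) (nat_lit 304) (nat_lit 777952802) (nat_lit 76) (nat_lit 15012608604) (nat_lit 82) (nat_lit 5) (nat_lit 86) (nat_lit 5) (nat_lit 83) (nat_lit 5) (nat_lit 478) (nat_lit 399) (nat_lit 323)) (XT.lf (nat_lit 0) (nat_lit 7461460770) (nat_lit 304) (nat_lit 1795456215) (nat_lit 76) (nat_lit 7328825822) (nat_lit 79) (nat_lit 5) (nat_lit 83) (nat_lit 5) (nat_lit 80) (nat_lit 5) (nat_lit 479) (nat_lit 399) (nat_lit 322)))) (XT.nd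 (nat_lit 78) (nat_lit 532) (nat_lit 0) (XT.lf (nat_lit 0) (nat_lit 14031929633) (nat_lit 228) (nat_lit 669844614) (nat_lit 304) (nat_lit 2197999484) (nat_lit 76) (nat_lit 5) (nat_lit 79) (nat_lit 5) (nat_lit 80) (nat_lit 5) (nat_lit 480) (nat_lit 399) (nat_lit 321)) (XT.nd (nat_lit 78) (nat_lit 228) (nat_lit 0) (XT.lf (nat_lit 0) (nat_lit 4977488964) (nat_lit 304) (nat_lit 4076859565) (nat_lit 76) (nat_lit 8166115497) (nat_lit 72) (nat_lit 5) (nat_lit 76) (nat_lit 5) (nat_lit 73) (nat_lit 5) (nat_lit 481) (nat_lit 399) (nat_lit 320)) (XT.lf (nat_lit 0) (nat_lit 12187079798) (nat_lit 228) (nat_lit 209744465) (nat_lit 304) (nat_lit 5152493734) (nat_lit 69) (nat_lit 5) (nat_lit 72) (nat_lit 5) (nat_lit 73) (nat_lit 5) (nat_lit 482) (nat_lit 399) (nat_lit 319))))) (XT.nd (nat_lit 234) (nat_lit 760) (nat_lit 0) (XT.nd (nat_lit 78) (nat_lit 380) (nat_lit 0) (XT.lf (nat_lit 0) (nat_lit 2236731665) (nat_lit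 304) (nat_lit 6782510621) (nat_lit 76) (nat_lit 8866233612) (nat_lit 65) (nat_lit 5) (nat_lit 69) (nat_lit 5) (nat_lit 66) (nat_lit 5) (nat_lit 483) (nat_lit 399) (nat_lit 318)) (XT.nd (nat_lit 78) (nat_lit 152) (nat_lit 0) (XT.lf (nat_lit 0) (nat_lit 9837199967) (nat_lit 304) (nat_lit 8308312321) (nat_lit 76) (nat_lit 84335969) (nat_lit 62) (nat_lit 5) (nat_lit 66) (nat_lit 5) (nat_lit 63) (nat_lit 5) (nat_lit 484) (nat_lit 399) (nat_lit 317)) (XT.lf (nat_lit 0) (nat_lit 8612371470) (nat_lit 152) (nat_lit 9172600373) (nat_lit 228) (nat_lit 797196334) (nat_lit 60) (nat_lit 5) (nat_lit 62) (nat_lit 5) (nat_lit 63) (nat_lit 5) (nat_lit 485) (nat_lit 399) (nat_lit 316)))) (XT.nd (nat_lit 78) (nat_lit 456) (nat_lit 0) (XT.lf (nat_lit 0) (nat_lit 6995792004) (nat_lit 304) (nat_lit 11760682442) (nat_lit 76) (nat_lit 186436529) (nat_lit 56) (nat_lit 5) (nat_lit 60) (nat_lit 5) (nat_lit 57) (nat_lit 5) (nat_lit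 486) (nat_lit 399) (nat_lit 315)) (XT.nd (nat_lit 78) (nat_lit 304) (nat_lit 0) (XT.lf (nat_lit 0) (nat_lit 5603909865) (nat_lit 152) (nat_lit 9531460898) (nat_lit 228) (nat_lit 4176529290) (nat_lit 54) (nat_lit 5) (nat_lit 56) (nat_lit 5) (nat_lit 57) (nat_lit 5) (nat_lit 487) (nat_lit 399) (nat_lit 314)) (XT.lf (nat_lit 0) (nat_lit 3841380413) (nat_lit 304) (nat_lit 15778628694) (nat_lit 76) (nat_lit 70166713) (nat_lit 50) (nat_lit 5) (nat_lit 54) (nat_lit 5) (nat_lit 51) (nat_lit 5) (nat_lit 488) (nat_lit 399) (nat_lit 313))))))))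
noncomputable def xc42 : XT := (XT.nd (nat_lit 1794) (nat_lit 23408) (nat_lit 0) (XT.nd (nat_lit 858) (nat_lit 11400) (nat_lit 0) (XT.nd (nat_lit 390) (nat_lit 1976) (nat_lit 0) (XT.nd (nat_lit 156) (nat_lit 608) (nat_lit 0) (XT.nd (nat_lit 78) (nat_lit 76) (nat_lit 0) (XT.lf (nat_lit 0) (nat_lit 1073741823) (nat_lit 0) (nat_lit 0) (nat_lit 0) (nat_lit 0) (nat_lit 754) (nat_lit 0) (nat_lit 1) (nat_lit 0) (nat_lit 1) (nat_lit 0) (nat_lit 400) (nat_lit 400) (nat_lit 400)) (XT.lf (nat_lit 0) (nat_lit 4698158800) (nat_lit 76) (nat_lit 1668124006) (nat_lit 0) (nat_lit 77420320) (nat_lit 753) (nat_lit 5) (nat_lit 754) (nat_lit 0) (nat_lit 753) (nat_lit 4) (nat_lit 401) (nat_lit 400) (nat_lit 399))) (XT.nd (nat_lit 78) (nat_lit 456) (nat_lit 0) (XT.lf (nat_lit 0) (nat_lit 2888591672) (nat_lit 152) (nat_lit 3271937166) (nat_lit 76) (nat_lit 287379324) (nat_lit 751) (nat_lit 5) (nat_lit 753) (nat_lit 5) (nat_lit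 752) (nat_lit 4) (nat_lit 402) (nat_lit 400) (nat_lit 398)) (XT.nd (nat_lit 78) (nat_lit 228) (nat_lit 0) (XT.lf (nat_lit 0) (nat_lit 1012338962) (nat_lit 228) (nat_lit 4812634705) (nat_lit 76) (nat_lit 630095361) (nat_lit 748) (nat_lit 5) (nat_lit 751) (nat_lit 5) (nat_lit 749) (nat_lit 5) (nat_lit 403) (nat_lit 400) (nat_lit 397)) (XT.lf (nat_lit 0) (nat_lit 167591634) (nat_lit 228) (nat_lit 5353009191) (nat_lit 304) (nat_lit 944467333) (nat_lit 745) (nat_lit 5) (nat_lit 748) (nat_lit 5) (nat_lit 749) (nat_lit 5) (nat_lit 404) (nat_lit 400) (nat_lit 396))))) (XT.nd (nat_lit 234) (nat_lit 1140) (nat_lit 0) (XT.nd (nat_lit 78) (nat_lit 760) (nat_lit 0) (XT.lf (nat_lit 0) (nat_lit 3500639700) (nat_lit 304) (nat_lit 1234215406) (nat_lit 76) (nat_lit 1742875500) (nat_lit 744) (nat_lit 5) (nat_lit 748) (nat_lit 5) (nat_lit 745) (nat_lit 5) (nat_lit 405) (nat_lit 400) (nat_lit 395)) (XT.nd (nat_lit 78)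 (nat_lit 380) (nat_lit 0) (XT.lf (nat_lit 0) (nat_lit 1412036054) (nat_lit 380) (nat_lit 2572213233) (nat_lit 76) (nat_lit 2509098110) (nat_lit 739) (nat_lit 5) (nat_lit 744) (nat_lit 5) (nat_lit 740) (nat_lit 5) (nat_lit 406) (nat_lit 400) (nat_lit 394)) (XT.lf (nat_lit 0) (nat_lit 2657414132) (nat_lit 380) (nat_lit 3096494953) (nat_lit 456) (nat_lit 757943857) (nat_lit 734) (nat_lit 5) (nat_lit 739) (nat_lit 5) (nat_lit 740) (nat_lit 5) (nat_lit 407) (nat_lit 400) (nat_lit 393)))) (XT.nd (nat_lit 78) (nat_lit 608) (nat_lit 0) (XT.lf (nat_lit 0) (nat_lit 1446568378) (nat_lit 456) (nat_lit 2065717638) (nat_lit 532) (nat_lit 3020877423) (nat_lit 727) (nat_lit 5) (nat_lit 733) (nat_lit 5) (nat_lit 734) (nat_lit 5) (nat_lit 408) (nat_lit 400) (nat_lit 392)) (XT.nd (nat_lit 78) (nat_lit 0) (nat_lit 0) (XT.lf (nat_lit 0) (nat_lit 297287406) (nat_lit 532) (nat_lit 900312468) (nat_lit 608) (nat_lit 5359879900)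 (nat_lit 719) (nat_lit 5) (nat_lit 726) (nat_lit 5) (nat_lit 727) (nat_lit 5) (nat_lit 409) (nat_lit 400) (nat_lit 391)) (XT.lf (nat_lit 0) (nat_lit 5384520750) (nat_lit 608) (nat_lit 791269742) (nat_lit 76) (nat_lit 408716011) (nat_lit 719) (nat_lit 5) (nat_lit 727) (nat_lit 5) (nat_lit 720) (nat_lit 5) (nat_lit 410) (nat_lit 400) (nat_lit 390)))))) (XT.nd (nat_lit 468) (nat_lit 6308) (nat_lit 0) (XT.nd (nat_lit 234) (nat_lit 2888) (nat_lit 0) (XT.nd (nat_lit 78) (nat_lit 1520) (nat_lit 0) (XT.lf (nat_lit 0) (nat_lit 2931204239) (nat_lit 684) (nat_lit 1831703107) (nat_lit 76) (nat_lit 1851334030) (nat_lit 710) (nat_lit 5) (nat_lit 719) (nat_lit 5) (nat_lit 711) (nat_lit 5) (nat_lit 411) (nat_lit 400) (nat_lit 389)) (XT.nd (nat_lit 78) (nat_lit 760) (nat_lit 0) (XT.lf (nat_lit 0) (nat_lit 401283304) (nat_lit 760) (nat_lit 2814739994) (nat_lit 76) (nat_lit 3430996262) (nat_lit 700) (nat_lit 5) (nat_lit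 710) (nat_lit 5) (nat_lit 701) (nat_lit 5) (nat_lit 412) (nat_lit 400) (nat_lit 388)) (XT.lf (nat_lit 0) (nat_lit 2927128293) (nat_lit 760) (nat_lit 1518696473) (nat_lit 836) (nat_lit 2236749038) (nat_lit 690) (nat_lit 5) (nat_lit 700) (nat_lit 5) (nat_lit 701) (nat_lit 5) (nat_lit 413) (nat_lit 400) (nat_lit 387)))) (XT.nd (nat_lit 78) (nat_lit 1976) (nat_lit 0) (XT.lf (nat_lit 0) (nat_lit 1761009418) (nat_lit 912) (nat_lit 4645023974) (nat_lit 76) (nat_lit 315081651) (nat_lit 678) (nat_lit 5) (nat_lit 690) (nat_lit 5) (nat_lit 679) (nat_lit 5) (nat_lit 414) (nat_lit 400) (nat_lit 386)) (XT.nd (nat_lit 78) (nat_lit 1064) (nat_lit 0) (XT.lf (nat_lit 0) (nat_lit 1265910969) (nat_lit 912) (nat_lit 4488891001) (nat_lit 988) (nat_lit 1007616658) (nat_lit 666) (nat_lit 5) (nat_lit 678) (nat_lit 5) (nat_lit 679) (nat_lit 5) (nat_lit 415) (nat_lit 400) (nat_lit 385)) (XT.lf (nat_lit 0) (nat_lit 500587213)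 (nat_lit 988) (nat_lit 2422399071) (nat_lit 1064) (nat_lit 3883612983) (nat_lit 652) (nat_lit 5) (nat_lit 665) (nat_lit 5) (nat_lit 666) (nat_lit 5) (nat_lit 416) (nat_lit 400) (nat_lit 384))))) (XT.nd (nat_lit 234) (nat_lit 3952) (nat_lit 0) (XT.nd (nat_lit 78) (nat_lit 2280) (nat_lit 0) (XT.lf (nat_lit 0) (nat_lit 9168000) (nat_lit 1064) (nat_lit 205642853) (nat_lit 76) (nat_lit 6639081948) (nat_lit 651) (nat_lit 5) (nat_lit 665) (nat_lit 5) (nat_lit 652) (nat_lit 5) (nat_lit 417) (nat_lit 400) (nat_lit 383)) (XT.nd (nat_lit 78) (nat_lit 1216) (nat_lit 0) (XT.lf (nat_lit 0) (nat_lit 3890511203) (nat_lit 1140) (nat_lit 883600350) (nat_lit 76) (nat_lit 2129517139) (nat_lit 637) (nat_lit 5) (nat_lit 652) (nat_lit 5) (nat_lit 638) (nat_lit 5) (nat_lit 418) (nat_lit 400) (nat_lit 382)) (XT.lf (nat_lit 0) (nat_lit 833223825) (nat_lit 1216) (nat_lit 1509353475) (nat_lit 76) (nat_lit 4613944056) (nat_lit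 621) (nat_lit 5) (nat_lit 637) (nat_lit 5) (nat_lit 622) (nat_lit 5) (nat_lit 419) (nat_lit 400) (nat_lit 381)))) (XT.nd (nat_lit 78) (nat_lit 2736) (nat_lit 0) (XT.lf (nat_lit 0) (nat_lit 4670383583) (nat_lit 1292) (nat_lit 2098428103) (nat_lit 76) (nat_lit 243489177) (nat_lit 605) (nat_lit 5) (nat_lit 622) (nat_lit 5) (nat_lit 606) (nat_lit 5) (nat_lit 420) (nat_lit 400) (nat_lit 380)) (XT.nd (nat_lit 78) (nat_lit 1368) (nat_lit 0) (XT.lf (nat_lit 0) (nat_lit 1466480054) (nat_lit 1368) (nat_lit 2656386887) (nat_lit 76) (nat_lit 2948030775) (nat_lit 587) (nat_lit 5) (nat_lit 605) (nat_lit 5) (nat_lit 588) (nat_lit 5) (nat_lit 421) (nat_lit 400) (nat_lit 379)) (XT.lf (nat_lit 0) (nat_lit 3957907700) (nat_lit 1368) (nat_lit 1321381346) (nat_lit 1444) (nat_lit 1853238026) (nat_lit 569) (nat_lit 5) (nat_lit 587) (nat_lit 5) (nat_lit 588) (nat_lit 5) (nat_lit 422) (nat_lit 400) (nat_lit 378))))))) (XT.nd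 (nat_lit 858) (nat_lit 8816) (nat_lit 0) (XT.nd (nat_lit 390) (nat_lit 6384) (nat_lit 0) (XT.nd (nat_lit 156) (nat_lit 5168) (nat_lit 0) (XT.nd (nat_lit 78) (nat_lit 1520) (nat_lit 0) (XT.lf (nat_lit 0) (nat_lit 1919687979) (nat_lit 1520) (nat_lit 3662017977) (nat_lit 76) (nat_lit 1615349311) (nat_lit 549) (nat_lit 5) (nat_lit 569) (nat_lit 5) (nat_lit 550) (nat_lit 5) (nat_lit 423) (nat_lit 400) (nat_lit 377)) (XT.lf (nat_lit 0) (nat_lit 3146650451) (nat_lit 1520) (nat_lit 2571706167) (nat_lit 1596) (nat_lit 1546184971) (nat_lit 529) (nat_lit 5) (nat_lit 549) (nat_lit 5) (nat_lit 550) (nat_lit 5) (nat_lit 424) (nat_lit 400) (nat_lit 376))) (XT.nd (nat_lit 78) (nat_lit 3496) (nat_lit 0) (XT.lf (nat_lit 0) (nat_lit 2202428767) (nat_lit 1672) (nat_lit 4540744020) (nat_lit 76) (nat_lit 591889921) (nat_lit 507) (nat_lit 5) (nat_lit 529) (nat_lit 5) (nat_lit 508) (nat_lit 5) (nat_lit 425) (nat_lit 400)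 (nat_lit 375)) (XT.nd (nat_lit 78) (nat_lit 1824) (nat_lit 0) (XT.lf (nat_lit 0) (nat_lit 2467625610) (nat_lit 1672) (nat_lit 3527556839) (nat_lit 1748) (nat_lit 1413279119) (nat_lit 485) (nat_lit 5) (nat_lit 507) (nat_lit 5) (nat_lit 508) (nat_lit 5) (nat_lit 426) (nat_lit 400) (nat_lit 374)) (XT.lf (nat_lit 0) (nat_lit 2177662974) (nat_lit 1748) (nat_lit 146462122) (nat_lit 1824) (nat_lit 5160879123) (nat_lit 461) (nat_lit 5) (nat_lit 484) (nat_lit 5) (nat_lit 485) (nat_lit 5) (nat_lit 427) (nat_lit 400) (nat_lit 373))))) (XT.nd (nat_lit 234) (nat_lit 2736) (nat_lit 0) (XT.nd (nat_lit 78) (nat_lit 1976) (nat_lit 0) (XT.lf (nat_lit 0) (nat_lit 1907380461) (nat_lit 1672) (nat_lit 4210506462) (nat_lit 1748) (nat_lit 1446519400) (nat_lit 439) (nat_lit 5) (nat_lit 461) (nat_lit 5) (nat_lit 462) (nat_lit 5) (nat_lit 428) (nat_lit 400) (nat_lit 372)) (XT.nd (nat_lit 78) (nat_lit 912) (nat_lit 0) (XT.lf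 (nat_lit 0) (nat_lit 1670737637) (nat_lit 988) (nat_lit 622644915) (nat_lit 1064) (nat_lit 5353610498) (nat_lit 425) (nat_lit 5) (nat_lit 438) (nat_lit 5) (nat_lit 439) (nat_lit 5) (nat_lit 429) (nat_lit 400) (nat_lit 371)) (XT.lf (nat_lit 0) (nat_lit 1453016639) (nat_lit 912) (nat_lit 4640546520) (nat_lit 988) (nat_lit 1638965623) (nat_lit 413) (nat_lit 5) (nat_lit 425) (nat_lit 5) (nat_lit 426) (nat_lit 5) (nat_lit 430) (nat_lit 400) (nat_lit 370)))) (XT.nd (nat_lit 78) (nat_lit 1748) (nat_lit 0) (XT.lf (nat_lit 0) (nat_lit 1264770461) (nat_lit 912) (nat_lit 848067943) (nat_lit 988) (nat_lit 5708436573) (nat_lit 400) (nat_lit 5) (nat_lit 412) (nat_lit 5) (nat_lit 413) (nat_lit 5) (nat_lit 431) (nat_lit 400) (nat_lit 369)) (XT.nd (nat_lit 78) (nat_lit 912) (nat_lit 0) (XT.lf (nat_lit 0) (nat_lit 1092089933) (nat_lit 836) (nat_lit 4836230600) (nat_lit 912) (nat_lit 1984694534) (nat_lit 389) (nat_lit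 5) (nat_lit 400) (nat_lit 5) (nat_lit 401) (nat_lit 5) (nat_lit 432) (nat_lit 400) (nat_lit 368)) (XT.lf (nat_lit 0) (nat_lit 947429855) (nat_lit 836) (nat_lit 840615040) (nat_lit 912) (nat_lit 6220006205) (nat_lit 377) (nat_lit 5) (nat_lit 388) (nat_lit 5) (nat_lit 389) (nat_lit 5) (nat_lit 433) (nat_lit 400) (nat_lit 367)))))) (XT.nd (nat_lit 468) (nat_lit 4104) (nat_lit 0) (XT.nd (nat_lit 234) (nat_lit 2280) (nat_lit 0) (XT.nd (nat_lit 78) (nat_lit 1672) (nat_lit 0) (XT.lf (nat_lit 0) (nat_lit 812511403) (nat_lit 760) (nat_lit 4814810131) (nat_lit 836) (nat_lit 2478762707) (nat_lit 367) (nat_lit 5) (nat_lit 377) (nat_lit 5) (nat_lit 378) (nat_lit 5) (nat_lit 434) (nat_lit 400) (nat_lit 366)) (XT.nd (nat_lit 78) (nat_lit 760) (nat_lit 0) (XT.lf (nat_lit 0) (nat_lit 706697684) (nat_lit 836) (nat_lit 616911427) (nat_lit 912) (nat_lit 6883946413) (nat_lit 355) (nat_lit 5) (nat_lit 366) (nat_lit 5) (nat_lit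 367) (nat_lit 5) (nat_lit 435) (nat_lit 400) (nat_lit 365)) (XT.lf (nat_lit 0) (nat_lit 602449046) (nat_lit 760) (nat_lit 4592363053) (nat_lit 836) (nat_lit 3117176086) (nat_lit 345) (nat_lit 5) (nat_lit 355) (nat_lit 5) (nat_lit 356) (nat_lit 5) (nat_lit 436) (nat_lit 400) (nat_lit 364)))) (XT.nd (nat_lit 78) (nat_lit 1444) (nat_lit 0) (XT.lf (nat_lit 0) (nat_lit 530770412) (nat_lit 760) (nat_lit 192449955) (nat_lit 836) (nat_lit 7696834949) (nat_lit 334) (nat_lit 5) (nat_lit 344) (nat_lit 5) (nat_lit 345) (nat_lit 5) (nat_lit 437) (nat_lit 400) (nat_lit 363)) (XT.nd (nat_lit 78) (nat_lit 760) (nat_lit 0) (XT.lf (nat_lit 0) (nat_lit 450229244) (nat_lit 684) (nat_lit 4183916337) (nat_lit 760) (nat_lit 3896866075) (nat_lit 325) (nat_lit 5) (nat_lit 334) (nat_lit 5) (nat_lit 335) (nat_lit 5) (nat_lit 438) (nat_lit 400) (nat_lit 362)) (XT.lf (nat_lit 0) (nat_lit 405138463) (nat_lit 760) (nat_lit 8232942668)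 (nat_lit 836) (nat_lit 7714165) (nat_lit 315) (nat_lit 5) (nat_lit 325) (nat_lit 5) (nat_lit 326) (nat_lit 5) (nat_lit 439) (nat_lit 400) (nat_lit 361))))) (XT.nd (nat_lit 234) (nat_lit 1976) (nat_lit 0) (XT.nd (nat_lit 78) (nat_lit 1368) (nat_lit 0) (XT.lf (nat_lit 0) (nat_lit 344237188) (nat_lit 684) (nat_lit 3603563201) (nat_lit 760) (nat_lit 4815672076) (nat_lit 305) (nat_lit 5) (nat_lit 314) (nat_lit 5) (nat_lit 315) (nat_lit 5) (nat_lit 440) (nat_lit 400) (nat_lit 360)) (XT.nd (nat_lit 78) (nat_lit 684) (nat_lit 0) (XT.lf (nat_lit 0) (nat_lit 312812832) (nat_lit 684) (nat_lit 7693339966) (nat_lit 760) (nat_lit 878851918) (nat_lit 296) (nat_lit 5) (nat_lit 305) (nat_lit 5) (nat_lit 306) (nat_lit 5) (nat_lit 441) (nat_lit 400) (nat_lit 359)) (XT.lf (nat_lit 0) (nat_lit 272815474) (nat_lit 608) (nat_lit 2864575878) (nat_lit 684) (nat_lit 5872330477) (nat_lit 287) (nat_lit 5) (nat_lit 295) (nat_lit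 5) (nat_lit 296) (nat_lit 5) (nat_lit 442) (nat_lit 400) (nat_lit 358)))) (XT.nd (nat_lit 78) (nat_lit 1292) (nat_lit 0) (XT.lf (nat_lit 0) (nat_lit 248241292) (nat_lit 684) (nat_lit 7009049641) (nat_lit 760) (nat_lit 1880881625) (nat_lit 278) (nat_lit 5) (nat_lit 287) (nat_lit 5) (nat_lit 288) (nat_lit 5) (nat_lit 443) (nat_lit 400) (nat_lit 357)) (XT.nd (nat_lit 78) (nat_lit 608) (nat_lit 0) (XT.lf (nat_lit 0) (nat_lit 224160014) (nat_lit 608) (nat_lit 1979514755) (nat_lit 684) (nat_lit 7066470093) (nat_lit 269) (nat_lit 5) (nat_lit 277) (nat_lit 5) (nat_lit 278) (nat_lit 5) (nat_lit 444) (nat_lit 400) (nat_lit 356)) (XT.lf (nat_lit 0) (nat_lit 199547204) (nat_lit 608) (nat_lit 6192438581) (nat_lit 684) (nat_lit 3013716138) (nat_lit 261) (nat_lit 5) (nat_lit 269) (nat_lit 5) (nat_lit 270) (nat_lit 5) (nat_lit 445) (nat_lit 400) (nat_lit 355))))))))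
noncomputable def xc43 : XT := (XT.nd (nat_lit 1794) (nat_lit 5244) (nat_lit 0) (XT.nd (nat_lit 858) (nat_lit 4940) (nat_lit 0) (XT.nd (nat_lit 390) (nat_lit 2660) (nat_lit 0) (XT.nd (nat_lit 156) (nat_lit 1672) (nat_lit 0) (XT.nd (nat_lit 78) (nat_lit 608) (nat_lit 0) (XT.lf (nat_lit 0) (nat_lit 186212380) (nat_lit 532) (nat_lit 960334700) (nat_lit 608) (nat_lit 8398614148) (nat_lit 253) (nat_lit 5) (nat_lit 260) (nat_lit 5) (nat_lit 261) (nat_lit 5) (nat_lit 446) (nat_lit 400) (nat_lit 354)) (XT.lf (nat_lit 0) (nat_lit 154539362) (nat_lit 608) (nat_lit 5255338748) (nat_lit 684) (nat_lit 4278152640) (nat_lit 245) (nat_lit 5) (nat_lit 253) (nat_lit 5) (nat_lit 254) (nat_lit 5) (nat_lit 447) (nat_lit 400) (nat_lit 353))) (XT.nd (nat_lit 78) (nat_lit 1140) (nat_lit 0) (XT.lf (nat_lit 0) (nat_lit 145118878) (nat_lit 532) (nat_lit 9655845590) (nat_lit 608) (nat_lit 34233463) (nat_lit 238) (nat_lit 5) (nat_lit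 245) (nat_lit 5) (nat_lit 246) (nat_lit 5) (nat_lit 448) (nat_lit 400) (nat_lit 352)) (XT.nd (nat_lit 78) (nat_lit 532) (nat_lit 0) (XT.lf (nat_lit 0) (nat_lit 100597527) (nat_lit 532) (nat_lit 4209150529) (nat_lit 608) (nat_lit 5675884654) (nat_lit 230) (nat_lit 5) (nat_lit 237) (nat_lit 5) (nat_lit 238) (nat_lit 5) (nat_lit 449) (nat_lit 400) (nat_lit 351)) (XT.lf (nat_lit 0) (nat_lit 73805899) (nat_lit 532) (nat_lit 8715550479) (nat_lit 608) (nat_lit 1351112201) (nat_lit 223) (nat_lit 5) (nat_lit 230) (nat_lit 5) (nat_lit 231) (nat_lit 5) (nat_lit 450) (nat_lit 400) (nat_lit 350))))) (XT.nd (nat_lit 234) (nat_lit 1520) (nat_lit 0) (XT.nd (nat_lit 78) (nat_lit 532) (nat_lit 0) (XT.lf (nat_lit 0) (nat_lit 24551920) (nat_lit 532) (nat_lit 3064945364) (nat_lit 608) (nat_lit 7209520978) (nat_lit 215) (nat_lit 5) (nat_lit 222) (nat_lit 5) (nat_lit 223) (nat_lit 5) (nat_lit 451) (nat_lit 400) (nat_lit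 349)) (XT.nd (nat_lit 78) (nat_lit 532) (nat_lit 0) (XT.lf (nat_lit 0) (nat_lit 7663919530) (nat_lit 608) (nat_lit 26823279) (nat_lit 76) (nat_lit 2771031406) (nat_lit 215) (nat_lit 5) (nat_lit 223) (nat_lit 5) (nat_lit 216) (nat_lit 5) (nat_lit 452) (nat_lit 400) (nat_lit 348)) (XT.lf (nat_lit 0) (nat_lit 1746691827) (nat_lit 532) (nat_lit 86297547) (nat_lit 76) (nat_lit 8795735156) (nat_lit 208) (nat_lit 5) (nat_lit 215) (nat_lit 5) (nat_lit 209) (nat_lit 5) (nat_lit 453) (nat_lit 400) (nat_lit 347)))) (XT.nd (nat_lit 78) (nat_lit 988) (nat_lit 0) (XT.lf (nat_lit 0) (nat_lit 6422002046) (nat_lit 608) (nat_lit 169794401) (nat_lit 76) (nat_lit 4207875098) (nat_lit 201) (nat_lit 5) (nat_lit 209) (nat_lit 5) (nat_lit 202) (nat_lit 5) (nat_lit 454) (nat_lit 400) (nat_lit 346)) (XT.nd (nat_lit 78) (nat_lit 456) (nat_lit 0) (XT.lf (nat_lit 0) (nat_lit 277314623) (nat_lit 532) (nat_lit 246771947) (nat_lit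 76) (nat_lit 10451254444) (nat_lit 194) (nat_lit 5) (nat_lit 201) (nat_lit 5) (nat_lit 195) (nat_lit 5) (nat_lit 455) (nat_lit 400) (nat_lit 345)) (XT.lf (nat_lit 0) (nat_lit 5059042563) (nat_lit 532) (nat_lit 370978198) (nat_lit 76) (nat_lit 5724756017) (nat_lit 188) (nat_lit 5) (nat_lit 195) (nat_lit 5) (nat_lit 189) (nat_lit 5) (nat_lit 456) (nat_lit 400) (nat_lit 344)))))) (XT.nd (nat_lit 468) (nat_lit 2204) (nat_lit 0) (XT.nd (nat_lit 234) (nat_lit 1368) (nat_lit 0) (XT.nd (nat_lit 78) (nat_lit 912) (nat_lit 0) (XT.lf (nat_lit 0) (nat_lit 10003711327) (nat_lit 532) (nat_lit 486897771) (nat_lit 76) (nat_lit 848602884) (nat_lit 182) (nat_lit 5) (nat_lit 189) (nat_lit 5) (nat_lit 183) (nat_lit 5) (nat_lit 457) (nat_lit 400) (nat_lit 343)) (XT.nd (nat_lit 78) (nat_lit 380) (nat_lit 0) (XT.lf (nat_lit 0) (nat_lit 3569981198) (nat_lit 532) (nat_lit 646302284) (nat_lit 76) (nat_lit 7311454749) (nat_lit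 175) (nat_lit 5) (nat_lit 182) (nat_lit 5) (nat_lit 176) (nat_lit 5) (nat_lit 458) (nat_lit 400) (nat_lit 342)) (XT.lf (nat_lit 0) (nat_lit 8633821894) (nat_lit 456) (nat_lit 815407296) (nat_lit 76) (nat_lit 2271933433) (nat_lit 170) (nat_lit 5) (nat_lit 176) (nat_lit 5) (nat_lit 171) (nat_lit 5) (nat_lit 459) (nat_lit 400) (nat_lit 341)))) (XT.nd (nat_lit 78) (nat_lit 836) (nat_lit 0) (XT.lf (nat_lit 0) (nat_lit 1948729229) (nat_lit 532) (nat_lit 1012879119) (nat_lit 76) (nat_lit 8957639438) (nat_lit 163) (nat_lit 5) (nat_lit 170) (nat_lit 5) (nat_lit 164) (nat_lit 5) (nat_lit 460) (nat_lit 400) (nat_lit 340)) (XT.nd (nat_lit 78) (nat_lit 456) (nat_lit 0) (XT.lf (nat_lit 0) (nat_lit 7136945495) (nat_lit 456) (nat_lit 1244816797) (nat_lit 76) (nat_lit 3740250132) (nat_lit 158) (nat_lit 5) (nat_lit 164) (nat_lit 5) (nat_lit 159) (nat_lit 5) (nat_lit 461) (nat_lit 400) (nat_lit 339)) (XT.lf (nat_lit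 0) (nat_lit 188109078) (nat_lit 456) (nat_lit 1489178966) (nat_lit 76) (nat_lit 10652754934) (nat_lit 152) (nat_lit 5) (nat_lit 158) (nat_lit 5) (nat_lit 153) (nat_lit 5) (nat_lit 462) (nat_lit 400) (nat_lit 338))))) (XT.nd (nat_lit 234) (nat_lit 1064) (nat_lit 0) (XT.nd (nat_lit 78) (nat_lit 760) (nat_lit 0) (XT.lf (nat_lit 0) (nat_lit 5505625661) (nat_lit 456) (nat_lit 1794334149) (nat_lit 76) (nat_lit 5242563007) (nat_lit 147) (nat_lit 5) (nat_lit 153) (nat_lit 5) (nat_lit 148) (nat_lit 5) (nat_lit 463) (nat_lit 400) (nat_lit 337)) (XT.nd (nat_lit 78) (nat_lit 380) (nat_lit 0) (XT.lf (nat_lit 0) (nat_lit 10654148306) (nat_lit 380) (nat_lit 363458701) (nat_lit 456) (nat_lit 1743075969) (nat_lit 142) (nat_lit 5) (nat_lit 147) (nat_lit 5) (nat_lit 148) (nat_lit 5) (nat_lit 464) (nat_lit 400) (nat_lit 336)) (XT.lf (nat_lit 0) (nat_lit 3731224123) (nat_lit 380) (nat_lit 2484814986) (nat_lit 76) (nat_lit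 6767465298) (nat_lit 137) (nat_lit 5) (nat_lit 142) (nat_lit 5) (nat_lit 138) (nat_lit 5) (nat_lit 465) (nat_lit 400) (nat_lit 335)))) (XT.nd (nat_lit 78) (nat_lit 684) (nat_lit 0) (XT.lf (nat_lit 0) (nat_lit 9382278407) (nat_lit 456) (nat_lit 2883889281) (nat_lit 76) (nat_lit 945892576) (nat_lit 132) (nat_lit 5) (nat_lit 138) (nat_lit 5) (nat_lit 133) (nat_lit 5) (nat_lit 466) (nat_lit 400) (nat_lit 334)) (XT.nd (nat_lit 78) (nat_lit 304) (nat_lit 0) (XT.lf (nat_lit 0) (nat_lit 1803835971) (nat_lit 380) (nat_lit 3338975460) (nat_lit 76) (nat_lit 8303008231) (nat_lit 127) (nat_lit 5) (nat_lit 132) (nat_lit 5) (nat_lit 128) (nat_lit 5) (nat_lit 467) (nat_lit 400) (nat_lit 333)) (XT.lf (nat_lit 0) (nat_lit 7600629165) (nat_lit 380) (nat_lit 3839911964) (nat_lit 76) (nat_lit 2244624464) (nat_lit 123) (nat_lit 5) (nat_lit 128) (nat_lit 5) (nat_lit 124) (nat_lit 5) (nat_lit 468) (nat_lit 400) (nat_lit 332)))))))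 (XT.nd (nat_lit 936) (nat_lit 1672) (nat_lit 0) (XT.nd (nat_lit 468) (nat_lit 1596) (nat_lit 0) (XT.nd (nat_lit 234) (nat_lit 988) (nat_lit 0) (XT.nd (nat_lit 78) (nat_lit 684) (nat_lit 0) (XT.lf (nat_lit 0) (nat_lit 9546830126) (nat_lit 304) (nat_lit 4091886412) (nat_lit 380) (nat_lit 291631464) (nat_lit 119) (nat_lit 5) (nat_lit 123) (nat_lit 5) (nat_lit 124) (nat_lit 5) (nat_lit 469) (nat_lit 400) (nat_lit 331)) (XT.nd (nat_lit 78) (nat_lit 304) (nat_lit 0) (XT.lf (nat_lit 0) (nat_lit 5658656971) (nat_lit 380) (nat_lit 4998187342) (nat_lit 76) (nat_lit 3524147844) (nat_lit 114) (nat_lit 5) (nat_lit 119) (nat_lit 5) (nat_lit 115) (nat_lit 5) (nat_lit 470) (nat_lit 400) (nat_lit 330)) (XT.lf (nat_lit 0) (nat_lit 8781106135) (nat_lit 304) (nat_lit 3066318725) (nat_lit 380) (nat_lit 2590417174) (nat_lit 110) (nat_lit 5) (nat_lit 114) (nat_lit 5) (nat_lit 115) (nat_lit 5) (nat_lit 471) (nat_lit 400)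 (nat_lit 329)))) (XT.nd (nat_lit 78) (nat_lit 608) (nat_lit 0) (XT.lf (nat_lit 0) (nat_lit 3543204771) (nat_lit 380) (nat_lit 6387144182) (nat_lit 76) (nat_lit 4770196782) (nat_lit 105) (nat_lit 5) (nat_lit 110) (nat_lit 5) (nat_lit 106) (nat_lit 5) (nat_lit 472) (nat_lit 400) (nat_lit 328)) (XT.nd (nat_lit 78) (nat_lit 380) (nat_lit 0) (XT.lf (nat_lit 0) (nat_lit 7792937979) (nat_lit 228) (nat_lit 2093562991) (nat_lit 304) (nat_lit 5083073274) (nat_lit 102) (nat_lit 5) (nat_lit 105) (nat_lit 5) (nat_lit 106) (nat_lit 5) (nat_lit 473) (nat_lit 400) (nat_lit 327)) (XT.lf (nat_lit 0) (nat_lit 1239471878) (nat_lit 380) (nat_lit 8037986449) (nat_lit 76) (nat_lit 5967437300) (nat_lit 97) (nat_lit 5) (nat_lit 102) (nat_lit 5) (nat_lit 98) (nat_lit 5) (nat_lit 474) (nat_lit 400) (nat_lit 326))))) (XT.nd (nat_lit 234) (nat_lit 760) (nat_lit 0) (XT.nd (nat_lit 78) (nat_lit 608) (nat_lit 0) (XT.lf (nat_lit 0)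 (nat_lit 6550611528) (nat_lit 228) (nat_lit 1190155502) (nat_lit 304) (nat_lit 7785878069) (nat_lit 94) (nat_lit 5) (nat_lit 97) (nat_lit 5) (nat_lit 98) (nat_lit 5) (nat_lit 475) (nat_lit 400) (nat_lit 325)) (XT.nd (nat_lit 78) (nat_lit 304) (nat_lit 0) (XT.lf (nat_lit 0) (nat_lit 5821649802) (nat_lit 304) (nat_lit 8707365380) (nat_lit 380) (nat_lit 1285996579) (nat_lit 90) (nat_lit 5) (nat_lit 94) (nat_lit 5) (nat_lit 95) (nat_lit 5) (nat_lit 476) (nat_lit 400) (nat_lit 324)) (XT.lf (nat_lit 0) (nat_lit 5019206266) (nat_lit 228) (nat_lit 373999101) (nat_lit 304) (nat_lit 10717019296) (nat_lit 86) (nat_lit 5) (nat_lit 89) (nat_lit 5) (nat_lit 90) (nat_lit 5) (nat_lit 477) (nat_lit 400) (nat_lit 323)))) (XT.nd (nat_lit 78) (nat_lit 532) (nat_lit 0) (XT.lf (nat_lit 0) (nat_lit 4119789252) (nat_lit 228) (nat_lit 8237974762) (nat_lit 304) (nat_lit 4054313646) (nat_lit 83) (nat_lit 5) (nat_lit 86) (nat_lit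 5) (nat_lit 87) (nat_lit 5) (nat_lit 478) (nat_lit 400) (nat_lit 322)) (XT.nd (nat_lit 78) (nat_lit 228) (nat_lit 0) (XT.lf (nat_lit 0) (nat_lit 2826967889) (nat_lit 304) (nat_lit 13563503791) (nat_lit 76) (nat_lit 331042022) (nat_lit 79) (nat_lit 5) (nat_lit 83) (nat_lit 5) (nat_lit 80) (nat_lit 5) (nat_lit 479) (nat_lit 400) (nat_lit 321)) (XT.lf (nat_lit 0) (nat_lit 2069219368) (nat_lit 228) (nat_lit 7898370883) (nat_lit 304) (nat_lit 7069949455) (nat_lit 76) (nat_lit 5) (nat_lit 79) (nat_lit 5) (nat_lit 80) (nat_lit 5) (nat_lit 480) (nat_lit 400) (nat_lit 320)))))) (XT.nd (nat_lit 468) (nat_lit 380) (nat_lit 0) (XT.nd (nat_lit 234) (nat_lit 760) (nat_lit 0) (XT.nd (nat_lit 78) (nat_lit 228) (nat_lit 0) (XT.lf (nat_lit 0) (nat_lit 20252182) (nat_lit 304) (nat_lit 16436694301) (nat_lit 76) (nat_lit 904901021) (nat_lit 72) (nat_lit 5) (nat_lit 76) (nat_lit 5) (nat_lit 73) (nat_lit 5) (nat_lit 481)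 (nat_lit 400) (nat_lit 319)) (XT.nd (nat_lit 78) (nat_lit 228) (nat_lit 0) (XT.lf (nat_lit 0) (nat_lit 7338989693) (nat_lit 304) (nat_lit 369758562) (nat_lit 76) (nat_lit 9983966341) (nat_lit 72) (nat_lit 5) (nat_lit 76) (nat_lit 5) (nat_lit 73) (nat_lit 5) (nat_lit 482) (nat_lit 400) (nat_lit 318)) (XT.lf (nat_lit 0) (nat_lit 14949886050) (nat_lit 304) (nat_lit 1721219358) (nat_lit 76) (nat_lit 1360952647) (nat_lit 69) (nat_lit 5) (nat_lit 73) (nat_lit 5) (nat_lit 70) (nat_lit 5) (nat_lit 483) (nat_lit 400) (nat_lit 317)))) (XT.nd (nat_lit 78) (nat_lit 456) (nat_lit 0) (XT.lf (nat_lit 0) (nat_lit 4461403838) (nat_lit 304) (nat_lit 3218377223) (nat_lit 76) (nat_lit 10698996973) (nat_lit 65) (nat_lit 5) (nat_lit 69) (nat_lit 5) (nat_lit 66) (nat_lit 5) (nat_lit 484) (nat_lit 400) (nat_lit 316)) (XT.nd (nat_lit 78) (nat_lit 228) (nat_lit 0) (XT.lf (nat_lit 0) (nat_lit 12261417627) (nat_lit 304) (nat_lit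 4818902911) (nat_lit 76) (nat_lit 1653733622) (nat_lit 62) (nat_lit 5) (nat_lit 66) (nat_lit 5) (nat_lit 63) (nat_lit 5) (nat_lit 485) (nat_lit 400) (nat_lit 315)) (XT.lf (nat_lit 0) (nat_lit 1294576328) (nat_lit 228) (nat_lit 6557480314) (nat_lit 76) (nat_lit 11245482480) (nat_lit 59) (nat_lit 5) (nat_lit 62) (nat_lit 5) (nat_lit 60) (nat_lit 5) (nat_lit 486) (nat_lit 400) (nat_lit 314))))) (XT.nd (nat_lit 55848) (nat_lit 0) (nat_lit 52364) (XT.nd (nat_lit 78) (nat_lit 152) (nat_lit 0) (XT.lf (nat_lit 0) (nat_lit 9283198656) (nat_lit 304) (nat_lit 8436355308) (nat_lit 76) (nat_lit 1749994329) (nat_lit 56) (nat_lit 5) (nat_lit 60) (nat_lit 5) (nat_lit 57) (nat_lit 5) (nat_lit 487) (nat_lit 400) (nat_lit 313)) (XT.nd (nat_lit 55692) (nat_lit 0) (nat_lit 52896) (XT.lf (nat_lit 0) (nat_lit 9389517416) (nat_lit 152) (nat_lit 8240423841) (nat_lit 228) (nat_lit 2220409151) (nat_lit 54) (nat_lit 5) (nat_lit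 56) (nat_lit 5) (nat_lit 57) (nat_lit 5) (nat_lit 488) (nat_lit 400) (nat_lit 312)) (XT.lf (nat_lit 0) (nat_lit 1410345388) (nat_lit 228) (nat_lit 906436839) (nat_lit 228) (nat_lit 906436839) (nat_lit 750) (nat_lit 3) (nat_lit 753) (nat_lit 3) (nat_lit 753) (nat_lit 5) (nat_lit 401) (nat_lit 401) (nat_lit 398)))) (XT.nd (nat_lit 78) (nat_lit 304) (nat_lit 0) (XT.lf (nat_lit 0) (nat_lit 877021858) (nat_lit 228) (nat_lit 3484448853) (nat_lit 304) (nat_lit 2090676292) (nat_lit 747) (nat_lit 5) (nat_lit 750) (nat_lit 3) (nat_lit 751) (nat_lit 5) (nat_lit 402) (nat_lit 401) (nat_lit 397)) (XT.nd (nat_lit 78) (nat_lit 304) (nat_lit 0) (XT.lf (nat_lit 76) (nat_lit 1359891565) (nat_lit 0) (nat_lit 3951400192) (nat_lit 304) (nat_lit 1149392770) (nat_lit 748) (nat_lit 5) (nat_lit 747) (nat_lit 5) (nat_lit 751) (nat_lit 5) (nat_lit 403) (nat_lit 401) (nat_lit 396)) (XT.lf (nat_lit 0) (nat_lit 3215717978) (nat_lit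 304) (nat_lit 187216129) (nat_lit 380) (nat_lit 3069122874) (nat_lit 743) (nat_lit 5) (nat_lit 747) (nat_lit 5) (nat_lit 748) (nat_lit 5) (nat_lit 404) (nat_lit 401) (nat_lit 395))))))))
noncomputable def xc44 : XT := (XT.nd (nat_lit 1794) (nat_lit 19304) (nat_lit 0) (XT.nd (nat_lit 858) (nat_lit 13756) (nat_lit 0) (XT.nd (nat_lit 390) (nat_lit 4636) (nat_lit 0) (XT.nd (nat_lit 156) (nat_lit 912) (nat_lit 0) (XT.nd (nat_lit 78) (nat_lit 0) (nat_lit 0) (XT.lf (nat_lit 0) (nat_lit 1059778704) (nat_lit 380) (nat_lit 1654272355) (nat_lit 456) (nat_lit 3772193003) (nat_lit 738) (nat_lit 5) (nat_lit 743) (nat_lit 5) (nat_lit 744) (nat_lit 5) (nat_lit 405) (nat_lit 401) (nat_lit 394)) (XT.lf (nat_lit 76) (nat_lit 3435515895) (nat_lit 0) (nat_lit 1885204179) (nat_lit 456) (nat_lit 1182558781) (nat_lit 739) (nat_lit 5) (nat_lit 738) (nat_lit 5) (nat_lit 744) (nat_lit 5) (nat_lit 406) (nat_lit 401) (nat_lit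 393))) (XT.nd (nat_lit 78) (nat_lit 456) (nat_lit 0) (XT.lf (nat_lit 76) (nat_lit 2094811172) (nat_lit 0) (nat_lit 915764176) (nat_lit 532) (nat_lit 3512602758) (nat_lit 733) (nat_lit 5) (nat_lit 732) (nat_lit 5) (nat_lit 739) (nat_lit 5) (nat_lit 407) (nat_lit 401) (nat_lit 392)) (XT.nd (nat_lit 78) (nat_lit 0) (nat_lit 0) (XT.lf (nat_lit 0) (nat_lit 629179294) (nat_lit 532) (nat_lit 5731187271) (nat_lit 76) (nat_lit 185704356) (nat_lit 726) (nat_lit 5) (nat_lit 733) (nat_lit 5) (nat_lit 727) (nat_lit 5) (nat_lit 408) (nat_lit 401) (nat_lit 391)) (XT.lf (nat_lit 0) (nat_lit 4730390406) (nat_lit 532) (nat_lit 417420932) (nat_lit 76) (nat_lit 1423755741) (nat_lit 726) (nat_lit 5) (nat_lit 733) (nat_lit 5) (nat_lit 727) (nat_lit 5) (nat_lit 409) (nat_lit 401) (nat_lit 390))))) (XT.nd (nat_lit 234) (nat_lit 2660) (nat_lit 0) (XT.nd (nat_lit 78) (nat_lit 1368) (nat_lit 0) (XT.lf (nat_lit 0) (nat_lit 2208519835)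 (nat_lit 608) (nat_lit 1584850729) (nat_lit 76) (nat_lit 2806536128) (nat_lit 718) (nat_lit 5) (nat_lit 726) (nat_lit 5) (nat_lit 719) (nat_lit 5) (nat_lit 410) (nat_lit 401) (nat_lit 389)) (XT.nd (nat_lit 78) (nat_lit 760) (nat_lit 0) (XT.lf (nat_lit 0) (nat_lit 3934103856) (nat_lit 608) (nat_lit 2302653994) (nat_lit 684) (nat_lit 394489874) (nat_lit 710) (nat_lit 5) (nat_lit 718) (nat_lit 5) (nat_lit 719) (nat_lit 5) (nat_lit 411) (nat_lit 401) (nat_lit 388)) (XT.lf (nat_lit 0) (nat_lit 2897986520) (nat_lit 684) (nat_lit 661363338) (nat_lit 760) (nat_lit 3106012886) (nat_lit 700) (nat_lit 5) (nat_lit 709) (nat_lit 5) (nat_lit 710) (nat_lit 5) (nat_lit 412) (nat_lit 401) (nat_lit 387)))) (XT.nd (nat_lit 78) (nat_lit 1824) (nat_lit 0) (XT.lf (nat_lit 0) (nat_lit 810852115) (nat_lit 836) (nat_lit 4788818735) (nat_lit 76) (nat_lit 1102750514) (nat_lit 689) (nat_lit 5) (nat_lit 700) (nat_lit 5) (nat_lit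 690) (nat_lit 5) (nat_lit 413) (nat_lit 401) (nat_lit 386)) (XT.nd (nat_lit 78) (nat_lit 988) (nat_lit 0) (XT.lf (nat_lit 0) (nat_lit 969082598) (nat_lit 836) (nat_lit 3733271273) (nat_lit 912) (nat_lit 2039872279) (nat_lit 678) (nat_lit 5) (nat_lit 689) (nat_lit 5) (nat_lit 690) (nat_lit 5) (nat_lit 414) (nat_lit 401) (nat_lit 385)) (XT.lf (nat_lit 0) (nat_lit 75915179) (nat_lit 912) (nat_lit 1724494149) (nat_lit 988) (nat_lit 4984629330) (nat_lit 665) (nat_lit 5) (nat_lit 677) (nat_lit 5) (nat_lit 678) (nat_lit 5) (nat_lit 415) (nat_lit 401) (nat_lit 384)))))) (XT.nd (nat_lit 468) (nat_lit 7828) (nat_lit 0) (XT.nd (nat_lit 234) (nat_lit 3800) (nat_lit 0) (XT.nd (nat_lit 78) (nat_lit 2128) (nat_lit 0) (XT.lf (nat_lit 0) (nat_lit 5638680839) (nat_lit 988) (nat_lit 761432724) (nat_lit 76) (nat_lit 430571607) (nat_lit 665) (nat_lit 5) (nat_lit 678) (nat_lit 5) (nat_lit 666) (nat_lit 5) (nat_lit 416)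 (nat_lit 401) (nat_lit 383)) (XT.nd (nat_lit 78) (nat_lit 1064) (nat_lit 0) (XT.lf (nat_lit 0) (nat_lit 2596912095) (nat_lit 1064) (nat_lit 1566991064) (nat_lit 76) (nat_lit 2715111000) (nat_lit 651) (nat_lit 5) (nat_lit 665) (nat_lit 5) (nat_lit 652) (nat_lit 5) (nat_lit 417) (nat_lit 401) (nat_lit 382)) (XT.lf (nat_lit 0) (nat_lit 4608070044) (nat_lit 1064) (nat_lit 1785244223) (nat_lit 1140) (nat_lit 537147901) (nat_lit 637) (nat_lit 5) (nat_lit 651) (nat_lit 5) (nat_lit 652) (nat_lit 5) (nat_lit 418) (nat_lit 401) (nat_lit 381)))) (XT.nd (nat_lit 78) (nat_lit 2584) (nat_lit 0) (XT.lf (nat_lit 0) (nat_lit 3194806864) (nat_lit 1216) (nat_lit 3046909959) (nat_lit 76) (nat_lit 742967426) (nat_lit 621) (nat_lit 5) (nat_lit 637) (nat_lit 5) (nat_lit 622) (nat_lit 5) (nat_lit 419) (nat_lit 401) (nat_lit 380)) (XT.nd (nat_lit 78) (nat_lit 1368) (nat_lit 0) (XT.lf (nat_lit 0) (nat_lit 3310099701) (nat_lit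 1216) (nat_lit 3650818010) (nat_lit 1292) (nat_lit 80979313) (nat_lit 605) (nat_lit 5) (nat_lit 621) (nat_lit 5) (nat_lit 622) (nat_lit 5) (nat_lit 420) (nat_lit 401) (nat_lit 379)) (XT.lf (nat_lit 0) (nat_lit 2715268547) (nat_lit 1292) (nat_lit 895556730) (nat_lit 1368) (nat_lit 3491125509) (nat_lit 587) (nat_lit 5) (nat_lit 604) (nat_lit 5) (nat_lit 605) (nat_lit 5) (nat_lit 421) (nat_lit 401) (nat_lit 378))))) (XT.nd (nat_lit 234) (nat_lit 3344) (nat_lit 0) (XT.nd (nat_lit 78) (nat_lit 3040) (nat_lit 0) (XT.lf (nat_lit 0) (nat_lit 182133332) (nat_lit 1444) (nat_lit 5003659619) (nat_lit 76) (nat_lit 1979254758) (nat_lit 568) (nat_lit 5) (nat_lit 587) (nat_lit 5) (nat_lit 569) (nat_lit 5) (nat_lit 422) (nat_lit 401) (nat_lit 377)) (XT.nd (nat_lit 78) (nat_lit 1596) (nat_lit 0) (XT.lf (nat_lit 0) (nat_lit 1632456246) (nat_lit 1444) (nat_lit 2219677453) (nat_lit 1520) (nat_lit 3378784765) (nat_lit 549)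 (nat_lit 5) (nat_lit 568) (nat_lit 5) (nat_lit 569) (nat_lit 5) (nat_lit 423) (nat_lit 401) (nat_lit 376)) (XT.lf (nat_lit 0) (nat_lit 265652820) (nat_lit 1596) (nat_lit 6150985109) (nat_lit 76) (nat_lit 883373844) (nat_lit 528) (nat_lit 5) (nat_lit 549) (nat_lit 5) (nat_lit 529) (nat_lit 5) (nat_lit 424) (nat_lit 401) (nat_lit 375)))) (XT.nd (nat_lit 78) (nat_lit 1748) (nat_lit 0) (XT.lf (nat_lit 0) (nat_lit 679795245) (nat_lit 1596) (nat_lit 3243255565) (nat_lit 1672) (nat_lit 3448710039) (nat_lit 507) (nat_lit 5) (nat_lit 528) (nat_lit 5) (nat_lit 529) (nat_lit 5) (nat_lit 425) (nat_lit 401) (nat_lit 374)) (XT.nd (nat_lit 78) (nat_lit 0) (nat_lit 0) (XT.lf (nat_lit 0) (nat_lit 179113838) (nat_lit 1748) (nat_lit 7187470110) (nat_lit 76) (nat_lit 80309752) (nat_lit 484) (nat_lit 5) (nat_lit 507) (nat_lit 5) (nat_lit 485) (nat_lit 5) (nat_lit 426) (nat_lit 401) (nat_lit 373)) (XT.lf (nat_lit 0) (nat_lit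 3832700586) (nat_lit 1748) (nat_lit 154510142) (nat_lit 76) (nat_lit 3537356976) (nat_lit 484) (nat_lit 5) (nat_lit 507) (nat_lit 5) (nat_lit 485) (nat_lit 5) (nat_lit 427) (nat_lit 401) (nat_lit 372))))))) (XT.nd (nat_lit 858) (nat_lit 7904) (nat_lit 0) (XT.nd (nat_lit 390) (nat_lit 5016) (nat_lit 0) (XT.nd (nat_lit 156) (nat_lit 2888) (nat_lit 0) (XT.nd (nat_lit 78) (nat_lit 1748) (nat_lit 0) (XT.lf (nat_lit 0) (nat_lit 7088188644) (nat_lit 1748) (nat_lit 452930670) (nat_lit 1824) (nat_lit 64566318) (nat_lit 461) (nat_lit 5) (nat_lit 484) (nat_lit 5) (nat_lit 485) (nat_lit 5) (nat_lit 428) (nat_lit 401) (nat_lit 371)) (XT.lf (nat_lit 0) (nat_lit 3590871672) (nat_lit 1748) (nat_lit 878221736) (nat_lit 76) (nat_lit 3220334817) (nat_lit 438) (nat_lit 5) (nat_lit 461) (nat_lit 5) (nat_lit 439) (nat_lit 5) (nat_lit 429) (nat_lit 401) (nat_lit 370))) (XT.nd (nat_lit 78) (nat_lit 1900) (nat_lit 0) (XT.lf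 (nat_lit 0) (nat_lit 6579574319) (nat_lit 988) (nat_lit 727986923) (nat_lit 1064) (nat_lit 469080817) (nat_lit 425) (nat_lit 5) (nat_lit 438) (nat_lit 5) (nat_lit 439) (nat_lit 5) (nat_lit 430) (nat_lit 401) (nat_lit 369)) (XT.nd (nat_lit 78) (nat_lit 912) (nat_lit 0) (XT.lf (nat_lit 0) (nat_lit 3199292021) (nat_lit 988) (nat_lit 1512884271) (nat_lit 76) (nat_lit 3154429690) (nat_lit 412) (nat_lit 5) (nat_lit 425) (nat_lit 5) (nat_lit 413) (nat_lit 5) (nat_lit 431) (nat_lit 401) (nat_lit 368)) (XT.lf (nat_lit 0) (nat_lit 6166554939) (nat_lit 912) (nat_lit 764826954) (nat_lit 988) (nat_lit 1028639677) (nat_lit 400) (nat_lit 5) (nat_lit 412) (nat_lit 5) (nat_lit 413) (nat_lit 5) (nat_lit 432) (nat_lit 401) (nat_lit 367))))) (XT.nd (nat_lit 234) (nat_lit 2432) (nat_lit 0) (XT.nd (nat_lit 78) (nat_lit 1672) (nat_lit 0) (XT.lf (nat_lit 0) (nat_lit 2663137431) (nat_lit 912) (nat_lit 2070754584) (nat_lit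 76) (nat_lit 3322417196) (nat_lit 388) (nat_lit 5) (nat_lit 400) (nat_lit 5) (nat_lit 389) (nat_lit 5) (nat_lit 433) (nat_lit 401) (nat_lit 366)) (XT.nd (nat_lit 78) (nat_lit 836) (nat_lit 0) (XT.lf (nat_lit 0) (nat_lit 5837208139) (nat_lit 836) (nat_lit 580276478) (nat_lit 912) (nat_lit 1738563396) (nat_lit 377) (nat_lit 5) (nat_lit 388) (nat_lit 5) (nat_lit 389) (nat_lit 5) (nat_lit 434) (nat_lit 401) (nat_lit 365)) (XT.lf (nat_lit 0) (nat_lit 1986650468) (nat_lit 836) (nat_lit 2563813850) (nat_lit 76) (nat_lit 3708314595) (nat_lit 366) (nat_lit 5) (nat_lit 377) (nat_lit 5) (nat_lit 367) (nat_lit 5) (nat_lit 435) (nat_lit 401) (nat_lit 364)))) (XT.nd (nat_lit 78) (nat_lit 1596) (nat_lit 0) (XT.lf (nat_lit 0) (nat_lit 5579872531) (nat_lit 836) (nat_lit 189987237) (nat_lit 912) (nat_lit 2595118215) (nat_lit 355) (nat_lit 5) (nat_lit 366) (nat_lit 5) (nat_lit 367) (nat_lit 5) (nat_lit 436) (nat_lit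 401) (nat_lit 363)) (XT.nd (nat_lit 78) (nat_lit 760) (nat_lit 0) (XT.lf (nat_lit 0) (nat_lit 1173166680) (nat_lit 836) (nat_lit 3003864135) (nat_lit 76) (nat_lit 4297258021) (nat_lit 344) (nat_lit 5) (nat_lit 355) (nat_lit 5) (nat_lit 345) (nat_lit 5) (nat_lit 437) (nat_lit 401) (nat_lit 362)) (XT.lf (nat_lit 0) (nat_lit 4994149859) (nat_lit 836) (nat_lit 3206591754) (nat_lit 76) (nat_lit 386308444) (nat_lit 334) (nat_lit 5) (nat_lit 345) (nat_lit 5) (nat_lit 335) (nat_lit 5) (nat_lit 438) (nat_lit 401) (nat_lit 361)))))) (XT.nd (nat_lit 468) (nat_lit 3572) (nat_lit 0) (XT.nd (nat_lit 234) (nat_lit 2128) (nat_lit 0) (XT.nd (nat_lit 78) (nat_lit 1444) (nat_lit 0) (XT.lf (nat_lit 0) (nat_lit 225134540) (nat_lit 760) (nat_lit 3402625645) (nat_lit 76) (nat_lit 5075385427) (nat_lit 324) (nat_lit 5) (nat_lit 334) (nat_lit 5) (nat_lit 325) (nat_lit 5) (nat_lit 439) (nat_lit 401) (nat_lit 360)) (XT.nd (nat_lit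 78) (nat_lit 684) (nat_lit 0) (XT.lf (nat_lit 0) (nat_lit 4092428284) (nat_lit 836) (nat_lit 3594897118) (nat_lit 76) (nat_lit 1135264351) (nat_lit 314) (nat_lit 5) (nat_lit 325) (nat_lit 5) (nat_lit 315) (nat_lit 5) (nat_lit 440) (nat_lit 401) (nat_lit 359)) (XT.lf (nat_lit 0) (nat_lit 5168110195) (nat_lit 684) (nat_lit 2910221276) (nat_lit 760) (nat_lit 867244937) (nat_lit 305) (nat_lit 5) (nat_lit 314) (nat_lit 5) (nat_lit 315) (nat_lit 5) (nat_lit 441) (nat_lit 401) (nat_lit 358)))) (XT.nd (nat_lit 78) (nat_lit 1368) (nat_lit 0) (XT.lf (nat_lit 0) (nat_lit 3064746500) (nat_lit 760) (nat_lit 3960525954) (nat_lit 76) (nat_lit 2046706709) (nat_lit 295) (nat_lit 5) (nat_lit 305) (nat_lit 5) (nat_lit 296) (nat_lit 5) (nat_lit 442) (nat_lit 401) (nat_lit 357)) (XT.nd (nat_lit 78) (nat_lit 760) (nat_lit 0) (XT.lf (nat_lit 0) (nat_lit 5065058695) (nat_lit 608) (nat_lit 2040323337) (nat_lit 684) (nat_lit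 2096638150) (nat_lit 287) (nat_lit 5) (nat_lit 295) (nat_lit 5) (nat_lit 296) (nat_lit 5) (nat_lit 443) (nat_lit 401) (nat_lit 356)) (XT.lf (nat_lit 0) (nat_lit 1911538355) (nat_lit 760) (nat_lit 4315390997) (nat_lit 76) (nat_lit 3108680107) (nat_lit 277) (nat_lit 5) (nat_lit 287) (nat_lit 5) (nat_lit 278) (nat_lit 5) (nat_lit 444) (nat_lit 401) (nat_lit 355))))) (XT.nd (nat_lit 234) (nat_lit 1748) (nat_lit 0) (XT.nd (nat_lit 78) (nat_lit 1216) (nat_lit 0) (XT.lf (nat_lit 0) (nat_lit 4981205462) (nat_lit 608) (nat_lit 1031497788) (nat_lit 684) (nat_lit 3460210821) (nat_lit 269) (nat_lit 5) (nat_lit 277) (nat_lit 5) (nat_lit 278) (nat_lit 5) (nat_lit 445) (nat_lit 401) (nat_lit 354)) (XT.nd (nat_lit 78) (nat_lit 532) (nat_lit 0) (XT.lf (nat_lit 0) (nat_lit 632384544) (nat_lit 684) (nat_lit 4671685604) (nat_lit 76) (nat_lit 4309836086) (nat_lit 260) (nat_lit 5) (nat_lit 269) (nat_lit 5) (nat_lit 261)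 (nat_lit 5) (nat_lit 446) (nat_lit 401) (nat_lit 353)) (XT.lf (nat_lit 0) (nat_lit 4800379221) (nat_lit 608) (nat_lit 4854803042) (nat_lit 76) (nat_lit 103504496) (nat_lit 253) (nat_lit 5) (nat_lit 261) (nat_lit 5) (nat_lit 254) (nat_lit 5) (nat_lit 447) (nat_lit 401) (nat_lit 352)))) (XT.nd (nat_lit 78) (nat_lit 1140) (nat_lit 0) (XT.lf (nat_lit 0) (nat_lit 4860142275) (nat_lit 608) (nat_lit 4262804373) (nat_lit 684) (nat_lit 784281823) (nat_lit 245) (nat_lit 5) (nat_lit 253) (nat_lit 5) (nat_lit 254) (nat_lit 5) (nat_lit 448) (nat_lit 401) (nat_lit 351)) (XT.nd (nat_lit 78) (nat_lit 532) (nat_lit 0) (XT.lf (nat_lit 0) (nat_lit 3473728756) (nat_lit 608) (nat_lit 5245882276) (nat_lit 76) (nat_lit 1340069724) (nat_lit 237) (nat_lit 5) (nat_lit 245) (nat_lit 5) (nat_lit 238) (nat_lit 5) (nat_lit 449) (nat_lit 401) (nat_lit 350)) (XT.lf (nat_lit 0) (nat_lit 4761471268) (nat_lit 532) (nat_lit 3114147795)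 (nat_lit 608) (nat_lit 2340455758) (nat_lit 230) (nat_lit 5) (nat_lit 237) (nat_lit 5) (nat_lit 238) (nat_lit 5) (nat_lit 450) (nat_lit 401) (nat_lit 349))))))))
noncomputable def xc45 : XT := (XT.nd (nat_lit 1794) (nat_lit 3724) (nat_lit 0) (XT.nd (nat_lit 858) (nat_lit 4028) (nat_lit 0) (XT.nd (nat_lit 390) (nat_lit 2812) (nat_lit 0) (XT.nd (nat_lit 156) (nat_lit 1520) (nat_lit 0) (XT.nd (nat_lit 78) (nat_lit 532) (nat_lit 0) (XT.lf (nat_lit 0) (nat_lit 2023655959) (nat_lit 608) (nat_lit 5671613502) (nat_lit 76) (nat_lit 2681276628) (nat_lit 222) (nat_lit 5) (nat_lit 230) (nat_lit 5) (nat_lit 223) (nat_lit 5) (nat_lit 451) (nat_lit 401) (nat_lit 348)) (XT.lf (nat_lit 0) (nat_lit 4637244599) (nat_lit 532) (nat_lit 1872988127) (nat_lit 608) (nat_lit 4030829772) (nat_lit 215) (nat_lit 5) (nat_lit 222) (nat_lit 5) (nat_lit 223) (nat_lit 5) (nat_lit 452) (nat_lit 401) (nat_lit 347))) (XT.nd (nat_lit 78)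 (nat_lit 988) (nat_lit 0) (XT.lf (nat_lit 0) (nat_lit 446863697) (nat_lit 532) (nat_lit 6146058202) (nat_lit 76) (nat_lit 4116914870) (nat_lit 208) (nat_lit 5) (nat_lit 215) (nat_lit 5) (nat_lit 209) (nat_lit 5) (nat_lit 453) (nat_lit 401) (nat_lit 346)) (XT.nd (nat_lit 78) (nat_lit 456) (nat_lit 0) (XT.lf (nat_lit 0) (nat_lit 4473528656) (nat_lit 532) (nat_lit 549795247) (nat_lit 608) (nat_lit 5859440158) (nat_lit 201) (nat_lit 5) (nat_lit 208) (nat_lit 5) (nat_lit 209) (nat_lit 5) (nat_lit 454) (nat_lit 401) (nat_lit 345)) (XT.lf (nat_lit 0) (nat_lit 4367575868) (nat_lit 456) (nat_lit 5414771935) (nat_lit 532) (nat_lit 1277632428) (nat_lit 195) (nat_lit 5) (nat_lit 201) (nat_lit 5) (nat_lit 202) (nat_lit 5) (nat_lit 455) (nat_lit 401) (nat_lit 344))))) (XT.nd (nat_lit 234) (nat_lit 1292) (nat_lit 0) (XT.nd (nat_lit 78) (nat_lit 988) (nat_lit 0) (XT.lf (nat_lit 0) (nat_lit 3415978807) (nat_lit 532)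 (nat_lit 6991753463) (nat_lit 76) (nat_lit 833950119) (nat_lit 188) (nat_lit 5) (nat_lit 195) (nat_lit 5) (nat_lit 189) (nat_lit 5) (nat_lit 456) (nat_lit 401) (nat_lit 343)) (XT.nd (nat_lit 78) (nat_lit 532) (nat_lit 0) (XT.lf (nat_lit 0) (nat_lit 4105639936) (nat_lit 456) (nat_lit 4176037065) (nat_lit 532) (nat_lit 3146022943) (nat_lit 182) (nat_lit 5) (nat_lit 188) (nat_lit 5) (nat_lit 189) (nat_lit 5) (nat_lit 457) (nat_lit 401) (nat_lit 342)) (XT.lf (nat_lit 0) (nat_lit 1681297880) (nat_lit 532) (nat_lit 7666317538) (nat_lit 76) (nat_lit 2270886802) (nat_lit 175) (nat_lit 5) (nat_lit 182) (nat_lit 5) (nat_lit 176) (nat_lit 5) (nat_lit 458) (nat_lit 401) (nat_lit 341)))) (XT.nd (nat_lit 78) (nat_lit 912) (nat_lit 0) (XT.lf (nat_lit 0) (nat_lit 3764607682) (nat_lit 380) (nat_lit 2890453134) (nat_lit 456) (nat_lit 5158670068) (nat_lit 170) (nat_lit 5) (nat_lit 175) (nat_lit 5) (nat_lit 176) (nat_lit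 5) (nat_lit 459) (nat_lit 401) (nat_lit 340)) (XT.nd (nat_lit 78) (nat_lit 456) (nat_lit 0) (XT.lf (nat_lit 0) (nat_lit 3565744789) (nat_lit 456) (nat_lit 8254920759) (nat_lit 532) (nat_lit 193303635) (nat_lit 164) (nat_lit 5) (nat_lit 170) (nat_lit 5) (nat_lit 171) (nat_lit 5) (nat_lit 460) (nat_lit 401) (nat_lit 339)) (XT.lf (nat_lit 0) (nat_lit 3326858705) (nat_lit 380) (nat_lit 1568970261) (nat_lit 456) (nat_lit 7322964845) (nat_lit 158) (nat_lit 5) (nat_lit 163) (nat_lit 5) (nat_lit 164) (nat_lit 5) (nat_lit 461) (nat_lit 401) (nat_lit 338)))))) (XT.nd (nat_lit 468) (nat_lit 1748) (nat_lit 0) (XT.nd (nat_lit 234) (nat_lit 1064) (nat_lit 0) (XT.nd (nat_lit 78) (nat_lit 836) (nat_lit 0) (XT.lf (nat_lit 0) (nat_lit 3061380597) (nat_lit 380) (nat_lit 7130098995) (nat_lit 456) (nat_lit 2237133572) (nat_lit 153) (nat_lit 5) (nat_lit 158) (nat_lit 5) (nat_lit 159) (nat_lit 5) (nat_lit 462) (nat_lit 401)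 (nat_lit 337)) (XT.nd (nat_lit 78) (nat_lit 380) (nat_lit 0) (XT.lf (nat_lit 0) (nat_lit 2773335177) (nat_lit 380) (nat_lit 222865695) (nat_lit 456) (nat_lit 9647455401) (nat_lit 147) (nat_lit 5) (nat_lit 152) (nat_lit 5) (nat_lit 153) (nat_lit 5) (nat_lit 463) (nat_lit 401) (nat_lit 336)) (XT.lf (nat_lit 0) (nat_lit 2430534903) (nat_lit 380) (nat_lit 5996211314) (nat_lit 456) (nat_lit 4436701188) (nat_lit 142) (nat_lit 5) (nat_lit 147) (nat_lit 5) (nat_lit 148) (nat_lit 5) (nat_lit 464) (nat_lit 401) (nat_lit 335)))) (XT.nd (nat_lit 78) (nat_lit 684) (nat_lit 0) (XT.lf (nat_lit 0) (nat_lit 954587799) (nat_lit 380) (nat_lit 11013163948) (nat_lit 76) (nat_lit 1121235779) (nat_lit 137) (nat_lit 5) (nat_lit 142) (nat_lit 5) (nat_lit 138) (nat_lit 5) (nat_lit 465) (nat_lit 401) (nat_lit 334)) (XT.nd (nat_lit 78) (nat_lit 304) (nat_lit 0) (XT.lf (nat_lit 0) (nat_lit 1651630574) (nat_lit 380) (nat_lit 4865563616)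 (nat_lit 456) (nat_lit 6802120233) (nat_lit 132) (nat_lit 5) (nat_lit 137) (nat_lit 5) (nat_lit 138) (nat_lit 5) (nat_lit 466) (nat_lit 401) (nat_lit 333)) (XT.lf (nat_lit 0) (nat_lit 1209479862) (nat_lit 304) (nat_lit 11084412541) (nat_lit 380) (nat_lit 1261718552) (nat_lit 128) (nat_lit 5) (nat_lit 132) (nat_lit 5) (nat_lit 133) (nat_lit 5) (nat_lit 467) (nat_lit 401) (nat_lit 332))))) (XT.nd (nat_lit 234) (nat_lit 988) (nat_lit 0) (XT.nd (nat_lit 78) (nat_lit 380) (nat_lit 0) (XT.lf (nat_lit 0) (nat_lit 701132267) (nat_lit 304) (nat_lit 3751119409) (nat_lit 380) (nat_lit 9344858385) (nat_lit 123) (nat_lit 5) (nat_lit 127) (nat_lit 5) (nat_lit 128) (nat_lit 5) (nat_lit 468) (nat_lit 401) (nat_lit 331)) (XT.nd (nat_lit 78) (nat_lit 76) (nat_lit 0) (XT.lf (nat_lit 0) (nat_lit 152060489) (nat_lit 304) (nat_lit 10228170870) (nat_lit 380) (nat_lit 3664265131) (nat_lit 119) (nat_lit 5) (nat_lit 123) (nat_lit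 5) (nat_lit 124) (nat_lit 5) (nat_lit 469) (nat_lit 401) (nat_lit 330)) (XT.lf (nat_lit 0) (nat_lit 2222844456) (nat_lit 380) (nat_lit 440836112) (nat_lit 76) (nat_lit 11634048035) (nat_lit 118) (nat_lit 5) (nat_lit 123) (nat_lit 5) (nat_lit 119) (nat_lit 5) (nat_lit 470) (nat_lit 401) (nat_lit 329)))) (XT.nd (nat_lit 78) (nat_lit 684) (nat_lit 0) (XT.lf (nat_lit 0) (nat_lit 8310296847) (nat_lit 380) (nat_lit 1102308334) (nat_lit 76) (nat_lit 5144001334) (nat_lit 114) (nat_lit 5) (nat_lit 119) (nat_lit 5) (nat_lit 115) (nat_lit 5) (nat_lit 471) (nat_lit 401) (nat_lit 328)) (XT.nd (nat_lit 78) (nat_lit 380) (nat_lit 0) (XT.lf (nat_lit 0) (nat_lit 13024725250) (nat_lit 304) (nat_lit 1613556758) (nat_lit 380) (nat_lit 183813975) (nat_lit 110) (nat_lit 5) (nat_lit 114) (nat_lit 5) (nat_lit 115) (nat_lit 5) (nat_lit 472) (nat_lit 401) (nat_lit 327)) (XT.lf (nat_lit 0) (nat_lit 6065467500) (nat_lit 380)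 (nat_lit 2592653692) (nat_lit 76) (nat_lit 6434957272) (nat_lit 105) (nat_lit 5) (nat_lit 110) (nat_lit 5) (nat_lit 106) (nat_lit 5) (nat_lit 473) (nat_lit 401) (nat_lit 326))))))) (XT.nd (nat_lit 936) (nat_lit 456) (nat_lit 0) (XT.nd (nat_lit 468) (nat_lit 1596) (nat_lit 0) (XT.nd (nat_lit 234) (nat_lit 836) (nat_lit 0) (XT.nd (nat_lit 78) (nat_lit 608) (nat_lit 0) (XT.lf (nat_lit 0) (nat_lit 11948161118) (nat_lit 228) (nat_lit 605994065) (nat_lit 304) (nat_lit 2816925579) (nat_lit 102) (nat_lit 5) (nat_lit 105) (nat_lit 5) (nat_lit 106) (nat_lit 5) (nat_lit 474) (nat_lit 401) (nat_lit 325)) (XT.nd (nat_lit 78) (nat_lit 228) (nat_lit 0) (XT.lf (nat_lit 0) (nat_lit 3629345293) (nat_lit 380) (nat_lit 4352987812) (nat_lit 76) (nat_lit 7672703764) (nat_lit 97) (nat_lit 5) (nat_lit 102) (nat_lit 5) (nat_lit 98) (nat_lit 5) (nat_lit 475) (nat_lit 401) (nat_lit 324)) (XT.lf (nat_lit 0) (nat_lit 10284357203)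 (nat_lit 304) (nat_lit 5338666323) (nat_lit 76) (nat_lit 323046162) (nat_lit 94) (nat_lit 5) (nat_lit 98) (nat_lit 5) (nat_lit 95) (nat_lit 5) (nat_lit 476) (nat_lit 401) (nat_lit 323)))) (XT.nd (nat_lit 78) (nat_lit 456) (nat_lit 0) (XT.lf (nat_lit 0) (nat_lit 984689422) (nat_lit 380) (nat_lit 6418526849) (nat_lit 76) (nat_lit 8840439647) (nat_lit 89) (nat_lit 5) (nat_lit 94) (nat_lit 5) (nat_lit 90) (nat_lit 5) (nat_lit 477) (nat_lit 401) (nat_lit 322)) (XT.nd (nat_lit 78) (nat_lit 228) (nat_lit 0) (XT.lf (nat_lit 0) (nat_lit 7812419947) (nat_lit 304) (nat_lit 7582887081) (nat_lit 76) (nat_lit 1152939773) (nat_lit 86) (nat_lit 5) (nat_lit 90) (nat_lit 5) (nat_lit 87) (nat_lit 5) (nat_lit 478) (nat_lit 401) (nat_lit 321)) (XT.lf (nat_lit 0) (nat_lit 8019470856) (nat_lit 228) (nat_lit 6927639565) (nat_lit 304) (nat_lit 1912825035) (nat_lit 83) (nat_lit 5) (nat_lit 86) (nat_lit 5) (nat_lit 87) (nat_lit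 5) (nat_lit 479) (nat_lit 401) (nat_lit 320))))) (XT.nd (nat_lit 234) (nat_lit 760) (nat_lit 0) (XT.nd (nat_lit 78) (nat_lit 532) (nat_lit 0) (XT.lf (nat_lit 0) (nat_lit 5114544804) (nat_lit 304) (nat_lit 10192349597) (nat_lit 76) (nat_lit 1872083460) (nat_lit 79) (nat_lit 5) (nat_lit 83) (nat_lit 5) (nat_lit 80) (nat_lit 5) (nat_lit 480) (nat_lit 401) (nat_lit 319)) (XT.nd (nat_lit 78) (nat_lit 304) (nat_lit 0) (XT.lf (nat_lit 0) (nat_lit 5848060733) (nat_lit 228) (nat_lit 6581298519) (nat_lit 304) (nat_lit 5075929593) (nat_lit 76) (nat_lit 5) (nat_lit 79) (nat_lit 5) (nat_lit 80) (nat_lit 5) (nat_lit 481) (nat_lit 401) (nat_lit 318)) (XT.lf (nat_lit 0) (nat_lit 2168603495) (nat_lit 304) (nat_lit 13211924460) (nat_lit 76) (nat_lit 2459103759) (nat_lit 72) (nat_lit 5) (nat_lit 76) (nat_lit 5) (nat_lit 73) (nat_lit 5) (nat_lit 482) (nat_lit 401) (nat_lit 317)))) (XT.nd (nat_lit 78) (nat_lit 532) (nat_lit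 0) (XT.lf (nat_lit 0) (nat_lit 3271640003) (nat_lit 228) (nat_lit 6393949141) (nat_lit 304) (nat_lit 8515665342) (nat_lit 69) (nat_lit 5) (nat_lit 72) (nat_lit 5) (nat_lit 73) (nat_lit 5) (nat_lit 483) (nat_lit 401) (nat_lit 316)) (XT.nd (nat_lit 78) (nat_lit 304) (nat_lit 0) (XT.lf (nat_lit 0) (nat_lit 1833510929) (nat_lit 228) (nat_lit 15634047928) (nat_lit 304) (nat_lit 1063967754) (nat_lit 66) (nat_lit 5) (nat_lit 69) (nat_lit 5) (nat_lit 70) (nat_lit 5) (nat_lit 484) (nat_lit 401) (nat_lit 315)) (XT.lf (nat_lit 0) (nat_lit 239545708) (nat_lit 228) (nat_lit 6390972399) (nat_lit 304) (nat_lit 12258813444) (nat_lit 62) (nat_lit 5) (nat_lit 65) (nat_lit 5) (nat_lit 66) (nat_lit 5) (nat_lit 485) (nat_lit 401) (nat_lit 314)))))) (XT.nd (nat_lit 56160) (nat_lit 0) (nat_lit 50236) (XT.nd (nat_lit 55926) (nat_lit 0) (nat_lit 51756) (XT.nd (nat_lit 78) (nat_lit 456) (nat_lit 0) (XT.lf (nat_lit 0) (nat_lit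 14636142672) (nat_lit 304) (nat_lit 1439425526) (nat_lit 76) (nat_lit 3180268595) (nat_lit 62) (nat_lit 5) (nat_lit 66) (nat_lit 5) (nat_lit 63) (nat_lit 5) (nat_lit 486) (nat_lit 401) (nat_lit 313)) (XT.nd (nat_lit 78) (nat_lit 228) (nat_lit 0) (XT.lf (nat_lit 0) (nat_lit 3317502145) (nat_lit 228) (nat_lit 3260869735) (nat_lit 76) (nat_lit 13052315186) (nat_lit 59) (nat_lit 5) (nat_lit 62) (nat_lit 5) (nat_lit 60) (nat_lit 5) (nat_lit 487) (nat_lit 401) (nat_lit 312)) (XT.lf (nat_lit 0) (nat_lit 11519968621) (nat_lit 304) (nat_lit 5223381676) (nat_lit 76) (nat_lit 3271025316) (nat_lit 56) (nat_lit 5) (nat_lit 60) (nat_lit 5) (nat_lit 57) (nat_lit 5) (nat_lit 488) (nat_lit 401) (nat_lit 311)))) (XT.nd (nat_lit 78) (nat_lit 760) (nat_lit 0) (XT.lf (nat_lit 0) (nat_lit 1310386536) (nat_lit 0) (nat_lit 1310386536) (nat_lit 228) (nat_lit 608838761) (nat_lit 747) (nat_lit 5) (nat_lit 747) (nat_lit 3) (nat_lit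 750) (nat_lit 3) (nat_lit 402) (nat_lit 402) (nat_lit 396)) (XT.nd (nat_lit 78) (nat_lit 380) (nat_lit 0) (XT.lf (nat_lit 76) (nat_lit 938984740) (nat_lit 0) (nat_lit 2136556633) (nat_lit 380) (nat_lit 3393635592) (nat_lit 743) (nat_lit 5) (nat_lit 742) (nat_lit 3) (nat_lit 747) (nat_lit 5) (nat_lit 403) (nat_lit 402) (nat_lit 395)) (XT.lf (nat_lit 0) (nat_lit 845716665) (nat_lit 380) (nat_lit 670212600) (nat_lit 456) (nat_lit 4966111890) (nat_lit 737) (nat_lit 5) (nat_lit 742) (nat_lit 3) (nat_lit 743) (nat_lit 5) (nat_lit 404) (nat_lit 402) (nat_lit 394))))) (XT.nd (nat_lit 234) (nat_lit 608) (nat_lit 0) (XT.nd (nat_lit 78) (nat_lit 912) (nat_lit 0) (XT.lf (nat_lit 76) (nat_lit 4282806195) (nat_lit 0) (nat_lit 747217838) (nat_lit 456) (nat_lit 1467585191) (nat_lit 738) (nat_lit 5) (nat_lit 737) (nat_lit 5) (nat_lit 743) (nat_lit 5) (nat_lit 405) (nat_lit 402) (nat_lit 393)) (XT.nd (nat_lit 78) (nat_lit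 532) (nat_lit 0) (XT.lf (nat_lit 0) (nat_lit 2651959301) (nat_lit 456) (nat_lit 3705615675) (nat_lit 532) (nat_lit 158488258) (nat_lit 732) (nat_lit 5) (nat_lit 738) (nat_lit 5) (nat_lit 739) (nat_lit 5) (nat_lit 406) (nat_lit 402) (nat_lit 392)) (XT.lf (nat_lit 0) (nat_lit 207751293) (nat_lit 532) (nat_lit 5142675729) (nat_lit 608) (nat_lit 1187006904) (nat_lit 725) (nat_lit 5) (nat_lit 732) (nat_lit 5) (nat_lit 733) (nat_lit 5) (nat_lit 407) (nat_lit 402) (nat_lit 391)))) (XT.nd (nat_lit 78) (nat_lit 608) (nat_lit 0) (XT.lf (nat_lit 76) (nat_lit 24354546) (nat_lit 0) (nat_lit 4197120934) (nat_lit 608) (nat_lit 2340054083) (nat_lit 726) (nat_lit 5) (nat_lit 725) (nat_lit 5) (nat_lit 733) (nat_lit 5) (nat_lit 408) (nat_lit 402) (nat_lit 390)) (XT.nd (nat_lit 78) (nat_lit 0) (nat_lit 0) (XT.lf (nat_lit 0) (nat_lit 1630484813) (nat_lit 608) (nat_lit 1271040951) (nat_lit 684) (nat_lit 3686941057) (nat_lit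 717) (nat_lit 5) (nat_lit 725) (nat_lit 5) (nat_lit 726) (nat_lit 5) (nat_lit 409) (nat_lit 402) (nat_lit 389)) (XT.lf (nat_lit 76) (nat_lit 4103418704) (nat_lit 0) (nat_lit 1465486836) (nat_lit 684) (nat_lit 1049422082) (nat_lit 718) (nat_lit 5) (nat_lit 717) (nat_lit 5) (nat_lit 726) (nat_lit 5) (nat_lit 410) (nat_lit 402) (nat_lit 388))))))))
noncomputable def xc46 : XT := (XT.nd (nat_lit 1794) (nat_lit 14744) (nat_lit 0) (XT.nd (nat_lit 858) (nat_lit 15124) (nat_lit 0) (XT.nd (nat_lit 390) (nat_lit 6840) (nat_lit 0) (XT.nd (nat_lit 156) (nat_lit 1672) (nat_lit 0) (XT.nd (nat_lit 78) (nat_lit 760) (nat_lit 0) (XT.lf (nat_lit 0) (nat_lit 2822320568) (nat_lit 684) (nat_lit 3713395649) (nat_lit 76) (nat_lit 115316501) (nat_lit 709) (nat_lit 5) (nat_lit 718) (nat_lit 5) (nat_lit 710) (nat_lit 5) (nat_lit 411) (nat_lit 402) (nat_lit 387)) (XT.lf (nat_lit 0) (nat_lit 8490400) (nat_lit 760) (nat_lit 4866017075)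 (nat_lit 76) (nat_lit 1812119385) (nat_lit 699) (nat_lit 5) (nat_lit 709) (nat_lit 5) (nat_lit 700) (nat_lit 5) (nat_lit 412) (nat_lit 402) (nat_lit 386))) (XT.nd (nat_lit 78) (nat_lit 912) (nat_lit 0) (XT.lf (nat_lit 0) (nat_lit 742164750) (nat_lit 760) (nat_lit 3060045015) (nat_lit 836) (nat_lit 2922736154) (nat_lit 689) (nat_lit 5) (nat_lit 699) (nat_lit 5) (nat_lit 700) (nat_lit 5) (nat_lit 413) (nat_lit 402) (nat_lit 385)) (XT.nd (nat_lit 78) (nat_lit 836) (nat_lit 0) (XT.lf (nat_lit 0) (nat_lit 831591101) (nat_lit 836) (nat_lit 275739610) (nat_lit 76) (nat_lit 5659017910) (nat_lit 688) (nat_lit 5) (nat_lit 699) (nat_lit 5) (nat_lit 689) (nat_lit 5) (nat_lit 414) (nat_lit 402) (nat_lit 384)) (XT.lf (nat_lit 0) (nat_lit 4571118710) (nat_lit 912) (nat_lit 1249225868) (nat_lit 76) (nat_lit 990046068) (nat_lit 677) (nat_lit 5) (nat_lit 689) (nat_lit 5) (nat_lit 678) (nat_lit 5) (nat_lit 415) (nat_lit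 402) (nat_lit 383))))) (XT.nd (nat_lit 234) (nat_lit 3724) (nat_lit 0) (XT.nd (nat_lit 78) (nat_lit 2128) (nat_lit 0) (XT.lf (nat_lit 0) (nat_lit 1458521561) (nat_lit 988) (nat_lit 2181446425) (nat_lit 76) (nat_lit 3217370342) (nat_lit 664) (nat_lit 5) (nat_lit 677) (nat_lit 5) (nat_lit 665) (nat_lit 5) (nat_lit 416) (nat_lit 402) (nat_lit 382)) (XT.nd (nat_lit 78) (nat_lit 1140) (nat_lit 0) (XT.lf (nat_lit 0) (nat_lit 3835790658) (nat_lit 988) (nat_lit 1309810087) (nat_lit 1064) (nat_lit 1761649161) (nat_lit 651) (nat_lit 5) (nat_lit 664) (nat_lit 5) (nat_lit 665) (nat_lit 5) (nat_lit 417) (nat_lit 402) (nat_lit 381)) (XT.lf (nat_lit 0) (nat_lit 1878245144) (nat_lit 1140) (nat_lit 3925857884) (nat_lit 76) (nat_lit 1155930974) (nat_lit 636) (nat_lit 5) (nat_lit 651) (nat_lit 5) (nat_lit 637) (nat_lit 5) (nat_lit 418) (nat_lit 402) (nat_lit 380)))) (XT.nd (nat_lit 78) (nat_lit 2584) (nat_lit 0) (XT.lf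 (nat_lit 0) (nat_lit 2268938661) (nat_lit 1140) (nat_lit 3259644515) (nat_lit 1216) (nat_lit 1487106884) (nat_lit 621) (nat_lit 5) (nat_lit 636) (nat_lit 5) (nat_lit 637) (nat_lit 5) (nat_lit 419) (nat_lit 402) (nat_lit 379)) (XT.nd (nat_lit 78) (nat_lit 1292) (nat_lit 0) (XT.lf (nat_lit 0) (nat_lit 1545257383) (nat_lit 1216) (nat_lit 560616851) (nat_lit 1292) (nat_lit 4968487344) (nat_lit 604) (nat_lit 5) (nat_lit 620) (nat_lit 5) (nat_lit 621) (nat_lit 5) (nat_lit 420) (nat_lit 402) (nat_lit 378)) (XT.lf (nat_lit 0) (nat_lit 851172940) (nat_lit 1292) (nat_lit 4873393552) (nat_lit 1368) (nat_lit 1411290694) (nat_lit 587) (nat_lit 5) (nat_lit 604) (nat_lit 5) (nat_lit 605) (nat_lit 5) (nat_lit 421) (nat_lit 402) (nat_lit 377)))))) (XT.nd (nat_lit 468) (nat_lit 7296) (nat_lit 0) (XT.nd (nat_lit 234) (nat_lit 4864) (nat_lit 0) (XT.nd (nat_lit 78) (nat_lit 1520) (nat_lit 0) (XT.lf (nat_lit 0) (nat_lit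 191693558) (nat_lit 1368) (nat_lit 1961768385) (nat_lit 1444) (nat_lit 5046857477) (nat_lit 568) (nat_lit 5) (nat_lit 586) (nat_lit 5) (nat_lit 587) (nat_lit 5) (nat_lit 422) (nat_lit 402) (nat_lit 376)) (XT.nd (nat_lit 78) (nat_lit 1520) (nat_lit 0) (XT.lf (nat_lit 0) (nat_lit 5746175159) (nat_lit 1444) (nat_lit 427059874) (nat_lit 76) (nat_lit 1094511379) (nat_lit 568) (nat_lit 5) (nat_lit 587) (nat_lit 5) (nat_lit 569) (nat_lit 5) (nat_lit 423) (nat_lit 402) (nat_lit 375)) (XT.lf (nat_lit 0) (nat_lit 2029338447) (nat_lit 1520) (nat_lit 1020155657) (nat_lit 76) (nat_lit 4288497845) (nat_lit 548) (nat_lit 5) (nat_lit 568) (nat_lit 5) (nat_lit 549) (nat_lit 5) (nat_lit 424) (nat_lit 402) (nat_lit 374)))) (XT.nd (nat_lit 78) (nat_lit 3344) (nat_lit 0) (XT.lf (nat_lit 0) (nat_lit 5604030949) (nat_lit 1596) (nat_lit 1576322956) (nat_lit 76) (nat_lit 231050926) (nat_lit 528) (nat_lit 5) (nat_lit 549) (nat_lit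 5) (nat_lit 529) (nat_lit 5) (nat_lit 425) (nat_lit 402) (nat_lit 373)) (XT.nd (nat_lit 78) (nat_lit 1672) (nat_lit 0) (XT.lf (nat_lit 0) (nat_lit 1735399628) (nat_lit 1672) (nat_lit 2117081127) (nat_lit 76) (nat_lit 3635123505) (nat_lit 506) (nat_lit 5) (nat_lit 528) (nat_lit 5) (nat_lit 507) (nat_lit 5) (nat_lit 426) (nat_lit 402) (nat_lit 372)) (XT.lf (nat_lit 0) (nat_lit 4943236809) (nat_lit 1672) (nat_lit 359396122) (nat_lit 1748) (nat_lit 2264381363) (nat_lit 484) (nat_lit 5) (nat_lit 506) (nat_lit 5) (nat_lit 507) (nat_lit 5) (nat_lit 427) (nat_lit 402) (nat_lit 371))))) (XT.nd (nat_lit 234) (nat_lit 2736) (nat_lit 0) (XT.nd (nat_lit 78) (nat_lit 2736) (nat_lit 0) (XT.lf (nat_lit 0) (nat_lit 1277524664) (nat_lit 1824) (nat_lit 3115073864) (nat_lit 76) (nat_lit 3256715640) (nat_lit 460) (nat_lit 5) (nat_lit 484) (nat_lit 5) (nat_lit 461) (nat_lit 5) (nat_lit 428) (nat_lit 402) (nat_lit 370))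 (XT.nd (nat_lit 78) (nat_lit 1064) (nat_lit 0) (XT.lf (nat_lit 0) (nat_lit 4154731127) (nat_lit 1672) (nat_lit 691399109) (nat_lit 1748) (nat_lit 2888646135) (nat_lit 438) (nat_lit 5) (nat_lit 460) (nat_lit 5) (nat_lit 461) (nat_lit 5) (nat_lit 429) (nat_lit 402) (nat_lit 369)) (XT.lf (nat_lit 0) (nat_lit 661813692) (nat_lit 1064) (nat_lit 4027120036) (nat_lit 76) (nat_lit 3134354157) (nat_lit 424) (nat_lit 5) (nat_lit 438) (nat_lit 5) (nat_lit 425) (nat_lit 5) (nat_lit 430) (nat_lit 402) (nat_lit 368)))) (XT.nd (nat_lit 78) (nat_lit 1824) (nat_lit 0) (XT.lf (nat_lit 0) (nat_lit 3458478277) (nat_lit 912) (nat_lit 780316708) (nat_lit 988) (nat_lit 3676108354) (nat_lit 412) (nat_lit 5) (nat_lit 424) (nat_lit 5) (nat_lit 425) (nat_lit 5) (nat_lit 431) (nat_lit 402) (nat_lit 367)) (XT.nd (nat_lit 78) (nat_lit 912) (nat_lit 0) (XT.lf (nat_lit 0) (nat_lit 3143196683) (nat_lit 912) (nat_lit 4758480896) (nat_lit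 988) (nat_lit 108032923) (nat_lit 400) (nat_lit 5) (nat_lit 412) (nat_lit 5) (nat_lit 413) (nat_lit 5) (nat_lit 432) (nat_lit 402) (nat_lit 366)) (XT.lf (nat_lit 0) (nat_lit 2842220403) (nat_lit 836) (nat_lit 643239497) (nat_lit 912) (nat_lit 4622149978) (nat_lit 388) (nat_lit 5) (nat_lit 399) (nat_lit 5) (nat_lit 400) (nat_lit 5) (nat_lit 433) (nat_lit 402) (nat_lit 365))))))) (XT.nd (nat_lit 858) (nat_lit 6308) (nat_lit 0) (XT.nd (nat_lit 390) (nat_lit 4332) (nat_lit 0) (XT.nd (nat_lit 156) (nat_lit 2432) (nat_lit 0) (XT.nd (nat_lit 78) (nat_lit 836) (nat_lit 0) (XT.lf (nat_lit 0) (nat_lit 2558540475) (nat_lit 836) (nat_lit 4612981685) (nat_lit 912) (nat_lit 1037199084) (nat_lit 377) (nat_lit 5) (nat_lit 388) (nat_lit 5) (nat_lit 389) (nat_lit 5) (nat_lit 434) (nat_lit 402) (nat_lit 364)) (XT.lf (nat_lit 0) (nat_lit 2293982342) (nat_lit 760) (nat_lit 296047447) (nat_lit 836) (nat_lit 5723113546)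 (nat_lit 366) (nat_lit 5) (nat_lit 376) (nat_lit 5) (nat_lit 377) (nat_lit 5) (nat_lit 435) (nat_lit 402) (nat_lit 363))) (XT.nd (nat_lit 78) (nat_lit 1596) (nat_lit 0) (XT.lf (nat_lit 0) (nat_lit 2034832133) (nat_lit 836) (nat_lit 4272241126) (nat_lit 912) (nat_lit 2113598810) (nat_lit 355) (nat_lit 5) (nat_lit 366) (nat_lit 5) (nat_lit 367) (nat_lit 5) (nat_lit 436) (nat_lit 402) (nat_lit 362)) (XT.nd (nat_lit 78) (nat_lit 760) (nat_lit 0) (XT.lf (nat_lit 0) (nat_lit 1557107014) (nat_lit 836) (nat_lit 6731408720) (nat_lit 76) (nat_lit 243235977) (nat_lit 344) (nat_lit 5) (nat_lit 355) (nat_lit 5) (nat_lit 345) (nat_lit 5) (nat_lit 437) (nat_lit 402) (nat_lit 361)) (XT.lf (nat_lit 0) (nat_lit 1560394915) (nat_lit 760) (nat_lit 3750612971) (nat_lit 836) (nat_lit 3334852556) (nat_lit 334) (nat_lit 5) (nat_lit 344) (nat_lit 5) (nat_lit 345) (nat_lit 5) (nat_lit 438) (nat_lit 402) (nat_lit 360))))) (XT.nd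 (nat_lit 234) (nat_lit 2128) (nat_lit 0) (XT.nd (nat_lit 78) (nat_lit 1444) (nat_lit 0) (XT.lf (nat_lit 0) (nat_lit 390310394) (nat_lit 760) (nat_lit 7415645434) (nat_lit 76) (nat_lit 957761990) (nat_lit 324) (nat_lit 5) (nat_lit 334) (nat_lit 5) (nat_lit 325) (nat_lit 5) (nat_lit 439) (nat_lit 402) (nat_lit 359)) (XT.nd (nat_lit 78) (nat_lit 684) (nat_lit 0) (XT.lf (nat_lit 0) (nat_lit 1123586310) (nat_lit 760) (nat_lit 3061553838) (nat_lit 836) (nat_lit 4699476511) (nat_lit 314) (nat_lit 5) (nat_lit 324) (nat_lit 5) (nat_lit 325) (nat_lit 5) (nat_lit 440) (nat_lit 402) (nat_lit 358)) (XT.lf (nat_lit 0) (nat_lit 921393973) (nat_lit 684) (nat_lit 7164686875) (nat_lit 760) (nat_lit 923226975) (nat_lit 305) (nat_lit 5) (nat_lit 314) (nat_lit 5) (nat_lit 315) (nat_lit 5) (nat_lit 441) (nat_lit 402) (nat_lit 357)))) (XT.nd (nat_lit 78) (nat_lit 1368) (nat_lit 0) (XT.lf (nat_lit 0) (nat_lit 712698899) (nat_lit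 684) (nat_lit 2217731992) (nat_lit 760) (nat_lit 6206873320) (nat_lit 295) (nat_lit 5) (nat_lit 304) (nat_lit 5) (nat_lit 305) (nat_lit 5) (nat_lit 442) (nat_lit 402) (nat_lit 356)) (XT.nd (nat_lit 78) (nat_lit 760) (nat_lit 0) (XT.lf (nat_lit 0) (nat_lit 511163201) (nat_lit 608) (nat_lit 6379725724) (nat_lit 684) (nat_lit 2378064716) (nat_lit 287) (nat_lit 5) (nat_lit 295) (nat_lit 5) (nat_lit 296) (nat_lit 5) (nat_lit 443) (nat_lit 402) (nat_lit 355)) (XT.lf (nat_lit 0) (nat_lit 315858508) (nat_lit 684) (nat_lit 1231132697) (nat_lit 760) (nat_lit 7857329117) (nat_lit 277) (nat_lit 5) (nat_lit 286) (nat_lit 5) (nat_lit 287) (nat_lit 5) (nat_lit 444) (nat_lit 402) (nat_lit 354)))))) (XT.nd (nat_lit 468) (nat_lit 3268) (nat_lit 0) (XT.nd (nat_lit 234) (nat_lit 1748) (nat_lit 0) (XT.nd (nat_lit 78) (nat_lit 684) (nat_lit 0) (XT.lf (nat_lit 0) (nat_lit 108039312) (nat_lit 608) (nat_lit 5465503942) (nat_lit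 684) (nat_lit 3969578428) (nat_lit 269) (nat_lit 5) (nat_lit 277) (nat_lit 5) (nat_lit 278) (nat_lit 5) (nat_lit 445) (nat_lit 402) (nat_lit 353)) (XT.nd (nat_lit 78) (nat_lit 608) (nat_lit 0) (XT.lf (nat_lit 0) (nat_lit 34593140) (nat_lit 684) (nat_lit 78044053) (nat_lit 76) (nat_lit 9573449157) (nat_lit 268) (nat_lit 5) (nat_lit 277) (nat_lit 5) (nat_lit 269) (nat_lit 5) (nat_lit 446) (nat_lit 402) (nat_lit 352)) (XT.lf (nat_lit 0) (nat_lit 4135002961) (nat_lit 684) (nat_lit 296330750) (nat_lit 76) (nat_lit 5400889013) (nat_lit 260) (nat_lit 5) (nat_lit 269) (nat_lit 5) (nat_lit 261) (nat_lit 5) (nat_lit 447) (nat_lit 402) (nat_lit 351)))) (XT.nd (nat_lit 78) (nat_lit 1216) (nat_lit 0) (XT.lf (nat_lit 0) (nat_lit 8362109433) (nat_lit 608) (nat_lit 496260038) (nat_lit 76) (nat_lit 1124308214) (nat_lit 253) (nat_lit 5) (nat_lit 261) (nat_lit 5) (nat_lit 254) (nat_lit 5) (nat_lit 448) (nat_lit 402)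 (nat_lit 350)) (XT.nd (nat_lit 78) (nat_lit 532) (nat_lit 0) (XT.lf (nat_lit 0) (nat_lit 2572290747) (nat_lit 684) (nat_lit 716967666) (nat_lit 76) (nat_lit 6847506381) (nat_lit 244) (nat_lit 5) (nat_lit 253) (nat_lit 5) (nat_lit 245) (nat_lit 5) (nat_lit 449) (nat_lit 402) (nat_lit 349)) (XT.lf (nat_lit 0) (nat_lit 6885063606) (nat_lit 608) (nat_lit 940377968) (nat_lit 76) (nat_lit 2469503360) (nat_lit 237) (nat_lit 5) (nat_lit 245) (nat_lit 5) (nat_lit 238) (nat_lit 5) (nat_lit 450) (nat_lit 402) (nat_lit 348))))) (XT.nd (nat_lit 234) (nat_lit 1596) (nat_lit 0) (XT.nd (nat_lit 78) (nat_lit 1064) (nat_lit 0) (XT.lf (nat_lit 0) (nat_lit 882071899) (nat_lit 608) (nat_lit 1168410224) (nat_lit 76) (nat_lit 8406800178) (nat_lit 229) (nat_lit 5) (nat_lit 237) (nat_lit 5) (nat_lit 230) (nat_lit 5) (nat_lit 451) (nat_lit 402) (nat_lit 347)) (XT.nd (nat_lit 78) (nat_lit 532) (nat_lit 0) (XT.lf (nat_lit 0)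 (nat_lit 5286410926) (nat_lit 608) (nat_lit 1422859492) (nat_lit 76) (nat_lit 3914176489) (nat_lit 222) (nat_lit 5) (nat_lit 230) (nat_lit 5) (nat_lit 223) (nat_lit 5) (nat_lit 452) (nat_lit 402) (nat_lit 346)) (XT.lf (nat_lit 0) (nat_lit 9123572911) (nat_lit 532) (nat_lit 718973607) (nat_lit 608) (nat_lit 951663389) (nat_lit 215) (nat_lit 5) (nat_lit 222) (nat_lit 5) (nat_lit 223) (nat_lit 5) (nat_lit 453) (nat_lit 402) (nat_lit 345)))) (XT.nd (nat_lit 78) (nat_lit 1064) (nat_lit 0) (XT.lf (nat_lit 0) (nat_lit 3562392138) (nat_lit 532) (nat_lit 1957872960) (nat_lit 76) (nat_lit 5448496577) (nat_lit 208) (nat_lit 5) (nat_lit 215) (nat_lit 5) (nat_lit 209) (nat_lit 5) (nat_lit 454) (nat_lit 402) (nat_lit 344)) (XT.nd (nat_lit 78) (nat_lit 532) (nat_lit 0) (XT.lf (nat_lit 0) (nat_lit 8218238640) (nat_lit 608) (nat_lit 2243289568) (nat_lit 76) (nat_lit 686516274) (nat_lit 201) (nat_lit 5) (nat_lit 209)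 (nat_lit 5) (nat_lit 202) (nat_lit 5) (nat_lit 455) (nat_lit 402) (nat_lit 343)) (XT.lf (nat_lit 0) (nat_lit 1708315667) (nat_lit 532) (nat_lit 2560469003) (nat_lit 76) (nat_lit 7062722616) (nat_lit 194) (nat_lit 5) (nat_lit 201) (nat_lit 5) (nat_lit 195) (nat_lit 5) (nat_lit 456) (nat_lit 402) (nat_lit 342))))))))
noncomputable def xc47 : XT := (XT.nd (nat_lit 1794) (nat_lit 2052) (nat_lit 0) (XT.nd (nat_lit 858) (nat_lit 3496) (nat_lit 0) (XT.nd (nat_lit 390) (nat_lit 2356) (nat_lit 0) (XT.nd (nat_lit 156) (nat_lit 1444) (nat_lit 0) (XT.nd (nat_lit 78) (nat_lit 456) (nat_lit 0) (XT.lf (nat_lit 0) (nat_lit 6473998582) (nat_lit 532) (nat_lit 2896747548) (nat_lit 76) (nat_lit 2148781869) (nat_lit 188) (nat_lit 5) (nat_lit 195) (nat_lit 5) (nat_lit 189) (nat_lit 5) (nat_lit 457) (nat_lit 402) (nat_lit 341)) (XT.lf (nat_lit 0) (nat_lit 8463728061) (nat_lit 456) (nat_lit 2963351863) (nat_lit 532) (nat_lit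 285226478) (nat_lit 182) (nat_lit 5) (nat_lit 188) (nat_lit 5) (nat_lit 189) (nat_lit 5) (nat_lit 458) (nat_lit 402) (nat_lit 340))) (XT.nd (nat_lit 78) (nat_lit 912) (nat_lit 0) (XT.lf (nat_lit 0) (nat_lit 4599249294) (nat_lit 532) (nat_lit 3642981308) (nat_lit 76) (nat_lit 3667204697) (nat_lit 175) (nat_lit 5) (nat_lit 182) (nat_lit 5) (nat_lit 176) (nat_lit 5) (nat_lit 459) (nat_lit 402) (nat_lit 339)) (XT.nd (nat_lit 78) (nat_lit 532) (nat_lit 0) (XT.lf (nat_lit 0) (nat_lit 8061866512) (nat_lit 380) (nat_lit 1604006211) (nat_lit 456) (nat_lit 2445783062) (nat_lit 170) (nat_lit 5) (nat_lit 175) (nat_lit 5) (nat_lit 176) (nat_lit 5) (nat_lit 460) (nat_lit 402) (nat_lit 338)) (XT.lf (nat_lit 0) (nat_lit 2587040259) (nat_lit 532) (nat_lit 4499900897) (nat_lit 76) (nat_lit 5231551205) (nat_lit 163) (nat_lit 5) (nat_lit 170) (nat_lit 5) (nat_lit 164) (nat_lit 5) (nat_lit 461) (nat_lit 402) (nat_lit 337)))))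 (XT.nd (nat_lit 234) (nat_lit 1140) (nat_lit 0) (XT.nd (nat_lit 78) (nat_lit 836) (nat_lit 0) (XT.lf (nat_lit 0) (nat_lit 7558994231) (nat_lit 380) (nat_lit 212997425) (nat_lit 456) (nat_lit 4758536409) (nat_lit 158) (nat_lit 5) (nat_lit 163) (nat_lit 5) (nat_lit 164) (nat_lit 5) (nat_lit 462) (nat_lit 402) (nat_lit 336)) (XT.nd (nat_lit 78) (nat_lit 380) (nat_lit 0) (XT.lf (nat_lit 0) (nat_lit 429314975) (nat_lit 456) (nat_lit 5486864838) (nat_lit 76) (nat_lit 6831292061) (nat_lit 152) (nat_lit 5) (nat_lit 158) (nat_lit 5) (nat_lit 153) (nat_lit 5) (nat_lit 463) (nat_lit 402) (nat_lit 335)) (XT.lf (nat_lit 0) (nat_lit 5744956829) (nat_lit 456) (nat_lit 6041812002) (nat_lit 76) (nat_lit 1182794430) (nat_lit 147) (nat_lit 5) (nat_lit 153) (nat_lit 5) (nat_lit 148) (nat_lit 5) (nat_lit 464) (nat_lit 402) (nat_lit 334)))) (XT.nd (nat_lit 78) (nat_lit 760) (nat_lit 0) (XT.lf (nat_lit 0) (nat_lit 6559686418)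 (nat_lit 380) (nat_lit 4729072065) (nat_lit 456) (nat_lit 1908189407) (nat_lit 142) (nat_lit 5) (nat_lit 147) (nat_lit 5) (nat_lit 148) (nat_lit 5) (nat_lit 465) (nat_lit 402) (nat_lit 333)) (XT.nd (nat_lit 78) (nat_lit 380) (nat_lit 0) (XT.lf (nat_lit 0) (nat_lit 3568963163) (nat_lit 380) (nat_lit 7276249567) (nat_lit 76) (nat_lit 2584521463) (nat_lit 137) (nat_lit 5) (nat_lit 142) (nat_lit 5) (nat_lit 138) (nat_lit 5) (nat_lit 466) (nat_lit 402) (nat_lit 332)) (XT.lf (nat_lit 0) (nat_lit 5702501529) (nat_lit 380) (nat_lit 3546612703) (nat_lit 456) (nat_lit 4418849398) (nat_lit 132) (nat_lit 5) (nat_lit 137) (nat_lit 5) (nat_lit 138) (nat_lit 5) (nat_lit 467) (nat_lit 402) (nat_lit 331)))))) (XT.nd (nat_lit 468) (nat_lit 1444) (nat_lit 0) (XT.nd (nat_lit 234) (nat_lit 1064) (nat_lit 0) (XT.nd (nat_lit 78) (nat_lit 608) (nat_lit 0) (XT.lf (nat_lit 0) (nat_lit 1231792832) (nat_lit 380) (nat_lit 8697318602)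 (nat_lit 76) (nat_lit 3982857821) (nat_lit 127) (nat_lit 5) (nat_lit 132) (nat_lit 5) (nat_lit 128) (nat_lit 5) (nat_lit 468) (nat_lit 402) (nat_lit 330)) (XT.nd (nat_lit 78) (nat_lit 304) (nat_lit 0) (XT.lf (nat_lit 0) (nat_lit 4667855193) (nat_lit 304) (nat_lit 2384668322) (nat_lit 380) (nat_lit 7108978963) (nat_lit 123) (nat_lit 5) (nat_lit 127) (nat_lit 5) (nat_lit 128) (nat_lit 5) (nat_lit 469) (nat_lit 402) (nat_lit 329)) (XT.lf (nat_lit 0) (nat_lit 4077567855) (nat_lit 304) (nat_lit 9043709220) (nat_lit 380) (nat_lit 1295780175) (nat_lit 119) (nat_lit 5) (nat_lit 123) (nat_lit 5) (nat_lit 124) (nat_lit 5) (nat_lit 470) (nat_lit 402) (nat_lit 328)))) (XT.nd (nat_lit 78) (nat_lit 684) (nat_lit 0) (XT.lf (nat_lit 0) (nat_lit 3429389835) (nat_lit 304) (nat_lit 1257073866) (nat_lit 380) (nat_lit 9992085457) (nat_lit 114) (nat_lit 5) (nat_lit 118) (nat_lit 5) (nat_lit 119) (nat_lit 5) (nat_lit 471)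 (nat_lit 402) (nat_lit 327)) (XT.nd (nat_lit 78) (nat_lit 380) (nat_lit 0) (XT.lf (nat_lit 0) (nat_lit 2713792029) (nat_lit 304) (nat_lit 8202843553) (nat_lit 380) (nat_lit 4029360936) (nat_lit 110) (nat_lit 5) (nat_lit 114) (nat_lit 5) (nat_lit 115) (nat_lit 5) (nat_lit 472) (nat_lit 402) (nat_lit 326)) (XT.lf (nat_lit 0) (nat_lit 1958197900) (nat_lit 304) (nat_lit 178664637) (nat_lit 380) (nat_lit 13083287228) (nat_lit 105) (nat_lit 5) (nat_lit 109) (nat_lit 5) (nat_lit 110) (nat_lit 5) (nat_lit 473) (nat_lit 402) (nat_lit 325))))) (XT.nd (nat_lit 234) (nat_lit 836) (nat_lit 0) (XT.nd (nat_lit 78) (nat_lit 380) (nat_lit 0) (XT.lf (nat_lit 0) (nat_lit 1101296490) (nat_lit 228) (nat_lit 7430565602) (nat_lit 304) (nat_lit 6968165236) (nat_lit 102) (nat_lit 5) (nat_lit 105) (nat_lit 5) (nat_lit 106) (nat_lit 5) (nat_lit 474) (nat_lit 402) (nat_lit 324)) (XT.nd (nat_lit 78) (nat_lit 76) (nat_lit 0) (XT.lf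 (nat_lit 0) (nat_lit 212927637) (nat_lit 304) (nat_lit 14959621040) (nat_lit 380) (nat_lit 614678763) (nat_lit 98) (nat_lit 5) (nat_lit 102) (nat_lit 5) (nat_lit 103) (nat_lit 5) (nat_lit 475) (nat_lit 402) (nat_lit 323)) (XT.lf (nat_lit 0) (nat_lit 5955860922) (nat_lit 380) (nat_lit 782815612) (nat_lit 76) (nat_lit 9341515610) (nat_lit 97) (nat_lit 5) (nat_lit 102) (nat_lit 5) (nat_lit 98) (nat_lit 5) (nat_lit 476) (nat_lit 402) (nat_lit 322)))) (XT.nd (nat_lit 78) (nat_lit 608) (nat_lit 0) (XT.lf (nat_lit 0) (nat_lit 12779075364) (nat_lit 304) (nat_lit 1823937862) (nat_lit 76) (nat_lit 1777575847) (nat_lit 94) (nat_lit 5) (nat_lit 98) (nat_lit 5) (nat_lit 95) (nat_lit 5) (nat_lit 477) (nat_lit 402) (nat_lit 321)) (XT.nd (nat_lit 78) (nat_lit 228) (nat_lit 0) (XT.lf (nat_lit 0) (nat_lit 3174559864) (nat_lit 380) (nat_lit 2966972993) (nat_lit 76) (nat_lit 10546093879) (nat_lit 89) (nat_lit 5) (nat_lit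 94) (nat_lit 5) (nat_lit 90) (nat_lit 5) (nat_lit 478) (nat_lit 402) (nat_lit 320)) (XT.lf (nat_lit 0) (nat_lit 10176983438) (nat_lit 304) (nat_lit 4192350534) (nat_lit 76) (nat_lit 2632628004) (nat_lit 86) (nat_lit 5) (nat_lit 90) (nat_lit 5) (nat_lit 87) (nat_lit 5) (nat_lit 479) (nat_lit 402) (nat_lit 319))))))) (XT.nd (nat_lit 56706) (nat_lit 0) (nat_lit 44916) (XT.nd (nat_lit 468) (nat_lit 456) (nat_lit 0) (XT.nd (nat_lit 234) (nat_lit 836) (nat_lit 0) (XT.nd (nat_lit 78) (nat_lit 456) (nat_lit 0) (XT.lf (nat_lit 0) (nat_lit 160858278) (nat_lit 304) (nat_lit 5505461993) (nat_lit 76) (nat_lit 11657442291) (nat_lit 82) (nat_lit 5) (nat_lit 86) (nat_lit 5) (nat_lit 83) (nat_lit 5) (nat_lit 480) (nat_lit 402) (nat_lit 318)) (XT.nd (nat_lit 78) (nat_lit 228) (nat_lit 0) (XT.lf (nat_lit 0) (nat_lit 7344301138) (nat_lit 304) (nat_lit 6936936837) (nat_lit 76) (nat_lit 3371464154) (nat_lit 79) (nat_lit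 5) (nat_lit 83) (nat_lit 5) (nat_lit 80) (nat_lit 5) (nat_lit 481) (nat_lit 402) (nat_lit 317)) (XT.lf (nat_lit 0) (nat_lit 9526909836) (nat_lit 228) (nat_lit 5313921288) (nat_lit 304) (nat_lit 3148729354) (nat_lit 76) (nat_lit 5) (nat_lit 79) (nat_lit 5) (nat_lit 80) (nat_lit 5) (nat_lit 482) (nat_lit 402) (nat_lit 316)))) (XT.nd (nat_lit 78) (nat_lit 532) (nat_lit 0) (XT.lf (nat_lit 0) (nat_lit 4258116070) (nat_lit 304) (nat_lit 10103832509) (nat_lit 76) (nat_lit 3972273335) (nat_lit 72) (nat_lit 5) (nat_lit 76) (nat_lit 5) (nat_lit 73) (nat_lit 5) (nat_lit 483) (nat_lit 402) (nat_lit 315)) (XT.nd (nat_lit 78) (nat_lit 304) (nat_lit 0) (XT.lf (nat_lit 0) (nat_lit 6817383355) (nat_lit 228) (nat_lit 5126047308) (nat_lit 304) (nat_lit 6743397512) (nat_lit 69) (nat_lit 5) (nat_lit 72) (nat_lit 5) (nat_lit 73) (nat_lit 5) (nat_lit 484) (nat_lit 402) (nat_lit 314)) (XT.lf (nat_lit 0) (nat_lit 892968358)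 (nat_lit 304) (nat_lit 13743945237) (nat_lit 76) (nat_lit 4411110131) (nat_lit 65) (nat_lit 5) (nat_lit 69) (nat_lit 5) (nat_lit 66) (nat_lit 5) (nat_lit 485) (nat_lit 402) (nat_lit 313))))) (XT.nd (nat_lit 56004) (nat_lit 0) (nat_lit 51072) (XT.nd (nat_lit 78) (nat_lit 228) (nat_lit 0) (XT.lf (nat_lit 0) (nat_lit 3638689761) (nat_lit 228) (nat_lit 5129739926) (nat_lit 304) (nat_lit 10648703501) (nat_lit 62) (nat_lit 5) (nat_lit 65) (nat_lit 5) (nat_lit 66) (nat_lit 5) (nat_lit 486) (nat_lit 402) (nat_lit 312)) (XT.nd (nat_lit 78) (nat_lit 76) (nat_lit 0) (XT.lf (nat_lit 0) (nat_lit 1863582834) (nat_lit 152) (nat_lit 15115422983) (nat_lit 228) (nat_lit 2816334980) (nat_lit 60) (nat_lit 5) (nat_lit 62) (nat_lit 5) (nat_lit 63) (nat_lit 5) (nat_lit 487) (nat_lit 402) (nat_lit 311)) (XT.lf (nat_lit 0) (nat_lit 5287220938) (nat_lit 228) (nat_lit 65892558) (nat_lit 76) (nat_lit 14828999386) (nat_lit 59)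 (nat_lit 5) (nat_lit 62) (nat_lit 5) (nat_lit 60) (nat_lit 5) (nat_lit 488) (nat_lit 402) (nat_lit 310)))) (XT.nd (nat_lit 78) (nat_lit 456) (nat_lit 0) (XT.lf (nat_lit 0) (nat_lit 193033802) (nat_lit 0) (nat_lit 193033802) (nat_lit 380) (nat_lit 2854275174) (nat_lit 737) (nat_lit 5) (nat_lit 737) (nat_lit 3) (nat_lit 742) (nat_lit 3) (nat_lit 403) (nat_lit 403) (nat_lit 394)) (XT.nd (nat_lit 78) (nat_lit 456) (nat_lit 0) (XT.lf (nat_lit 0) (nat_lit 4883591494) (nat_lit 380) (nat_lit 1296645871) (nat_lit 456) (nat_lit 314561242) (nat_lit 737) (nat_lit 5) (nat_lit 742) (nat_lit 3) (nat_lit 743) (nat_lit 5) (nat_lit 404) (nat_lit 403) (nat_lit 393)) (XT.lf (nat_lit 0) (nat_lit 2440501628) (nat_lit 456) (nat_lit 2921845380) (nat_lit 532) (nat_lit 1149378054) (nat_lit 731) (nat_lit 5) (nat_lit 737) (nat_lit 5) (nat_lit 738) (nat_lit 5) (nat_lit 405) (nat_lit 403) (nat_lit 392)))))) (XT.nd (nat_lit 468)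 (nat_lit 4408) (nat_lit 0) (XT.nd (nat_lit 234) (nat_lit 608) (nat_lit 0) (XT.nd (nat_lit 78) (nat_lit 1140) (nat_lit 0) (XT.lf (nat_lit 76) (nat_lit 2043246486) (nat_lit 0) (nat_lit 4414492583) (nat_lit 532) (nat_lit 73930745) (nat_lit 732) (nat_lit 5) (nat_lit 731) (nat_lit 5) (nat_lit 738) (nat_lit 5) (nat_lit 406) (nat_lit 403) (nat_lit 391)) (XT.nd (nat_lit 78) (nat_lit 608) (nat_lit 0) (XT.lf (nat_lit 76) (nat_lit 540990285) (nat_lit 0) (nat_lit 3319303563) (nat_lit 608) (nat_lit 2694032083) (nat_lit 725) (nat_lit 5) (nat_lit 724) (nat_lit 5) (nat_lit 732) (nat_lit 5) (nat_lit 407) (nat_lit 403) (nat_lit 390)) (XT.lf (nat_lit 0) (nat_lit 1196508715) (nat_lit 608) (nat_lit 889527966) (nat_lit 684) (nat_lit 4493876798) (nat_lit 716) (nat_lit 5) (nat_lit 724) (nat_lit 5) (nat_lit 725) (nat_lit 5) (nat_lit 408) (nat_lit 403) (nat_lit 389)))) (XT.nd (nat_lit 78) (nat_lit 608) (nat_lit 0) (XT.lf (nat_lit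 76) (nat_lit 4343599208) (nat_lit 0) (nat_lit 705854222) (nat_lit 684) (nat_lit 1558849226) (nat_lit 717) (nat_lit 5) (nat_lit 716) (nat_lit 5) (nat_lit 725) (nat_lit 5) (nat_lit 409) (nat_lit 403) (nat_lit 388)) (XT.nd (nat_lit 78) (nat_lit 0) (nat_lit 0) (XT.lf (nat_lit 0) (nat_lit 2237018623) (nat_lit 684) (nat_lit 3595891917) (nat_lit 760) (nat_lit 806602151) (nat_lit 708) (nat_lit 5) (nat_lit 717) (nat_lit 5) (nat_lit 718) (nat_lit 5) (nat_lit 410) (nat_lit 403) (nat_lit 387)) (XT.lf (nat_lit 76) (nat_lit 1793345203) (nat_lit 0) (nat_lit 4224807313) (nat_lit 760) (nat_lit 655482267) (nat_lit 709) (nat_lit 5) (nat_lit 708) (nat_lit 5) (nat_lit 718) (nat_lit 5) (nat_lit 411) (nat_lit 403) (nat_lit 386))))) (XT.nd (nat_lit 234) (nat_lit 2812) (nat_lit 0) (XT.nd (nat_lit 78) (nat_lit 836) (nat_lit 0) (XT.lf (nat_lit 76) (nat_lit 585676908) (nat_lit 0) (nat_lit 2467789410) (nat_lit 836) (nat_lit 3657098852)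 (nat_lit 699) (nat_lit 5) (nat_lit 698) (nat_lit 5) (nat_lit 709) (nat_lit 5) (nat_lit 412) (nat_lit 403) (nat_lit 385)) (XT.nd (nat_lit 78) (nat_lit 0) (nat_lit 76) (XT.lf (nat_lit 0) (nat_lit 13783431) (nat_lit 836) (nat_lit 557489842) (nat_lit 912) (nat_lit 6179277588) (nat_lit 687) (nat_lit 5) (nat_lit 698) (nat_lit 5) (nat_lit 699) (nat_lit 5) (nat_lit 413) (nat_lit 403) (nat_lit 384)) (XT.lf (nat_lit 0) (nat_lit 3658037182) (nat_lit 836) (nat_lit 1667163555) (nat_lit 76) (nat_lit 1467822514) (nat_lit 688) (nat_lit 5) (nat_lit 699) (nat_lit 5) (nat_lit 689) (nat_lit 5) (nat_lit 414) (nat_lit 403) (nat_lit 383)))) (XT.nd (nat_lit 78) (nat_lit 1976) (nat_lit 0) (XT.lf (nat_lit 0) (nat_lit 474204131) (nat_lit 912) (nat_lit 2726608555) (nat_lit 76) (nat_lit 3637772390) (nat_lit 676) (nat_lit 5) (nat_lit 688) (nat_lit 5) (nat_lit 677) (nat_lit 5) (nat_lit 415) (nat_lit 403) (nat_lit 382)) (XT.nd (nat_lit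 78) (nat_lit 1064) (nat_lit 0) (XT.lf (nat_lit 0) (nat_lit 3136209383) (nat_lit 912) (nat_lit 920339645) (nat_lit 988) (nat_lit 2830427853) (nat_lit 664) (nat_lit 5) (nat_lit 676) (nat_lit 5) (nat_lit 677) (nat_lit 5) (nat_lit 416) (nat_lit 403) (nat_lit 381)) (XT.lf (nat_lit 0) (nat_lit 719399465) (nat_lit 1064) (nat_lit 4735020034) (nat_lit 76) (nat_lit 1483912053) (nat_lit 650) (nat_lit 5) (nat_lit 664) (nat_lit 5) (nat_lit 651) (nat_lit 5) (nat_lit 417) (nat_lit 403) (nat_lit 380))))))))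
noncomputable def xc48 : XT := (XT.nd (nat_lit 1794) (nat_lit 12616) (nat_lit 0) (XT.nd (nat_lit 858) (nat_lit 10336) (nat_lit 0) (XT.nd (nat_lit 390) (nat_lit 9576) (nat_lit 0) (XT.nd (nat_lit 156) (nat_lit 2584) (nat_lit 0) (XT.nd (nat_lit 78) (nat_lit 1216) (nat_lit 0) (XT.lf (nat_lit 0) (nat_lit 1301048882) (nat_lit 1064) (nat_lit 2957600292) (nat_lit 1140) (nat_lit 2733800812) (nat_lit 636) (nat_lit 5) (nat_lit 650) (nat_lit 5) (nat_lit 651) (nat_lit 5) (nat_lit 418) (nat_lit 403) (nat_lit 379)) (XT.lf (nat_lit 0) (nat_lit 448011442) (nat_lit 1140) (nat_lit 314946837) (nat_lit 1216) (nat_lit 6286780318) (nat_lit 620) (nat_lit 5) (nat_lit 635) (nat_lit 5) (nat_lit 636) (nat_lit 5) (nat_lit 419) (nat_lit 403) (nat_lit 378))) (XT.nd (nat_lit 78) (nat_lit 2584) (nat_lit 0) (XT.lf (nat_lit 0) (nat_lit 4268258945) (nat_lit 1216) (nat_lit 381251912) (nat_lit 76) (nat_lit 2460081044) (nat_lit 620) (nat_lit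 5) (nat_lit 636) (nat_lit 5) (nat_lit 621) (nat_lit 5) (nat_lit 420) (nat_lit 403) (nat_lit 377)) (XT.nd (nat_lit 78) (nat_lit 1292) (nat_lit 0) (XT.lf (nat_lit 0) (nat_lit 628323164) (nat_lit 1292) (nat_lit 1160186595) (nat_lit 76) (nat_lit 5384058638) (nat_lit 603) (nat_lit 5) (nat_lit 620) (nat_lit 5) (nat_lit 604) (nat_lit 5) (nat_lit 421) (nat_lit 403) (nat_lit 376)) (XT.lf (nat_lit 0) (nat_lit 4100305366) (nat_lit 1368) (nat_lit 1916101929) (nat_lit 76) (nat_lit 1221935791) (nat_lit 586) (nat_lit 5) (nat_lit 604) (nat_lit 5) (nat_lit 587) (nat_lit 5) (nat_lit 422) (nat_lit 403) (nat_lit 375))))) (XT.nd (nat_lit 234) (nat_lit 5168) (nat_lit 0) (XT.nd (nat_lit 78) (nat_lit 2964) (nat_lit 0) (XT.lf (nat_lit 0) (nat_lit 309436303) (nat_lit 1444) (nat_lit 2637912431) (nat_lit 76) (nat_lit 4359835714) (nat_lit 567) (nat_lit 5) (nat_lit 586) (nat_lit 5) (nat_lit 568) (nat_lit 5) (nat_lit 423) (nat_lit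 403) (nat_lit 374)) (XT.nd (nat_lit 78) (nat_lit 1520) (nat_lit 0) (XT.lf (nat_lit 0) (nat_lit 3755125799) (nat_lit 1520) (nat_lit 3335276910) (nat_lit 76) (nat_lit 288544683) (nat_lit 548) (nat_lit 5) (nat_lit 568) (nat_lit 5) (nat_lit 549) (nat_lit 5) (nat_lit 424) (nat_lit 403) (nat_lit 373)) (XT.lf (nat_lit 0) (nat_lit 3446954401) (nat_lit 1520) (nat_lit 3815841101) (nat_lit 1596) (nat_lit 190914643) (nat_lit 528) (nat_lit 5) (nat_lit 548) (nat_lit 5) (nat_lit 549) (nat_lit 5) (nat_lit 425) (nat_lit 403) (nat_lit 372)))) (XT.nd (nat_lit 78) (nat_lit 3496) (nat_lit 0) (XT.lf (nat_lit 0) (nat_lit 2876249378) (nat_lit 1596) (nat_lit 366531636) (nat_lit 1672) (nat_lit 4288685172) (nat_lit 506) (nat_lit 5) (nat_lit 527) (nat_lit 5) (nat_lit 528) (nat_lit 5) (nat_lit 426) (nat_lit 403) (nat_lit 371)) (XT.nd (nat_lit 78) (nat_lit 1824) (nat_lit 0) (XT.lf (nat_lit 0) (nat_lit 2329724024) (nat_lit 1672)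 (nat_lit 4412993409) (nat_lit 1748) (nat_lit 869513425) (nat_lit 484) (nat_lit 5) (nat_lit 506) (nat_lit 5) (nat_lit 507) (nat_lit 5) (nat_lit 427) (nat_lit 403) (nat_lit 370)) (XT.lf (nat_lit 0) (nat_lit 1808868844) (nat_lit 1748) (nat_lit 758819151) (nat_lit 1824) (nat_lit 5128398105) (nat_lit 460) (nat_lit 5) (nat_lit 483) (nat_lit 5) (nat_lit 484) (nat_lit 5) (nat_lit 428) (nat_lit 403) (nat_lit 369)))))) (XT.nd (nat_lit 468) (nat_lit 4864) (nat_lit 0) (XT.nd (nat_lit 234) (nat_lit 1824) (nat_lit 0) (XT.nd (nat_lit 78) (nat_lit 1976) (nat_lit 0) (XT.lf (nat_lit 0) (nat_lit 1306503310) (nat_lit 1672) (nat_lit 4760340529) (nat_lit 1748) (nat_lit 1716101498) (nat_lit 438) (nat_lit 5) (nat_lit 460) (nat_lit 5) (nat_lit 461) (nat_lit 5) (nat_lit 429) (nat_lit 403) (nat_lit 368)) (XT.nd (nat_lit 78) (nat_lit 912) (nat_lit 0) (XT.lf (nat_lit 0) (nat_lit 830462467) (nat_lit 988) (nat_lit 903231038) (nat_lit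 1064) (nat_lit 6139324474) (nat_lit 424) (nat_lit 5) (nat_lit 437) (nat_lit 5) (nat_lit 438) (nat_lit 5) (nat_lit 430) (nat_lit 403) (nat_lit 367)) (XT.lf (nat_lit 0) (nat_lit 364578491) (nat_lit 912) (nat_lit 4875919659) (nat_lit 988) (nat_lit 2725546246) (nat_lit 412) (nat_lit 5) (nat_lit 424) (nat_lit 5) (nat_lit 425) (nat_lit 5) (nat_lit 431) (nat_lit 403) (nat_lit 366)))) (XT.nd (nat_lit 78) (nat_lit 1748) (nat_lit 0) (XT.lf (nat_lit 0) (nat_lit 746030920) (nat_lit 988) (nat_lit 70633788) (nat_lit 76) (nat_lit 7245793486) (nat_lit 411) (nat_lit 5) (nat_lit 424) (nat_lit 5) (nat_lit 412) (nat_lit 5) (nat_lit 432) (nat_lit 403) (nat_lit 365)) (XT.nd (nat_lit 78) (nat_lit 836) (nat_lit 0) (XT.lf (nat_lit 0) (nat_lit 4271359903) (nat_lit 988) (nat_lit 501751981) (nat_lit 76) (nat_lit 3388573463) (nat_lit 399) (nat_lit 5) (nat_lit 412) (nat_lit 5) (nat_lit 400) (nat_lit 5) (nat_lit 433) (nat_lit 403)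 (nat_lit 364)) (XT.lf (nat_lit 0) (nat_lit 7364351849) (nat_lit 836) (nat_lit 508046333) (nat_lit 912) (nat_lit 392105677) (nat_lit 388) (nat_lit 5) (nat_lit 399) (nat_lit 5) (nat_lit 400) (nat_lit 5) (nat_lit 434) (nat_lit 403) (nat_lit 363))))) (XT.nd (nat_lit 234) (nat_lit 2280) (nat_lit 0) (XT.nd (nat_lit 78) (nat_lit 1672) (nat_lit 0) (XT.lf (nat_lit 0) (nat_lit 3161589693) (nat_lit 912) (nat_lit 1307240393) (nat_lit 76) (nat_lit 3901319902) (nat_lit 376) (nat_lit 5) (nat_lit 388) (nat_lit 5) (nat_lit 377) (nat_lit 5) (nat_lit 435) (nat_lit 403) (nat_lit 362)) (XT.nd (nat_lit 78) (nat_lit 912) (nat_lit 0) (XT.lf (nat_lit 0) (nat_lit 6789645831) (nat_lit 836) (nat_lit 1684286887) (nat_lit 76) (nat_lit 5531909) (nat_lit 366) (nat_lit 5) (nat_lit 377) (nat_lit 5) (nat_lit 367) (nat_lit 5) (nat_lit 436) (nat_lit 403) (nat_lit 361)) (XT.lf (nat_lit 0) (nat_lit 1911469736) (nat_lit 912) (nat_lit 2068478702)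 (nat_lit 76) (nat_lit 4611823853) (nat_lit 354) (nat_lit 5) (nat_lit 366) (nat_lit 5) (nat_lit 355) (nat_lit 5) (nat_lit 437) (nat_lit 403) (nat_lit 360)))) (XT.nd (nat_lit 78) (nat_lit 1520) (nat_lit 0) (XT.lf (nat_lit 0) (nat_lit 5577135843) (nat_lit 836) (nat_lit 2434409122) (nat_lit 76) (nat_lit 696106445) (nat_lit 344) (nat_lit 5) (nat_lit 355) (nat_lit 5) (nat_lit 345) (nat_lit 5) (nat_lit 438) (nat_lit 403) (nat_lit 359)) (XT.nd (nat_lit 78) (nat_lit 684) (nat_lit 0) (XT.lf (nat_lit 0) (nat_lit 522774601) (nat_lit 836) (nat_lit 2797220987) (nat_lit 76) (nat_lit 5506875941) (nat_lit 333) (nat_lit 5) (nat_lit 344) (nat_lit 5) (nat_lit 334) (nat_lit 5) (nat_lit 439) (nat_lit 403) (nat_lit 358)) (XT.lf (nat_lit 0) (nat_lit 4233045438) (nat_lit 760) (nat_lit 3158935488) (nat_lit 76) (nat_lit 1557485883) (nat_lit 324) (nat_lit 5) (nat_lit 334) (nat_lit 5) (nat_lit 325) (nat_lit 5) (nat_lit 440) (nat_lit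 403) (nat_lit 357))))))) (XT.nd (nat_lit 858) (nat_lit 5472) (nat_lit 0) (XT.nd (nat_lit 390) (nat_lit 3572) (nat_lit 0) (XT.nd (nat_lit 156) (nat_lit 2052) (nat_lit 0) (XT.nd (nat_lit 78) (nat_lit 760) (nat_lit 0) (XT.lf (nat_lit 0) (nat_lit 5563803846) (nat_lit 760) (nat_lit 2494942950) (nat_lit 836) (nat_lit 1016921071) (nat_lit 314) (nat_lit 5) (nat_lit 324) (nat_lit 5) (nat_lit 325) (nat_lit 5) (nat_lit 441) (nat_lit 403) (nat_lit 356)) (XT.lf (nat_lit 0) (nat_lit 2758004613) (nat_lit 760) (nat_lit 3869676001) (nat_lit 76) (nat_lit 2577599889) (nat_lit 304) (nat_lit 5) (nat_lit 314) (nat_lit 5) (nat_lit 305) (nat_lit 5) (nat_lit 442) (nat_lit 403) (nat_lit 355))) (XT.nd (nat_lit 78) (nat_lit 1368) (nat_lit 0) (XT.lf (nat_lit 0) (nat_lit 5116508867) (nat_lit 684) (nat_lit 1519081656) (nat_lit 760) (nat_lit 2703001573) (nat_lit 295) (nat_lit 5) (nat_lit 304) (nat_lit 5) (nat_lit 305) (nat_lit 5)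 (nat_lit 443) (nat_lit 403) (nat_lit 354)) (XT.nd (nat_lit 78) (nat_lit 684) (nat_lit 0) (XT.lf (nat_lit 0) (nat_lit 1151800292) (nat_lit 684) (nat_lit 4578635398) (nat_lit 76) (nat_lit 3745060088) (nat_lit 286) (nat_lit 5) (nat_lit 295) (nat_lit 5) (nat_lit 287) (nat_lit 5) (nat_lit 444) (nat_lit 403) (nat_lit 353)) (XT.lf (nat_lit 0) (nat_lit 4679513488) (nat_lit 684) (nat_lit 407286353) (nat_lit 760) (nat_lit 4529332709) (nat_lit 277) (nat_lit 5) (nat_lit 286) (nat_lit 5) (nat_lit 287) (nat_lit 5) (nat_lit 445) (nat_lit 403) (nat_lit 352))))) (XT.nd (nat_lit 234) (nat_lit 1748) (nat_lit 0) (XT.nd (nat_lit 78) (nat_lit 1216) (nat_lit 0) (XT.lf (nat_lit 0) (nat_lit 4458496811) (nat_lit 608) (nat_lit 4707553148) (nat_lit 684) (nat_lit 594423052) (nat_lit 269) (nat_lit 5) (nat_lit 277) (nat_lit 5) (nat_lit 278) (nat_lit 5) (nat_lit 446) (nat_lit 403) (nat_lit 351)) (XT.nd (nat_lit 78) (nat_lit 532)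 (nat_lit 0) (XT.lf (nat_lit 0) (nat_lit 3416526763) (nat_lit 684) (nat_lit 5673390569) (nat_lit 76) (nat_lit 818718392) (nat_lit 260) (nat_lit 5) (nat_lit 269) (nat_lit 5) (nat_lit 261) (nat_lit 5) (nat_lit 447) (nat_lit 403) (nat_lit 350)) (XT.lf (nat_lit 0) (nat_lit 4003583990) (nat_lit 532) (nat_lit 3565134281) (nat_lit 608) (nat_lit 2491874627) (nat_lit 253) (nat_lit 5) (nat_lit 260) (nat_lit 5) (nat_lit 261) (nat_lit 5) (nat_lit 448) (nat_lit 403) (nat_lit 349)))) (XT.nd (nat_lit 78) (nat_lit 1064) (nat_lit 0) (XT.lf (nat_lit 0) (nat_lit 1620686763) (nat_lit 684) (nat_lit 6443397265) (nat_lit 76) (nat_lit 2152547345) (nat_lit 244) (nat_lit 5) (nat_lit 253) (nat_lit 5) (nat_lit 245) (nat_lit 5) (nat_lit 449) (nat_lit 403) (nat_lit 348)) (XT.nd (nat_lit 78) (nat_lit 532) (nat_lit 0) (XT.lf (nat_lit 0) (nat_lit 3527111131) (nat_lit 532) (nat_lit 2321331677) (nat_lit 608) (nat_lit 4528072658) (nat_lit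 237) (nat_lit 5) (nat_lit 244) (nat_lit 5) (nat_lit 245) (nat_lit 5) (nat_lit 450) (nat_lit 403) (nat_lit 347)) (XT.lf (nat_lit 0) (nat_lit 3281136550) (nat_lit 532) (nat_lit 6949062877) (nat_lit 608) (nat_lit 310460423) (nat_lit 230) (nat_lit 5) (nat_lit 237) (nat_lit 5) (nat_lit 238) (nat_lit 5) (nat_lit 451) (nat_lit 403) (nat_lit 346)))))) (XT.nd (nat_lit 468) (nat_lit 2280) (nat_lit 0) (XT.nd (nat_lit 234) (nat_lit 1520) (nat_lit 0) (XT.nd (nat_lit 78) (nat_lit 1064) (nat_lit 0) (XT.lf (nat_lit 0) (nat_lit 3015729010) (nat_lit 532) (nat_lit 986308212) (nat_lit 608) (nat_lit 6706749154) (nat_lit 222) (nat_lit 5) (nat_lit 229) (nat_lit 5) (nat_lit 230) (nat_lit 5) (nat_lit 452) (nat_lit 403) (nat_lit 345)) (XT.nd (nat_lit 78) (nat_lit 532) (nat_lit 0) (XT.lf (nat_lit 0) (nat_lit 2735571575) (nat_lit 532) (nat_lit 5745427612) (nat_lit 608) (nat_lit 2400096906) (nat_lit 215) (nat_lit 5) (nat_lit 222)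 (nat_lit 5) (nat_lit 223) (nat_lit 5) (nat_lit 453) (nat_lit 403) (nat_lit 344)) (XT.lf (nat_lit 0) (nat_lit 2028207998) (nat_lit 532) (nat_lit 8605428741) (nat_lit 76) (nat_lit 424297236) (nat_lit 208) (nat_lit 5) (nat_lit 215) (nat_lit 5) (nat_lit 209) (nat_lit 5) (nat_lit 454) (nat_lit 403) (nat_lit 343)))) (XT.nd (nat_lit 78) (nat_lit 988) (nat_lit 0) (XT.lf (nat_lit 0) (nat_lit 2132928344) (nat_lit 532) (nat_lit 4474231950) (nat_lit 608) (nat_lit 4631597371) (nat_lit 201) (nat_lit 5) (nat_lit 208) (nat_lit 5) (nat_lit 209) (nat_lit 5) (nat_lit 455) (nat_lit 403) (nat_lit 342)) (XT.nd (nat_lit 78) (nat_lit 532) (nat_lit 0) (XT.lf (nat_lit 0) (nat_lit 1817830325) (nat_lit 456) (nat_lit 9531688323) (nat_lit 532) (nat_lit 74972577) (nat_lit 195) (nat_lit 5) (nat_lit 201) (nat_lit 5) (nat_lit 202) (nat_lit 5) (nat_lit 456) (nat_lit 403) (nat_lit 341)) (XT.lf (nat_lit 0) (nat_lit 1457774631) (nat_lit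 456) (nat_lit 3145658209) (nat_lit 532) (nat_lit 7010856821) (nat_lit 188) (nat_lit 5) (nat_lit 194) (nat_lit 5) (nat_lit 195) (nat_lit 5) (nat_lit 457) (nat_lit 403) (nat_lit 340))))) (XT.nd (nat_lit 234) (nat_lit 912) (nat_lit 0) (XT.nd (nat_lit 78) (nat_lit 912) (nat_lit 0) (XT.lf (nat_lit 0) (nat_lit 1088270660) (nat_lit 456) (nat_lit 8372893955) (nat_lit 532) (nat_lit 2347813129) (nat_lit 182) (nat_lit 5) (nat_lit 188) (nat_lit 5) (nat_lit 189) (nat_lit 5) (nat_lit 458) (nat_lit 403) (nat_lit 339)) (XT.nd (nat_lit 78) (nat_lit 380) (nat_lit 0) (XT.lf (nat_lit 0) (nat_lit 693582108) (nat_lit 456) (nat_lit 1769995900) (nat_lit 532) (nat_lit 9544801745) (nat_lit 175) (nat_lit 5) (nat_lit 181) (nat_lit 5) (nat_lit 182) (nat_lit 5) (nat_lit 459) (nat_lit 403) (nat_lit 338)) (XT.lf (nat_lit 0) (nat_lit 260310732) (nat_lit 380) (nat_lit 7181511682) (nat_lit 456) (nat_lit 4770547892) (nat_lit 170) (nat_lit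 5) (nat_lit 175) (nat_lit 5) (nat_lit 176) (nat_lit 5) (nat_lit 460) (nat_lit 403) (nat_lit 337)))) (XT.nd (nat_lit 78) (nat_lit 836) (nat_lit 0) (XT.lf (nat_lit 0) (nat_lit 181464312) (nat_lit 456) (nat_lit 175108878) (nat_lit 76) (nat_lit 12065163953) (nat_lit 169) (nat_lit 5) (nat_lit 175) (nat_lit 5) (nat_lit 170) (nat_lit 5) (nat_lit 461) (nat_lit 403) (nat_lit 336)) (XT.nd (nat_lit 78) (nat_lit 380) (nat_lit 0) (XT.lf (nat_lit 0) (nat_lit 5288397093) (nat_lit 532) (nat_lit 675544995) (nat_lit 76) (nat_lit 6671393429) (nat_lit 163) (nat_lit 5) (nat_lit 170) (nat_lit 5) (nat_lit 164) (nat_lit 5) (nat_lit 462) (nat_lit 403) (nat_lit 335)) (XT.lf (nat_lit 0) (nat_lit 10584929091) (nat_lit 456) (nat_lit 1181042749) (nat_lit 76) (nat_lit 1088646706) (nat_lit 158) (nat_lit 5) (nat_lit 164) (nat_lit 5) (nat_lit 159) (nat_lit 5) (nat_lit 463) (nat_lit 403) (nat_lit 334))))))))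
noncomputable def xc49 : XT := (XT.nd (nat_lit 1794) (nat_lit 380) (nat_lit 0) (XT.nd (nat_lit 858) (nat_lit 3040) (nat_lit 0) (XT.nd (nat_lit 390) (nat_lit 2052) (nat_lit 0) (XT.nd (nat_lit 156) (nat_lit 1140) (nat_lit 0) (XT.nd (nat_lit 78) (nat_lit 380) (nat_lit 0) (XT.lf (nat_lit 0) (nat_lit 2990353472) (nat_lit 456) (nat_lit 1743068480) (nat_lit 76) (nat_lit 8345292157) (nat_lit 152) (nat_lit 5) (nat_lit 158) (nat_lit 5) (nat_lit 153) (nat_lit 5) (nat_lit 464) (nat_lit 403) (nat_lit 333)) (XT.lf (nat_lit 0) (nat_lit 8424950299) (nat_lit 456) (nat_lit 2336622470) (nat_lit 76) (nat_lit 2546712126) (nat_lit 147) (nat_lit 5) (nat_lit 153) (nat_lit 5) (nat_lit 148) (nat_lit 5) (nat_lit 465) (nat_lit 403) (nat_lit 332))) (XT.nd (nat_lit 78) (nat_lit 684) (nat_lit 0) (XT.lf (nat_lit 0) (nat_lit 536263601) (nat_lit 456) (nat_lit 2967121615) (nat_lit 76) (nat_lit 10040005755) (nat_lit 141) (nat_lit 5)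 (nat_lit 147) (nat_lit 5) (nat_lit 142) (nat_lit 5) (nat_lit 466) (nat_lit 403) (nat_lit 331)) (XT.nd (nat_lit 78) (nat_lit 380) (nat_lit 0) (XT.lf (nat_lit 0) (nat_lit 6113337864) (nat_lit 380) (nat_lit 3660707947) (nat_lit 76) (nat_lit 4009638039) (nat_lit 137) (nat_lit 5) (nat_lit 142) (nat_lit 5) (nat_lit 138) (nat_lit 5) (nat_lit 467) (nat_lit 403) (nat_lit 330)) (XT.lf (nat_lit 0) (nat_lit 9645206359) (nat_lit 380) (nat_lit 2272185539) (nat_lit 456) (nat_lit 2112604019) (nat_lit 132) (nat_lit 5) (nat_lit 137) (nat_lit 5) (nat_lit 138) (nat_lit 5) (nat_lit 468) (nat_lit 403) (nat_lit 329))))) (XT.nd (nat_lit 234) (nat_lit 988) (nat_lit 0) (XT.nd (nat_lit 78) (nat_lit 684) (nat_lit 0) (XT.lf (nat_lit 0) (nat_lit 3638733275) (nat_lit 380) (nat_lit 5177713367) (nat_lit 76) (nat_lit 5465300597) (nat_lit 127) (nat_lit 5) (nat_lit 132) (nat_lit 5) (nat_lit 128) (nat_lit 5) (nat_lit 469) (nat_lit 403)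 (nat_lit 328)) (XT.nd (nat_lit 78) (nat_lit 380) (nat_lit 0) (XT.lf (nat_lit 0) (nat_lit 8527081118) (nat_lit 304) (nat_lit 1062123472) (nat_lit 380) (nat_lit 4950464776) (nat_lit 123) (nat_lit 5) (nat_lit 127) (nat_lit 5) (nat_lit 128) (nat_lit 5) (nat_lit 470) (nat_lit 403) (nat_lit 327)) (XT.lf (nat_lit 0) (nat_lit 988353590) (nat_lit 380) (nat_lit 6914334867) (nat_lit 76) (nat_lit 6900776164) (nat_lit 118) (nat_lit 5) (nat_lit 123) (nat_lit 5) (nat_lit 119) (nat_lit 5) (nat_lit 471) (nat_lit 403) (nat_lit 326)))) (XT.nd (nat_lit 78) (nat_lit 684) (nat_lit 0) (XT.lf (nat_lit 0) (nat_lit 7089922935) (nat_lit 380) (nat_lit 7875724830) (nat_lit 76) (nat_lit 107837845) (nat_lit 114) (nat_lit 5) (nat_lit 119) (nat_lit 5) (nat_lit 115) (nat_lit 5) (nat_lit 472) (nat_lit 403) (nat_lit 325)) (XT.nd (nat_lit 78) (nat_lit 380) (nat_lit 0) (XT.lf (nat_lit 0) (nat_lit 6437639746) (nat_lit 304) (nat_lit 7035262382)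 (nat_lit 380) (nat_lit 1876740959) (nat_lit 110) (nat_lit 5) (nat_lit 114) (nat_lit 5) (nat_lit 115) (nat_lit 5) (nat_lit 473) (nat_lit 403) (nat_lit 324)) (XT.lf (nat_lit 0) (nat_lit 4410725274) (nat_lit 380) (nat_lit 10010765037) (nat_lit 76) (nat_lit 1210918442) (nat_lit 105) (nat_lit 5) (nat_lit 110) (nat_lit 5) (nat_lit 106) (nat_lit 5) (nat_lit 474) (nat_lit 403) (nat_lit 323)))))) (XT.nd (nat_lit 468) (nat_lit 1596) (nat_lit 0) (XT.nd (nat_lit 234) (nat_lit 608) (nat_lit 0) (XT.nd (nat_lit 78) (nat_lit 608) (nat_lit 0) (XT.lf (nat_lit 0) (nat_lit 4723003918) (nat_lit 228) (nat_lit 6234669073) (nat_lit 304) (nat_lit 4963812068) (nat_lit 102) (nat_lit 5) (nat_lit 105) (nat_lit 5) (nat_lit 106) (nat_lit 5) (nat_lit 475) (nat_lit 403) (nat_lit 322)) (XT.nd (nat_lit 78) (nat_lit 228) (nat_lit 0) (XT.lf (nat_lit 0) (nat_lit 1528228296) (nat_lit 380) (nat_lit 12444445514) (nat_lit 76) (nat_lit 2245052831)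 (nat_lit 97) (nat_lit 5) (nat_lit 102) (nat_lit 5) (nat_lit 98) (nat_lit 5) (nat_lit 476) (nat_lit 403) (nat_lit 321)) (XT.lf (nat_lit 0) (nat_lit 2717665557) (nat_lit 228) (nat_lit 5524850013) (nat_lit 304) (nat_lit 8277787852) (nat_lit 94) (nat_lit 5) (nat_lit 97) (nat_lit 5) (nat_lit 98) (nat_lit 5) (nat_lit 477) (nat_lit 403) (nat_lit 320)))) (XT.nd (nat_lit 78) (nat_lit 304) (nat_lit 0) (XT.lf (nat_lit 0) (nat_lit 1606346343) (nat_lit 304) (nat_lit 13627222090) (nat_lit 380) (nat_lit 1596884916) (nat_lit 90) (nat_lit 5) (nat_lit 94) (nat_lit 5) (nat_lit 95) (nat_lit 5) (nat_lit 478) (nat_lit 403) (nat_lit 319)) (XT.nd (nat_lit 78) (nat_lit 0) (nat_lit 0) (XT.lf (nat_lit 0) (nat_lit 383976597) (nat_lit 228) (nat_lit 4924631086) (nat_lit 304) (nat_lit 11838746964) (nat_lit 86) (nat_lit 5) (nat_lit 89) (nat_lit 5) (nat_lit 90) (nat_lit 5) (nat_lit 479) (nat_lit 403) (nat_lit 318)) (XT.lf (nat_lit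 0) (nat_lit 12490202161) (nat_lit 304) (nat_lit 907787220) (nat_lit 76) (nat_lit 4073752228) (nat_lit 86) (nat_lit 5) (nat_lit 90) (nat_lit 5) (nat_lit 87) (nat_lit 5) (nat_lit 480) (nat_lit 403) (nat_lit 317))))) (XT.nd (nat_lit 234) (nat_lit 836) (nat_lit 0) (XT.nd (nat_lit 78) (nat_lit 456) (nat_lit 0) (XT.lf (nat_lit 0) (nat_lit 2150063714) (nat_lit 304) (nat_lit 2289134065) (nat_lit 76) (nat_lit 13364474855) (nat_lit 82) (nat_lit 5) (nat_lit 86) (nat_lit 5) (nat_lit 83) (nat_lit 5) (nat_lit 481) (nat_lit 403) (nat_lit 316)) (XT.nd (nat_lit 78) (nat_lit 228) (nat_lit 0) (XT.lf (nat_lit 0) (nat_lit 9521760902) (nat_lit 304) (nat_lit 3788288181) (nat_lit 76) (nat_lit 4832979641) (nat_lit 79) (nat_lit 5) (nat_lit 83) (nat_lit 5) (nat_lit 80) (nat_lit 5) (nat_lit 482) (nat_lit 403) (nat_lit 315)) (XT.lf (nat_lit 0) (nat_lit 13115014501) (nat_lit 228) (nat_lit 4092609183) (nat_lit 304) (nat_lit 1283083658)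 (nat_lit 76) (nat_lit 5) (nat_lit 79) (nat_lit 5) (nat_lit 80) (nat_lit 5) (nat_lit 483) (nat_lit 403) (nat_lit 314)))) (XT.nd (nat_lit 78) (nat_lit 532) (nat_lit 0) (XT.lf (nat_lit 0) (nat_lit 6294102053) (nat_lit 304) (nat_lit 7103667548) (nat_lit 76) (nat_lit 5448210753) (nat_lit 72) (nat_lit 5) (nat_lit 76) (nat_lit 5) (nat_lit 73) (nat_lit 5) (nat_lit 484) (nat_lit 403) (nat_lit 313)) (XT.nd (nat_lit 78) (nat_lit 304) (nat_lit 0) (XT.lf (nat_lit 0) (nat_lit 10271592999) (nat_lit 228) (nat_lit 3903902338) (nat_lit 304) (nat_lit 5034362092) (nat_lit 69) (nat_lit 5) (nat_lit 72) (nat_lit 5) (nat_lit 73) (nat_lit 5) (nat_lit 485) (nat_lit 403) (nat_lit 312)) (XT.lf (nat_lit 0) (nat_lit 2780896436) (nat_lit 304) (nat_lit 10906291219) (nat_lit 76) (nat_lit 5894958480) (nat_lit 65) (nat_lit 5) (nat_lit 69) (nat_lit 5) (nat_lit 66) (nat_lit 5) (nat_lit 486) (nat_lit 403) (nat_lit 311))))))) (XT.nd (nat_lit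 56784) (nat_lit 0) (nat_lit 35492) (XT.nd (nat_lit 56316) (nat_lit 0) (nat_lit 47652) (XT.nd (nat_lit 56082) (nat_lit 0) (nat_lit 49780) (XT.nd (nat_lit 78) (nat_lit 152) (nat_lit 0) (XT.lf (nat_lit 0) (nat_lit 6945095888) (nat_lit 228) (nat_lit 3914076422) (nat_lit 304) (nat_lit 9103828339) (nat_lit 62) (nat_lit 5) (nat_lit 65) (nat_lit 5) (nat_lit 66) (nat_lit 5) (nat_lit 487) (nat_lit 403) (nat_lit 310)) (XT.nd (nat_lit 55926) (nat_lit 0) (nat_lit 50920) (XT.lf (nat_lit 0) (nat_lit 5092168433) (nat_lit 152) (nat_lit 14199895812) (nat_lit 228) (nat_lit 1060972972) (nat_lit 60) (nat_lit 5) (nat_lit 62) (nat_lit 5) (nat_lit 63) (nat_lit 5) (nat_lit 488) (nat_lit 403) (nat_lit 309)) (XT.lf (nat_lit 0) (nat_lit 1185019908) (nat_lit 532) (nat_lit 1035059885) (nat_lit 532) (nat_lit 1035059885) (nat_lit 730) (nat_lit 3) (nat_lit 737) (nat_lit 3) (nat_lit 737) (nat_lit 5) (nat_lit 404) (nat_lit 404) (nat_lit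 392)))) (XT.nd (nat_lit 78) (nat_lit 1140) (nat_lit 0) (XT.lf (nat_lit 76) (nat_lit 2761319735) (nat_lit 0) (nat_lit 3551375997) (nat_lit 532) (nat_lit 216079413) (nat_lit 731) (nat_lit 5) (nat_lit 730) (nat_lit 3) (nat_lit 737) (nat_lit 5) (nat_lit 405) (nat_lit 404) (nat_lit 391)) (XT.nd (nat_lit 78) (nat_lit 608) (nat_lit 0) (XT.lf (nat_lit 76) (nat_lit 1127817031) (nat_lit 0) (nat_lit 2515914763) (nat_lit 608) (nat_lit 2906274060) (nat_lit 724) (nat_lit 5) (nat_lit 723) (nat_lit 5) (nat_lit 731) (nat_lit 5) (nat_lit 406) (nat_lit 404) (nat_lit 390)) (XT.lf (nat_lit 0) (nat_lit 906147441) (nat_lit 608) (nat_lit 439496896) (nat_lit 684) (nat_lit 5228596149) (nat_lit 715) (nat_lit 5) (nat_lit 723) (nat_lit 5) (nat_lit 724) (nat_lit 5) (nat_lit 407) (nat_lit 404) (nat_lit 389))))) (XT.nd (nat_lit 234) (nat_lit 1520) (nat_lit 0) (XT.nd (nat_lit 78) (nat_lit 608) (nat_lit 0) (XT.lf (nat_lit 76) (nat_lit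 4655398980) (nat_lit 0) (nat_lit 22474214) (nat_lit 684) (nat_lit 1923292358) (nat_lit 716) (nat_lit 5) (nat_lit 715) (nat_lit 5) (nat_lit 724) (nat_lit 5) (nat_lit 408) (nat_lit 404) (nat_lit 388)) (XT.nd (nat_lit 78) (nat_lit 0) (nat_lit 0) (XT.lf (nat_lit 0) (nat_lit 1798558817) (nat_lit 684) (nat_lit 3409868609) (nat_lit 760) (nat_lit 1422452646) (nat_lit 707) (nat_lit 5) (nat_lit 716) (nat_lit 5) (nat_lit 717) (nat_lit 5) (nat_lit 409) (nat_lit 404) (nat_lit 387)) (XT.lf (nat_lit 76) (nat_lit 1837718582) (nat_lit 0) (nat_lit 3654521294) (nat_lit 760) (nat_lit 1171299013) (nat_lit 708) (nat_lit 5) (nat_lit 707) (nat_lit 5) (nat_lit 717) (nat_lit 5) (nat_lit 410) (nat_lit 404) (nat_lit 386)))) (XT.nd (nat_lit 78) (nat_lit 760) (nat_lit 0) (XT.lf (nat_lit 76) (nat_lit 500208926) (nat_lit 0) (nat_lit 1955162965) (nat_lit 836) (nat_lit 4243701394) (nat_lit 698) (nat_lit 5) (nat_lit 697) (nat_lit 5)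 (nat_lit 708) (nat_lit 5) (nat_lit 411) (nat_lit 404) (nat_lit 385)) (XT.nd (nat_lit 78) (nat_lit 760) (nat_lit 0) (XT.lf (nat_lit 76) (nat_lit 5963455885) (nat_lit 0) (nat_lit 111073358) (nat_lit 836) (nat_lit 663028320) (nat_lit 698) (nat_lit 5) (nat_lit 697) (nat_lit 5) (nat_lit 708) (nat_lit 5) (nat_lit 412) (nat_lit 404) (nat_lit 384)) (XT.lf (nat_lit 0) (nat_lit 2898524858) (nat_lit 836) (nat_lit 2014773151) (nat_lit 912) (nat_lit 1865272070) (nat_lit 687) (nat_lit 5) (nat_lit 698) (nat_lit 5) (nat_lit 699) (nat_lit 5) (nat_lit 413) (nat_lit 404) (nat_lit 383)))))) (XT.nd (nat_lit 468) (nat_lit 8208) (nat_lit 0) (XT.nd (nat_lit 234) (nat_lit 2204) (nat_lit 0) (XT.nd (nat_lit 78) (nat_lit 1748) (nat_lit 0) (XT.lf (nat_lit 76) (nat_lit 3618293545) (nat_lit 0) (nat_lit 2842632898) (nat_lit 912) (nat_lit 361767040) (nat_lit 688) (nat_lit 5) (nat_lit 687) (nat_lit 5) (nat_lit 699) (nat_lit 5) (nat_lit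 414) (nat_lit 404) (nat_lit 382)) (XT.nd (nat_lit 78) (nat_lit 836) (nat_lit 0) (XT.lf (nat_lit 76) (nat_lit 2509685324) (nat_lit 0) (nat_lit 615392460) (nat_lit 988) (nat_lit 3744550192) (nat_lit 676) (nat_lit 5) (nat_lit 675) (nat_lit 5) (nat_lit 688) (nat_lit 5) (nat_lit 415) (nat_lit 404) (nat_lit 381)) (XT.lf (nat_lit 0) (nat_lit 1443586059) (nat_lit 912) (nat_lit 5189304836) (nat_lit 988) (nat_lit 286632431) (nat_lit 664) (nat_lit 5) (nat_lit 676) (nat_lit 5) (nat_lit 677) (nat_lit 5) (nat_lit 416) (nat_lit 404) (nat_lit 380)))) (XT.nd (nat_lit 78) (nat_lit 1140) (nat_lit 0) (XT.lf (nat_lit 0) (nat_lit 406681366) (nat_lit 988) (nat_lit 2743187392) (nat_lit 1064) (nat_lit 3822290483) (nat_lit 650) (nat_lit 5) (nat_lit 663) (nat_lit 5) (nat_lit 664) (nat_lit 5) (nat_lit 417) (nat_lit 404) (nat_lit 379)) (XT.nd (nat_lit 78) (nat_lit 1140) (nat_lit 0) (XT.lf (nat_lit 0) (nat_lit 6456495698) (nat_lit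 988) (nat_lit 150416786) (nat_lit 1064) (nat_lit 421021240) (nat_lit 650) (nat_lit 5) (nat_lit 663) (nat_lit 5) (nat_lit 664) (nat_lit 5) (nat_lit 418) (nat_lit 404) (nat_lit 378)) (XT.lf (nat_lit 0) (nat_lit 2981822666) (nat_lit 1140) (nat_lit 1529394678) (nat_lit 76) (nat_lit 2574987678) (nat_lit 635) (nat_lit 5) (nat_lit 650) (nat_lit 5) (nat_lit 636) (nat_lit 5) (nat_lit 419) (nat_lit 404) (nat_lit 377))))) (XT.nd (nat_lit 234) (nat_lit 4484) (nat_lit 0) (XT.nd (nat_lit 78) (nat_lit 2584) (nat_lit 0) (XT.lf (nat_lit 0) (nat_lit 4705921017) (nat_lit 1140) (nat_lit 1700403905) (nat_lit 1216) (nat_lit 741360397) (nat_lit 620) (nat_lit 5) (nat_lit 635) (nat_lit 5) (nat_lit 636) (nat_lit 5) (nat_lit 420) (nat_lit 404) (nat_lit 376)) (XT.nd (nat_lit 78) (nat_lit 1292) (nat_lit 0) (XT.lf (nat_lit 0) (nat_lit 2622556222) (nat_lit 1292) (nat_lit 3331370344) (nat_lit 76) (nat_lit 1258037014) (nat_lit 603)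 (nat_lit 5) (nat_lit 620) (nat_lit 5) (nat_lit 604) (nat_lit 5) (nat_lit 421) (nat_lit 404) (nat_lit 375)) (XT.lf (nat_lit 0) (nat_lit 3088672347) (nat_lit 1292) (nat_lit 2931318522) (nat_lit 1368) (nat_lit 1259248539) (nat_lit 586) (nat_lit 5) (nat_lit 603) (nat_lit 5) (nat_lit 604) (nat_lit 5) (nat_lit 422) (nat_lit 404) (nat_lit 374)))) (XT.nd (nat_lit 78) (nat_lit 3040) (nat_lit 0) (XT.lf (nat_lit 0) (nat_lit 2078232284) (nat_lit 1444) (nat_lit 5019716232) (nat_lit 76) (nat_lit 251605036) (nat_lit 567) (nat_lit 5) (nat_lit 586) (nat_lit 5) (nat_lit 568) (nat_lit 5) (nat_lit 423) (nat_lit 404) (nat_lit 373)) (XT.nd (nat_lit 78) (nat_lit 1596) (nat_lit 0) (XT.lf (nat_lit 0) (nat_lit 1589995786) (nat_lit 1444) (nat_lit 3866319369) (nat_lit 1520) (nat_lit 1966362888) (nat_lit 548) (nat_lit 5) (nat_lit 567) (nat_lit 5) (nat_lit 568) (nat_lit 5) (nat_lit 424) (nat_lit 404) (nat_lit 372)) (XT.lf (nat_lit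 0) (nat_lit 887049171) (nat_lit 1520) (nat_lit 472547482) (nat_lit 1596) (nat_lit 6139416938) (nat_lit 527) (nat_lit 5) (nat_lit 547) (nat_lit 5) (nat_lit 548) (nat_lit 5) (nat_lit 425) (nat_lit 404) (nat_lit 371))))))))
noncomputable def xc50 : XT := (XT.nd (nat_lit 1794) (nat_lit 10412) (nat_lit 0) (XT.nd (nat_lit 858) (nat_lit 8056) (nat_lit 0) (XT.nd (nat_lit 390) (nat_lit 5396) (nat_lit 0) (XT.nd (nat_lit 156) (nat_lit 5168) (nat_lit 0) (XT.nd (nat_lit 78) (nat_lit 76) (nat_lit 0) (XT.lf (nat_lit 0) (nat_lit 195795667) (nat_lit 1596) (nat_lit 4526812950) (nat_lit 1672) (nat_lit 2855508520) (nat_lit 506) (nat_lit 5) (nat_lit 527) (nat_lit 5) (nat_lit 528) (nat_lit 5) (nat_lit 426) (nat_lit 404) (nat_lit 370)) (XT.lf (nat_lit 0) (nat_lit 473054085) (nat_lit 1672) (nat_lit 452278528) (nat_lit 76) (nat_lit 6735148616) (nat_lit 505) (nat_lit 5) (nat_lit 527) (nat_lit 5) (nat_lit 506) (nat_lit 5) (nat_lit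 427) (nat_lit 404) (nat_lit 369))) (XT.nd (nat_lit 78) (nat_lit 3496) (nat_lit 0) (XT.lf (nat_lit 0) (nat_lit 3832329365) (nat_lit 1748) (nat_lit 1092940915) (nat_lit 76) (nat_lit 2820291768) (nat_lit 483) (nat_lit 5) (nat_lit 506) (nat_lit 5) (nat_lit 484) (nat_lit 5) (nat_lit 428) (nat_lit 404) (nat_lit 368)) (XT.nd (nat_lit 78) (nat_lit 1748) (nat_lit 0) (XT.lf (nat_lit 0) (nat_lit 6134913749) (nat_lit 1748) (nat_lit 1116357830) (nat_lit 1824) (nat_lit 582761786) (nat_lit 460) (nat_lit 5) (nat_lit 483) (nat_lit 5) (nat_lit 484) (nat_lit 5) (nat_lit 429) (nat_lit 404) (nat_lit 367)) (XT.lf (nat_lit 0) (nat_lit 2784321378) (nat_lit 1748) (nat_lit 2302268911) (nat_lit 76) (nat_lit 2838732937) (nat_lit 437) (nat_lit 5) (nat_lit 460) (nat_lit 5) (nat_lit 438) (nat_lit 5) (nat_lit 430) (nat_lit 404) (nat_lit 366))))) (XT.nd (nat_lit 234) (nat_lit 2508) (nat_lit 0) (XT.nd (nat_lit 78) (nat_lit 1900) (nat_lit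 0) (XT.lf (nat_lit 0) (nat_lit 5141679400) (nat_lit 988) (nat_lit 1068673590) (nat_lit 1064) (nat_lit 1809619327) (nat_lit 424) (nat_lit 5) (nat_lit 437) (nat_lit 5) (nat_lit 438) (nat_lit 5) (nat_lit 431) (nat_lit 404) (nat_lit 365)) (XT.nd (nat_lit 78) (nat_lit 912) (nat_lit 0) (XT.lf (nat_lit 0) (nat_lit 1581703172) (nat_lit 988) (nat_lit 3447302111) (nat_lit 76) (nat_lit 3088633604) (nat_lit 411) (nat_lit 5) (nat_lit 424) (nat_lit 5) (nat_lit 412) (nat_lit 5) (nat_lit 432) (nat_lit 404) (nat_lit 364)) (XT.lf (nat_lit 0) (nat_lit 4219460783) (nat_lit 912) (nat_lit 801780968) (nat_lit 988) (nat_lit 3197346764) (nat_lit 399) (nat_lit 5) (nat_lit 411) (nat_lit 5) (nat_lit 412) (nat_lit 5) (nat_lit 433) (nat_lit 404) (nat_lit 363)))) (XT.nd (nat_lit 78) (nat_lit 1596) (nat_lit 0) (XT.lf (nat_lit 0) (nat_lit 227932513) (nat_lit 912) (nat_lit 4540320581) (nat_lit 76) (nat_lit 3554501099) (nat_lit 387)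 (nat_lit 5) (nat_lit 399) (nat_lit 5) (nat_lit 388) (nat_lit 5) (nat_lit 434) (nat_lit 404) (nat_lit 362)) (XT.nd (nat_lit 78) (nat_lit 760) (nat_lit 0) (XT.lf (nat_lit 0) (nat_lit 3356296749) (nat_lit 836) (nat_lit 330842210) (nat_lit 912) (nat_lit 4743003535) (nat_lit 376) (nat_lit 5) (nat_lit 387) (nat_lit 5) (nat_lit 388) (nat_lit 5) (nat_lit 435) (nat_lit 404) (nat_lit 361)) (XT.lf (nat_lit 0) (nat_lit 2938962322) (nat_lit 760) (nat_lit 4310440820) (nat_lit 836) (nat_lit 1291375811) (nat_lit 366) (nat_lit 5) (nat_lit 376) (nat_lit 5) (nat_lit 377) (nat_lit 5) (nat_lit 436) (nat_lit 404) (nat_lit 360)))))) (XT.nd (nat_lit 468) (nat_lit 3344) (nat_lit 0) (XT.nd (nat_lit 234) (nat_lit 2204) (nat_lit 0) (XT.nd (nat_lit 78) (nat_lit 1596) (nat_lit 0) (XT.lf (nat_lit 0) (nat_lit 2212499383) (nat_lit 912) (nat_lit 6116685659) (nat_lit 76) (nat_lit 325699283) (nat_lit 354) (nat_lit 5) (nat_lit 366) (nat_lit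 5) (nat_lit 355) (nat_lit 5) (nat_lit 437) (nat_lit 404) (nat_lit 359)) (XT.nd (nat_lit 78) (nat_lit 836) (nat_lit 0) (XT.lf (nat_lit 0) (nat_lit 2134239718) (nat_lit 760) (nat_lit 3675299400) (nat_lit 836) (nat_lit 2962602380) (nat_lit 344) (nat_lit 5) (nat_lit 354) (nat_lit 5) (nat_lit 355) (nat_lit 5) (nat_lit 438) (nat_lit 404) (nat_lit 358)) (XT.lf (nat_lit 0) (nat_lit 599915907) (nat_lit 836) (nat_lit 7140865540) (nat_lit 76) (nat_lit 1152335021) (nat_lit 333) (nat_lit 5) (nat_lit 344) (nat_lit 5) (nat_lit 334) (nat_lit 5) (nat_lit 439) (nat_lit 404) (nat_lit 357)))) (XT.nd (nat_lit 78) (nat_lit 1520) (nat_lit 0) (XT.lf (nat_lit 0) (nat_lit 1358096314) (nat_lit 684) (nat_lit 2877202024) (nat_lit 760) (nat_lit 4781916285) (nat_lit 324) (nat_lit 5) (nat_lit 333) (nat_lit 5) (nat_lit 334) (nat_lit 5) (nat_lit 440) (nat_lit 404) (nat_lit 356)) (XT.nd (nat_lit 78) (nat_lit 760) (nat_lit 0) (XT.lf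 (nat_lit 0) (nat_lit 981221436) (nat_lit 760) (nat_lit 6996295289) (nat_lit 836) (nat_lit 1167573575) (nat_lit 314) (nat_lit 5) (nat_lit 324) (nat_lit 5) (nat_lit 325) (nat_lit 5) (nat_lit 441) (nat_lit 404) (nat_lit 355)) (XT.lf (nat_lit 0) (nat_lit 598745675) (nat_lit 684) (nat_lit 1928235401) (nat_lit 760) (nat_lit 6749393080) (nat_lit 304) (nat_lit 5) (nat_lit 313) (nat_lit 5) (nat_lit 314) (nat_lit 5) (nat_lit 442) (nat_lit 404) (nat_lit 354))))) (XT.nd (nat_lit 234) (nat_lit 1976) (nat_lit 0) (XT.nd (nat_lit 78) (nat_lit 684) (nat_lit 0) (XT.lf (nat_lit 0) (nat_lit 216050420) (nat_lit 684) (nat_lit 6110362190) (nat_lit 760) (nat_lit 3084840808) (nat_lit 295) (nat_lit 5) (nat_lit 304) (nat_lit 5) (nat_lit 305) (nat_lit 5) (nat_lit 443) (nat_lit 404) (nat_lit 353)) (XT.nd (nat_lit 78) (nat_lit 608) (nat_lit 0) (XT.lf (nat_lit 0) (nat_lit 685056714) (nat_lit 760) (nat_lit 153742599) (nat_lit 76)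 (nat_lit 8711209977) (nat_lit 294) (nat_lit 5) (nat_lit 304) (nat_lit 5) (nat_lit 295) (nat_lit 5) (nat_lit 444) (nat_lit 404) (nat_lit 352)) (XT.lf (nat_lit 0) (nat_lit 4550556903) (nat_lit 684) (nat_lit 544078555) (nat_lit 76) (nat_lit 4597404826) (nat_lit 286) (nat_lit 5) (nat_lit 295) (nat_lit 5) (nat_lit 287) (nat_lit 5) (nat_lit 445) (nat_lit 404) (nat_lit 351)))) (XT.nd (nat_lit 78) (nat_lit 1292) (nat_lit 0) (XT.lf (nat_lit 0) (nat_lit 8534811584) (nat_lit 760) (nat_lit 916749468) (nat_lit 76) (nat_lit 386723714) (nat_lit 277) (nat_lit 5) (nat_lit 287) (nat_lit 5) (nat_lit 278) (nat_lit 5) (nat_lit 446) (nat_lit 404) (nat_lit 350)) (XT.nd (nat_lit 78) (nat_lit 608) (nat_lit 0) (XT.lf (nat_lit 0) (nat_lit 2646236073) (nat_lit 684) (nat_lit 1315791864) (nat_lit 76) (nat_lit 6025926325) (nat_lit 268) (nat_lit 5) (nat_lit 277) (nat_lit 5) (nat_lit 269) (nat_lit 5) (nat_lit 447) (nat_lit 404) (nat_lit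 349)) (XT.lf (nat_lit 0) (nat_lit 6707052953) (nat_lit 684) (nat_lit 1711265161) (nat_lit 76) (nat_lit 1723424614) (nat_lit 260) (nat_lit 5) (nat_lit 269) (nat_lit 5) (nat_lit 261) (nat_lit 5) (nat_lit 448) (nat_lit 404) (nat_lit 348))))))) (XT.nd (nat_lit 858) (nat_lit 4408) (nat_lit 0) (XT.nd (nat_lit 390) (nat_lit 3116) (nat_lit 0) (XT.nd (nat_lit 156) (nat_lit 1672) (nat_lit 0) (XT.nd (nat_lit 78) (nat_lit 608) (nat_lit 0) (XT.lf (nat_lit 0) (nat_lit 609648339) (nat_lit 608) (nat_lit 2114633542) (nat_lit 76) (nat_lit 7575237135) (nat_lit 252) (nat_lit 5) (nat_lit 260) (nat_lit 5) (nat_lit 253) (nat_lit 5) (nat_lit 449) (nat_lit 404) (nat_lit 347)) (XT.lf (nat_lit 0) (nat_lit 4752883088) (nat_lit 684) (nat_lit 2540263133) (nat_lit 76) (nat_lit 3167950825) (nat_lit 244) (nat_lit 5) (nat_lit 253) (nat_lit 5) (nat_lit 245) (nat_lit 5) (nat_lit 450) (nat_lit 404) (nat_lit 346))) (XT.nd (nat_lit 78)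 (nat_lit 1140) (nat_lit 0) (XT.lf (nat_lit 0) (nat_lit 7662900706) (nat_lit 532) (nat_lit 1380923501) (nat_lit 608) (nat_lit 1583236943) (nat_lit 237) (nat_lit 5) (nat_lit 244) (nat_lit 5) (nat_lit 245) (nat_lit 5) (nat_lit 451) (nat_lit 404) (nat_lit 345)) (XT.nd (nat_lit 78) (nat_lit 532) (nat_lit 0) (XT.lf (nat_lit 0) (nat_lit 2668810974) (nat_lit 608) (nat_lit 3417330180) (nat_lit 76) (nat_lit 4710757889) (nat_lit 229) (nat_lit 5) (nat_lit 237) (nat_lit 5) (nat_lit 230) (nat_lit 5) (nat_lit 452) (nat_lit 404) (nat_lit 344)) (XT.lf (nat_lit 0) (nat_lit 7045827497) (nat_lit 608) (nat_lit 3873331518) (nat_lit 76) (nat_lit 52091805) (nat_lit 222) (nat_lit 5) (nat_lit 230) (nat_lit 5) (nat_lit 223) (nat_lit 5) (nat_lit 453) (nat_lit 404) (nat_lit 343))))) (XT.nd (nat_lit 234) (nat_lit 1520) (nat_lit 0) (XT.nd (nat_lit 78) (nat_lit 988) (nat_lit 0) (XT.lf (nat_lit 0) (nat_lit 450450773) (nat_lit 608)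 (nat_lit 4356808659) (nat_lit 76) (nat_lit 6342479051) (nat_lit 214) (nat_lit 5) (nat_lit 222) (nat_lit 5) (nat_lit 215) (nat_lit 5) (nat_lit 454) (nat_lit 404) (nat_lit 342)) (XT.nd (nat_lit 78) (nat_lit 532) (nat_lit 0) (XT.lf (nat_lit 0) (nat_lit 4927935798) (nat_lit 532) (nat_lit 4862073394) (nat_lit 76) (nat_lit 1542585237) (nat_lit 208) (nat_lit 5) (nat_lit 215) (nat_lit 5) (nat_lit 209) (nat_lit 5) (nat_lit 455) (nat_lit 404) (nat_lit 341)) (XT.lf (nat_lit 0) (nat_lit 6133514525) (nat_lit 532) (nat_lit 3453615276) (nat_lit 608) (nat_lit 1932864302) (nat_lit 201) (nat_lit 5) (nat_lit 208) (nat_lit 5) (nat_lit 209) (nat_lit 5) (nat_lit 456) (nat_lit 404) (nat_lit 340)))) (XT.nd (nat_lit 78) (nat_lit 988) (nat_lit 0) (XT.lf (nat_lit 0) (nat_lit 2675638462) (nat_lit 532) (nat_lit 5937137286) (nat_lit 76) (nat_lit 3099146119) (nat_lit 194) (nat_lit 5) (nat_lit 201) (nat_lit 5) (nat_lit 195) (nat_lit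 5) (nat_lit 457) (nat_lit 404) (nat_lit 339)) (XT.nd (nat_lit 78) (nat_lit 532) (nat_lit 0) (XT.lf (nat_lit 0) (nat_lit 5394528710) (nat_lit 456) (nat_lit 2043979733) (nat_lit 532) (nat_lit 4470001355) (nat_lit 188) (nat_lit 5) (nat_lit 194) (nat_lit 5) (nat_lit 195) (nat_lit 5) (nat_lit 458) (nat_lit 404) (nat_lit 338)) (XT.lf (nat_lit 0) (nat_lit 282405184) (nat_lit 532) (nat_lit 7115351789) (nat_lit 76) (nat_lit 4712169242) (nat_lit 181) (nat_lit 5) (nat_lit 188) (nat_lit 5) (nat_lit 182) (nat_lit 5) (nat_lit 459) (nat_lit 404) (nat_lit 337)))))) (XT.nd (nat_lit 468) (nat_lit 1824) (nat_lit 0) (XT.nd (nat_lit 234) (nat_lit 1216) (nat_lit 0) (XT.nd (nat_lit 78) (nat_lit 912) (nat_lit 0) (XT.lf (nat_lit 0) (nat_lit 4562209411) (nat_lit 456) (nat_lit 591459464) (nat_lit 532) (nat_lit 7162389920) (nat_lit 175) (nat_lit 5) (nat_lit 181) (nat_lit 5) (nat_lit 182) (nat_lit 5) (nat_lit 460) (nat_lit 404)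 (nat_lit 336)) (XT.nd (nat_lit 78) (nat_lit 532) (nat_lit 0) (XT.lf (nat_lit 0) (nat_lit 4097366150) (nat_lit 380) (nat_lit 6140320638) (nat_lit 456) (nat_lit 2289360996) (nat_lit 170) (nat_lit 5) (nat_lit 175) (nat_lit 5) (nat_lit 176) (nat_lit 5) (nat_lit 461) (nat_lit 404) (nat_lit 335)) (XT.lf (nat_lit 0) (nat_lit 2730655078) (nat_lit 532) (nat_lit 9130747661) (nat_lit 76) (nat_lit 881881773) (nat_lit 163) (nat_lit 5) (nat_lit 170) (nat_lit 5) (nat_lit 164) (nat_lit 5) (nat_lit 462) (nat_lit 404) (nat_lit 334)))) (XT.nd (nat_lit 78) (nat_lit 836) (nat_lit 0) (XT.lf (nat_lit 0) (nat_lit 3076608806) (nat_lit 380) (nat_lit 4863547479) (nat_lit 456) (nat_lit 5024154037) (nat_lit 158) (nat_lit 5) (nat_lit 163) (nat_lit 5) (nat_lit 164) (nat_lit 5) (nat_lit 463) (nat_lit 404) (nat_lit 333)) (XT.nd (nat_lit 78) (nat_lit 380) (nat_lit 0) (XT.lf (nat_lit 0) (nat_lit 158764971) (nat_lit 456) (nat_lit 10663260734)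 (nat_lit 76) (nat_lit 2369004903) (nat_lit 152) (nat_lit 5) (nat_lit 158) (nat_lit 5) (nat_lit 153) (nat_lit 5) (nat_lit 464) (nat_lit 404) (nat_lit 332)) (XT.lf (nat_lit 0) (nat_lit 1913783096) (nat_lit 380) (nat_lit 3580590823) (nat_lit 456) (nat_lit 7928209233) (nat_lit 147) (nat_lit 5) (nat_lit 152) (nat_lit 5) (nat_lit 153) (nat_lit 5) (nat_lit 465) (nat_lit 404) (nat_lit 331))))) (XT.nd (nat_lit 234) (nat_lit 1064) (nat_lit 0) (XT.nd (nat_lit 78) (nat_lit 380) (nat_lit 0) (XT.lf (nat_lit 0) (nat_lit 1273324854) (nat_lit 380) (nat_lit 9776336920) (nat_lit 456) (nat_lit 2610232230) (nat_lit 142) (nat_lit 5) (nat_lit 147) (nat_lit 5) (nat_lit 148) (nat_lit 5) (nat_lit 466) (nat_lit 404) (nat_lit 330)) (XT.nd (nat_lit 78) (nat_lit 0) (nat_lit 0) (XT.lf (nat_lit 0) (nat_lit 586677215) (nat_lit 304) (nat_lit 2303277017) (nat_lit 380) (nat_lit 11012795877) (nat_lit 137) (nat_lit 5) (nat_lit 141) (nat_lit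 5) (nat_lit 142) (nat_lit 5) (nat_lit 467) (nat_lit 404) (nat_lit 329)) (XT.lf (nat_lit 0) (nat_lit 8594132482) (nat_lit 380) (nat_lit 156777553) (nat_lit 76) (nat_lit 5400151453) (nat_lit 137) (nat_lit 5) (nat_lit 142) (nat_lit 5) (nat_lit 138) (nat_lit 5) (nat_lit 468) (nat_lit 404) (nat_lit 328)))) (XT.nd (nat_lit 78) (nat_lit 608) (nat_lit 0) (XT.lf (nat_lit 0) (nat_lit 121220049) (nat_lit 456) (nat_lit 916757095) (nat_lit 76) (nat_lit 13367651856) (nat_lit 131) (nat_lit 5) (nat_lit 137) (nat_lit 5) (nat_lit 132) (nat_lit 5) (nat_lit 469) (nat_lit 404) (nat_lit 327)) (XT.nd (nat_lit 78) (nat_lit 304) (nat_lit 0) (XT.lf (nat_lit 0) (nat_lit 5981835003) (nat_lit 380) (nat_lit 1769537563) (nat_lit 76) (nat_lit 6913977347) (nat_lit 127) (nat_lit 5) (nat_lit 132) (nat_lit 5) (nat_lit 128) (nat_lit 5) (nat_lit 470) (nat_lit 404) (nat_lit 326)) (XT.lf (nat_lit 0) (nat_lit 12069944390) (nat_lit 380) (nat_lit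 2644702547) (nat_lit 76) (nat_lit 217185267) (nat_lit 123) (nat_lit 5) (nat_lit 128) (nat_lit 5) (nat_lit 124) (nat_lit 5) (nat_lit 471) (nat_lit 404) (nat_lit 325))))))))
noncomputable def xc51 : XT := (XT.nd (nat_lit 57720) (nat_lit 0) (nat_lit 24700) (XT.nd (nat_lit 858) (nat_lit 1292) (nat_lit 0) (XT.nd (nat_lit 390) (nat_lit 1748) (nat_lit 0) (XT.nd (nat_lit 156) (nat_lit 912) (nat_lit 0) (XT.nd (nat_lit 78) (nat_lit 304) (nat_lit 0) (XT.lf (nat_lit 0) (nat_lit 3191161847) (nat_lit 380) (nat_lit 3609017477) (nat_lit 76) (nat_lit 8403768106) (nat_lit 118) (nat_lit 5) (nat_lit 123) (nat_lit 5) (nat_lit 119) (nat_lit 5) (nat_lit 472) (nat_lit 404) (nat_lit 324)) (XT.lf (nat_lit 0) (nat_lit 9443512257) (nat_lit 380) (nat_lit 4622032710) (nat_lit 76) (nat_lit 1417174004) (nat_lit 114) (nat_lit 5) (nat_lit 119) (nat_lit 5) (nat_lit 115) (nat_lit 5) (nat_lit 473) (nat_lit 404) (nat_lit 323))) (XT.nd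 (nat_lit 78) (nat_lit 532) (nat_lit 0) (XT.lf (nat_lit 0) (nat_lit 207195846) (nat_lit 380) (nat_lit 5705217775) (nat_lit 76) (nat_lit 9855526045) (nat_lit 109) (nat_lit 5) (nat_lit 114) (nat_lit 5) (nat_lit 110) (nat_lit 5) (nat_lit 474) (nat_lit 404) (nat_lit 322)) (XT.nd (nat_lit 78) (nat_lit 228) (nat_lit 0) (XT.lf (nat_lit 0) (nat_lit 6627081031) (nat_lit 380) (nat_lit 6872638959) (nat_lit 76) (nat_lit 2559838609) (nat_lit 105) (nat_lit 5) (nat_lit 110) (nat_lit 5) (nat_lit 106) (nat_lit 5) (nat_lit 475) (nat_lit 404) (nat_lit 321)) (XT.lf (nat_lit 0) (nat_lit 8247358314) (nat_lit 228) (nat_lit 5084341347) (nat_lit 304) (nat_lit 3026386413) (nat_lit 102) (nat_lit 5) (nat_lit 105) (nat_lit 5) (nat_lit 106) (nat_lit 5) (nat_lit 476) (nat_lit 404) (nat_lit 320))))) (XT.nd (nat_lit 234) (nat_lit 760) (nat_lit 0) (XT.nd (nat_lit 78) (nat_lit 608) (nat_lit 0) (XT.lf (nat_lit 0) (nat_lit 3603525566)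 (nat_lit 380) (nat_lit 9431057553) (nat_lit 76) (nat_lit 3628955332) (nat_lit 97) (nat_lit 5) (nat_lit 102) (nat_lit 5) (nat_lit 98) (nat_lit 5) (nat_lit 477) (nat_lit 404) (nat_lit 319)) (XT.nd (nat_lit 78) (nat_lit 380) (nat_lit 0) (XT.lf (nat_lit 0) (nat_lit 6130971320) (nat_lit 228) (nat_lit 4350792030) (nat_lit 304) (nat_lit 6494182563) (nat_lit 94) (nat_lit 5) (nat_lit 97) (nat_lit 5) (nat_lit 98) (nat_lit 5) (nat_lit 478) (nat_lit 404) (nat_lit 318)) (XT.lf (nat_lit 0) (nat_lit 353788032) (nat_lit 380) (nat_lit 12335274577) (nat_lit 76) (nat_lit 4606856726) (nat_lit 89) (nat_lit 5) (nat_lit 94) (nat_lit 5) (nat_lit 90) (nat_lit 5) (nat_lit 479) (nat_lit 404) (nat_lit 317)))) (XT.nd (nat_lit 78) (nat_lit 532) (nat_lit 0) (XT.lf (nat_lit 0) (nat_lit 3676268048) (nat_lit 228) (nat_lit 3732323825) (nat_lit 304) (nat_lit 10214251379) (nat_lit 86) (nat_lit 5) (nat_lit 89) (nat_lit 5) (nat_lit 90)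 (nat_lit 5) (nat_lit 480) (nat_lit 404) (nat_lit 316)) (XT.nd (nat_lit 78) (nat_lit 304) (nat_lit 0) (XT.lf (nat_lit 0) (nat_lit 2309839843) (nat_lit 228) (nat_lit 12462712412) (nat_lit 304) (nat_lit 3185074630) (nat_lit 83) (nat_lit 5) (nat_lit 86) (nat_lit 5) (nat_lit 87) (nat_lit 5) (nat_lit 481) (nat_lit 404) (nat_lit 315)) (XT.lf (nat_lit 0) (nat_lit 840596816) (nat_lit 228) (nat_lit 3249894697) (nat_lit 304) (nat_lit 14209664186) (nat_lit 79) (nat_lit 5) (nat_lit 82) (nat_lit 5) (nat_lit 83) (nat_lit 5) (nat_lit 482) (nat_lit 404) (nat_lit 314)))))) (XT.nd (nat_lit 56394) (nat_lit 0) (nat_lit 48184) (XT.nd (nat_lit 234) (nat_lit 760) (nat_lit 0) (XT.nd (nat_lit 78) (nat_lit 532) (nat_lit 0) (XT.lf (nat_lit 0) (nat_lit 11652197147) (nat_lit 304) (nat_lit 737871636) (nat_lit 76) (nat_lit 6260249700) (nat_lit 79) (nat_lit 5) (nat_lit 83) (nat_lit 5) (nat_lit 80) (nat_lit 5) (nat_lit 483) (nat_lit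 404) (nat_lit 313)) (XT.nd (nat_lit 78) (nat_lit 228) (nat_lit 0) (XT.lf (nat_lit 0) (nat_lit 519114456) (nat_lit 304) (nat_lit 2391319262) (nat_lit 76) (nat_lit 16098598941) (nat_lit 75) (nat_lit 5) (nat_lit 79) (nat_lit 5) (nat_lit 76) (nat_lit 5) (nat_lit 484) (nat_lit 404) (nat_lit 312)) (XT.lf (nat_lit 0) (nat_lit 8281626691) (nat_lit 304) (nat_lit 4203119420) (nat_lit 76) (nat_lit 6890542190) (nat_lit 72) (nat_lit 5) (nat_lit 76) (nat_lit 5) (nat_lit 73) (nat_lit 5) (nat_lit 485) (nat_lit 404) (nat_lit 311)))) (XT.nd (nat_lit 78) (nat_lit 532) (nat_lit 0) (XT.lf (nat_lit 0) (nat_lit 13642883540) (nat_lit 228) (nat_lit 2724076821) (nat_lit 304) (nat_lit 3383774193) (nat_lit 69) (nat_lit 5) (nat_lit 72) (nat_lit 5) (nat_lit 73) (nat_lit 5) (nat_lit 486) (nat_lit 404) (nat_lit 310)) (XT.nd (nat_lit 78) (nat_lit 228) (nat_lit 0) (XT.lf (nat_lit 0) (nat_lit 4618625362) (nat_lit 304) (nat_lit 8170069290)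 (nat_lit 76) (nat_lit 7345739787) (nat_lit 65) (nat_lit 5) (nat_lit 69) (nat_lit 5) (nat_lit 66) (nat_lit 5) (nat_lit 487) (nat_lit 404) (nat_lit 309)) (XT.lf (nat_lit 0) (nat_lit 10167159231) (nat_lit 228) (nat_lit 2740561112) (nat_lit 304) (nat_lit 7619627450) (nat_lit 62) (nat_lit 5) (nat_lit 65) (nat_lit 5) (nat_lit 66) (nat_lit 5) (nat_lit 488) (nat_lit 404) (nat_lit 308))))) (XT.nd (nat_lit 234) (nat_lit 1368) (nat_lit 0) (XT.nd (nat_lit 78) (nat_lit 684) (nat_lit 0) (XT.lf (nat_lit 0) (nat_lit 892892231) (nat_lit 0) (nat_lit 892892231) (nat_lit 532) (nat_lit 1488498627) (nat_lit 723) (nat_lit 5) (nat_lit 723) (nat_lit 3) (nat_lit 730) (nat_lit 3) (nat_lit 405) (nat_lit 405) (nat_lit 390)) (XT.nd (nat_lit 78) (nat_lit 0) (nat_lit 76) (XT.lf (nat_lit 76) (nat_lit 80999310) (nat_lit 0) (nat_lit 678629473) (nat_lit 684) (nat_lit 5811804473) (nat_lit 715) (nat_lit 5) (nat_lit 714) (nat_lit 3) (nat_lit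 723) (nat_lit 5) (nat_lit 406) (nat_lit 405) (nat_lit 389)) (XT.lf (nat_lit 0) (nat_lit 4457589672) (nat_lit 608) (nat_lit 1561071208) (nat_lit 684) (nat_lit 578174208) (nat_lit 715) (nat_lit 5) (nat_lit 723) (nat_lit 5) (nat_lit 724) (nat_lit 5) (nat_lit 407) (nat_lit 405) (nat_lit 388)))) (XT.nd (nat_lit 78) (nat_lit 760) (nat_lit 0) (XT.lf (nat_lit 0) (nat_lit 1506498183) (nat_lit 684) (nat_lit 3154553667) (nat_lit 760) (nat_lit 1964076666) (nat_lit 706) (nat_lit 5) (nat_lit 715) (nat_lit 5) (nat_lit 716) (nat_lit 5) (nat_lit 408) (nat_lit 405) (nat_lit 387)) (XT.nd (nat_lit 78) (nat_lit 760) (nat_lit 0) (XT.lf (nat_lit 76) (nat_lit 1954498196) (nat_lit 0) (nat_lit 3162466785) (nat_lit 760) (nat_lit 1539367869) (nat_lit 707) (nat_lit 5) (nat_lit 706) (nat_lit 5) (nat_lit 716) (nat_lit 5) (nat_lit 409) (nat_lit 405) (nat_lit 386)) (XT.lf (nat_lit 76) (nat_lit 486421727) (nat_lit 0) (nat_lit 1520904191)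 (nat_lit 836) (nat_lit 4683135867) (nat_lit 697) (nat_lit 5) (nat_lit 696) (nat_lit 5) (nat_lit 707) (nat_lit 5) (nat_lit 410) (nat_lit 405) (nat_lit 385))))))) (XT.nd (nat_lit 936) (nat_lit 15048) (nat_lit 0) (XT.nd (nat_lit 468) (nat_lit 5852) (nat_lit 0) (XT.nd (nat_lit 234) (nat_lit 1824) (nat_lit 0) (XT.nd (nat_lit 78) (nat_lit 836) (nat_lit 0) (XT.lf (nat_lit 0) (nat_lit 5540184081) (nat_lit 760) (nat_lit 921525169) (nat_lit 836) (nat_lit 265718970) (nat_lit 697) (nat_lit 5) (nat_lit 707) (nat_lit 5) (nat_lit 708) (nat_lit 5) (nat_lit 411) (nat_lit 405) (nat_lit 384)) (XT.nd (nat_lit 78) (nat_lit 0) (nat_lit 0) (XT.lf (nat_lit 0) (nat_lit 2291823384) (nat_lit 836) (nat_lit 2291512057) (nat_lit 912) (nat_lit 2183684956) (nat_lit 686) (nat_lit 5) (nat_lit 697) (nat_lit 5) (nat_lit 698) (nat_lit 5) (nat_lit 412) (nat_lit 405) (nat_lit 383)) (XT.lf (nat_lit 76) (nat_lit 3195562054) (nat_lit 0) (nat_lit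 2564338827) (nat_lit 912) (nat_lit 1049755506) (nat_lit 687) (nat_lit 5) (nat_lit 686) (nat_lit 5) (nat_lit 698) (nat_lit 5) (nat_lit 413) (nat_lit 405) (nat_lit 382)))) (XT.nd (nat_lit 78) (nat_lit 912) (nat_lit 0) (XT.lf (nat_lit 76) (nat_lit 1956649014) (nat_lit 0) (nat_lit 393612773) (nat_lit 988) (nat_lit 4504928469) (nat_lit 675) (nat_lit 5) (nat_lit 674) (nat_lit 5) (nat_lit 687) (nat_lit 5) (nat_lit 414) (nat_lit 405) (nat_lit 381)) (XT.nd (nat_lit 78) (nat_lit 988) (nat_lit 0) (XT.lf (nat_lit 76) (nat_lit 753489384) (nat_lit 0) (nat_lit 5005496697) (nat_lit 988) (nat_lit 1144572120) (nat_lit 676) (nat_lit 5) (nat_lit 675) (nat_lit 5) (nat_lit 688) (nat_lit 5) (nat_lit 415) (nat_lit 405) (nat_lit 380)) (XT.lf (nat_lit 0) (nat_lit 2203840659) (nat_lit 988) (nat_lit 408414020) (nat_lit 1064) (nat_lit 4342494064) (nat_lit 662) (nat_lit 5) (nat_lit 675) (nat_lit 5) (nat_lit 676) (nat_lit 5) (nat_lit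 416) (nat_lit 405) (nat_lit 379))))) (XT.nd (nat_lit 234) (nat_lit 3800) (nat_lit 0) (XT.nd (nat_lit 78) (nat_lit 2052) (nat_lit 0) (XT.lf (nat_lit 76) (nat_lit 5492255759) (nat_lit 0) (nat_lit 65679033) (nat_lit 1064) (nat_lit 1450997532) (nat_lit 663) (nat_lit 5) (nat_lit 662) (nat_lit 5) (nat_lit 676) (nat_lit 5) (nat_lit 417) (nat_lit 405) (nat_lit 378)) (XT.nd (nat_lit 78) (nat_lit 1064) (nat_lit 0) (XT.lf (nat_lit 0) (nat_lit 1858474092) (nat_lit 1064) (nat_lit 2604205761) (nat_lit 76) (nat_lit 2603109450) (nat_lit 649) (nat_lit 5) (nat_lit 663) (nat_lit 5) (nat_lit 650) (nat_lit 5) (nat_lit 418) (nat_lit 405) (nat_lit 377)) (XT.lf (nat_lit 0) (nat_lit 3472077226) (nat_lit 1064) (nat_lit 1699005581) (nat_lit 1140) (nat_lit 1954628416) (nat_lit 635) (nat_lit 5) (nat_lit 649) (nat_lit 5) (nat_lit 650) (nat_lit 5) (nat_lit 419) (nat_lit 405) (nat_lit 376)))) (XT.nd (nat_lit 78) (nat_lit 2584) (nat_lit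 0) (XT.lf (nat_lit 0) (nat_lit 1311499047) (nat_lit 1216) (nat_lit 4672755644) (nat_lit 76) (nat_lit 1204332902) (nat_lit 619) (nat_lit 5) (nat_lit 635) (nat_lit 5) (nat_lit 620) (nat_lit 5) (nat_lit 420) (nat_lit 405) (nat_lit 375)) (XT.nd (nat_lit 78) (nat_lit 1368) (nat_lit 0) (XT.lf (nat_lit 0) (nat_lit 1583462788) (nat_lit 1216) (nat_lit 3007212792) (nat_lit 1292) (nat_lit 2663604534) (nat_lit 603) (nat_lit 5) (nat_lit 619) (nat_lit 5) (nat_lit 620) (nat_lit 5) (nat_lit 421) (nat_lit 405) (nat_lit 374)) (XT.lf (nat_lit 0) (nat_lit 571745614) (nat_lit 1368) (nat_lit 6629633031) (nat_lit 76) (nat_lit 121821774) (nat_lit 585) (nat_lit 5) (nat_lit 603) (nat_lit 5) (nat_lit 586) (nat_lit 5) (nat_lit 422) (nat_lit 405) (nat_lit 373)))))) (XT.nd (nat_lit 468) (nat_lit 7296) (nat_lit 0) (XT.nd (nat_lit 234) (nat_lit 4864) (nat_lit 0) (XT.nd (nat_lit 78) (nat_lit 2888) (nat_lit 0) (XT.lf (nat_lit 0) (nat_lit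 3826356074) (nat_lit 1368) (nat_lit 186298044) (nat_lit 76) (nat_lit 3382033445) (nat_lit 585) (nat_lit 5) (nat_lit 603) (nat_lit 5) (nat_lit 586) (nat_lit 5) (nat_lit 423) (nat_lit 405) (nat_lit 372)) (XT.nd (nat_lit 78) (nat_lit 1520) (nat_lit 0) (XT.lf (nat_lit 0) (nat_lit 6456168877) (nat_lit 1368) (nat_lit 666673283) (nat_lit 1444) (nat_lit 346610969) (nat_lit 567) (nat_lit 5) (nat_lit 585) (nat_lit 5) (nat_lit 586) (nat_lit 5) (nat_lit 424) (nat_lit 405) (nat_lit 371)) (XT.lf (nat_lit 0) (nat_lit 2893819703) (nat_lit 1520) (nat_lit 1834757193) (nat_lit 76) (nat_lit 2818295862) (nat_lit 547) (nat_lit 5) (nat_lit 567) (nat_lit 5) (nat_lit 548) (nat_lit 5) (nat_lit 425) (nat_lit 405) (nat_lit 370)))) (XT.nd (nat_lit 78) (nat_lit 3344) (nat_lit 0) (XT.lf (nat_lit 0) (nat_lit 5005929146) (nat_lit 1520) (nat_lit 1171132506) (nat_lit 1596) (nat_lit 1450518500) (nat_lit 527) (nat_lit 5) (nat_lit 547)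 (nat_lit 5) (nat_lit 548) (nat_lit 5) (nat_lit 426) (nat_lit 405) (nat_lit 369)) (XT.nd (nat_lit 78) (nat_lit 1672) (nat_lit 0) (XT.lf (nat_lit 0) (nat_lit 1789114353) (nat_lit 1672) (nat_lit 3396428611) (nat_lit 76) (nat_lit 2525636940) (nat_lit 505) (nat_lit 5) (nat_lit 527) (nat_lit 5) (nat_lit 506) (nat_lit 5) (nat_lit 427) (nat_lit 405) (nat_lit 368)) (XT.lf (nat_lit 0) (nat_lit 3648279060) (nat_lit 1672) (nat_lit 1417715934) (nat_lit 1748) (nat_lit 2731921428) (nat_lit 483) (nat_lit 5) (nat_lit 505) (nat_lit 5) (nat_lit 506) (nat_lit 5) (nat_lit 428) (nat_lit 405) (nat_lit 367))))) (XT.nd (nat_lit 234) (nat_lit 2812) (nat_lit 0) (XT.nd (nat_lit 78) (nat_lit 2660) (nat_lit 0) (XT.lf (nat_lit 0) (nat_lit 517548121) (nat_lit 1824) (nat_lit 4884584885) (nat_lit 76) (nat_lit 2485647464) (nat_lit 459) (nat_lit 5) (nat_lit 483) (nat_lit 5) (nat_lit 460) (nat_lit 5) (nat_lit 429) (nat_lit 405) (nat_lit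 366)) (XT.nd (nat_lit 78) (nat_lit 988) (nat_lit 0) (XT.lf (nat_lit 0) (nat_lit 2370291823) (nat_lit 1672) (nat_lit 1424347216) (nat_lit 1748) (nat_lit 4186009816) (nat_lit 437) (nat_lit 5) (nat_lit 459) (nat_lit 5) (nat_lit 460) (nat_lit 5) (nat_lit 430) (nat_lit 405) (nat_lit 365)) (XT.lf (nat_lit 0) (nat_lit 1758608481) (nat_lit 988) (nat_lit 5389417055) (nat_lit 1064) (nat_lit 928732317) (nat_lit 424) (nat_lit 5) (nat_lit 437) (nat_lit 5) (nat_lit 438) (nat_lit 5) (nat_lit 431) (nat_lit 405) (nat_lit 364)))) (XT.nd (nat_lit 78) (nat_lit 1824) (nat_lit 0) (XT.lf (nat_lit 0) (nat_lit 1159406465) (nat_lit 912) (nat_lit 1207626106) (nat_lit 988) (nat_lit 5808964224) (nat_lit 411) (nat_lit 5) (nat_lit 423) (nat_lit 5) (nat_lit 424) (nat_lit 5) (nat_lit 432) (nat_lit 405) (nat_lit 363)) (XT.nd (nat_lit 78) (nat_lit 912) (nat_lit 0) (XT.lf (nat_lit 0) (nat_lit 570227950) (nat_lit 912) (nat_lit 5164992077)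 (nat_lit 988) (nat_lit 2543159891) (nat_lit 399) (nat_lit 5) (nat_lit 411) (nat_lit 5) (nat_lit 412) (nat_lit 5) (nat_lit 433) (nat_lit 405) (nat_lit 362)) (XT.lf (nat_lit 0) (nat_lit 3334098) (nat_lit 836) (nat_lit 782952981) (nat_lit 912) (nat_lit 7597924779) (nat_lit 387) (nat_lit 5) (nat_lit 398) (nat_lit 5) (nat_lit 399) (nat_lit 5) (nat_lit 434) (nat_lit 405) (nat_lit 361))))))))
noncomputable def xc52 : XT := (XT.nd (nat_lit 1794) (nat_lit 8436) (nat_lit 0) (XT.nd (nat_lit 858) (nat_lit 6536) (nat_lit 0) (XT.nd (nat_lit 390) (nat_lit 4332) (nat_lit 0) (XT.nd (nat_lit 156) (nat_lit 2508) (nat_lit 0) (XT.nd (nat_lit 78) (nat_lit 836) (nat_lit 0) (XT.lf (nat_lit 0) (nat_lit 4180323585) (nat_lit 912) (nat_lit 563119809) (nat_lit 76) (nat_lit 3749466144) (nat_lit 387) (nat_lit 5) (nat_lit 399) (nat_lit 5) (nat_lit 388) (nat_lit 5) (nat_lit 435) (nat_lit 405) (nat_lit 360)) (XT.lf (nat_lit 0) (nat_lit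 7503660844) (nat_lit 836) (nat_lit 151000058) (nat_lit 912) (nat_lit 950649440) (nat_lit 376) (nat_lit 5) (nat_lit 387) (nat_lit 5) (nat_lit 388) (nat_lit 5) (nat_lit 436) (nat_lit 405) (nat_lit 359))) (XT.nd (nat_lit 78) (nat_lit 1672) (nat_lit 0) (XT.lf (nat_lit 0) (nat_lit 2484984643) (nat_lit 836) (nat_lit 1653910975) (nat_lit 76) (nat_lit 4581756828) (nat_lit 365) (nat_lit 5) (nat_lit 376) (nat_lit 5) (nat_lit 366) (nat_lit 5) (nat_lit 437) (nat_lit 405) (nat_lit 358)) (XT.nd (nat_lit 78) (nat_lit 836) (nat_lit 0) (XT.lf (nat_lit 0) (nat_lit 5994280569) (nat_lit 912) (nat_lit 2186805797) (nat_lit 76) (nat_lit 658583495) (nat_lit 354) (nat_lit 5) (nat_lit 366) (nat_lit 5) (nat_lit 355) (nat_lit 5) (nat_lit 438) (nat_lit 405) (nat_lit 357)) (XT.lf (nat_lit 0) (nat_lit 646596664) (nat_lit 836) (nat_lit 2721440991) (nat_lit 76) (nat_lit 5593976963) (nat_lit 343) (nat_lit 5) (nat_lit 354) (nat_lit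 5) (nat_lit 344) (nat_lit 5) (nat_lit 439) (nat_lit 405) (nat_lit 356))))) (XT.nd (nat_lit 234) (nat_lit 2052) (nat_lit 0) (XT.nd (nat_lit 78) (nat_lit 1520) (nat_lit 0) (XT.lf (nat_lit 0) (nat_lit 4198518080) (nat_lit 836) (nat_lit 3256623298) (nat_lit 76) (nat_lit 1632645574) (nat_lit 333) (nat_lit 5) (nat_lit 344) (nat_lit 5) (nat_lit 334) (nat_lit 5) (nat_lit 440) (nat_lit 405) (nat_lit 355)) (XT.nd (nat_lit 78) (nat_lit 836) (nat_lit 0) (XT.lf (nat_lit 0) (nat_lit 5430814634) (nat_lit 684) (nat_lit 2434036153) (nat_lit 760) (nat_lit 1352334371) (nat_lit 324) (nat_lit 5) (nat_lit 333) (nat_lit 5) (nat_lit 334) (nat_lit 5) (nat_lit 441) (nat_lit 405) (nat_lit 354)) (XT.lf (nat_lit 0) (nat_lit 2266360970) (nat_lit 836) (nat_lit 4322032810) (nat_lit 76) (nat_lit 2761669458) (nat_lit 313) (nat_lit 5) (nat_lit 324) (nat_lit 5) (nat_lit 314) (nat_lit 5) (nat_lit 442) (nat_lit 405) (nat_lit 353)))) (XT.nd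 (nat_lit 78) (nat_lit 1368) (nat_lit 0) (XT.lf (nat_lit 0) (nat_lit 4629476062) (nat_lit 684) (nat_lit 1351979093) (nat_lit 760) (nat_lit 3505178541) (nat_lit 304) (nat_lit 5) (nat_lit 313) (nat_lit 5) (nat_lit 314) (nat_lit 5) (nat_lit 443) (nat_lit 405) (nat_lit 352)) (XT.nd (nat_lit 78) (nat_lit 608) (nat_lit 0) (XT.lf (nat_lit 0) (nat_lit 196940783) (nat_lit 760) (nat_lit 5395160500) (nat_lit 76) (nat_lit 4034812921) (nat_lit 294) (nat_lit 5) (nat_lit 304) (nat_lit 5) (nat_lit 295) (nat_lit 5) (nat_lit 444) (nat_lit 405) (nat_lit 351)) (XT.lf (nat_lit 0) (nat_lit 3829017641) (nat_lit 608) (nat_lit 137038507) (nat_lit 684) (nat_lit 5804820860) (nat_lit 286) (nat_lit 5) (nat_lit 294) (nat_lit 5) (nat_lit 295) (nat_lit 5) (nat_lit 445) (nat_lit 405) (nat_lit 350)))))) (XT.nd (nat_lit 468) (nat_lit 2812) (nat_lit 0) (XT.nd (nat_lit 234) (nat_lit 1748) (nat_lit 0) (XT.nd (nat_lit 78) (nat_lit 1292)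 (nat_lit 0) (XT.lf (nat_lit 0) (nat_lit 3416842455) (nat_lit 684) (nat_lit 4463499173) (nat_lit 760) (nat_lit 2038183237) (nat_lit 277) (nat_lit 5) (nat_lit 286) (nat_lit 5) (nat_lit 287) (nat_lit 5) (nat_lit 446) (nat_lit 405) (nat_lit 349)) (XT.nd (nat_lit 78) (nat_lit 608) (nat_lit 0) (XT.lf (nat_lit 0) (nat_lit 1824565764) (nat_lit 684) (nat_lit 7060951092) (nat_lit 76) (nat_lit 1184708631) (nat_lit 268) (nat_lit 5) (nat_lit 277) (nat_lit 5) (nat_lit 269) (nat_lit 5) (nat_lit 447) (nat_lit 405) (nat_lit 348)) (XT.lf (nat_lit 0) (nat_lit 2582142341) (nat_lit 608) (nat_lit 3224117953) (nat_lit 684) (nat_lit 4419339795) (nat_lit 260) (nat_lit 5) (nat_lit 268) (nat_lit 5) (nat_lit 269) (nat_lit 5) (nat_lit 448) (nat_lit 405) (nat_lit 347)))) (XT.nd (nat_lit 78) (nat_lit 1216) (nat_lit 0) (XT.lf (nat_lit 0) (nat_lit 2160851482) (nat_lit 532) (nat_lit 7766467141) (nat_lit 608) (nat_lit 457926316) (nat_lit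 253) (nat_lit 5) (nat_lit 260) (nat_lit 5) (nat_lit 261) (nat_lit 5) (nat_lit 449) (nat_lit 405) (nat_lit 346)) (XT.nd (nat_lit 78) (nat_lit 532) (nat_lit 0) (XT.lf (nat_lit 0) (nat_lit 1716072626) (nat_lit 608) (nat_lit 1885225331) (nat_lit 684) (nat_lit 6947388209) (nat_lit 244) (nat_lit 5) (nat_lit 252) (nat_lit 5) (nat_lit 253) (nat_lit 5) (nat_lit 450) (nat_lit 405) (nat_lit 345)) (XT.lf (nat_lit 0) (nat_lit 1261355742) (nat_lit 532) (nat_lit 6548869257) (nat_lit 608) (nat_lit 2906068863) (nat_lit 237) (nat_lit 5) (nat_lit 244) (nat_lit 5) (nat_lit 245) (nat_lit 5) (nat_lit 451) (nat_lit 405) (nat_lit 344))))) (XT.nd (nat_lit 234) (nat_lit 1672) (nat_lit 0) (XT.nd (nat_lit 78) (nat_lit 532) (nat_lit 0) (XT.lf (nat_lit 0) (nat_lit 805109701) (nat_lit 532) (nat_lit 456520994) (nat_lit 608) (nat_lit 9626709934) (nat_lit 229) (nat_lit 5) (nat_lit 236) (nat_lit 5) (nat_lit 237) (nat_lit 5) (nat_lit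 452) (nat_lit 405) (nat_lit 343)) (XT.nd (nat_lit 78) (nat_lit 0) (nat_lit 0) (XT.lf (nat_lit 0) (nat_lit 309167119) (nat_lit 532) (nat_lit 5254790545) (nat_lit 608) (nat_lit 5500231591) (nat_lit 222) (nat_lit 5) (nat_lit 229) (nat_lit 5) (nat_lit 230) (nat_lit 5) (nat_lit 453) (nat_lit 405) (nat_lit 342)) (XT.lf (nat_lit 0) (nat_lit 10019314715) (nat_lit 608) (nat_lit 177747423) (nat_lit 76) (nat_lit 1047778026) (nat_lit 222) (nat_lit 5) (nat_lit 230) (nat_lit 5) (nat_lit 223) (nat_lit 5) (nat_lit 454) (nat_lit 405) (nat_lit 341)))) (XT.nd (nat_lit 78) (nat_lit 1064) (nat_lit 0) (XT.lf (nat_lit 0) (nat_lit 3188187647) (nat_lit 608) (nat_lit 701075853) (nat_lit 76) (nat_lit 7540191472) (nat_lit 214) (nat_lit 5) (nat_lit 222) (nat_lit 5) (nat_lit 215) (nat_lit 5) (nat_lit 455) (nat_lit 405) (nat_lit 340)) (XT.nd (nat_lit 78) (nat_lit 608) (nat_lit 0) (XT.lf (nat_lit 0) (nat_lit 7751692017) (nat_lit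 532) (nat_lit 1236120902) (nat_lit 76) (nat_lit 2630958263) (nat_lit 208) (nat_lit 5) (nat_lit 215) (nat_lit 5) (nat_lit 209) (nat_lit 5) (nat_lit 456) (nat_lit 405) (nat_lit 339)) (XT.lf (nat_lit 0) (nat_lit 674966312) (nat_lit 608) (nat_lit 1789177157) (nat_lit 76) (nat_lit 9348645750) (nat_lit 200) (nat_lit 5) (nat_lit 208) (nat_lit 5) (nat_lit 201) (nat_lit 5) (nat_lit 457) (nat_lit 405) (nat_lit 338))))))) (XT.nd (nat_lit 858) (nat_lit 3648) (nat_lit 0) (XT.nd (nat_lit 390) (nat_lit 2432) (nat_lit 0) (XT.nd (nat_lit 156) (nat_lit 1444) (nat_lit 0) (XT.nd (nat_lit 78) (nat_lit 456) (nat_lit 0) (XT.lf (nat_lit 0) (nat_lit 5349787757) (nat_lit 532) (nat_lit 2385190073) (nat_lit 76) (nat_lit 4276162828) (nat_lit 194) (nat_lit 5) (nat_lit 201) (nat_lit 5) (nat_lit 195) (nat_lit 5) (nat_lit 458) (nat_lit 405) (nat_lit 337)) (XT.lf (nat_lit 0) (nat_lit 9225910090) (nat_lit 456) (nat_lit 977908964) (nat_lit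 532) (nat_lit 2010849279) (nat_lit 188) (nat_lit 5) (nat_lit 194) (nat_lit 5) (nat_lit 195) (nat_lit 5) (nat_lit 459) (nat_lit 405) (nat_lit 336))) (XT.nd (nat_lit 78) (nat_lit 912) (nat_lit 0) (XT.lf (nat_lit 0) (nat_lit 2806606396) (nat_lit 532) (nat_lit 3642059925) (nat_lit 76) (nat_lit 5974001664) (nat_lit 181) (nat_lit 5) (nat_lit 188) (nat_lit 5) (nat_lit 182) (nat_lit 5) (nat_lit 460) (nat_lit 405) (nat_lit 335)) (XT.nd (nat_lit 78) (nat_lit 456) (nat_lit 0) (XT.lf (nat_lit 0) (nat_lit 7777865043) (nat_lit 532) (nat_lit 4313553354) (nat_lit 76) (nat_lit 544496036) (nat_lit 175) (nat_lit 5) (nat_lit 182) (nat_lit 5) (nat_lit 176) (nat_lit 5) (nat_lit 461) (nat_lit 405) (nat_lit 334)) (XT.lf (nat_lit 0) (nat_lit 114099437) (nat_lit 456) (nat_lit 5025164827) (nat_lit 76) (nat_lit 7714853736) (nat_lit 169) (nat_lit 5) (nat_lit 175) (nat_lit 5) (nat_lit 170) (nat_lit 5) (nat_lit 462) (nat_lit 405)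 (nat_lit 333))))) (XT.nd (nat_lit 234) (nat_lit 1140) (nat_lit 0) (XT.nd (nat_lit 78) (nat_lit 836) (nat_lit 0) (XT.lf (nat_lit 0) (nat_lit 5213673657) (nat_lit 532) (nat_lit 5781301281) (nat_lit 76) (nat_lit 2082369515) (nat_lit 163) (nat_lit 5) (nat_lit 170) (nat_lit 5) (nat_lit 164) (nat_lit 5) (nat_lit 463) (nat_lit 405) (nat_lit 332)) (XT.nd (nat_lit 78) (nat_lit 456) (nat_lit 0) (XT.lf (nat_lit 0) (nat_lit 6733491026) (nat_lit 380) (nat_lit 3799177597) (nat_lit 456) (nat_lit 2773274549) (nat_lit 158) (nat_lit 5) (nat_lit 163) (nat_lit 5) (nat_lit 164) (nat_lit 5) (nat_lit 464) (nat_lit 405) (nat_lit 331)) (XT.lf (nat_lit 0) (nat_lit 2495454419) (nat_lit 456) (nat_lit 7406416787) (nat_lit 76) (nat_lit 3638051612) (nat_lit 152) (nat_lit 5) (nat_lit 158) (nat_lit 5) (nat_lit 153) (nat_lit 5) (nat_lit 465) (nat_lit 405) (nat_lit 330)))) (XT.nd (nat_lit 78) (nat_lit 760) (nat_lit 0) (XT.lf (nat_lit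 0) (nat_lit 5489909972) (nat_lit 380) (nat_lit 2456147295) (nat_lit 456) (nat_lit 5833271989) (nat_lit 147) (nat_lit 5) (nat_lit 152) (nat_lit 5) (nat_lit 153) (nat_lit 5) (nat_lit 466) (nat_lit 405) (nat_lit 329)) (XT.nd (nat_lit 78) (nat_lit 380) (nat_lit 0) (XT.lf (nat_lit 0) (nat_lit 4810468945) (nat_lit 380) (nat_lit 8821410045) (nat_lit 456) (nat_lit 392608601) (nat_lit 142) (nat_lit 5) (nat_lit 147) (nat_lit 5) (nat_lit 148) (nat_lit 5) (nat_lit 467) (nat_lit 405) (nat_lit 328)) (XT.lf (nat_lit 0) (nat_lit 4076260666) (nat_lit 304) (nat_lit 1122758934) (nat_lit 380) (nat_lit 9076186078) (nat_lit 137) (nat_lit 5) (nat_lit 141) (nat_lit 5) (nat_lit 142) (nat_lit 5) (nat_lit 468) (nat_lit 405) (nat_lit 327)))))) (XT.nd (nat_lit 468) (nat_lit 1900) (nat_lit 0) (XT.nd (nat_lit 234) (nat_lit 684) (nat_lit 0) (XT.nd (nat_lit 78) (nat_lit 684) (nat_lit 0) (XT.lf (nat_lit 0) (nat_lit 3287948663) (nat_lit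 380) (nat_lit 7750869977) (nat_lit 456) (nat_lit 3492863081) (nat_lit 132) (nat_lit 5) (nat_lit 137) (nat_lit 5) (nat_lit 138) (nat_lit 5) (nat_lit 469) (nat_lit 405) (nat_lit 326)) (XT.nd (nat_lit 78) (nat_lit 304) (nat_lit 0) (XT.lf (nat_lit 0) (nat_lit 2280535384) (nat_lit 380) (nat_lit 12328032354) (nat_lit 76) (nat_lit 185950587) (nat_lit 127) (nat_lit 5) (nat_lit 132) (nat_lit 5) (nat_lit 128) (nat_lit 5) (nat_lit 470) (nat_lit 405) (nat_lit 325)) (XT.lf (nat_lit 0) (nat_lit 1556740554) (nat_lit 304) (nat_lit 6720359340) (nat_lit 380) (nat_lit 6785733184) (nat_lit 123) (nat_lit 5) (nat_lit 127) (nat_lit 5) (nat_lit 128) (nat_lit 5) (nat_lit 471) (nat_lit 405) (nat_lit 324)))) (XT.nd (nat_lit 78) (nat_lit 380) (nat_lit 0) (XT.lf (nat_lit 0) (nat_lit 621997345) (nat_lit 304) (nat_lit 13887951786) (nat_lit 380) (nat_lit 828123468) (nat_lit 119) (nat_lit 5) (nat_lit 123) (nat_lit 5) (nat_lit 124)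 (nat_lit 5) (nat_lit 472) (nat_lit 405) (nat_lit 323)) (XT.nd (nat_lit 78) (nat_lit 304) (nat_lit 0) (XT.lf (nat_lit 0) (nat_lit 5335306212) (nat_lit 380) (nat_lit 406186639) (nat_lit 76) (nat_lit 9877455904) (nat_lit 118) (nat_lit 5) (nat_lit 123) (nat_lit 5) (nat_lit 119) (nat_lit 5) (nat_lit 473) (nat_lit 405) (nat_lit 322)) (XT.lf (nat_lit 0) (nat_lit 11744813320) (nat_lit 380) (nat_lit 1471068030) (nat_lit 76) (nat_lit 2690814705) (nat_lit 114) (nat_lit 5) (nat_lit 119) (nat_lit 5) (nat_lit 115) (nat_lit 5) (nat_lit 474) (nat_lit 405) (nat_lit 321))))) (XT.nd (nat_lit 234) (nat_lit 988) (nat_lit 0) (XT.nd (nat_lit 78) (nat_lit 532) (nat_lit 0) (XT.lf (nat_lit 0) (nat_lit 2206895392) (nat_lit 380) (nat_lit 2613488959) (nat_lit 76) (nat_lit 11380586225) (nat_lit 109) (nat_lit 5) (nat_lit 114) (nat_lit 5) (nat_lit 110) (nat_lit 5) (nat_lit 475) (nat_lit 405) (nat_lit 320)) (XT.nd (nat_lit 78) (nat_lit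 228) (nat_lit 0) (XT.lf (nat_lit 0) (nat_lit 8790295385) (nat_lit 380) (nat_lit 3837750139) (nat_lit 76) (nat_lit 3873878195) (nat_lit 105) (nat_lit 5) (nat_lit 110) (nat_lit 5) (nat_lit 106) (nat_lit 5) (nat_lit 476) (nat_lit 405) (nat_lit 319)) (XT.lf (nat_lit 0) (nat_lit 11683264574) (nat_lit 228) (nat_lit 3976274172) (nat_lit 304) (nat_lit 1150602439) (nat_lit 102) (nat_lit 5) (nat_lit 105) (nat_lit 5) (nat_lit 106) (nat_lit 5) (nat_lit 477) (nat_lit 405) (nat_lit 318)))) (XT.nd (nat_lit 78) (nat_lit 608) (nat_lit 0) (XT.lf (nat_lit 0) (nat_lit 5624582997) (nat_lit 380) (nat_lit 6521679612) (nat_lit 76) (nat_lit 4978799500) (nat_lit 97) (nat_lit 5) (nat_lit 102) (nat_lit 5) (nat_lit 98) (nat_lit 5) (nat_lit 478) (nat_lit 405) (nat_lit 317)) (XT.nd (nat_lit 78) (nat_lit 380) (nat_lit 0) (XT.lf (nat_lit 0) (nat_lit 9455418695) (nat_lit 228) (nat_lit 3218422509) (nat_lit 304) (nat_lit 4773710722)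 (nat_lit 94) (nat_lit 5) (nat_lit 97) (nat_lit 5) (nat_lit 98) (nat_lit 5) (nat_lit 479) (nat_lit 405) (nat_lit 316)) (XT.lf (nat_lit 0) (nat_lit 2227921100) (nat_lit 380) (nat_lit 9561891809) (nat_lit 76) (nat_lit 5987599525) (nat_lit 89) (nat_lit 5) (nat_lit 94) (nat_lit 5) (nat_lit 90) (nat_lit 5) (nat_lit 480) (nat_lit 405) (nat_lit 315))))))))
noncomputable def xc53 : XT := (XT.nd (nat_lit 57798) (nat_lit 0) (nat_lit 18164) (XT.nd (nat_lit 56862) (nat_lit 0) (nat_lit 42104) (XT.nd (nat_lit 390) (nat_lit 532) (nat_lit 0) (XT.nd (nat_lit 156) (nat_lit 836) (nat_lit 0) (XT.nd (nat_lit 78) (nat_lit 228) (nat_lit 0) (XT.lf (nat_lit 0) (nat_lit 6878998499) (nat_lit 228) (nat_lit 2581171479) (nat_lit 304) (nat_lit 8654661395) (nat_lit 86) (nat_lit 5) (nat_lit 89) (nat_lit 5) (nat_lit 90) (nat_lit 5) (nat_lit 481) (nat_lit 405) (nat_lit 314)) (XT.lf (nat_lit 0) (nat_lit 5449440078) (nat_lit 228) (nat_lit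 11570224537) (nat_lit 304) (nat_lit 1440504818) (nat_lit 83) (nat_lit 5) (nat_lit 86) (nat_lit 5) (nat_lit 87) (nat_lit 5) (nat_lit 482) (nat_lit 405) (nat_lit 313))) (XT.nd (nat_lit 78) (nat_lit 532) (nat_lit 0) (XT.lf (nat_lit 0) (nat_lit 3910153426) (nat_lit 228) (nat_lit 2085914349) (nat_lit 304) (nat_lit 12817333002) (nat_lit 79) (nat_lit 5) (nat_lit 82) (nat_lit 5) (nat_lit 83) (nat_lit 5) (nat_lit 483) (nat_lit 405) (nat_lit 312)) (XT.nd (nat_lit 78) (nat_lit 304) (nat_lit 0) (XT.lf (nat_lit 0) (nat_lit 2251962006) (nat_lit 228) (nat_lit 11503307590) (nat_lit 304) (nat_lit 5419388929) (nat_lit 76) (nat_lit 5) (nat_lit 79) (nat_lit 5) (nat_lit 80) (nat_lit 5) (nat_lit 484) (nat_lit 405) (nat_lit 311)) (XT.lf (nat_lit 0) (nat_lit 500488678) (nat_lit 228) (nat_lit 1756138429) (nat_lit 304) (nat_lit 17288143153) (nat_lit 72) (nat_lit 5) (nat_lit 75) (nat_lit 5) (nat_lit 76) (nat_lit 5) (nat_lit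 485) (nat_lit 405) (nat_lit 310))))) (XT.nd (nat_lit 56238) (nat_lit 0) (nat_lit 48640) (XT.nd (nat_lit 78) (nat_lit 532) (nat_lit 0) (XT.lf (nat_lit 0) (nat_lit 10225524238) (nat_lit 304) (nat_lit 1394291563) (nat_lit 76) (nat_lit 8302730333) (nat_lit 72) (nat_lit 5) (nat_lit 76) (nat_lit 5) (nat_lit 73) (nat_lit 5) (nat_lit 486) (nat_lit 405) (nat_lit 309)) (XT.nd (nat_lit 78) (nat_lit 304) (nat_lit 0) (XT.lf (nat_lit 0) (nat_lit 16939475871) (nat_lit 228) (nat_lit 1583306349) (nat_lit 304) (nat_lit 1787088943) (nat_lit 69) (nat_lit 5) (nat_lit 72) (nat_lit 5) (nat_lit 73) (nat_lit 5) (nat_lit 487) (nat_lit 405) (nat_lit 308)) (XT.lf (nat_lit 0) (nat_lit 6410782042) (nat_lit 304) (nat_lit 5527613007) (nat_lit 76) (nat_lit 8766915593) (nat_lit 65) (nat_lit 5) (nat_lit 69) (nat_lit 5) (nat_lit 66) (nat_lit 5) (nat_lit 488) (nat_lit 405) (nat_lit 307)))) (XT.nd (nat_lit 78) (nat_lit 684) (nat_lit 0)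 (XT.lf (nat_lit 0) (nat_lit 2192117595) (nat_lit 684) (nat_lit 552788947) (nat_lit 684) (nat_lit 552788947) (nat_lit 714) (nat_lit 3) (nat_lit 723) (nat_lit 3) (nat_lit 723) (nat_lit 5) (nat_lit 406) (nat_lit 406) (nat_lit 388)) (XT.nd (nat_lit 78) (nat_lit 0) (nat_lit 0) (XT.lf (nat_lit 0) (nat_lit 1360541612) (nat_lit 684) (nat_lit 2829104592) (nat_lit 760) (nat_lit 2432607591) (nat_lit 705) (nat_lit 5) (nat_lit 714) (nat_lit 3) (nat_lit 715) (nat_lit 5) (nat_lit 407) (nat_lit 406) (nat_lit 387)) (XT.lf (nat_lit 76) (nat_lit 2144468028) (nat_lit 0) (nat_lit 2747482748) (nat_lit 760) (nat_lit 1760060573) (nat_lit 706) (nat_lit 5) (nat_lit 705) (nat_lit 5) (nat_lit 715) (nat_lit 5) (nat_lit 408) (nat_lit 406) (nat_lit 386)))))) (XT.nd (nat_lit 468) (nat_lit 4104) (nat_lit 0) (XT.nd (nat_lit 234) (nat_lit 912) (nat_lit 0) (XT.nd (nat_lit 78) (nat_lit 760) (nat_lit 0) (XT.lf (nat_lit 76) (nat_lit 545048053)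 (nat_lit 0) (nat_lit 1163830351) (nat_lit 836) (nat_lit 4975845906) (nat_lit 696) (nat_lit 5) (nat_lit 695) (nat_lit 5) (nat_lit 706) (nat_lit 5) (nat_lit 409) (nat_lit 406) (nat_lit 385)) (XT.nd (nat_lit 78) (nat_lit 836) (nat_lit 0) (XT.lf (nat_lit 0) (nat_lit 5159404491) (nat_lit 760) (nat_lit 997461094) (nat_lit 836) (nat_lit 563322458) (nat_lit 696) (nat_lit 5) (nat_lit 706) (nat_lit 5) (nat_lit 707) (nat_lit 5) (nat_lit 410) (nat_lit 406) (nat_lit 384)) (XT.lf (nat_lit 0) (nat_lit 1837326821) (nat_lit 836) (nat_lit 2496767011) (nat_lit 912) (nat_lit 2424271796) (nat_lit 685) (nat_lit 5) (nat_lit 696) (nat_lit 5) (nat_lit 697) (nat_lit 5) (nat_lit 411) (nat_lit 406) (nat_lit 383)))) (XT.nd (nat_lit 78) (nat_lit 912) (nat_lit 0) (XT.lf (nat_lit 76) (nat_lit 2847515290) (nat_lit 0) (nat_lit 2367864877) (nat_lit 912) (nat_lit 1584146306) (nat_lit 686) (nat_lit 5) (nat_lit 685) (nat_lit 5) (nat_lit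 697) (nat_lit 5) (nat_lit 412) (nat_lit 406) (nat_lit 382)) (XT.nd (nat_lit 78) (nat_lit 0) (nat_lit 76) (XT.lf (nat_lit 76) (nat_lit 1477603080) (nat_lit 0) (nat_lit 253728093) (nat_lit 988) (nat_lit 5112321791) (nat_lit 674) (nat_lit 5) (nat_lit 673) (nat_lit 5) (nat_lit 686) (nat_lit 5) (nat_lit 413) (nat_lit 406) (nat_lit 381)) (XT.lf (nat_lit 76) (nat_lit 138290110) (nat_lit 0) (nat_lit 4906524593) (nat_lit 988) (nat_lit 1845704046) (nat_lit 675) (nat_lit 5) (nat_lit 674) (nat_lit 5) (nat_lit 687) (nat_lit 5) (nat_lit 414) (nat_lit 406) (nat_lit 380))))) (XT.nd (nat_lit 234) (nat_lit 2204) (nat_lit 0) (XT.nd (nat_lit 78) (nat_lit 988) (nat_lit 0) (XT.lf (nat_lit 0) (nat_lit 1419106041) (nat_lit 988) (nat_lit 1144910688) (nat_lit 1064) (nat_lit 4376199196) (nat_lit 661) (nat_lit 5) (nat_lit 674) (nat_lit 5) (nat_lit 675) (nat_lit 5) (nat_lit 415) (nat_lit 406) (nat_lit 379)) (XT.nd (nat_lit 78)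 (nat_lit 988) (nat_lit 0) (XT.lf (nat_lit 76) (nat_lit 4604635866) (nat_lit 0) (nat_lit 67445225) (nat_lit 1064) (nat_lit 2320797211) (nat_lit 662) (nat_lit 5) (nat_lit 661) (nat_lit 5) (nat_lit 675) (nat_lit 5) (nat_lit 416) (nat_lit 406) (nat_lit 378)) (XT.lf (nat_lit 0) (nat_lit 897116041) (nat_lit 1064) (nat_lit 3605401547) (nat_lit 1140) (nat_lit 2545811630) (nat_lit 648) (nat_lit 5) (nat_lit 662) (nat_lit 5) (nat_lit 663) (nat_lit 5) (nat_lit 417) (nat_lit 406) (nat_lit 377)))) (XT.nd (nat_lit 78) (nat_lit 2204) (nat_lit 0) (XT.lf (nat_lit 76) (nat_lit 2315282363) (nat_lit 0) (nat_lit 1787113770) (nat_lit 1140) (nat_lit 3004315901) (nat_lit 649) (nat_lit 5) (nat_lit 648) (nat_lit 5) (nat_lit 663) (nat_lit 5) (nat_lit 418) (nat_lit 406) (nat_lit 376)) (XT.nd (nat_lit 78) (nat_lit 1140) (nat_lit 0) (XT.lf (nat_lit 0) (nat_lit 165867858) (nat_lit 1140) (nat_lit 5940077859) (nat_lit 76) (nat_lit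 1062251391) (nat_lit 634) (nat_lit 5) (nat_lit 649) (nat_lit 5) (nat_lit 635) (nat_lit 5) (nat_lit 419) (nat_lit 406) (nat_lit 375)) (XT.lf (nat_lit 0) (nat_lit 155829742) (nat_lit 1140) (nat_lit 3175622588) (nat_lit 1216) (nat_lit 3900875674) (nat_lit 619) (nat_lit 5) (nat_lit 634) (nat_lit 5) (nat_lit 635) (nat_lit 5) (nat_lit 420) (nat_lit 406) (nat_lit 374))))))) (XT.nd (nat_lit 936) (nat_lit 9044) (nat_lit 0) (XT.nd (nat_lit 468) (nat_lit 7904) (nat_lit 0) (XT.nd (nat_lit 234) (nat_lit 4408) (nat_lit 0) (XT.nd (nat_lit 78) (nat_lit 2584) (nat_lit 0) (XT.lf (nat_lit 0) (nat_lit 6440251553) (nat_lit 1140) (nat_lit 89797951) (nat_lit 1216) (nat_lit 769592499) (nat_lit 619) (nat_lit 5) (nat_lit 634) (nat_lit 5) (nat_lit 635) (nat_lit 5) (nat_lit 421) (nat_lit 406) (nat_lit 373)) (XT.nd (nat_lit 78) (nat_lit 1292) (nat_lit 0) (XT.lf (nat_lit 0) (nat_lit 2379954438) (nat_lit 1292) (nat_lit 1864569301)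 (nat_lit 76) (nat_lit 3125021300) (nat_lit 602) (nat_lit 5) (nat_lit 619) (nat_lit 5) (nat_lit 603) (nat_lit 5) (nat_lit 422) (nat_lit 406) (nat_lit 372)) (XT.lf (nat_lit 0) (nat_lit 4609553334) (nat_lit 1292) (nat_lit 943110023) (nat_lit 1368) (nat_lit 1890015997) (nat_lit 585) (nat_lit 5) (nat_lit 602) (nat_lit 5) (nat_lit 603) (nat_lit 5) (nat_lit 423) (nat_lit 406) (nat_lit 371)))) (XT.nd (nat_lit 78) (nat_lit 2964) (nat_lit 0) (XT.lf (nat_lit 0) (nat_lit 1243302237) (nat_lit 1444) (nat_lit 3784880304) (nat_lit 76) (nat_lit 2490516888) (nat_lit 566) (nat_lit 5) (nat_lit 585) (nat_lit 5) (nat_lit 567) (nat_lit 5) (nat_lit 424) (nat_lit 406) (nat_lit 370)) (XT.nd (nat_lit 78) (nat_lit 1520) (nat_lit 0) (XT.lf (nat_lit 0) (nat_lit 2882103222) (nat_lit 1444) (nat_lit 1514137739) (nat_lit 1520) (nat_lit 3201500458) (nat_lit 547) (nat_lit 5) (nat_lit 566) (nat_lit 5) (nat_lit 567) (nat_lit 5) (nat_lit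 425) (nat_lit 406) (nat_lit 369)) (XT.lf (nat_lit 0) (nat_lit 2058161858) (nat_lit 1520) (nat_lit 5547590125) (nat_lit 1596) (nat_lit 74179650) (nat_lit 527) (nat_lit 5) (nat_lit 547) (nat_lit 5) (nat_lit 548) (nat_lit 5) (nat_lit 426) (nat_lit 406) (nat_lit 368))))) (XT.nd (nat_lit 234) (nat_lit 4484) (nat_lit 0) (XT.nd (nat_lit 78) (nat_lit 1748) (nat_lit 0) (XT.lf (nat_lit 0) (nat_lit 1244118933) (nat_lit 1596) (nat_lit 1822622784) (nat_lit 1672) (nat_lit 4698231962) (nat_lit 505) (nat_lit 5) (nat_lit 526) (nat_lit 5) (nat_lit 527) (nat_lit 5) (nat_lit 427) (nat_lit 406) (nat_lit 367)) (XT.nd (nat_lit 78) (nat_lit 76) (nat_lit 0) (XT.lf (nat_lit 0) (nat_lit 455495256) (nat_lit 1672) (nat_lit 5812640427) (nat_lit 1748) (nat_lit 1585091825) (nat_lit 483) (nat_lit 5) (nat_lit 505) (nat_lit 5) (nat_lit 506) (nat_lit 5) (nat_lit 428) (nat_lit 406) (nat_lit 366)) (XT.lf (nat_lit 0) (nat_lit 1571174124)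 (nat_lit 1748) (nat_lit 313535314) (nat_lit 76) (nat_lit 6059803667) (nat_lit 482) (nat_lit 5) (nat_lit 505) (nat_lit 5) (nat_lit 483) (nat_lit 5) (nat_lit 429) (nat_lit 406) (nat_lit 365)))) (XT.nd (nat_lit 78) (nat_lit 2736) (nat_lit 0) (XT.lf (nat_lit 0) (nat_lit 4777367630) (nat_lit 1824) (nat_lit 1064713655) (nat_lit 76) (nat_lit 2196725158) (nat_lit 459) (nat_lit 5) (nat_lit 483) (nat_lit 5) (nat_lit 460) (nat_lit 5) (nat_lit 430) (nat_lit 406) (nat_lit 364)) (XT.nd (nat_lit 78) (nat_lit 1064) (nat_lit 0) (XT.lf (nat_lit 0) (nat_lit 6343459084) (nat_lit 1672) (nat_lit 1711026758) (nat_lit 1748) (nat_lit 81961764) (nat_lit 437) (nat_lit 5) (nat_lit 459) (nat_lit 5) (nat_lit 460) (nat_lit 5) (nat_lit 431) (nat_lit 406) (nat_lit 363)) (XT.lf (nat_lit 0) (nat_lit 3132618955) (nat_lit 1064) (nat_lit 2524064930) (nat_lit 76) (nat_lit 2580300752) (nat_lit 423) (nat_lit 5) (nat_lit 437) (nat_lit 5) (nat_lit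 424) (nat_lit 5) (nat_lit 432) (nat_lit 406) (nat_lit 362)))))) (XT.nd (nat_lit 468) (nat_lit 3800) (nat_lit 0) (XT.nd (nat_lit 234) (nat_lit 2508) (nat_lit 0) (XT.nd (nat_lit 78) (nat_lit 1824) (nat_lit 0) (XT.lf (nat_lit 0) (nat_lit 5107077855) (nat_lit 912) (nat_lit 1314300219) (nat_lit 988) (nat_lit 1919584536) (nat_lit 411) (nat_lit 5) (nat_lit 423) (nat_lit 5) (nat_lit 424) (nat_lit 5) (nat_lit 433) (nat_lit 406) (nat_lit 361)) (XT.nd (nat_lit 78) (nat_lit 836) (nat_lit 0) (XT.lf (nat_lit 0) (nat_lit 1333677416) (nat_lit 988) (nat_lit 3940826318) (nat_lit 76) (nat_lit 3173575959) (nat_lit 398) (nat_lit 5) (nat_lit 411) (nat_lit 5) (nat_lit 399) (nat_lit 5) (nat_lit 434) (nat_lit 406) (nat_lit 360)) (XT.lf (nat_lit 0) (nat_lit 3920400965) (nat_lit 836) (nat_lit 719544609) (nat_lit 912) (nat_lit 3918592972) (nat_lit 387) (nat_lit 5) (nat_lit 398) (nat_lit 5) (nat_lit 399) (nat_lit 5) (nat_lit 435)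 (nat_lit 406) (nat_lit 359)))) (XT.nd (nat_lit 78) (nat_lit 1672) (nat_lit 0) (XT.lf (nat_lit 0) (nat_lit 3341089389) (nat_lit 836) (nat_lit 4705398680) (nat_lit 912) (nat_lit 625812815) (nat_lit 376) (nat_lit 5) (nat_lit 387) (nat_lit 5) (nat_lit 388) (nat_lit 5) (nat_lit 436) (nat_lit 406) (nat_lit 358)) (XT.nd (nat_lit 78) (nat_lit 836) (nat_lit 0) (XT.lf (nat_lit 0) (nat_lit 2712194320) (nat_lit 836) (nat_lit 6018287484) (nat_lit 76) (nat_lit 58991701) (nat_lit 365) (nat_lit 5) (nat_lit 376) (nat_lit 5) (nat_lit 366) (nat_lit 5) (nat_lit 437) (nat_lit 406) (nat_lit 357)) (XT.lf (nat_lit 0) (nat_lit 2196830465) (nat_lit 836) (nat_lit 3956622954) (nat_lit 912) (nat_lit 2756403449) (nat_lit 354) (nat_lit 5) (nat_lit 365) (nat_lit 5) (nat_lit 366) (nat_lit 5) (nat_lit 438) (nat_lit 406) (nat_lit 356))))) (XT.nd (nat_lit 234) (nat_lit 1520) (nat_lit 0) (XT.nd (nat_lit 78) (nat_lit 1444) (nat_lit 0)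 (XT.lf (nat_lit 0) (nat_lit 644280800) (nat_lit 836) (nat_lit 7391882246) (nat_lit 76) (nat_lit 997834675) (nat_lit 343) (nat_lit 5) (nat_lit 354) (nat_lit 5) (nat_lit 344) (nat_lit 5) (nat_lit 439) (nat_lit 406) (nat_lit 355)) (XT.nd (nat_lit 78) (nat_lit 684) (nat_lit 0) (XT.lf (nat_lit 0) (nat_lit 1071641305) (nat_lit 760) (nat_lit 3049380063) (nat_lit 836) (nat_lit 5040257119) (nat_lit 333) (nat_lit 5) (nat_lit 343) (nat_lit 5) (nat_lit 344) (nat_lit 5) (nat_lit 440) (nat_lit 406) (nat_lit 354)) (XT.lf (nat_lit 0) (nat_lit 515640080) (nat_lit 684) (nat_lit 7187244758) (nat_lit 760) (nat_lit 1589485912) (nat_lit 324) (nat_lit 5) (nat_lit 333) (nat_lit 5) (nat_lit 334) (nat_lit 5) (nat_lit 441) (nat_lit 406) (nat_lit 353)))) (XT.nd (nat_lit 78) (nat_lit 1444) (nat_lit 0) (XT.lf (nat_lit 0) (nat_lit 1949125073) (nat_lit 760) (nat_lit 45765005) (nat_lit 76) (nat_lit 7432057890) (nat_lit 323) (nat_lit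 5) (nat_lit 333) (nat_lit 5) (nat_lit 324) (nat_lit 5) (nat_lit 442) (nat_lit 406) (nat_lit 352)) (XT.nd (nat_lit 78) (nat_lit 684) (nat_lit 0) (XT.lf (nat_lit 0) (nat_lit 5589314027) (nat_lit 836) (nat_lit 606897831) (nat_lit 76) (nat_lit 3368808993) (nat_lit 313) (nat_lit 5) (nat_lit 324) (nat_lit 5) (nat_lit 314) (nat_lit 5) (nat_lit 443) (nat_lit 406) (nat_lit 351)) (XT.lf (nat_lit 0) (nat_lit 8550779061) (nat_lit 684) (nat_lit 794835223) (nat_lit 760) (nat_lit 361492036) (nat_lit 304) (nat_lit 5) (nat_lit 313) (nat_lit 5) (nat_lit 314) (nat_lit 5) (nat_lit 444) (nat_lit 406) (nat_lit 350))))))))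
noncomputable def xc54 : XT := (XT.nd (nat_lit 1794) (nat_lit 5928) (nat_lit 0) (XT.nd (nat_lit 858) (nat_lit 5092) (nat_lit 0) (XT.nd (nat_lit 390) (nat_lit 3496) (nat_lit 0) (XT.nd (nat_lit 156) (nat_lit 1976) (nat_lit 0) (XT.nd (nat_lit 78) (nat_lit 608) (nat_lit 0) (XT.lf (nat_lit 0) (nat_lit 3344195813) (nat_lit 760) (nat_lit 1734535448) (nat_lit 76) (nat_lit 4773752165) (nat_lit 294) (nat_lit 5) (nat_lit 304) (nat_lit 5) (nat_lit 295) (nat_lit 5) (nat_lit 445) (nat_lit 406) (nat_lit 349)) (XT.lf (nat_lit 0) (nat_lit 7162843348) (nat_lit 684) (nat_lit 2301304668) (nat_lit 76) (nat_lit 537899903) (nat_lit 286) (nat_lit 5) (nat_lit 295) (nat_lit 5) (nat_lit 287) (nat_lit 5) (nat_lit 446) (nat_lit 406) (nat_lit 348))) (XT.nd (nat_lit 78) (nat_lit 1216) (nat_lit 0) (XT.lf (nat_lit 0) (nat_lit 961980026) (nat_lit 760) (nat_lit 2886452059) (nat_lit 76) (nat_lit 6306865558) (nat_lit 276) (nat_lit 5)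 (nat_lit 286) (nat_lit 5) (nat_lit 277) (nat_lit 5) (nat_lit 447) (nat_lit 406) (nat_lit 347)) (XT.nd (nat_lit 78) (nat_lit 608) (nat_lit 0) (XT.lf (nat_lit 0) (nat_lit 4853935901) (nat_lit 684) (nat_lit 3482932342) (nat_lit 76) (nat_lit 1975602357) (nat_lit 268) (nat_lit 5) (nat_lit 277) (nat_lit 5) (nat_lit 269) (nat_lit 5) (nat_lit 448) (nat_lit 406) (nat_lit 346)) (XT.lf (nat_lit 0) (nat_lit 6387968125) (nat_lit 608) (nat_lit 2504680337) (nat_lit 684) (nat_lit 1581117381) (nat_lit 260) (nat_lit 5) (nat_lit 268) (nat_lit 5) (nat_lit 269) (nat_lit 5) (nat_lit 449) (nat_lit 406) (nat_lit 345))))) (XT.nd (nat_lit 234) (nat_lit 1748) (nat_lit 0) (XT.nd (nat_lit 78) (nat_lit 1140) (nat_lit 0) (XT.lf (nat_lit 0) (nat_lit 2410461937) (nat_lit 608) (nat_lit 4709190503) (nat_lit 76) (nat_lit 3519351306) (nat_lit 252) (nat_lit 5) (nat_lit 260) (nat_lit 5) (nat_lit 253) (nat_lit 5) (nat_lit 450) (nat_lit 406)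 (nat_lit 344)) (XT.nd (nat_lit 78) (nat_lit 532) (nat_lit 0) (XT.lf (nat_lit 0) (nat_lit 5465443969) (nat_lit 608) (nat_lit 1060076915) (nat_lit 684) (nat_lit 4282971132) (nat_lit 244) (nat_lit 5) (nat_lit 252) (nat_lit 5) (nat_lit 253) (nat_lit 5) (nat_lit 451) (nat_lit 406) (nat_lit 343)) (XT.lf (nat_lit 0) (nat_lit 4987195559) (nat_lit 532) (nat_lit 5820998217) (nat_lit 608) (nat_lit 173994248) (nat_lit 237) (nat_lit 5) (nat_lit 244) (nat_lit 5) (nat_lit 245) (nat_lit 5) (nat_lit 452) (nat_lit 406) (nat_lit 342)))) (XT.nd (nat_lit 78) (nat_lit 1140) (nat_lit 0) (XT.lf (nat_lit 0) (nat_lit 4027567477) (nat_lit 608) (nat_lit 6669119148) (nat_lit 76) (nat_lit 463436532) (nat_lit 229) (nat_lit 5) (nat_lit 237) (nat_lit 5) (nat_lit 230) (nat_lit 5) (nat_lit 453) (nat_lit 406) (nat_lit 341)) (XT.nd (nat_lit 78) (nat_lit 608) (nat_lit 0) (XT.lf (nat_lit 0) (nat_lit 3971749852) (nat_lit 532) (nat_lit 4434439267)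 (nat_lit 608) (nat_lit 2936122537) (nat_lit 222) (nat_lit 5) (nat_lit 229) (nat_lit 5) (nat_lit 230) (nat_lit 5) (nat_lit 454) (nat_lit 406) (nat_lit 340)) (XT.lf (nat_lit 0) (nat_lit 1397928554) (nat_lit 608) (nat_lit 8083366239) (nat_lit 76) (nat_lit 2047898479) (nat_lit 214) (nat_lit 5) (nat_lit 222) (nat_lit 5) (nat_lit 215) (nat_lit 5) (nat_lit 455) (nat_lit 406) (nat_lit 339)))))) (XT.nd (nat_lit 468) (nat_lit 2584) (nat_lit 0) (XT.nd (nat_lit 234) (nat_lit 988) (nat_lit 0) (XT.nd (nat_lit 78) (nat_lit 1064) (nat_lit 0) (XT.lf (nat_lit 0) (nat_lit 2884806719) (nat_lit 456) (nat_lit 2985598423) (nat_lit 532) (nat_lit 5849927560) (nat_lit 208) (nat_lit 5) (nat_lit 214) (nat_lit 5) (nat_lit 215) (nat_lit 5) (nat_lit 456) (nat_lit 406) (nat_lit 338)) (XT.nd (nat_lit 78) (nat_lit 532) (nat_lit 0) (XT.lf (nat_lit 0) (nat_lit 2312420380) (nat_lit 532) (nat_lit 8209145661) (nat_lit 608) (nat_lit 1394755324)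 (nat_lit 201) (nat_lit 5) (nat_lit 208) (nat_lit 5) (nat_lit 209) (nat_lit 5) (nat_lit 457) (nat_lit 406) (nat_lit 337)) (XT.lf (nat_lit 0) (nat_lit 1710518114) (nat_lit 456) (nat_lit 1483979257) (nat_lit 532) (nat_lit 8922436230) (nat_lit 194) (nat_lit 5) (nat_lit 200) (nat_lit 5) (nat_lit 201) (nat_lit 5) (nat_lit 458) (nat_lit 406) (nat_lit 336)))) (XT.nd (nat_lit 78) (nat_lit 532) (nat_lit 0) (XT.lf (nat_lit 0) (nat_lit 1073270917) (nat_lit 456) (nat_lit 6888959667) (nat_lit 532) (nat_lit 4359959044) (nat_lit 188) (nat_lit 5) (nat_lit 194) (nat_lit 5) (nat_lit 195) (nat_lit 5) (nat_lit 459) (nat_lit 406) (nat_lit 335)) (XT.nd (nat_lit 78) (nat_lit 0) (nat_lit 0) (XT.lf (nat_lit 0) (nat_lit 371517862) (nat_lit 532) (nat_lit 12101352468) (nat_lit 76) (nat_lit 59962021) (nat_lit 181) (nat_lit 5) (nat_lit 188) (nat_lit 5) (nat_lit 182) (nat_lit 5) (nat_lit 460) (nat_lit 406) (nat_lit 334)) (XT.lf (nat_lit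 0) (nat_lit 5262120506) (nat_lit 532) (nat_lit 276203974) (nat_lit 76) (nat_lit 7209369648) (nat_lit 181) (nat_lit 5) (nat_lit 188) (nat_lit 5) (nat_lit 182) (nat_lit 5) (nat_lit 461) (nat_lit 406) (nat_lit 333))))) (XT.nd (nat_lit 234) (nat_lit 1216) (nat_lit 0) (XT.nd (nat_lit 78) (nat_lit 912) (nat_lit 0) (XT.lf (nat_lit 0) (nat_lit 10342751049) (nat_lit 532) (nat_lit 984616887) (nat_lit 76) (nat_lit 1640771980) (nat_lit 175) (nat_lit 5) (nat_lit 182) (nat_lit 5) (nat_lit 176) (nat_lit 5) (nat_lit 462) (nat_lit 406) (nat_lit 332)) (XT.nd (nat_lit 78) (nat_lit 456) (nat_lit 0) (XT.lf (nat_lit 0) (nat_lit 2418601807) (nat_lit 456) (nat_lit 1742893772) (nat_lit 76) (nat_lit 9032014067) (nat_lit 169) (nat_lit 5) (nat_lit 175) (nat_lit 5) (nat_lit 170) (nat_lit 5) (nat_lit 463) (nat_lit 406) (nat_lit 331)) (XT.lf (nat_lit 0) (nat_lit 7633349892) (nat_lit 532) (nat_lit 2539367702) (nat_lit 76) (nat_lit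 3251477690) (nat_lit 163) (nat_lit 5) (nat_lit 170) (nat_lit 5) (nat_lit 164) (nat_lit 5) (nat_lit 464) (nat_lit 406) (nat_lit 330)))) (XT.nd (nat_lit 78) (nat_lit 836) (nat_lit 0) (XT.lf (nat_lit 0) (nat_lit 10295458011) (nat_lit 380) (nat_lit 2772351431) (nat_lit 456) (nat_lit 592730576) (nat_lit 158) (nat_lit 5) (nat_lit 163) (nat_lit 5) (nat_lit 164) (nat_lit 5) (nat_lit 465) (nat_lit 406) (nat_lit 329)) (XT.nd (nat_lit 78) (nat_lit 380) (nat_lit 0) (XT.lf (nat_lit 0) (nat_lit 4768382430) (nat_lit 456) (nat_lit 4257187131) (nat_lit 76) (nat_lit 4876400967) (nat_lit 152) (nat_lit 5) (nat_lit 158) (nat_lit 5) (nat_lit 153) (nat_lit 5) (nat_lit 466) (nat_lit 406) (nat_lit 328)) (XT.lf (nat_lit 0) (nat_lit 8971332112) (nat_lit 380) (nat_lit 1368684337) (nat_lit 456) (nat_lit 3809397945) (nat_lit 147) (nat_lit 5) (nat_lit 152) (nat_lit 5) (nat_lit 153) (nat_lit 5) (nat_lit 467) (nat_lit 406) (nat_lit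 327))))))) (XT.nd (nat_lit 858) (nat_lit 2432) (nat_lit 0) (XT.nd (nat_lit 390) (nat_lit 1672) (nat_lit 0) (XT.nd (nat_lit 156) (nat_lit 1064) (nat_lit 0) (XT.nd (nat_lit 78) (nat_lit 304) (nat_lit 0) (XT.lf (nat_lit 0) (nat_lit 1736668517) (nat_lit 456) (nat_lit 6161165647) (nat_lit 76) (nat_lit 6504551163) (nat_lit 141) (nat_lit 5) (nat_lit 147) (nat_lit 5) (nat_lit 142) (nat_lit 5) (nat_lit 468) (nat_lit 406) (nat_lit 326)) (XT.lf (nat_lit 0) (nat_lit 7449923200) (nat_lit 380) (nat_lit 7190310311) (nat_lit 76) (nat_lit 21160387) (nat_lit 137) (nat_lit 5) (nat_lit 142) (nat_lit 5) (nat_lit 138) (nat_lit 5) (nat_lit 469) (nat_lit 406) (nat_lit 325))) (XT.nd (nat_lit 78) (nat_lit 684) (nat_lit 0) (XT.lf (nat_lit 0) (nat_lit 6640028106) (nat_lit 380) (nat_lit 6792283831) (nat_lit 456) (nat_lit 1493909302) (nat_lit 132) (nat_lit 5) (nat_lit 137) (nat_lit 5) (nat_lit 138) (nat_lit 5) (nat_lit 470) (nat_lit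 406) (nat_lit 324)) (XT.nd (nat_lit 78) (nat_lit 304) (nat_lit 0) (XT.lf (nat_lit 0) (nat_lit 4393322756) (nat_lit 380) (nat_lit 9436759428) (nat_lit 76) (nat_lit 1367227822) (nat_lit 127) (nat_lit 5) (nat_lit 132) (nat_lit 5) (nat_lit 128) (nat_lit 5) (nat_lit 471) (nat_lit 406) (nat_lit 323)) (XT.lf (nat_lit 0) (nat_lit 4811648968) (nat_lit 304) (nat_lit 5719420240) (nat_lit 380) (nat_lit 4943383849) (nat_lit 123) (nat_lit 5) (nat_lit 127) (nat_lit 5) (nat_lit 128) (nat_lit 5) (nat_lit 472) (nat_lit 406) (nat_lit 322))))) (XT.nd (nat_lit 234) (nat_lit 684) (nat_lit 0) (XT.nd (nat_lit 78) (nat_lit 608) (nat_lit 0) (XT.lf (nat_lit 0) (nat_lit 1146966742) (nat_lit 380) (nat_lit 11937357967) (nat_lit 76) (nat_lit 2674081317) (nat_lit 118) (nat_lit 5) (nat_lit 123) (nat_lit 5) (nat_lit 119) (nat_lit 5) (nat_lit 473) (nat_lit 406) (nat_lit 321)) (XT.nd (nat_lit 78) (nat_lit 304) (nat_lit 0) (XT.lf (nat_lit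 0) (nat_lit 2738575267) (nat_lit 304) (nat_lit 4705393202) (nat_lit 380) (nat_lit 8604436327) (nat_lit 114) (nat_lit 5) (nat_lit 118) (nat_lit 5) (nat_lit 119) (nat_lit 5) (nat_lit 474) (nat_lit 406) (nat_lit 320)) (XT.lf (nat_lit 0) (nat_lit 1606659244) (nat_lit 304) (nat_lit 12403084459) (nat_lit 380) (nat_lit 2335765242) (nat_lit 110) (nat_lit 5) (nat_lit 114) (nat_lit 5) (nat_lit 115) (nat_lit 5) (nat_lit 475) (nat_lit 406) (nat_lit 319)))) (XT.nd (nat_lit 78) (nat_lit 304) (nat_lit 0) (XT.lf (nat_lit 0) (nat_lit 388787776) (nat_lit 304) (nat_lit 3765888298) (nat_lit 380) (nat_lit 12494562434) (nat_lit 105) (nat_lit 5) (nat_lit 109) (nat_lit 5) (nat_lit 110) (nat_lit 5) (nat_lit 476) (nat_lit 406) (nat_lit 318)) (XT.nd (nat_lit 78) (nat_lit 304) (nat_lit 0) (XT.lf (nat_lit 0) (nat_lit 10905641462) (nat_lit 380) (nat_lit 897865216) (nat_lit 76) (nat_lit 5156316077) (nat_lit 105) (nat_lit 5) (nat_lit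 110) (nat_lit 5) (nat_lit 106) (nat_lit 5) (nat_lit 477) (nat_lit 406) (nat_lit 317)) (XT.lf (nat_lit 0) (nat_lit 659797212) (nat_lit 304) (nat_lit 2243103631) (nat_lit 76) (nat_lit 14374991111) (nat_lit 101) (nat_lit 5) (nat_lit 105) (nat_lit 5) (nat_lit 102) (nat_lit 5) (nat_lit 478) (nat_lit 406) (nat_lit 316)))))) (XT.nd (nat_lit 468) (nat_lit 760) (nat_lit 0) (XT.nd (nat_lit 234) (nat_lit 760) (nat_lit 0) (XT.nd (nat_lit 78) (nat_lit 608) (nat_lit 0) (XT.lf (nat_lit 0) (nat_lit 7596460901) (nat_lit 380) (nat_lit 3708271968) (nat_lit 76) (nat_lit 6297901922) (nat_lit 97) (nat_lit 5) (nat_lit 102) (nat_lit 5) (nat_lit 98) (nat_lit 5) (nat_lit 479) (nat_lit 406) (nat_lit 315)) (XT.nd (nat_lit 78) (nat_lit 380) (nat_lit 0) (XT.lf (nat_lit 0) (nat_lit 12699320898) (nat_lit 228) (nat_lit 2124577142) (nat_lit 304) (nat_lit 3111570627) (nat_lit 94) (nat_lit 5) (nat_lit 97) (nat_lit 5) (nat_lit 98) (nat_lit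 5) (nat_lit 480) (nat_lit 406) (nat_lit 314)) (XT.lf (nat_lit 0) (nat_lit 4051304522) (nat_lit 380) (nat_lit 6885753931) (nat_lit 76) (nat_lit 7338437896) (nat_lit 89) (nat_lit 5) (nat_lit 94) (nat_lit 5) (nat_lit 90) (nat_lit 5) (nat_lit 481) (nat_lit 406) (nat_lit 313)))) (XT.nd (nat_lit 78) (nat_lit 532) (nat_lit 0) (XT.lf (nat_lit 0) (nat_lit 10000292018) (nat_lit 228) (nat_lit 1467992937) (nat_lit 304) (nat_lit 7155400751) (nat_lit 86) (nat_lit 5) (nat_lit 89) (nat_lit 5) (nat_lit 90) (nat_lit 5) (nat_lit 482) (nat_lit 406) (nat_lit 312)) (XT.nd (nat_lit 78) (nat_lit 228) (nat_lit 0) (XT.lf (nat_lit 0) (nat_lit 247482641) (nat_lit 304) (nat_lit 10474513422) (nat_lit 76) (nat_lit 8257836870) (nat_lit 82) (nat_lit 5) (nat_lit 86) (nat_lit 5) (nat_lit 83) (nat_lit 5) (nat_lit 483) (nat_lit 406) (nat_lit 311)) (XT.lf (nat_lit 0) (nat_lit 6897039238) (nat_lit 228) (nat_lit 959428541) (nat_lit 304)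 (nat_lit 11487628173) (nat_lit 79) (nat_lit 5) (nat_lit 82) (nat_lit 5) (nat_lit 83) (nat_lit 5) (nat_lit 484) (nat_lit 406) (nat_lit 310))))) (XT.nd (nat_lit 234) (nat_lit 0) (nat_lit 0) (XT.nd (nat_lit 78) (nat_lit 532) (nat_lit 0) (XT.lf (nat_lit 0) (nat_lit 5168111587) (nat_lit 228) (nat_lit 10657377212) (nat_lit 304) (nat_lit 3891164583) (nat_lit 76) (nat_lit 5) (nat_lit 79) (nat_lit 5) (nat_lit 80) (nat_lit 5) (nat_lit 485) (nat_lit 406) (nat_lit 309)) (XT.nd (nat_lit 78) (nat_lit 228) (nat_lit 0) (XT.lf (nat_lit 0) (nat_lit 3339784867) (nat_lit 228) (nat_lit 622908054) (nat_lit 304) (nat_lit 16135563941) (nat_lit 72) (nat_lit 5) (nat_lit 75) (nat_lit 5) (nat_lit 76) (nat_lit 5) (nat_lit 486) (nat_lit 406) (nat_lit 308)) (XT.lf (nat_lit 0) (nat_lit 1348003945) (nat_lit 228) (nat_lit 10791161209) (nat_lit 304) (nat_lit 8348833292) (nat_lit 69) (nat_lit 5) (nat_lit 72) (nat_lit 5) (nat_lit 73)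 (nat_lit 5) (nat_lit 487) (nat_lit 406) (nat_lit 307)))) (XT.nd (nat_lit 56160) (nat_lit 0) (nat_lit 47500) (XT.lf (nat_lit 0) (nat_lit 20169222807) (nat_lit 228) (nat_lit 478488850) (nat_lit 304) (nat_lit 239986675) (nat_lit 69) (nat_lit 5) (nat_lit 72) (nat_lit 5) (nat_lit 73) (nat_lit 5) (nat_lit 488) (nat_lit 406) (nat_lit 306)) (XT.nd (nat_lit 78) (nat_lit 836) (nat_lit 0) (XT.lf (nat_lit 0) (nat_lit 1204242789) (nat_lit 0) (nat_lit 1204242789) (nat_lit 684) (nat_lit 916800023) (nat_lit 705) (nat_lit 5) (nat_lit 705) (nat_lit 3) (nat_lit 714) (nat_lit 3) (nat_lit 407) (nat_lit 407) (nat_lit 386)) (XT.lf (nat_lit 76) (nat_lit 676893282) (nat_lit 0) (nat_lit 882836283) (nat_lit 836) (nat_lit 5122127067) (nat_lit 695) (nat_lit 5) (nat_lit 694) (nat_lit 3) (nat_lit 705) (nat_lit 5) (nat_lit 408) (nat_lit 407) (nat_lit 385))))))))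
noncomputable def xc55 : XT := (XT.nd (nat_lit 1794) (nat_lit 16264) (nat_lit 0) (XT.nd (nat_lit 858) (nat_lit 14972) (nat_lit 0) (XT.nd (nat_lit 390) (nat_lit 2964) (nat_lit 0) (XT.nd (nat_lit 156) (nat_lit 912) (nat_lit 0) (XT.nd (nat_lit 78) (nat_lit 836) (nat_lit 0) (XT.lf (nat_lit 0) (nat_lit 4931088839) (nat_lit 760) (nat_lit 1000453652) (nat_lit 836) (nat_lit 784303593) (nat_lit 695) (nat_lit 5) (nat_lit 705) (nat_lit 5) (nat_lit 706) (nat_lit 5) (nat_lit 409) (nat_lit 407) (nat_lit 384)) (XT.lf (nat_lit 0) (nat_lit 1534581152) (nat_lit 836) (nat_lit 2629853328) (nat_lit 912) (nat_lit 2588164870) (nat_lit 684) (nat_lit 5) (nat_lit 695) (nat_lit 5) (nat_lit 696) (nat_lit 5) (nat_lit 410) (nat_lit 407) (nat_lit 383))) (XT.nd (nat_lit 78) (nat_lit 912) (nat_lit 0) (XT.lf (nat_lit 76) (nat_lit 2574778039) (nat_lit 0) (nat_lit 2252044999) (nat_lit 912) (nat_lit 1965473165) (nat_lit 685) (nat_lit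 5) (nat_lit 684) (nat_lit 5) (nat_lit 696) (nat_lit 5) (nat_lit 411) (nat_lit 407) (nat_lit 382)) (XT.nd (nat_lit 78) (nat_lit 0) (nat_lit 76) (XT.lf (nat_lit 76) (nat_lit 1073122953) (nat_lit 0) (nat_lit 194547847) (nat_lit 988) (nat_lit 5567336703) (nat_lit 673) (nat_lit 5) (nat_lit 672) (nat_lit 5) (nat_lit 685) (nat_lit 5) (nat_lit 412) (nat_lit 407) (nat_lit 381)) (XT.lf (nat_lit 0) (nat_lit 4492284346) (nat_lit 912) (nat_lit 396231505) (nat_lit 988) (nat_lit 1991827097) (nat_lit 673) (nat_lit 5) (nat_lit 685) (nat_lit 5) (nat_lit 686) (nat_lit 5) (nat_lit 413) (nat_lit 407) (nat_lit 380))))) (XT.nd (nat_lit 234) (nat_lit 1064) (nat_lit 0) (XT.nd (nat_lit 78) (nat_lit 988) (nat_lit 0) (XT.lf (nat_lit 0) (nat_lit 792248197) (nat_lit 988) (nat_lit 1807681741) (nat_lit 1064) (nat_lit 4328672769) (nat_lit 660) (nat_lit 5) (nat_lit 673) (nat_lit 5) (nat_lit 674) (nat_lit 5) (nat_lit 414) (nat_lit 407)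 (nat_lit 379)) (XT.nd (nat_lit 78) (nat_lit 988) (nat_lit 0) (XT.lf (nat_lit 76) (nat_lit 3794032855) (nat_lit 0) (nat_lit 154446063) (nat_lit 1064) (nat_lit 3031280678) (nat_lit 661) (nat_lit 5) (nat_lit 660) (nat_lit 5) (nat_lit 674) (nat_lit 5) (nat_lit 415) (nat_lit 407) (nat_lit 378)) (XT.lf (nat_lit 0) (nat_lit 96810443) (nat_lit 1064) (nat_lit 4532627046) (nat_lit 1140) (nat_lit 2404373983) (nat_lit 647) (nat_lit 5) (nat_lit 661) (nat_lit 5) (nat_lit 662) (nat_lit 5) (nat_lit 416) (nat_lit 407) (nat_lit 377)))) (XT.nd (nat_lit 78) (nat_lit 1064) (nat_lit 0) (XT.lf (nat_lit 76) (nat_lit 1235825715) (nat_lit 0) (nat_lit 1963400208) (nat_lit 1140) (nat_lit 3891447329) (nat_lit 648) (nat_lit 5) (nat_lit 647) (nat_lit 5) (nat_lit 662) (nat_lit 5) (nat_lit 417) (nat_lit 407) (nat_lit 376)) (XT.nd (nat_lit 78) (nat_lit 1140) (nat_lit 0) (XT.lf (nat_lit 76) (nat_lit 12218418) (nat_lit 0) (nat_lit 6312172228)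 (nat_lit 1140) (nat_lit 826278432) (nat_lit 649) (nat_lit 5) (nat_lit 648) (nat_lit 5) (nat_lit 663) (nat_lit 5) (nat_lit 418) (nat_lit 407) (nat_lit 375)) (XT.lf (nat_lit 0) (nat_lit 2248863656) (nat_lit 1140) (nat_lit 1178383288) (nat_lit 1216) (nat_lit 3785964097) (nat_lit 633) (nat_lit 5) (nat_lit 648) (nat_lit 5) (nat_lit 649) (nat_lit 5) (nat_lit 419) (nat_lit 407) (nat_lit 374)))))) (XT.nd (nat_lit 468) (nat_lit 9880) (nat_lit 0) (XT.nd (nat_lit 234) (nat_lit 2736) (nat_lit 0) (XT.nd (nat_lit 78) (nat_lit 2356) (nat_lit 0) (XT.lf (nat_lit 76) (nat_lit 4948379535) (nat_lit 0) (nat_lit 387410253) (nat_lit 1216) (nat_lit 1943135208) (nat_lit 634) (nat_lit 5) (nat_lit 633) (nat_lit 5) (nat_lit 649) (nat_lit 5) (nat_lit 420) (nat_lit 407) (nat_lit 373)) (XT.nd (nat_lit 78) (nat_lit 1216) (nat_lit 0) (XT.lf (nat_lit 0) (nat_lit 1105400928) (nat_lit 1216) (nat_lit 3465592846) (nat_lit 76) (nat_lit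 2776443637) (nat_lit 618) (nat_lit 5) (nat_lit 634) (nat_lit 5) (nat_lit 619) (nat_lit 5) (nat_lit 421) (nat_lit 407) (nat_lit 372)) (XT.lf (nat_lit 0) (nat_lit 2843789189) (nat_lit 1216) (nat_lit 1315310219) (nat_lit 1292) (nat_lit 3259865347) (nat_lit 602) (nat_lit 5) (nat_lit 618) (nat_lit 5) (nat_lit 619) (nat_lit 5) (nat_lit 422) (nat_lit 407) (nat_lit 371)))) (XT.nd (nat_lit 78) (nat_lit 1444) (nat_lit 0) (XT.lf (nat_lit 0) (nat_lit 1834880722) (nat_lit 1292) (nat_lit 5423828581) (nat_lit 1368) (nat_lit 234860621) (nat_lit 585) (nat_lit 5) (nat_lit 602) (nat_lit 5) (nat_lit 603) (nat_lit 5) (nat_lit 423) (nat_lit 407) (nat_lit 370)) (XT.nd (nat_lit 78) (nat_lit 0) (nat_lit 0) (XT.lf (nat_lit 0) (nat_lit 839803040) (nat_lit 1368) (nat_lit 1955934444) (nat_lit 1444) (nat_lit 4775266286) (nat_lit 566) (nat_lit 5) (nat_lit 584) (nat_lit 5) (nat_lit 585) (nat_lit 5) (nat_lit 424) (nat_lit 407) (nat_lit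 369)) (XT.lf (nat_lit 0) (nat_lit 5872694016) (nat_lit 1444) (nat_lit 125932772) (nat_lit 76) (nat_lit 1652946816) (nat_lit 566) (nat_lit 5) (nat_lit 585) (nat_lit 5) (nat_lit 567) (nat_lit 5) (nat_lit 425) (nat_lit 407) (nat_lit 368))))) (XT.nd (nat_lit 234) (nat_lit 5244) (nat_lit 0) (XT.nd (nat_lit 78) (nat_lit 3116) (nat_lit 0) (XT.lf (nat_lit 0) (nat_lit 1258635631) (nat_lit 1520) (nat_lit 1063629016) (nat_lit 76) (nat_lit 5412774288) (nat_lit 546) (nat_lit 5) (nat_lit 566) (nat_lit 5) (nat_lit 547) (nat_lit 5) (nat_lit 426) (nat_lit 407) (nat_lit 367)) (XT.nd (nat_lit 78) (nat_lit 1596) (nat_lit 0) (XT.lf (nat_lit 0) (nat_lit 4325668484) (nat_lit 1596) (nat_lit 1985652653) (nat_lit 76) (nat_lit 1510216102) (nat_lit 526) (nat_lit 5) (nat_lit 547) (nat_lit 5) (nat_lit 527) (nat_lit 5) (nat_lit 427) (nat_lit 407) (nat_lit 366)) (XT.lf (nat_lit 0) (nat_lit 5023996815) (nat_lit 1596) (nat_lit 2431931210)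 (nat_lit 1672) (nat_lit 455293092) (nat_lit 505) (nat_lit 5) (nat_lit 526) (nat_lit 5) (nat_lit 527) (nat_lit 5) (nat_lit 428) (nat_lit 407) (nat_lit 365)))) (XT.nd (nat_lit 78) (nat_lit 3496) (nat_lit 0) (XT.lf (nat_lit 0) (nat_lit 2610271406) (nat_lit 1748) (nat_lit 3781567311) (nat_lit 76) (nat_lit 1612045971) (nat_lit 482) (nat_lit 5) (nat_lit 505) (nat_lit 5) (nat_lit 483) (nat_lit 5) (nat_lit 429) (nat_lit 407) (nat_lit 364)) (XT.nd (nat_lit 78) (nat_lit 1748) (nat_lit 0) (XT.lf (nat_lit 0) (nat_lit 3438167016) (nat_lit 1748) (nat_lit 2301012337) (nat_lit 1824) (nat_lit 2360551183) (nat_lit 459) (nat_lit 5) (nat_lit 482) (nat_lit 5) (nat_lit 483) (nat_lit 5) (nat_lit 430) (nat_lit 407) (nat_lit 363)) (XT.lf (nat_lit 0) (nat_lit 730091642) (nat_lit 1748) (nat_lit 5526555725) (nat_lit 76) (nat_lit 1942186340) (nat_lit 436) (nat_lit 5) (nat_lit 459) (nat_lit 5) (nat_lit 437) (nat_lit 5) (nat_lit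 431) (nat_lit 407) (nat_lit 362))))))) (XT.nd (nat_lit 936) (nat_lit 6916) (nat_lit 0) (XT.nd (nat_lit 468) (nat_lit 4712) (nat_lit 0) (XT.nd (nat_lit 234) (nat_lit 1748) (nat_lit 0) (XT.nd (nat_lit 78) (nat_lit 1900) (nat_lit 0) (XT.lf (nat_lit 0) (nat_lit 1909817315) (nat_lit 988) (nat_lit 1953811438) (nat_lit 1064) (nat_lit 4437337000) (nat_lit 423) (nat_lit 5) (nat_lit 436) (nat_lit 5) (nat_lit 437) (nat_lit 5) (nat_lit 432) (nat_lit 407) (nat_lit 361)) (XT.nd (nat_lit 78) (nat_lit 988) (nat_lit 0) (XT.lf (nat_lit 0) (nat_lit 1164584871) (nat_lit 912) (nat_lit 5912223864) (nat_lit 988) (nat_lit 1329652674) (nat_lit 411) (nat_lit 5) (nat_lit 423) (nat_lit 5) (nat_lit 424) (nat_lit 5) (nat_lit 433) (nat_lit 407) (nat_lit 360)) (XT.lf (nat_lit 0) (nat_lit 426638984) (nat_lit 912) (nat_lit 1405032390) (nat_lit 988) (nat_lit 6683520336) (nat_lit 398) (nat_lit 5) (nat_lit 410) (nat_lit 5) (nat_lit 411)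 (nat_lit 5) (nat_lit 434) (nat_lit 407) (nat_lit 359)))) (XT.nd (nat_lit 78) (nat_lit 1748) (nat_lit 0) (XT.lf (nat_lit 0) (nat_lit 5067511365) (nat_lit 988) (nat_lit 306046137) (nat_lit 76) (nat_lit 3253507263) (nat_lit 398) (nat_lit 5) (nat_lit 411) (nat_lit 5) (nat_lit 399) (nat_lit 5) (nat_lit 435) (nat_lit 407) (nat_lit 358)) (XT.nd (nat_lit 78) (nat_lit 912) (nat_lit 0) (XT.lf (nat_lit 0) (nat_lit 7730129917) (nat_lit 836) (nat_lit 659222226) (nat_lit 912) (nat_lit 353174467) (nat_lit 387) (nat_lit 5) (nat_lit 398) (nat_lit 5) (nat_lit 399) (nat_lit 5) (nat_lit 436) (nat_lit 407) (nat_lit 357)) (XT.lf (nat_lit 0) (nat_lit 2917398926) (nat_lit 912) (nat_lit 1735920362) (nat_lit 76) (nat_lit 4207626912) (nat_lit 375) (nat_lit 5) (nat_lit 387) (nat_lit 5) (nat_lit 376) (nat_lit 5) (nat_lit 437) (nat_lit 407) (nat_lit 356))))) (XT.nd (nat_lit 234) (nat_lit 2280) (nat_lit 0) (XT.nd (nat_lit 78) (nat_lit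 1672) (nat_lit 0) (XT.lf (nat_lit 0) (nat_lit 6268954282) (nat_lit 836) (nat_lit 2440052668) (nat_lit 76) (nat_lit 274121745) (nat_lit 365) (nat_lit 5) (nat_lit 376) (nat_lit 5) (nat_lit 366) (nat_lit 5) (nat_lit 438) (nat_lit 407) (nat_lit 355)) (XT.nd (nat_lit 78) (nat_lit 760) (nat_lit 0) (XT.lf (nat_lit 0) (nat_lit 619321144) (nat_lit 912) (nat_lit 3152220524) (nat_lit 76) (nat_lit 5337059908) (nat_lit 353) (nat_lit 5) (nat_lit 365) (nat_lit 5) (nat_lit 354) (nat_lit 5) (nat_lit 439) (nat_lit 407) (nat_lit 354)) (XT.lf (nat_lit 0) (nat_lit 4011249029) (nat_lit 836) (nat_lit 3865414675) (nat_lit 76) (nat_lit 1360919566) (nat_lit 343) (nat_lit 5) (nat_lit 354) (nat_lit 5) (nat_lit 344) (nat_lit 5) (nat_lit 440) (nat_lit 407) (nat_lit 353)))) (XT.nd (nat_lit 78) (nat_lit 1520) (nat_lit 0) (XT.lf (nat_lit 0) (nat_lit 4791204100) (nat_lit 760) (nat_lit 2727524777) (nat_lit 836) (nat_lit 1851438868)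 (nat_lit 333) (nat_lit 5) (nat_lit 343) (nat_lit 5) (nat_lit 344) (nat_lit 5) (nat_lit 441) (nat_lit 407) (nat_lit 352)) (XT.nd (nat_lit 78) (nat_lit 760) (nat_lit 0) (XT.lf (nat_lit 0) (nat_lit 1611253999) (nat_lit 760) (nat_lit 5296244765) (nat_lit 76) (nat_lit 2598871607) (nat_lit 323) (nat_lit 5) (nat_lit 333) (nat_lit 5) (nat_lit 324) (nat_lit 5) (nat_lit 442) (nat_lit 407) (nat_lit 351)) (XT.lf (nat_lit 0) (nat_lit 3624827777) (nat_lit 760) (nat_lit 1539269625) (nat_lit 836) (nat_lit 4482096956) (nat_lit 313) (nat_lit 5) (nat_lit 323) (nat_lit 5) (nat_lit 324) (nat_lit 5) (nat_lit 443) (nat_lit 407) (nat_lit 350)))))) (XT.nd (nat_lit 468) (nat_lit 3496) (nat_lit 0) (XT.nd (nat_lit 234) (nat_lit 1368) (nat_lit 0) (XT.nd (nat_lit 78) (nat_lit 1368) (nat_lit 0) (XT.lf (nat_lit 0) (nat_lit 3038839102) (nat_lit 684) (nat_lit 5805998586) (nat_lit 760) (nat_lit 944957411) (nat_lit 304) (nat_lit 5) (nat_lit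 313) (nat_lit 5) (nat_lit 314) (nat_lit 5) (nat_lit 444) (nat_lit 407) (nat_lit 349)) (XT.nd (nat_lit 78) (nat_lit 608) (nat_lit 0) (XT.lf (nat_lit 0) (nat_lit 2449379334) (nat_lit 684) (nat_lit 221251969) (nat_lit 760) (nat_lit 7266575570) (nat_lit 294) (nat_lit 5) (nat_lit 303) (nat_lit 5) (nat_lit 304) (nat_lit 5) (nat_lit 445) (nat_lit 407) (nat_lit 348)) (XT.lf (nat_lit 0) (nat_lit 1840622468) (nat_lit 608) (nat_lit 4576870411) (nat_lit 684) (nat_lit 3670717968) (nat_lit 286) (nat_lit 5) (nat_lit 294) (nat_lit 5) (nat_lit 295) (nat_lit 5) (nat_lit 446) (nat_lit 407) (nat_lit 347)))) (XT.nd (nat_lit 78) (nat_lit 608) (nat_lit 0) (XT.lf (nat_lit 0) (nat_lit 43688717) (nat_lit 760) (nat_lit 8999106848) (nat_lit 76) (nat_lit 1200730229) (nat_lit 276) (nat_lit 5) (nat_lit 286) (nat_lit 5) (nat_lit 277) (nat_lit 5) (nat_lit 447) (nat_lit 407) (nat_lit 346)) (XT.nd (nat_lit 78) (nat_lit 0) (nat_lit 0)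 (XT.lf (nat_lit 0) (nat_lit 613710617) (nat_lit 608) (nat_lit 3240737978) (nat_lit 684) (nat_lit 6547877553) (nat_lit 268) (nat_lit 5) (nat_lit 276) (nat_lit 5) (nat_lit 277) (nat_lit 5) (nat_lit 448) (nat_lit 407) (nat_lit 345)) (XT.lf (nat_lit 0) (nat_lit 7803431029) (nat_lit 684) (nat_lit 15125767) (nat_lit 76) (nat_lit 2746862573) (nat_lit 268) (nat_lit 5) (nat_lit 277) (nat_lit 5) (nat_lit 269) (nat_lit 5) (nat_lit 449) (nat_lit 407) (nat_lit 344))))) (XT.nd (nat_lit 234) (nat_lit 1672) (nat_lit 0) (XT.nd (nat_lit 78) (nat_lit 1140) (nat_lit 0) (XT.lf (nat_lit 0) (nat_lit 1156348222) (nat_lit 684) (nat_lit 646402654) (nat_lit 76) (nat_lit 8929837551) (nat_lit 259) (nat_lit 5) (nat_lit 268) (nat_lit 5) (nat_lit 260) (nat_lit 5) (nat_lit 450) (nat_lit 407) (nat_lit 343)) (XT.nd (nat_lit 78) (nat_lit 608) (nat_lit 0) (XT.lf (nat_lit 0) (nat_lit 5193625153) (nat_lit 608) (nat_lit 1307368469) (nat_lit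 76) (nat_lit 4402641836) (nat_lit 252) (nat_lit 5) (nat_lit 260) (nat_lit 5) (nat_lit 253) (nat_lit 5) (nat_lit 451) (nat_lit 407) (nat_lit 342)) (XT.lf (nat_lit 0) (nat_lit 9115022486) (nat_lit 608) (nat_lit 260787532) (nat_lit 684) (nat_lit 1703534238) (nat_lit 244) (nat_lit 5) (nat_lit 252) (nat_lit 5) (nat_lit 253) (nat_lit 5) (nat_lit 452) (nat_lit 407) (nat_lit 341)))) (XT.nd (nat_lit 78) (nat_lit 1064) (nat_lit 0) (XT.lf (nat_lit 0) (nat_lit 2445703624) (nat_lit 608) (nat_lit 2662236195) (nat_lit 76) (nat_lit 6150988750) (nat_lit 236) (nat_lit 5) (nat_lit 244) (nat_lit 5) (nat_lit 237) (nat_lit 5) (nat_lit 453) (nat_lit 407) (nat_lit 340)) (XT.nd (nat_lit 78) (nat_lit 532) (nat_lit 0) (XT.lf (nat_lit 0) (nat_lit 6722756665) (nat_lit 608) (nat_lit 3368810264) (nat_lit 76) (nat_lit 1351584308) (nat_lit 229) (nat_lit 5) (nat_lit 237) (nat_lit 5) (nat_lit 230) (nat_lit 5) (nat_lit 454) (nat_lit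 407) (nat_lit 339)) (XT.lf (nat_lit 0) (nat_lit 7534495260) (nat_lit 532) (nat_lit 3645618364) (nat_lit 608) (nat_lit 451752633) (nat_lit 222) (nat_lit 5) (nat_lit 229) (nat_lit 5) (nat_lit 230) (nat_lit 5) (nat_lit 455) (nat_lit 407) (nat_lit 338))))))))
noncomputable def xc56 : XT := (XT.nd (nat_lit 1794) (nat_lit 2508) (nat_lit 0) (XT.nd (nat_lit 858) (nat_lit 4180) (nat_lit 0) (XT.nd (nat_lit 390) (nat_lit 2356) (nat_lit 0) (XT.nd (nat_lit 156) (nat_lit 1520) (nat_lit 0) (XT.nd (nat_lit 78) (nat_lit 456) (nat_lit 0) (XT.lf (nat_lit 0) (nat_lit 3932916688) (nat_lit 608) (nat_lit 4860740927) (nat_lit 76) (nat_lit 3031283962) (nat_lit 214) (nat_lit 5) (nat_lit 222) (nat_lit 5) (nat_lit 215) (nat_lit 5) (nat_lit 456) (nat_lit 407) (nat_lit 337)) (XT.lf (nat_lit 0) (nat_lit 6380259663) (nat_lit 456) (nat_lit 2108827693) (nat_lit 532) (nat_lit 3533745200) (nat_lit 208) (nat_lit 5) (nat_lit 214) (nat_lit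 5) (nat_lit 215) (nat_lit 5) (nat_lit 457) (nat_lit 407) (nat_lit 336))) (XT.nd (nat_lit 78) (nat_lit 912) (nat_lit 0) (XT.lf (nat_lit 0) (nat_lit 997948356) (nat_lit 608) (nat_lit 6454596654) (nat_lit 76) (nat_lit 4772892176) (nat_lit 200) (nat_lit 5) (nat_lit 208) (nat_lit 5) (nat_lit 201) (nat_lit 5) (nat_lit 458) (nat_lit 407) (nat_lit 335)) (XT.nd (nat_lit 78) (nat_lit 456) (nat_lit 0) (XT.lf (nat_lit 0) (nat_lit 5134310920) (nat_lit 456) (nat_lit 523262489) (nat_lit 532) (nat_lit 6775284287) (nat_lit 194) (nat_lit 5) (nat_lit 200) (nat_lit 5) (nat_lit 201) (nat_lit 5) (nat_lit 459) (nat_lit 407) (nat_lit 334)) (XT.lf (nat_lit 0) (nat_lit 4463623019) (nat_lit 456) (nat_lit 6063906754) (nat_lit 532) (nat_lit 2117564770) (nat_lit 188) (nat_lit 5) (nat_lit 194) (nat_lit 5) (nat_lit 195) (nat_lit 5) (nat_lit 460) (nat_lit 407) (nat_lit 333))))) (XT.nd (nat_lit 234) (nat_lit 988) (nat_lit 0) (XT.nd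 (nat_lit 78) (nat_lit 836) (nat_lit 0) (XT.lf (nat_lit 0) (nat_lit 2684911862) (nat_lit 532) (nat_lit 9090492316) (nat_lit 76) (nat_lit 1087147226) (nat_lit 181) (nat_lit 5) (nat_lit 188) (nat_lit 5) (nat_lit 182) (nat_lit 5) (nat_lit 461) (nat_lit 407) (nat_lit 332)) (XT.nd (nat_lit 78) (nat_lit 380) (nat_lit 0) (XT.lf (nat_lit 0) (nat_lit 3030892377) (nat_lit 456) (nat_lit 4643962991) (nat_lit 532) (nat_lit 5409957647) (nat_lit 175) (nat_lit 5) (nat_lit 181) (nat_lit 5) (nat_lit 182) (nat_lit 5) (nat_lit 462) (nat_lit 407) (nat_lit 331)) (XT.lf (nat_lit 0) (nat_lit 2275508334) (nat_lit 380) (nat_lit 10590008899) (nat_lit 456) (nat_lit 447208943) (nat_lit 170) (nat_lit 5) (nat_lit 175) (nat_lit 5) (nat_lit 176) (nat_lit 5) (nat_lit 463) (nat_lit 407) (nat_lit 330)))) (XT.nd (nat_lit 78) (nat_lit 456) (nat_lit 0) (XT.lf (nat_lit 0) (nat_lit 1459922829) (nat_lit 456) (nat_lit 3209703835) (nat_lit 532)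 (nat_lit 8875920700) (nat_lit 163) (nat_lit 5) (nat_lit 169) (nat_lit 5) (nat_lit 170) (nat_lit 5) (nat_lit 464) (nat_lit 407) (nat_lit 329)) (XT.nd (nat_lit 78) (nat_lit 76) (nat_lit 0) (XT.lf (nat_lit 0) (nat_lit 611791275) (nat_lit 380) (nat_lit 9387876565) (nat_lit 456) (nat_lit 3784314493) (nat_lit 158) (nat_lit 5) (nat_lit 163) (nat_lit 5) (nat_lit 164) (nat_lit 5) (nat_lit 465) (nat_lit 407) (nat_lit 328)) (XT.lf (nat_lit 0) (nat_lit 1503303538) (nat_lit 456) (nat_lit 266815655) (nat_lit 76) (nat_lit 12258016929) (nat_lit 157) (nat_lit 5) (nat_lit 163) (nat_lit 5) (nat_lit 158) (nat_lit 5) (nat_lit 466) (nat_lit 407) (nat_lit 327)))))) (XT.nd (nat_lit 468) (nat_lit 1900) (nat_lit 0) (XT.nd (nat_lit 234) (nat_lit 1064) (nat_lit 0) (XT.nd (nat_lit 78) (nat_lit 836) (nat_lit 0) (XT.lf (nat_lit 0) (nat_lit 6983320395) (nat_lit 456) (nat_lit 1207014009) (nat_lit 76) (nat_lit 6087079655) (nat_lit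 152) (nat_lit 5) (nat_lit 158) (nat_lit 5) (nat_lit 153) (nat_lit 5) (nat_lit 467) (nat_lit 407) (nat_lit 326)) (XT.nd (nat_lit 78) (nat_lit 456) (nat_lit 0) (XT.lf (nat_lit 0) (nat_lit 12366803341) (nat_lit 380) (nat_lit 315252100) (nat_lit 456) (nat_lit 1851031939) (nat_lit 147) (nat_lit 5) (nat_lit 152) (nat_lit 5) (nat_lit 153) (nat_lit 5) (nat_lit 468) (nat_lit 407) (nat_lit 325)) (XT.lf (nat_lit 0) (nat_lit 3801919454) (nat_lit 456) (nat_lit 3210315809) (nat_lit 76) (nat_lit 7781794246) (nat_lit 141) (nat_lit 5) (nat_lit 147) (nat_lit 5) (nat_lit 142) (nat_lit 5) (nat_lit 469) (nat_lit 407) (nat_lit 324)))) (XT.nd (nat_lit 78) (nat_lit 760) (nat_lit 0) (XT.lf (nat_lit 0) (nat_lit 9655173558) (nat_lit 380) (nat_lit 4288765718) (nat_lit 76) (nat_lit 1117501815) (nat_lit 137) (nat_lit 5) (nat_lit 142) (nat_lit 5) (nat_lit 138) (nat_lit 5) (nat_lit 470) (nat_lit 407) (nat_lit 323)) (XT.nd (nat_lit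 78) (nat_lit 304) (nat_lit 0) (XT.lf (nat_lit 0) (nat_lit 438423410) (nat_lit 456) (nat_lit 5431949355) (nat_lit 76) (nat_lit 9464543649) (nat_lit 131) (nat_lit 5) (nat_lit 137) (nat_lit 5) (nat_lit 132) (nat_lit 5) (nat_lit 471) (nat_lit 407) (nat_lit 322)) (XT.lf (nat_lit 0) (nat_lit 6452138472) (nat_lit 380) (nat_lit 6645949593) (nat_lit 76) (nat_lit 2516453458) (nat_lit 127) (nat_lit 5) (nat_lit 132) (nat_lit 5) (nat_lit 128) (nat_lit 5) (nat_lit 472) (nat_lit 407) (nat_lit 321))))) (XT.nd (nat_lit 234) (nat_lit 912) (nat_lit 0) (XT.nd (nat_lit 78) (nat_lit 684) (nat_lit 0) (XT.lf (nat_lit 0) (nat_lit 7980040475) (nat_lit 304) (nat_lit 4757484250) (nat_lit 380) (nat_lit 3163208289) (nat_lit 123) (nat_lit 5) (nat_lit 127) (nat_lit 5) (nat_lit 128) (nat_lit 5) (nat_lit 473) (nat_lit 407) (nat_lit 320)) (XT.nd (nat_lit 78) (nat_lit 304) (nat_lit 0) (XT.lf (nat_lit 0) (nat_lit 3055960621) (nat_lit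 380) (nat_lit 9265351911) (nat_lit 76) (nat_lit 3872217705) (nat_lit 118) (nat_lit 5) (nat_lit 123) (nat_lit 5) (nat_lit 119) (nat_lit 5) (nat_lit 474) (nat_lit 407) (nat_lit 319)) (XT.lf (nat_lit 0) (nat_lit 5801699113) (nat_lit 304) (nat_lit 3704928140) (nat_lit 380) (nat_lit 6986310589) (nat_lit 114) (nat_lit 5) (nat_lit 118) (nat_lit 5) (nat_lit 119) (nat_lit 5) (nat_lit 475) (nat_lit 407) (nat_lit 318)))) (XT.nd (nat_lit 78) (nat_lit 608) (nat_lit 0) (XT.lf (nat_lit 0) (nat_lit 4616491152) (nat_lit 304) (nat_lit 11625736781) (nat_lit 380) (nat_lit 557273994) (nat_lit 110) (nat_lit 5) (nat_lit 114) (nat_lit 5) (nat_lit 115) (nat_lit 5) (nat_lit 476) (nat_lit 407) (nat_lit 317)) (XT.nd (nat_lit 78) (nat_lit 228) (nat_lit 0) (XT.lf (nat_lit 0) (nat_lit 3338009382) (nat_lit 304) (nat_lit 2731563970) (nat_lit 380) (nat_lit 11043214908) (nat_lit 105) (nat_lit 5) (nat_lit 109) (nat_lit 5) (nat_lit 110)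 (nat_lit 5) (nat_lit 477) (nat_lit 407) (nat_lit 316)) (XT.lf (nat_lit 0) (nat_lit 1980824626) (nat_lit 228) (nat_lit 11010192572) (nat_lit 304) (nat_lit 4442317409) (nat_lit 102) (nat_lit 5) (nat_lit 105) (nat_lit 5) (nat_lit 106) (nat_lit 5) (nat_lit 478) (nat_lit 407) (nat_lit 315))))))) (XT.nd (nat_lit 57018) (nat_lit 0) (nat_lit 41648) (XT.nd (nat_lit 390) (nat_lit 1292) (nat_lit 0) (XT.nd (nat_lit 156) (nat_lit 836) (nat_lit 0) (XT.nd (nat_lit 78) (nat_lit 0) (nat_lit 0) (XT.lf (nat_lit 0) (nat_lit 552810381) (nat_lit 304) (nat_lit 1854731026) (nat_lit 380) (nat_lit 15354015315) (nat_lit 97) (nat_lit 5) (nat_lit 101) (nat_lit 5) (nat_lit 102) (nat_lit 5) (nat_lit 479) (nat_lit 407) (nat_lit 314)) (XT.lf (nat_lit 0) (nat_lit 9523987505) (nat_lit 380) (nat_lit 983194334) (nat_lit 76) (nat_lit 7589429645) (nat_lit 97) (nat_lit 5) (nat_lit 102) (nat_lit 5) (nat_lit 98) (nat_lit 5) (nat_lit 480) (nat_lit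 407) (nat_lit 313))) (XT.nd (nat_lit 78) (nat_lit 608) (nat_lit 0) (XT.lf (nat_lit 0) (nat_lit 15870610301) (nat_lit 228) (nat_lit 1066250132) (nat_lit 304) (nat_lit 1503200886) (nat_lit 94) (nat_lit 5) (nat_lit 97) (nat_lit 5) (nat_lit 98) (nat_lit 5) (nat_lit 481) (nat_lit 407) (nat_lit 312)) (XT.nd (nat_lit 78) (nat_lit 228) (nat_lit 0) (XT.lf (nat_lit 0) (nat_lit 5828556532) (nat_lit 380) (nat_lit 4299419929) (nat_lit 76) (nat_lit 8662569150) (nat_lit 89) (nat_lit 5) (nat_lit 94) (nat_lit 5) (nat_lit 90) (nat_lit 5) (nat_lit 482) (nat_lit 407) (nat_lit 311)) (XT.lf (nat_lit 0) (nat_lit 13047895806) (nat_lit 228) (nat_lit 389765135) (nat_lit 304) (nat_lit 5712130370) (nat_lit 86) (nat_lit 5) (nat_lit 89) (nat_lit 5) (nat_lit 90) (nat_lit 5) (nat_lit 483) (nat_lit 407) (nat_lit 310))))) (XT.nd (nat_lit 234) (nat_lit 532) (nat_lit 0) (XT.nd (nat_lit 78) (nat_lit 456) (nat_lit 0) (XT.lf (nat_lit 0)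 (nat_lit 1868389399) (nat_lit 304) (nat_lit 8039286557) (nat_lit 76) (nat_lit 9609188643) (nat_lit 82) (nat_lit 5) (nat_lit 86) (nat_lit 5) (nat_lit 83) (nat_lit 5) (nat_lit 484) (nat_lit 407) (nat_lit 309)) (XT.nd (nat_lit 78) (nat_lit 228) (nat_lit 0) (XT.lf (nat_lit 0) (nat_lit 9677072072) (nat_lit 304) (nat_lit 10084701864) (nat_lit 76) (nat_lit 130855741) (nat_lit 79) (nat_lit 5) (nat_lit 83) (nat_lit 5) (nat_lit 80) (nat_lit 5) (nat_lit 485) (nat_lit 407) (nat_lit 308)) (XT.lf (nat_lit 0) (nat_lit 8008224894) (nat_lit 228) (nat_lit 9854438894) (nat_lit 304) (nat_lit 2414152689) (nat_lit 76) (nat_lit 5) (nat_lit 79) (nat_lit 5) (nat_lit 80) (nat_lit 5) (nat_lit 486) (nat_lit 407) (nat_lit 307)))) (XT.nd (nat_lit 78) (nat_lit 228) (nat_lit 0) (XT.lf (nat_lit 0) (nat_lit 5628983826) (nat_lit 304) (nat_lit 14571191617) (nat_lit 76) (nat_lit 469996875) (nat_lit 72) (nat_lit 5) (nat_lit 76) (nat_lit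 5) (nat_lit 73) (nat_lit 5) (nat_lit 487) (nat_lit 407) (nat_lit 306)) (XT.nd (nat_lit 56238) (nat_lit 0) (nat_lit 47500) (XT.lf (nat_lit 0) (nat_lit 4030737908) (nat_lit 228) (nat_lit 9996141977) (nat_lit 304) (nat_lit 7045206120) (nat_lit 69) (nat_lit 5) (nat_lit 72) (nat_lit 5) (nat_lit 73) (nat_lit 5) (nat_lit 488) (nat_lit 407) (nat_lit 305)) (XT.lf (nat_lit 0) (nat_lit 2427504483) (nat_lit 836) (nat_lit 464847539) (nat_lit 836) (nat_lit 464847539) (nat_lit 694) (nat_lit 3) (nat_lit 705) (nat_lit 3) (nat_lit 705) (nat_lit 5) (nat_lit 408) (nat_lit 408) (nat_lit 384)))))) (XT.nd (nat_lit 468) (nat_lit 3192) (nat_lit 0) (XT.nd (nat_lit 234) (nat_lit 912) (nat_lit 0) (XT.nd (nat_lit 78) (nat_lit 912) (nat_lit 0) (XT.lf (nat_lit 0) (nat_lit 1383283904) (nat_lit 836) (nat_lit 2690014091) (nat_lit 912) (nat_lit 2676419284) (nat_lit 683) (nat_lit 5) (nat_lit 694) (nat_lit 3) (nat_lit 695) (nat_lit 5)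 (nat_lit 409) (nat_lit 408) (nat_lit 383)) (XT.nd (nat_lit 78) (nat_lit 912) (nat_lit 0) (XT.lf (nat_lit 76) (nat_lit 2378049572) (nat_lit 0) (nat_lit 2215793620) (nat_lit 912) (nat_lit 2194117000) (nat_lit 684) (nat_lit 5) (nat_lit 683) (nat_lit 5) (nat_lit 695) (nat_lit 5) (nat_lit 410) (nat_lit 408) (nat_lit 382)) (XT.lf (nat_lit 76) (nat_lit 743857643) (nat_lit 0) (nat_lit 214962112) (nat_lit 988) (nat_lit 5870427683) (nat_lit 672) (nat_lit 5) (nat_lit 671) (nat_lit 5) (nat_lit 684) (nat_lit 5) (nat_lit 411) (nat_lit 408) (nat_lit 381)))) (XT.nd (nat_lit 78) (nat_lit 988) (nat_lit 0) (XT.lf (nat_lit 0) (nat_lit 4098650639) (nat_lit 912) (nat_lit 853935462) (nat_lit 988) (nat_lit 1920481035) (nat_lit 672) (nat_lit 5) (nat_lit 684) (nat_lit 5) (nat_lit 685) (nat_lit 5) (nat_lit 412) (nat_lit 408) (nat_lit 380)) (XT.nd (nat_lit 78) (nat_lit 0) (nat_lit 0) (XT.lf (nat_lit 0) (nat_lit 322646875) (nat_lit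 988) (nat_lit 2396194241) (nat_lit 1064) (nat_lit 4201059278) (nat_lit 659) (nat_lit 5) (nat_lit 672) (nat_lit 5) (nat_lit 673) (nat_lit 5) (nat_lit 413) (nat_lit 408) (nat_lit 379)) (XT.lf (nat_lit 76) (nat_lit 3060918216) (nat_lit 0) (nat_lit 325497186) (nat_lit 1064) (nat_lit 3583150954) (nat_lit 660) (nat_lit 5) (nat_lit 659) (nat_lit 5) (nat_lit 673) (nat_lit 5) (nat_lit 414) (nat_lit 408) (nat_lit 378))))) (XT.nd (nat_lit 234) (nat_lit 2204) (nat_lit 0) (XT.nd (nat_lit 78) (nat_lit 1064) (nat_lit 0) (XT.lf (nat_lit 76) (nat_lit 1633124472) (nat_lit 0) (nat_lit 4838587487) (nat_lit 1064) (nat_lit 550441550) (nat_lit 661) (nat_lit 5) (nat_lit 660) (nat_lit 5) (nat_lit 674) (nat_lit 5) (nat_lit 415) (nat_lit 408) (nat_lit 377)) (XT.nd (nat_lit 78) (nat_lit 0) (nat_lit 76) (XT.lf (nat_lit 76) (nat_lit 234070968) (nat_lit 0) (nat_lit 2226624264) (nat_lit 1140) (nat_lit 4616887387) (nat_lit 647) (nat_lit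 5) (nat_lit 646) (nat_lit 5) (nat_lit 661) (nat_lit 5) (nat_lit 416) (nat_lit 408) (nat_lit 376)) (XT.lf (nat_lit 0) (nat_lit 5488328783) (nat_lit 1064) (nat_lit 1111336781) (nat_lit 1140) (nat_lit 536285177) (nat_lit 647) (nat_lit 5) (nat_lit 661) (nat_lit 5) (nat_lit 662) (nat_lit 5) (nat_lit 417) (nat_lit 408) (nat_lit 375)))) (XT.nd (nat_lit 78) (nat_lit 1140) (nat_lit 0) (XT.lf (nat_lit 0) (nat_lit 1334616826) (nat_lit 1140) (nat_lit 2433558341) (nat_lit 1216) (nat_lit 3428884290) (nat_lit 632) (nat_lit 5) (nat_lit 647) (nat_lit 5) (nat_lit 648) (nat_lit 5) (nat_lit 418) (nat_lit 408) (nat_lit 374)) (XT.nd (nat_lit 78) (nat_lit 1140) (nat_lit 0) (XT.lf (nat_lit 76) (nat_lit 3536956657) (nat_lit 0) (nat_lit 776456251) (nat_lit 1216) (nat_lit 2947801294) (nat_lit 633) (nat_lit 5) (nat_lit 632) (nat_lit 5) (nat_lit 648) (nat_lit 5) (nat_lit 419) (nat_lit 408) (nat_lit 373)) (XT.lf (nat_lit 0) (nat_lit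 1476254) (nat_lit 1216) (nat_lit 4989217606) (nat_lit 1292) (nat_lit 2337653615) (nat_lit 617) (nat_lit 5) (nat_lit 633) (nat_lit 5) (nat_lit 634) (nat_lit 5) (nat_lit 420) (nat_lit 408) (nat_lit 372))))))))
noncomputable def xc57 : XT := (XT.nd (nat_lit 1794) (nat_lit 12996) (nat_lit 0) (XT.nd (nat_lit 858) (nat_lit 10260) (nat_lit 0) (XT.nd (nat_lit 390) (nat_lit 8208) (nat_lit 0) (XT.nd (nat_lit 156) (nat_lit 2736) (nat_lit 0) (XT.nd (nat_lit 78) (nat_lit 1140) (nat_lit 0) (XT.lf (nat_lit 76) (nat_lit 1158958439) (nat_lit 0) (nat_lit 1781862324) (nat_lit 1292) (nat_lit 4457470086) (nat_lit 618) (nat_lit 5) (nat_lit 617) (nat_lit 5) (nat_lit 634) (nat_lit 5) (nat_lit 421) (nat_lit 408) (nat_lit 371)) (XT.lf (nat_lit 0) (nat_lit 9710353) (nat_lit 1216) (nat_lit 5908449409) (nat_lit 1292) (nat_lit 1553194494) (nat_lit 602) (nat_lit 5) (nat_lit 618) (nat_lit 5) (nat_lit 619) (nat_lit 5) (nat_lit 422)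 (nat_lit 408) (nat_lit 370))) (XT.nd (nat_lit 78) (nat_lit 2660) (nat_lit 0) (XT.lf (nat_lit 0) (nat_lit 1381318314) (nat_lit 1292) (nat_lit 1106290761) (nat_lit 76) (nat_lit 5059591457) (nat_lit 601) (nat_lit 5) (nat_lit 618) (nat_lit 5) (nat_lit 602) (nat_lit 5) (nat_lit 423) (nat_lit 408) (nat_lit 369)) (XT.nd (nat_lit 78) (nat_lit 1368) (nat_lit 0) (XT.lf (nat_lit 0) (nat_lit 4335508795) (nat_lit 1368) (nat_lit 2201375088) (nat_lit 76) (nat_lit 1089194745) (nat_lit 584) (nat_lit 5) (nat_lit 602) (nat_lit 5) (nat_lit 585) (nat_lit 5) (nat_lit 424) (nat_lit 408) (nat_lit 368)) (XT.lf (nat_lit 0) (nat_lit 4431681807) (nat_lit 1368) (nat_lit 2912097307) (nat_lit 1444) (nat_lit 364251035) (nat_lit 566) (nat_lit 5) (nat_lit 584) (nat_lit 5) (nat_lit 585) (nat_lit 5) (nat_lit 425) (nat_lit 408) (nat_lit 367))))) (XT.nd (nat_lit 234) (nat_lit 3496) (nat_lit 0) (XT.nd (nat_lit 78) (nat_lit 3192) (nat_lit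 0) (XT.lf (nat_lit 0) (nat_lit 2572413793) (nat_lit 1520) (nat_lit 4338468213) (nat_lit 76) (nat_lit 882083305) (nat_lit 546) (nat_lit 5) (nat_lit 566) (nat_lit 5) (nat_lit 547) (nat_lit 5) (nat_lit 426) (nat_lit 408) (nat_lit 366)) (XT.nd (nat_lit 78) (nat_lit 1672) (nat_lit 0) (XT.lf (nat_lit 0) (nat_lit 2492690511) (nat_lit 1520) (nat_lit 3073760764) (nat_lit 1596) (nat_lit 2314479606) (nat_lit 526) (nat_lit 5) (nat_lit 546) (nat_lit 5) (nat_lit 547) (nat_lit 5) (nat_lit 427) (nat_lit 408) (nat_lit 365)) (XT.lf (nat_lit 0) (nat_lit 633314086) (nat_lit 1672) (nat_lit 6415296811) (nat_lit 76) (nat_lit 923581760) (nat_lit 504) (nat_lit 5) (nat_lit 526) (nat_lit 5) (nat_lit 505) (nat_lit 5) (nat_lit 428) (nat_lit 408) (nat_lit 364)))) (XT.nd (nat_lit 78) (nat_lit 1824) (nat_lit 0) (XT.lf (nat_lit 0) (nat_lit 619946349) (nat_lit 1672) (nat_lit 2999315128) (nat_lit 1748) (nat_lit 4447015346) (nat_lit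 482) (nat_lit 5) (nat_lit 504) (nat_lit 5) (nat_lit 505) (nat_lit 5) (nat_lit 429) (nat_lit 408) (nat_lit 363)) (XT.nd (nat_lit 78) (nat_lit 1824) (nat_lit 0) (XT.lf (nat_lit 0) (nat_lit 6667751533) (nat_lit 1748) (nat_lit 287231600) (nat_lit 76) (nat_lit 1208754498) (nat_lit 482) (nat_lit 5) (nat_lit 505) (nat_lit 5) (nat_lit 483) (nat_lit 5) (nat_lit 430) (nat_lit 408) (nat_lit 362)) (XT.lf (nat_lit 0) (nat_lit 1513226859) (nat_lit 1824) (nat_lit 1183728420) (nat_lit 76) (nat_lit 5567181360) (nat_lit 458) (nat_lit 5) (nat_lit 482) (nat_lit 5) (nat_lit 459) (nat_lit 5) (nat_lit 431) (nat_lit 408) (nat_lit 361)))))) (XT.nd (nat_lit 468) (nat_lit 3952) (nat_lit 0) (XT.nd (nat_lit 234) (nat_lit 2660) (nat_lit 0) (XT.nd (nat_lit 78) (nat_lit 1976) (nat_lit 0) (XT.lf (nat_lit 0) (nat_lit 4571938449) (nat_lit 1748) (nat_lit 2070022512) (nat_lit 76) (nat_lit 1725810334) (nat_lit 436) (nat_lit 5) (nat_lit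 459) (nat_lit 5) (nat_lit 437) (nat_lit 5) (nat_lit 432) (nat_lit 408) (nat_lit 360)) (XT.nd (nat_lit 78) (nat_lit 988) (nat_lit 0) (XT.lf (nat_lit 0) (nat_lit 5530673721) (nat_lit 988) (nat_lit 2180684452) (nat_lit 1064) (nat_lit 763389905) (nat_lit 423) (nat_lit 5) (nat_lit 436) (nat_lit 5) (nat_lit 437) (nat_lit 5) (nat_lit 433) (nat_lit 408) (nat_lit 359)) (XT.lf (nat_lit 0) (nat_lit 2318460758) (nat_lit 988) (nat_lit 3820039185) (nat_lit 76) (nat_lit 2446351478) (nat_lit 410) (nat_lit 5) (nat_lit 423) (nat_lit 5) (nat_lit 411) (nat_lit 5) (nat_lit 434) (nat_lit 408) (nat_lit 358)))) (XT.nd (nat_lit 78) (nat_lit 1748) (nat_lit 0) (XT.lf (nat_lit 0) (nat_lit 4010744117) (nat_lit 912) (nat_lit 1462211502) (nat_lit 988) (nat_lit 3225401233) (nat_lit 398) (nat_lit 5) (nat_lit 410) (nat_lit 5) (nat_lit 411) (nat_lit 5) (nat_lit 435) (nat_lit 408) (nat_lit 357)) (XT.nd (nat_lit 78) (nat_lit 912) (nat_lit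 0) (XT.lf (nat_lit 0) (nat_lit 3265162808) (nat_lit 836) (nat_lit 5457356540) (nat_lit 912) (nat_lit 92750205) (nat_lit 387) (nat_lit 5) (nat_lit 398) (nat_lit 5) (nat_lit 399) (nat_lit 5) (nat_lit 436) (nat_lit 408) (nat_lit 356)) (XT.lf (nat_lit 0) (nat_lit 2518854016) (nat_lit 836) (nat_lit 564529534) (nat_lit 912) (nat_lit 5852097316) (nat_lit 375) (nat_lit 5) (nat_lit 386) (nat_lit 5) (nat_lit 387) (nat_lit 5) (nat_lit 437) (nat_lit 408) (nat_lit 355))))) (XT.nd (nat_lit 234) (nat_lit 1520) (nat_lit 0) (XT.nd (nat_lit 78) (nat_lit 1672) (nat_lit 0) (XT.lf (nat_lit 0) (nat_lit 1770945508) (nat_lit 760) (nat_lit 4595018500) (nat_lit 836) (nat_lit 2693083762) (nat_lit 365) (nat_lit 5) (nat_lit 375) (nat_lit 5) (nat_lit 376) (nat_lit 5) (nat_lit 438) (nat_lit 408) (nat_lit 354)) (XT.nd (nat_lit 78) (nat_lit 760) (nat_lit 0) (XT.lf (nat_lit 0) (nat_lit 545956464) (nat_lit 912) (nat_lit 8146625208)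 (nat_lit 76) (nat_lit 493824489) (nat_lit 353) (nat_lit 5) (nat_lit 365) (nat_lit 5) (nat_lit 354) (nat_lit 5) (nat_lit 439) (nat_lit 408) (nat_lit 353)) (XT.lf (nat_lit 0) (nat_lit 285817452) (nat_lit 760) (nat_lit 3578730679) (nat_lit 836) (nat_lit 5452310986) (nat_lit 343) (nat_lit 5) (nat_lit 353) (nat_lit 5) (nat_lit 354) (nat_lit 5) (nat_lit 440) (nat_lit 408) (nat_lit 352)))) (XT.nd (nat_lit 78) (nat_lit 1520) (nat_lit 0) (XT.lf (nat_lit 0) (nat_lit 7287058085) (nat_lit 836) (nat_lit 448316471) (nat_lit 76) (nat_lit 1715772839) (nat_lit 343) (nat_lit 5) (nat_lit 354) (nat_lit 5) (nat_lit 344) (nat_lit 5) (nat_lit 441) (nat_lit 408) (nat_lit 351)) (XT.nd (nat_lit 78) (nat_lit 684) (nat_lit 0) (XT.lf (nat_lit 0) (nat_lit 1225032734) (nat_lit 836) (nat_lit 1186487699) (nat_lit 76) (nat_lit 7177427806) (nat_lit 332) (nat_lit 5) (nat_lit 343) (nat_lit 5) (nat_lit 333) (nat_lit 5) (nat_lit 442) (nat_lit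 408) (nat_lit 350)) (XT.lf (nat_lit 0) (nat_lit 4701304037) (nat_lit 760) (nat_lit 1936272433) (nat_lit 76) (nat_lit 3092731270) (nat_lit 323) (nat_lit 5) (nat_lit 333) (nat_lit 5) (nat_lit 324) (nat_lit 5) (nat_lit 443) (nat_lit 408) (nat_lit 349))))))) (XT.nd (nat_lit 936) (nat_lit 5852) (nat_lit 0) (XT.nd (nat_lit 468) (nat_lit 2964) (nat_lit 0) (XT.nd (nat_lit 234) (nat_lit 1976) (nat_lit 0) (XT.nd (nat_lit 78) (nat_lit 1444) (nat_lit 0) (XT.lf (nat_lit 0) (nat_lit 7195342967) (nat_lit 760) (nat_lit 1099272318) (nat_lit 836) (nat_lit 1581045729) (nat_lit 313) (nat_lit 5) (nat_lit 323) (nat_lit 5) (nat_lit 324) (nat_lit 5) (nat_lit 444) (nat_lit 408) (nat_lit 348)) (XT.nd (nat_lit 78) (nat_lit 684) (nat_lit 0) (XT.lf (nat_lit 0) (nat_lit 1973616079) (nat_lit 760) (nat_lit 3446335324) (nat_lit 76) (nat_lit 4604593133) (nat_lit 303) (nat_lit 5) (nat_lit 313) (nat_lit 5) (nat_lit 304) (nat_lit 5) (nat_lit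 445) (nat_lit 408) (nat_lit 347)) (XT.lf (nat_lit 0) (nat_lit 5624047962) (nat_lit 760) (nat_lit 4212872187) (nat_lit 76) (nat_lit 340560608) (nat_lit 294) (nat_lit 5) (nat_lit 304) (nat_lit 5) (nat_lit 295) (nat_lit 5) (nat_lit 446) (nat_lit 408) (nat_lit 346)))) (XT.nd (nat_lit 78) (nat_lit 1368) (nat_lit 0) (XT.lf (nat_lit 0) (nat_lit 5337199022) (nat_lit 608) (nat_lit 4086208171) (nat_lit 684) (nat_lit 910816782) (nat_lit 286) (nat_lit 5) (nat_lit 294) (nat_lit 5) (nat_lit 295) (nat_lit 5) (nat_lit 447) (nat_lit 408) (nat_lit 345)) (XT.nd (nat_lit 78) (nat_lit 608) (nat_lit 0) (XT.lf (nat_lit 0) (nat_lit 2821333896) (nat_lit 760) (nat_lit 5794606934) (nat_lit 76) (nat_lit 1879016242) (nat_lit 276) (nat_lit 5) (nat_lit 286) (nat_lit 5) (nat_lit 277) (nat_lit 5) (nat_lit 448) (nat_lit 408) (nat_lit 344)) (XT.lf (nat_lit 0) (nat_lit 4050225857) (nat_lit 608) (nat_lit 2637519199) (nat_lit 684) (nat_lit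 3971959940) (nat_lit 268) (nat_lit 5) (nat_lit 276) (nat_lit 5) (nat_lit 277) (nat_lit 5) (nat_lit 449) (nat_lit 408) (nat_lit 343))))) (XT.nd (nat_lit 234) (nat_lit 1140) (nat_lit 0) (XT.nd (nat_lit 78) (nat_lit 1216) (nat_lit 0) (XT.lf (nat_lit 0) (nat_lit 3396192357) (nat_lit 608) (nat_lit 7306314975) (nat_lit 684) (nat_lit 126247310) (nat_lit 260) (nat_lit 5) (nat_lit 268) (nat_lit 5) (nat_lit 269) (nat_lit 5) (nat_lit 450) (nat_lit 408) (nat_lit 342)) (XT.nd (nat_lit 78) (nat_lit 608) (nat_lit 0) (XT.lf (nat_lit 0) (nat_lit 2717374866) (nat_lit 532) (nat_lit 1096208666) (nat_lit 608) (nat_lit 7188219600) (nat_lit 252) (nat_lit 5) (nat_lit 259) (nat_lit 5) (nat_lit 260) (nat_lit 5) (nat_lit 451) (nat_lit 408) (nat_lit 341)) (XT.lf (nat_lit 0) (nat_lit 2019607435) (nat_lit 608) (nat_lit 5898174618) (nat_lit 684) (nat_lit 3261292542) (nat_lit 244) (nat_lit 5) (nat_lit 252) (nat_lit 5) (nat_lit 253)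 (nat_lit 5) (nat_lit 452) (nat_lit 408) (nat_lit 340)))) (XT.nd (nat_lit 78) (nat_lit 532) (nat_lit 0) (XT.lf (nat_lit 0) (nat_lit 799410960) (nat_lit 608) (nat_lit 10039738284) (nat_lit 76) (nat_lit 521894037) (nat_lit 236) (nat_lit 5) (nat_lit 244) (nat_lit 5) (nat_lit 237) (nat_lit 5) (nat_lit 453) (nat_lit 408) (nat_lit 339)) (XT.nd (nat_lit 78) (nat_lit 0) (nat_lit 0) (XT.lf (nat_lit 0) (nat_lit 575313362) (nat_lit 532) (nat_lit 4419517871) (nat_lit 608) (nat_lit 6552070090) (nat_lit 229) (nat_lit 5) (nat_lit 236) (nat_lit 5) (nat_lit 237) (nat_lit 5) (nat_lit 454) (nat_lit 408) (nat_lit 338)) (XT.lf (nat_lit 0) (nat_lit 9351022609) (nat_lit 608) (nat_lit 170428386) (nat_lit 76) (nat_lit 2216191297) (nat_lit 229) (nat_lit 5) (nat_lit 237) (nat_lit 5) (nat_lit 230) (nat_lit 5) (nat_lit 455) (nat_lit 408) (nat_lit 337)))))) (XT.nd (nat_lit 468) (nat_lit 2660) (nat_lit 0) (XT.nd (nat_lit 234) (nat_lit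 1596) (nat_lit 0) (XT.nd (nat_lit 78) (nat_lit 988) (nat_lit 0) (XT.lf (nat_lit 0) (nat_lit 1933780087) (nat_lit 608) (nat_lit 939294260) (nat_lit 76) (nat_lit 9059689939) (nat_lit 221) (nat_lit 5) (nat_lit 229) (nat_lit 5) (nat_lit 222) (nat_lit 5) (nat_lit 456) (nat_lit 408) (nat_lit 336)) (XT.nd (nat_lit 78) (nat_lit 456) (nat_lit 0) (XT.lf (nat_lit 0) (nat_lit 6400843183) (nat_lit 608) (nat_lit 1740349280) (nat_lit 76) (nat_lit 3991247392) (nat_lit 214) (nat_lit 5) (nat_lit 222) (nat_lit 5) (nat_lit 215) (nat_lit 5) (nat_lit 457) (nat_lit 408) (nat_lit 335)) (XT.lf (nat_lit 0) (nat_lit 9784890888) (nat_lit 456) (nat_lit 1261225635) (nat_lit 532) (nat_lit 1291110005) (nat_lit 208) (nat_lit 5) (nat_lit 214) (nat_lit 5) (nat_lit 215) (nat_lit 5) (nat_lit 458) (nat_lit 408) (nat_lit 334)))) (XT.nd (nat_lit 78) (nat_lit 988) (nat_lit 0) (XT.lf (nat_lit 0) (nat_lit 3304920551) (nat_lit 608) (nat_lit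 3416927159) (nat_lit 76) (nat_lit 5824579788) (nat_lit 200) (nat_lit 5) (nat_lit 208) (nat_lit 5) (nat_lit 201) (nat_lit 5) (nat_lit 459) (nat_lit 408) (nat_lit 333)) (XT.nd (nat_lit 78) (nat_lit 532) (nat_lit 0) (XT.lf (nat_lit 0) (nat_lit 8061305118) (nat_lit 532) (nat_lit 4296420221) (nat_lit 76) (nat_lit 403212630) (nat_lit 194) (nat_lit 5) (nat_lit 201) (nat_lit 5) (nat_lit 195) (nat_lit 5) (nat_lit 460) (nat_lit 408) (nat_lit 332)) (XT.lf (nat_lit 0) (nat_lit 55137593) (nat_lit 532) (nat_lit 5217819705) (nat_lit 76) (nat_lit 7707406313) (nat_lit 187) (nat_lit 5) (nat_lit 194) (nat_lit 5) (nat_lit 188) (nat_lit 5) (nat_lit 461) (nat_lit 408) (nat_lit 331))))) (XT.nd (nat_lit 234) (nat_lit 1292) (nat_lit 0) (XT.nd (nat_lit 78) (nat_lit 912) (nat_lit 0) (XT.lf (nat_lit 0) (nat_lit 4935549201) (nat_lit 532) (nat_lit 6182982063) (nat_lit 76) (nat_lit 2086286616) (nat_lit 181) (nat_lit 5) (nat_lit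 188) (nat_lit 5) (nat_lit 182) (nat_lit 5) (nat_lit 462) (nat_lit 408) (nat_lit 330)) (XT.nd (nat_lit 78) (nat_lit 456) (nat_lit 0) (XT.lf (nat_lit 0) (nat_lit 6250448798) (nat_lit 456) (nat_lit 3781848849) (nat_lit 532) (nat_lit 3402313627) (nat_lit 175) (nat_lit 5) (nat_lit 181) (nat_lit 5) (nat_lit 182) (nat_lit 5) (nat_lit 463) (nat_lit 408) (nat_lit 329)) (XT.lf (nat_lit 0) (nat_lit 1651229578) (nat_lit 456) (nat_lit 8223638583) (nat_lit 76) (nat_lit 3794990882) (nat_lit 169) (nat_lit 5) (nat_lit 175) (nat_lit 5) (nat_lit 170) (nat_lit 5) (nat_lit 464) (nat_lit 408) (nat_lit 328)))) (XT.nd (nat_lit 78) (nat_lit 836) (nat_lit 0) (XT.lf (nat_lit 0) (nat_lit 4594455192) (nat_lit 456) (nat_lit 2279806603) (nat_lit 532) (nat_lit 7036174209) (nat_lit 163) (nat_lit 5) (nat_lit 169) (nat_lit 5) (nat_lit 170) (nat_lit 5) (nat_lit 465) (nat_lit 408) (nat_lit 327)) (XT.nd (nat_lit 78) (nat_lit 456) (nat_lit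 0) (XT.lf (nat_lit 0) (nat_lit 3704986446) (nat_lit 380) (nat_lit 8625517889) (nat_lit 456) (nat_lit 1826199126) (nat_lit 158) (nat_lit 5) (nat_lit 163) (nat_lit 5) (nat_lit 164) (nat_lit 5) (nat_lit 466) (nat_lit 408) (nat_lit 326)) (XT.lf (nat_lit 0) (nat_lit 2773387606) (nat_lit 380) (nat_lit 777948707) (nat_lit 456) (nat_lit 10857412544) (nat_lit 152) (nat_lit 5) (nat_lit 157) (nat_lit 5) (nat_lit 158) (nat_lit 5) (nat_lit 467) (nat_lit 408) (nat_lit 325))))))))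
noncomputable def xc58 : XT := (XT.nd (nat_lit 57954) (nat_lit 0) (nat_lit 27892) (XT.nd (nat_lit 858) (nat_lit 2736) (nat_lit 0) (XT.nd (nat_lit 390) (nat_lit 1976) (nat_lit 0) (XT.nd (nat_lit 156) (nat_lit 760) (nat_lit 0) (XT.nd (nat_lit 78) (nat_lit 456) (nat_lit 0) (XT.lf (nat_lit 0) (nat_lit 1775526845) (nat_lit 380) (nat_lit 7381772789) (nat_lit 456) (nat_lit 5508979607) (nat_lit 147) (nat_lit 5) (nat_lit 152) (nat_lit 5) (nat_lit 153) (nat_lit 5) (nat_lit 468) (nat_lit 408) (nat_lit 324)) (XT.lf (nat_lit 0) (nat_lit 56072567) (nat_lit 456) (nat_lit 14171360294) (nat_lit 76) (nat_lit 702982533) (nat_lit 141) (nat_lit 5) (nat_lit 147) (nat_lit 5) (nat_lit 142) (nat_lit 5) (nat_lit 469) (nat_lit 408) (nat_lit 323))) (XT.nd (nat_lit 78) (nat_lit 760) (nat_lit 0) (XT.lf (nat_lit 0) (nat_lit 5813564824) (nat_lit 456) (nat_lit 350941613) (nat_lit 76) (nat_lit 9035237279) (nat_lit 141) (nat_lit 5)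 (nat_lit 147) (nat_lit 5) (nat_lit 142) (nat_lit 5) (nat_lit 470) (nat_lit 408) (nat_lit 322)) (XT.nd (nat_lit 78) (nat_lit 456) (nat_lit 0) (XT.lf (nat_lit 0) (nat_lit 11812820716) (nat_lit 380) (nat_lit 1479117913) (nat_lit 76) (nat_lit 2183835444) (nat_lit 137) (nat_lit 5) (nat_lit 142) (nat_lit 5) (nat_lit 138) (nat_lit 5) (nat_lit 471) (nat_lit 408) (nat_lit 321)) (XT.lf (nat_lit 0) (nat_lit 2296207384) (nat_lit 456) (nat_lit 2679610314) (nat_lit 76) (nat_lit 10782110414) (nat_lit 131) (nat_lit 5) (nat_lit 137) (nat_lit 5) (nat_lit 132) (nat_lit 5) (nat_lit 472) (nat_lit 408) (nat_lit 320))))) (XT.nd (nat_lit 234) (nat_lit 988) (nat_lit 0) (XT.nd (nat_lit 78) (nat_lit 684) (nat_lit 0) (XT.lf (nat_lit 0) (nat_lit 8462100057) (nat_lit 380) (nat_lit 3947870623) (nat_lit 76) (nat_lit 3636540144) (nat_lit 127) (nat_lit 5) (nat_lit 132) (nat_lit 5) (nat_lit 128) (nat_lit 5) (nat_lit 473) (nat_lit 408)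 (nat_lit 319)) (XT.nd (nat_lit 78) (nat_lit 380) (nat_lit 0) (XT.lf (nat_lit 0) (nat_lit 11069891343) (nat_lit 304) (nat_lit 3831758784) (nat_lit 380) (nat_lit 1440329935) (nat_lit 123) (nat_lit 5) (nat_lit 127) (nat_lit 5) (nat_lit 128) (nat_lit 5) (nat_lit 474) (nat_lit 408) (nat_lit 318)) (XT.lf (nat_lit 0) (nat_lit 4914615477) (nat_lit 380) (nat_lit 6687127347) (nat_lit 76) (nat_lit 5042125350) (nat_lit 118) (nat_lit 5) (nat_lit 123) (nat_lit 5) (nat_lit 119) (nat_lit 5) (nat_lit 475) (nat_lit 408) (nat_lit 317)))) (XT.nd (nat_lit 78) (nat_lit 684) (nat_lit 0) (XT.lf (nat_lit 0) (nat_lit 8785596997) (nat_lit 304) (nat_lit 2739983179) (nat_lit 380) (nat_lit 5427346012) (nat_lit 114) (nat_lit 5) (nat_lit 118) (nat_lit 5) (nat_lit 119) (nat_lit 5) (nat_lit 476) (nat_lit 408) (nat_lit 316)) (XT.nd (nat_lit 78) (nat_lit 304) (nat_lit 0) (XT.lf (nat_lit 0) (nat_lit 1153132322) (nat_lit 380) (nat_lit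 9730180795) (nat_lit 76) (nat_lit 6385737770) (nat_lit 109) (nat_lit 5) (nat_lit 114) (nat_lit 5) (nat_lit 110) (nat_lit 5) (nat_lit 477) (nat_lit 408) (nat_lit 315)) (XT.lf (nat_lit 0) (nat_lit 6207079792) (nat_lit 304) (nat_lit 1732069681) (nat_lit 380) (nat_lit 9653157412) (nat_lit 105) (nat_lit 5) (nat_lit 109) (nat_lit 5) (nat_lit 110) (nat_lit 5) (nat_lit 478) (nat_lit 408) (nat_lit 314)))))) (XT.nd (nat_lit 468) (nat_lit 1292) (nat_lit 0) (XT.nd (nat_lit 234) (nat_lit 608) (nat_lit 0) (XT.nd (nat_lit 78) (nat_lit 608) (nat_lit 0) (XT.lf (nat_lit 0) (nat_lit 4790664976) (nat_lit 228) (nat_lit 10253095945) (nat_lit 304) (nat_lit 2879201573) (nat_lit 102) (nat_lit 5) (nat_lit 105) (nat_lit 5) (nat_lit 106) (nat_lit 5) (nat_lit 479) (nat_lit 408) (nat_lit 313)) (XT.nd (nat_lit 78) (nat_lit 228) (nat_lit 0) (XT.lf (nat_lit 0) (nat_lit 3297183437) (nat_lit 304) (nat_lit 825670515) (nat_lit 380) (nat_lit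 14138581247) (nat_lit 97) (nat_lit 5) (nat_lit 101) (nat_lit 5) (nat_lit 102) (nat_lit 5) (nat_lit 480) (nat_lit 408) (nat_lit 312)) (XT.lf (nat_lit 0) (nat_lit 1682890333) (nat_lit 228) (nat_lit 9739810140) (nat_lit 304) (nat_lit 7184446092) (nat_lit 94) (nat_lit 5) (nat_lit 97) (nat_lit 5) (nat_lit 98) (nat_lit 5) (nat_lit 481) (nat_lit 408) (nat_lit 311)))) (XT.nd (nat_lit 78) (nat_lit 228) (nat_lit 0) (XT.lf (nat_lit 0) (nat_lit 14984704) (nat_lit 304) (nat_lit 40116056) (nat_lit 380) (nat_lit 18906603204) (nat_lit 89) (nat_lit 5) (nat_lit 93) (nat_lit 5) (nat_lit 94) (nat_lit 5) (nat_lit 482) (nat_lit 408) (nat_lit 310)) (XT.nd (nat_lit 78) (nat_lit 228) (nat_lit 0) (XT.lf (nat_lit 0) (nat_lit 7564081410) (nat_lit 380) (nat_lit 1795820174) (nat_lit 76) (nat_lit 9963051482) (nat_lit 89) (nat_lit 5) (nat_lit 94) (nat_lit 5) (nat_lit 90) (nat_lit 5) (nat_lit 483) (nat_lit 408) (nat_lit 309)) (XT.lf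 (nat_lit 0) (nat_lit 15377079461) (nat_lit 304) (nat_lit 3668608929) (nat_lit 76) (nat_lit 647778119) (nat_lit 86) (nat_lit 5) (nat_lit 90) (nat_lit 5) (nat_lit 87) (nat_lit 5) (nat_lit 484) (nat_lit 408) (nat_lit 308))))) (XT.nd (nat_lit 234) (nat_lit 532) (nat_lit 0) (XT.nd (nat_lit 78) (nat_lit 456) (nat_lit 0) (XT.lf (nat_lit 0) (nat_lit 3445302876) (nat_lit 304) (nat_lit 5688833267) (nat_lit 76) (nat_lit 10937728857) (nat_lit 82) (nat_lit 5) (nat_lit 86) (nat_lit 5) (nat_lit 83) (nat_lit 5) (nat_lit 485) (nat_lit 408) (nat_lit 307)) (XT.nd (nat_lit 78) (nat_lit 228) (nat_lit 0) (XT.lf (nat_lit 0) (nat_lit 11467361972) (nat_lit 304) (nat_lit 7814568372) (nat_lit 76) (nat_lit 1177392941) (nat_lit 79) (nat_lit 5) (nat_lit 83) (nat_lit 5) (nat_lit 80) (nat_lit 5) (nat_lit 486) (nat_lit 408) (nat_lit 306)) (XT.lf (nat_lit 0) (nat_lit 10779407601) (nat_lit 228) (nat_lit 9091857682) (nat_lit 304) (nat_lit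 984318026) (nat_lit 76) (nat_lit 5) (nat_lit 79) (nat_lit 5) (nat_lit 80) (nat_lit 5) (nat_lit 487) (nat_lit 408) (nat_lit 305)))) (XT.nd (nat_lit 78) (nat_lit 228) (nat_lit 0) (XT.lf (nat_lit 0) (nat_lit 7260362324) (nat_lit 304) (nat_lit 12476638351) (nat_lit 76) (nat_lit 1523947412) (nat_lit 72) (nat_lit 5) (nat_lit 76) (nat_lit 5) (nat_lit 73) (nat_lit 5) (nat_lit 488) (nat_lit 408) (nat_lit 304)) (XT.nd (nat_lit 56238) (nat_lit 0) (nat_lit 46664) (XT.lf (nat_lit 0) (nat_lit 6642275414) (nat_lit 228) (nat_lit 9241493228) (nat_lit 304) (nat_lit 5791681382) (nat_lit 69) (nat_lit 5) (nat_lit 72) (nat_lit 5) (nat_lit 73) (nat_lit 5) (nat_lit 489) (nat_lit 408) (nat_lit 303)) (XT.lf (nat_lit 0) (nat_lit 1129052244) (nat_lit 0) (nat_lit 1129052244) (nat_lit 836) (nat_lit 1135153118) (nat_lit 683) (nat_lit 5) (nat_lit 683) (nat_lit 3) (nat_lit 694) (nat_lit 3) (nat_lit 409) (nat_lit 409) (nat_lit 382)))))))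 (XT.nd (nat_lit 858) (nat_lit 13680) (nat_lit 0) (XT.nd (nat_lit 390) (nat_lit 3192) (nat_lit 0) (XT.nd (nat_lit 156) (nat_lit 912) (nat_lit 0) (XT.nd (nat_lit 78) (nat_lit 0) (nat_lit 76) (XT.lf (nat_lit 76) (nat_lit 490530561) (nat_lit 0) (nat_lit 313940406) (nat_lit 988) (nat_lit 6021897509) (nat_lit 671) (nat_lit 5) (nat_lit 670) (nat_lit 3) (nat_lit 683) (nat_lit 5) (nat_lit 410) (nat_lit 409) (nat_lit 381)) (XT.lf (nat_lit 0) (nat_lit 3862626150) (nat_lit 912) (nat_lit 1235980367) (nat_lit 988) (nat_lit 1770097309) (nat_lit 671) (nat_lit 5) (nat_lit 683) (nat_lit 5) (nat_lit 684) (nat_lit 5) (nat_lit 411) (nat_lit 409) (nat_lit 380))) (XT.nd (nat_lit 78) (nat_lit 0) (nat_lit 0) (XT.lf (nat_lit 0) (nat_lit 9837325) (nat_lit 988) (nat_lit 2909842133) (nat_lit 1064) (nat_lit 3994423010) (nat_lit 658) (nat_lit 5) (nat_lit 671) (nat_lit 5) (nat_lit 672) (nat_lit 5) (nat_lit 412) (nat_lit 409) (nat_lit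 379)) (XT.nd (nat_lit 78) (nat_lit 0) (nat_lit 76) (XT.lf (nat_lit 76) (nat_lit 2405838840) (nat_lit 0) (nat_lit 579497847) (nat_lit 1064) (nat_lit 3976954241) (nat_lit 659) (nat_lit 5) (nat_lit 658) (nat_lit 5) (nat_lit 672) (nat_lit 5) (nat_lit 413) (nat_lit 409) (nat_lit 378)) (XT.lf (nat_lit 76) (nat_lit 843305798) (nat_lit 0) (nat_lit 5132912749) (nat_lit 1064) (nat_lit 1037207659) (nat_lit 660) (nat_lit 5) (nat_lit 659) (nat_lit 5) (nat_lit 673) (nat_lit 5) (nat_lit 414) (nat_lit 409) (nat_lit 377))))) (XT.nd (nat_lit 234) (nat_lit 1140) (nat_lit 0) (XT.nd (nat_lit 78) (nat_lit 1064) (nat_lit 0) (XT.lf (nat_lit 0) (nat_lit 1890565414) (nat_lit 1064) (nat_lit 680499594) (nat_lit 1140) (nat_lit 4496275555) (nat_lit 645) (nat_lit 5) (nat_lit 659) (nat_lit 5) (nat_lit 660) (nat_lit 5) (nat_lit 415) (nat_lit 409) (nat_lit 376)) (XT.nd (nat_lit 78) (nat_lit 1140) (nat_lit 0) (XT.lf (nat_lit 0) (nat_lit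 4819554821) (nat_lit 1064) (nat_lit 2156700308) (nat_lit 1140) (nat_lit 147952334) (nat_lit 646) (nat_lit 5) (nat_lit 660) (nat_lit 5) (nat_lit 661) (nat_lit 5) (nat_lit 416) (nat_lit 409) (nat_lit 375)) (XT.lf (nat_lit 0) (nat_lit 586816248) (nat_lit 1140) (nat_lit 3611411157) (nat_lit 1216) (nat_lit 2985653667) (nat_lit 631) (nat_lit 5) (nat_lit 646) (nat_lit 5) (nat_lit 647) (nat_lit 5) (nat_lit 417) (nat_lit 409) (nat_lit 374)))) (XT.nd (nat_lit 78) (nat_lit 1140) (nat_lit 0) (XT.lf (nat_lit 76) (nat_lit 2206246245) (nat_lit 0) (nat_lit 1255687163) (nat_lit 1216) (nat_lit 3784562578) (nat_lit 632) (nat_lit 5) (nat_lit 631) (nat_lit 5) (nat_lit 647) (nat_lit 5) (nat_lit 418) (nat_lit 409) (nat_lit 373)) (XT.nd (nat_lit 78) (nat_lit 1216) (nat_lit 0) (XT.lf (nat_lit 76) (nat_lit 870781264) (nat_lit 0) (nat_lit 5496085805) (nat_lit 1216) (nat_lit 945270513) (nat_lit 633) (nat_lit 5) (nat_lit 632)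 (nat_lit 5) (nat_lit 648) (nat_lit 5) (nat_lit 419) (nat_lit 409) (nat_lit 372)) (XT.lf (nat_lit 0) (nat_lit 1899555303) (nat_lit 1216) (nat_lit 438947630) (nat_lit 1292) (nat_lit 5042080791) (nat_lit 616) (nat_lit 5) (nat_lit 632) (nat_lit 5) (nat_lit 633) (nat_lit 5) (nat_lit 420) (nat_lit 409) (nat_lit 371)))))) (XT.nd (nat_lit 468) (nat_lit 8360) (nat_lit 0) (XT.nd (nat_lit 234) (nat_lit 4104) (nat_lit 0) (XT.nd (nat_lit 78) (nat_lit 1292) (nat_lit 0) (XT.lf (nat_lit 0) (nat_lit 4767031412) (nat_lit 1216) (nat_lit 1710519658) (nat_lit 1292) (nat_lit 974422271) (nat_lit 617) (nat_lit 5) (nat_lit 633) (nat_lit 5) (nat_lit 634) (nat_lit 5) (nat_lit 421) (nat_lit 409) (nat_lit 370)) (XT.nd (nat_lit 78) (nat_lit 0) (nat_lit 76) (XT.lf (nat_lit 0) (nat_lit 149289430) (nat_lit 1292) (nat_lit 2960881514) (nat_lit 1368) (nat_lit 4416189124) (nat_lit 600) (nat_lit 5) (nat_lit 617) (nat_lit 5) (nat_lit 618)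 (nat_lit 5) (nat_lit 422) (nat_lit 409) (nat_lit 369)) (XT.lf (nat_lit 0) (nat_lit 2979388577) (nat_lit 1292) (nat_lit 4195164662) (nat_lit 76) (nat_lit 429140481) (nat_lit 601) (nat_lit 5) (nat_lit 618) (nat_lit 5) (nat_lit 602) (nat_lit 5) (nat_lit 423) (nat_lit 409) (nat_lit 368)))) (XT.nd (nat_lit 78) (nat_lit 2888) (nat_lit 0) (XT.lf (nat_lit 0) (nat_lit 2268861173) (nat_lit 1292) (nat_lit 3594061982) (nat_lit 1368) (nat_lit 1821069743) (nat_lit 584) (nat_lit 5) (nat_lit 601) (nat_lit 5) (nat_lit 602) (nat_lit 5) (nat_lit 424) (nat_lit 409) (nat_lit 367)) (XT.nd (nat_lit 78) (nat_lit 1444) (nat_lit 0) (XT.lf (nat_lit 0) (nat_lit 1003782280) (nat_lit 1444) (nat_lit 6609032264) (nat_lit 76) (nat_lit 154733357) (nat_lit 565) (nat_lit 5) (nat_lit 584) (nat_lit 5) (nat_lit 566) (nat_lit 5) (nat_lit 425) (nat_lit 409) (nat_lit 366)) (XT.lf (nat_lit 0) (nat_lit 47420884) (nat_lit 1444) (nat_lit 3819166936)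 (nat_lit 1520) (nat_lit 3987236943) (nat_lit 546) (nat_lit 5) (nat_lit 565) (nat_lit 5) (nat_lit 566) (nat_lit 5) (nat_lit 426) (nat_lit 409) (nat_lit 365))))) (XT.nd (nat_lit 234) (nat_lit 5168) (nat_lit 0) (XT.nd (nat_lit 78) (nat_lit 3192) (nat_lit 0) (XT.lf (nat_lit 0) (nat_lit 6779559386) (nat_lit 1520) (nat_lit 1016645255) (nat_lit 76) (nat_lit 147214154) (nat_lit 546) (nat_lit 5) (nat_lit 566) (nat_lit 5) (nat_lit 547) (nat_lit 5) (nat_lit 427) (nat_lit 409) (nat_lit 364)) (XT.nd (nat_lit 78) (nat_lit 1596) (nat_lit 0) (XT.lf (nat_lit 0) (nat_lit 1706488483) (nat_lit 1596) (nat_lit 2083792495) (nat_lit 76) (nat_lit 4245504085) (nat_lit 525) (nat_lit 5) (nat_lit 546) (nat_lit 5) (nat_lit 526) (nat_lit 5) (nat_lit 428) (nat_lit 409) (nat_lit 363)) (XT.lf (nat_lit 0) (nat_lit 4611573578) (nat_lit 1672) (nat_lit 3129491709) (nat_lit 76) (nat_lit 390427790) (nat_lit 504) (nat_lit 5) (nat_lit 526)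 (nat_lit 5) (nat_lit 505) (nat_lit 5) (nat_lit 429) (nat_lit 409) (nat_lit 362)))) (XT.nd (nat_lit 78) (nat_lit 3496) (nat_lit 0) (XT.lf (nat_lit 0) (nat_lit 4060378044) (nat_lit 1672) (nat_lit 3533619904) (nat_lit 1748) (nat_lit 636283659) (nat_lit 482) (nat_lit 5) (nat_lit 504) (nat_lit 5) (nat_lit 505) (nat_lit 5) (nat_lit 430) (nat_lit 409) (nat_lit 361)) (XT.nd (nat_lit 78) (nat_lit 1672) (nat_lit 0) (XT.lf (nat_lit 0) (nat_lit 2276128207) (nat_lit 1824) (nat_lit 5201465333) (nat_lit 76) (nat_lit 854692060) (nat_lit 458) (nat_lit 5) (nat_lit 482) (nat_lit 5) (nat_lit 459) (nat_lit 5) (nat_lit 431) (nat_lit 409) (nat_lit 360)) (XT.lf (nat_lit 0) (nat_lit 2204808579) (nat_lit 1672) (nat_lit 3056231544) (nat_lit 1748) (nat_lit 3176362049) (nat_lit 436) (nat_lit 5) (nat_lit 458) (nat_lit 5) (nat_lit 459) (nat_lit 5) (nat_lit 432) (nat_lit 409) (nat_lit 359))))))))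
noncomputable def xc59 : XT := (XT.nd (nat_lit 1794) (nat_lit 9424) (nat_lit 0) (XT.nd (nat_lit 858) (nat_lit 7144) (nat_lit 0) (XT.nd (nat_lit 390) (nat_lit 4788) (nat_lit 0) (XT.nd (nat_lit 156) (nat_lit 1824) (nat_lit 0) (XT.nd (nat_lit 78) (nat_lit 988) (nat_lit 0) (XT.lf (nat_lit 0) (nat_lit 1299310839) (nat_lit 988) (nat_lit 7018885393) (nat_lit 1064) (nat_lit 227833748) (nat_lit 423) (nat_lit 5) (nat_lit 436) (nat_lit 5) (nat_lit 437) (nat_lit 5) (nat_lit 433) (nat_lit 409) (nat_lit 358)) (XT.lf (nat_lit 0) (nat_lit 384376653) (nat_lit 912) (nat_lit 2383601537) (nat_lit 988) (nat_lit 5889671357) (nat_lit 410) (nat_lit 5) (nat_lit 422) (nat_lit 5) (nat_lit 423) (nat_lit 5) (nat_lit 434) (nat_lit 409) (nat_lit 357))) (XT.nd (nat_lit 78) (nat_lit 1824) (nat_lit 0) (XT.lf (nat_lit 0) (nat_lit 5847380422) (nat_lit 988) (nat_lit 512827114) (nat_lit 76) (nat_lit 2412454609) (nat_lit 410) (nat_lit 5)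 (nat_lit 423) (nat_lit 5) (nat_lit 411) (nat_lit 5) (nat_lit 435) (nat_lit 409) (nat_lit 356)) (XT.nd (nat_lit 78) (nat_lit 836) (nat_lit 0) (XT.lf (nat_lit 0) (nat_lit 124783114) (nat_lit 988) (nat_lit 1394622835) (nat_lit 76) (nat_lit 7371744358) (nat_lit 397) (nat_lit 5) (nat_lit 410) (nat_lit 5) (nat_lit 398) (nat_lit 5) (nat_lit 436) (nat_lit 409) (nat_lit 355)) (XT.lf (nat_lit 0) (nat_lit 3231961260) (nat_lit 912) (nat_lit 2292469731) (nat_lit 76) (nat_lit 3488278278) (nat_lit 386) (nat_lit 5) (nat_lit 398) (nat_lit 5) (nat_lit 387) (nat_lit 5) (nat_lit 437) (nat_lit 409) (nat_lit 354))))) (XT.nd (nat_lit 234) (nat_lit 2280) (nat_lit 0) (XT.nd (nat_lit 78) (nat_lit 1672) (nat_lit 0) (XT.lf (nat_lit 0) (nat_lit 5962397047) (nat_lit 836) (nat_lit 464715389) (nat_lit 912) (nat_lit 2710917090) (nat_lit 375) (nat_lit 5) (nat_lit 386) (nat_lit 5) (nat_lit 387) (nat_lit 5) (nat_lit 438) (nat_lit 409)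 (nat_lit 353)) (XT.nd (nat_lit 78) (nat_lit 836) (nat_lit 0) (XT.lf (nat_lit 0) (nat_lit 463221909) (nat_lit 836) (nat_lit 4068688956) (nat_lit 76) (nat_lit 4734786609) (nat_lit 364) (nat_lit 5) (nat_lit 375) (nat_lit 5) (nat_lit 365) (nat_lit 5) (nat_lit 439) (nat_lit 409) (nat_lit 352)) (XT.lf (nat_lit 0) (nat_lit 3693200825) (nat_lit 912) (nat_lit 4964950133) (nat_lit 76) (nat_lit 740776133) (nat_lit 353) (nat_lit 5) (nat_lit 365) (nat_lit 5) (nat_lit 354) (nat_lit 5) (nat_lit 440) (nat_lit 409) (nat_lit 351)))) (XT.nd (nat_lit 78) (nat_lit 1520) (nat_lit 0) (XT.lf (nat_lit 0) (nat_lit 3664881829) (nat_lit 760) (nat_lit 3377161607) (nat_lit 836) (nat_lit 2492649558) (nat_lit 343) (nat_lit 5) (nat_lit 353) (nat_lit 5) (nat_lit 354) (nat_lit 5) (nat_lit 441) (nat_lit 409) (nat_lit 350)) (XT.nd (nat_lit 78) (nat_lit 684) (nat_lit 0) (XT.lf (nat_lit 0) (nat_lit 813672934) (nat_lit 836) (nat_lit 6773139755)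 (nat_lit 76) (nat_lit 2087470059) (nat_lit 332) (nat_lit 5) (nat_lit 343) (nat_lit 5) (nat_lit 333) (nat_lit 5) (nat_lit 442) (nat_lit 409) (nat_lit 349)) (XT.lf (nat_lit 0) (nat_lit 2121285379) (nat_lit 684) (nat_lit 2082920725) (nat_lit 760) (nat_lit 5613154860) (nat_lit 323) (nat_lit 5) (nat_lit 332) (nat_lit 5) (nat_lit 333) (nat_lit 5) (nat_lit 443) (nat_lit 409) (nat_lit 348)))))) (XT.nd (nat_lit 468) (nat_lit 3572) (nat_lit 0) (XT.nd (nat_lit 234) (nat_lit 2052) (nat_lit 0) (XT.nd (nat_lit 78) (nat_lit 760) (nat_lit 0) (XT.lf (nat_lit 0) (nat_lit 1340077484) (nat_lit 760) (nat_lit 6378072027) (nat_lit 836) (nat_lit 2246155922) (nat_lit 313) (nat_lit 5) (nat_lit 323) (nat_lit 5) (nat_lit 324) (nat_lit 5) (nat_lit 444) (nat_lit 409) (nat_lit 347)) (XT.nd (nat_lit 78) (nat_lit 0) (nat_lit 0) (XT.lf (nat_lit 0) (nat_lit 558118312) (nat_lit 684) (nat_lit 662123254) (nat_lit 760) (nat_lit 8894977155)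 (nat_lit 303) (nat_lit 5) (nat_lit 312) (nat_lit 5) (nat_lit 313) (nat_lit 5) (nat_lit 445) (nat_lit 409) (nat_lit 346)) (XT.lf (nat_lit 0) (nat_lit 4798549068) (nat_lit 760) (nat_lit 249857343) (nat_lit 76) (nat_lit 5221194566) (nat_lit 303) (nat_lit 5) (nat_lit 313) (nat_lit 5) (nat_lit 304) (nat_lit 5) (nat_lit 446) (nat_lit 409) (nat_lit 345)))) (XT.nd (nat_lit 78) (nat_lit 1368) (nat_lit 0) (XT.lf (nat_lit 0) (nat_lit 8502522751) (nat_lit 760) (nat_lit 1041953641) (nat_lit 76) (nat_lit 883778957) (nat_lit 294) (nat_lit 5) (nat_lit 304) (nat_lit 5) (nat_lit 295) (nat_lit 5) (nat_lit 447) (nat_lit 409) (nat_lit 344)) (XT.nd (nat_lit 78) (nat_lit 684) (nat_lit 0) (XT.lf (nat_lit 0) (nat_lit 1743954161) (nat_lit 684) (nat_lit 1861217005) (nat_lit 76) (nat_lit 6985467841) (nat_lit 285) (nat_lit 5) (nat_lit 294) (nat_lit 5) (nat_lit 286) (nat_lit 5) (nat_lit 448) (nat_lit 409) (nat_lit 343)) (XT.lf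 (nat_lit 0) (nat_lit 5522935470) (nat_lit 760) (nat_lit 2693420993) (nat_lit 76) (nat_lit 2540782248) (nat_lit 276) (nat_lit 5) (nat_lit 286) (nat_lit 5) (nat_lit 277) (nat_lit 5) (nat_lit 449) (nat_lit 409) (nat_lit 342))))) (XT.nd (nat_lit 234) (nat_lit 1748) (nat_lit 0) (XT.nd (nat_lit 78) (nat_lit 1216) (nat_lit 0) (XT.lf (nat_lit 0) (nat_lit 7393623405) (nat_lit 608) (nat_lit 2056412030) (nat_lit 684) (nat_lit 1477909256) (nat_lit 268) (nat_lit 5) (nat_lit 276) (nat_lit 5) (nat_lit 277) (nat_lit 5) (nat_lit 450) (nat_lit 409) (nat_lit 341)) (XT.nd (nat_lit 78) (nat_lit 532) (nat_lit 0) (XT.lf (nat_lit 0) (nat_lit 2400701634) (nat_lit 684) (nat_lit 4404665037) (nat_lit 76) (nat_lit 4297383914) (nat_lit 259) (nat_lit 5) (nat_lit 268) (nat_lit 5) (nat_lit 260) (nat_lit 5) (nat_lit 451) (nat_lit 409) (nat_lit 340)) (XT.lf (nat_lit 0) (nat_lit 5996198084) (nat_lit 532) (nat_lit 407921799) (nat_lit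 608) (nat_lit 4877920626) (nat_lit 252) (nat_lit 5) (nat_lit 259) (nat_lit 5) (nat_lit 260) (nat_lit 5) (nat_lit 452) (nat_lit 409) (nat_lit 339)))) (XT.nd (nat_lit 78) (nat_lit 1140) (nat_lit 0) (XT.lf (nat_lit 0) (nat_lit 5270027335) (nat_lit 608) (nat_lit 5314553227) (nat_lit 684) (nat_lit 880995399) (nat_lit 244) (nat_lit 5) (nat_lit 252) (nat_lit 5) (nat_lit 253) (nat_lit 5) (nat_lit 453) (nat_lit 409) (nat_lit 338)) (XT.nd (nat_lit 78) (nat_lit 532) (nat_lit 0) (XT.lf (nat_lit 0) (nat_lit 3223413857) (nat_lit 608) (nat_lit 7127463146) (nat_lit 76) (nat_lit 1302725348) (nat_lit 236) (nat_lit 5) (nat_lit 244) (nat_lit 5) (nat_lit 237) (nat_lit 5) (nat_lit 454) (nat_lit 409) (nat_lit 337)) (XT.lf (nat_lit 0) (nat_lit 3753905361) (nat_lit 532) (nat_lit 3741413333) (nat_lit 608) (nat_lit 4350712917) (nat_lit 229) (nat_lit 5) (nat_lit 236) (nat_lit 5) (nat_lit 237) (nat_lit 5) (nat_lit 455) (nat_lit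 409) (nat_lit 336))))))) (XT.nd (nat_lit 936) (nat_lit 3952) (nat_lit 0) (XT.nd (nat_lit 468) (nat_lit 2812) (nat_lit 0) (XT.nd (nat_lit 234) (nat_lit 1064) (nat_lit 0) (XT.nd (nat_lit 78) (nat_lit 1064) (nat_lit 0) (XT.lf (nat_lit 0) (nat_lit 2973501242) (nat_lit 532) (nat_lit 8964645427) (nat_lit 608) (nat_lit 105236811) (nat_lit 222) (nat_lit 5) (nat_lit 229) (nat_lit 5) (nat_lit 230) (nat_lit 5) (nat_lit 456) (nat_lit 409) (nat_lit 335)) (XT.nd (nat_lit 78) (nat_lit 456) (nat_lit 0) (XT.lf (nat_lit 0) (nat_lit 2150539140) (nat_lit 532) (nat_lit 2110832817) (nat_lit 608) (nat_lit 7983739814) (nat_lit 214) (nat_lit 5) (nat_lit 221) (nat_lit 5) (nat_lit 222) (nat_lit 5) (nat_lit 457) (nat_lit 409) (nat_lit 334)) (XT.lf (nat_lit 0) (nat_lit 1303252468) (nat_lit 456) (nat_lit 7513120471) (nat_lit 532) (nat_lit 3635333250) (nat_lit 208) (nat_lit 5) (nat_lit 214) (nat_lit 5) (nat_lit 215) (nat_lit 5)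 (nat_lit 458) (nat_lit 409) (nat_lit 333)))) (XT.nd (nat_lit 78) (nat_lit 456) (nat_lit 0) (XT.lf (nat_lit 0) (nat_lit 443577466) (nat_lit 532) (nat_lit 431691214) (nat_lit 608) (nat_lit 11788268543) (nat_lit 200) (nat_lit 5) (nat_lit 207) (nat_lit 5) (nat_lit 208) (nat_lit 5) (nat_lit 459) (nat_lit 409) (nat_lit 332)) (XT.nd (nat_lit 78) (nat_lit 456) (nat_lit 0) (XT.lf (nat_lit 0) (nat_lit 5550390860) (nat_lit 608) (nat_lit 473617843) (nat_lit 76) (nat_lit 6855666363) (nat_lit 200) (nat_lit 5) (nat_lit 208) (nat_lit 5) (nat_lit 201) (nat_lit 5) (nat_lit 460) (nat_lit 409) (nat_lit 331)) (XT.lf (nat_lit 0) (nat_lit 10412206195) (nat_lit 532) (nat_lit 1392431622) (nat_lit 76) (nat_lit 1296734622) (nat_lit 194) (nat_lit 5) (nat_lit 201) (nat_lit 5) (nat_lit 195) (nat_lit 5) (nat_lit 461) (nat_lit 409) (nat_lit 330))))) (XT.nd (nat_lit 234) (nat_lit 1368) (nat_lit 0) (XT.nd (nat_lit 78) (nat_lit 912)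 (nat_lit 0) (XT.lf (nat_lit 0) (nat_lit 2137688974) (nat_lit 532) (nat_lit 2362821757) (nat_lit 76) (nat_lit 8827443644) (nat_lit 187) (nat_lit 5) (nat_lit 194) (nat_lit 5) (nat_lit 188) (nat_lit 5) (nat_lit 462) (nat_lit 409) (nat_lit 329)) (XT.nd (nat_lit 78) (nat_lit 456) (nat_lit 0) (XT.lf (nat_lit 0) (nat_lit 7129133619) (nat_lit 532) (nat_lit 3370804429) (nat_lit 76) (nat_lit 3059917701) (nat_lit 181) (nat_lit 5) (nat_lit 188) (nat_lit 5) (nat_lit 182) (nat_lit 5) (nat_lit 463) (nat_lit 409) (nat_lit 328)) (XT.lf (nat_lit 0) (nat_lit 9386995770) (nat_lit 456) (nat_lit 2951357636) (nat_lit 532) (nat_lit 1459003877) (nat_lit 175) (nat_lit 5) (nat_lit 181) (nat_lit 5) (nat_lit 182) (nat_lit 5) (nat_lit 464) (nat_lit 409) (nat_lit 327)))) (XT.nd (nat_lit 78) (nat_lit 912) (nat_lit 0) (XT.lf (nat_lit 0) (nat_lit 3685697758) (nat_lit 456) (nat_lit 5508989355) (nat_lit 76) (nat_lit 4845387663) (nat_lit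 169) (nat_lit 5) (nat_lit 175) (nat_lit 5) (nat_lit 170) (nat_lit 5) (nat_lit 465) (nat_lit 409) (nat_lit 326)) (XT.nd (nat_lit 78) (nat_lit 456) (nat_lit 0) (XT.lf (nat_lit 0) (nat_lit 7645602711) (nat_lit 456) (nat_lit 1380919863) (nat_lit 532) (nat_lit 5262129723) (nat_lit 163) (nat_lit 5) (nat_lit 169) (nat_lit 5) (nat_lit 170) (nat_lit 5) (nat_lit 466) (nat_lit 409) (nat_lit 325)) (XT.lf (nat_lit 0) (nat_lit 70797947) (nat_lit 456) (nat_lit 7828944997) (nat_lit 76) (nat_lit 6643195956) (nat_lit 157) (nat_lit 5) (nat_lit 163) (nat_lit 5) (nat_lit 158) (nat_lit 5) (nat_lit 467) (nat_lit 409) (nat_lit 324)))))) (XT.nd (nat_lit 468) (nat_lit 1976) (nat_lit 0) (XT.nd (nat_lit 234) (nat_lit 760) (nat_lit 0) (XT.nd (nat_lit 78) (nat_lit 836) (nat_lit 0) (XT.lf (nat_lit 0) (nat_lit 5548743557) (nat_lit 456) (nat_lit 9071001231) (nat_lit 76) (nat_lit 183286429) (nat_lit 152) (nat_lit 5) (nat_lit 158) (nat_lit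 5) (nat_lit 153) (nat_lit 5) (nat_lit 468) (nat_lit 409) (nat_lit 323)) (XT.nd (nat_lit 78) (nat_lit 456) (nat_lit 0) (XT.lf (nat_lit 0) (nat_lit 4689828634) (nat_lit 380) (nat_lit 6601610046) (nat_lit 456) (nat_lit 3777482517) (nat_lit 147) (nat_lit 5) (nat_lit 152) (nat_lit 5) (nat_lit 153) (nat_lit 5) (nat_lit 469) (nat_lit 409) (nat_lit 322)) (XT.lf (nat_lit 0) (nat_lit 1900072982) (nat_lit 456) (nat_lit 11726905306) (nat_lit 76) (nat_lit 1714352791) (nat_lit 141) (nat_lit 5) (nat_lit 147) (nat_lit 5) (nat_lit 142) (nat_lit 5) (nat_lit 470) (nat_lit 409) (nat_lit 321)))) (XT.nd (nat_lit 78) (nat_lit 456) (nat_lit 0) (XT.lf (nat_lit 0) (nat_lit 2456766408) (nat_lit 304) (nat_lit 5335814801) (nat_lit 380) (nat_lit 7826916598) (nat_lit 137) (nat_lit 5) (nat_lit 141) (nat_lit 5) (nat_lit 142) (nat_lit 5) (nat_lit 471) (nat_lit 409) (nat_lit 320)) (XT.nd (nat_lit 78) (nat_lit 76) (nat_lit 0) (XT.lf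 (nat_lit 0) (nat_lit 1262708921) (nat_lit 380) (nat_lit 12673456333) (nat_lit 456) (nat_lit 1968361067) (nat_lit 132) (nat_lit 5) (nat_lit 137) (nat_lit 5) (nat_lit 138) (nat_lit 5) (nat_lit 472) (nat_lit 409) (nat_lit 319)) (XT.lf (nat_lit 0) (nat_lit 4103835496) (nat_lit 456) (nat_lit 12051107) (nat_lit 76) (nat_lit 12079869567) (nat_lit 131) (nat_lit 5) (nat_lit 137) (nat_lit 5) (nat_lit 132) (nat_lit 5) (nat_lit 473) (nat_lit 409) (nat_lit 318))))) (XT.nd (nat_lit 234) (nat_lit 988) (nat_lit 0) (XT.nd (nat_lit 78) (nat_lit 684) (nat_lit 0) (XT.lf (nat_lit 0) (nat_lit 10428091846) (nat_lit 380) (nat_lit 1335175194) (nat_lit 76) (nat_lit 4730265514) (nat_lit 127) (nat_lit 5) (nat_lit 132) (nat_lit 5) (nat_lit 128) (nat_lit 5) (nat_lit 474) (nat_lit 409) (nat_lit 317)) (XT.nd (nat_lit 78) (nat_lit 304) (nat_lit 0) (XT.lf (nat_lit 0) (nat_lit 226872060) (nat_lit 380) (nat_lit 2711200464) (nat_lit 76)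 (nat_lit 13860415774) (nat_lit 122) (nat_lit 5) (nat_lit 127) (nat_lit 5) (nat_lit 123) (nat_lit 5) (nat_lit 475) (nat_lit 409) (nat_lit 316)) (XT.lf (nat_lit 0) (nat_lit 6727598325) (nat_lit 380) (nat_lit 4195512756) (nat_lit 76) (nat_lit 6186641174) (nat_lit 118) (nat_lit 5) (nat_lit 123) (nat_lit 5) (nat_lit 119) (nat_lit 5) (nat_lit 476) (nat_lit 409) (nat_lit 315)))) (XT.nd (nat_lit 78) (nat_lit 684) (nat_lit 0) (XT.lf (nat_lit 0) (nat_lit 11697715111) (nat_lit 304) (nat_lit 1807861998) (nat_lit 380) (nat_lit 3923134725) (nat_lit 114) (nat_lit 5) (nat_lit 118) (nat_lit 5) (nat_lit 119) (nat_lit 5) (nat_lit 477) (nat_lit 409) (nat_lit 314)) (XT.nd (nat_lit 78) (nat_lit 304) (nat_lit 0) (XT.lf (nat_lit 0) (nat_lit 2808610942) (nat_lit 380) (nat_lit 7369061838) (nat_lit 76) (nat_lit 7576920052) (nat_lit 109) (nat_lit 5) (nat_lit 114) (nat_lit 5) (nat_lit 110) (nat_lit 5) (nat_lit 478) (nat_lit 409)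 (nat_lit 313)) (XT.lf (nat_lit 0) (nat_lit 9003274398) (nat_lit 304) (nat_lit 764669713) (nat_lit 380) (nat_lit 8320210949) (nat_lit 105) (nat_lit 5) (nat_lit 109) (nat_lit 5) (nat_lit 110) (nat_lit 5) (nat_lit 479) (nat_lit 409) (nat_lit 312))))))))
noncomputable def xc60 : XT := (XT.nd (nat_lit 58032) (nat_lit 0) (nat_lit 18240) (XT.nd (nat_lit 57096) (nat_lit 0) (nat_lit 40052) (XT.nd (nat_lit 390) (nat_lit 1064) (nat_lit 0) (XT.nd (nat_lit 156) (nat_lit 836) (nat_lit 0) (XT.nd (nat_lit 78) (nat_lit 380) (nat_lit 0) (XT.lf (nat_lit 0) (nat_lit 7526915428) (nat_lit 228) (nat_lit 9535707765) (nat_lit 304) (nat_lit 1366571721) (nat_lit 102) (nat_lit 5) (nat_lit 105) (nat_lit 5) (nat_lit 106) (nat_lit 5) (nat_lit 480) (nat_lit 409) (nat_lit 311)) (XT.lf (nat_lit 0) (nat_lit 5796422707) (nat_lit 380) (nat_lit 12812017799) (nat_lit 76) (nat_lit 169739701) (nat_lit 97) (nat_lit 5) (nat_lit 102) (nat_lit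 5) (nat_lit 98) (nat_lit 5) (nat_lit 481) (nat_lit 409) (nat_lit 310))) (XT.nd (nat_lit 78) (nat_lit 608) (nat_lit 0) (XT.lf (nat_lit 0) (nat_lit 4286905762) (nat_lit 228) (nat_lit 9005156637) (nat_lit 304) (nat_lit 5842667484) (nat_lit 94) (nat_lit 5) (nat_lit 97) (nat_lit 5) (nat_lit 98) (nat_lit 5) (nat_lit 482) (nat_lit 409) (nat_lit 309)) (XT.nd (nat_lit 78) (nat_lit 228) (nat_lit 0) (XT.lf (nat_lit 0) (nat_lit 1571697337) (nat_lit 380) (nat_lit 16958947366) (nat_lit 76) (nat_lit 969518741) (nat_lit 89) (nat_lit 5) (nat_lit 94) (nat_lit 5) (nat_lit 90) (nat_lit 5) (nat_lit 483) (nat_lit 409) (nat_lit 308)) (XT.lf (nat_lit 0) (nat_lit 640162423) (nat_lit 228) (nat_lit 8626077232) (nat_lit 304) (nat_lit 10606807221) (nat_lit 86) (nat_lit 5) (nat_lit 89) (nat_lit 5) (nat_lit 90) (nat_lit 5) (nat_lit 484) (nat_lit 409) (nat_lit 307))))) (XT.nd (nat_lit 234) (nat_lit 532) (nat_lit 0) (XT.nd (nat_lit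 78) (nat_lit 532) (nat_lit 0) (XT.lf (nat_lit 0) (nat_lit 17288948187) (nat_lit 304) (nat_lit 1314969478) (nat_lit 76) (nat_lit 1651254270) (nat_lit 86) (nat_lit 5) (nat_lit 90) (nat_lit 5) (nat_lit 87) (nat_lit 5) (nat_lit 485) (nat_lit 409) (nat_lit 306)) (XT.nd (nat_lit 78) (nat_lit 228) (nat_lit 0) (XT.lf (nat_lit 0) (nat_lit 4982220069) (nat_lit 304) (nat_lit 3416636652) (nat_lit 76) (nat_lit 12246409837) (nat_lit 82) (nat_lit 5) (nat_lit 86) (nat_lit 5) (nat_lit 83) (nat_lit 5) (nat_lit 486) (nat_lit 409) (nat_lit 305)) (XT.lf (nat_lit 0) (nat_lit 13225255711) (nat_lit 304) (nat_lit 5624012919) (nat_lit 76) (nat_lit 2195476089) (nat_lit 79) (nat_lit 5) (nat_lit 83) (nat_lit 5) (nat_lit 80) (nat_lit 5) (nat_lit 487) (nat_lit 409) (nat_lit 304)))) (XT.nd (nat_lit 78) (nat_lit 228) (nat_lit 0) (XT.lf (nat_lit 0) (nat_lit 396901241) (nat_lit 304) (nat_lit 7967580210) (nat_lit 76) (nat_lit 13088875053)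 (nat_lit 75) (nat_lit 5) (nat_lit 79) (nat_lit 5) (nat_lit 76) (nat_lit 5) (nat_lit 488) (nat_lit 409) (nat_lit 303)) (XT.nd (nat_lit 56316) (nat_lit 0) (nat_lit 45448) (XT.lf (nat_lit 0) (nat_lit 8856728177) (nat_lit 304) (nat_lit 10464577792) (nat_lit 76) (nat_lit 2549824785) (nat_lit 72) (nat_lit 5) (nat_lit 76) (nat_lit 5) (nat_lit 73) (nat_lit 5) (nat_lit 489) (nat_lit 409) (nat_lit 302)) (XT.lf (nat_lit 0) (nat_lit 1891988634) (nat_lit 988) (nat_lit 770818120) (nat_lit 988) (nat_lit 770818120) (nat_lit 670) (nat_lit 3) (nat_lit 683) (nat_lit 3) (nat_lit 683) (nat_lit 5) (nat_lit 410) (nat_lit 410) (nat_lit 380)))))) (XT.nd (nat_lit 468) (nat_lit 2356) (nat_lit 0) (XT.nd (nat_lit 234) (nat_lit 2052) (nat_lit 0) (XT.nd (nat_lit 78) (nat_lit 988) (nat_lit 0) (XT.lf (nat_lit 76) (nat_lit 3562276149) (nat_lit 0) (nat_lit 3200472315) (nat_lit 988) (nat_lit 148436851) (nat_lit 671) (nat_lit 5) (nat_lit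 670) (nat_lit 3) (nat_lit 683) (nat_lit 5) (nat_lit 411) (nat_lit 410) (nat_lit 379)) (XT.nd (nat_lit 78) (nat_lit 0) (nat_lit 76) (XT.lf (nat_lit 76) (nat_lit 1829417833) (nat_lit 0) (nat_lit 915429653) (nat_lit 1064) (nat_lit 4213080370) (nat_lit 658) (nat_lit 5) (nat_lit 657) (nat_lit 5) (nat_lit 671) (nat_lit 5) (nat_lit 412) (nat_lit 410) (nat_lit 378)) (XT.lf (nat_lit 76) (nat_lit 132941725) (nat_lit 0) (nat_lit 5512021603) (nat_lit 1064) (nat_lit 1362672242) (nat_lit 659) (nat_lit 5) (nat_lit 658) (nat_lit 5) (nat_lit 672) (nat_lit 5) (nat_lit 413) (nat_lit 410) (nat_lit 377)))) (XT.nd (nat_lit 78) (nat_lit 1064) (nat_lit 0) (XT.lf (nat_lit 0) (nat_lit 1484813694) (nat_lit 1064) (nat_lit 1514376461) (nat_lit 1140) (nat_lit 4060818471) (nat_lit 644) (nat_lit 5) (nat_lit 658) (nat_lit 5) (nat_lit 659) (nat_lit 5) (nat_lit 414) (nat_lit 410) (nat_lit 376)) (XT.nd (nat_lit 78) (nat_lit 1064) (nat_lit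 0) (XT.lf (nat_lit 76) (nat_lit 3989664496) (nat_lit 0) (nat_lit 329821984) (nat_lit 1140) (nat_lit 2795902462) (nat_lit 645) (nat_lit 5) (nat_lit 644) (nat_lit 5) (nat_lit 659) (nat_lit 5) (nat_lit 415) (nat_lit 410) (nat_lit 375)) (XT.lf (nat_lit 0) (nat_lit 4740624) (nat_lit 1140) (nat_lit 4711539183) (nat_lit 1216) (nat_lit 2457385922) (nat_lit 630) (nat_lit 5) (nat_lit 645) (nat_lit 5) (nat_lit 646) (nat_lit 5) (nat_lit 416) (nat_lit 410) (nat_lit 374))))) (XT.nd (nat_lit 234) (nat_lit 1216) (nat_lit 0) (XT.nd (nat_lit 78) (nat_lit 1140) (nat_lit 0) (XT.lf (nat_lit 76) (nat_lit 956588543) (nat_lit 0) (nat_lit 1823943523) (nat_lit 1216) (nat_lit 4454226927) (nat_lit 631) (nat_lit 5) (nat_lit 630) (nat_lit 5) (nat_lit 646) (nat_lit 5) (nat_lit 417) (nat_lit 410) (nat_lit 373)) (XT.nd (nat_lit 78) (nat_lit 1216) (nat_lit 0) (XT.lf (nat_lit 0) (nat_lit 5581178592) (nat_lit 1140) (nat_lit 508771617)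 (nat_lit 1216) (nat_lit 1208922714) (nat_lit 631) (nat_lit 5) (nat_lit 646) (nat_lit 5) (nat_lit 647) (nat_lit 5) (nat_lit 418) (nat_lit 410) (nat_lit 372)) (XT.lf (nat_lit 0) (nat_lit 1038420689) (nat_lit 1216) (nat_lit 1941394567) (nat_lit 1292) (nat_lit 4385932102) (nat_lit 615) (nat_lit 5) (nat_lit 631) (nat_lit 5) (nat_lit 632) (nat_lit 5) (nat_lit 419) (nat_lit 410) (nat_lit 371)))) (XT.nd (nat_lit 78) (nat_lit 1292) (nat_lit 0) (XT.lf (nat_lit 0) (nat_lit 3792509485) (nat_lit 1216) (nat_lit 3349319849) (nat_lit 1292) (nat_lit 293817087) (nat_lit 616) (nat_lit 5) (nat_lit 632) (nat_lit 5) (nat_lit 633) (nat_lit 5) (nat_lit 420) (nat_lit 410) (nat_lit 370)) (XT.nd (nat_lit 78) (nat_lit 1292) (nat_lit 0) (XT.lf (nat_lit 76) (nat_lit 2767634110) (nat_lit 0) (nat_lit 3821798333) (nat_lit 1292) (nat_lit 919023274) (nat_lit 617) (nat_lit 5) (nat_lit 616) (nat_lit 5) (nat_lit 633) (nat_lit 5) (nat_lit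 421) (nat_lit 410) (nat_lit 369)) (XT.lf (nat_lit 76) (nat_lit 1474982114) (nat_lit 0) (nat_lit 330224612) (nat_lit 1368) (nat_lit 5779151429) (nat_lit 600) (nat_lit 5) (nat_lit 599) (nat_lit 5) (nat_lit 617) (nat_lit 5) (nat_lit 422) (nat_lit 410) (nat_lit 368))))))) (XT.nd (nat_lit 858) (nat_lit 9348) (nat_lit 0) (XT.nd (nat_lit 390) (nat_lit 8436) (nat_lit 0) (XT.nd (nat_lit 156) (nat_lit 4104) (nat_lit 0) (XT.nd (nat_lit 78) (nat_lit 0) (nat_lit 0) (XT.lf (nat_lit 76) (nat_lit 191393769) (nat_lit 0) (nat_lit 4375219678) (nat_lit 1368) (nat_lit 3096460171) (nat_lit 601) (nat_lit 5) (nat_lit 600) (nat_lit 5) (nat_lit 618) (nat_lit 5) (nat_lit 423) (nat_lit 410) (nat_lit 367)) (XT.lf (nat_lit 76) (nat_lit 6699800347) (nat_lit 0) (nat_lit 669857239) (nat_lit 1368) (nat_lit 375332749) (nat_lit 601) (nat_lit 5) (nat_lit 600) (nat_lit 5) (nat_lit 618) (nat_lit 5) (nat_lit 424) (nat_lit 410) (nat_lit 366)))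 (XT.nd (nat_lit 78) (nat_lit 2812) (nat_lit 0) (XT.lf (nat_lit 0) (nat_lit 2369773216) (nat_lit 1368) (nat_lit 2281594312) (nat_lit 76) (nat_lit 3178213134) (nat_lit 583) (nat_lit 5) (nat_lit 601) (nat_lit 5) (nat_lit 584) (nat_lit 5) (nat_lit 425) (nat_lit 410) (nat_lit 365)) (XT.nd (nat_lit 78) (nat_lit 1444) (nat_lit 0) (XT.lf (nat_lit 0) (nat_lit 4424877699) (nat_lit 1368) (nat_lit 726881099) (nat_lit 1444) (nat_lit 2765722268) (nat_lit 565) (nat_lit 5) (nat_lit 583) (nat_lit 5) (nat_lit 584) (nat_lit 5) (nat_lit 426) (nat_lit 410) (nat_lit 364)) (XT.lf (nat_lit 0) (nat_lit 3314409135) (nat_lit 1444) (nat_lit 4682721893) (nat_lit 1520) (nat_lit 11302993) (nat_lit 546) (nat_lit 5) (nat_lit 565) (nat_lit 5) (nat_lit 566) (nat_lit 5) (nat_lit 427) (nat_lit 410) (nat_lit 363))))) (XT.nd (nat_lit 234) (nat_lit 3496) (nat_lit 0) (XT.nd (nat_lit 78) (nat_lit 3344) (nat_lit 0) (XT.lf (nat_lit 0) (nat_lit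 2213960928) (nat_lit 1520) (nat_lit 540470114) (nat_lit 1596) (nat_lit 5348016142) (nat_lit 525) (nat_lit 5) (nat_lit 545) (nat_lit 5) (nat_lit 546) (nat_lit 5) (nat_lit 428) (nat_lit 410) (nat_lit 362)) (XT.nd (nat_lit 78) (nat_lit 1748) (nat_lit 0) (XT.lf (nat_lit 0) (nat_lit 1120932557) (nat_lit 1596) (nat_lit 4470154366) (nat_lit 1672) (nat_lit 2608443270) (nat_lit 504) (nat_lit 5) (nat_lit 525) (nat_lit 5) (nat_lit 526) (nat_lit 5) (nat_lit 429) (nat_lit 410) (nat_lit 361)) (XT.lf (nat_lit 0) (nat_lit 53910072) (nat_lit 1672) (nat_lit 126640250) (nat_lit 1748) (nat_lit 8119559427) (nat_lit 481) (nat_lit 5) (nat_lit 503) (nat_lit 5) (nat_lit 504) (nat_lit 5) (nat_lit 430) (nat_lit 410) (nat_lit 360)))) (XT.nd (nat_lit 78) (nat_lit 3496) (nat_lit 0) (XT.lf (nat_lit 0) (nat_lit 3022196679) (nat_lit 1748) (nat_lit 1015970522) (nat_lit 76) (nat_lit 4365118251) (nat_lit 481) (nat_lit 5) (nat_lit 504)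 (nat_lit 5) (nat_lit 482) (nat_lit 5) (nat_lit 431) (nat_lit 410) (nat_lit 359)) (XT.nd (nat_lit 78) (nat_lit 1748) (nat_lit 0) (XT.lf (nat_lit 0) (nat_lit 5925093004) (nat_lit 1824) (nat_lit 2061264253) (nat_lit 76) (nat_lit 523690830) (nat_lit 458) (nat_lit 5) (nat_lit 482) (nat_lit 5) (nat_lit 459) (nat_lit 5) (nat_lit 432) (nat_lit 410) (nat_lit 358)) (XT.lf (nat_lit 0) (nat_lit 292428413) (nat_lit 1748) (nat_lit 3108203817) (nat_lit 76) (nat_lit 5219329455) (nat_lit 435) (nat_lit 5) (nat_lit 458) (nat_lit 5) (nat_lit 436) (nat_lit 5) (nat_lit 433) (nat_lit 410) (nat_lit 357)))))) (XT.nd (nat_lit 468) (nat_lit 4712) (nat_lit 0) (XT.nd (nat_lit 234) (nat_lit 1748) (nat_lit 0) (XT.nd (nat_lit 78) (nat_lit 1900) (nat_lit 0) (XT.lf (nat_lit 0) (nat_lit 3206721399) (nat_lit 1064) (nat_lit 4155192287) (nat_lit 76) (nat_lit 1371213915) (nat_lit 422) (nat_lit 5) (nat_lit 436) (nat_lit 5) (nat_lit 423)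 (nat_lit 5) (nat_lit 434) (nat_lit 410) (nat_lit 356)) (XT.nd (nat_lit 78) (nat_lit 988) (nat_lit 0) (XT.lf (nat_lit 0) (nat_lit 3649654042) (nat_lit 912) (nat_lit 2560656386) (nat_lit 988) (nat_lit 2639351192) (nat_lit 410) (nat_lit 5) (nat_lit 422) (nat_lit 5) (nat_lit 423) (nat_lit 5) (nat_lit 435) (nat_lit 410) (nat_lit 355)) (XT.lf (nat_lit 0) (nat_lit 327226467) (nat_lit 988) (nat_lit 6238888890) (nat_lit 76) (nat_lit 2403596949) (nat_lit 397) (nat_lit 5) (nat_lit 410) (nat_lit 5) (nat_lit 398) (nat_lit 5) (nat_lit 436) (nat_lit 410) (nat_lit 354)))) (XT.nd (nat_lit 78) (nat_lit 912) (nat_lit 0) (XT.lf (nat_lit 0) (nat_lit 1803373090) (nat_lit 836) (nat_lit 1544870145) (nat_lit 912) (nat_lit 5744756030) (nat_lit 386) (nat_lit 5) (nat_lit 397) (nat_lit 5) (nat_lit 398) (nat_lit 5) (nat_lit 437) (nat_lit 410) (nat_lit 353)) (XT.nd (nat_lit 78) (nat_lit 76) (nat_lit 0) (XT.lf (nat_lit 0) (nat_lit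 877257470) (nat_lit 836) (nat_lit 5592659567) (nat_lit 912) (nat_lit 2749876662) (nat_lit 375) (nat_lit 5) (nat_lit 386) (nat_lit 5) (nat_lit 387) (nat_lit 5) (nat_lit 438) (nat_lit 410) (nat_lit 352)) (XT.lf (nat_lit 0) (nat_lit 329722084) (nat_lit 912) (nat_lit 36674056) (nat_lit 76) (nat_lit 8983975995) (nat_lit 374) (nat_lit 5) (nat_lit 386) (nat_lit 5) (nat_lit 375) (nat_lit 5) (nat_lit 439) (nat_lit 410) (nat_lit 351))))) (XT.nd (nat_lit 234) (nat_lit 2280) (nat_lit 0) (XT.nd (nat_lit 78) (nat_lit 1672) (nat_lit 0) (XT.lf (nat_lit 0) (nat_lit 3494102540) (nat_lit 836) (nat_lit 967027757) (nat_lit 76) (nat_lit 5022787702) (nat_lit 364) (nat_lit 5) (nat_lit 375) (nat_lit 5) (nat_lit 365) (nat_lit 5) (nat_lit 440) (nat_lit 410) (nat_lit 350)) (XT.nd (nat_lit 78) (nat_lit 836) (nat_lit 0) (XT.lf (nat_lit 0) (nat_lit 6755138020) (nat_lit 912) (nat_lit 1884495459) (nat_lit 76) (nat_lit 981810718) (nat_lit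 353) (nat_lit 5) (nat_lit 365) (nat_lit 5) (nat_lit 354) (nat_lit 5) (nat_lit 441) (nat_lit 410) (nat_lit 349)) (XT.lf (nat_lit 0) (nat_lit 371577421) (nat_lit 836) (nat_lit 2813208463) (nat_lit 76) (nat_lit 6577767330) (nat_lit 342) (nat_lit 5) (nat_lit 353) (nat_lit 5) (nat_lit 343) (nat_lit 5) (nat_lit 442) (nat_lit 410) (nat_lit 348)))) (XT.nd (nat_lit 78) (nat_lit 1520) (nat_lit 0) (XT.lf (nat_lit 0) (nat_lit 3681432245) (nat_lit 836) (nat_lit 3757356597) (nat_lit 76) (nat_lit 2468459993) (nat_lit 332) (nat_lit 5) (nat_lit 343) (nat_lit 5) (nat_lit 333) (nat_lit 5) (nat_lit 443) (nat_lit 410) (nat_lit 347)) (XT.nd (nat_lit 78) (nat_lit 836) (nat_lit 0) (XT.lf (nat_lit 0) (nat_lit 5351677208) (nat_lit 684) (nat_lit 1759748872) (nat_lit 760) (nat_lit 2944449942) (nat_lit 323) (nat_lit 5) (nat_lit 332) (nat_lit 5) (nat_lit 333) (nat_lit 5) (nat_lit 444) (nat_lit 410) (nat_lit 346)) (XT.lf (nat_lit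 0) (nat_lit 458294352) (nat_lit 836) (nat_lit 5663125081) (nat_lit 76) (nat_lit 4086920329) (nat_lit 312) (nat_lit 5) (nat_lit 323) (nat_lit 5) (nat_lit 313) (nat_lit 5) (nat_lit 445) (nat_lit 410) (nat_lit 345))))))))
noncomputable def xc61 : XT := (XT.nd (nat_lit 1794) (nat_lit 6232) (nat_lit 0) (XT.nd (nat_lit 858) (nat_lit 5472) (nat_lit 0) (XT.nd (nat_lit 390) (nat_lit 2964) (nat_lit 0) (XT.nd (nat_lit 156) (nat_lit 1976) (nat_lit 0) (XT.nd (nat_lit 78) (nat_lit 684) (nat_lit 0) (XT.lf (nat_lit 0) (nat_lit 3727676315) (nat_lit 684) (nat_lit 211285817) (nat_lit 760) (nat_lit 6425716121) (nat_lit 303) (nat_lit 5) (nat_lit 312) (nat_lit 5) (nat_lit 313) (nat_lit 5) (nat_lit 446) (nat_lit 410) (nat_lit 344)) (XT.lf (nat_lit 0) (nat_lit 2891005104) (nat_lit 684) (nat_lit 4677231363) (nat_lit 760) (nat_lit 2956593490) (nat_lit 294) (nat_lit 5) (nat_lit 303) (nat_lit 5) (nat_lit 304) (nat_lit 5) (nat_lit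 447) (nat_lit 410) (nat_lit 343))) (XT.nd (nat_lit 78) (nat_lit 1292) (nat_lit 0) (XT.lf (nat_lit 0) (nat_lit 627432713) (nat_lit 684) (nat_lit 8631689387) (nat_lit 76) (nat_lit 1430212167) (nat_lit 285) (nat_lit 5) (nat_lit 294) (nat_lit 5) (nat_lit 286) (nat_lit 5) (nat_lit 448) (nat_lit 410) (nat_lit 342)) (XT.nd (nat_lit 78) (nat_lit 608) (nat_lit 0) (XT.lf (nat_lit 0) (nat_lit 1189916064) (nat_lit 684) (nat_lit 3130617044) (nat_lit 760) (nat_lit 6537021570) (nat_lit 276) (nat_lit 5) (nat_lit 285) (nat_lit 5) (nat_lit 286) (nat_lit 5) (nat_lit 449) (nat_lit 410) (nat_lit 341)) (XT.lf (nat_lit 0) (nat_lit 316957699) (nat_lit 608) (nat_lit 7840460993) (nat_lit 684) (nat_lit 2872749254) (nat_lit 268) (nat_lit 5) (nat_lit 276) (nat_lit 5) (nat_lit 277) (nat_lit 5) (nat_lit 450) (nat_lit 410) (nat_lit 340))))) (XT.nd (nat_lit 234) (nat_lit 1748) (nat_lit 0) (XT.nd (nat_lit 78) (nat_lit 1140) (nat_lit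 0) (XT.lf (nat_lit 0) (nat_lit 928613251) (nat_lit 684) (nat_lit 560926972) (nat_lit 76) (nat_lit 9717528435) (nat_lit 267) (nat_lit 5) (nat_lit 276) (nat_lit 5) (nat_lit 268) (nat_lit 5) (nat_lit 451) (nat_lit 410) (nat_lit 339)) (XT.nd (nat_lit 78) (nat_lit 532) (nat_lit 0) (XT.lf (nat_lit 0) (nat_lit 4856576897) (nat_lit 684) (nat_lit 1473340151) (nat_lit 76) (nat_lit 5057953399) (nat_lit 259) (nat_lit 5) (nat_lit 268) (nat_lit 5) (nat_lit 260) (nat_lit 5) (nat_lit 452) (nat_lit 410) (nat_lit 338)) (XT.lf (nat_lit 0) (nat_lit 8931917996) (nat_lit 608) (nat_lit 2385382502) (nat_lit 76) (nat_lit 256210483) (nat_lit 252) (nat_lit 5) (nat_lit 260) (nat_lit 5) (nat_lit 253) (nat_lit 5) (nat_lit 453) (nat_lit 410) (nat_lit 337)))) (XT.nd (nat_lit 78) (nat_lit 1064) (nat_lit 0) (XT.lf (nat_lit 0) (nat_lit 1409721066) (nat_lit 684) (nat_lit 3337901793) (nat_lit 76) (nat_lit 7015669406) (nat_lit 243) (nat_lit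 5) (nat_lit 252) (nat_lit 5) (nat_lit 244) (nat_lit 5) (nat_lit 454) (nat_lit 410) (nat_lit 336)) (XT.nd (nat_lit 78) (nat_lit 532) (nat_lit 0) (XT.lf (nat_lit 0) (nat_lit 5582365842) (nat_lit 608) (nat_lit 4312285921) (nat_lit 76) (nat_lit 2063057453) (nat_lit 236) (nat_lit 5) (nat_lit 244) (nat_lit 5) (nat_lit 237) (nat_lit 5) (nat_lit 455) (nat_lit 410) (nat_lit 335)) (XT.lf (nat_lit 0) (nat_lit 6846381696) (nat_lit 532) (nat_lit 3089502586) (nat_lit 608) (nat_lit 2220965405) (nat_lit 229) (nat_lit 5) (nat_lit 236) (nat_lit 5) (nat_lit 237) (nat_lit 5) (nat_lit 456) (nat_lit 410) (nat_lit 334)))))) (XT.nd (nat_lit 468) (nat_lit 2356) (nat_lit 0) (XT.nd (nat_lit 234) (nat_lit 1520) (nat_lit 0) (XT.nd (nat_lit 78) (nat_lit 988) (nat_lit 0) (XT.lf (nat_lit 0) (nat_lit 2082945884) (nat_lit 608) (nat_lit 6341461814) (nat_lit 76) (nat_lit 3936256227) (nat_lit 221) (nat_lit 5) (nat_lit 229) (nat_lit 5)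 (nat_lit 222) (nat_lit 5) (nat_lit 457) (nat_lit 410) (nat_lit 333)) (XT.nd (nat_lit 78) (nat_lit 456) (nat_lit 0) (XT.lf (nat_lit 0) (nat_lit 5166200036) (nat_lit 532) (nat_lit 1368308038) (nat_lit 608) (nat_lit 6034821276) (nat_lit 214) (nat_lit 5) (nat_lit 221) (nat_lit 5) (nat_lit 222) (nat_lit 5) (nat_lit 458) (nat_lit 410) (nat_lit 332)) (XT.lf (nat_lit 0) (nat_lit 4282904669) (nat_lit 456) (nat_lit 6904941848) (nat_lit 532) (nat_lit 1595048031) (nat_lit 208) (nat_lit 5) (nat_lit 214) (nat_lit 5) (nat_lit 215) (nat_lit 5) (nat_lit 459) (nat_lit 410) (nat_lit 331)))) (XT.nd (nat_lit 78) (nat_lit 912) (nat_lit 0) (XT.lf (nat_lit 0) (nat_lit 2982448270) (nat_lit 608) (nat_lit 9626567630) (nat_lit 76) (nat_lit 392596580) (nat_lit 200) (nat_lit 5) (nat_lit 208) (nat_lit 5) (nat_lit 201) (nat_lit 5) (nat_lit 460) (nat_lit 410) (nat_lit 330)) (XT.nd (nat_lit 78) (nat_lit 456) (nat_lit 0) (XT.lf (nat_lit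 0) (nat_lit 2414819176) (nat_lit 456) (nat_lit 5340877006) (nat_lit 532) (nat_lit 5469387021) (nat_lit 194) (nat_lit 5) (nat_lit 200) (nat_lit 5) (nat_lit 201) (nat_lit 5) (nat_lit 461) (nat_lit 410) (nat_lit 329)) (XT.lf (nat_lit 0) (nat_lit 1443508722) (nat_lit 456) (nat_lit 11278429016) (nat_lit 532) (nat_lit 732328331) (nat_lit 188) (nat_lit 5) (nat_lit 194) (nat_lit 5) (nat_lit 195) (nat_lit 5) (nat_lit 462) (nat_lit 410) (nat_lit 328))))) (XT.nd (nat_lit 234) (nat_lit 1292) (nat_lit 0) (XT.nd (nat_lit 78) (nat_lit 532) (nat_lit 0) (XT.lf (nat_lit 0) (nat_lit 410333438) (nat_lit 456) (nat_lit 3755595600) (nat_lit 532) (nat_lit 9522391188) (nat_lit 181) (nat_lit 5) (nat_lit 187) (nat_lit 5) (nat_lit 188) (nat_lit 5) (nat_lit 463) (nat_lit 410) (nat_lit 327)) (XT.nd (nat_lit 78) (nat_lit 532) (nat_lit 0) (XT.lf (nat_lit 0) (nat_lit 9271104471) (nat_lit 532) (nat_lit 646339820) (nat_lit 76) (nat_lit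 4010460153) (nat_lit 181) (nat_lit 5) (nat_lit 188) (nat_lit 5) (nat_lit 182) (nat_lit 5) (nat_lit 464) (nat_lit 410) (nat_lit 326)) (XT.lf (nat_lit 0) (nat_lit 419615564) (nat_lit 532) (nat_lit 1727706682) (nat_lit 76) (nat_lit 12025921159) (nat_lit 174) (nat_lit 5) (nat_lit 181) (nat_lit 5) (nat_lit 175) (nat_lit 5) (nat_lit 465) (nat_lit 410) (nat_lit 325)))) (XT.nd (nat_lit 78) (nat_lit 912) (nat_lit 0) (XT.lf (nat_lit 0) (nat_lit 5667256807) (nat_lit 456) (nat_lit 2882894736) (nat_lit 76) (nat_lit 5873534715) (nat_lit 169) (nat_lit 5) (nat_lit 175) (nat_lit 5) (nat_lit 170) (nat_lit 5) (nat_lit 466) (nat_lit 410) (nat_lit 324)) (XT.nd (nat_lit 78) (nat_lit 456) (nat_lit 0) (XT.lf (nat_lit 0) (nat_lit 10621048523) (nat_lit 456) (nat_lit 510592404) (nat_lit 532) (nat_lit 3548818468) (nat_lit 163) (nat_lit 5) (nat_lit 169) (nat_lit 5) (nat_lit 170) (nat_lit 5) (nat_lit 467) (nat_lit 410) (nat_lit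 323)) (XT.lf (nat_lit 0) (nat_lit 1889411272) (nat_lit 456) (nat_lit 5307558349) (nat_lit 76) (nat_lit 7745769636) (nat_lit 157) (nat_lit 5) (nat_lit 163) (nat_lit 5) (nat_lit 158) (nat_lit 5) (nat_lit 468) (nat_lit 410) (nat_lit 322))))))) (XT.nd (nat_lit 936) (nat_lit 2280) (nat_lit 0) (XT.nd (nat_lit 468) (nat_lit 1672) (nat_lit 0) (XT.nd (nat_lit 234) (nat_lit 1064) (nat_lit 0) (XT.nd (nat_lit 78) (nat_lit 836) (nat_lit 0) (XT.lf (nat_lit 0) (nat_lit 7502433352) (nat_lit 456) (nat_lit 6601856529) (nat_lit 76) (nat_lit 1106934304) (nat_lit 152) (nat_lit 5) (nat_lit 158) (nat_lit 5) (nat_lit 153) (nat_lit 5) (nat_lit 469) (nat_lit 410) (nat_lit 321)) (XT.nd (nat_lit 78) (nat_lit 456) (nat_lit 0) (XT.lf (nat_lit 0) (nat_lit 7527324306) (nat_lit 380) (nat_lit 5855539272) (nat_lit 456) (nat_lit 2102922668) (nat_lit 147) (nat_lit 5) (nat_lit 152) (nat_lit 5) (nat_lit 153) (nat_lit 5) (nat_lit 470) (nat_lit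 410) (nat_lit 320)) (XT.lf (nat_lit 0) (nat_lit 3693636807) (nat_lit 456) (nat_lit 9373843206) (nat_lit 76) (nat_lit 2699217989) (nat_lit 141) (nat_lit 5) (nat_lit 147) (nat_lit 5) (nat_lit 142) (nat_lit 5) (nat_lit 471) (nat_lit 410) (nat_lit 319)))) (XT.nd (nat_lit 78) (nat_lit 760) (nat_lit 0) (XT.lf (nat_lit 0) (nat_lit 5191455370) (nat_lit 304) (nat_lit 4538162332) (nat_lit 380) (nat_lit 6324262211) (nat_lit 137) (nat_lit 5) (nat_lit 141) (nat_lit 5) (nat_lit 142) (nat_lit 5) (nat_lit 472) (nat_lit 410) (nat_lit 318)) (XT.nd (nat_lit 78) (nat_lit 380) (nat_lit 0) (XT.lf (nat_lit 0) (nat_lit 3945935434) (nat_lit 380) (nat_lit 12085176767) (nat_lit 456) (nat_lit 316879030) (nat_lit 132) (nat_lit 5) (nat_lit 137) (nat_lit 5) (nat_lit 138) (nat_lit 5) (nat_lit 473) (nat_lit 410) (nat_lit 317)) (XT.lf (nat_lit 0) (nat_lit 2612048939) (nat_lit 304) (nat_lit 3270791769) (nat_lit 380) (nat_lit 10765543142)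 (nat_lit 127) (nat_lit 5) (nat_lit 131) (nat_lit 5) (nat_lit 132) (nat_lit 5) (nat_lit 474) (nat_lit 410) (nat_lit 316))))) (XT.nd (nat_lit 234) (nat_lit 988) (nat_lit 0) (XT.nd (nat_lit 78) (nat_lit 380) (nat_lit 0) (XT.lf (nat_lit 0) (nat_lit 1215058686) (nat_lit 304) (nat_lit 11147610472) (nat_lit 380) (nat_lit 4593111184) (nat_lit 123) (nat_lit 5) (nat_lit 127) (nat_lit 5) (nat_lit 128) (nat_lit 5) (nat_lit 475) (nat_lit 410) (nat_lit 315)) (XT.nd (nat_lit 78) (nat_lit 304) (nat_lit 0) (XT.lf (nat_lit 0) (nat_lit 1827565489) (nat_lit 380) (nat_lit 238649408) (nat_lit 76) (nat_lit 15204232756) (nat_lit 122) (nat_lit 5) (nat_lit 127) (nat_lit 5) (nat_lit 123) (nat_lit 5) (nat_lit 476) (nat_lit 410) (nat_lit 314)) (XT.lf (nat_lit 0) (nat_lit 8499361598) (nat_lit 380) (nat_lit 1783694652) (nat_lit 76) (nat_lit 7308475741) (nat_lit 118) (nat_lit 5) (nat_lit 123) (nat_lit 5) (nat_lit 119) (nat_lit 5)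 (nat_lit 477) (nat_lit 410) (nat_lit 313)))) (XT.nd (nat_lit 78) (nat_lit 684) (nat_lit 0) (XT.lf (nat_lit 0) (nat_lit 14545159151) (nat_lit 304) (nat_lit 906003338) (nat_lit 380) (nat_lit 2469491537) (nat_lit 114) (nat_lit 5) (nat_lit 118) (nat_lit 5) (nat_lit 119) (nat_lit 5) (nat_lit 478) (nat_lit 410) (nat_lit 312)) (XT.nd (nat_lit 78) (nat_lit 304) (nat_lit 0) (XT.lf (nat_lit 0) (nat_lit 4420708511) (nat_lit 380) (nat_lit 5089403765) (nat_lit 76) (nat_lit 8746456091) (nat_lit 109) (nat_lit 5) (nat_lit 114) (nat_lit 5) (nat_lit 110) (nat_lit 5) (nat_lit 479) (nat_lit 410) (nat_lit 311)) (XT.lf (nat_lit 0) (nat_lit 11561419252) (nat_lit 380) (nat_lit 6868304660) (nat_lit 76) (nat_lit 170964670) (nat_lit 105) (nat_lit 5) (nat_lit 110) (nat_lit 5) (nat_lit 106) (nat_lit 5) (nat_lit 480) (nat_lit 410) (nat_lit 310)))))) (XT.nd (nat_lit 468) (nat_lit 608) (nat_lit 0) (XT.nd (nat_lit 234) (nat_lit 836)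 (nat_lit 0) (XT.nd (nat_lit 78) (nat_lit 532) (nat_lit 0) (XT.lf (nat_lit 0) (nat_lit 98340650) (nat_lit 304) (nat_lit 8756635478) (nat_lit 76) (nat_lit 10097430969) (nat_lit 101) (nat_lit 5) (nat_lit 105) (nat_lit 5) (nat_lit 102) (nat_lit 5) (nat_lit 481) (nat_lit 410) (nat_lit 309)) (XT.nd (nat_lit 78) (nat_lit 228) (nat_lit 0) (XT.lf (nat_lit 0) (nat_lit 7436433552) (nat_lit 380) (nat_lit 10749738789) (nat_lit 76) (nat_lit 1125936286) (nat_lit 97) (nat_lit 5) (nat_lit 102) (nat_lit 5) (nat_lit 98) (nat_lit 5) (nat_lit 482) (nat_lit 410) (nat_lit 308)) (XT.lf (nat_lit 0) (nat_lit 6822458659) (nat_lit 228) (nat_lit 8307408793) (nat_lit 304) (nat_lit 4550031597) (nat_lit 94) (nat_lit 5) (nat_lit 97) (nat_lit 5) (nat_lit 98) (nat_lit 5) (nat_lit 483) (nat_lit 410) (nat_lit 307)))) (XT.nd (nat_lit 78) (nat_lit 456) (nat_lit 0) (XT.lf (nat_lit 0) (nat_lit 3047080727) (nat_lit 380) (nat_lit 15058530004)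 (nat_lit 76) (nat_lit 1950905525) (nat_lit 89) (nat_lit 5) (nat_lit 94) (nat_lit 5) (nat_lit 90) (nat_lit 5) (nat_lit 484) (nat_lit 410) (nat_lit 306)) (XT.nd (nat_lit 78) (nat_lit 228) (nat_lit 0) (XT.lf (nat_lit 0) (nat_lit 3029466902) (nat_lit 228) (nat_lit 7916781667) (nat_lit 304) (nat_lit 9494864383) (nat_lit 86) (nat_lit 5) (nat_lit 89) (nat_lit 5) (nat_lit 90) (nat_lit 5) (nat_lit 485) (nat_lit 410) (nat_lit 305)) (XT.lf (nat_lit 0) (nat_lit 980715082) (nat_lit 228) (nat_lit 18200557477) (nat_lit 304) (nat_lit 1653998993) (nat_lit 83) (nat_lit 5) (nat_lit 86) (nat_lit 5) (nat_lit 87) (nat_lit 5) (nat_lit 486) (nat_lit 410) (nat_lit 304))))) (XT.nd (nat_lit 56550) (nat_lit 0) (nat_lit 43168) (XT.nd (nat_lit 78) (nat_lit 532) (nat_lit 0) (XT.lf (nat_lit 0) (nat_lit 6482952679) (nat_lit 304) (nat_lit 1216504387) (nat_lit 76) (nat_lit 13538063715) (nat_lit 82) (nat_lit 5) (nat_lit 86) (nat_lit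 5) (nat_lit 83) (nat_lit 5) (nat_lit 487) (nat_lit 410) (nat_lit 303)) (XT.nd (nat_lit 78) (nat_lit 304) (nat_lit 0) (XT.lf (nat_lit 0) (nat_lit 14954724175) (nat_lit 304) (nat_lit 3506945292) (nat_lit 76) (nat_lit 3187687210) (nat_lit 79) (nat_lit 5) (nat_lit 83) (nat_lit 5) (nat_lit 80) (nat_lit 5) (nat_lit 488) (nat_lit 410) (nat_lit 302)) (XT.lf (nat_lit 0) (nat_lit 1726040832) (nat_lit 304) (nat_lit 5940325970) (nat_lit 76) (nat_lit 14404173247) (nat_lit 75) (nat_lit 5) (nat_lit 79) (nat_lit 5) (nat_lit 76) (nat_lit 5) (nat_lit 489) (nat_lit 410) (nat_lit 301)))) (XT.nd (nat_lit 78) (nat_lit 1064) (nat_lit 0) (XT.lf (nat_lit 0) (nat_lit 666177687) (nat_lit 0) (nat_lit 666177687) (nat_lit 988) (nat_lit 2145881556) (nat_lit 657) (nat_lit 5) (nat_lit 657) (nat_lit 3) (nat_lit 670) (nat_lit 3) (nat_lit 411) (nat_lit 411) (nat_lit 378)) (XT.nd (nat_lit 78) (nat_lit 1064) (nat_lit 0) (XT.lf (nat_lit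 0) (nat_lit 5480858782) (nat_lit 988) (nat_lit 490803855) (nat_lit 1064) (nat_lit 1033049865) (nat_lit 657) (nat_lit 5) (nat_lit 670) (nat_lit 3) (nat_lit 671) (nat_lit 5) (nat_lit 412) (nat_lit 411) (nat_lit 377)) (XT.lf (nat_lit 0) (nat_lit 1241521931) (nat_lit 1064) (nat_lit 2270045869) (nat_lit 1140) (nat_lit 3544043874) (nat_lit 643) (nat_lit 5) (nat_lit 657) (nat_lit 5) (nat_lit 658) (nat_lit 5) (nat_lit 413) (nat_lit 411) (nat_lit 376))))))))
noncomputable def xc62 : XT := (XT.nd (nat_lit 1794) (nat_lit 14820) (nat_lit 0) (XT.nd (nat_lit 858) (nat_lit 13148) (nat_lit 0) (XT.nd (nat_lit 390) (nat_lit 2432) (nat_lit 0) (XT.nd (nat_lit 156) (nat_lit 2204) (nat_lit 0) (XT.nd (nat_lit 78) (nat_lit 0) (nat_lit 76) (XT.lf (nat_lit 76) (nat_lit 3092231839) (nat_lit 0) (nat_lit 894795664) (nat_lit 1140) (nat_lit 3122473155) (nat_lit 644) (nat_lit 5) (nat_lit 643) (nat_lit 5) (nat_lit 658) (nat_lit 5)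 (nat_lit 414) (nat_lit 411) (nat_lit 375)) (XT.lf (nat_lit 76) (nat_lit 1430175128) (nat_lit 0) (nat_lit 5318529268) (nat_lit 1140) (nat_lit 417646889) (nat_lit 645) (nat_lit 5) (nat_lit 644) (nat_lit 5) (nat_lit 659) (nat_lit 5) (nat_lit 415) (nat_lit 411) (nat_lit 374))) (XT.nd (nat_lit 78) (nat_lit 1140) (nat_lit 0) (XT.lf (nat_lit 0) (nat_lit 2269929079) (nat_lit 1140) (nat_lit 208823375) (nat_lit 1216) (nat_lit 4747214202) (nat_lit 629) (nat_lit 5) (nat_lit 644) (nat_lit 5) (nat_lit 645) (nat_lit 5) (nat_lit 416) (nat_lit 411) (nat_lit 373)) (XT.nd (nat_lit 78) (nat_lit 1216) (nat_lit 0) (XT.lf (nat_lit 0) (nat_lit 4973805154) (nat_lit 1140) (nat_lit 1795581878) (nat_lit 1216) (nat_lit 519120798) (nat_lit 630) (nat_lit 5) (nat_lit 645) (nat_lit 5) (nat_lit 646) (nat_lit 5) (nat_lit 417) (nat_lit 411) (nat_lit 372)) (XT.lf (nat_lit 0) (nat_lit 349066861) (nat_lit 1216) (nat_lit 3363274598) (nat_lit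 1292) (nat_lit 3641579279) (nat_lit 614) (nat_lit 5) (nat_lit 630) (nat_lit 5) (nat_lit 631) (nat_lit 5) (nat_lit 418) (nat_lit 411) (nat_lit 371))))) (XT.nd (nat_lit 234) (nat_lit 1216) (nat_lit 0) (XT.nd (nat_lit 78) (nat_lit 1216) (nat_lit 0) (XT.lf (nat_lit 76) (nat_lit 2512587053) (nat_lit 0) (nat_lit 484167385) (nat_lit 1292) (nat_lit 4425544554) (nat_lit 615) (nat_lit 5) (nat_lit 614) (nat_lit 5) (nat_lit 631) (nat_lit 5) (nat_lit 419) (nat_lit 411) (nat_lit 370)) (XT.nd (nat_lit 78) (nat_lit 1292) (nat_lit 0) (XT.lf (nat_lit 76) (nat_lit 1053824260) (nat_lit 0) (nat_lit 4627545337) (nat_lit 1292) (nat_lit 1812226546) (nat_lit 616) (nat_lit 5) (nat_lit 615) (nat_lit 5) (nat_lit 632) (nat_lit 5) (nat_lit 420) (nat_lit 411) (nat_lit 369)) (XT.lf (nat_lit 0) (nat_lit 815610305) (nat_lit 1292) (nat_lit 372182533) (nat_lit 1368) (nat_lit 6380188736) (nat_lit 598) (nat_lit 5) (nat_lit 615) (nat_lit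 5) (nat_lit 616) (nat_lit 5) (nat_lit 421) (nat_lit 411) (nat_lit 368)))) (XT.nd (nat_lit 78) (nat_lit 1292) (nat_lit 0) (XT.lf (nat_lit 0) (nat_lit 3465332595) (nat_lit 1292) (nat_lit 1777025981) (nat_lit 1368) (nat_lit 2402663150) (nat_lit 599) (nat_lit 5) (nat_lit 616) (nat_lit 5) (nat_lit 617) (nat_lit 5) (nat_lit 422) (nat_lit 411) (nat_lit 367)) (XT.nd (nat_lit 78) (nat_lit 1292) (nat_lit 0) (XT.lf (nat_lit 76) (nat_lit 4568814157) (nat_lit 0) (nat_lit 1581719381) (nat_lit 1368) (nat_lit 1574735498) (nat_lit 600) (nat_lit 5) (nat_lit 599) (nat_lit 5) (nat_lit 617) (nat_lit 5) (nat_lit 423) (nat_lit 411) (nat_lit 366)) (XT.lf (nat_lit 0) (nat_lit 1059351967) (nat_lit 1368) (nat_lit 4525205858) (nat_lit 1444) (nat_lit 2223926519) (nat_lit 582) (nat_lit 5) (nat_lit 600) (nat_lit 5) (nat_lit 601) (nat_lit 5) (nat_lit 424) (nat_lit 411) (nat_lit 365)))))) (XT.nd (nat_lit 468) (nat_lit 7144) (nat_lit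 0) (XT.nd (nat_lit 234) (nat_lit 4636) (nat_lit 0) (XT.nd (nat_lit 78) (nat_lit 1368) (nat_lit 0) (XT.lf (nat_lit 76) (nat_lit 2010504284) (nat_lit 0) (nat_lit 1705373339) (nat_lit 1444) (nat_lit 4178828608) (nat_lit 583) (nat_lit 5) (nat_lit 582) (nat_lit 5) (nat_lit 601) (nat_lit 5) (nat_lit 425) (nat_lit 411) (nat_lit 364)) (XT.nd (nat_lit 78) (nat_lit 76) (nat_lit 0) (XT.lf (nat_lit 0) (nat_lit 755170821) (nat_lit 1368) (nat_lit 5669178062) (nat_lit 1444) (nat_lit 1559734976) (nat_lit 565) (nat_lit 5) (nat_lit 583) (nat_lit 5) (nat_lit 584) (nat_lit 5) (nat_lit 426) (nat_lit 411) (nat_lit 363)) (XT.lf (nat_lit 0) (nat_lit 1097532772) (nat_lit 1444) (nat_lit 481167880) (nat_lit 76) (nat_lit 6497817288) (nat_lit 564) (nat_lit 5) (nat_lit 583) (nat_lit 5) (nat_lit 565) (nat_lit 5) (nat_lit 427) (nat_lit 411) (nat_lit 362)))) (XT.nd (nat_lit 78) (nat_lit 3192) (nat_lit 0) (XT.lf (nat_lit 0) (nat_lit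 3798329786) (nat_lit 1520) (nat_lit 1705370407) (nat_lit 76) (nat_lit 2668131629) (nat_lit 545) (nat_lit 5) (nat_lit 565) (nat_lit 5) (nat_lit 546) (nat_lit 5) (nat_lit 428) (nat_lit 411) (nat_lit 361)) (XT.nd (nat_lit 78) (nat_lit 1672) (nat_lit 0) (XT.lf (nat_lit 0) (nat_lit 5359008602) (nat_lit 1520) (nat_lit 1196897446) (nat_lit 1596) (nat_lit 1714596596) (nat_lit 525) (nat_lit 5) (nat_lit 545) (nat_lit 5) (nat_lit 546) (nat_lit 5) (nat_lit 429) (nat_lit 411) (nat_lit 360)) (XT.lf (nat_lit 0) (nat_lit 999832428) (nat_lit 1672) (nat_lit 4117805876) (nat_lit 76) (nat_lit 3254590584) (nat_lit 503) (nat_lit 5) (nat_lit 525) (nat_lit 5) (nat_lit 504) (nat_lit 5) (nat_lit 430) (nat_lit 411) (nat_lit 359))))) (XT.nd (nat_lit 234) (nat_lit 1976) (nat_lit 0) (XT.nd (nat_lit 78) (nat_lit 3496) (nat_lit 0) (XT.lf (nat_lit 0) (nat_lit 3160035668) (nat_lit 1672) (nat_lit 591031855) (nat_lit 1748) (nat_lit 4726151043)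 (nat_lit 481) (nat_lit 5) (nat_lit 503) (nat_lit 5) (nat_lit 504) (nat_lit 5) (nat_lit 431) (nat_lit 411) (nat_lit 358)) (XT.nd (nat_lit 78) (nat_lit 1748) (nat_lit 0) (XT.lf (nat_lit 0) (nat_lit 2067454959) (nat_lit 1748) (nat_lit 4517190345) (nat_lit 1824) (nat_lit 2000727851) (nat_lit 458) (nat_lit 5) (nat_lit 481) (nat_lit 5) (nat_lit 482) (nat_lit 5) (nat_lit 432) (nat_lit 411) (nat_lit 357)) (XT.lf (nat_lit 0) (nat_lit 776969771) (nat_lit 1748) (nat_lit 7705269799) (nat_lit 76) (nat_lit 214817106) (nat_lit 435) (nat_lit 5) (nat_lit 458) (nat_lit 5) (nat_lit 436) (nat_lit 5) (nat_lit 433) (nat_lit 411) (nat_lit 356)))) (XT.nd (nat_lit 78) (nat_lit 1976) (nat_lit 0) (XT.lf (nat_lit 0) (nat_lit 3620244539) (nat_lit 1748) (nat_lit 100190770) (nat_lit 76) (nat_lit 5091212805) (nat_lit 435) (nat_lit 5) (nat_lit 458) (nat_lit 5) (nat_lit 436) (nat_lit 5) (nat_lit 434) (nat_lit 411) (nat_lit 355)) (XT.nd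 (nat_lit 78) (nat_lit 988) (nat_lit 0) (XT.lf (nat_lit 0) (nat_lit 6543862278) (nat_lit 1064) (nat_lit 1162301818) (nat_lit 76) (nat_lit 1223622474) (nat_lit 422) (nat_lit 5) (nat_lit 436) (nat_lit 5) (nat_lit 423) (nat_lit 5) (nat_lit 435) (nat_lit 411) (nat_lit 354)) (XT.lf (nat_lit 0) (nat_lit 505042418) (nat_lit 988) (nat_lit 2228532543) (nat_lit 76) (nat_lit 6317679898) (nat_lit 409) (nat_lit 5) (nat_lit 422) (nat_lit 5) (nat_lit 410) (nat_lit 5) (nat_lit 436) (nat_lit 411) (nat_lit 353))))))) (XT.nd (nat_lit 858) (nat_lit 6764) (nat_lit 0) (XT.nd (nat_lit 390) (nat_lit 3800) (nat_lit 0) (XT.nd (nat_lit 156) (nat_lit 2508) (nat_lit 0) (XT.nd (nat_lit 78) (nat_lit 836) (nat_lit 0) (XT.lf (nat_lit 0) (nat_lit 3451614070) (nat_lit 988) (nat_lit 3303547744) (nat_lit 76) (nat_lit 2420873535) (nat_lit 397) (nat_lit 5) (nat_lit 410) (nat_lit 5) (nat_lit 398) (nat_lit 5) (nat_lit 437) (nat_lit 411) (nat_lit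 352)) (XT.lf (nat_lit 0) (nat_lit 4929323116) (nat_lit 836) (nat_lit 1563167050) (nat_lit 912) (nat_lit 2811960064) (nat_lit 386) (nat_lit 5) (nat_lit 397) (nat_lit 5) (nat_lit 398) (nat_lit 5) (nat_lit 438) (nat_lit 411) (nat_lit 351))) (XT.nd (nat_lit 78) (nat_lit 1596) (nat_lit 0) (XT.lf (nat_lit 0) (nat_lit 200255572) (nat_lit 912) (nat_lit 5451997144) (nat_lit 76) (nat_lit 3784152237) (nat_lit 374) (nat_lit 5) (nat_lit 386) (nat_lit 5) (nat_lit 375) (nat_lit 5) (nat_lit 439) (nat_lit 411) (nat_lit 350)) (XT.nd (nat_lit 78) (nat_lit 836) (nat_lit 0) (XT.lf (nat_lit 0) (nat_lit 3033491605) (nat_lit 760) (nat_lit 234052003) (nat_lit 836) (nat_lit 6304353211) (nat_lit 364) (nat_lit 5) (nat_lit 374) (nat_lit 5) (nat_lit 375) (nat_lit 5) (nat_lit 440) (nat_lit 411) (nat_lit 349)) (XT.lf (nat_lit 0) (nat_lit 2069773911) (nat_lit 836) (nat_lit 4386386802) (nat_lit 912) (nat_lit 3254714704) (nat_lit 353)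 (nat_lit 5) (nat_lit 364) (nat_lit 5) (nat_lit 365) (nat_lit 5) (nat_lit 441) (nat_lit 411) (nat_lit 348))))) (XT.nd (nat_lit 234) (nat_lit 2204) (nat_lit 0) (XT.nd (nat_lit 78) (nat_lit 836) (nat_lit 0) (XT.lf (nat_lit 0) (nat_lit 1117650082) (nat_lit 760) (nat_lit 8629132198) (nat_lit 836) (nat_lit 107122120) (nat_lit 343) (nat_lit 5) (nat_lit 353) (nat_lit 5) (nat_lit 354) (nat_lit 5) (nat_lit 442) (nat_lit 411) (nat_lit 347)) (XT.nd (nat_lit 78) (nat_lit 0) (nat_lit 0) (XT.lf (nat_lit 0) (nat_lit 135587988) (nat_lit 760) (nat_lit 2986573190) (nat_lit 836) (nat_lit 6878096009) (nat_lit 332) (nat_lit 5) (nat_lit 342) (nat_lit 5) (nat_lit 343) (nat_lit 5) (nat_lit 443) (nat_lit 411) (nat_lit 346)) (XT.lf (nat_lit 0) (nat_lit 6472004465) (nat_lit 836) (nat_lit 835882413) (nat_lit 76) (nat_lit 2842604123) (nat_lit 332) (nat_lit 5) (nat_lit 343) (nat_lit 5) (nat_lit 333) (nat_lit 5) (nat_lit 444) (nat_lit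 411) (nat_lit 345)))) (XT.nd (nat_lit 78) (nat_lit 1520) (nat_lit 0) (XT.lf (nat_lit 0) (nat_lit 8497196199) (nat_lit 684) (nat_lit 1449020294) (nat_lit 760) (nat_lit 358544997) (nat_lit 323) (nat_lit 5) (nat_lit 332) (nat_lit 5) (nat_lit 333) (nat_lit 5) (nat_lit 445) (nat_lit 411) (nat_lit 344)) (XT.nd (nat_lit 78) (nat_lit 684) (nat_lit 0) (XT.lf (nat_lit 0) (nat_lit 3056162752) (nat_lit 836) (nat_lit 2812179295) (nat_lit 76) (nat_lit 4594221087) (nat_lit 312) (nat_lit 5) (nat_lit 323) (nat_lit 5) (nat_lit 313) (nat_lit 5) (nat_lit 446) (nat_lit 411) (nat_lit 343)) (XT.lf (nat_lit 0) (nat_lit 6586747749) (nat_lit 760) (nat_lit 3814852321) (nat_lit 76) (nat_lit 223091798) (nat_lit 303) (nat_lit 5) (nat_lit 313) (nat_lit 5) (nat_lit 304) (nat_lit 5) (nat_lit 447) (nat_lit 411) (nat_lit 342)))))) (XT.nd (nat_lit 468) (nat_lit 2888) (nat_lit 0) (XT.nd (nat_lit 234) (nat_lit 1824) (nat_lit 0) (XT.nd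 (nat_lit 78) (nat_lit 1368) (nat_lit 0) (XT.lf (nat_lit 0) (nat_lit 5948588546) (nat_lit 684) (nat_lit 4323294167) (nat_lit 760) (nat_lit 518835501) (nat_lit 294) (nat_lit 5) (nat_lit 303) (nat_lit 5) (nat_lit 304) (nat_lit 5) (nat_lit 448) (nat_lit 411) (nat_lit 341)) (XT.nd (nat_lit 78) (nat_lit 684) (nat_lit 0) (XT.lf (nat_lit 0) (nat_lit 3089493168) (nat_lit 684) (nat_lit 5889316169) (nat_lit 76) (nat_lit 1982031187) (nat_lit 285) (nat_lit 5) (nat_lit 294) (nat_lit 5) (nat_lit 286) (nat_lit 5) (nat_lit 449) (nat_lit 411) (nat_lit 340)) (XT.lf (nat_lit 0) (nat_lit 4178244532) (nat_lit 684) (nat_lit 2663150227) (nat_lit 760) (nat_lit 4293761626) (nat_lit 276) (nat_lit 5) (nat_lit 285) (nat_lit 5) (nat_lit 286) (nat_lit 5) (nat_lit 450) (nat_lit 411) (nat_lit 339)))) (XT.nd (nat_lit 78) (nat_lit 1216) (nat_lit 0) (XT.lf (nat_lit 0) (nat_lit 3274952898) (nat_lit 608) (nat_lit 7471468334) (nat_lit 684)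 (nat_lit 567474871) (nat_lit 268) (nat_lit 5) (nat_lit 276) (nat_lit 5) (nat_lit 277) (nat_lit 5) (nat_lit 451) (nat_lit 411) (nat_lit 338)) (XT.nd (nat_lit 78) (nat_lit 532) (nat_lit 0) (XT.lf (nat_lit 0) (nat_lit 2346354415) (nat_lit 608) (nat_lit 916703239) (nat_lit 684) (nat_lit 8233814090) (nat_lit 259) (nat_lit 5) (nat_lit 267) (nat_lit 5) (nat_lit 268) (nat_lit 5) (nat_lit 452) (nat_lit 411) (nat_lit 337)) (XT.lf (nat_lit 0) (nat_lit 1388276564) (nat_lit 532) (nat_lit 5870022483) (nat_lit 608) (nat_lit 4425817838) (nat_lit 252) (nat_lit 5) (nat_lit 259) (nat_lit 5) (nat_lit 260) (nat_lit 5) (nat_lit 453) (nat_lit 411) (nat_lit 336))))) (XT.nd (nat_lit 234) (nat_lit 1672) (nat_lit 0) (XT.nd (nat_lit 78) (nat_lit 608) (nat_lit 0) (XT.lf (nat_lit 0) (nat_lit 429552383) (nat_lit 608) (nat_lit 10977280693) (nat_lit 684) (nat_lit 469482745) (nat_lit 244) (nat_lit 5) (nat_lit 252) (nat_lit 5) (nat_lit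 253) (nat_lit 5) (nat_lit 454) (nat_lit 411) (nat_lit 335)) (XT.nd (nat_lit 78) (nat_lit 532) (nat_lit 0) (XT.lf (nat_lit 0) (nat_lit 3624927472) (nat_lit 684) (nat_lit 574789073) (nat_lit 76) (nat_lit 7872767442) (nat_lit 243) (nat_lit 5) (nat_lit 252) (nat_lit 5) (nat_lit 244) (nat_lit 5) (nat_lit 455) (nat_lit 411) (nat_lit 334)) (XT.lf (nat_lit 0) (nat_lit 7882224006) (nat_lit 608) (nat_lit 1586530435) (nat_lit 76) (nat_lit 2804796800) (nat_lit 236) (nat_lit 5) (nat_lit 244) (nat_lit 5) (nat_lit 237) (nat_lit 5) (nat_lit 456) (nat_lit 411) (nat_lit 333)))) (XT.nd (nat_lit 78) (nat_lit 1140) (nat_lit 0) (XT.lf (nat_lit 0) (nat_lit 9860576215) (nat_lit 532) (nat_lit 2461900034) (nat_lit 608) (nat_lit 157074149) (nat_lit 229) (nat_lit 5) (nat_lit 236) (nat_lit 5) (nat_lit 237) (nat_lit 5) (nat_lit 457) (nat_lit 411) (nat_lit 332)) (XT.nd (nat_lit 78) (nat_lit 532) (nat_lit 0) (XT.lf (nat_lit 0) (nat_lit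 4209642192) (nat_lit 608) (nat_lit 3704094087) (nat_lit 76) (nat_lit 4776240225) (nat_lit 221) (nat_lit 5) (nat_lit 229) (nat_lit 5) (nat_lit 222) (nat_lit 5) (nat_lit 458) (nat_lit 411) (nat_lit 331)) (XT.lf (nat_lit 0) (nat_lit 8102922980) (nat_lit 532) (nat_lit 649766588) (nat_lit 608) (nat_lit 4153060058) (nat_lit 214) (nat_lit 5) (nat_lit 221) (nat_lit 5) (nat_lit 222) (nat_lit 5) (nat_lit 459) (nat_lit 411) (nat_lit 330))))))))
noncomputable def xc63 : XT := (XT.nd (nat_lit 1794) (nat_lit 1672) (nat_lit 0) (XT.nd (nat_lit 858) (nat_lit 3876) (nat_lit 0) (XT.nd (nat_lit 390) (nat_lit 2204) (nat_lit 0) (XT.nd (nat_lit 156) (nat_lit 1444) (nat_lit 0) (XT.nd (nat_lit 78) (nat_lit 532) (nat_lit 0) (XT.lf (nat_lit 0) (nat_lit 378040576) (nat_lit 532) (nat_lit 5945790896) (nat_lit 76) (nat_lit 6802569142) (nat_lit 207) (nat_lit 5) (nat_lit 214) (nat_lit 5) (nat_lit 208) (nat_lit 5) (nat_lit 460) (nat_lit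 411) (nat_lit 329)) (XT.lf (nat_lit 0) (nat_lit 5036111028) (nat_lit 608) (nat_lit 7128010515) (nat_lit 76) (nat_lit 1188055288) (nat_lit 200) (nat_lit 5) (nat_lit 208) (nat_lit 5) (nat_lit 201) (nat_lit 5) (nat_lit 461) (nat_lit 411) (nat_lit 328))) (XT.nd (nat_lit 78) (nat_lit 988) (nat_lit 0) (XT.lf (nat_lit 0) (nat_lit 5229396385) (nat_lit 456) (nat_lit 4683754339) (nat_lit 532) (nat_lit 3669994898) (nat_lit 194) (nat_lit 5) (nat_lit 200) (nat_lit 5) (nat_lit 201) (nat_lit 5) (nat_lit 462) (nat_lit 411) (nat_lit 327)) (XT.nd (nat_lit 78) (nat_lit 456) (nat_lit 0) (XT.lf (nat_lit 0) (nat_lit 1159910340) (nat_lit 532) (nat_lit 9610203778) (nat_lit 76) (nat_lit 3049606525) (nat_lit 187) (nat_lit 5) (nat_lit 194) (nat_lit 5) (nat_lit 188) (nat_lit 5) (nat_lit 463) (nat_lit 411) (nat_lit 326)) (XT.lf (nat_lit 0) (nat_lit 3133909844) (nat_lit 456) (nat_lit 3023450663) (nat_lit 532) (nat_lit 7904100602)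 (nat_lit 181) (nat_lit 5) (nat_lit 187) (nat_lit 5) (nat_lit 188) (nat_lit 5) (nat_lit 464) (nat_lit 411) (nat_lit 325))))) (XT.nd (nat_lit 234) (nat_lit 1292) (nat_lit 0) (XT.nd (nat_lit 78) (nat_lit 456) (nat_lit 0) (XT.lf (nat_lit 0) (nat_lit 2024206201) (nat_lit 456) (nat_lit 9355590089) (nat_lit 532) (nat_lit 2929159694) (nat_lit 175) (nat_lit 5) (nat_lit 181) (nat_lit 5) (nat_lit 182) (nat_lit 5) (nat_lit 465) (nat_lit 411) (nat_lit 324)) (XT.nd (nat_lit 78) (nat_lit 0) (nat_lit 0) (XT.lf (nat_lit 0) (nat_lit 876130949) (nat_lit 380) (nat_lit 1355220272) (nat_lit 456) (nat_lit 12330940524) (nat_lit 169) (nat_lit 5) (nat_lit 174) (nat_lit 5) (nat_lit 175) (nat_lit 5) (nat_lit 466) (nat_lit 411) (nat_lit 323)) (XT.lf (nat_lit 0) (nat_lit 7600860255) (nat_lit 456) (nat_lit 338253009) (nat_lit 76) (nat_lit 6881850684) (nat_lit 169) (nat_lit 5) (nat_lit 175) (nat_lit 5) (nat_lit 170) (nat_lit 5) (nat_lit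 467) (nat_lit 411) (nat_lit 322)))) (XT.nd (nat_lit 78) (nat_lit 836) (nat_lit 0) (XT.lf (nat_lit 0) (nat_lit 13196780549) (nat_lit 532) (nat_lit 1560179920) (nat_lit 76) (nat_lit 329132412) (nat_lit 163) (nat_lit 5) (nat_lit 170) (nat_lit 5) (nat_lit 164) (nat_lit 5) (nat_lit 468) (nat_lit 411) (nat_lit 321)) (XT.nd (nat_lit 78) (nat_lit 380) (nat_lit 0) (XT.lf (nat_lit 0) (nat_lit 3658309074) (nat_lit 456) (nat_lit 2868750415) (nat_lit 76) (nat_lit 8829568685) (nat_lit 157) (nat_lit 5) (nat_lit 163) (nat_lit 5) (nat_lit 158) (nat_lit 5) (nat_lit 469) (nat_lit 411) (nat_lit 320)) (XT.lf (nat_lit 0) (nat_lit 9412139671) (nat_lit 456) (nat_lit 4215997870) (nat_lit 76) (nat_lit 2005586090) (nat_lit 152) (nat_lit 5) (nat_lit 158) (nat_lit 5) (nat_lit 153) (nat_lit 5) (nat_lit 470) (nat_lit 411) (nat_lit 319)))))) (XT.nd (nat_lit 468) (nat_lit 1672) (nat_lit 0) (XT.nd (nat_lit 234) (nat_lit 1064) (nat_lit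 0) (XT.nd (nat_lit 78) (nat_lit 760) (nat_lit 0) (XT.lf (nat_lit 0) (nat_lit 10295137449) (nat_lit 380) (nat_lit 5141282672) (nat_lit 456) (nat_lit 480757899) (nat_lit 147) (nat_lit 5) (nat_lit 152) (nat_lit 5) (nat_lit 153) (nat_lit 5) (nat_lit 471) (nat_lit 411) (nat_lit 318)) (XT.nd (nat_lit 78) (nat_lit 304) (nat_lit 0) (XT.lf (nat_lit 0) (nat_lit 5441321804) (nat_lit 456) (nat_lit 7105459803) (nat_lit 76) (nat_lit 3660046177) (nat_lit 141) (nat_lit 5) (nat_lit 147) (nat_lit 5) (nat_lit 142) (nat_lit 5) (nat_lit 472) (nat_lit 411) (nat_lit 317)) (XT.lf (nat_lit 0) (nat_lit 7855433519) (nat_lit 304) (nat_lit 3771557732) (nat_lit 380) (nat_lit 4876265613) (nat_lit 137) (nat_lit 5) (nat_lit 141) (nat_lit 5) (nat_lit 142) (nat_lit 5) (nat_lit 473) (nat_lit 411) (nat_lit 316)))) (XT.nd (nat_lit 78) (nat_lit 608) (nat_lit 0) (XT.lf (nat_lit 0) (nat_lit 1269090340) (nat_lit 456) (nat_lit 10257237111)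 (nat_lit 76) (nat_lit 5280198500) (nat_lit 131) (nat_lit 5) (nat_lit 137) (nat_lit 5) (nat_lit 132) (nat_lit 5) (nat_lit 474) (nat_lit 411) (nat_lit 315)) (XT.nd (nat_lit 78) (nat_lit 304) (nat_lit 0) (XT.lf (nat_lit 0) (nat_lit 5164372644) (nat_lit 304) (nat_lit 2455865538) (nat_lit 380) (nat_lit 9496259038) (nat_lit 127) (nat_lit 5) (nat_lit 131) (nat_lit 5) (nat_lit 132) (nat_lit 5) (nat_lit 475) (nat_lit 411) (nat_lit 314)) (XT.lf (nat_lit 0) (nat_lit 3710333357) (nat_lit 304) (nat_lit 10560384437) (nat_lit 380) (nat_lit 3162876180) (nat_lit 123) (nat_lit 5) (nat_lit 127) (nat_lit 5) (nat_lit 128) (nat_lit 5) (nat_lit 476) (nat_lit 411) (nat_lit 313))))) (XT.nd (nat_lit 234) (nat_lit 988) (nat_lit 0) (XT.nd (nat_lit 78) (nat_lit 304) (nat_lit 0) (XT.lf (nat_lit 0) (nat_lit 2190199474) (nat_lit 304) (nat_lit 1208804826) (nat_lit 380) (nat_lit 14359113745) (nat_lit 118) (nat_lit 5) (nat_lit 122)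 (nat_lit 5) (nat_lit 123) (nat_lit 5) (nat_lit 477) (nat_lit 411) (nat_lit 312)) (XT.nd (nat_lit 78) (nat_lit 0) (nat_lit 0) (XT.lf (nat_lit 0) (nat_lit 562177641) (nat_lit 304) (nat_lit 9675629447) (nat_lit 380) (nat_lit 7851693996) (nat_lit 114) (nat_lit 5) (nat_lit 118) (nat_lit 5) (nat_lit 119) (nat_lit 5) (nat_lit 478) (nat_lit 411) (nat_lit 311)) (XT.lf (nat_lit 0) (nat_lit 17334716477) (nat_lit 304) (nat_lit 31972654) (nat_lit 380) (nat_lit 1062440239) (nat_lit 114) (nat_lit 5) (nat_lit 118) (nat_lit 5) (nat_lit 119) (nat_lit 5) (nat_lit 479) (nat_lit 411) (nat_lit 310)))) (XT.nd (nat_lit 78) (nat_lit 608) (nat_lit 0) (XT.lf (nat_lit 0) (nat_lit 5993464784) (nat_lit 380) (nat_lit 2884908079) (nat_lit 76) (nat_lit 9896990445) (nat_lit 109) (nat_lit 5) (nat_lit 114) (nat_lit 5) (nat_lit 110) (nat_lit 5) (nat_lit 480) (nat_lit 411) (nat_lit 309)) (XT.nd (nat_lit 78) (nat_lit 304) (nat_lit 0) (XT.lf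 (nat_lit 0) (nat_lit 13327387574) (nat_lit 380) (nat_lit 4732937326) (nat_lit 76) (nat_lit 1069905309) (nat_lit 105) (nat_lit 5) (nat_lit 110) (nat_lit 5) (nat_lit 106) (nat_lit 5) (nat_lit 481) (nat_lit 411) (nat_lit 308)) (XT.lf (nat_lit 0) (nat_lit 1503354216) (nat_lit 304) (nat_lit 6697180218) (nat_lit 76) (nat_lit 11292311742) (nat_lit 101) (nat_lit 5) (nat_lit 105) (nat_lit 5) (nat_lit 102) (nat_lit 5) (nat_lit 482) (nat_lit 411) (nat_lit 307))))))) (XT.nd (nat_lit 57330) (nat_lit 0) (nat_lit 35416) (XT.nd (nat_lit 468) (nat_lit 0) (nat_lit 0) (XT.nd (nat_lit 234) (nat_lit 760) (nat_lit 0) (XT.nd (nat_lit 78) (nat_lit 608) (nat_lit 0) (XT.lf (nat_lit 0) (nat_lit 9041483542) (nat_lit 380) (nat_lit 8766038527) (nat_lit 76) (nat_lit 2056221486) (nat_lit 97) (nat_lit 5) (nat_lit 102) (nat_lit 5) (nat_lit 98) (nat_lit 5) (nat_lit 483) (nat_lit 411) (nat_lit 306)) (XT.nd (nat_lit 78) (nat_lit 380)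 (nat_lit 0) (XT.lf (nat_lit 0) (nat_lit 9295909611) (nat_lit 228) (nat_lit 7644290080) (nat_lit 304) (nat_lit 3302881011) (nat_lit 94) (nat_lit 5) (nat_lit 97) (nat_lit 5) (nat_lit 98) (nat_lit 5) (nat_lit 484) (nat_lit 411) (nat_lit 305)) (XT.lf (nat_lit 0) (nat_lit 4484739232) (nat_lit 380) (nat_lit 13239397240) (nat_lit 76) (nat_lit 2907067927) (nat_lit 89) (nat_lit 5) (nat_lit 94) (nat_lit 5) (nat_lit 90) (nat_lit 5) (nat_lit 485) (nat_lit 411) (nat_lit 304)))) (XT.nd (nat_lit 78) (nat_lit 532) (nat_lit 0) (XT.lf (nat_lit 0) (nat_lit 5354397102) (nat_lit 228) (nat_lit 7241778866) (nat_lit 304) (nat_lit 8431659552) (nat_lit 86) (nat_lit 5) (nat_lit 89) (nat_lit 5) (nat_lit 90) (nat_lit 5) (nat_lit 486) (nat_lit 411) (nat_lit 303)) (XT.nd (nat_lit 78) (nat_lit 304) (nat_lit 0) (XT.lf (nat_lit 0) (nat_lit 3228190221) (nat_lit 228) (nat_lit 17831722114) (nat_lit 304) (nat_lit 374275641) (nat_lit 83)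 (nat_lit 5) (nat_lit 86) (nat_lit 5) (nat_lit 87) (nat_lit 5) (nat_lit 487) (nat_lit 411) (nat_lit 302)) (XT.lf (nat_lit 0) (nat_lit 929643830) (nat_lit 228) (nat_lit 7027531104) (nat_lit 304) (nat_lit 13891802849) (nat_lit 79) (nat_lit 5) (nat_lit 82) (nat_lit 5) (nat_lit 83) (nat_lit 5) (nat_lit 488) (nat_lit 411) (nat_lit 301))))) (XT.nd (nat_lit 56628) (nat_lit 0) (nat_lit 41724) (XT.nd (nat_lit 56472) (nat_lit 0) (nat_lit 42788) (XT.lf (nat_lit 0) (nat_lit 16659573641) (nat_lit 304) (nat_lit 1457579219) (nat_lit 76) (nat_lit 4156488567) (nat_lit 79) (nat_lit 5) (nat_lit 83) (nat_lit 5) (nat_lit 80) (nat_lit 5) (nat_lit 489) (nat_lit 411) (nat_lit 300)) (XT.nd (nat_lit 78) (nat_lit 0) (nat_lit 0) (XT.lf (nat_lit 0) (nat_lit 580225607) (nat_lit 1140) (nat_lit 1473423794) (nat_lit 1140) (nat_lit 1473423794) (nat_lit 642) (nat_lit 3) (nat_lit 657) (nat_lit 3) (nat_lit 657) (nat_lit 5) (nat_lit 412)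 (nat_lit 412) (nat_lit 376)) (XT.lf (nat_lit 76) (nat_lit 2276806511) (nat_lit 0) (nat_lit 1544072779) (nat_lit 1140) (nat_lit 3285678338) (nat_lit 643) (nat_lit 5) (nat_lit 642) (nat_lit 3) (nat_lit 657) (nat_lit 5) (nat_lit 413) (nat_lit 412) (nat_lit 375)))) (XT.nd (nat_lit 78) (nat_lit 1140) (nat_lit 0) (XT.lf (nat_lit 76) (nat_lit 481003811) (nat_lit 0) (nat_lit 6007863630) (nat_lit 1140) (nat_lit 673139912) (nat_lit 644) (nat_lit 5) (nat_lit 643) (nat_lit 5) (nat_lit 658) (nat_lit 5) (nat_lit 414) (nat_lit 412) (nat_lit 374)) (XT.nd (nat_lit 78) (nat_lit 0) (nat_lit 0) (XT.lf (nat_lit 0) (nat_lit 1933940647) (nat_lit 1140) (nat_lit 1280797435) (nat_lit 1216) (nat_lit 4005287963) (nat_lit 628) (nat_lit 5) (nat_lit 643) (nat_lit 5) (nat_lit 644) (nat_lit 5) (nat_lit 415) (nat_lit 412) (nat_lit 373)) (XT.lf (nat_lit 76) (nat_lit 4278777946) (nat_lit 0) (nat_lit 261433335) (nat_lit 1216) (nat_lit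 2740902063) (nat_lit 629) (nat_lit 5) (nat_lit 628) (nat_lit 5) (nat_lit 644) (nat_lit 5) (nat_lit 416) (nat_lit 412) (nat_lit 372)))))) (XT.nd (nat_lit 468) (nat_lit 3952) (nat_lit 0) (XT.nd (nat_lit 234) (nat_lit 1216) (nat_lit 0) (XT.nd (nat_lit 78) (nat_lit 1216) (nat_lit 0) (XT.lf (nat_lit 76) (nat_lit 2639756544) (nat_lit 0) (nat_lit 4533902990) (nat_lit 1216) (nat_lit 171412864) (nat_lit 630) (nat_lit 5) (nat_lit 629) (nat_lit 5) (nat_lit 645) (nat_lit 5) (nat_lit 417) (nat_lit 412) (nat_lit 371)) (XT.nd (nat_lit 78) (nat_lit 0) (nat_lit 76) (XT.lf (nat_lit 76) (nat_lit 1021182494) (nat_lit 0) (nat_lit 1357214959) (nat_lit 1292) (nat_lit 5033535406) (nat_lit 614) (nat_lit 5) (nat_lit 613) (nat_lit 5) (nat_lit 630) (nat_lit 5) (nat_lit 418) (nat_lit 412) (nat_lit 370)) (XT.lf (nat_lit 0) (nat_lit 4956343533) (nat_lit 1216) (nat_lit 567148068) (nat_lit 1292) (nat_lit 1958222957) (nat_lit 614)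 (nat_lit 5) (nat_lit 630) (nat_lit 5) (nat_lit 631) (nat_lit 5) (nat_lit 419) (nat_lit 412) (nat_lit 369)))) (XT.nd (nat_lit 78) (nat_lit 0) (nat_lit 76) (XT.lf (nat_lit 0) (nat_lit 13422411) (nat_lit 1292) (nat_lit 2116577338) (nat_lit 1368) (nat_lit 5424476164) (nat_lit 597) (nat_lit 5) (nat_lit 614) (nat_lit 5) (nat_lit 615) (nat_lit 5) (nat_lit 420) (nat_lit 412) (nat_lit 368)) (XT.nd (nat_lit 78) (nat_lit 0) (nat_lit 0) (XT.lf (nat_lit 0) (nat_lit 2547044379) (nat_lit 1292) (nat_lit 3658467764) (nat_lit 1368) (nat_lit 1424530784) (nat_lit 598) (nat_lit 5) (nat_lit 615) (nat_lit 5) (nat_lit 616) (nat_lit 5) (nat_lit 421) (nat_lit 412) (nat_lit 367)) (XT.lf (nat_lit 76) (nat_lit 2525874546) (nat_lit 0) (nat_lit 2591921211) (nat_lit 1368) (nat_lit 2590874471) (nat_lit 599) (nat_lit 5) (nat_lit 598) (nat_lit 5) (nat_lit 616) (nat_lit 5) (nat_lit 422) (nat_lit 412) (nat_lit 366))))) (XT.nd (nat_lit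 234) (nat_lit 2736) (nat_lit 0) (XT.nd (nat_lit 78) (nat_lit 1368) (nat_lit 0) (XT.lf (nat_lit 76) (nat_lit 1106098812) (nat_lit 0) (nat_lit 6617337129) (nat_lit 1368) (nat_lit 67080316) (nat_lit 600) (nat_lit 5) (nat_lit 599) (nat_lit 5) (nat_lit 617) (nat_lit 5) (nat_lit 423) (nat_lit 412) (nat_lit 365)) (XT.nd (nat_lit 78) (nat_lit 0) (nat_lit 76) (XT.lf (nat_lit 0) (nat_lit 2471662730) (nat_lit 1368) (nat_lit 311237872) (nat_lit 1444) (nat_lit 5092153757) (nat_lit 581) (nat_lit 5) (nat_lit 599) (nat_lit 5) (nat_lit 600) (nat_lit 5) (nat_lit 424) (nat_lit 412) (nat_lit 364)) (XT.lf (nat_lit 0) (nat_lit 5056517571) (nat_lit 1368) (nat_lit 1691863168) (nat_lit 1444) (nat_lit 1214335860) (nat_lit 582) (nat_lit 5) (nat_lit 600) (nat_lit 5) (nat_lit 601) (nat_lit 5) (nat_lit 425) (nat_lit 412) (nat_lit 363)))) (XT.nd (nat_lit 78) (nat_lit 2812) (nat_lit 0) (XT.lf (nat_lit 76) (nat_lit 4991748176) (nat_lit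 0) (nat_lit 2704458776) (nat_lit 1444) (nat_lit 357269646) (nat_lit 583) (nat_lit 5) (nat_lit 582) (nat_lit 5) (nat_lit 601) (nat_lit 5) (nat_lit 426) (nat_lit 412) (nat_lit 362)) (XT.nd (nat_lit 78) (nat_lit 1444) (nat_lit 0) (XT.lf (nat_lit 0) (nat_lit 2209557987) (nat_lit 1444) (nat_lit 4427856607) (nat_lit 76) (nat_lit 1509839742) (nat_lit 564) (nat_lit 5) (nat_lit 583) (nat_lit 5) (nat_lit 565) (nat_lit 5) (nat_lit 427) (nat_lit 412) (nat_lit 361)) (XT.lf (nat_lit 0) (nat_lit 2456510959) (nat_lit 1444) (nat_lit 2374377796) (nat_lit 1520) (nat_lit 3413275010) (nat_lit 545) (nat_lit 5) (nat_lit 564) (nat_lit 5) (nat_lit 565) (nat_lit 5) (nat_lit 428) (nat_lit 412) (nat_lit 360))))))))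
noncomputable def xc64 : XT := (XT.nd (nat_lit 1794) (nat_lit 10564) (nat_lit 0) (XT.nd (nat_lit 858) (nat_lit 8284) (nat_lit 0) (XT.nd (nat_lit 390) (nat_lit 5472) (nat_lit 0) (XT.nd (nat_lit 156) (nat_lit 5092) (nat_lit 0) (XT.nd (nat_lit 78) (nat_lit 76) (nat_lit 0) (XT.lf (nat_lit 0) (nat_lit 1209085145) (nat_lit 1520) (nat_lit 6302164691) (nat_lit 1596) (nat_lit 833135096) (nat_lit 525) (nat_lit 5) (nat_lit 545) (nat_lit 5) (nat_lit 546) (nat_lit 5) (nat_lit 429) (nat_lit 412) (nat_lit 359)) (XT.lf (nat_lit 0) (nat_lit 1786303417) (nat_lit 1596) (nat_lit 37976286) (nat_lit 76) (nat_lit 6623391363) (nat_lit 524) (nat_lit 5) (nat_lit 545) (nat_lit 5) (nat_lit 525) (nat_lit 5) (nat_lit 430) (nat_lit 412) (nat_lit 358))) (XT.nd (nat_lit 78) (nat_lit 3496) (nat_lit 0) (XT.lf (nat_lit 0) (nat_lit 4471520763) (nat_lit 1672) (nat_lit 1266784607) (nat_lit 76) (nat_lit 2815681311) (nat_lit 503) (nat_lit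 5) (nat_lit 525) (nat_lit 5) (nat_lit 504) (nat_lit 5) (nat_lit 431) (nat_lit 412) (nat_lit 357)) (XT.nd (nat_lit 78) (nat_lit 1824) (nat_lit 0) (XT.lf (nat_lit 0) (nat_lit 6181133555) (nat_lit 1672) (nat_lit 1042915319) (nat_lit 1748) (nat_lit 1439718810) (nat_lit 481) (nat_lit 5) (nat_lit 503) (nat_lit 5) (nat_lit 504) (nat_lit 5) (nat_lit 432) (nat_lit 412) (nat_lit 356)) (XT.lf (nat_lit 0) (nat_lit 1267505104) (nat_lit 1824) (nat_lit 3707410659) (nat_lit 76) (nat_lit 3801730072) (nat_lit 457) (nat_lit 5) (nat_lit 481) (nat_lit 5) (nat_lit 458) (nat_lit 5) (nat_lit 433) (nat_lit 412) (nat_lit 355))))) (XT.nd (nat_lit 234) (nat_lit 1824) (nat_lit 0) (XT.nd (nat_lit 78) (nat_lit 1976) (nat_lit 0) (XT.lf (nat_lit 0) (nat_lit 3967138155) (nat_lit 1672) (nat_lit 55875600) (nat_lit 1748) (nat_lit 4869983850) (nat_lit 435) (nat_lit 5) (nat_lit 457) (nat_lit 5) (nat_lit 458) (nat_lit 5) (nat_lit 434) (nat_lit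 412) (nat_lit 354)) (XT.nd (nat_lit 78) (nat_lit 988) (nat_lit 0) (XT.lf (nat_lit 0) (nat_lit 2857514521) (nat_lit 988) (nat_lit 4018406845) (nat_lit 1064) (nat_lit 2136633760) (nat_lit 422) (nat_lit 5) (nat_lit 435) (nat_lit 5) (nat_lit 436) (nat_lit 5) (nat_lit 435) (nat_lit 412) (nat_lit 353)) (XT.lf (nat_lit 0) (nat_lit 661868347) (nat_lit 988) (nat_lit 7375663110) (nat_lit 76) (nat_lit 1098248118) (nat_lit 409) (nat_lit 5) (nat_lit 422) (nat_lit 5) (nat_lit 410) (nat_lit 5) (nat_lit 436) (nat_lit 412) (nat_lit 352)))) (XT.nd (nat_lit 78) (nat_lit 912) (nat_lit 0) (XT.lf (nat_lit 0) (nat_lit 644370605) (nat_lit 912) (nat_lit 2884927225) (nat_lit 988) (nat_lit 5732849572) (nat_lit 397) (nat_lit 5) (nat_lit 409) (nat_lit 5) (nat_lit 410) (nat_lit 5) (nat_lit 437) (nat_lit 412) (nat_lit 351)) (XT.nd (nat_lit 78) (nat_lit 912) (nat_lit 0) (XT.lf (nat_lit 0) (nat_lit 6490944195) (nat_lit 988) (nat_lit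 459391085) (nat_lit 76) (nat_lit 2441815961) (nat_lit 397) (nat_lit 5) (nat_lit 410) (nat_lit 5) (nat_lit 398) (nat_lit 5) (nat_lit 438) (nat_lit 412) (nat_lit 350)) (XT.lf (nat_lit 0) (nat_lit 30171160) (nat_lit 912) (nat_lit 1553249376) (nat_lit 76) (nat_lit 7942341329) (nat_lit 385) (nat_lit 5) (nat_lit 397) (nat_lit 5) (nat_lit 386) (nat_lit 5) (nat_lit 439) (nat_lit 412) (nat_lit 349)))))) (XT.nd (nat_lit 468) (nat_lit 3572) (nat_lit 0) (XT.nd (nat_lit 234) (nat_lit 2280) (nat_lit 0) (XT.nd (nat_lit 78) (nat_lit 1596) (nat_lit 0) (XT.lf (nat_lit 0) (nat_lit 3029791804) (nat_lit 912) (nat_lit 2672371529) (nat_lit 76) (nat_lit 3960447778) (nat_lit 374) (nat_lit 5) (nat_lit 386) (nat_lit 5) (nat_lit 375) (nat_lit 5) (nat_lit 440) (nat_lit 412) (nat_lit 348)) (XT.nd (nat_lit 78) (nat_lit 836) (nat_lit 0) (XT.lf (nat_lit 0) (nat_lit 6019932194) (nat_lit 760) (nat_lit 105726681) (nat_lit 836) (nat_lit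 3677789749) (nat_lit 364) (nat_lit 5) (nat_lit 374) (nat_lit 5) (nat_lit 375) (nat_lit 5) (nat_lit 441) (nat_lit 412) (nat_lit 347)) (XT.lf (nat_lit 0) (nat_lit 5034166431) (nat_lit 836) (nat_lit 4315073941) (nat_lit 912) (nat_lit 598581837) (nat_lit 353) (nat_lit 5) (nat_lit 364) (nat_lit 5) (nat_lit 365) (nat_lit 5) (nat_lit 442) (nat_lit 412) (nat_lit 346)))) (XT.nd (nat_lit 78) (nat_lit 1444) (nat_lit 0) (XT.lf (nat_lit 0) (nat_lit 2549903625) (nat_lit 836) (nat_lit 6054504755) (nat_lit 76) (nat_lit 1491578918) (nat_lit 342) (nat_lit 5) (nat_lit 353) (nat_lit 5) (nat_lit 343) (nat_lit 5) (nat_lit 443) (nat_lit 412) (nat_lit 345)) (XT.nd (nat_lit 78) (nat_lit 684) (nat_lit 0) (XT.lf (nat_lit 0) (nat_lit 3035027809) (nat_lit 760) (nat_lit 2780948663) (nat_lit 836) (nat_lit 4431923562) (nat_lit 332) (nat_lit 5) (nat_lit 342) (nat_lit 5) (nat_lit 343) (nat_lit 5) (nat_lit 444) (nat_lit 412) (nat_lit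 344)) (XT.lf (nat_lit 0) (nat_lit 2025627263) (nat_lit 684) (nat_lit 7179967920) (nat_lit 760) (nat_lit 1198270618) (nat_lit 323) (nat_lit 5) (nat_lit 332) (nat_lit 5) (nat_lit 333) (nat_lit 5) (nat_lit 445) (nat_lit 412) (nat_lit 343))))) (XT.nd (nat_lit 234) (nat_lit 2052) (nat_lit 0) (XT.nd (nat_lit 78) (nat_lit 684) (nat_lit 0) (XT.lf (nat_lit 0) (nat_lit 1000743871) (nat_lit 760) (nat_lit 1128962165) (nat_lit 836) (nat_lit 8434028578) (nat_lit 312) (nat_lit 5) (nat_lit 322) (nat_lit 5) (nat_lit 323) (nat_lit 5) (nat_lit 446) (nat_lit 412) (nat_lit 342)) (XT.nd (nat_lit 78) (nat_lit 684) (nat_lit 0) (XT.lf (nat_lit 0) (nat_lit 5583628169) (nat_lit 836) (nat_lit 49113682) (nat_lit 76) (nat_lit 5094657906) (nat_lit 312) (nat_lit 5) (nat_lit 323) (nat_lit 5) (nat_lit 313) (nat_lit 5) (nat_lit 447) (nat_lit 412) (nat_lit 341)) (XT.lf (nat_lit 0) (nat_lit 9170088436) (nat_lit 760) (nat_lit 1082802731)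 (nat_lit 76) (nat_lit 642511490) (nat_lit 303) (nat_lit 5) (nat_lit 313) (nat_lit 5) (nat_lit 304) (nat_lit 5) (nat_lit 448) (nat_lit 412) (nat_lit 340)))) (XT.nd (nat_lit 78) (nat_lit 1292) (nat_lit 0) (XT.lf (nat_lit 0) (nat_lit 1822802246) (nat_lit 760) (nat_lit 2152076855) (nat_lit 76) (nat_lit 7092326151) (nat_lit 293) (nat_lit 5) (nat_lit 303) (nat_lit 5) (nat_lit 294) (nat_lit 5) (nat_lit 449) (nat_lit 412) (nat_lit 339)) (XT.nd (nat_lit 78) (nat_lit 684) (nat_lit 0) (XT.lf (nat_lit 0) (nat_lit 5485163612) (nat_lit 684) (nat_lit 3236960024) (nat_lit 76) (nat_lit 2521191108) (nat_lit 285) (nat_lit 5) (nat_lit 294) (nat_lit 5) (nat_lit 286) (nat_lit 5) (nat_lit 450) (nat_lit 412) (nat_lit 338)) (XT.lf (nat_lit 0) (nat_lit 7086729756) (nat_lit 684) (nat_lit 2213885219) (nat_lit 760) (nat_lit 2123233734) (nat_lit 276) (nat_lit 5) (nat_lit 285) (nat_lit 5) (nat_lit 286) (nat_lit 5) (nat_lit 451)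 (nat_lit 412) (nat_lit 337))))))) (XT.nd (nat_lit 858) (nat_lit 4788) (nat_lit 0) (XT.nd (nat_lit 390) (nat_lit 2736) (nat_lit 0) (XT.nd (nat_lit 156) (nat_lit 1748) (nat_lit 0) (XT.nd (nat_lit 78) (nat_lit 608) (nat_lit 0) (XT.lf (nat_lit 0) (nat_lit 1647780205) (nat_lit 684) (nat_lit 5467252140) (nat_lit 76) (nat_lit 4493595091) (nat_lit 267) (nat_lit 5) (nat_lit 276) (nat_lit 5) (nat_lit 268) (nat_lit 5) (nat_lit 452) (nat_lit 412) (nat_lit 336)) (XT.lf (nat_lit 0) (nat_lit 5180235719) (nat_lit 608) (nat_lit 358475023) (nat_lit 684) (nat_lit 6259250589) (nat_lit 259) (nat_lit 5) (nat_lit 267) (nat_lit 5) (nat_lit 268) (nat_lit 5) (nat_lit 453) (nat_lit 412) (nat_lit 335))) (XT.nd (nat_lit 78) (nat_lit 1216) (nat_lit 0) (XT.lf (nat_lit 0) (nat_lit 4187945628) (nat_lit 532) (nat_lit 5424032883) (nat_lit 608) (nat_lit 2379689544) (nat_lit 252) (nat_lit 5) (nat_lit 259) (nat_lit 5) (nat_lit 260) (nat_lit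 5) (nat_lit 454) (nat_lit 412) (nat_lit 334)) (XT.nd (nat_lit 78) (nat_lit 532) (nat_lit 0) (XT.lf (nat_lit 0) (nat_lit 1632400837) (nat_lit 684) (nat_lit 9007172553) (nat_lit 76) (nat_lit 1550660673) (nat_lit 243) (nat_lit 5) (nat_lit 252) (nat_lit 5) (nat_lit 244) (nat_lit 5) (nat_lit 455) (nat_lit 412) (nat_lit 333)) (XT.lf (nat_lit 0) (nat_lit 2134853770) (nat_lit 532) (nat_lit 3660862989) (nat_lit 608) (nat_lit 6597466447) (nat_lit 236) (nat_lit 5) (nat_lit 243) (nat_lit 5) (nat_lit 244) (nat_lit 5) (nat_lit 456) (nat_lit 412) (nat_lit 332))))) (XT.nd (nat_lit 234) (nat_lit 1596) (nat_lit 0) (XT.nd (nat_lit 78) (nat_lit 608) (nat_lit 0) (XT.lf (nat_lit 0) (nat_lit 1071150241) (nat_lit 532) (nat_lit 9064474545) (nat_lit 608) (nat_lit 2465566669) (nat_lit 229) (nat_lit 5) (nat_lit 236) (nat_lit 5) (nat_lit 237) (nat_lit 5) (nat_lit 457) (nat_lit 412) (nat_lit 331)) (XT.nd (nat_lit 78) (nat_lit 532)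 (nat_lit 0) (XT.lf (nat_lit 0) (nat_lit 1822216963) (nat_lit 608) (nat_lit 22371863) (nat_lit 76) (nat_lit 10969514784) (nat_lit 228) (nat_lit 5) (nat_lit 236) (nat_lit 5) (nat_lit 229) (nat_lit 5) (nat_lit 458) (nat_lit 412) (nat_lit 330)) (XT.lf (nat_lit 0) (nat_lit 6281645410) (nat_lit 608) (nat_lit 1149921800) (nat_lit 76) (nat_lit 5599983942) (nat_lit 221) (nat_lit 5) (nat_lit 229) (nat_lit 5) (nat_lit 222) (nat_lit 5) (nat_lit 459) (nat_lit 412) (nat_lit 329)))) (XT.nd (nat_lit 78) (nat_lit 1064) (nat_lit 0) (XT.lf (nat_lit 0) (nat_lit 10921640426) (nat_lit 608) (nat_lit 2286835393) (nat_lit 76) (nat_lit 46114652) (nat_lit 214) (nat_lit 5) (nat_lit 222) (nat_lit 5) (nat_lit 215) (nat_lit 5) (nat_lit 460) (nat_lit 412) (nat_lit 328)) (XT.nd (nat_lit 78) (nat_lit 532) (nat_lit 0) (XT.lf (nat_lit 0) (nat_lit 2274001576) (nat_lit 532) (nat_lit 3486279915) (nat_lit 76) (nat_lit 7722024343) (nat_lit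 207) (nat_lit 5) (nat_lit 214) (nat_lit 5) (nat_lit 208) (nat_lit 5) (nat_lit 461) (nat_lit 412) (nat_lit 327)) (XT.lf (nat_lit 0) (nat_lit 7038631167) (nat_lit 608) (nat_lit 4714502218) (nat_lit 76) (nat_lit 1962391273) (nat_lit 200) (nat_lit 5) (nat_lit 208) (nat_lit 5) (nat_lit 201) (nat_lit 5) (nat_lit 462) (nat_lit 412) (nat_lit 326)))))) (XT.nd (nat_lit 468) (nat_lit 1976) (nat_lit 0) (XT.nd (nat_lit 234) (nat_lit 1368) (nat_lit 0) (XT.nd (nat_lit 78) (nat_lit 988) (nat_lit 0) (XT.lf (nat_lit 0) (nat_lit 7971001280) (nat_lit 456) (nat_lit 4053837167) (nat_lit 532) (nat_lit 1929332435) (nat_lit 194) (nat_lit 5) (nat_lit 200) (nat_lit 5) (nat_lit 201) (nat_lit 5) (nat_lit 463) (nat_lit 412) (nat_lit 325)) (XT.nd (nat_lit 78) (nat_lit 456) (nat_lit 0) (XT.lf (nat_lit 0) (nat_lit 2989707900) (nat_lit 532) (nat_lit 7300735469) (nat_lit 76) (nat_lit 3907794470) (nat_lit 187) (nat_lit 5) (nat_lit 194)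 (nat_lit 5) (nat_lit 188) (nat_lit 5) (nat_lit 464) (nat_lit 412) (nat_lit 324)) (XT.lf (nat_lit 0) (nat_lit 5783555759) (nat_lit 456) (nat_lit 2317837090) (nat_lit 532) (nat_lit 6346556526) (nat_lit 181) (nat_lit 5) (nat_lit 187) (nat_lit 5) (nat_lit 188) (nat_lit 5) (nat_lit 465) (nat_lit 412) (nat_lit 323)))) (XT.nd (nat_lit 78) (nat_lit 912) (nat_lit 0) (XT.lf (nat_lit 0) (nat_lit 4628794597) (nat_lit 456) (nat_lit 8822001095) (nat_lit 532) (nat_lit 1252672455) (nat_lit 175) (nat_lit 5) (nat_lit 181) (nat_lit 5) (nat_lit 182) (nat_lit 5) (nat_lit 466) (nat_lit 412) (nat_lit 322)) (XT.nd (nat_lit 78) (nat_lit 456) (nat_lit 0) (XT.lf (nat_lit 0) (nat_lit 3427929021) (nat_lit 380) (nat_lit 577266948) (nat_lit 456) (nat_lit 10959669957) (nat_lit 169) (nat_lit 5) (nat_lit 174) (nat_lit 5) (nat_lit 175) (nat_lit 5) (nat_lit 467) (nat_lit 412) (nat_lit 321)) (XT.lf (nat_lit 0) (nat_lit 2160019470) (nat_lit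 456) (nat_lit 7345239580) (nat_lit 532) (nat_lit 5726654427) (nat_lit 163) (nat_lit 5) (nat_lit 169) (nat_lit 5) (nat_lit 170) (nat_lit 5) (nat_lit 468) (nat_lit 412) (nat_lit 320))))) (XT.nd (nat_lit 234) (nat_lit 1140) (nat_lit 0) (XT.nd (nat_lit 78) (nat_lit 456) (nat_lit 0) (XT.lf (nat_lit 0) (nat_lit 871786160) (nat_lit 380) (nat_lit 14361589550) (nat_lit 456) (nat_lit 272338616) (nat_lit 158) (nat_lit 5) (nat_lit 163) (nat_lit 5) (nat_lit 164) (nat_lit 5) (nat_lit 469) (nat_lit 412) (nat_lit 319)) (XT.nd (nat_lit 78) (nat_lit 380) (nat_lit 0) (XT.lf (nat_lit 0) (nat_lit 5381985639) (nat_lit 456) (nat_lit 505916061) (nat_lit 76) (nat_lit 9897006373) (nat_lit 157) (nat_lit 5) (nat_lit 163) (nat_lit 5) (nat_lit 158) (nat_lit 5) (nat_lit 470) (nat_lit 412) (nat_lit 318)) (XT.lf (nat_lit 0) (nat_lit 11282432335) (nat_lit 456) (nat_lit 1906890706) (nat_lit 76) (nat_lit 2881517418) (nat_lit 152) (nat_lit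 5) (nat_lit 158) (nat_lit 5) (nat_lit 153) (nat_lit 5) (nat_lit 471) (nat_lit 412) (nat_lit 317)))) (XT.nd (nat_lit 78) (nat_lit 684) (nat_lit 0) (XT.lf (nat_lit 0) (nat_lit 1078992189) (nat_lit 456) (nat_lit 3370450786) (nat_lit 76) (nat_lit 11913831371) (nat_lit 146) (nat_lit 5) (nat_lit 152) (nat_lit 5) (nat_lit 147) (nat_lit 5) (nat_lit 472) (nat_lit 412) (nat_lit 316)) (XT.nd (nat_lit 78) (nat_lit 304) (nat_lit 0) (XT.lf (nat_lit 0) (nat_lit 7147473979) (nat_lit 456) (nat_lit 4915382294) (nat_lit 76) (nat_lit 4599192128) (nat_lit 141) (nat_lit 5) (nat_lit 147) (nat_lit 5) (nat_lit 142) (nat_lit 5) (nat_lit 473) (nat_lit 412) (nat_lit 315)) (XT.lf (nat_lit 0) (nat_lit 10455348093) (nat_lit 304) (nat_lit 3033776506) (nat_lit 380) (nat_lit 3478841200) (nat_lit 137) (nat_lit 5) (nat_lit 141) (nat_lit 5) (nat_lit 142) (nat_lit 5) (nat_lit 474) (nat_lit 412) (nat_lit 314))))))))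
noncomputable def xc65 : XT := (XT.nd (nat_lit 58266) (nat_lit 0) (nat_lit 19988) (XT.nd (nat_lit 858) (nat_lit 1140) (nat_lit 0) (XT.nd (nat_lit 390) (nat_lit 1520) (nat_lit 0) (XT.nd (nat_lit 156) (nat_lit 988) (nat_lit 0) (XT.nd (nat_lit 78) (nat_lit 304) (nat_lit 0) (XT.lf (nat_lit 0) (nat_lit 2807017079) (nat_lit 456) (nat_lit 8194550557) (nat_lit 76) (nat_lit 6279040605) (nat_lit 131) (nat_lit 5) (nat_lit 137) (nat_lit 5) (nat_lit 132) (nat_lit 5) (nat_lit 475) (nat_lit 412) (nat_lit 313)) (XT.lf (nat_lit 0) (nat_lit 7651250507) (nat_lit 304) (nat_lit 1668904325) (nat_lit 380) (nat_lit 8280298097) (nat_lit 127) (nat_lit 5) (nat_lit 131) (nat_lit 5) (nat_lit 132) (nat_lit 5) (nat_lit 476) (nat_lit 412) (nat_lit 312))) (XT.nd (nat_lit 78) (nat_lit 684) (nat_lit 0) (XT.lf (nat_lit 0) (nat_lit 6139319775) (nat_lit 304) (nat_lit 10008448350) (nat_lit 380) (nat_lit 1779745366) (nat_lit 123) (nat_lit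 5) (nat_lit 127) (nat_lit 5) (nat_lit 128) (nat_lit 5) (nat_lit 477) (nat_lit 412) (nat_lit 311)) (XT.nd (nat_lit 78) (nat_lit 304) (nat_lit 0) (XT.lf (nat_lit 0) (nat_lit 4555156128) (nat_lit 304) (nat_lit 376894754) (nat_lit 380) (nat_lit 13330084733) (nat_lit 118) (nat_lit 5) (nat_lit 122) (nat_lit 5) (nat_lit 123) (nat_lit 5) (nat_lit 478) (nat_lit 412) (nat_lit 310)) (XT.lf (nat_lit 0) (nat_lit 2863705642) (nat_lit 304) (nat_lit 9090936405) (nat_lit 380) (nat_lit 6649248656) (nat_lit 114) (nat_lit 5) (nat_lit 118) (nat_lit 5) (nat_lit 119) (nat_lit 5) (nat_lit 479) (nat_lit 412) (nat_lit 309))))) (XT.nd (nat_lit 234) (nat_lit 836) (nat_lit 0) (XT.nd (nat_lit 78) (nat_lit 304) (nat_lit 0) (XT.lf (nat_lit 0) (nat_lit 310548993) (nat_lit 380) (nat_lit 17828487278) (nat_lit 76) (nat_lit 815202358) (nat_lit 109) (nat_lit 5) (nat_lit 114) (nat_lit 5) (nat_lit 110) (nat_lit 5) (nat_lit 480) (nat_lit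 412) (nat_lit 308)) (XT.nd (nat_lit 78) (nat_lit 304) (nat_lit 0) (XT.lf (nat_lit 0) (nat_lit 7530734104) (nat_lit 380) (nat_lit 749589170) (nat_lit 76) (nat_lit 11031057921) (nat_lit 109) (nat_lit 5) (nat_lit 114) (nat_lit 5) (nat_lit 110) (nat_lit 5) (nat_lit 481) (nat_lit 412) (nat_lit 307)) (XT.lf (nat_lit 0) (nat_lit 15064871323) (nat_lit 380) (nat_lit 2667915856) (nat_lit 76) (nat_lit 1944505719) (nat_lit 105) (nat_lit 5) (nat_lit 110) (nat_lit 5) (nat_lit 106) (nat_lit 5) (nat_lit 482) (nat_lit 412) (nat_lit 306)))) (XT.nd (nat_lit 78) (nat_lit 532) (nat_lit 0) (XT.lf (nat_lit 0) (nat_lit 2870034018) (nat_lit 304) (nat_lit 4709242459) (nat_lit 76) (nat_lit 12471836908) (nat_lit 101) (nat_lit 5) (nat_lit 105) (nat_lit 5) (nat_lit 102) (nat_lit 5) (nat_lit 483) (nat_lit 412) (nat_lit 305)) (XT.nd (nat_lit 78) (nat_lit 228) (nat_lit 0) (XT.lf (nat_lit 0) (nat_lit 10615355048) (nat_lit 380) (nat_lit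 6855212137) (nat_lit 76) (nat_lit 2962952065) (nat_lit 97) (nat_lit 5) (nat_lit 102) (nat_lit 5) (nat_lit 98) (nat_lit 5) (nat_lit 484) (nat_lit 412) (nat_lit 304)) (XT.lf (nat_lit 0) (nat_lit 11713327001) (nat_lit 228) (nat_lit 7013649909) (nat_lit 304) (nat_lit 2097743167) (nat_lit 94) (nat_lit 5) (nat_lit 97) (nat_lit 5) (nat_lit 98) (nat_lit 5) (nat_lit 485) (nat_lit 412) (nat_lit 303)))))) (XT.nd (nat_lit 56940) (nat_lit 0) (nat_lit 39368) (XT.nd (nat_lit 234) (nat_lit 228) (nat_lit 0) (XT.nd (nat_lit 78) (nat_lit 532) (nat_lit 0) (XT.lf (nat_lit 0) (nat_lit 5888247460) (nat_lit 380) (nat_lit 11496048792) (nat_lit 76) (nat_lit 3840387266) (nat_lit 89) (nat_lit 5) (nat_lit 94) (nat_lit 5) (nat_lit 90) (nat_lit 5) (nat_lit 486) (nat_lit 412) (nat_lit 302)) (XT.nd (nat_lit 78) (nat_lit 304) (nat_lit 0) (XT.lf (nat_lit 0) (nat_lit 7620831818) (nat_lit 228) (nat_lit 6598907573) (nat_lit 304) (nat_lit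 7413942204) (nat_lit 86) (nat_lit 5) (nat_lit 89) (nat_lit 5) (nat_lit 90) (nat_lit 5) (nat_lit 487) (nat_lit 412) (nat_lit 301)) (XT.lf (nat_lit 0) (nat_lit 856151858) (nat_lit 304) (nat_lit 16642440854) (nat_lit 76) (nat_lit 4553867170) (nat_lit 82) (nat_lit 5) (nat_lit 86) (nat_lit 5) (nat_lit 83) (nat_lit 5) (nat_lit 488) (nat_lit 412) (nat_lit 300)))) (XT.nd (nat_lit 56550) (nat_lit 0) (nat_lit 41648) (XT.lf (nat_lit 0) (nat_lit 3030579665) (nat_lit 228) (nat_lit 6379352455) (nat_lit 304) (nat_lit 13070164452) (nat_lit 79) (nat_lit 5) (nat_lit 82) (nat_lit 5) (nat_lit 83) (nat_lit 5) (nat_lit 489) (nat_lit 412) (nat_lit 299)) (XT.nd (nat_lit 78) (nat_lit 1140) (nat_lit 0) (XT.lf (nat_lit 0) (nat_lit 3200606906) (nat_lit 1140) (nat_lit 189841829) (nat_lit 1140) (nat_lit 189841829) (nat_lit 642) (nat_lit 3) (nat_lit 657) (nat_lit 3) (nat_lit 657) (nat_lit 5) (nat_lit 413) (nat_lit 413) (nat_lit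 374)) (XT.lf (nat_lit 0) (nat_lit 1766028311) (nat_lit 1140) (nat_lit 2271311239) (nat_lit 1216) (nat_lit 3179717316) (nat_lit 627) (nat_lit 5) (nat_lit 642) (nat_lit 3) (nat_lit 643) (nat_lit 5) (nat_lit 414) (nat_lit 413) (nat_lit 373))))) (XT.nd (nat_lit 234) (nat_lit 1140) (nat_lit 0) (XT.nd (nat_lit 78) (nat_lit 1140) (nat_lit 0) (XT.lf (nat_lit 76) (nat_lit 3145830343) (nat_lit 0) (nat_lit 1136440913) (nat_lit 1216) (nat_lit 2994366681) (nat_lit 628) (nat_lit 5) (nat_lit 627) (nat_lit 5) (nat_lit 643) (nat_lit 5) (nat_lit 415) (nat_lit 413) (nat_lit 372)) (XT.nd (nat_lit 78) (nat_lit 1216) (nat_lit 0) (XT.lf (nat_lit 76) (nat_lit 1372077566) (nat_lit 0) (nat_lit 5443482589) (nat_lit 1216) (nat_lit 523634039) (nat_lit 629) (nat_lit 5) (nat_lit 628) (nat_lit 5) (nat_lit 644) (nat_lit 5) (nat_lit 416) (nat_lit 413) (nat_lit 371)) (XT.lf (nat_lit 0) (nat_lit 1937421227) (nat_lit 1216) (nat_lit 380455637)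 (nat_lit 1292) (nat_lit 5086651642) (nat_lit 612) (nat_lit 5) (nat_lit 628) (nat_lit 5) (nat_lit 629) (nat_lit 5) (nat_lit 417) (nat_lit 413) (nat_lit 370)))) (XT.nd (nat_lit 78) (nat_lit 1216) (nat_lit 0) (XT.lf (nat_lit 0) (nat_lit 4416229784) (nat_lit 1216) (nat_lit 2089777198) (nat_lit 1292) (nat_lit 966743414) (nat_lit 613) (nat_lit 5) (nat_lit 629) (nat_lit 5) (nat_lit 630) (nat_lit 5) (nat_lit 418) (nat_lit 413) (nat_lit 369)) (XT.nd (nat_lit 78) (nat_lit 1216) (nat_lit 0) (XT.lf (nat_lit 76) (nat_lit 3762664232) (nat_lit 0) (nat_lit 3161452243) (nat_lit 1292) (nat_lit 619825174) (nat_lit 614) (nat_lit 5) (nat_lit 613) (nat_lit 5) (nat_lit 630) (nat_lit 5) (nat_lit 419) (nat_lit 413) (nat_lit 368)) (XT.lf (nat_lit 0) (nat_lit 1809647742) (nat_lit 1292) (nat_lit 5455205942) (nat_lit 1368) (nat_lit 353296421) (nat_lit 597) (nat_lit 5) (nat_lit 614) (nat_lit 5) (nat_lit 615) (nat_lit 5) (nat_lit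 420) (nat_lit 413) (nat_lit 367))))))) (XT.nd (nat_lit 936) (nat_lit 10564) (nat_lit 0) (XT.nd (nat_lit 468) (nat_lit 6232) (nat_lit 0) (XT.nd (nat_lit 234) (nat_lit 1292) (nat_lit 0) (XT.nd (nat_lit 78) (nat_lit 1292) (nat_lit 0) (XT.lf (nat_lit 76) (nat_lit 571152924) (nat_lit 0) (nat_lit 3699326297) (nat_lit 1368) (nat_lit 3424701437) (nat_lit 598) (nat_lit 5) (nat_lit 597) (nat_lit 5) (nat_lit 615) (nat_lit 5) (nat_lit 421) (nat_lit 413) (nat_lit 366)) (XT.nd (nat_lit 78) (nat_lit 1368) (nat_lit 0) (XT.lf (nat_lit 0) (nat_lit 6760657158) (nat_lit 1292) (nat_lit 975896304) (nat_lit 1368) (nat_lit 38873470) (nat_lit 598) (nat_lit 5) (nat_lit 615) (nat_lit 5) (nat_lit 616) (nat_lit 5) (nat_lit 422) (nat_lit 413) (nat_lit 365)) (XT.lf (nat_lit 0) (nat_lit 1428394070) (nat_lit 1368) (nat_lit 2519212103) (nat_lit 1444) (nat_lit 3910694764) (nat_lit 580) (nat_lit 5) (nat_lit 598) (nat_lit 5) (nat_lit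 599) (nat_lit 5) (nat_lit 423) (nat_lit 413) (nat_lit 364)))) (XT.nd (nat_lit 78) (nat_lit 1368) (nat_lit 0) (XT.lf (nat_lit 0) (nat_lit 3885568551) (nat_lit 1368) (nat_lit 4040443413) (nat_lit 1444) (nat_lit 18439078) (nat_lit 581) (nat_lit 5) (nat_lit 599) (nat_lit 5) (nat_lit 600) (nat_lit 5) (nat_lit 424) (nat_lit 413) (nat_lit 363)) (XT.nd (nat_lit 78) (nat_lit 1368) (nat_lit 0) (XT.lf (nat_lit 76) (nat_lit 2473081217) (nat_lit 0) (nat_lit 3927385476) (nat_lit 1444) (nat_lit 1633052455) (nat_lit 582) (nat_lit 5) (nat_lit 581) (nat_lit 5) (nat_lit 600) (nat_lit 5) (nat_lit 425) (nat_lit 413) (nat_lit 362)) (XT.lf (nat_lit 0) (nat_lit 816041224) (nat_lit 1444) (nat_lit 7061323555) (nat_lit 1520) (nat_lit 248558323) (nat_lit 563) (nat_lit 5) (nat_lit 582) (nat_lit 5) (nat_lit 583) (nat_lit 5) (nat_lit 426) (nat_lit 413) (nat_lit 361))))) (XT.nd (nat_lit 234) (nat_lit 4788) (nat_lit 0) (XT.nd (nat_lit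 78) (nat_lit 1444) (nat_lit 0) (XT.lf (nat_lit 0) (nat_lit 3308399621) (nat_lit 1444) (nat_lit 348501322) (nat_lit 1520) (nat_lit 4564155400) (nat_lit 563) (nat_lit 5) (nat_lit 582) (nat_lit 5) (nat_lit 583) (nat_lit 5) (nat_lit 427) (nat_lit 413) (nat_lit 360)) (XT.nd (nat_lit 78) (nat_lit 1520) (nat_lit 0) (XT.lf (nat_lit 0) (nat_lit 5853010457) (nat_lit 1444) (nat_lit 1725841535) (nat_lit 76) (nat_lit 740654220) (nat_lit 564) (nat_lit 5) (nat_lit 583) (nat_lit 5) (nat_lit 565) (nat_lit 5) (nat_lit 428) (nat_lit 413) (nat_lit 359)) (XT.lf (nat_lit 0) (nat_lit 45235127) (nat_lit 1520) (nat_lit 3102295323) (nat_lit 76) (nat_lit 5273526294) (nat_lit 544) (nat_lit 5) (nat_lit 564) (nat_lit 5) (nat_lit 545) (nat_lit 5) (nat_lit 429) (nat_lit 413) (nat_lit 358)))) (XT.nd (nat_lit 78) (nat_lit 3268) (nat_lit 0) (XT.lf (nat_lit 0) (nat_lit 2579509885) (nat_lit 1596) (nat_lit 4480295674) (nat_lit 76) (nat_lit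 1465919457) (nat_lit 524) (nat_lit 5) (nat_lit 545) (nat_lit 5) (nat_lit 525) (nat_lit 5) (nat_lit 430) (nat_lit 413) (nat_lit 357)) (XT.nd (nat_lit 78) (nat_lit 1672) (nat_lit 0) (XT.lf (nat_lit 0) (nat_lit 2777399414) (nat_lit 1596) (nat_lit 2407112733) (nat_lit 1672) (nat_lit 3449138205) (nat_lit 503) (nat_lit 5) (nat_lit 524) (nat_lit 5) (nat_lit 525) (nat_lit 5) (nat_lit 431) (nat_lit 413) (nat_lit 356)) (XT.lf (nat_lit 0) (nat_lit 1518936777) (nat_lit 1672) (nat_lit 6340717637) (nat_lit 1748) (nat_lit 885329920) (nat_lit 481) (nat_lit 5) (nat_lit 503) (nat_lit 5) (nat_lit 504) (nat_lit 5) (nat_lit 432) (nat_lit 413) (nat_lit 355)))))) (XT.nd (nat_lit 468) (nat_lit 4180) (nat_lit 0) (XT.nd (nat_lit 234) (nat_lit 2888) (nat_lit 0) (XT.nd (nat_lit 78) (nat_lit 1672) (nat_lit 0) (XT.lf (nat_lit 0) (nat_lit 257098960) (nat_lit 1748) (nat_lit 1470150961) (nat_lit 1824) (nat_lit 7132293047) (nat_lit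 457) (nat_lit 5) (nat_lit 480) (nat_lit 5) (nat_lit 481) (nat_lit 5) (nat_lit 433) (nat_lit 413) (nat_lit 354)) (XT.nd (nat_lit 78) (nat_lit 1672) (nat_lit 0) (XT.lf (nat_lit 0) (nat_lit 4417253972) (nat_lit 1824) (nat_lit 997758882) (nat_lit 76) (nat_lit 3562196839) (nat_lit 457) (nat_lit 5) (nat_lit 481) (nat_lit 5) (nat_lit 458) (nat_lit 5) (nat_lit 434) (nat_lit 413) (nat_lit 353)) (XT.lf (nat_lit 0) (nat_lit 6861261066) (nat_lit 1672) (nat_lit 321551934) (nat_lit 1748) (nat_lit 1915705908) (nat_lit 435) (nat_lit 5) (nat_lit 457) (nat_lit 5) (nat_lit 458) (nat_lit 5) (nat_lit 435) (nat_lit 413) (nat_lit 352)))) (XT.nd (nat_lit 78) (nat_lit 1824) (nat_lit 0) (XT.lf (nat_lit 0) (nat_lit 815300468) (nat_lit 1064) (nat_lit 3493195474) (nat_lit 76) (nat_lit 4914515186) (nat_lit 421) (nat_lit 5) (nat_lit 435) (nat_lit 5) (nat_lit 422) (nat_lit 5) (nat_lit 436) (nat_lit 413) (nat_lit 351)) (XT.nd (nat_lit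 78) (nat_lit 912) (nat_lit 0) (XT.lf (nat_lit 0) (nat_lit 3599122901) (nat_lit 988) (nat_lit 4751002820) (nat_lit 76) (nat_lit 1000929738) (nat_lit 409) (nat_lit 5) (nat_lit 422) (nat_lit 5) (nat_lit 410) (nat_lit 5) (nat_lit 437) (nat_lit 413) (nat_lit 350)) (XT.lf (nat_lit 0) (nat_lit 3463460070) (nat_lit 912) (nat_lit 3022320314) (nat_lit 988) (nat_lit 2996782927) (nat_lit 397) (nat_lit 5) (nat_lit 409) (nat_lit 5) (nat_lit 410) (nat_lit 5) (nat_lit 438) (nat_lit 413) (nat_lit 349))))) (XT.nd (nat_lit 234) (nat_lit 1672) (nat_lit 0) (XT.nd (nat_lit 78) (nat_lit 1672) (nat_lit 0) (XT.lf (nat_lit 0) (nat_lit 2331715803) (nat_lit 836) (nat_lit 7136351587) (nat_lit 912) (nat_lit 149776762) (nat_lit 386) (nat_lit 5) (nat_lit 397) (nat_lit 5) (nat_lit 398) (nat_lit 5) (nat_lit 439) (nat_lit 413) (nat_lit 348)) (XT.nd (nat_lit 78) (nat_lit 760) (nat_lit 0) (XT.lf (nat_lit 0) (nat_lit 1181533537) (nat_lit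 836) (nat_lit 1579906379) (nat_lit 912) (nat_lit 6995084211) (nat_lit 374) (nat_lit 5) (nat_lit 385) (nat_lit 5) (nat_lit 386) (nat_lit 5) (nat_lit 440) (nat_lit 413) (nat_lit 347)) (XT.lf (nat_lit 0) (nat_lit 21980239) (nat_lit 760) (nat_lit 5760294503) (nat_lit 836) (nat_lit 4116591344) (nat_lit 364) (nat_lit 5) (nat_lit 374) (nat_lit 5) (nat_lit 375) (nat_lit 5) (nat_lit 441) (nat_lit 413) (nat_lit 346)))) (XT.nd (nat_lit 78) (nat_lit 1672) (nat_lit 0) (XT.lf (nat_lit 0) (nat_lit 8911198479) (nat_lit 836) (nat_lit 1115504081) (nat_lit 76) (nat_lit 18433958) (nat_lit 364) (nat_lit 5) (nat_lit 375) (nat_lit 5) (nat_lit 365) (nat_lit 5) (nat_lit 442) (nat_lit 413) (nat_lit 345)) (XT.nd (nat_lit 78) (nat_lit 760) (nat_lit 0) (XT.lf (nat_lit 0) (nat_lit 1953200102) (nat_lit 912) (nat_lit 2286962137) (nat_lit 76) (nat_lit 5954579771) (nat_lit 352) (nat_lit 5) (nat_lit 364) (nat_lit 5) (nat_lit 353) (nat_lit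 5) (nat_lit 443) (nat_lit 413) (nat_lit 344)) (XT.lf (nat_lit 0) (nat_lit 5132567514) (nat_lit 836) (nat_lit 3461966252) (nat_lit 76) (nat_lit 1753858497) (nat_lit 342) (nat_lit 5) (nat_lit 353) (nat_lit 5) (nat_lit 343) (nat_lit 5) (nat_lit 444) (nat_lit 413) (nat_lit 343))))))))
noncomputable def xc66 : XT := (XT.nd (nat_lit 1794) (nat_lit 6992) (nat_lit 0) (XT.nd (nat_lit 858) (nat_lit 5928) (nat_lit 0) (XT.nd (nat_lit 390) (nat_lit 3116) (nat_lit 0) (XT.nd (nat_lit 156) (nat_lit 2204) (nat_lit 0) (XT.nd (nat_lit 78) (nat_lit 760) (nat_lit 0) (XT.lf (nat_lit 0) (nat_lit 5855244617) (nat_lit 760) (nat_lit 2586102336) (nat_lit 836) (nat_lit 2064631173) (nat_lit 332) (nat_lit 5) (nat_lit 342) (nat_lit 5) (nat_lit 343) (nat_lit 5) (nat_lit 445) (nat_lit 413) (nat_lit 342)) (XT.lf (nat_lit 0) (nat_lit 1197178397) (nat_lit 760) (nat_lit 5857481611) (nat_lit 76) (nat_lit 3612853172) (nat_lit 322) (nat_lit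 5) (nat_lit 332) (nat_lit 5) (nat_lit 323) (nat_lit 5) (nat_lit 446) (nat_lit 413) (nat_lit 341))) (XT.nd (nat_lit 78) (nat_lit 1444) (nat_lit 0) (XT.lf (nat_lit 0) (nat_lit 3750012816) (nat_lit 760) (nat_lit 806103762) (nat_lit 836) (nat_lit 6276964485) (nat_lit 312) (nat_lit 5) (nat_lit 322) (nat_lit 5) (nat_lit 323) (nat_lit 5) (nat_lit 447) (nat_lit 413) (nat_lit 340)) (XT.nd (nat_lit 78) (nat_lit 760) (nat_lit 0) (XT.lf (nat_lit 0) (nat_lit 2668386074) (nat_lit 684) (nat_lit 5396032640) (nat_lit 760) (nat_lit 2938231380) (nat_lit 303) (nat_lit 5) (nat_lit 312) (nat_lit 5) (nat_lit 313) (nat_lit 5) (nat_lit 448) (nat_lit 413) (nat_lit 339)) (XT.lf (nat_lit 0) (nat_lit 520588785) (nat_lit 760) (nat_lit 9591567302) (nat_lit 76) (nat_lit 1064561009) (nat_lit 293) (nat_lit 5) (nat_lit 303) (nat_lit 5) (nat_lit 294) (nat_lit 5) (nat_lit 449) (nat_lit 413) (nat_lit 338))))) (XT.nd (nat_lit 234) (nat_lit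 1824) (nat_lit 0) (XT.nd (nat_lit 78) (nat_lit 684) (nat_lit 0) (XT.lf (nat_lit 0) (nat_lit 458663712) (nat_lit 608) (nat_lit 3637083850) (nat_lit 684) (nat_lit 7258825823) (nat_lit 285) (nat_lit 5) (nat_lit 293) (nat_lit 5) (nat_lit 294) (nat_lit 5) (nat_lit 450) (nat_lit 413) (nat_lit 337)) (XT.nd (nat_lit 78) (nat_lit 684) (nat_lit 0) (XT.lf (nat_lit 0) (nat_lit 7820503371) (nat_lit 684) (nat_lit 667431412) (nat_lit 76) (nat_lit 3048989143) (nat_lit 285) (nat_lit 5) (nat_lit 294) (nat_lit 5) (nat_lit 286) (nat_lit 5) (nat_lit 451) (nat_lit 413) (nat_lit 336)) (XT.lf (nat_lit 0) (nat_lit 9922706036) (nat_lit 684) (nat_lit 1781518182) (nat_lit 760) (nat_lit 19581571) (nat_lit 276) (nat_lit 5) (nat_lit 285) (nat_lit 5) (nat_lit 286) (nat_lit 5) (nat_lit 452) (nat_lit 413) (nat_lit 335)))) (XT.nd (nat_lit 78) (nat_lit 1140) (nat_lit 0) (XT.lf (nat_lit 0) (nat_lit 3794125207) (nat_lit 684) (nat_lit 2983457088)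 (nat_lit 76) (nat_lit 5137112006) (nat_lit 267) (nat_lit 5) (nat_lit 276) (nat_lit 5) (nat_lit 268) (nat_lit 5) (nat_lit 453) (nat_lit 413) (nat_lit 334)) (XT.nd (nat_lit 78) (nat_lit 532) (nat_lit 0) (XT.lf (nat_lit 0) (nat_lit 7758808369) (nat_lit 684) (nat_lit 4171288420) (nat_lit 76) (nat_lit 180478319) (nat_lit 259) (nat_lit 5) (nat_lit 268) (nat_lit 5) (nat_lit 260) (nat_lit 5) (nat_lit 454) (nat_lit 413) (nat_lit 333)) (XT.lf (nat_lit 0) (nat_lit 6913283090) (nat_lit 532) (nat_lit 5000374122) (nat_lit 608) (nat_lit 397255336) (nat_lit 252) (nat_lit 5) (nat_lit 259) (nat_lit 5) (nat_lit 260) (nat_lit 5) (nat_lit 455) (nat_lit 413) (nat_lit 332)))))) (XT.nd (nat_lit 468) (nat_lit 2584) (nat_lit 0) (XT.nd (nat_lit 234) (nat_lit 1596) (nat_lit 0) (XT.nd (nat_lit 78) (nat_lit 1064) (nat_lit 0) (XT.lf (nat_lit 0) (nat_lit 3669897693) (nat_lit 684) (nat_lit 6657108580) (nat_lit 76) (nat_lit 2188936672)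 (nat_lit 243) (nat_lit 5) (nat_lit 252) (nat_lit 5) (nat_lit 244) (nat_lit 5) (nat_lit 456) (nat_lit 413) (nat_lit 331)) (XT.nd (nat_lit 78) (nat_lit 532) (nat_lit 0) (XT.lf (nat_lit 0) (nat_lit 4776667616) (nat_lit 532) (nat_lit 3140263859) (nat_lit 608) (nat_lit 4808879350) (nat_lit 236) (nat_lit 5) (nat_lit 243) (nat_lit 5) (nat_lit 244) (nat_lit 5) (nat_lit 457) (nat_lit 413) (nat_lit 330)) (XT.lf (nat_lit 0) (nat_lit 3673737448) (nat_lit 532) (nat_lit 8677243564) (nat_lit 608) (nat_lit 589805862) (nat_lit 229) (nat_lit 5) (nat_lit 236) (nat_lit 5) (nat_lit 237) (nat_lit 5) (nat_lit 458) (nat_lit 413) (nat_lit 329)))) (XT.nd (nat_lit 78) (nat_lit 988) (nat_lit 0) (XT.lf (nat_lit 0) (nat_lit 2530764036) (nat_lit 532) (nat_lit 1230664210) (nat_lit 608) (nat_lit 9399203336) (nat_lit 221) (nat_lit 5) (nat_lit 228) (nat_lit 5) (nat_lit 229) (nat_lit 5) (nat_lit 459) (nat_lit 413) (nat_lit 328)) (XT.nd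 (nat_lit 78) (nat_lit 456) (nat_lit 0) (XT.lf (nat_lit 0) (nat_lit 1345523595) (nat_lit 532) (nat_lit 6967329220) (nat_lit 608) (nat_lit 5072591419) (nat_lit 214) (nat_lit 5) (nat_lit 221) (nat_lit 5) (nat_lit 222) (nat_lit 5) (nat_lit 460) (nat_lit 413) (nat_lit 327)) (XT.lf (nat_lit 0) (nat_lit 149805232) (nat_lit 456) (nat_lit 12901489607) (nat_lit 532) (nat_lit 564700727) (nat_lit 208) (nat_lit 5) (nat_lit 214) (nat_lit 5) (nat_lit 215) (nat_lit 5) (nat_lit 461) (nat_lit 413) (nat_lit 326))))) (XT.nd (nat_lit 234) (nat_lit 1520) (nat_lit 0) (XT.nd (nat_lit 78) (nat_lit 988) (nat_lit 0) (XT.lf (nat_lit 0) (nat_lit 4118656520) (nat_lit 532) (nat_lit 1104408978) (nat_lit 76) (nat_lit 8627997569) (nat_lit 207) (nat_lit 5) (nat_lit 214) (nat_lit 5) (nat_lit 208) (nat_lit 5) (nat_lit 462) (nat_lit 413) (nat_lit 325)) (XT.nd (nat_lit 78) (nat_lit 456) (nat_lit 0) (XT.lf (nat_lit 0) (nat_lit 8994946864)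 (nat_lit 608) (nat_lit 2379409230) (nat_lit 76) (nat_lit 2717553261) (nat_lit 200) (nat_lit 5) (nat_lit 208) (nat_lit 5) (nat_lit 201) (nat_lit 5) (nat_lit 463) (nat_lit 413) (nat_lit 324)) (XT.lf (nat_lit 0) (nat_lit 10646480647) (nat_lit 456) (nat_lit 3449248303) (nat_lit 532) (nat_lit 242691427) (nat_lit 194) (nat_lit 5) (nat_lit 200) (nat_lit 5) (nat_lit 201) (nat_lit 5) (nat_lit 464) (nat_lit 413) (nat_lit 323)))) (XT.nd (nat_lit 78) (nat_lit 988) (nat_lit 0) (XT.lf (nat_lit 0) (nat_lit 4771359030) (nat_lit 532) (nat_lit 5071105989) (nat_lit 76) (nat_lit 4747716351) (nat_lit 187) (nat_lit 5) (nat_lit 194) (nat_lit 5) (nat_lit 188) (nat_lit 5) (nat_lit 465) (nat_lit 413) (nat_lit 322)) (XT.nd (nat_lit 78) (nat_lit 532) (nat_lit 0) (XT.lf (nat_lit 0) (nat_lit 8365987513) (nat_lit 456) (nat_lit 1636766968) (nat_lit 532) (nat_lit 4845307359) (nat_lit 181) (nat_lit 5) (nat_lit 187) (nat_lit 5) (nat_lit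 188) (nat_lit 5) (nat_lit 466) (nat_lit 413) (nat_lit 321)) (XT.lf (nat_lit 0) (nat_lit 367938098) (nat_lit 532) (nat_lit 7948738940) (nat_lit 76) (nat_lit 6795085391) (nat_lit 174) (nat_lit 5) (nat_lit 181) (nat_lit 5) (nat_lit 175) (nat_lit 5) (nat_lit 467) (nat_lit 413) (nat_lit 320))))))) (XT.nd (nat_lit 858) (nat_lit 3116) (nat_lit 0) (XT.nd (nat_lit 390) (nat_lit 1824) (nat_lit 0) (XT.nd (nat_lit 156) (nat_lit 1216) (nat_lit 0) (XT.nd (nat_lit 78) (nat_lit 456) (nat_lit 0) (XT.lf (nat_lit 0) (nat_lit 5735422193) (nat_lit 456) (nat_lit 9471329207) (nat_lit 76) (nat_lit 174711591) (nat_lit 169) (nat_lit 5) (nat_lit 175) (nat_lit 5) (nat_lit 170) (nat_lit 5) (nat_lit 468) (nat_lit 413) (nat_lit 319)) (XT.lf (nat_lit 0) (nat_lit 4593610826) (nat_lit 456) (nat_lit 6779108847) (nat_lit 532) (nat_lit 4284361941) (nat_lit 163) (nat_lit 5) (nat_lit 169) (nat_lit 5) (nat_lit 170) (nat_lit 5) (nat_lit 469)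 (nat_lit 413) (nat_lit 318))) (XT.nd (nat_lit 78) (nat_lit 760) (nat_lit 0) (XT.lf (nat_lit 0) (nat_lit 1290089848) (nat_lit 456) (nat_lit 12693554990) (nat_lit 76) (nat_lit 1955802637) (nat_lit 157) (nat_lit 5) (nat_lit 163) (nat_lit 5) (nat_lit 158) (nat_lit 5) (nat_lit 470) (nat_lit 413) (nat_lit 317)) (XT.nd (nat_lit 78) (nat_lit 380) (nat_lit 0) (XT.lf (nat_lit 0) (nat_lit 1810977925) (nat_lit 380) (nat_lit 5265506616) (nat_lit 456) (nat_lit 9151177647) (nat_lit 152) (nat_lit 5) (nat_lit 157) (nat_lit 5) (nat_lit 158) (nat_lit 5) (nat_lit 471) (nat_lit 413) (nat_lit 316)) (XT.lf (nat_lit 0) (nat_lit 336084822) (nat_lit 380) (nat_lit 12783777452) (nat_lit 456) (nat_lit 3402995773) (nat_lit 147) (nat_lit 5) (nat_lit 152) (nat_lit 5) (nat_lit 153) (nat_lit 5) (nat_lit 472) (nat_lit 413) (nat_lit 315))))) (XT.nd (nat_lit 234) (nat_lit 1064) (nat_lit 0) (XT.nd (nat_lit 78) (nat_lit 684) (nat_lit 0)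 (XT.lf (nat_lit 0) (nat_lit 2589049243) (nat_lit 456) (nat_lit 1193276101) (nat_lit 76) (nat_lit 13042171189) (nat_lit 146) (nat_lit 5) (nat_lit 152) (nat_lit 5) (nat_lit 147) (nat_lit 5) (nat_lit 473) (nat_lit 413) (nat_lit 314)) (XT.nd (nat_lit 78) (nat_lit 304) (nat_lit 0) (XT.lf (nat_lit 0) (nat_lit 8816241229) (nat_lit 456) (nat_lit 2797558342) (nat_lit 76) (nat_lit 5518904686) (nat_lit 141) (nat_lit 5) (nat_lit 147) (nat_lit 5) (nat_lit 142) (nat_lit 5) (nat_lit 474) (nat_lit 413) (nat_lit 313)) (XT.lf (nat_lit 0) (nat_lit 12997542392) (nat_lit 304) (nat_lit 2322708589) (nat_lit 380) (nat_lit 2128109461) (nat_lit 137) (nat_lit 5) (nat_lit 141) (nat_lit 5) (nat_lit 142) (nat_lit 5) (nat_lit 475) (nat_lit 413) (nat_lit 312)))) (XT.nd (nat_lit 78) (nat_lit 608) (nat_lit 0) (XT.lf (nat_lit 0) (nat_lit 4304983863) (nat_lit 456) (nat_lit 6206054274) (nat_lit 76) (nat_lit 7259603500) (nat_lit 131) (nat_lit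 5) (nat_lit 137) (nat_lit 5) (nat_lit 132) (nat_lit 5) (nat_lit 476) (nat_lit 413) (nat_lit 311)) (XT.nd (nat_lit 78) (nat_lit 304) (nat_lit 0) (XT.lf (nat_lit 0) (nat_lit 10078871427) (nat_lit 304) (nat_lit 907738370) (nat_lit 380) (nat_lit 7114013183) (nat_lit 127) (nat_lit 5) (nat_lit 131) (nat_lit 5) (nat_lit 132) (nat_lit 5) (nat_lit 477) (nat_lit 413) (nat_lit 310)) (XT.lf (nat_lit 0) (nat_lit 8508131677) (nat_lit 304) (nat_lit 9489823848) (nat_lit 380) (nat_lit 439964856) (nat_lit 123) (nat_lit 5) (nat_lit 127) (nat_lit 5) (nat_lit 128) (nat_lit 5) (nat_lit 478) (nat_lit 413) (nat_lit 309)))))) (XT.nd (nat_lit 468) (nat_lit 1444) (nat_lit 0) (XT.nd (nat_lit 234) (nat_lit 608) (nat_lit 0) (XT.nd (nat_lit 78) (nat_lit 684) (nat_lit 0) (XT.lf (nat_lit 0) (nat_lit 6431731947) (nat_lit 380) (nat_lit 11926640343) (nat_lit 76) (nat_lit 424494558) (nat_lit 118) (nat_lit 5) (nat_lit 123) (nat_lit 5)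 (nat_lit 119) (nat_lit 5) (nat_lit 479) (nat_lit 413) (nat_lit 308)) (XT.nd (nat_lit 78) (nat_lit 380) (nat_lit 0) (XT.lf (nat_lit 0) (nat_lit 5103130499) (nat_lit 304) (nat_lit 8538928965) (nat_lit 380) (nat_lit 5493276818) (nat_lit 114) (nat_lit 5) (nat_lit 118) (nat_lit 5) (nat_lit 119) (nat_lit 5) (nat_lit 480) (nat_lit 413) (nat_lit 307)) (XT.lf (nat_lit 0) (nat_lit 1637793013) (nat_lit 380) (nat_lit 16206190294) (nat_lit 76) (nat_lit 1652432956) (nat_lit 109) (nat_lit 5) (nat_lit 114) (nat_lit 5) (nat_lit 110) (nat_lit 5) (nat_lit 481) (nat_lit 413) (nat_lit 306)))) (XT.nd (nat_lit 78) (nat_lit 304) (nat_lit 0) (XT.lf (nat_lit 0) (nat_lit 1339817040) (nat_lit 304) (nat_lit 7705079378) (nat_lit 380) (nat_lit 10819973081) (nat_lit 105) (nat_lit 5) (nat_lit 109) (nat_lit 5) (nat_lit 110) (nat_lit 5) (nat_lit 482) (nat_lit 413) (nat_lit 305)) (XT.nd (nat_lit 78) (nat_lit 304) (nat_lit 0) (XT.lf (nat_lit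 0) (nat_lit 16777692306) (nat_lit 380) (nat_lit 667635121) (nat_lit 76) (nat_lit 2796981009) (nat_lit 105) (nat_lit 5) (nat_lit 110) (nat_lit 5) (nat_lit 106) (nat_lit 5) (nat_lit 483) (nat_lit 413) (nat_lit 304)) (XT.lf (nat_lit 0) (nat_lit 4201850163) (nat_lit 304) (nat_lit 2787315692) (nat_lit 76) (nat_lit 13638485007) (nat_lit 101) (nat_lit 5) (nat_lit 105) (nat_lit 5) (nat_lit 102) (nat_lit 5) (nat_lit 484) (nat_lit 413) (nat_lit 303))))) (XT.nd (nat_lit 234) (nat_lit 532) (nat_lit 0) (XT.nd (nat_lit 78) (nat_lit 608) (nat_lit 0) (XT.lf (nat_lit 0) (nat_lit 12161666580) (nat_lit 380) (nat_lit 5011846402) (nat_lit 76) (nat_lit 3848375583) (nat_lit 97) (nat_lit 5) (nat_lit 102) (nat_lit 5) (nat_lit 98) (nat_lit 5) (nat_lit 485) (nat_lit 413) (nat_lit 302)) (XT.nd (nat_lit 78) (nat_lit 380) (nat_lit 0) (XT.lf (nat_lit 0) (nat_lit 14080505961) (nat_lit 228) (nat_lit 6413456265) (nat_lit 304) (nat_lit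 931318995) (nat_lit 94) (nat_lit 5) (nat_lit 97) (nat_lit 5) (nat_lit 98) (nat_lit 5) (nat_lit 486) (nat_lit 413) (nat_lit 301)) (XT.lf (nat_lit 0) (nat_lit 7261017093) (nat_lit 380) (nat_lit 9823275091) (nat_lit 76) (nat_lit 4753136165) (nat_lit 89) (nat_lit 5) (nat_lit 94) (nat_lit 5) (nat_lit 90) (nat_lit 5) (nat_lit 487) (nat_lit 413) (nat_lit 300)))) (XT.nd (nat_lit 78) (nat_lit 304) (nat_lit 0) (XT.lf (nat_lit 0) (nat_lit 9834377880) (nat_lit 228) (nat_lit 5986124815) (nat_lit 304) (nat_lit 6438634827) (nat_lit 86) (nat_lit 5) (nat_lit 89) (nat_lit 5) (nat_lit 90) (nat_lit 5) (nat_lit 488) (nat_lit 413) (nat_lit 299)) (XT.nd (nat_lit 56628) (nat_lit 0) (nat_lit 41420) (XT.lf (nat_lit 0) (nat_lit 2047450341) (nat_lit 304) (nat_lit 15155444038) (nat_lit 76) (nat_lit 5487759346) (nat_lit 82) (nat_lit 5) (nat_lit 86) (nat_lit 5) (nat_lit 83) (nat_lit 5) (nat_lit 489) (nat_lit 413) (nat_lit 298))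 (XT.lf (nat_lit 0) (nat_lit 1049079774) (nat_lit 0) (nat_lit 1049079774) (nat_lit 1140) (nat_lit 1539413708) (nat_lit 627) (nat_lit 5) (nat_lit 627) (nat_lit 3) (nat_lit 642) (nat_lit 3) (nat_lit 414) (nat_lit 414) (nat_lit 372))))))))
noncomputable def xc67 : XT := (XT.nd (nat_lit 1794) (nat_lit 15732) (nat_lit 0) (XT.nd (nat_lit 858) (nat_lit 12008) (nat_lit 0) (XT.nd (nat_lit 390) (nat_lit 1216) (nat_lit 0) (XT.nd (nat_lit 156) (nat_lit 1216) (nat_lit 0) (XT.nd (nat_lit 78) (nat_lit 1216) (nat_lit 0) (XT.lf (nat_lit 76) (nat_lit 190486298) (nat_lit 0) (nat_lit 6442552509) (nat_lit 1216) (nat_lit 703288566) (nat_lit 628) (nat_lit 5) (nat_lit 627) (nat_lit 5) (nat_lit 643) (nat_lit 5) (nat_lit 415) (nat_lit 414) (nat_lit 371)) (XT.lf (nat_lit 0) (nat_lit 1676981926) (nat_lit 1216) (nat_lit 1684622886) (nat_lit 1292) (nat_lit 4038403819) (nat_lit 611) (nat_lit 5) (nat_lit 627) (nat_lit 5) (nat_lit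 628) (nat_lit 5) (nat_lit 416) (nat_lit 414) (nat_lit 370))) (XT.nd (nat_lit 78) (nat_lit 1216) (nat_lit 0) (XT.lf (nat_lit 76) (nat_lit 3938603254) (nat_lit 0) (nat_lit 115825404) (nat_lit 1292) (nat_lit 3412389726) (nat_lit 612) (nat_lit 5) (nat_lit 611) (nat_lit 5) (nat_lit 628) (nat_lit 5) (nat_lit 417) (nat_lit 414) (nat_lit 369)) (XT.nd (nat_lit 78) (nat_lit 1292) (nat_lit 0) (XT.lf (nat_lit 76) (nat_lit 2175660247) (nat_lit 0) (nat_lit 4286384322) (nat_lit 1292) (nat_lit 1074427924) (nat_lit 613) (nat_lit 5) (nat_lit 612) (nat_lit 5) (nat_lit 629) (nat_lit 5) (nat_lit 418) (nat_lit 414) (nat_lit 368)) (XT.lf (nat_lit 76) (nat_lit 436973348) (nat_lit 0) (nat_lit 820814359) (nat_lit 1368) (nat_lit 6351439373) (nat_lit 596) (nat_lit 5) (nat_lit 595) (nat_lit 5) (nat_lit 613) (nat_lit 5) (nat_lit 419) (nat_lit 414) (nat_lit 367))))) (XT.nd (nat_lit 234) (nat_lit 0) (nat_lit 0) (XT.nd (nat_lit 78)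 (nat_lit 1292) (nat_lit 0) (XT.lf (nat_lit 0) (nat_lit 3616205507) (nat_lit 1292) (nat_lit 1278111186) (nat_lit 1368) (nat_lit 2790304607) (nat_lit 596) (nat_lit 5) (nat_lit 613) (nat_lit 5) (nat_lit 614) (nat_lit 5) (nat_lit 420) (nat_lit 414) (nat_lit 366)) (XT.nd (nat_lit 78) (nat_lit 1292) (nat_lit 0) (XT.lf (nat_lit 76) (nat_lit 4800349874) (nat_lit 0) (nat_lit 1200455076) (nat_lit 1368) (nat_lit 1762379049) (nat_lit 597) (nat_lit 5) (nat_lit 596) (nat_lit 5) (nat_lit 614) (nat_lit 5) (nat_lit 421) (nat_lit 414) (nat_lit 365)) (XT.lf (nat_lit 0) (nat_lit 572046583) (nat_lit 1368) (nat_lit 4639640022) (nat_lit 1444) (nat_lit 2633006990) (nat_lit 579) (nat_lit 5) (nat_lit 597) (nat_lit 5) (nat_lit 598) (nat_lit 5) (nat_lit 422) (nat_lit 414) (nat_lit 364)))) (XT.nd (nat_lit 78) (nat_lit 0) (nat_lit 76) (XT.lf (nat_lit 76) (nat_lit 1620417678) (nat_lit 0) (nat_lit 1293504164) (nat_lit 1444) (nat_lit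 5015280517) (nat_lit 580) (nat_lit 5) (nat_lit 579) (nat_lit 5) (nat_lit 598) (nat_lit 5) (nat_lit 423) (nat_lit 414) (nat_lit 363)) (XT.nd (nat_lit 78) (nat_lit 0) (nat_lit 0) (XT.lf (nat_lit 76) (nat_lit 46734181) (nat_lit 0) (nat_lit 5253635574) (nat_lit 1444) (nat_lit 2716403973) (nat_lit 581) (nat_lit 5) (nat_lit 580) (nat_lit 5) (nat_lit 599) (nat_lit 5) (nat_lit 424) (nat_lit 414) (nat_lit 362)) (XT.lf (nat_lit 76) (nat_lit 6619319404) (nat_lit 0) (nat_lit 1116861001) (nat_lit 1444) (nat_lit 371249717) (nat_lit 581) (nat_lit 5) (nat_lit 580) (nat_lit 5) (nat_lit 599) (nat_lit 5) (nat_lit 425) (nat_lit 414) (nat_lit 361)))))) (XT.nd (nat_lit 468) (nat_lit 7828) (nat_lit 0) (XT.nd (nat_lit 234) (nat_lit 2888) (nat_lit 0) (XT.nd (nat_lit 78) (nat_lit 0) (nat_lit 0) (XT.lf (nat_lit 0) (nat_lit 2000106078) (nat_lit 1444) (nat_lit 3029743697) (nat_lit 1520) (nat_lit 3171050456) (nat_lit 562) (nat_lit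 5) (nat_lit 581) (nat_lit 5) (nat_lit 582) (nat_lit 5) (nat_lit 426) (nat_lit 414) (nat_lit 360)) (XT.nd (nat_lit 78) (nat_lit 0) (nat_lit 76) (XT.lf (nat_lit 76) (nat_lit 3741255284) (nat_lit 0) (nat_lit 668228215) (nat_lit 1520) (nat_lit 3888215634) (nat_lit 563) (nat_lit 5) (nat_lit 562) (nat_lit 5) (nat_lit 582) (nat_lit 5) (nat_lit 427) (nat_lit 414) (nat_lit 359)) (XT.lf (nat_lit 76) (nat_lit 2313185356) (nat_lit 0) (nat_lit 4570283491) (nat_lit 1520) (nat_lit 1514098531) (nat_lit 564) (nat_lit 5) (nat_lit 563) (nat_lit 5) (nat_lit 583) (nat_lit 5) (nat_lit 428) (nat_lit 414) (nat_lit 358)))) (XT.nd (nat_lit 78) (nat_lit 1520) (nat_lit 0) (XT.lf (nat_lit 0) (nat_lit 893482961) (nat_lit 1520) (nat_lit 7600439314) (nat_lit 76) (nat_lit 6910716) (nat_lit 544) (nat_lit 5) (nat_lit 564) (nat_lit 5) (nat_lit 545) (nat_lit 5) (nat_lit 429) (nat_lit 414) (nat_lit 357)) (XT.nd (nat_lit 78) (nat_lit 1520)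 (nat_lit 0) (XT.lf (nat_lit 0) (nat_lit 3359628001) (nat_lit 1520) (nat_lit 522010440) (nat_lit 76) (nat_lit 4725230836) (nat_lit 544) (nat_lit 5) (nat_lit 564) (nat_lit 5) (nat_lit 545) (nat_lit 5) (nat_lit 430) (nat_lit 414) (nat_lit 356)) (XT.lf (nat_lit 0) (nat_lit 5886591209) (nat_lit 1596) (nat_lit 1915589110) (nat_lit 76) (nat_lit 914180339) (nat_lit 524) (nat_lit 5) (nat_lit 545) (nat_lit 5) (nat_lit 525) (nat_lit 5) (nat_lit 431) (nat_lit 414) (nat_lit 355))))) (XT.nd (nat_lit 234) (nat_lit 2736) (nat_lit 0) (XT.nd (nat_lit 78) (nat_lit 3496) (nat_lit 0) (XT.lf (nat_lit 0) (nat_lit 5516046890) (nat_lit 1596) (nat_lit 2976867969) (nat_lit 1672) (nat_lit 336161263) (nat_lit 503) (nat_lit 5) (nat_lit 524) (nat_lit 5) (nat_lit 525) (nat_lit 5) (nat_lit 432) (nat_lit 414) (nat_lit 354)) (XT.nd (nat_lit 78) (nat_lit 1748) (nat_lit 0) (XT.lf (nat_lit 0) (nat_lit 2196227453) (nat_lit 1748) (nat_lit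 4717284918) (nat_lit 76) (nat_lit 2031515710) (nat_lit 480) (nat_lit 5) (nat_lit 503) (nat_lit 5) (nat_lit 481) (nat_lit 5) (nat_lit 433) (nat_lit 414) (nat_lit 353)) (XT.lf (nat_lit 0) (nat_lit 2940312743) (nat_lit 1748) (nat_lit 1862104126) (nat_lit 1824) (nat_lit 4261958952) (nat_lit 457) (nat_lit 5) (nat_lit 480) (nat_lit 5) (nat_lit 481) (nat_lit 5) (nat_lit 434) (nat_lit 414) (nat_lit 352)))) (XT.nd (nat_lit 78) (nat_lit 1064) (nat_lit 0) (XT.lf (nat_lit 0) (nat_lit 1652931225) (nat_lit 1672) (nat_lit 5840670336) (nat_lit 1748) (nat_lit 1693575544) (nat_lit 435) (nat_lit 5) (nat_lit 457) (nat_lit 5) (nat_lit 458) (nat_lit 5) (nat_lit 435) (nat_lit 414) (nat_lit 351)) (XT.nd (nat_lit 78) (nat_lit 0) (nat_lit 0) (XT.lf (nat_lit 0) (nat_lit 367843476) (nat_lit 988) (nat_lit 571321560) (nat_lit 1064) (nat_lit 8374386858) (nat_lit 421) (nat_lit 5) (nat_lit 434) (nat_lit 5) (nat_lit 435) (nat_lit 5)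 (nat_lit 436) (nat_lit 414) (nat_lit 350)) (XT.lf (nat_lit 0) (nat_lit 3655453925) (nat_lit 1064) (nat_lit 928363915) (nat_lit 76) (nat_lit 4859133291) (nat_lit 421) (nat_lit 5) (nat_lit 435) (nat_lit 5) (nat_lit 422) (nat_lit 5) (nat_lit 437) (nat_lit 414) (nat_lit 349))))))) (XT.nd (nat_lit 936) (nat_lit 6764) (nat_lit 0) (XT.nd (nat_lit 468) (nat_lit 3724) (nat_lit 0) (XT.nd (nat_lit 234) (nat_lit 2508) (nat_lit 0) (XT.nd (nat_lit 78) (nat_lit 1824) (nat_lit 0) (XT.lf (nat_lit 0) (nat_lit 6457024483) (nat_lit 988) (nat_lit 2210970756) (nat_lit 76) (nat_lit 908169597) (nat_lit 409) (nat_lit 5) (nat_lit 422) (nat_lit 5) (nat_lit 410) (nat_lit 5) (nat_lit 438) (nat_lit 414) (nat_lit 348)) (XT.nd (nat_lit 78) (nat_lit 912) (nat_lit 0) (XT.lf (nat_lit 0) (nat_lit 6206404637) (nat_lit 912) (nat_lit 3160916470) (nat_lit 988) (nat_lit 345568371) (nat_lit 397) (nat_lit 5) (nat_lit 409) (nat_lit 5) (nat_lit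 410) (nat_lit 5) (nat_lit 439) (nat_lit 414) (nat_lit 347)) (XT.lf (nat_lit 0) (nat_lit 2491143817) (nat_lit 912) (nat_lit 4818385945) (nat_lit 76) (nat_lit 2543610361) (nat_lit 385) (nat_lit 5) (nat_lit 397) (nat_lit 5) (nat_lit 386) (nat_lit 5) (nat_lit 440) (nat_lit 414) (nat_lit 346)))) (XT.nd (nat_lit 78) (nat_lit 1672) (nat_lit 0) (XT.lf (nat_lit 0) (nat_lit 3858737974) (nat_lit 836) (nat_lit 1569095833) (nat_lit 912) (nat_lit 4569334863) (nat_lit 374) (nat_lit 5) (nat_lit 385) (nat_lit 5) (nat_lit 386) (nat_lit 5) (nat_lit 441) (nat_lit 414) (nat_lit 345)) (XT.nd (nat_lit 78) (nat_lit 912) (nat_lit 0) (XT.lf (nat_lit 0) (nat_lit 2672373606) (nat_lit 760) (nat_lit 5809241768) (nat_lit 836) (nat_lit 1663330151) (nat_lit 364) (nat_lit 5) (nat_lit 374) (nat_lit 5) (nat_lit 375) (nat_lit 5) (nat_lit 442) (nat_lit 414) (nat_lit 344)) (XT.lf (nat_lit 0) (nat_lit 1326794815) (nat_lit 912) (nat_lit 8813829188)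 (nat_lit 76) (nat_lit 156078292) (nat_lit 352) (nat_lit 5) (nat_lit 364) (nat_lit 5) (nat_lit 353) (nat_lit 5) (nat_lit 443) (nat_lit 414) (nat_lit 343))))) (XT.nd (nat_lit 234) (nat_lit 2128) (nat_lit 0) (XT.nd (nat_lit 78) (nat_lit 836) (nat_lit 0) (XT.lf (nat_lit 0) (nat_lit 258909890) (nat_lit 760) (nat_lit 4169171218) (nat_lit 836) (nat_lit 6023836375) (nat_lit 342) (nat_lit 5) (nat_lit 352) (nat_lit 5) (nat_lit 353) (nat_lit 5) (nat_lit 444) (nat_lit 414) (nat_lit 342)) (XT.nd (nat_lit 78) (nat_lit 836) (nat_lit 0) (XT.lf (nat_lit 0) (nat_lit 7648847093) (nat_lit 836) (nat_lit 950900511) (nat_lit 76) (nat_lit 2011519225) (nat_lit 342) (nat_lit 5) (nat_lit 353) (nat_lit 5) (nat_lit 343) (nat_lit 5) (nat_lit 445) (nat_lit 414) (nat_lit 341)) (XT.lf (nat_lit 0) (nat_lit 227136874) (nat_lit 836) (nat_lit 2172723647) (nat_lit 76) (nat_lit 8374741555) (nat_lit 331) (nat_lit 5) (nat_lit 342) (nat_lit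 5) (nat_lit 332) (nat_lit 5) (nat_lit 446) (nat_lit 414) (nat_lit 340)))) (XT.nd (nat_lit 78) (nat_lit 1444) (nat_lit 0) (XT.lf (nat_lit 0) (nat_lit 3509660942) (nat_lit 760) (nat_lit 3427785458) (nat_lit 76) (nat_lit 4004254811) (nat_lit 322) (nat_lit 5) (nat_lit 332) (nat_lit 5) (nat_lit 323) (nat_lit 5) (nat_lit 447) (nat_lit 414) (nat_lit 339)) (XT.nd (nat_lit 78) (nat_lit 684) (nat_lit 0) (XT.lf (nat_lit 0) (nat_lit 6425663948) (nat_lit 760) (nat_lit 494037212) (nat_lit 836) (nat_lit 4193537204) (nat_lit 312) (nat_lit 5) (nat_lit 322) (nat_lit 5) (nat_lit 323) (nat_lit 5) (nat_lit 448) (nat_lit 414) (nat_lit 338)) (XT.lf (nat_lit 0) (nat_lit 5311964325) (nat_lit 684) (nat_lit 5175190522) (nat_lit 760) (nat_lit 801670223) (nat_lit 303) (nat_lit 5) (nat_lit 312) (nat_lit 5) (nat_lit 313) (nat_lit 5) (nat_lit 449) (nat_lit 414) (nat_lit 337)))))) (XT.nd (nat_lit 468) (nat_lit 3420) (nat_lit 0) (XT.nd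 (nat_lit 234) (nat_lit 1292) (nat_lit 0) (XT.nd (nat_lit 78) (nat_lit 1292) (nat_lit 0) (XT.lf (nat_lit 0) (nat_lit 2686966935) (nat_lit 760) (nat_lit 7287773139) (nat_lit 76) (nat_lit 1493988763) (nat_lit 293) (nat_lit 5) (nat_lit 303) (nat_lit 5) (nat_lit 294) (nat_lit 5) (nat_lit 450) (nat_lit 414) (nat_lit 336)) (XT.nd (nat_lit 78) (nat_lit 684) (nat_lit 0) (XT.lf (nat_lit 0) (nat_lit 3021920128) (nat_lit 608) (nat_lit 3301369860) (nat_lit 684) (nat_lit 5329560633) (nat_lit 285) (nat_lit 5) (nat_lit 293) (nat_lit 5) (nat_lit 294) (nat_lit 5) (nat_lit 451) (nat_lit 414) (nat_lit 335)) (XT.lf (nat_lit 0) (nat_lit 1850375163) (nat_lit 684) (nat_lit 8262930092) (nat_lit 760) (nat_lit 1728303853) (nat_lit 276) (nat_lit 5) (nat_lit 285) (nat_lit 5) (nat_lit 286) (nat_lit 5) (nat_lit 452) (nat_lit 414) (nat_lit 334)))) (XT.nd (nat_lit 78) (nat_lit 608) (nat_lit 0) (XT.lf (nat_lit 0) (nat_lit 653389277)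 (nat_lit 608) (nat_lit 1347089473) (nat_lit 684) (nat_lit 10034389830) (nat_lit 267) (nat_lit 5) (nat_lit 275) (nat_lit 5) (nat_lit 276) (nat_lit 5) (nat_lit 453) (nat_lit 414) (nat_lit 333)) (XT.nd (nat_lit 78) (nat_lit 608) (nat_lit 0) (XT.lf (nat_lit 0) (nat_lit 5884489255) (nat_lit 684) (nat_lit 577143461) (nat_lit 76) (nat_lit 5770732447) (nat_lit 267) (nat_lit 5) (nat_lit 276) (nat_lit 5) (nat_lit 268) (nat_lit 5) (nat_lit 454) (nat_lit 414) (nat_lit 332)) (XT.lf (nat_lit 0) (nat_lit 9929864246) (nat_lit 684) (nat_lit 1805549819) (nat_lit 76) (nat_lit 699480269) (nat_lit 259) (nat_lit 5) (nat_lit 268) (nat_lit 5) (nat_lit 260) (nat_lit 5) (nat_lit 455) (nat_lit 414) (nat_lit 331))))) (XT.nd (nat_lit 234) (nat_lit 1672) (nat_lit 0) (XT.nd (nat_lit 78) (nat_lit 1140) (nat_lit 0) (XT.lf (nat_lit 0) (nat_lit 1506730293) (nat_lit 608) (nat_lit 3080824947) (nat_lit 76) (nat_lit 8054306066) (nat_lit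 251) (nat_lit 5) (nat_lit 259) (nat_lit 5) (nat_lit 252) (nat_lit 5) (nat_lit 456) (nat_lit 414) (nat_lit 330)) (XT.nd (nat_lit 78) (nat_lit 532) (nat_lit 0) (XT.lf (nat_lit 0) (nat_lit 5654369995) (nat_lit 684) (nat_lit 4386957430) (nat_lit 76) (nat_lit 2812391726) (nat_lit 243) (nat_lit 5) (nat_lit 252) (nat_lit 5) (nat_lit 244) (nat_lit 5) (nat_lit 457) (nat_lit 414) (nat_lit 329)) (XT.lf (nat_lit 0) (nat_lit 7349761436) (nat_lit 532) (nat_lit 2640235729) (nat_lit 608) (nat_lit 3080668503) (nat_lit 236) (nat_lit 5) (nat_lit 243) (nat_lit 5) (nat_lit 244) (nat_lit 5) (nat_lit 458) (nat_lit 414) (nat_lit 328)))) (XT.nd (nat_lit 78) (nat_lit 1064) (nat_lit 0) (XT.lf (nat_lit 0) (nat_lit 1214169740) (nat_lit 608) (nat_lit 7093916975) (nat_lit 76) (nat_lit 4984530312) (nat_lit 228) (nat_lit 5) (nat_lit 236) (nat_lit 5) (nat_lit 229) (nat_lit 5) (nat_lit 459) (nat_lit 414) (nat_lit 327)) (XT.nd (nat_lit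 78) (nat_lit 532) (nat_lit 0) (XT.lf (nat_lit 0) (nat_lit 5014183691) (nat_lit 532) (nat_lit 636594494) (nat_lit 608) (nat_lit 7868949686) (nat_lit 221) (nat_lit 5) (nat_lit 228) (nat_lit 5) (nat_lit 229) (nat_lit 5) (nat_lit 460) (nat_lit 414) (nat_lit 326)) (XT.lf (nat_lit 0) (nat_lit 3785440026) (nat_lit 532) (nat_lit 6521119494) (nat_lit 608) (nat_lit 3445374710) (nat_lit 214) (nat_lit 5) (nat_lit 221) (nat_lit 5) (nat_lit 222) (nat_lit 5) (nat_lit 461) (nat_lit 414) (nat_lit 325))))))))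
noncomputable def xc68 : XT := (XT.nd (nat_lit 1794) (nat_lit 1520) (nat_lit 0) (XT.nd (nat_lit 858) (nat_lit 3800) (nat_lit 0) (XT.nd (nat_lit 390) (nat_lit 2660) (nat_lit 0) (XT.nd (nat_lit 156) (nat_lit 988) (nat_lit 0) (XT.nd (nat_lit 78) (nat_lit 532) (nat_lit 0) (XT.lf (nat_lit 0) (nat_lit 1150680661) (nat_lit 532) (nat_lit 11452361451) (nat_lit 76) (nat_lit 1386837059) (nat_lit 207) (nat_lit 5) (nat_lit 214) (nat_lit 5) (nat_lit 208) (nat_lit 5) (nat_lit 462) (nat_lit 414) (nat_lit 324)) (XT.lf (nat_lit 0) (nat_lit 1222214715) (nat_lit 532) (nat_lit 4702397195) (nat_lit 608) (nat_lit 8308162409) (nat_lit 200) (nat_lit 5) (nat_lit 207) (nat_lit 5) (nat_lit 208) (nat_lit 5) (nat_lit 463) (nat_lit 414) (nat_lit 323))) (XT.nd (nat_lit 78) (nat_lit 988) (nat_lit 0) (XT.lf (nat_lit 0) (nat_lit 10909772894) (nat_lit 608) (nat_lit 116426294) (nat_lit 76) (nat_lit 3455400201) (nat_lit 200) (nat_lit 5)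 (nat_lit 208) (nat_lit 5) (nat_lit 201) (nat_lit 5) (nat_lit 464) (nat_lit 414) (nat_lit 322)) (XT.nd (nat_lit 78) (nat_lit 456) (nat_lit 0) (XT.lf (nat_lit 0) (nat_lit 1376118282) (nat_lit 532) (nat_lit 1482856091) (nat_lit 76) (nat_lit 11877015216) (nat_lit 193) (nat_lit 5) (nat_lit 200) (nat_lit 5) (nat_lit 194) (nat_lit 5) (nat_lit 465) (nat_lit 414) (nat_lit 321)) (XT.lf (nat_lit 0) (nat_lit 6509334275) (nat_lit 532) (nat_lit 2915150240) (nat_lit 76) (nat_lit 5571350638) (nat_lit 187) (nat_lit 5) (nat_lit 194) (nat_lit 5) (nat_lit 188) (nat_lit 5) (nat_lit 466) (nat_lit 414) (nat_lit 320))))) (XT.nd (nat_lit 234) (nat_lit 1292) (nat_lit 0) (XT.nd (nat_lit 78) (nat_lit 912) (nat_lit 0) (XT.lf (nat_lit 0) (nat_lit 10887610066) (nat_lit 456) (nat_lit 978352553) (nat_lit 532) (nat_lit 3396128111) (nat_lit 181) (nat_lit 5) (nat_lit 187) (nat_lit 5) (nat_lit 188) (nat_lit 5) (nat_lit 467) (nat_lit 414)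 (nat_lit 319)) (XT.nd (nat_lit 78) (nat_lit 380) (nat_lit 0) (XT.lf (nat_lit 0) (nat_lit 1926029529) (nat_lit 532) (nat_lit 5906309750) (nat_lit 76) (nat_lit 7701691749) (nat_lit 174) (nat_lit 5) (nat_lit 181) (nat_lit 5) (nat_lit 175) (nat_lit 5) (nat_lit 468) (nat_lit 414) (nat_lit 318)) (XT.lf (nat_lit 0) (nat_lit 7428769414) (nat_lit 456) (nat_lit 7485834467) (nat_lit 76) (nat_lit 897738272) (nat_lit 169) (nat_lit 5) (nat_lit 175) (nat_lit 5) (nat_lit 170) (nat_lit 5) (nat_lit 469) (nat_lit 414) (nat_lit 317)))) (XT.nd (nat_lit 78) (nat_lit 836) (nat_lit 0) (XT.lf (nat_lit 0) (nat_lit 6964231643) (nat_lit 456) (nat_lit 6241141817) (nat_lit 532) (nat_lit 2891456172) (nat_lit 163) (nat_lit 5) (nat_lit 169) (nat_lit 5) (nat_lit 170) (nat_lit 5) (nat_lit 470) (nat_lit 414) (nat_lit 316)) (XT.nd (nat_lit 78) (nat_lit 380) (nat_lit 0) (XT.lf (nat_lit 0) (nat_lit 2805764644) (nat_lit 456) (nat_lit 10833274098)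 (nat_lit 76) (nat_lit 2748924229) (nat_lit 157) (nat_lit 5) (nat_lit 163) (nat_lit 5) (nat_lit 158) (nat_lit 5) (nat_lit 471) (nat_lit 414) (nat_lit 315)) (XT.lf (nat_lit 0) (nat_lit 4070035821) (nat_lit 380) (nat_lit 4667011311) (nat_lit 456) (nat_lit 7948354815) (nat_lit 152) (nat_lit 5) (nat_lit 157) (nat_lit 5) (nat_lit 158) (nat_lit 5) (nat_lit 472) (nat_lit 414) (nat_lit 314)))))) (XT.nd (nat_lit 468) (nat_lit 1900) (nat_lit 0) (XT.nd (nat_lit 234) (nat_lit 1064) (nat_lit 0) (XT.nd (nat_lit 78) (nat_lit 456) (nat_lit 0) (XT.lf (nat_lit 0) (nat_lit 2538913216) (nat_lit 380) (nat_lit 12399635570) (nat_lit 456) (nat_lit 2051372079) (nat_lit 147) (nat_lit 5) (nat_lit 152) (nat_lit 5) (nat_lit 153) (nat_lit 5) (nat_lit 473) (nat_lit 414) (nat_lit 313)) (XT.nd (nat_lit 78) (nat_lit 0) (nat_lit 0) (XT.lf (nat_lit 0) (nat_lit 930636222) (nat_lit 380) (nat_lit 3134988797) (nat_lit 456) (nat_lit 13235513046)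 (nat_lit 141) (nat_lit 5) (nat_lit 146) (nat_lit 5) (nat_lit 147) (nat_lit 5) (nat_lit 474) (nat_lit 414) (nat_lit 312)) (XT.lf (nat_lit 0) (nat_lit 10451586256) (nat_lit 456) (nat_lit 746236321) (nat_lit 76) (nat_lit 6421333730) (nat_lit 141) (nat_lit 5) (nat_lit 147) (nat_lit 5) (nat_lit 142) (nat_lit 5) (nat_lit 475) (nat_lit 414) (nat_lit 311)))) (XT.nd (nat_lit 78) (nat_lit 760) (nat_lit 0) (XT.lf (nat_lit 0) (nat_lit 15488075560) (nat_lit 304) (nat_lit 1636351378) (nat_lit 380) (nat_lit 820384289) (nat_lit 137) (nat_lit 5) (nat_lit 141) (nat_lit 5) (nat_lit 142) (nat_lit 5) (nat_lit 476) (nat_lit 414) (nat_lit 310)) (XT.nd (nat_lit 78) (nat_lit 304) (nat_lit 0) (XT.lf (nat_lit 0) (nat_lit 5766734257) (nat_lit 456) (nat_lit 4286162945) (nat_lit 76) (nat_lit 8224108239) (nat_lit 131) (nat_lit 5) (nat_lit 137) (nat_lit 5) (nat_lit 132) (nat_lit 5) (nat_lit 477) (nat_lit 414) (nat_lit 309)) (XT.lf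 (nat_lit 0) (nat_lit 12453141995) (nat_lit 304) (nat_lit 170305534) (nat_lit 380) (nat_lit 5993948937) (nat_lit 127) (nat_lit 5) (nat_lit 131) (nat_lit 5) (nat_lit 132) (nat_lit 5) (nat_lit 478) (nat_lit 414) (nat_lit 308))))) (XT.nd (nat_lit 234) (nat_lit 912) (nat_lit 0) (XT.nd (nat_lit 78) (nat_lit 608) (nat_lit 0) (XT.lf (nat_lit 0) (nat_lit 848755730) (nat_lit 380) (nat_lit 8148196228) (nat_lit 76) (nat_lit 9968149778) (nat_lit 122) (nat_lit 5) (nat_lit 127) (nat_lit 5) (nat_lit 123) (nat_lit 5) (nat_lit 479) (nat_lit 414) (nat_lit 307)) (XT.nd (nat_lit 78) (nat_lit 304) (nat_lit 0) (XT.lf (nat_lit 0) (nat_lit 7901184990) (nat_lit 380) (nat_lit 10221070652) (nat_lit 76) (nat_lit 1198474395) (nat_lit 118) (nat_lit 5) (nat_lit 123) (nat_lit 5) (nat_lit 119) (nat_lit 5) (nat_lit 480) (nat_lit 414) (nat_lit 306)) (XT.lf (nat_lit 0) (nat_lit 7286117607) (nat_lit 304) (nat_lit 8017704496) (nat_lit 380)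 (nat_lit 4380434160) (nat_lit 114) (nat_lit 5) (nat_lit 118) (nat_lit 5) (nat_lit 119) (nat_lit 5) (nat_lit 481) (nat_lit 414) (nat_lit 305)))) (XT.nd (nat_lit 78) (nat_lit 532) (nat_lit 0) (XT.lf (nat_lit 0) (nat_lit 2929199920) (nat_lit 380) (nat_lit 14659053726) (nat_lit 76) (nat_lit 2468123889) (nat_lit 109) (nat_lit 5) (nat_lit 114) (nat_lit 5) (nat_lit 110) (nat_lit 5) (nat_lit 482) (nat_lit 414) (nat_lit 304)) (XT.nd (nat_lit 78) (nat_lit 228) (nat_lit 0) (XT.lf (nat_lit 0) (nat_lit 3380345590) (nat_lit 304) (nat_lit 7154975622) (nat_lit 380) (nat_lit 9901029560) (nat_lit 105) (nat_lit 5) (nat_lit 109) (nat_lit 5) (nat_lit 110) (nat_lit 5) (nat_lit 483) (nat_lit 414) (nat_lit 303)) (XT.lf (nat_lit 0) (nat_lit 1290155886) (nat_lit 228) (nat_lit 17187739206) (nat_lit 304) (nat_lit 2347664327) (nat_lit 102) (nat_lit 5) (nat_lit 105) (nat_lit 5) (nat_lit 106) (nat_lit 5) (nat_lit 484) (nat_lit 414)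 (nat_lit 302))))))) (XT.nd (nat_lit 57408) (nat_lit 0) (nat_lit 33592) (XT.nd (nat_lit 390) (nat_lit 304) (nat_lit 0) (XT.nd (nat_lit 156) (nat_lit 836) (nat_lit 0) (XT.nd (nat_lit 78) (nat_lit 304) (nat_lit 0) (XT.lf (nat_lit 0) (nat_lit 5502111647) (nat_lit 304) (nat_lit 926167475) (nat_lit 76) (nat_lit 14794640208) (nat_lit 101) (nat_lit 5) (nat_lit 105) (nat_lit 5) (nat_lit 102) (nat_lit 5) (nat_lit 485) (nat_lit 414) (nat_lit 301)) (XT.lf (nat_lit 0) (nat_lit 13683883795) (nat_lit 380) (nat_lit 3230801945) (nat_lit 76) (nat_lit 4714637442) (nat_lit 97) (nat_lit 5) (nat_lit 102) (nat_lit 5) (nat_lit 98) (nat_lit 5) (nat_lit 486) (nat_lit 414) (nat_lit 300))) (XT.nd (nat_lit 78) (nat_lit 532) (nat_lit 0) (XT.lf (nat_lit 0) (nat_lit 196910967) (nat_lit 304) (nat_lit 5643556404) (nat_lit 76) (nat_lit 16204753978) (nat_lit 93) (nat_lit 5) (nat_lit 97) (nat_lit 5) (nat_lit 94) (nat_lit 5) (nat_lit 487)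 (nat_lit 414) (nat_lit 299)) (XT.nd (nat_lit 78) (nat_lit 228) (nat_lit 0) (XT.lf (nat_lit 0) (nat_lit 8606307506) (nat_lit 380) (nat_lit 8216139839) (nat_lit 76) (nat_lit 5647485628) (nat_lit 89) (nat_lit 5) (nat_lit 94) (nat_lit 5) (nat_lit 90) (nat_lit 5) (nat_lit 488) (nat_lit 414) (nat_lit 298)) (XT.lf (nat_lit 0) (nat_lit 12000387732) (nat_lit 228) (nat_lit 5401498940) (nat_lit 304) (nat_lit 5502822580) (nat_lit 86) (nat_lit 5) (nat_lit 89) (nat_lit 5) (nat_lit 90) (nat_lit 5) (nat_lit 489) (nat_lit 414) (nat_lit 297))))) (XT.nd (nat_lit 56784) (nat_lit 0) (nat_lit 38912) (XT.nd (nat_lit 56628) (nat_lit 0) (nat_lit 40128) (XT.lf (nat_lit 0) (nat_lit 3207576771) (nat_lit 304) (nat_lit 13737857343) (nat_lit 76) (nat_lit 6403901374) (nat_lit 82) (nat_lit 5) (nat_lit 86) (nat_lit 5) (nat_lit 83) (nat_lit 5) (nat_lit 490) (nat_lit 414) (nat_lit 296)) (XT.nd (nat_lit 78) (nat_lit 0) (nat_lit 0) (XT.lf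 (nat_lit 0) (nat_lit 795098436) (nat_lit 1292) (nat_lit 1452076379) (nat_lit 1292) (nat_lit 1452076379) (nat_lit 610) (nat_lit 3) (nat_lit 627) (nat_lit 3) (nat_lit 627) (nat_lit 5) (nat_lit 415) (nat_lit 415) (nat_lit 370)) (XT.lf (nat_lit 76) (nat_lit 2575638846) (nat_lit 0) (nat_lit 1301155178) (nat_lit 1292) (nat_lit 3586995909) (nat_lit 611) (nat_lit 5) (nat_lit 610) (nat_lit 3) (nat_lit 627) (nat_lit 5) (nat_lit 416) (nat_lit 415) (nat_lit 369)))) (XT.nd (nat_lit 78) (nat_lit 1292) (nat_lit 0) (XT.lf (nat_lit 76) (nat_lit 677421947) (nat_lit 0) (nat_lit 5504008309) (nat_lit 1292) (nat_lit 1350634004) (nat_lit 612) (nat_lit 5) (nat_lit 611) (nat_lit 5) (nat_lit 628) (nat_lit 5) (nat_lit 417) (nat_lit 415) (nat_lit 368)) (XT.nd (nat_lit 78) (nat_lit 0) (nat_lit 76) (XT.lf (nat_lit 0) (nat_lit 896362656) (nat_lit 1292) (nat_lit 1187710312) (nat_lit 1368) (nat_lit 5519085478) (nat_lit 594) (nat_lit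 5) (nat_lit 611) (nat_lit 5) (nat_lit 612) (nat_lit 5) (nat_lit 418) (nat_lit 415) (nat_lit 367)) (XT.lf (nat_lit 0) (nat_lit 3149087991) (nat_lit 1292) (nat_lit 3032239566) (nat_lit 1368) (nat_lit 1495761670) (nat_lit 595) (nat_lit 5) (nat_lit 612) (nat_lit 5) (nat_lit 613) (nat_lit 5) (nat_lit 419) (nat_lit 415) (nat_lit 366)))))) (XT.nd (nat_lit 468) (nat_lit 2812) (nat_lit 0) (XT.nd (nat_lit 234) (nat_lit 1292) (nat_lit 0) (XT.nd (nat_lit 78) (nat_lit 1292) (nat_lit 0) (XT.lf (nat_lit 76) (nat_lit 2892023483) (nat_lit 0) (nat_lit 2537056147) (nat_lit 1368) (nat_lit 2324979844) (nat_lit 596) (nat_lit 5) (nat_lit 595) (nat_lit 5) (nat_lit 613) (nat_lit 5) (nat_lit 420) (nat_lit 415) (nat_lit 365)) (XT.nd (nat_lit 78) (nat_lit 1368) (nat_lit 0) (XT.lf (nat_lit 76) (nat_lit 1161269380) (nat_lit 0) (nat_lit 6573462207) (nat_lit 1368) (nat_lit 99476822) (nat_lit 597) (nat_lit 5) (nat_lit 596) (nat_lit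 5) (nat_lit 614) (nat_lit 5) (nat_lit 421) (nat_lit 415) (nat_lit 364)) (XT.lf (nat_lit 0) (nat_lit 2136766233) (nat_lit 1368) (nat_lit 564472319) (nat_lit 1444) (nat_lit 5215797923) (nat_lit 578) (nat_lit 5) (nat_lit 596) (nat_lit 5) (nat_lit 597) (nat_lit 5) (nat_lit 422) (nat_lit 415) (nat_lit 363)))) (XT.nd (nat_lit 78) (nat_lit 1368) (nat_lit 0) (XT.lf (nat_lit 0) (nat_lit 4409762247) (nat_lit 1368) (nat_lit 2257190947) (nat_lit 1444) (nat_lit 1335976364) (nat_lit 579) (nat_lit 5) (nat_lit 597) (nat_lit 5) (nat_lit 598) (nat_lit 5) (nat_lit 423) (nat_lit 415) (nat_lit 362)) (XT.nd (nat_lit 78) (nat_lit 1368) (nat_lit 0) (XT.lf (nat_lit 76) (nat_lit 4149757899) (nat_lit 0) (nat_lit 2576964115) (nat_lit 1444) (nat_lit 1365175212) (nat_lit 580) (nat_lit 5) (nat_lit 579) (nat_lit 5) (nat_lit 598) (nat_lit 5) (nat_lit 424) (nat_lit 415) (nat_lit 361)) (XT.lf (nat_lit 0) (nat_lit 888861020) (nat_lit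 1444) (nat_lit 5619434089) (nat_lit 1520) (nat_lit 1675702789) (nat_lit 561) (nat_lit 5) (nat_lit 580) (nat_lit 5) (nat_lit 581) (nat_lit 5) (nat_lit 425) (nat_lit 415) (nat_lit 360))))) (XT.nd (nat_lit 234) (nat_lit 2812) (nat_lit 0) (XT.nd (nat_lit 78) (nat_lit 0) (nat_lit 76) (XT.lf (nat_lit 76) (nat_lit 979212823) (nat_lit 0) (nat_lit 2193522454) (nat_lit 1520) (nat_lit 5106342814) (nat_lit 562) (nat_lit 5) (nat_lit 561) (nat_lit 5) (nat_lit 581) (nat_lit 5) (nat_lit 426) (nat_lit 415) (nat_lit 359)) (XT.nd (nat_lit 78) (nat_lit 0) (nat_lit 0) (XT.lf (nat_lit 0) (nat_lit 5510094932) (nat_lit 1444) (nat_lit 588270632) (nat_lit 1520) (nat_lit 2278957650) (nat_lit 562) (nat_lit 5) (nat_lit 581) (nat_lit 5) (nat_lit 582) (nat_lit 5) (nat_lit 427) (nat_lit 415) (nat_lit 358)) (XT.lf (nat_lit 76) (nat_lit 6344773699) (nat_lit 0) (nat_lit 1562670004) (nat_lit 1520) (nat_lit 571286180) (nat_lit 563) (nat_lit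 5) (nat_lit 562) (nat_lit 5) (nat_lit 582) (nat_lit 5) (nat_lit 428) (nat_lit 415) (nat_lit 357)))) (XT.nd (nat_lit 78) (nat_lit 1444) (nat_lit 0) (XT.lf (nat_lit 0) (nat_lit 1761723202) (nat_lit 1520) (nat_lit 3689117447) (nat_lit 1596) (nat_lit 3132281980) (nat_lit 543) (nat_lit 5) (nat_lit 563) (nat_lit 5) (nat_lit 564) (nat_lit 5) (nat_lit 429) (nat_lit 415) (nat_lit 356)) (XT.nd (nat_lit 78) (nat_lit 1444) (nat_lit 0) (XT.lf (nat_lit 76) (nat_lit 3453466436) (nat_lit 0) (nat_lit 687826470) (nat_lit 1596) (nat_lit 4549602779) (nat_lit 544) (nat_lit 5) (nat_lit 543) (nat_lit 5) (nat_lit 564) (nat_lit 5) (nat_lit 430) (nat_lit 415) (nat_lit 355)) (XT.lf (nat_lit 0) (nat_lit 2008564228) (nat_lit 1520) (nat_lit 4587747555) (nat_lit 1596) (nat_lit 2205519279) (nat_lit 524) (nat_lit 5) (nat_lit 544) (nat_lit 5) (nat_lit 545) (nat_lit 5) (nat_lit 431) (nat_lit 415) (nat_lit 354))))))))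
noncomputable def xc69 : XT := (XT.nd (nat_lit 1794) (nat_lit 10336) (nat_lit 0) (XT.nd (nat_lit 858) (nat_lit 8132) (nat_lit 0) (XT.nd (nat_lit 390) (nat_lit 4560) (nat_lit 0) (XT.nd (nat_lit 156) (nat_lit 5168) (nat_lit 0) (XT.nd (nat_lit 78) (nat_lit 0) (nat_lit 0) (XT.lf (nat_lit 0) (nat_lit 192309570) (nat_lit 1672) (nat_lit 8338936253) (nat_lit 76) (nat_lit 385108175) (nat_lit 502) (nat_lit 5) (nat_lit 524) (nat_lit 5) (nat_lit 503) (nat_lit 5) (nat_lit 432) (nat_lit 415) (nat_lit 353)) (XT.lf (nat_lit 0) (nat_lit 2650345834) (nat_lit 1672) (nat_lit 867023873) (nat_lit 76) (nat_lit 5516296193) (nat_lit 502) (nat_lit 5) (nat_lit 524) (nat_lit 5) (nat_lit 503) (nat_lit 5) (nat_lit 433) (nat_lit 415) (nat_lit 352))) (XT.nd (nat_lit 78) (nat_lit 3496) (nat_lit 0) (XT.lf (nat_lit 0) (nat_lit 5180539834) (nat_lit 1748) (nat_lit 2295297505) (nat_lit 76) (nat_lit 1678700793) (nat_lit 480) (nat_lit 5)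 (nat_lit 503) (nat_lit 5) (nat_lit 481) (nat_lit 5) (nat_lit 434) (nat_lit 415) (nat_lit 351)) (XT.nd (nat_lit 78) (nat_lit 1748) (nat_lit 0) (XT.lf (nat_lit 0) (nat_lit 5550438247) (nat_lit 1748) (nat_lit 2245847951) (nat_lit 1824) (nat_lit 1482566436) (nat_lit 457) (nat_lit 5) (nat_lit 480) (nat_lit 5) (nat_lit 481) (nat_lit 5) (nat_lit 435) (nat_lit 415) (nat_lit 350)) (XT.lf (nat_lit 0) (nat_lit 1078568157) (nat_lit 1748) (nat_lit 5171681987) (nat_lit 76) (nat_lit 3156330885) (nat_lit 434) (nat_lit 5) (nat_lit 457) (nat_lit 5) (nat_lit 435) (nat_lit 5) (nat_lit 436) (nat_lit 415) (nat_lit 349))))) (XT.nd (nat_lit 234) (nat_lit 1748) (nat_lit 0) (XT.nd (nat_lit 78) (nat_lit 1824) (nat_lit 0) (XT.lf (nat_lit 0) (nat_lit 2914331287) (nat_lit 988) (nat_lit 787988087) (nat_lit 1064) (nat_lit 5835515760) (nat_lit 421) (nat_lit 5) (nat_lit 434) (nat_lit 5) (nat_lit 435) (nat_lit 5) (nat_lit 437) (nat_lit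 415) (nat_lit 348)) (XT.nd (nat_lit 78) (nat_lit 912) (nat_lit 0) (XT.lf (nat_lit 0) (nat_lit 1580898827) (nat_lit 912) (nat_lit 4848545024) (nat_lit 988) (nat_lit 3243097902) (nat_lit 409) (nat_lit 5) (nat_lit 421) (nat_lit 5) (nat_lit 422) (nat_lit 5) (nat_lit 438) (nat_lit 415) (nat_lit 347)) (XT.lf (nat_lit 0) (nat_lit 254611504) (nat_lit 912) (nat_lit 8989847604) (nat_lit 988) (nat_lit 566716790) (nat_lit 397) (nat_lit 5) (nat_lit 409) (nat_lit 5) (nat_lit 410) (nat_lit 5) (nat_lit 439) (nat_lit 415) (nat_lit 346)))) (XT.nd (nat_lit 78) (nat_lit 1672) (nat_lit 0) (XT.lf (nat_lit 0) (nat_lit 2198612825) (nat_lit 988) (nat_lit 1087552655) (nat_lit 76) (nat_lit 6666779131) (nat_lit 396) (nat_lit 5) (nat_lit 409) (nat_lit 5) (nat_lit 397) (nat_lit 5) (nat_lit 440) (nat_lit 415) (nat_lit 345)) (XT.nd (nat_lit 78) (nat_lit 836) (nat_lit 0) (XT.lf (nat_lit 0) (nat_lit 5057527302) (nat_lit 912) (nat_lit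 2431761511) (nat_lit 76) (nat_lit 2609243436) (nat_lit 385) (nat_lit 5) (nat_lit 397) (nat_lit 5) (nat_lit 386) (nat_lit 5) (nat_lit 441) (nat_lit 415) (nat_lit 344)) (XT.lf (nat_lit 0) (nat_lit 6464610802) (nat_lit 836) (nat_lit 1561302333) (nat_lit 912) (nat_lit 2222107363) (nat_lit 374) (nat_lit 5) (nat_lit 385) (nat_lit 5) (nat_lit 386) (nat_lit 5) (nat_lit 442) (nat_lit 415) (nat_lit 343)))))) (XT.nd (nat_lit 468) (nat_lit 4180) (nat_lit 0) (XT.nd (nat_lit 234) (nat_lit 1520) (nat_lit 0) (XT.nd (nat_lit 78) (nat_lit 1596) (nat_lit 0) (XT.lf (nat_lit 0) (nat_lit 706226987) (nat_lit 836) (nat_lit 5155801469) (nat_lit 76) (nat_lit 4539207063) (nat_lit 363) (nat_lit 5) (nat_lit 374) (nat_lit 5) (nat_lit 364) (nat_lit 5) (nat_lit 443) (nat_lit 415) (nat_lit 342)) (XT.nd (nat_lit 78) (nat_lit 760) (nat_lit 0) (XT.lf (nat_lit 0) (nat_lit 3710874377) (nat_lit 912) (nat_lit 6543209848) (nat_lit 76) (nat_lit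 304302473) (nat_lit 352) (nat_lit 5) (nat_lit 364) (nat_lit 5) (nat_lit 353) (nat_lit 5) (nat_lit 444) (nat_lit 415) (nat_lit 341)) (XT.lf (nat_lit 0) (nat_lit 2760583484) (nat_lit 760) (nat_lit 4092527993) (nat_lit 836) (nat_lit 3866198265) (nat_lit 342) (nat_lit 5) (nat_lit 352) (nat_lit 5) (nat_lit 353) (nat_lit 5) (nat_lit 445) (nat_lit 415) (nat_lit 340)))) (XT.nd (nat_lit 78) (nat_lit 760) (nat_lit 0) (XT.lf (nat_lit 0) (nat_lit 1505129875) (nat_lit 760) (nat_lit 8609651656) (nat_lit 836) (nat_lit 769781780) (nat_lit 332) (nat_lit 5) (nat_lit 342) (nat_lit 5) (nat_lit 343) (nat_lit 5) (nat_lit 446) (nat_lit 415) (nat_lit 339)) (XT.nd (nat_lit 78) (nat_lit 0) (nat_lit 0) (XT.lf (nat_lit 0) (nat_lit 219230197) (nat_lit 684) (nat_lit 2208449415) (nat_lit 760) (nat_lit 8625988845) (nat_lit 322) (nat_lit 5) (nat_lit 331) (nat_lit 5) (nat_lit 332) (nat_lit 5) (nat_lit 447) (nat_lit 415) (nat_lit 338))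 (XT.lf (nat_lit 0) (nat_lit 5760833692) (nat_lit 760) (nat_lit 1074760221) (nat_lit 76) (nat_lit 4391152221) (nat_lit 322) (nat_lit 5) (nat_lit 332) (nat_lit 5) (nat_lit 323) (nat_lit 5) (nat_lit 448) (nat_lit 415) (nat_lit 337))))) (XT.nd (nat_lit 234) (nat_lit 1976) (nat_lit 0) (XT.nd (nat_lit 78) (nat_lit 1444) (nat_lit 0) (XT.lf (nat_lit 0) (nat_lit 9034449276) (nat_lit 760) (nat_lit 191910771) (nat_lit 836) (nat_lit 2178014058) (nat_lit 312) (nat_lit 5) (nat_lit 322) (nat_lit 5) (nat_lit 323) (nat_lit 5) (nat_lit 449) (nat_lit 415) (nat_lit 336)) (XT.nd (nat_lit 78) (nat_lit 684) (nat_lit 0) (XT.lf (nat_lit 0) (nat_lit 1254607351) (nat_lit 760) (nat_lit 3706666586) (nat_lit 76) (nat_lit 6624666580) (nat_lit 302) (nat_lit 5) (nat_lit 312) (nat_lit 5) (nat_lit 303) (nat_lit 5) (nat_lit 450) (nat_lit 415) (nat_lit 335)) (XT.lf (nat_lit 0) (nat_lit 4794873979) (nat_lit 760) (nat_lit 5063630218) (nat_lit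 76) (nat_lit 1913481744) (nat_lit 293) (nat_lit 5) (nat_lit 303) (nat_lit 5) (nat_lit 294) (nat_lit 5) (nat_lit 451) (nat_lit 415) (nat_lit 334)))) (XT.nd (nat_lit 78) (nat_lit 1368) (nat_lit 0) (XT.lf (nat_lit 0) (nat_lit 5515722708) (nat_lit 608) (nat_lit 2981119311) (nat_lit 684) (nat_lit 3465665791) (nat_lit 285) (nat_lit 5) (nat_lit 293) (nat_lit 5) (nat_lit 294) (nat_lit 5) (nat_lit 452) (nat_lit 415) (nat_lit 333)) (XT.nd (nat_lit 78) (nat_lit 608) (nat_lit 0) (XT.lf (nat_lit 0) (nat_lit 200612516) (nat_lit 760) (nat_lit 7852401616) (nat_lit 76) (nat_lit 4104686876) (nat_lit 275) (nat_lit 5) (nat_lit 285) (nat_lit 5) (nat_lit 276) (nat_lit 5) (nat_lit 453) (nat_lit 415) (nat_lit 332)) (XT.lf (nat_lit 0) (nat_lit 3060626992) (nat_lit 608) (nat_lit 915774510) (nat_lit 684) (nat_lit 8380962773) (nat_lit 267) (nat_lit 5) (nat_lit 275) (nat_lit 5) (nat_lit 276) (nat_lit 5) (nat_lit 454) (nat_lit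 415) (nat_lit 331))))))) (XT.nd (nat_lit 936) (nat_lit 4256) (nat_lit 0) (XT.nd (nat_lit 468) (nat_lit 3116) (nat_lit 0) (XT.nd (nat_lit 234) (nat_lit 1748) (nat_lit 0) (XT.nd (nat_lit 78) (nat_lit 608) (nat_lit 0) (XT.lf (nat_lit 0) (nat_lit 1781453533) (nat_lit 608) (nat_lit 6154215571) (nat_lit 684) (nat_lit 4625948678) (nat_lit 259) (nat_lit 5) (nat_lit 267) (nat_lit 5) (nat_lit 268) (nat_lit 5) (nat_lit 455) (nat_lit 415) (nat_lit 330)) (XT.nd (nat_lit 78) (nat_lit 76) (nat_lit 0) (XT.lf (nat_lit 0) (nat_lit 494661977) (nat_lit 532) (nat_lit 11563335627) (nat_lit 608) (nat_lit 713119944) (nat_lit 252) (nat_lit 5) (nat_lit 259) (nat_lit 5) (nat_lit 260) (nat_lit 5) (nat_lit 456) (nat_lit 415) (nat_lit 329)) (XT.lf (nat_lit 0) (nat_lit 3352796481) (nat_lit 608) (nat_lit 839309859) (nat_lit 76) (nat_lit 8792785195) (nat_lit 251) (nat_lit 5) (nat_lit 259) (nat_lit 5) (nat_lit 252) (nat_lit 5) (nat_lit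 457) (nat_lit 415) (nat_lit 328)))) (XT.nd (nat_lit 78) (nat_lit 1140) (nat_lit 0) (XT.lf (nat_lit 0) (nat_lit 7590779652) (nat_lit 684) (nat_lit 2190482066) (nat_lit 76) (nat_lit 3422531178) (nat_lit 243) (nat_lit 5) (nat_lit 252) (nat_lit 5) (nat_lit 244) (nat_lit 5) (nat_lit 458) (nat_lit 415) (nat_lit 327)) (XT.nd (nat_lit 78) (nat_lit 608) (nat_lit 0) (XT.lf (nat_lit 0) (nat_lit 9860567968) (nat_lit 532) (nat_lit 2159318336) (nat_lit 608) (nat_lit 1408099184) (nat_lit 236) (nat_lit 5) (nat_lit 243) (nat_lit 5) (nat_lit 244) (nat_lit 5) (nat_lit 459) (nat_lit 415) (nat_lit 326)) (XT.lf (nat_lit 0) (nat_lit 2960183207) (nat_lit 608) (nat_lit 5000014114) (nat_lit 76) (nat_lit 5696819541) (nat_lit 228) (nat_lit 5) (nat_lit 236) (nat_lit 5) (nat_lit 229) (nat_lit 5) (nat_lit 460) (nat_lit 415) (nat_lit 325))))) (XT.nd (nat_lit 234) (nat_lit 1520) (nat_lit 0) (XT.nd (nat_lit 78) (nat_lit 1064) (nat_lit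 0) (XT.lf (nat_lit 0) (nat_lit 7433905774) (nat_lit 532) (nat_lit 60924073) (nat_lit 608) (nat_lit 6396817829) (nat_lit 221) (nat_lit 5) (nat_lit 228) (nat_lit 5) (nat_lit 229) (nat_lit 5) (nat_lit 461) (nat_lit 415) (nat_lit 324)) (XT.nd (nat_lit 78) (nat_lit 532) (nat_lit 0) (XT.lf (nat_lit 0) (nat_lit 6160809922) (nat_lit 532) (nat_lit 6099136336) (nat_lit 608) (nat_lit 1871486020) (nat_lit 214) (nat_lit 5) (nat_lit 221) (nat_lit 5) (nat_lit 222) (nat_lit 5) (nat_lit 462) (nat_lit 415) (nat_lit 323)) (XT.lf (nat_lit 0) (nat_lit 2810890660) (nat_lit 532) (nat_lit 9520469773) (nat_lit 76) (nat_lit 2045533627) (nat_lit 207) (nat_lit 5) (nat_lit 214) (nat_lit 5) (nat_lit 208) (nat_lit 5) (nat_lit 463) (nat_lit 415) (nat_lit 322)))) (XT.nd (nat_lit 78) (nat_lit 988) (nat_lit 0) (XT.lf (nat_lit 0) (nat_lit 3497427002) (nat_lit 532) (nat_lit 4197796788) (nat_lit 608) (nat_lit 6932513479) (nat_lit 200)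 (nat_lit 5) (nat_lit 207) (nat_lit 5) (nat_lit 208) (nat_lit 5) (nat_lit 464) (nat_lit 415) (nat_lit 321)) (XT.nd (nat_lit 78) (nat_lit 532) (nat_lit 0) (XT.lf (nat_lit 0) (nat_lit 2108092022) (nat_lit 456) (nat_lit 10693210370) (nat_lit 532) (nat_lit 2083302185) (nat_lit 194) (nat_lit 5) (nat_lit 200) (nat_lit 5) (nat_lit 201) (nat_lit 5) (nat_lit 465) (nat_lit 415) (nat_lit 320)) (XT.lf (nat_lit 0) (nat_lit 666543666) (nat_lit 456) (nat_lit 2284841781) (nat_lit 532) (nat_lit 12195853702) (nat_lit 187) (nat_lit 5) (nat_lit 193) (nat_lit 5) (nat_lit 194) (nat_lit 5) (nat_lit 466) (nat_lit 415) (nat_lit 319)))))) (XT.nd (nat_lit 468) (nat_lit 1976) (nat_lit 0) (XT.nd (nat_lit 234) (nat_lit 1292) (nat_lit 0) (XT.nd (nat_lit 78) (nat_lit 988) (nat_lit 0) (XT.lf (nat_lit 0) (nat_lit 8207898754) (nat_lit 532) (nat_lit 827009565) (nat_lit 76) (nat_lit 6380590127) (nat_lit 187) (nat_lit 5) (nat_lit 194) (nat_lit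 5) (nat_lit 188) (nat_lit 5) (nat_lit 467) (nat_lit 415) (nat_lit 318)) (XT.nd (nat_lit 78) (nat_lit 532) (nat_lit 0) (XT.lf (nat_lit 0) (nat_lit 13354537103) (nat_lit 456) (nat_lit 340800101) (nat_lit 532) (nat_lit 1995006516) (nat_lit 181) (nat_lit 5) (nat_lit 187) (nat_lit 5) (nat_lit 188) (nat_lit 5) (nat_lit 468) (nat_lit 415) (nat_lit 317)) (XT.lf (nat_lit 0) (nat_lit 3442056514) (nat_lit 532) (nat_lit 3933540179) (nat_lit 76) (nat_lit 8595155354) (nat_lit 174) (nat_lit 5) (nat_lit 181) (nat_lit 5) (nat_lit 175) (nat_lit 5) (nat_lit 469) (nat_lit 415) (nat_lit 316)))) (XT.nd (nat_lit 78) (nat_lit 912) (nat_lit 0) (XT.lf (nat_lit 0) (nat_lit 9085589094) (nat_lit 456) (nat_lit 5571061196) (nat_lit 76) (nat_lit 1601251939) (nat_lit 169) (nat_lit 5) (nat_lit 175) (nat_lit 5) (nat_lit 170) (nat_lit 5) (nat_lit 470) (nat_lit 415) (nat_lit 315)) (XT.nd (nat_lit 78) (nat_lit 456) (nat_lit 0) (XT.lf (nat_lit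 0) (nat_lit 9277798513) (nat_lit 456) (nat_lit 5729591741) (nat_lit 532) (nat_lit 1544099916) (nat_lit 163) (nat_lit 5) (nat_lit 169) (nat_lit 5) (nat_lit 170) (nat_lit 5) (nat_lit 471) (nat_lit 415) (nat_lit 314)) (XT.lf (nat_lit 0) (nat_lit 4282125443) (nat_lit 456) (nat_lit 9045832373) (nat_lit 76) (nat_lit 3523679177) (nat_lit 157) (nat_lit 5) (nat_lit 163) (nat_lit 5) (nat_lit 158) (nat_lit 5) (nat_lit 472) (nat_lit 415) (nat_lit 313))))) (XT.nd (nat_lit 234) (nat_lit 760) (nat_lit 0) (XT.nd (nat_lit 78) (nat_lit 836) (nat_lit 0) (XT.lf (nat_lit 0) (nat_lit 6270305016) (nat_lit 380) (nat_lit 4093985075) (nat_lit 456) (nat_lit 6794253700) (nat_lit 152) (nat_lit 5) (nat_lit 157) (nat_lit 5) (nat_lit 158) (nat_lit 5) (nat_lit 473) (nat_lit 415) (nat_lit 312)) (XT.nd (nat_lit 78) (nat_lit 456) (nat_lit 0) (XT.lf (nat_lit 0) (nat_lit 4681953879) (nat_lit 380) (nat_lit 12048035980) (nat_lit 456) (nat_lit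 742648781) (nat_lit 147) (nat_lit 5) (nat_lit 152) (nat_lit 5) (nat_lit 153) (nat_lit 5) (nat_lit 474) (nat_lit 415) (nat_lit 311)) (XT.lf (nat_lit 0) (nat_lit 3009685820) (nat_lit 380) (nat_lit 2504131265) (nat_lit 456) (nat_lit 12279721995) (nat_lit 141) (nat_lit 5) (nat_lit 146) (nat_lit 5) (nat_lit 147) (nat_lit 5) (nat_lit 475) (nat_lit 415) (nat_lit 310)))) (XT.nd (nat_lit 78) (nat_lit 456) (nat_lit 0) (XT.lf (nat_lit 0) (nat_lit 1260586159) (nat_lit 304) (nat_lit 10804897192) (nat_lit 380) (nat_lit 6056135161) (nat_lit 137) (nat_lit 5) (nat_lit 141) (nat_lit 5) (nat_lit 142) (nat_lit 5) (nat_lit 476) (nat_lit 415) (nat_lit 309)) (XT.nd (nat_lit 78) (nat_lit 380) (nat_lit 0) (XT.lf (nat_lit 0) (nat_lit 441965508) (nat_lit 380) (nat_lit 527871821) (nat_lit 76) (nat_lit 17487809964) (nat_lit 136) (nat_lit 5) (nat_lit 141) (nat_lit 5) (nat_lit 137) (nat_lit 5) (nat_lit 477) (nat_lit 415) (nat_lit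 308)) (XT.lf (nat_lit 0) (nat_lit 7195840421) (nat_lit 456) (nat_lit 2429572080) (nat_lit 76) (nat_lit 9174683531) (nat_lit 131) (nat_lit 5) (nat_lit 137) (nat_lit 5) (nat_lit 132) (nat_lit 5) (nat_lit 478) (nat_lit 415) (nat_lit 307))))))))
noncomputable def xc70 : XT := (XT.nd (nat_lit 58422) (nat_lit 0) (nat_lit 17176) (XT.nd (nat_lit 858) (nat_lit 228) (nat_lit 0) (XT.nd (nat_lit 390) (nat_lit 1520) (nat_lit 0) (XT.nd (nat_lit 156) (nat_lit 988) (nat_lit 0) (XT.nd (nat_lit 78) (nat_lit 380) (nat_lit 0) (XT.lf (nat_lit 0) (nat_lit 14237890311) (nat_lit 380) (nat_lit 4375015659) (nat_lit 76) (nat_lit 538202953) (nat_lit 127) (nat_lit 5) (nat_lit 132) (nat_lit 5) (nat_lit 128) (nat_lit 5) (nat_lit 479) (nat_lit 415) (nat_lit 306)) (XT.lf (nat_lit 0) (nat_lit 2095800273) (nat_lit 380) (nat_lit 6435300332) (nat_lit 76) (nat_lit 10978432453) (nat_lit 122) (nat_lit 5) (nat_lit 127) (nat_lit 5) (nat_lit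 123) (nat_lit 5) (nat_lit 480) (nat_lit 415) (nat_lit 305))) (XT.nd (nat_lit 78) (nat_lit 684) (nat_lit 0) (XT.lf (nat_lit 0) (nat_lit 9341445239) (nat_lit 380) (nat_lit 8582779686) (nat_lit 76) (nat_lit 1951975051) (nat_lit 118) (nat_lit 5) (nat_lit 123) (nat_lit 5) (nat_lit 119) (nat_lit 5) (nat_lit 481) (nat_lit 415) (nat_lit 304)) (XT.nd (nat_lit 78) (nat_lit 380) (nat_lit 0) (XT.lf (nat_lit 0) (nat_lit 9418070154) (nat_lit 304) (nat_lit 7525468793) (nat_lit 380) (nat_lit 3307548040) (nat_lit 114) (nat_lit 5) (nat_lit 118) (nat_lit 5) (nat_lit 119) (nat_lit 5) (nat_lit 482) (nat_lit 415) (nat_lit 303)) (XT.lf (nat_lit 0) (nat_lit 4188037476) (nat_lit 380) (nat_lit 13182224078) (nat_lit 76) (nat_lit 3264307246) (nat_lit 109) (nat_lit 5) (nat_lit 114) (nat_lit 5) (nat_lit 110) (nat_lit 5) (nat_lit 483) (nat_lit 415) (nat_lit 302))))) (XT.nd (nat_lit 234) (nat_lit 608) (nat_lit 0) (XT.nd (nat_lit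 78) (nat_lit 608) (nat_lit 0) (XT.lf (nat_lit 0) (nat_lit 5367262639) (nat_lit 304) (nat_lit 6633216051) (nat_lit 380) (nat_lit 9025902173) (nat_lit 105) (nat_lit 5) (nat_lit 109) (nat_lit 5) (nat_lit 110) (nat_lit 5) (nat_lit 484) (nat_lit 415) (nat_lit 301)) (XT.nd (nat_lit 78) (nat_lit 380) (nat_lit 0) (XT.lf (nat_lit 0) (nat_lit 3201759758) (nat_lit 228) (nat_lit 16962903258) (nat_lit 304) (nat_lit 1262938374) (nat_lit 102) (nat_lit 5) (nat_lit 105) (nat_lit 5) (nat_lit 106) (nat_lit 5) (nat_lit 485) (nat_lit 415) (nat_lit 300)) (XT.lf (nat_lit 0) (nat_lit 890861374) (nat_lit 304) (nat_lit 5888899439) (nat_lit 380) (nat_lit 15057521862) (nat_lit 97) (nat_lit 5) (nat_lit 101) (nat_lit 5) (nat_lit 102) (nat_lit 5) (nat_lit 486) (nat_lit 415) (nat_lit 299)))) (XT.nd (nat_lit 78) (nat_lit 608) (nat_lit 0) (XT.lf (nat_lit 0) (nat_lit 15185329913) (nat_lit 380) (nat_lit 1507196406) (nat_lit 76) (nat_lit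 5563787557) (nat_lit 97) (nat_lit 5) (nat_lit 102) (nat_lit 5) (nat_lit 98) (nat_lit 5) (nat_lit 487) (nat_lit 415) (nat_lit 298)) (XT.nd (nat_lit 78) (nat_lit 304) (nat_lit 0) (XT.lf (nat_lit 0) (nat_lit 1280760311) (nat_lit 304) (nat_lit 4007477130) (nat_lit 76) (nat_lit 17396714690) (nat_lit 93) (nat_lit 5) (nat_lit 97) (nat_lit 5) (nat_lit 94) (nat_lit 5) (nat_lit 488) (nat_lit 415) (nat_lit 297)) (XT.lf (nat_lit 0) (nat_lit 9927235821) (nat_lit 380) (nat_lit 6669963552) (nat_lit 76) (nat_lit 6525511742) (nat_lit 89) (nat_lit 5) (nat_lit 94) (nat_lit 5) (nat_lit 90) (nat_lit 5) (nat_lit 489) (nat_lit 415) (nat_lit 296)))))) (XT.nd (nat_lit 57096) (nat_lit 0) (nat_lit 36024) (XT.nd (nat_lit 56862) (nat_lit 0) (nat_lit 38608) (XT.nd (nat_lit 56706) (nat_lit 0) (nat_lit 38532) (XT.lf (nat_lit 0) (nat_lit 14123976059) (nat_lit 228) (nat_lit 4843203047) (nat_lit 304) (nat_lit 4603743537) (nat_lit 86)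 (nat_lit 5) (nat_lit 89) (nat_lit 5) (nat_lit 90) (nat_lit 5) (nat_lit 490) (nat_lit 415) (nat_lit 295)) (XT.nd (nat_lit 78) (nat_lit 1292) (nat_lit 0) (XT.lf (nat_lit 0) (nat_lit 3043382700) (nat_lit 1292) (nat_lit 360963239) (nat_lit 1292) (nat_lit 360963239) (nat_lit 610) (nat_lit 3) (nat_lit 627) (nat_lit 3) (nat_lit 627) (nat_lit 5) (nat_lit 416) (nat_lit 416) (nat_lit 368)) (XT.lf (nat_lit 0) (nat_lit 717155119) (nat_lit 1292) (nat_lit 2719468069) (nat_lit 1368) (nat_lit 4163473745) (nat_lit 593) (nat_lit 5) (nat_lit 610) (nat_lit 3) (nat_lit 611) (nat_lit 5) (nat_lit 417) (nat_lit 416) (nat_lit 367)))) (XT.nd (nat_lit 78) (nat_lit 0) (nat_lit 0) (XT.lf (nat_lit 0) (nat_lit 2864982824) (nat_lit 1292) (nat_lit 4698306470) (nat_lit 1368) (nat_lit 109363275) (nat_lit 594) (nat_lit 5) (nat_lit 611) (nat_lit 5) (nat_lit 612) (nat_lit 5) (nat_lit 418) (nat_lit 416) (nat_lit 366)) (XT.nd (nat_lit 78)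 (nat_lit 0) (nat_lit 0) (XT.lf (nat_lit 76) (nat_lit 1075169933) (nat_lit 0) (nat_lit 3969521238) (nat_lit 1368) (nat_lit 2703360023) (nat_lit 595) (nat_lit 5) (nat_lit 594) (nat_lit 5) (nat_lit 612) (nat_lit 5) (nat_lit 419) (nat_lit 416) (nat_lit 365)) (XT.lf (nat_lit 76) (nat_lit 7041882282) (nat_lit 0) (nat_lit 200752242) (nat_lit 1368) (nat_lit 584035170) (nat_lit 595) (nat_lit 5) (nat_lit 594) (nat_lit 5) (nat_lit 612) (nat_lit 5) (nat_lit 420) (nat_lit 416) (nat_lit 364))))) (XT.nd (nat_lit 234) (nat_lit 1292) (nat_lit 0) (XT.nd (nat_lit 78) (nat_lit 0) (nat_lit 0) (XT.lf (nat_lit 0) (nat_lit 1559475653) (nat_lit 1368) (nat_lit 2637738877) (nat_lit 1444) (nat_lit 3710607167) (nat_lit 577) (nat_lit 5) (nat_lit 595) (nat_lit 5) (nat_lit 596) (nat_lit 5) (nat_lit 421) (nat_lit 416) (nat_lit 363)) (XT.nd (nat_lit 78) (nat_lit 0) (nat_lit 76) (XT.lf (nat_lit 76) (nat_lit 3521904901) (nat_lit 0) (nat_lit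 192019943) (nat_lit 1444) (nat_lit 4278328519) (nat_lit 578) (nat_lit 5) (nat_lit 577) (nat_lit 5) (nat_lit 596) (nat_lit 5) (nat_lit 422) (nat_lit 416) (nat_lit 362)) (XT.lf (nat_lit 76) (nat_lit 1775235473) (nat_lit 0) (nat_lit 4139873786) (nat_lit 1444) (nat_lit 2164479955) (nat_lit 579) (nat_lit 5) (nat_lit 578) (nat_lit 5) (nat_lit 597) (nat_lit 5) (nat_lit 423) (nat_lit 416) (nat_lit 361)))) (XT.nd (nat_lit 78) (nat_lit 1444) (nat_lit 0) (XT.lf (nat_lit 76) (nat_lit 52670024) (nat_lit 0) (nat_lit 8090965881) (nat_lit 1444) (nat_lit 26695987) (nat_lit 580) (nat_lit 5) (nat_lit 579) (nat_lit 5) (nat_lit 598) (nat_lit 5) (nat_lit 424) (nat_lit 416) (nat_lit 360)) (XT.nd (nat_lit 78) (nat_lit 0) (nat_lit 76) (XT.lf (nat_lit 0) (nat_lit 2147723236) (nat_lit 1444) (nat_lit 1665343995) (nat_lit 1520) (nat_lit 4450438820) (nat_lit 560) (nat_lit 5) (nat_lit 579) (nat_lit 5) (nat_lit 580) (nat_lit 5) (nat_lit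 425) (nat_lit 416) (nat_lit 359)) (XT.lf (nat_lit 0) (nat_lit 4356060551) (nat_lit 1444) (nat_lit 3364093228) (nat_lit 1520) (nat_lit 639949071) (nat_lit 561) (nat_lit 5) (nat_lit 580) (nat_lit 5) (nat_lit 581) (nat_lit 5) (nat_lit 426) (nat_lit 416) (nat_lit 358))))))) (XT.nd (nat_lit 858) (nat_lit 9272) (nat_lit 0) (XT.nd (nat_lit 390) (nat_lit 8208) (nat_lit 0) (XT.nd (nat_lit 156) (nat_lit 0) (nat_lit 0) (XT.nd (nat_lit 78) (nat_lit 1444) (nat_lit 0) (XT.lf (nat_lit 76) (nat_lit 3393187806) (nat_lit 0) (nat_lit 3230535906) (nat_lit 1520) (nat_lit 1836023884) (nat_lit 562) (nat_lit 5) (nat_lit 561) (nat_lit 5) (nat_lit 581) (nat_lit 5) (nat_lit 427) (nat_lit 416) (nat_lit 357)) (XT.lf (nat_lit 0) (nat_lit 371323004) (nat_lit 1520) (nat_lit 6760494916) (nat_lit 1596) (nat_lit 1430933310) (nat_lit 542) (nat_lit 5) (nat_lit 562) (nat_lit 5) (nat_lit 563) (nat_lit 5) (nat_lit 428) (nat_lit 416) (nat_lit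 356))) (XT.nd (nat_lit 78) (nat_lit 0) (nat_lit 76) (XT.lf (nat_lit 76) (nat_lit 199725187) (nat_lit 0) (nat_lit 2414891762) (nat_lit 1596) (nat_lit 6054102564) (nat_lit 543) (nat_lit 5) (nat_lit 542) (nat_lit 5) (nat_lit 563) (nat_lit 5) (nat_lit 429) (nat_lit 416) (nat_lit 355)) (XT.nd (nat_lit 78) (nat_lit 0) (nat_lit 0) (XT.lf (nat_lit 0) (nat_lit 4925887260) (nat_lit 1520) (nat_lit 1379515179) (nat_lit 1596) (nat_lit 2472461227) (nat_lit 543) (nat_lit 5) (nat_lit 563) (nat_lit 5) (nat_lit 564) (nat_lit 5) (nat_lit 430) (nat_lit 416) (nat_lit 354)) (XT.lf (nat_lit 76) (nat_lit 5938080121) (nat_lit 0) (nat_lit 1363602280) (nat_lit 1596) (nat_lit 1588706077) (nat_lit 544) (nat_lit 5) (nat_lit 543) (nat_lit 5) (nat_lit 564) (nat_lit 5) (nat_lit 431) (nat_lit 416) (nat_lit 353))))) (XT.nd (nat_lit 234) (nat_lit 3496) (nat_lit 0) (XT.nd (nat_lit 78) (nat_lit 3268) (nat_lit 0) (XT.lf (nat_lit 0) (nat_lit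 737411820) (nat_lit 1596) (nat_lit 4535429869) (nat_lit 76) (nat_lit 3733266779) (nat_lit 523) (nat_lit 5) (nat_lit 544) (nat_lit 5) (nat_lit 524) (nat_lit 5) (nat_lit 432) (nat_lit 416) (nat_lit 352)) (XT.nd (nat_lit 78) (nat_lit 1672) (nat_lit 0) (XT.lf (nat_lit 0) (nat_lit 3004589957) (nat_lit 1596) (nat_lit 99035649) (nat_lit 1672) (nat_lit 6021635797) (nat_lit 502) (nat_lit 5) (nat_lit 523) (nat_lit 5) (nat_lit 524) (nat_lit 5) (nat_lit 433) (nat_lit 416) (nat_lit 351)) (XT.lf (nat_lit 0) (nat_lit 1524115526) (nat_lit 1672) (nat_lit 4035931149) (nat_lit 1748) (nat_lit 3687566869) (nat_lit 480) (nat_lit 5) (nat_lit 502) (nat_lit 5) (nat_lit 503) (nat_lit 5) (nat_lit 434) (nat_lit 416) (nat_lit 350)))) (XT.nd (nat_lit 78) (nat_lit 1748) (nat_lit 0) (XT.lf (nat_lit 0) (nat_lit 52887428) (nat_lit 1748) (nat_lit 8034307971) (nat_lit 1824) (nat_lit 1286508919) (nat_lit 457) (nat_lit 5) (nat_lit 480)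 (nat_lit 5) (nat_lit 481) (nat_lit 5) (nat_lit 435) (nat_lit 416) (nat_lit 349)) (XT.nd (nat_lit 78) (nat_lit 1672) (nat_lit 0) (XT.lf (nat_lit 0) (nat_lit 1197406830) (nat_lit 1824) (nat_lit 1416840336) (nat_lit 76) (nat_lit 6888657153) (nat_lit 456) (nat_lit 5) (nat_lit 480) (nat_lit 5) (nat_lit 457) (nat_lit 5) (nat_lit 436) (nat_lit 416) (nat_lit 348)) (XT.lf (nat_lit 0) (nat_lit 3750262626) (nat_lit 1748) (nat_lit 2897512455) (nat_lit 76) (nat_lit 2987805243) (nat_lit 434) (nat_lit 5) (nat_lit 457) (nat_lit 5) (nat_lit 435) (nat_lit 5) (nat_lit 437) (nat_lit 416) (nat_lit 347)))))) (XT.nd (nat_lit 468) (nat_lit 4636) (nat_lit 0) (XT.nd (nat_lit 234) (nat_lit 1748) (nat_lit 0) (XT.nd (nat_lit 78) (nat_lit 1900) (nat_lit 0) (XT.lf (nat_lit 0) (nat_lit 5391668386) (nat_lit 988) (nat_lit 999700950) (nat_lit 1064) (nat_lit 3380641839) (nat_lit 421) (nat_lit 5) (nat_lit 434) (nat_lit 5) (nat_lit 435)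 (nat_lit 5) (nat_lit 438) (nat_lit 416) (nat_lit 346)) (XT.nd (nat_lit 78) (nat_lit 988) (nat_lit 0) (XT.lf (nat_lit 0) (nat_lit 4031776873) (nat_lit 912) (nat_lit 5107863136) (nat_lit 988) (nat_lit 772343968) (nat_lit 409) (nat_lit 5) (nat_lit 421) (nat_lit 5) (nat_lit 422) (nat_lit 5) (nat_lit 439) (nat_lit 416) (nat_lit 345)) (XT.lf (nat_lit 0) (nat_lit 1899549013) (nat_lit 988) (nat_lit 7391106623) (nat_lit 76) (nat_lit 765050006) (nat_lit 396) (nat_lit 5) (nat_lit 409) (nat_lit 5) (nat_lit 397) (nat_lit 5) (nat_lit 440) (nat_lit 416) (nat_lit 344)))) (XT.nd (nat_lit 78) (nat_lit 912) (nat_lit 0) (XT.lf (nat_lit 0) (nat_lit 1273577179) (nat_lit 836) (nat_lit 3402769480) (nat_lit 912) (nat_lit 5526592436) (nat_lit 385) (nat_lit 5) (nat_lit 396) (nat_lit 5) (nat_lit 397) (nat_lit 5) (nat_lit 441) (nat_lit 416) (nat_lit 343)) (XT.nd (nat_lit 78) (nat_lit 912) (nat_lit 0) (XT.lf (nat_lit 0) (nat_lit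 7557871435) (nat_lit 912) (nat_lit 118838201) (nat_lit 76) (nat_lit 2677458306) (nat_lit 385) (nat_lit 5) (nat_lit 397) (nat_lit 5) (nat_lit 386) (nat_lit 5) (nat_lit 442) (nat_lit 416) (nat_lit 342)) (XT.lf (nat_lit 0) (nat_lit 52233390) (nat_lit 912) (nat_lit 1503840678) (nat_lit 76) (nat_lit 8953133370) (nat_lit 373) (nat_lit 5) (nat_lit 385) (nat_lit 5) (nat_lit 374) (nat_lit 5) (nat_lit 443) (nat_lit 416) (nat_lit 341))))) (XT.nd (nat_lit 234) (nat_lit 2280) (nat_lit 0) (XT.nd (nat_lit 78) (nat_lit 1596) (nat_lit 0) (XT.lf (nat_lit 0) (nat_lit 2986804620) (nat_lit 836) (nat_lit 2925873588) (nat_lit 76) (nat_lit 4755085054) (nat_lit 363) (nat_lit 5) (nat_lit 374) (nat_lit 5) (nat_lit 364) (nat_lit 5) (nat_lit 444) (nat_lit 416) (nat_lit 340)) (XT.nd (nat_lit 78) (nat_lit 760) (nat_lit 0) (XT.lf (nat_lit 0) (nat_lit 6031905309) (nat_lit 912) (nat_lit 4349993262) (nat_lit 76) (nat_lit 448733491)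 (nat_lit 352) (nat_lit 5) (nat_lit 364) (nat_lit 5) (nat_lit 353) (nat_lit 5) (nat_lit 445) (nat_lit 416) (nat_lit 339)) (XT.lf (nat_lit 0) (nat_lit 5194146862) (nat_lit 760) (nat_lit 4025164930) (nat_lit 836) (nat_lit 1778062052) (nat_lit 342) (nat_lit 5) (nat_lit 352) (nat_lit 5) (nat_lit 353) (nat_lit 5) (nat_lit 446) (nat_lit 416) (nat_lit 338)))) (XT.nd (nat_lit 78) (nat_lit 1444) (nat_lit 0) (XT.lf (nat_lit 0) (nat_lit 1345975160) (nat_lit 836) (nat_lit 7272891567) (nat_lit 76) (nat_lit 2549478951) (nat_lit 331) (nat_lit 5) (nat_lit 342) (nat_lit 5) (nat_lit 332) (nat_lit 5) (nat_lit 447) (nat_lit 416) (nat_lit 337)) (XT.nd (nat_lit 78) (nat_lit 760) (nat_lit 0) (XT.lf (nat_lit 0) (nat_lit 2569926378) (nat_lit 684) (nat_lit 2012261155) (nat_lit 760) (nat_lit 6761177374) (nat_lit 322) (nat_lit 5) (nat_lit 331) (nat_lit 5) (nat_lit 332) (nat_lit 5) (nat_lit 448) (nat_lit 416) (nat_lit 336)) (XT.lf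 (nat_lit 0) (nat_lit 1223931513) (nat_lit 760) (nat_lit 6740374229) (nat_lit 836) (nat_lit 3558357939) (nat_lit 312) (nat_lit 5) (nat_lit 322) (nat_lit 5) (nat_lit 323) (nat_lit 5) (nat_lit 449) (nat_lit 416) (nat_lit 335))))))))
noncomputable def xc71 : XT := (XT.nd (nat_lit 1794) (nat_lit 5624) (nat_lit 0) (XT.nd (nat_lit 858) (nat_lit 5472) (nat_lit 0) (XT.nd (nat_lit 390) (nat_lit 3040) (nat_lit 0) (XT.nd (nat_lit 156) (nat_lit 2052) (nat_lit 0) (XT.nd (nat_lit 78) (nat_lit 760) (nat_lit 0) (XT.lf (nat_lit 0) (nat_lit 11482379933) (nat_lit 836) (nat_lit 124517213) (nat_lit 76) (nat_lit 99759622) (nat_lit 312) (nat_lit 5) (nat_lit 323) (nat_lit 5) (nat_lit 313) (nat_lit 5) (nat_lit 450) (nat_lit 416) (nat_lit 334)) (XT.lf (nat_lit 0) (nat_lit 3242946119) (nat_lit 760) (nat_lit 1514031294) (nat_lit 76) (nat_lit 7137276045) (nat_lit 302) (nat_lit 5) (nat_lit 312) (nat_lit 5) (nat_lit 303) (nat_lit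 5) (nat_lit 451) (nat_lit 416) (nat_lit 333))) (XT.nd (nat_lit 78) (nat_lit 1368) (nat_lit 0) (XT.lf (nat_lit 0) (nat_lit 6849643033) (nat_lit 760) (nat_lit 2912988350) (nat_lit 76) (nat_lit 2324051734) (nat_lit 293) (nat_lit 5) (nat_lit 303) (nat_lit 5) (nat_lit 294) (nat_lit 5) (nat_lit 452) (nat_lit 416) (nat_lit 332)) (XT.nd (nat_lit 78) (nat_lit 760) (nat_lit 0) (XT.lf (nat_lit 0) (nat_lit 7946389012) (nat_lit 608) (nat_lit 2675330302) (nat_lit 684) (nat_lit 1662027450) (nat_lit 285) (nat_lit 5) (nat_lit 293) (nat_lit 5) (nat_lit 294) (nat_lit 5) (nat_lit 453) (nat_lit 416) (nat_lit 331)) (XT.lf (nat_lit 0) (nat_lit 2051685524) (nat_lit 760) (nat_lit 5800282635) (nat_lit 76) (nat_lit 4633337354) (nat_lit 275) (nat_lit 5) (nat_lit 285) (nat_lit 5) (nat_lit 276) (nat_lit 5) (nat_lit 454) (nat_lit 416) (nat_lit 330))))) (XT.nd (nat_lit 234) (nat_lit 1216) (nat_lit 0) (XT.nd (nat_lit 78) (nat_lit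 1216) (nat_lit 0) (XT.lf (nat_lit 0) (nat_lit 5403021762) (nat_lit 608) (nat_lit 498599193) (nat_lit 684) (nat_lit 6790126832) (nat_lit 267) (nat_lit 5) (nat_lit 275) (nat_lit 5) (nat_lit 276) (nat_lit 5) (nat_lit 455) (nat_lit 416) (nat_lit 329)) (XT.nd (nat_lit 78) (nat_lit 608) (nat_lit 0) (XT.lf (nat_lit 0) (nat_lit 4081867946) (nat_lit 608) (nat_lit 5862590505) (nat_lit 684) (nat_lit 2958380987) (nat_lit 259) (nat_lit 5) (nat_lit 267) (nat_lit 5) (nat_lit 268) (nat_lit 5) (nat_lit 456) (nat_lit 416) (nat_lit 328)) (XT.lf (nat_lit 0) (nat_lit 1023531655) (nat_lit 608) (nat_lit 10374019283) (nat_lit 76) (nat_lit 1721625019) (nat_lit 251) (nat_lit 5) (nat_lit 259) (nat_lit 5) (nat_lit 252) (nat_lit 5) (nat_lit 457) (nat_lit 416) (nat_lit 327)))) (XT.nd (nat_lit 78) (nat_lit 608) (nat_lit 0) (XT.lf (nat_lit 0) (nat_lit 1353220720) (nat_lit 608) (nat_lit 3806432963) (nat_lit 684) (nat_lit 8180462764)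 (nat_lit 243) (nat_lit 5) (nat_lit 251) (nat_lit 5) (nat_lit 252) (nat_lit 5) (nat_lit 458) (nat_lit 416) (nat_lit 326)) (XT.nd (nat_lit 78) (nat_lit 608) (nat_lit 0) (XT.lf (nat_lit 0) (nat_lit 9483861282) (nat_lit 684) (nat_lit 61753992) (nat_lit 76) (nat_lit 4020793597) (nat_lit 243) (nat_lit 5) (nat_lit 252) (nat_lit 5) (nat_lit 244) (nat_lit 5) (nat_lit 459) (nat_lit 416) (nat_lit 325)) (XT.lf (nat_lit 0) (nat_lit 210531748) (nat_lit 608) (nat_lit 1484182330) (nat_lit 76) (nat_lit 12103280793) (nat_lit 235) (nat_lit 5) (nat_lit 243) (nat_lit 5) (nat_lit 236) (nat_lit 5) (nat_lit 460) (nat_lit 416) (nat_lit 324)))))) (XT.nd (nat_lit 468) (nat_lit 2356) (nat_lit 0) (XT.nd (nat_lit 234) (nat_lit 1520) (nat_lit 0) (XT.nd (nat_lit 78) (nat_lit 1064) (nat_lit 0) (XT.lf (nat_lit 0) (nat_lit 4660439711) (nat_lit 608) (nat_lit 2975709353) (nat_lit 76) (nat_lit 6398173103) (nat_lit 228) (nat_lit 5) (nat_lit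 236) (nat_lit 5) (nat_lit 229) (nat_lit 5) (nat_lit 461) (nat_lit 416) (nat_lit 323)) (XT.nd (nat_lit 78) (nat_lit 532) (nat_lit 0) (XT.lf (nat_lit 0) (nat_lit 9301310815) (nat_lit 608) (nat_lit 4483937905) (nat_lit 76) (nat_lit 491344617) (nat_lit 221) (nat_lit 5) (nat_lit 229) (nat_lit 5) (nat_lit 222) (nat_lit 5) (nat_lit 462) (nat_lit 416) (nat_lit 322)) (XT.lf (nat_lit 0) (nat_lit 8477603957) (nat_lit 532) (nat_lit 5699947411) (nat_lit 608) (nat_lit 346661677) (nat_lit 214) (nat_lit 5) (nat_lit 221) (nat_lit 5) (nat_lit 222) (nat_lit 5) (nat_lit 463) (nat_lit 416) (nat_lit 321)))) (XT.nd (nat_lit 78) (nat_lit 988) (nat_lit 0) (XT.lf (nat_lit 0) (nat_lit 4427585727) (nat_lit 532) (nat_lit 7661242202) (nat_lit 76) (nat_lit 2688567518) (nat_lit 207) (nat_lit 5) (nat_lit 214) (nat_lit 5) (nat_lit 208) (nat_lit 5) (nat_lit 464) (nat_lit 416) (nat_lit 320)) (XT.nd (nat_lit 78) (nat_lit 456) (nat_lit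 0) (XT.lf (nat_lit 0) (nat_lit 5712393968) (nat_lit 532) (nat_lit 3715122601) (nat_lit 608) (nat_lit 5608870632) (nat_lit 200) (nat_lit 5) (nat_lit 207) (nat_lit 5) (nat_lit 208) (nat_lit 5) (nat_lit 465) (nat_lit 416) (nat_lit 319)) (XT.lf (nat_lit 0) (nat_lit 4272951115) (nat_lit 456) (nat_lit 10387576749) (nat_lit 532) (nat_lit 640962128) (nat_lit 194) (nat_lit 5) (nat_lit 200) (nat_lit 5) (nat_lit 201) (nat_lit 5) (nat_lit 466) (nat_lit 416) (nat_lit 318))))) (XT.nd (nat_lit 234) (nat_lit 1368) (nat_lit 0) (XT.nd (nat_lit 78) (nat_lit 456) (nat_lit 0) (XT.lf (nat_lit 0) (nat_lit 2773619822) (nat_lit 456) (nat_lit 1721705358) (nat_lit 532) (nat_lit 11077081361) (nat_lit 187) (nat_lit 5) (nat_lit 193) (nat_lit 5) (nat_lit 194) (nat_lit 5) (nat_lit 467) (nat_lit 416) (nat_lit 317)) (XT.nd (nat_lit 78) (nat_lit 0) (nat_lit 0) (XT.lf (nat_lit 0) (nat_lit 1214819846) (nat_lit 456) (nat_lit 8664193060)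 (nat_lit 532) (nat_lit 5970315262) (nat_lit 181) (nat_lit 5) (nat_lit 187) (nat_lit 5) (nat_lit 188) (nat_lit 5) (nat_lit 468) (nat_lit 416) (nat_lit 316)) (XT.lf (nat_lit 0) (nat_lit 15496816422) (nat_lit 532) (nat_lit 362336309) (nat_lit 76) (nat_lit 273955241) (nat_lit 181) (nat_lit 5) (nat_lit 188) (nat_lit 5) (nat_lit 182) (nat_lit 5) (nat_lit 469) (nat_lit 416) (nat_lit 315)))) (XT.nd (nat_lit 78) (nat_lit 836) (nat_lit 0) (XT.lf (nat_lit 0) (nat_lit 4919855018) (nat_lit 532) (nat_lit 2025003955) (nat_lit 76) (nat_lit 9477397661) (nat_lit 174) (nat_lit 5) (nat_lit 181) (nat_lit 5) (nat_lit 175) (nat_lit 5) (nat_lit 470) (nat_lit 416) (nat_lit 314)) (XT.nd (nat_lit 78) (nat_lit 456) (nat_lit 0) (XT.lf (nat_lit 0) (nat_lit 10709798390) (nat_lit 456) (nat_lit 3721652071) (nat_lit 76) (nat_lit 2287032469) (nat_lit 169) (nat_lit 5) (nat_lit 175) (nat_lit 5) (nat_lit 170) (nat_lit 5) (nat_lit 471)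 (nat_lit 416) (nat_lit 313)) (XT.lf (nat_lit 0) (nat_lit 11539957447) (nat_lit 456) (nat_lit 5242808243) (nat_lit 532) (nat_lit 238646175) (nat_lit 163) (nat_lit 5) (nat_lit 169) (nat_lit 5) (nat_lit 170) (nat_lit 5) (nat_lit 472) (nat_lit 416) (nat_lit 312))))))) (XT.nd (nat_lit 936) (nat_lit 1520) (nat_lit 0) (XT.nd (nat_lit 468) (nat_lit 1672) (nat_lit 0) (XT.nd (nat_lit 234) (nat_lit 1140) (nat_lit 0) (XT.nd (nat_lit 78) (nat_lit 836) (nat_lit 0) (XT.lf (nat_lit 0) (nat_lit 5722859788) (nat_lit 456) (nat_lit 7326030090) (nat_lit 76) (nat_lit 4281936654) (nat_lit 157) (nat_lit 5) (nat_lit 163) (nat_lit 5) (nat_lit 158) (nat_lit 5) (nat_lit 473) (nat_lit 416) (nat_lit 311)) (XT.nd (nat_lit 78) (nat_lit 456) (nat_lit 0) (XT.lf (nat_lit 0) (nat_lit 8417286935) (nat_lit 380) (nat_lit 3544699268) (nat_lit 456) (nat_lit 5685467720) (nat_lit 152) (nat_lit 5) (nat_lit 157) (nat_lit 5) (nat_lit 158) (nat_lit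 5) (nat_lit 474) (nat_lit 416) (nat_lit 310)) (XT.lf (nat_lit 0) (nat_lit 519769961) (nat_lit 456) (nat_lit 11204167460) (nat_lit 76) (nat_lit 6247380890) (nat_lit 146) (nat_lit 5) (nat_lit 152) (nat_lit 5) (nat_lit 147) (nat_lit 5) (nat_lit 475) (nat_lit 416) (nat_lit 309)))) (XT.nd (nat_lit 78) (nat_lit 760) (nat_lit 0) (XT.lf (nat_lit 0) (nat_lit 5033363623) (nat_lit 380) (nat_lit 1895960647) (nat_lit 456) (nat_lit 11372916706) (nat_lit 141) (nat_lit 5) (nat_lit 146) (nat_lit 5) (nat_lit 147) (nat_lit 5) (nat_lit 476) (nat_lit 416) (nat_lit 308)) (XT.nd (nat_lit 78) (nat_lit 456) (nat_lit 0) (XT.lf (nat_lit 0) (nat_lit 3220756624) (nat_lit 304) (nat_lit 10437161808) (nat_lit 380) (nat_lit 4982639783) (nat_lit 137) (nat_lit 5) (nat_lit 141) (nat_lit 5) (nat_lit 142) (nat_lit 5) (nat_lit 477) (nat_lit 416) (nat_lit 307)) (XT.lf (nat_lit 0) (nat_lit 1356522157) (nat_lit 380) (nat_lit 310148135) (nat_lit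 456) (nat_lit 17320382853) (nat_lit 131) (nat_lit 5) (nat_lit 136) (nat_lit 5) (nat_lit 137) (nat_lit 5) (nat_lit 478) (nat_lit 416) (nat_lit 306))))) (XT.nd (nat_lit 234) (nat_lit 988) (nat_lit 0) (XT.nd (nat_lit 78) (nat_lit 684) (nat_lit 0) (XT.lf (nat_lit 0) (nat_lit 8595714254) (nat_lit 456) (nat_lit 631240699) (nat_lit 76) (nat_lit 10113372094) (nat_lit 131) (nat_lit 5) (nat_lit 137) (nat_lit 5) (nat_lit 132) (nat_lit 5) (nat_lit 479) (nat_lit 416) (nat_lit 305)) (XT.nd (nat_lit 78) (nat_lit 380) (nat_lit 0) (XT.lf (nat_lit 0) (nat_lit 15830903412) (nat_lit 380) (nat_lit 2646498442) (nat_lit 76) (nat_lit 1224833592) (nat_lit 127) (nat_lit 5) (nat_lit 132) (nat_lit 5) (nat_lit 128) (nat_lit 5) (nat_lit 480) (nat_lit 416) (nat_lit 304)) (XT.lf (nat_lit 0) (nat_lit 3310132356) (nat_lit 380) (nat_lit 4783376985) (nat_lit 76) (nat_lit 11978195628) (nat_lit 122) (nat_lit 5) (nat_lit 127) (nat_lit 5)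 (nat_lit 123) (nat_lit 5) (nat_lit 481) (nat_lit 416) (nat_lit 303)))) (XT.nd (nat_lit 78) (nat_lit 684) (nat_lit 0) (XT.lf (nat_lit 0) (nat_lit 10755843277) (nat_lit 380) (nat_lit 7006986532) (nat_lit 76) (nat_lit 2686890626) (nat_lit 118) (nat_lit 5) (nat_lit 123) (nat_lit 5) (nat_lit 119) (nat_lit 5) (nat_lit 482) (nat_lit 416) (nat_lit 302)) (XT.nd (nat_lit 78) (nat_lit 380) (nat_lit 0) (XT.lf (nat_lit 0) (nat_lit 11504146069) (nat_lit 304) (nat_lit 7060529833) (nat_lit 380) (nat_lit 2271607033) (nat_lit 114) (nat_lit 5) (nat_lit 118) (nat_lit 5) (nat_lit 119) (nat_lit 5) (nat_lit 483) (nat_lit 416) (nat_lit 301)) (XT.lf (nat_lit 0) (nat_lit 5417422175) (nat_lit 380) (nat_lit 11771110293) (nat_lit 76) (nat_lit 4042922335) (nat_lit 109) (nat_lit 5) (nat_lit 114) (nat_lit 5) (nat_lit 110) (nat_lit 5) (nat_lit 484) (nat_lit 416) (nat_lit 300)))))) (XT.nd (nat_lit 57174) (nat_lit 0) (nat_lit 37012)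 (XT.nd (nat_lit 234) (nat_lit 608) (nat_lit 0) (XT.nd (nat_lit 78) (nat_lit 608) (nat_lit 0) (XT.lf (nat_lit 0) (nat_lit 7305551403) (nat_lit 304) (nat_lit 6138076573) (nat_lit 380) (nat_lit 8191807643) (nat_lit 105) (nat_lit 5) (nat_lit 109) (nat_lit 5) (nat_lit 110) (nat_lit 5) (nat_lit 485) (nat_lit 416) (nat_lit 299)) (XT.nd (nat_lit 78) (nat_lit 380) (nat_lit 0) (XT.lf (nat_lit 0) (nat_lit 5063199670) (nat_lit 228) (nat_lit 16773828131) (nat_lit 304) (nat_lit 211981316) (nat_lit 102) (nat_lit 5) (nat_lit 105) (nat_lit 5) (nat_lit 106) (nat_lit 5) (nat_lit 486) (nat_lit 416) (nat_lit 298)) (XT.lf (nat_lit 0) (nat_lit 2668451010) (nat_lit 304) (nat_lit 5369337200) (nat_lit 380) (nat_lit 14433451895) (nat_lit 97) (nat_lit 5) (nat_lit 101) (nat_lit 5) (nat_lit 102) (nat_lit 5) (nat_lit 487) (nat_lit 416) (nat_lit 297)))) (XT.nd (nat_lit 78) (nat_lit 380) (nat_lit 0) (XT.lf (nat_lit 0) (nat_lit 165785761)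 (nat_lit 228) (nat_lit 16504486223) (nat_lit 304) (nat_lit 6233077300) (nat_lit 94) (nat_lit 5) (nat_lit 97) (nat_lit 5) (nat_lit 98) (nat_lit 5) (nat_lit 488) (nat_lit 416) (nat_lit 296)) (XT.nd (nat_lit 78) (nat_lit 304) (nat_lit 0) (XT.lf (nat_lit 0) (nat_lit 2335246855) (nat_lit 304) (nat_lit 2425952018) (nat_lit 76) (nat_lit 18583917378) (nat_lit 93) (nat_lit 5) (nat_lit 97) (nat_lit 5) (nat_lit 94) (nat_lit 5) (nat_lit 489) (nat_lit 416) (nat_lit 295)) (XT.lf (nat_lit 0) (nat_lit 11226786414) (nat_lit 380) (nat_lit 5180308023) (nat_lit 76) (nat_lit 7389202011) (nat_lit 89) (nat_lit 5) (nat_lit 94) (nat_lit 5) (nat_lit 90) (nat_lit 5) (nat_lit 490) (nat_lit 416) (nat_lit 294))))) (XT.nd (nat_lit 234) (nat_lit 1292) (nat_lit 0) (XT.nd (nat_lit 78) (nat_lit 0) (nat_lit 0) (XT.lf (nat_lit 0) (nat_lit 693157834) (nat_lit 0) (nat_lit 693157834) (nat_lit 1292) (nat_lit 2449248162) (nat_lit 593) (nat_lit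 5) (nat_lit 593) (nat_lit 3) (nat_lit 610) (nat_lit 3) (nat_lit 417) (nat_lit 417) (nat_lit 366)) (XT.nd (nat_lit 78) (nat_lit 0) (nat_lit 0) (XT.lf (nat_lit 0) (nat_lit 4851503675) (nat_lit 1292) (nat_lit 641244665) (nat_lit 1368) (nat_lit 2252321570) (nat_lit 593) (nat_lit 5) (nat_lit 610) (nat_lit 3) (nat_lit 611) (nat_lit 5) (nat_lit 418) (nat_lit 417) (nat_lit 365)) (XT.lf (nat_lit 76) (nat_lit 5189099521) (nat_lit 0) (nat_lit 1767929728) (nat_lit 1368) (nat_lit 864930227) (nat_lit 594) (nat_lit 5) (nat_lit 593) (nat_lit 5) (nat_lit 611) (nat_lit 5) (nat_lit 419) (nat_lit 417) (nat_lit 364)))) (XT.nd (nat_lit 78) (nat_lit 0) (nat_lit 0) (XT.lf (nat_lit 0) (nat_lit 1170991462) (nat_lit 1368) (nat_lit 4620302089) (nat_lit 1444) (nat_lit 2110467505) (nat_lit 576) (nat_lit 5) (nat_lit 594) (nat_lit 5) (nat_lit 595) (nat_lit 5) (nat_lit 420) (nat_lit 417) (nat_lit 363)) (XT.nd (nat_lit 78) (nat_lit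 0) (nat_lit 76) (XT.lf (nat_lit 76) (nat_lit 1383316178) (nat_lit 0) (nat_lit 1836788404) (nat_lit 1444) (nat_lit 4764474129) (nat_lit 577) (nat_lit 5) (nat_lit 576) (nat_lit 5) (nat_lit 595) (nat_lit 5) (nat_lit 421) (nat_lit 417) (nat_lit 362)) (XT.lf (nat_lit 0) (nat_lit 5303872881) (nat_lit 1368) (nat_lit 497425267) (nat_lit 1444) (nat_lit 2269132385) (nat_lit 577) (nat_lit 5) (nat_lit 595) (nat_lit 5) (nat_lit 596) (nat_lit 5) (nat_lit 422) (nat_lit 417) (nat_lit 361))))))))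
noncomputable def xc72 : XT := (XT.nd (nat_lit 1794) (nat_lit 13376) (nat_lit 0) (XT.nd (nat_lit 858) (nat_lit 12084) (nat_lit 0) (XT.nd (nat_lit 390) (nat_lit 2812) (nat_lit 0) (XT.nd (nat_lit 156) (nat_lit 0) (nat_lit 0) (XT.nd (nat_lit 78) (nat_lit 1368) (nat_lit 0) (XT.lf (nat_lit 76) (nat_lit 5810999953) (nat_lit 0) (nat_lit 1618434457) (nat_lit 1444) (nat_lit 729850780) (nat_lit 578) (nat_lit 5) (nat_lit 577) (nat_lit 5) (nat_lit 596) (nat_lit 5) (nat_lit 423) (nat_lit 417) (nat_lit 360)) (XT.lf (nat_lit 0) (nat_lit 1328293805) (nat_lit 1444) (nat_lit 4202851457) (nat_lit 1520) (nat_lit 2719929304) (nat_lit 559) (nat_lit 5) (nat_lit 578) (nat_lit 5) (nat_lit 579) (nat_lit 5) (nat_lit 424) (nat_lit 417) (nat_lit 359))) (XT.nd (nat_lit 78) (nat_lit 0) (nat_lit 76) (XT.lf (nat_lit 76) (nat_lit 2294209690) (nat_lit 0) (nat_lit 1118354049) (nat_lit 1520) (nat_lit 4933483370) (nat_lit 560) (nat_lit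 5) (nat_lit 559) (nat_lit 5) (nat_lit 579) (nat_lit 5) (nat_lit 425) (nat_lit 417) (nat_lit 358)) (XT.nd (nat_lit 78) (nat_lit 0) (nat_lit 0) (XT.lf (nat_lit 76) (nat_lit 540755629) (nat_lit 0) (nat_lit 5007375183) (nat_lit 1520) (nat_lit 2895974193) (nat_lit 561) (nat_lit 5) (nat_lit 560) (nat_lit 5) (nat_lit 580) (nat_lit 5) (nat_lit 426) (nat_lit 417) (nat_lit 357)) (XT.lf (nat_lit 76) (nat_lit 7362794144) (nat_lit 0) (nat_lit 369379470) (nat_lit 1520) (nat_lit 813254074) (nat_lit 561) (nat_lit 5) (nat_lit 560) (nat_lit 5) (nat_lit 580) (nat_lit 5) (nat_lit 427) (nat_lit 417) (nat_lit 356))))) (XT.nd (nat_lit 234) (nat_lit 1444) (nat_lit 0) (XT.nd (nat_lit 78) (nat_lit 0) (nat_lit 76) (XT.lf (nat_lit 0) (nat_lit 1318360857) (nat_lit 1520) (nat_lit 2915700710) (nat_lit 1596) (nat_lit 4415488571) (nat_lit 541) (nat_lit 5) (nat_lit 561) (nat_lit 5) (nat_lit 562) (nat_lit 5) (nat_lit 428) (nat_lit 417)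 (nat_lit 355)) (XT.nd (nat_lit 78) (nat_lit 0) (nat_lit 0) (XT.lf (nat_lit 0) (nat_lit 3483460434) (nat_lit 1520) (nat_lit 4641697936) (nat_lit 1596) (nat_lit 631929048) (nat_lit 542) (nat_lit 5) (nat_lit 562) (nat_lit 5) (nat_lit 563) (nat_lit 5) (nat_lit 429) (nat_lit 417) (nat_lit 354)) (XT.lf (nat_lit 76) (nat_lit 2489663377) (nat_lit 0) (nat_lit 3228898393) (nat_lit 1596) (nat_lit 3149198139) (nat_lit 543) (nat_lit 5) (nat_lit 542) (nat_lit 5) (nat_lit 563) (nat_lit 5) (nat_lit 430) (nat_lit 417) (nat_lit 353)))) (XT.nd (nat_lit 78) (nat_lit 1596) (nat_lit 0) (XT.lf (nat_lit 76) (nat_lit 871876239) (nat_lit 0) (nat_lit 7140158742) (nat_lit 1596) (nat_lit 969900995) (nat_lit 544) (nat_lit 5) (nat_lit 543) (nat_lit 5) (nat_lit 564) (nat_lit 5) (nat_lit 431) (nat_lit 417) (nat_lit 352)) (XT.nd (nat_lit 78) (nat_lit 0) (nat_lit 76) (XT.lf (nat_lit 0) (nat_lit 1266385372) (nat_lit 1596) (nat_lit 747160104)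 (nat_lit 1672) (nat_lit 7085669036) (nat_lit 522) (nat_lit 5) (nat_lit 543) (nat_lit 5) (nat_lit 544) (nat_lit 5) (nat_lit 432) (nat_lit 417) (nat_lit 351)) (XT.lf (nat_lit 0) (nat_lit 3567813110) (nat_lit 1596) (nat_lit 2365068327) (nat_lit 76) (nat_lit 3286786181) (nat_lit 523) (nat_lit 5) (nat_lit 544) (nat_lit 5) (nat_lit 524) (nat_lit 5) (nat_lit 433) (nat_lit 417) (nat_lit 350)))))) (XT.nd (nat_lit 468) (nat_lit 4408) (nat_lit 0) (XT.nd (nat_lit 234) (nat_lit 2660) (nat_lit 0) (XT.nd (nat_lit 78) (nat_lit 3496) (nat_lit 0) (XT.lf (nat_lit 0) (nat_lit 5363733097) (nat_lit 1596) (nat_lit 574217569) (nat_lit 1672) (nat_lit 3405799084) (nat_lit 502) (nat_lit 5) (nat_lit 523) (nat_lit 5) (nat_lit 524) (nat_lit 5) (nat_lit 434) (nat_lit 417) (nat_lit 349)) (XT.nd (nat_lit 78) (nat_lit 1824) (nat_lit 0) (XT.lf (nat_lit 0) (nat_lit 3859421494) (nat_lit 1672) (nat_lit 4540690502) (nat_lit 1748) (nat_lit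 1071032472) (nat_lit 480) (nat_lit 5) (nat_lit 502) (nat_lit 5) (nat_lit 503) (nat_lit 5) (nat_lit 435) (nat_lit 417) (nat_lit 348)) (XT.lf (nat_lit 0) (nat_lit 1317928007) (nat_lit 1824) (nat_lit 7248622502) (nat_lit 76) (nat_lit 1035612558) (nat_lit 456) (nat_lit 5) (nat_lit 480) (nat_lit 5) (nat_lit 457) (nat_lit 5) (nat_lit 436) (nat_lit 417) (nat_lit 347)))) (XT.nd (nat_lit 78) (nat_lit 988) (nat_lit 0) (XT.lf (nat_lit 0) (nat_lit 826460073) (nat_lit 1672) (nat_lit 2961412767) (nat_lit 1748) (nat_lit 5948628327) (nat_lit 434) (nat_lit 5) (nat_lit 456) (nat_lit 5) (nat_lit 457) (nat_lit 5) (nat_lit 437) (nat_lit 417) (nat_lit 346)) (XT.nd (nat_lit 78) (nat_lit 988) (nat_lit 0) (XT.lf (nat_lit 0) (nat_lit 6350599164) (nat_lit 1748) (nat_lit 694570743) (nat_lit 76) (nat_lit 2829333482) (nat_lit 434) (nat_lit 5) (nat_lit 457) (nat_lit 5) (nat_lit 435) (nat_lit 5) (nat_lit 438) (nat_lit 417) (nat_lit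 345)) (XT.lf (nat_lit 0) (nat_lit 7806135151) (nat_lit 988) (nat_lit 1206969027) (nat_lit 1064) (nat_lit 1003090980) (nat_lit 421) (nat_lit 5) (nat_lit 434) (nat_lit 5) (nat_lit 435) (nat_lit 5) (nat_lit 439) (nat_lit 417) (nat_lit 344))))) (XT.nd (nat_lit 234) (nat_lit 1672) (nat_lit 0) (XT.nd (nat_lit 78) (nat_lit 1748) (nat_lit 0) (XT.lf (nat_lit 0) (nat_lit 1603802497) (nat_lit 988) (nat_lit 3753859804) (nat_lit 76) (nat_lit 4803648480) (nat_lit 408) (nat_lit 5) (nat_lit 421) (nat_lit 5) (nat_lit 409) (nat_lit 5) (nat_lit 440) (nat_lit 417) (nat_lit 343)) (XT.nd (nat_lit 78) (nat_lit 836) (nat_lit 0) (XT.lf (nat_lit 0) (nat_lit 4290036981) (nat_lit 988) (nat_lit 5305021160) (nat_lit 76) (nat_lit 715300732) (nat_lit 396) (nat_lit 5) (nat_lit 409) (nat_lit 5) (nat_lit 397) (nat_lit 5) (nat_lit 441) (nat_lit 417) (nat_lit 342)) (XT.lf (nat_lit 0) (nat_lit 3582161539) (nat_lit 836) (nat_lit 3514751747)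 (nat_lit 912) (nat_lit 3366170682) (nat_lit 385) (nat_lit 5) (nat_lit 396) (nat_lit 5) (nat_lit 397) (nat_lit 5) (nat_lit 442) (nat_lit 417) (nat_lit 341)))) (XT.nd (nat_lit 78) (nat_lit 836) (nat_lit 0) (XT.lf (nat_lit 0) (nat_lit 2154774004) (nat_lit 836) (nat_lit 7857621811) (nat_lit 912) (nat_lit 607513464) (nat_lit 374) (nat_lit 5) (nat_lit 385) (nat_lit 5) (nat_lit 386) (nat_lit 5) (nat_lit 443) (nat_lit 417) (nat_lit 340)) (XT.nd (nat_lit 78) (nat_lit 0) (nat_lit 0) (XT.lf (nat_lit 0) (nat_lit 701942247) (nat_lit 760) (nat_lit 1534741887) (nat_lit 836) (nat_lit 8543829711) (nat_lit 363) (nat_lit 5) (nat_lit 373) (nat_lit 5) (nat_lit 374) (nat_lit 5) (nat_lit 444) (nat_lit 417) (nat_lit 339)) (XT.lf (nat_lit 0) (nat_lit 5206101305) (nat_lit 836) (nat_lit 765933776) (nat_lit 76) (nat_lit 4972864177) (nat_lit 363) (nat_lit 5) (nat_lit 374) (nat_lit 5) (nat_lit 364) (nat_lit 5) (nat_lit 445) (nat_lit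 417) (nat_lit 338))))))) (XT.nd (nat_lit 858) (nat_lit 6080) (nat_lit 0) (XT.nd (nat_lit 390) (nat_lit 3420) (nat_lit 0) (XT.nd (nat_lit 156) (nat_lit 2204) (nat_lit 0) (XT.nd (nat_lit 78) (nat_lit 836) (nat_lit 0) (XT.lf (nat_lit 0) (nat_lit 8295721080) (nat_lit 912) (nat_lit 2228147994) (nat_lit 76) (nat_lit 589730555) (nat_lit 352) (nat_lit 5) (nat_lit 364) (nat_lit 5) (nat_lit 353) (nat_lit 5) (nat_lit 446) (nat_lit 417) (nat_lit 337)) (XT.lf (nat_lit 0) (nat_lit 242963758) (nat_lit 836) (nat_lit 3722101554) (nat_lit 76) (nat_lit 7321180539) (nat_lit 341) (nat_lit 5) (nat_lit 352) (nat_lit 5) (nat_lit 342) (nat_lit 5) (nat_lit 447) (nat_lit 417) (nat_lit 336))) (XT.nd (nat_lit 78) (nat_lit 1444) (nat_lit 0) (XT.lf (nat_lit 0) (nat_lit 3392624274) (nat_lit 836) (nat_lit 5245082460) (nat_lit 76) (nat_lit 2825292020) (nat_lit 331) (nat_lit 5) (nat_lit 342) (nat_lit 5) (nat_lit 332) (nat_lit 5) (nat_lit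 448) (nat_lit 417) (nat_lit 335)) (XT.nd (nat_lit 78) (nat_lit 760) (nat_lit 0) (XT.lf (nat_lit 0) (nat_lit 4856581408) (nat_lit 684) (nat_lit 1825252477) (nat_lit 760) (nat_lit 4962324378) (nat_lit 322) (nat_lit 5) (nat_lit 331) (nat_lit 5) (nat_lit 332) (nat_lit 5) (nat_lit 449) (nat_lit 417) (nat_lit 334)) (XT.lf (nat_lit 0) (nat_lit 3471645809) (nat_lit 760) (nat_lit 6652533542) (nat_lit 836) (nat_lit 1705489062) (nat_lit 312) (nat_lit 5) (nat_lit 322) (nat_lit 5) (nat_lit 323) (nat_lit 5) (nat_lit 450) (nat_lit 417) (nat_lit 333))))) (XT.nd (nat_lit 234) (nat_lit 1976) (nat_lit 0) (XT.nd (nat_lit 78) (nat_lit 684) (nat_lit 0) (XT.lf (nat_lit 0) (nat_lit 1665059203) (nat_lit 760) (nat_lit 9949591773) (nat_lit 76) (nat_lit 405130855) (nat_lit 302) (nat_lit 5) (nat_lit 312) (nat_lit 5) (nat_lit 303) (nat_lit 5) (nat_lit 451) (nat_lit 417) (nat_lit 332)) (XT.nd (nat_lit 78) (nat_lit 0) (nat_lit 0)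 (XT.lf (nat_lit 0) (nat_lit 620268417) (nat_lit 684) (nat_lit 4562715635) (nat_lit 760) (nat_lit 7031005178) (nat_lit 293) (nat_lit 5) (nat_lit 302) (nat_lit 5) (nat_lit 303) (nat_lit 5) (nat_lit 452) (nat_lit 417) (nat_lit 331)) (XT.lf (nat_lit 0) (nat_lit 8856360371) (nat_lit 760) (nat_lit 830003061) (nat_lit 76) (nat_lit 2726665677) (nat_lit 293) (nat_lit 5) (nat_lit 303) (nat_lit 5) (nat_lit 294) (nat_lit 5) (nat_lit 453) (nat_lit 417) (nat_lit 330)))) (XT.nd (nat_lit 78) (nat_lit 1292) (nat_lit 0) (XT.lf (nat_lit 0) (nat_lit 85084787) (nat_lit 684) (nat_lit 2297399264) (nat_lit 76) (nat_lit 10234288117) (nat_lit 284) (nat_lit 5) (nat_lit 293) (nat_lit 5) (nat_lit 285) (nat_lit 5) (nat_lit 454) (nat_lit 417) (nat_lit 329)) (XT.nd (nat_lit 78) (nat_lit 608) (nat_lit 0) (XT.lf (nat_lit 0) (nat_lit 3852377039) (nat_lit 760) (nat_lit 3817922909) (nat_lit 76) (nat_lit 5154569420) (nat_lit 275) (nat_lit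 5) (nat_lit 285) (nat_lit 5) (nat_lit 276) (nat_lit 5) (nat_lit 455) (nat_lit 417) (nat_lit 328)) (XT.lf (nat_lit 0) (nat_lit 7686496109) (nat_lit 608) (nat_lit 94433264) (nat_lit 684) (nat_lit 5257319350) (nat_lit 267) (nat_lit 5) (nat_lit 275) (nat_lit 5) (nat_lit 276) (nat_lit 5) (nat_lit 456) (nat_lit 417) (nat_lit 327)))))) (XT.nd (nat_lit 468) (nat_lit 3116) (nat_lit 0) (XT.nd (nat_lit 234) (nat_lit 1140) (nat_lit 0) (XT.nd (nat_lit 78) (nat_lit 1216) (nat_lit 0) (XT.lf (nat_lit 0) (nat_lit 6322309475) (nat_lit 608) (nat_lit 5589555473) (nat_lit 684) (nat_lit 1344477923) (nat_lit 259) (nat_lit 5) (nat_lit 267) (nat_lit 5) (nat_lit 268) (nat_lit 5) (nat_lit 457) (nat_lit 417) (nat_lit 326)) (XT.nd (nat_lit 78) (nat_lit 608) (nat_lit 0) (XT.lf (nat_lit 0) (nat_lit 2702283528) (nat_lit 608) (nat_lit 8549354287) (nat_lit 76) (nat_lit 2227961855) (nat_lit 251) (nat_lit 5) (nat_lit 259) (nat_lit 5)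 (nat_lit 252) (nat_lit 5) (nat_lit 458) (nat_lit 417) (nat_lit 325)) (XT.lf (nat_lit 0) (nat_lit 3495050710) (nat_lit 608) (nat_lit 3433079770) (nat_lit 684) (nat_lit 6779730621) (nat_lit 243) (nat_lit 5) (nat_lit 251) (nat_lit 5) (nat_lit 252) (nat_lit 5) (nat_lit 459) (nat_lit 417) (nat_lit 324)))) (XT.nd (nat_lit 78) (nat_lit 608) (nat_lit 0) (XT.lf (nat_lit 0) (nat_lit 2031509558) (nat_lit 532) (nat_lit 9319817334) (nat_lit 608) (nat_lit 2590235546) (nat_lit 236) (nat_lit 5) (nat_lit 243) (nat_lit 5) (nat_lit 244) (nat_lit 5) (nat_lit 460) (nat_lit 417) (nat_lit 323)) (XT.nd (nat_lit 78) (nat_lit 0) (nat_lit 0) (XT.lf (nat_lit 0) (nat_lit 533946939) (nat_lit 532) (nat_lit 1233970863) (nat_lit 608) (nat_lit 12412824464) (nat_lit 228) (nat_lit 5) (nat_lit 235) (nat_lit 5) (nat_lit 236) (nat_lit 5) (nat_lit 461) (nat_lit 417) (nat_lit 322)) (XT.lf (nat_lit 0) (nat_lit 6319200031) (nat_lit 608) (nat_lit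 1015489462) (nat_lit 76) (nat_lit 7090117331) (nat_lit 228) (nat_lit 5) (nat_lit 236) (nat_lit 5) (nat_lit 229) (nat_lit 5) (nat_lit 462) (nat_lit 417) (nat_lit 321))))) (XT.nd (nat_lit 234) (nat_lit 1520) (nat_lit 0) (XT.nd (nat_lit 78) (nat_lit 1064) (nat_lit 0) (XT.lf (nat_lit 0) (nat_lit 11071577868) (nat_lit 608) (nat_lit 2575729273) (nat_lit 76) (nat_lit 1027598211) (nat_lit 221) (nat_lit 5) (nat_lit 229) (nat_lit 5) (nat_lit 222) (nat_lit 5) (nat_lit 463) (nat_lit 417) (nat_lit 320)) (XT.nd (nat_lit 78) (nat_lit 456) (nat_lit 0) (XT.lf (nat_lit 0) (nat_lit 1118291802) (nat_lit 608) (nat_lit 4196405228) (nat_lit 76) (nat_lit 9615721900) (nat_lit 213) (nat_lit 5) (nat_lit 221) (nat_lit 5) (nat_lit 214) (nat_lit 5) (nat_lit 464) (nat_lit 417) (nat_lit 319)) (XT.lf (nat_lit 0) (nat_lit 6004817434) (nat_lit 532) (nat_lit 5869360490) (nat_lit 76) (nat_lit 3317502310) (nat_lit 207) (nat_lit 5) (nat_lit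 214) (nat_lit 5) (nat_lit 208) (nat_lit 5) (nat_lit 465) (nat_lit 417) (nat_lit 318)))) (XT.nd (nat_lit 78) (nat_lit 988) (nat_lit 0) (XT.lf (nat_lit 0) (nat_lit 7872684777) (nat_lit 532) (nat_lit 3252904782) (nat_lit 608) (nat_lit 4333439654) (nat_lit 200) (nat_lit 5) (nat_lit 207) (nat_lit 5) (nat_lit 208) (nat_lit 5) (nat_lit 466) (nat_lit 417) (nat_lit 317)) (XT.nd (nat_lit 78) (nat_lit 456) (nat_lit 0) (XT.lf (nat_lit 0) (nat_lit 748319437) (nat_lit 532) (nat_lit 9355392705) (nat_lit 76) (nat_lit 5628773551) (nat_lit 193) (nat_lit 5) (nat_lit 200) (nat_lit 5) (nat_lit 194) (nat_lit 5) (nat_lit 467) (nat_lit 417) (nat_lit 316)) (XT.lf (nat_lit 0) (nat_lit 4824101343) (nat_lit 456) (nat_lit 1177935955) (nat_lit 532) (nat_lit 10009970716) (nat_lit 187) (nat_lit 5) (nat_lit 193) (nat_lit 5) (nat_lit 194) (nat_lit 5) (nat_lit 468) (nat_lit 417) (nat_lit 315))))))))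
noncomputable def xc73 : XT := (XT.nd (nat_lit 58500) (nat_lit 0) (nat_lit 24244) (XT.nd (nat_lit 858) (nat_lit 3192) (nat_lit 0) (XT.nd (nat_lit 390) (nat_lit 2356) (nat_lit 0) (XT.nd (nat_lit 156) (nat_lit 912) (nat_lit 0) (XT.nd (nat_lit 78) (nat_lit 532) (nat_lit 0) (XT.lf (nat_lit 0) (nat_lit 3209940977) (nat_lit 456) (nat_lit 8313808107) (nat_lit 532) (nat_lit 4773961830) (nat_lit 181) (nat_lit 5) (nat_lit 187) (nat_lit 5) (nat_lit 188) (nat_lit 5) (nat_lit 469) (nat_lit 417) (nat_lit 314)) (XT.lf (nat_lit 0) (nat_lit 685245322) (nat_lit 532) (nat_lit 15023528089) (nat_lit 76) (nat_lit 881648767) (nat_lit 174) (nat_lit 5) (nat_lit 181) (nat_lit 5) (nat_lit 175) (nat_lit 5) (nat_lit 470) (nat_lit 417) (nat_lit 313))) (XT.nd (nat_lit 78) (nat_lit 912) (nat_lit 0) (XT.lf (nat_lit 0) (nat_lit 6363083441) (nat_lit 532) (nat_lit 175543470) (nat_lit 76) (nat_lit 10350264831) (nat_lit 174) (nat_lit 5)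 (nat_lit 181) (nat_lit 5) (nat_lit 175) (nat_lit 5) (nat_lit 471) (nat_lit 417) (nat_lit 312)) (XT.nd (nat_lit 78) (nat_lit 532) (nat_lit 0) (XT.lf (nat_lit 0) (nat_lit 12305144207) (nat_lit 456) (nat_lit 1932518373) (nat_lit 76) (nat_lit 2956777359) (nat_lit 169) (nat_lit 5) (nat_lit 175) (nat_lit 5) (nat_lit 170) (nat_lit 5) (nat_lit 472) (nat_lit 417) (nat_lit 311)) (XT.lf (nat_lit 0) (nat_lit 1014886357) (nat_lit 532) (nat_lit 3757534885) (nat_lit 76) (nat_lit 12734404702) (nat_lit 162) (nat_lit 5) (nat_lit 169) (nat_lit 5) (nat_lit 163) (nat_lit 5) (nat_lit 473) (nat_lit 417) (nat_lit 310))))) (XT.nd (nat_lit 234) (nat_lit 1140) (nat_lit 0) (XT.nd (nat_lit 78) (nat_lit 836) (nat_lit 0) (XT.lf (nat_lit 0) (nat_lit 7131486463) (nat_lit 456) (nat_lit 5668935459) (nat_lit 76) (nat_lit 5025482983) (nat_lit 157) (nat_lit 5) (nat_lit 163) (nat_lit 5) (nat_lit 158) (nat_lit 5) (nat_lit 474) (nat_lit 417)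 (nat_lit 309)) (XT.nd (nat_lit 78) (nat_lit 456) (nat_lit 0) (XT.lf (nat_lit 0) (nat_lit 10516231001) (nat_lit 380) (nat_lit 3017516485) (nat_lit 456) (nat_lit 4618767551) (nat_lit 152) (nat_lit 5) (nat_lit 157) (nat_lit 5) (nat_lit 158) (nat_lit 5) (nat_lit 475) (nat_lit 417) (nat_lit 308)) (XT.lf (nat_lit 0) (nat_lit 1736858050) (nat_lit 456) (nat_lit 9687835681) (nat_lit 76) (nat_lit 7061634790) (nat_lit 146) (nat_lit 5) (nat_lit 152) (nat_lit 5) (nat_lit 147) (nat_lit 5) (nat_lit 476) (nat_lit 417) (nat_lit 307)))) (XT.nd (nat_lit 78) (nat_lit 760) (nat_lit 0) (XT.lf (nat_lit 0) (nat_lit 7006767424) (nat_lit 380) (nat_lit 1308768812) (nat_lit 456) (nat_lit 10512108781) (nat_lit 141) (nat_lit 5) (nat_lit 146) (nat_lit 5) (nat_lit 147) (nat_lit 5) (nat_lit 477) (nat_lit 417) (nat_lit 306)) (XT.nd (nat_lit 78) (nat_lit 456) (nat_lit 0) (XT.lf (nat_lit 0) (nat_lit 5129381284) (nat_lit 304) (nat_lit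 10098111238) (nat_lit 380) (nat_lit 3948991978) (nat_lit 137) (nat_lit 5) (nat_lit 141) (nat_lit 5) (nat_lit 142) (nat_lit 5) (nat_lit 478) (nat_lit 417) (nat_lit 305)) (XT.lf (nat_lit 0) (nat_lit 2864109527) (nat_lit 456) (nat_lit 16340655788) (nat_lit 76) (nat_lit 328861426) (nat_lit 131) (nat_lit 5) (nat_lit 137) (nat_lit 5) (nat_lit 132) (nat_lit 5) (nat_lit 479) (nat_lit 417) (nat_lit 304)))))) (XT.nd (nat_lit 468) (nat_lit 1520) (nat_lit 0) (XT.nd (nat_lit 234) (nat_lit 988) (nat_lit 0) (XT.nd (nat_lit 78) (nat_lit 380) (nat_lit 0) (XT.lf (nat_lit 0) (nat_lit 1128424514) (nat_lit 304) (nat_lit 8848519903) (nat_lit 380) (nat_lit 9921038648) (nat_lit 127) (nat_lit 5) (nat_lit 131) (nat_lit 5) (nat_lit 132) (nat_lit 5) (nat_lit 480) (nat_lit 417) (nat_lit 303)) (XT.nd (nat_lit 78) (nat_lit 380) (nat_lit 0) (XT.lf (nat_lit 0) (nat_lit 17404780832) (nat_lit 380) (nat_lit 972883982) (nat_lit 76) (nat_lit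 1893574594) (nat_lit 127) (nat_lit 5) (nat_lit 132) (nat_lit 5) (nat_lit 128) (nat_lit 5) (nat_lit 481) (nat_lit 417) (nat_lit 302)) (XT.lf (nat_lit 0) (nat_lit 4494795997) (nat_lit 380) (nat_lit 3187805471) (nat_lit 76) (nat_lit 12969467410) (nat_lit 122) (nat_lit 5) (nat_lit 127) (nat_lit 5) (nat_lit 123) (nat_lit 5) (nat_lit 482) (nat_lit 417) (nat_lit 301)))) (XT.nd (nat_lit 78) (nat_lit 684) (nat_lit 0) (XT.lf (nat_lit 0) (nat_lit 12147568137) (nat_lit 380) (nat_lit 5489157157) (nat_lit 76) (nat_lit 3405028049) (nat_lit 118) (nat_lit 5) (nat_lit 123) (nat_lit 5) (nat_lit 119) (nat_lit 5) (nat_lit 483) (nat_lit 417) (nat_lit 300)) (XT.nd (nat_lit 78) (nat_lit 380) (nat_lit 0) (XT.lf (nat_lit 0) (nat_lit 13549274042) (nat_lit 304) (nat_lit 6621291883) (nat_lit 380) (nat_lit 1269751052) (nat_lit 114) (nat_lit 5) (nat_lit 118) (nat_lit 5) (nat_lit 119) (nat_lit 5) (nat_lit 484) (nat_lit 417) (nat_lit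 299)) (XT.lf (nat_lit 0) (nat_lit 6620329018) (nat_lit 380) (nat_lit 10421368207) (nat_lit 76) (nat_lit 4805821722) (nat_lit 109) (nat_lit 5) (nat_lit 114) (nat_lit 5) (nat_lit 110) (nat_lit 5) (nat_lit 485) (nat_lit 417) (nat_lit 298))))) (XT.nd (nat_lit 234) (nat_lit 608) (nat_lit 0) (XT.nd (nat_lit 78) (nat_lit 608) (nat_lit 0) (XT.lf (nat_lit 0) (nat_lit 9199966210) (nat_lit 304) (nat_lit 5667929154) (nat_lit 380) (nat_lit 7396114428) (nat_lit 105) (nat_lit 5) (nat_lit 109) (nat_lit 5) (nat_lit 110) (nat_lit 5) (nat_lit 486) (nat_lit 417) (nat_lit 297)) (XT.nd (nat_lit 78) (nat_lit 304) (nat_lit 0) (XT.lf (nat_lit 0) (nat_lit 797403215) (nat_lit 304) (nat_lit 15816392426) (nat_lit 76) (nat_lit 6076388127) (nat_lit 101) (nat_lit 5) (nat_lit 105) (nat_lit 5) (nat_lit 102) (nat_lit 5) (nat_lit 487) (nat_lit 417) (nat_lit 296)) (XT.lf (nat_lit 0) (nat_lit 4398861592) (nat_lit 304) (nat_lit 4874154500)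 (nat_lit 380) (nat_lit 13852414898) (nat_lit 97) (nat_lit 5) (nat_lit 101) (nat_lit 5) (nat_lit 102) (nat_lit 5) (nat_lit 488) (nat_lit 417) (nat_lit 295)))) (XT.nd (nat_lit 78) (nat_lit 380) (nat_lit 0) (XT.lf (nat_lit 0) (nat_lit 1809772250) (nat_lit 228) (nat_lit 16340526276) (nat_lit 304) (nat_lit 5420490311) (nat_lit 94) (nat_lit 5) (nat_lit 97) (nat_lit 5) (nat_lit 98) (nat_lit 5) (nat_lit 489) (nat_lit 417) (nat_lit 294)) (XT.nd (nat_lit 78) (nat_lit 304) (nat_lit 0) (XT.lf (nat_lit 0) (nat_lit 3363041780) (nat_lit 304) (nat_lit 894668532) (nat_lit 76) (nat_lit 19768545133) (nat_lit 93) (nat_lit 5) (nat_lit 97) (nat_lit 5) (nat_lit 94) (nat_lit 5) (nat_lit 490) (nat_lit 417) (nat_lit 293)) (XT.lf (nat_lit 0) (nat_lit 12507819924) (nat_lit 380) (nat_lit 3742961644) (nat_lit 76) (nat_lit 8240461366) (nat_lit 89) (nat_lit 5) (nat_lit 94) (nat_lit 5) (nat_lit 90) (nat_lit 5) (nat_lit 491) (nat_lit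 417) (nat_lit 292))))))) (XT.nd (nat_lit 936) (nat_lit 10032) (nat_lit 0) (XT.nd (nat_lit 468) (nat_lit 1368) (nat_lit 0) (XT.nd (nat_lit 234) (nat_lit 1292) (nat_lit 0) (XT.nd (nat_lit 78) (nat_lit 1368) (nat_lit 0) (XT.lf (nat_lit 0) (nat_lit 1715464465) (nat_lit 0) (nat_lit 1715464465) (nat_lit 1292) (nat_lit 479265974) (nat_lit 593) (nat_lit 5) (nat_lit 593) (nat_lit 3) (nat_lit 610) (nat_lit 3) (nat_lit 418) (nat_lit 418) (nat_lit 364)) (XT.nd (nat_lit 78) (nat_lit 0) (nat_lit 0) (XT.lf (nat_lit 0) (nat_lit 970956638) (nat_lit 1368) (nat_lit 6511743990) (nat_lit 1444) (nat_lit 416148982) (nat_lit 575) (nat_lit 5) (nat_lit 593) (nat_lit 5) (nat_lit 594) (nat_lit 5) (nat_lit 419) (nat_lit 418) (nat_lit 363)) (XT.lf (nat_lit 0) (nat_lit 2923345488) (nat_lit 1368) (nat_lit 652037262) (nat_lit 1444) (nat_lit 4404606642) (nat_lit 575) (nat_lit 5) (nat_lit 593) (nat_lit 5) (nat_lit 594) (nat_lit 5) (nat_lit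 420) (nat_lit 418) (nat_lit 362)))) (XT.nd (nat_lit 78) (nat_lit 1368) (nat_lit 0) (XT.lf (nat_lit 0) (nat_lit 4900091969) (nat_lit 1368) (nat_lit 2652504286) (nat_lit 1444) (nat_lit 511664664) (nat_lit 576) (nat_lit 5) (nat_lit 594) (nat_lit 5) (nat_lit 595) (nat_lit 5) (nat_lit 421) (nat_lit 418) (nat_lit 361)) (XT.nd (nat_lit 78) (nat_lit 1368) (nat_lit 0) (XT.lf (nat_lit 76) (nat_lit 3497048581) (nat_lit 0) (nat_lit 3419492831) (nat_lit 1444) (nat_lit 1234924051) (nat_lit 577) (nat_lit 5) (nat_lit 576) (nat_lit 5) (nat_lit 595) (nat_lit 5) (nat_lit 422) (nat_lit 418) (nat_lit 360)) (XT.lf (nat_lit 0) (nat_lit 707342807) (nat_lit 1444) (nat_lit 6645961415) (nat_lit 1520) (nat_lit 888596316) (nat_lit 558) (nat_lit 5) (nat_lit 577) (nat_lit 5) (nat_lit 578) (nat_lit 5) (nat_lit 423) (nat_lit 418) (nat_lit 359))))) (XT.nd (nat_lit 234) (nat_lit 1368) (nat_lit 0) (XT.nd (nat_lit 78) (nat_lit 0) (nat_lit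 76) (XT.lf (nat_lit 0) (nat_lit 2678421532) (nat_lit 1444) (nat_lit 309694910) (nat_lit 1520) (nat_lit 5347034438) (nat_lit 558) (nat_lit 5) (nat_lit 577) (nat_lit 5) (nat_lit 578) (nat_lit 5) (nat_lit 424) (nat_lit 418) (nat_lit 358)) (XT.nd (nat_lit 78) (nat_lit 0) (nat_lit 0) (XT.lf (nat_lit 0) (nat_lit 4694063054) (nat_lit 1444) (nat_lit 2183439726) (nat_lit 1520) (nat_lit 1553998904) (nat_lit 559) (nat_lit 5) (nat_lit 578) (nat_lit 5) (nat_lit 579) (nat_lit 5) (nat_lit 425) (nat_lit 418) (nat_lit 357)) (XT.lf (nat_lit 76) (nat_lit 4473725111) (nat_lit 0) (nat_lit 2283968500) (nat_lit 1520) (nat_lit 1773310230) (nat_lit 560) (nat_lit 5) (nat_lit 559) (nat_lit 5) (nat_lit 579) (nat_lit 5) (nat_lit 426) (nat_lit 418) (nat_lit 356)))) (XT.nd (nat_lit 78) (nat_lit 0) (nat_lit 0) (XT.lf (nat_lit 0) (nat_lit 232822129) (nat_lit 1520) (nat_lit 5930286453) (nat_lit 1596) (nat_lit 2470633622) (nat_lit 540)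 (nat_lit 5) (nat_lit 560) (nat_lit 5) (nat_lit 561) (nat_lit 5) (nat_lit 427) (nat_lit 418) (nat_lit 355)) (XT.nd (nat_lit 78) (nat_lit 0) (nat_lit 76) (XT.lf (nat_lit 76) (nat_lit 926463908) (nat_lit 0) (nat_lit 1336919439) (nat_lit 1596) (nat_lit 6476188567) (nat_lit 541) (nat_lit 5) (nat_lit 540) (nat_lit 5) (nat_lit 561) (nat_lit 5) (nat_lit 428) (nat_lit 418) (nat_lit 354)) (XT.lf (nat_lit 0) (nat_lit 4359762264) (nat_lit 1520) (nat_lit 844082685) (nat_lit 1596) (nat_lit 3644643619) (nat_lit 541) (nat_lit 5) (nat_lit 561) (nat_lit 5) (nat_lit 562) (nat_lit 5) (nat_lit 429) (nat_lit 418) (nat_lit 353)))))) (XT.nd (nat_lit 468) (nat_lit 7144) (nat_lit 0) (XT.nd (nat_lit 234) (nat_lit 1520) (nat_lit 0) (XT.nd (nat_lit 78) (nat_lit 1444) (nat_lit 0) (XT.lf (nat_lit 76) (nat_lit 6367279352) (nat_lit 0) (nat_lit 144611592) (nat_lit 1596) (nat_lit 2448934384) (nat_lit 542) (nat_lit 5) (nat_lit 541) (nat_lit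 5) (nat_lit 562) (nat_lit 5) (nat_lit 430) (nat_lit 418) (nat_lit 352)) (XT.nd (nat_lit 78) (nat_lit 1520) (nat_lit 0) (XT.lf (nat_lit 76) (nat_lit 4717191844) (nat_lit 0) (nat_lit 4024756653) (nat_lit 1596) (nat_lit 334325887) (nat_lit 543) (nat_lit 5) (nat_lit 542) (nat_lit 5) (nat_lit 563) (nat_lit 5) (nat_lit 431) (nat_lit 418) (nat_lit 351)) (XT.lf (nat_lit 0) (nat_lit 1811474286) (nat_lit 1596) (nat_lit 6130280108) (nat_lit 1672) (nat_lit 1253363455) (nat_lit 522) (nat_lit 5) (nat_lit 543) (nat_lit 5) (nat_lit 544) (nat_lit 5) (nat_lit 432) (nat_lit 418) (nat_lit 350)))) (XT.nd (nat_lit 78) (nat_lit 1520) (nat_lit 0) (XT.lf (nat_lit 76) (nat_lit 1400831486) (nat_lit 0) (nat_lit 2628534043) (nat_lit 1672) (nat_lit 5287880477) (nat_lit 523) (nat_lit 5) (nat_lit 522) (nat_lit 5) (nat_lit 544) (nat_lit 5) (nat_lit 433) (nat_lit 418) (nat_lit 349)) (XT.nd (nat_lit 78) (nat_lit 1596) (nat_lit 0) (XT.lf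 (nat_lit 0) (nat_lit 6321919740) (nat_lit 1596) (nat_lit 261994138) (nat_lit 76) (nat_lit 2858970122) (nat_lit 523) (nat_lit 5) (nat_lit 544) (nat_lit 5) (nat_lit 524) (nat_lit 5) (nat_lit 434) (nat_lit 418) (nat_lit 348)) (XT.lf (nat_lit 0) (nat_lit 7663400337) (nat_lit 1596) (nat_lit 1036548113) (nat_lit 1672) (nat_lit 872016993) (nat_lit 502) (nat_lit 5) (nat_lit 523) (nat_lit 5) (nat_lit 524) (nat_lit 5) (nat_lit 435) (nat_lit 418) (nat_lit 347))))) (XT.nd (nat_lit 234) (nat_lit 1976) (nat_lit 0) (XT.nd (nat_lit 78) (nat_lit 3420) (nat_lit 0) (XT.lf (nat_lit 0) (nat_lit 1448201894) (nat_lit 1748) (nat_lit 3580647662) (nat_lit 76) (nat_lit 4675435148) (nat_lit 479) (nat_lit 5) (nat_lit 502) (nat_lit 5) (nat_lit 480) (nat_lit 5) (nat_lit 436) (nat_lit 418) (nat_lit 346)) (XT.nd (nat_lit 78) (nat_lit 1672) (nat_lit 0) (XT.lf (nat_lit 0) (nat_lit 3832395826) (nat_lit 1824) (nat_lit 5257375888) (nat_lit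 76) (nat_lit 750569873) (nat_lit 456) (nat_lit 5) (nat_lit 480) (nat_lit 5) (nat_lit 457) (nat_lit 5) (nat_lit 437) (nat_lit 418) (nat_lit 345)) (XT.lf (nat_lit 0) (nat_lit 3024125544) (nat_lit 1672) (nat_lit 3294335845) (nat_lit 1748) (nat_lit 3661419288) (nat_lit 434) (nat_lit 5) (nat_lit 456) (nat_lit 5) (nat_lit 457) (nat_lit 5) (nat_lit 438) (nat_lit 418) (nat_lit 344)))) (XT.nd (nat_lit 78) (nat_lit 988) (nat_lit 0) (XT.lf (nat_lit 0) (nat_lit 1462188345) (nat_lit 988) (nat_lit 7433439408) (nat_lit 1064) (nat_lit 1227655014) (nat_lit 421) (nat_lit 5) (nat_lit 434) (nat_lit 5) (nat_lit 435) (nat_lit 5) (nat_lit 439) (nat_lit 418) (nat_lit 343)) (XT.nd (nat_lit 78) (nat_lit 912) (nat_lit 0) (XT.lf (nat_lit 0) (nat_lit 1286387959) (nat_lit 1064) (nat_lit 115258418) (nat_lit 76) (nat_lit 8868700464) (nat_lit 420) (nat_lit 5) (nat_lit 434) (nat_lit 5) (nat_lit 421) (nat_lit 5) (nat_lit 440) (nat_lit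 418) (nat_lit 342)) (XT.lf (nat_lit 0) (nat_lit 3903668359) (nat_lit 988) (nat_lit 1700778072) (nat_lit 76) (nat_lit 4816330863) (nat_lit 408) (nat_lit 5) (nat_lit 421) (nat_lit 5) (nat_lit 409) (nat_lit 5) (nat_lit 441) (nat_lit 418) (nat_lit 341))))))))
noncomputable def xc74 : XT := (XT.nd (nat_lit 1794) (nat_lit 8816) (nat_lit 0) (XT.nd (nat_lit 858) (nat_lit 6156) (nat_lit 0) (XT.nd (nat_lit 390) (nat_lit 3800) (nat_lit 0) (XT.nd (nat_lit 156) (nat_lit 2508) (nat_lit 0) (XT.nd (nat_lit 78) (nat_lit 836) (nat_lit 0) (XT.lf (nat_lit 0) (nat_lit 6618287055) (nat_lit 988) (nat_lit 3288831366) (nat_lit 76) (nat_lit 668232302) (nat_lit 396) (nat_lit 5) (nat_lit 409) (nat_lit 5) (nat_lit 397) (nat_lit 5) (nat_lit 442) (nat_lit 418) (nat_lit 340)) (XT.lf (nat_lit 0) (nat_lit 5829674500) (nat_lit 836) (nat_lit 3629525229) (nat_lit 912) (nat_lit 1274470793) (nat_lit 385) (nat_lit 5) (nat_lit 396) (nat_lit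 5) (nat_lit 397) (nat_lit 5) (nat_lit 443) (nat_lit 418) (nat_lit 339))) (XT.nd (nat_lit 78) (nat_lit 1596) (nat_lit 0) (XT.lf (nat_lit 0) (nat_lit 1497347681) (nat_lit 912) (nat_lit 6538626576) (nat_lit 76) (nat_lit 2860012906) (nat_lit 373) (nat_lit 5) (nat_lit 385) (nat_lit 5) (nat_lit 374) (nat_lit 5) (nat_lit 444) (nat_lit 418) (nat_lit 338)) (XT.nd (nat_lit 78) (nat_lit 836) (nat_lit 0) (XT.lf (nat_lit 0) (nat_lit 2864091055) (nat_lit 760) (nat_lit 1506876412) (nat_lit 836) (nat_lit 6691323913) (nat_lit 363) (nat_lit 5) (nat_lit 373) (nat_lit 5) (nat_lit 374) (nat_lit 5) (nat_lit 445) (nat_lit 418) (nat_lit 337)) (XT.lf (nat_lit 0) (nat_lit 1347448160) (nat_lit 836) (nat_lit 6031024193) (nat_lit 912) (nat_lit 3854164468) (nat_lit 352) (nat_lit 5) (nat_lit 363) (nat_lit 5) (nat_lit 364) (nat_lit 5) (nat_lit 446) (nat_lit 418) (nat_lit 336))))) (XT.nd (nat_lit 234) (nat_lit 2204) (nat_lit 0) (XT.nd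 (nat_lit 78) (nat_lit 1596) (nat_lit 0) (XT.lf (nat_lit 0) (nat_lit 10507886719) (nat_lit 912) (nat_lit 171941188) (nat_lit 76) (nat_lit 727636496) (nat_lit 352) (nat_lit 5) (nat_lit 364) (nat_lit 5) (nat_lit 353) (nat_lit 5) (nat_lit 447) (nat_lit 418) (nat_lit 335)) (XT.nd (nat_lit 78) (nat_lit 760) (nat_lit 0) (XT.lf (nat_lit 0) (nat_lit 2182902761) (nat_lit 836) (nat_lit 1719209459) (nat_lit 76) (nat_lit 7683804027) (nat_lit 341) (nat_lit 5) (nat_lit 352) (nat_lit 5) (nat_lit 342) (nat_lit 5) (nat_lit 448) (nat_lit 418) (nat_lit 334)) (XT.lf (nat_lit 0) (nat_lit 5385504765) (nat_lit 836) (nat_lit 3285368431) (nat_lit 76) (nat_lit 3097937198) (nat_lit 331) (nat_lit 5) (nat_lit 342) (nat_lit 5) (nat_lit 332) (nat_lit 5) (nat_lit 449) (nat_lit 418) (nat_lit 333)))) (XT.nd (nat_lit 78) (nat_lit 1520) (nat_lit 0) (XT.lf (nat_lit 0) (nat_lit 7084998465) (nat_lit 684) (nat_lit 1646833962) (nat_lit 760)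 (nat_lit 3224410890) (nat_lit 322) (nat_lit 5) (nat_lit 331) (nat_lit 5) (nat_lit 332) (nat_lit 5) (nat_lit 450) (nat_lit 418) (nat_lit 332)) (XT.nd (nat_lit 78) (nat_lit 684) (nat_lit 0) (XT.lf (nat_lit 0) (nat_lit 89289093) (nat_lit 836) (nat_lit 6488819532) (nat_lit 76) (nat_lit 5569983029) (nat_lit 311) (nat_lit 5) (nat_lit 322) (nat_lit 5) (nat_lit 312) (nat_lit 5) (nat_lit 451) (nat_lit 418) (nat_lit 331)) (XT.lf (nat_lit 0) (nat_lit 3500178315) (nat_lit 760) (nat_lit 8139743877) (nat_lit 76) (nat_lit 704519806) (nat_lit 302) (nat_lit 5) (nat_lit 312) (nat_lit 5) (nat_lit 303) (nat_lit 5) (nat_lit 452) (nat_lit 418) (nat_lit 330)))))) (XT.nd (nat_lit 468) (nat_lit 2812) (nat_lit 0) (XT.nd (nat_lit 234) (nat_lit 1976) (nat_lit 0) (XT.nd (nat_lit 78) (nat_lit 684) (nat_lit 0) (XT.lf (nat_lit 0) (nat_lit 2713006878) (nat_lit 684) (nat_lit 4372105497) (nat_lit 760) (nat_lit 5460140512) (nat_lit 293)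 (nat_lit 5) (nat_lit 302) (nat_lit 5) (nat_lit 303) (nat_lit 5) (nat_lit 453) (nat_lit 418) (nat_lit 329)) (XT.nd (nat_lit 78) (nat_lit 76) (nat_lit 0) (XT.lf (nat_lit 0) (nat_lit 1206709599) (nat_lit 608) (nat_lit 9621006529) (nat_lit 684) (nat_lit 1923373812) (nat_lit 285) (nat_lit 5) (nat_lit 293) (nat_lit 5) (nat_lit 294) (nat_lit 5) (nat_lit 454) (nat_lit 418) (nat_lit 328)) (XT.lf (nat_lit 0) (nat_lit 1760293885) (nat_lit 684) (nat_lit 331290130) (nat_lit 76) (nat_lit 10870031883) (nat_lit 284) (nat_lit 5) (nat_lit 293) (nat_lit 5) (nat_lit 285) (nat_lit 5) (nat_lit 455) (nat_lit 418) (nat_lit 327)))) (XT.nd (nat_lit 78) (nat_lit 1292) (nat_lit 0) (XT.lf (nat_lit 0) (nat_lit 5607255494) (nat_lit 760) (nat_lit 1899876746) (nat_lit 76) (nat_lit 5669496772) (nat_lit 275) (nat_lit 5) (nat_lit 285) (nat_lit 5) (nat_lit 276) (nat_lit 5) (nat_lit 456) (nat_lit 418) (nat_lit 326)) (XT.nd (nat_lit 78)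 (nat_lit 684) (nat_lit 0) (XT.lf (nat_lit 0) (nat_lit 9620833870) (nat_lit 684) (nat_lit 3482345783) (nat_lit 76) (nat_lit 293892539) (nat_lit 267) (nat_lit 5) (nat_lit 276) (nat_lit 5) (nat_lit 268) (nat_lit 5) (nat_lit 457) (nat_lit 418) (nat_lit 325)) (XT.lf (nat_lit 0) (nat_lit 217216208) (nat_lit 684) (nat_lit 5115424974) (nat_lit 76) (nat_lit 8289709374) (nat_lit 258) (nat_lit 5) (nat_lit 267) (nat_lit 5) (nat_lit 259) (nat_lit 5) (nat_lit 458) (nat_lit 418) (nat_lit 324))))) (XT.nd (nat_lit 234) (nat_lit 1140) (nat_lit 0) (XT.nd (nat_lit 78) (nat_lit 1140) (nat_lit 0) (XT.lf (nat_lit 0) (nat_lit 4336793380) (nat_lit 608) (nat_lit 6792557910) (nat_lit 76) (nat_lit 2723387839) (nat_lit 251) (nat_lit 5) (nat_lit 259) (nat_lit 5) (nat_lit 252) (nat_lit 5) (nat_lit 459) (nat_lit 418) (nat_lit 323)) (XT.nd (nat_lit 78) (nat_lit 532) (nat_lit 0) (XT.lf (nat_lit 0) (nat_lit 5580516209) (nat_lit 608)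 (nat_lit 3076513127) (nat_lit 684) (nat_lit 5431472031) (nat_lit 243) (nat_lit 5) (nat_lit 251) (nat_lit 5) (nat_lit 252) (nat_lit 5) (nat_lit 460) (nat_lit 418) (nat_lit 322)) (XT.lf (nat_lit 0) (nat_lit 4068099551) (nat_lit 532) (nat_lit 9116243570) (nat_lit 608) (nat_lit 1145447273) (nat_lit 236) (nat_lit 5) (nat_lit 243) (nat_lit 5) (nat_lit 244) (nat_lit 5) (nat_lit 461) (nat_lit 418) (nat_lit 321)))) (XT.nd (nat_lit 78) (nat_lit 532) (nat_lit 0) (XT.lf (nat_lit 0) (nat_lit 2513364784) (nat_lit 532) (nat_lit 779102844) (nat_lit 608) (nat_lit 11284105431) (nat_lit 228) (nat_lit 5) (nat_lit 235) (nat_lit 5) (nat_lit 236) (nat_lit 5) (nat_lit 462) (nat_lit 418) (nat_lit 320)) (XT.nd (nat_lit 78) (nat_lit 0) (nat_lit 0) (XT.lf (nat_lit 0) (nat_lit 897660831) (nat_lit 532) (nat_lit 7048696759) (nat_lit 608) (nat_lit 6882285274) (nat_lit 221) (nat_lit 5) (nat_lit 228) (nat_lit 5) (nat_lit 229) (nat_lit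 5) (nat_lit 463) (nat_lit 418) (nat_lit 319)) (XT.lf (nat_lit 0) (nat_lit 12809350361) (nat_lit 608) (nat_lit 727535256) (nat_lit 76) (nat_lit 1550002418) (nat_lit 221) (nat_lit 5) (nat_lit 229) (nat_lit 5) (nat_lit 222) (nat_lit 5) (nat_lit 464) (nat_lit 418) (nat_lit 318))))))) (XT.nd (nat_lit 858) (nat_lit 3952) (nat_lit 0) (XT.nd (nat_lit 390) (nat_lit 2280) (nat_lit 0) (XT.nd (nat_lit 156) (nat_lit 1520) (nat_lit 0) (XT.nd (nat_lit 78) (nat_lit 456) (nat_lit 0) (XT.lf (nat_lit 0) (nat_lit 2538088463) (nat_lit 608) (nat_lit 2409502726) (nat_lit 76) (nat_lit 10402870696) (nat_lit 213) (nat_lit 5) (nat_lit 221) (nat_lit 5) (nat_lit 214) (nat_lit 5) (nat_lit 465) (nat_lit 418) (nat_lit 317)) (XT.lf (nat_lit 0) (nat_lit 7546451386) (nat_lit 532) (nat_lit 4139777266) (nat_lit 76) (nat_lit 3933831758) (nat_lit 207) (nat_lit 5) (nat_lit 214) (nat_lit 5) (nat_lit 208) (nat_lit 5) (nat_lit 466) (nat_lit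 418) (nat_lit 316))) (XT.nd (nat_lit 78) (nat_lit 988) (nat_lit 0) (XT.lf (nat_lit 0) (nat_lit 9983612223) (nat_lit 532) (nat_lit 2809751519) (nat_lit 608) (nat_lit 3102619865) (nat_lit 200) (nat_lit 5) (nat_lit 207) (nat_lit 5) (nat_lit 208) (nat_lit 5) (nat_lit 467) (nat_lit 418) (nat_lit 315)) (XT.nd (nat_lit 78) (nat_lit 456) (nat_lit 0) (XT.lf (nat_lit 0) (nat_lit 2090263701) (nat_lit 532) (nat_lit 7751130421) (nat_lit 76) (nat_lit 6336546465) (nat_lit 193) (nat_lit 5) (nat_lit 200) (nat_lit 5) (nat_lit 194) (nat_lit 5) (nat_lit 468) (nat_lit 418) (nat_lit 314)) (XT.lf (nat_lit 0) (nat_lit 6823167794) (nat_lit 456) (nat_lit 652033046) (nat_lit 532) (nat_lit 8991179362) (nat_lit 187) (nat_lit 5) (nat_lit 193) (nat_lit 5) (nat_lit 194) (nat_lit 5) (nat_lit 469) (nat_lit 418) (nat_lit 313))))) (XT.nd (nat_lit 234) (nat_lit 912) (nat_lit 0) (XT.nd (nat_lit 78) (nat_lit 912) (nat_lit 0) (XT.lf (nat_lit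 0) (nat_lit 5152479696) (nat_lit 456) (nat_lit 7987945939) (nat_lit 532) (nat_lit 3620674991) (nat_lit 181) (nat_lit 5) (nat_lit 187) (nat_lit 5) (nat_lit 188) (nat_lit 5) (nat_lit 470) (nat_lit 418) (nat_lit 312)) (XT.nd (nat_lit 78) (nat_lit 380) (nat_lit 0) (XT.lf (nat_lit 0) (nat_lit 1963698578) (nat_lit 532) (nat_lit 13619660530) (nat_lit 76) (nat_lit 1479501376) (nat_lit 174) (nat_lit 5) (nat_lit 181) (nat_lit 5) (nat_lit 175) (nat_lit 5) (nat_lit 471) (nat_lit 418) (nat_lit 311)) (XT.lf (nat_lit 0) (nat_lit 1641272509) (nat_lit 380) (nat_lit 6144617816) (nat_lit 456) (nat_lit 9584916832) (nat_lit 169) (nat_lit 5) (nat_lit 174) (nat_lit 5) (nat_lit 175) (nat_lit 5) (nat_lit 472) (nat_lit 418) (nat_lit 310)))) (XT.nd (nat_lit 78) (nat_lit 912) (nat_lit 0) (XT.lf (nat_lit 0) (nat_lit 13875214609) (nat_lit 456) (nat_lit 198823399) (nat_lit 76) (nat_lit 3612107050) (nat_lit 169) (nat_lit 5) (nat_lit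 175) (nat_lit 5) (nat_lit 170) (nat_lit 5) (nat_lit 473) (nat_lit 418) (nat_lit 309)) (XT.nd (nat_lit 78) (nat_lit 380) (nat_lit 0) (XT.lf (nat_lit 0) (nat_lit 2230617266) (nat_lit 532) (nat_lit 2091801856) (nat_lit 76) (nat_lit 13685801442) (nat_lit 162) (nat_lit 5) (nat_lit 169) (nat_lit 5) (nat_lit 163) (nat_lit 5) (nat_lit 474) (nat_lit 418) (nat_lit 308)) (XT.lf (nat_lit 0) (nat_lit 8511366472) (nat_lit 456) (nat_lit 4069868323) (nat_lit 76) (nat_lit 5756027121) (nat_lit 157) (nat_lit 5) (nat_lit 163) (nat_lit 5) (nat_lit 158) (nat_lit 5) (nat_lit 475) (nat_lit 418) (nat_lit 307)))))) (XT.nd (nat_lit 468) (nat_lit 1672) (nat_lit 0) (XT.nd (nat_lit 234) (nat_lit 1064) (nat_lit 0) (XT.nd (nat_lit 78) (nat_lit 836) (nat_lit 0) (XT.lf (nat_lit 0) (nat_lit 12572151014) (nat_lit 380) (nat_lit 2510885073) (nat_lit 456) (nat_lit 3591090402) (nat_lit 152) (nat_lit 5) (nat_lit 157) (nat_lit 5) (nat_lit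 158) (nat_lit 5) (nat_lit 476) (nat_lit 418) (nat_lit 306)) (XT.nd (nat_lit 78) (nat_lit 380) (nat_lit 0) (XT.lf (nat_lit 0) (nat_lit 2921488054) (nat_lit 456) (nat_lit 8232352547) (nat_lit 76) (nat_lit 7864333560) (nat_lit 146) (nat_lit 5) (nat_lit 152) (nat_lit 5) (nat_lit 147) (nat_lit 5) (nat_lit 477) (nat_lit 418) (nat_lit 305)) (XT.lf (nat_lit 0) (nat_lit 8934759958) (nat_lit 380) (nat_lit 740933513) (nat_lit 456) (nat_lit 9694476072) (nat_lit 141) (nat_lit 5) (nat_lit 146) (nat_lit 5) (nat_lit 147) (nat_lit 5) (nat_lit 478) (nat_lit 418) (nat_lit 304)))) (XT.nd (nat_lit 78) (nat_lit 760) (nat_lit 0) (XT.lf (nat_lit 0) (nat_lit 6991248359) (nat_lit 304) (nat_lit 9786326113) (nat_lit 380) (nat_lit 2952251068) (nat_lit 137) (nat_lit 5) (nat_lit 141) (nat_lit 5) (nat_lit 142) (nat_lit 5) (nat_lit 479) (nat_lit 418) (nat_lit 303)) (XT.nd (nat_lit 78) (nat_lit 304) (nat_lit 0) (XT.lf (nat_lit 0) (nat_lit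 4033559275) (nat_lit 456) (nat_lit 15118445418) (nat_lit 76) (nat_lit 945876225) (nat_lit 131) (nat_lit 5) (nat_lit 137) (nat_lit 5) (nat_lit 132) (nat_lit 5) (nat_lit 480) (nat_lit 418) (nat_lit 302)) (XT.lf (nat_lit 0) (nat_lit 2846925150) (nat_lit 304) (nat_lit 8492232890) (nat_lit 380) (nat_lit 9134424765) (nat_lit 127) (nat_lit 5) (nat_lit 131) (nat_lit 5) (nat_lit 132) (nat_lit 5) (nat_lit 481) (nat_lit 418) (nat_lit 301))))) (XT.nd (nat_lit 234) (nat_lit 988) (nat_lit 0) (XT.nd (nat_lit 78) (nat_lit 380) (nat_lit 0) (XT.lf (nat_lit 0) (nat_lit 658951264) (nat_lit 304) (nat_lit 18308117415) (nat_lit 380) (nat_lit 1891425754) (nat_lit 123) (nat_lit 5) (nat_lit 127) (nat_lit 5) (nat_lit 128) (nat_lit 5) (nat_lit 482) (nat_lit 418) (nat_lit 300)) (XT.nd (nat_lit 78) (nat_lit 304) (nat_lit 0) (XT.lf (nat_lit 0) (nat_lit 5652695462) (nat_lit 380) (nat_lit 1644196707) (nat_lit 76) (nat_lit 13954202213)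 (nat_lit 122) (nat_lit 5) (nat_lit 127) (nat_lit 5) (nat_lit 123) (nat_lit 5) (nat_lit 483) (nat_lit 418) (nat_lit 299)) (XT.lf (nat_lit 0) (nat_lit 13519676924) (nat_lit 380) (nat_lit 4024989407) (nat_lit 76) (nat_lit 4108112724) (nat_lit 118) (nat_lit 5) (nat_lit 123) (nat_lit 5) (nat_lit 119) (nat_lit 5) (nat_lit 484) (nat_lit 418) (nat_lit 298)))) (XT.nd (nat_lit 78) (nat_lit 684) (nat_lit 0) (XT.lf (nat_lit 0) (nat_lit 15558168694) (nat_lit 304) (nat_lit 6206249949) (nat_lit 380) (nat_lit 299262010) (nat_lit 114) (nat_lit 5) (nat_lit 118) (nat_lit 5) (nat_lit 119) (nat_lit 5) (nat_lit 485) (nat_lit 418) (nat_lit 297)) (XT.nd (nat_lit 78) (nat_lit 304) (nat_lit 0) (XT.lf (nat_lit 0) (nat_lit 7799600759) (nat_lit 380) (nat_lit 9128885872) (nat_lit 76) (nat_lit 5554776953) (nat_lit 109) (nat_lit 5) (nat_lit 114) (nat_lit 5) (nat_lit 110) (nat_lit 5) (nat_lit 486) (nat_lit 418) (nat_lit 296)) (XT.lf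 (nat_lit 0) (nat_lit 11055047358) (nat_lit 304) (nat_lit 5221236219) (nat_lit 380) (nat_lit 6636333759) (nat_lit 105) (nat_lit 5) (nat_lit 109) (nat_lit 5) (nat_lit 110) (nat_lit 5) (nat_lit 487) (nat_lit 418) (nat_lit 295))))))))
noncomputable def xc75 : XT := (XT.nd (nat_lit 58578) (nat_lit 0) (nat_lit 11704) (XT.nd (nat_lit 57642) (nat_lit 0) (nat_lit 29640) (XT.nd (nat_lit 57174) (nat_lit 0) (nat_lit 35492) (XT.nd (nat_lit 156) (nat_lit 608) (nat_lit 0) (XT.nd (nat_lit 78) (nat_lit 304) (nat_lit 0) (XT.lf (nat_lit 0) (nat_lit 1776062226) (nat_lit 304) (nat_lit 14709610100) (nat_lit 76) (nat_lit 6866059659) (nat_lit 101) (nat_lit 5) (nat_lit 105) (nat_lit 5) (nat_lit 102) (nat_lit 5) (nat_lit 488) (nat_lit 418) (nat_lit 294)) (XT.lf (nat_lit 0) (nat_lit 6086447245) (nat_lit 304) (nat_lit 4401788489) (nat_lit 380) (nat_lit 13312156868) (nat_lit 97) (nat_lit 5) (nat_lit 101) (nat_lit 5) (nat_lit 102)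 (nat_lit 5) (nat_lit 489) (nat_lit 418) (nat_lit 293))) (XT.nd (nat_lit 78) (nat_lit 380) (nat_lit 0) (XT.lf (nat_lit 0) (nat_lit 3408992287) (nat_lit 228) (nat_lit 16209482254) (nat_lit 304) (nat_lit 4640905655) (nat_lit 94) (nat_lit 5) (nat_lit 97) (nat_lit 5) (nat_lit 98) (nat_lit 5) (nat_lit 490) (nat_lit 418) (nat_lit 292)) (XT.nd (nat_lit 56862) (nat_lit 0) (nat_lit 36860) (XT.lf (nat_lit 0) (nat_lit 598320821) (nat_lit 304) (nat_lit 3772256376) (nat_lit 380) (nat_lit 20358276902) (nat_lit 89) (nat_lit 5) (nat_lit 93) (nat_lit 5) (nat_lit 94) (nat_lit 5) (nat_lit 491) (nat_lit 418) (nat_lit 291)) (XT.lf (nat_lit 0) (nat_lit 1413725074) (nat_lit 1444) (nat_lit 1287737501) (nat_lit 1444) (nat_lit 1287737501) (nat_lit 574) (nat_lit 3) (nat_lit 593) (nat_lit 3) (nat_lit 593) (nat_lit 5) (nat_lit 419) (nat_lit 419) (nat_lit 362))))) (XT.nd (nat_lit 234) (nat_lit 0) (nat_lit 76) (XT.nd (nat_lit 78)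 (nat_lit 1368) (nat_lit 0) (XT.lf (nat_lit 76) (nat_lit 3339392538) (nat_lit 0) (nat_lit 1361317390) (nat_lit 1444) (nat_lit 3360419124) (nat_lit 575) (nat_lit 5) (nat_lit 574) (nat_lit 3) (nat_lit 593) (nat_lit 5) (nat_lit 420) (nat_lit 419) (nat_lit 361)) (XT.nd (nat_lit 78) (nat_lit 1444) (nat_lit 0) (XT.lf (nat_lit 76) (nat_lit 1281321302) (nat_lit 0) (nat_lit 5322302006) (nat_lit 1444) (nat_lit 1543260280) (nat_lit 576) (nat_lit 5) (nat_lit 575) (nat_lit 5) (nat_lit 594) (nat_lit 5) (nat_lit 421) (nat_lit 419) (nat_lit 360)) (XT.lf (nat_lit 0) (nat_lit 296142325) (nat_lit 1444) (nat_lit 755377290) (nat_lit 1520) (nat_lit 7184220039) (nat_lit 556) (nat_lit 5) (nat_lit 575) (nat_lit 5) (nat_lit 576) (nat_lit 5) (nat_lit 422) (nat_lit 419) (nat_lit 359)))) (XT.nd (nat_lit 78) (nat_lit 0) (nat_lit 0) (XT.lf (nat_lit 0) (nat_lit 2160978637) (nat_lit 1444) (nat_lit 2786507916) (nat_lit 1520) (nat_lit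 3379758367) (nat_lit 557) (nat_lit 5) (nat_lit 576) (nat_lit 5) (nat_lit 577) (nat_lit 5) (nat_lit 423) (nat_lit 419) (nat_lit 358)) (XT.nd (nat_lit 78) (nat_lit 0) (nat_lit 76) (XT.lf (nat_lit 76) (nat_lit 3616806132) (nat_lit 0) (nat_lit 435270937) (nat_lit 1520) (nat_lit 4370023495) (nat_lit 558) (nat_lit 5) (nat_lit 557) (nat_lit 5) (nat_lit 577) (nat_lit 5) (nat_lit 424) (nat_lit 419) (nat_lit 357)) (XT.lf (nat_lit 76) (nat_lit 1686503812) (nat_lit 0) (nat_lit 4307189112) (nat_lit 1520) (nat_lit 2526244486) (nat_lit 559) (nat_lit 5) (nat_lit 558) (nat_lit 5) (nat_lit 578) (nat_lit 5) (nat_lit 425) (nat_lit 419) (nat_lit 356)))))) (XT.nd (nat_lit 468) (nat_lit 3116) (nat_lit 0) (XT.nd (nat_lit 234) (nat_lit 1444) (nat_lit 0) (XT.nd (nat_lit 78) (nat_lit 1520) (nat_lit 0) (XT.lf (nat_lit 0) (nat_lit 7969883942) (nat_lit 1444) (nat_lit 226605964) (nat_lit 1520) (nat_lit 424703820) (nat_lit 559) (nat_lit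 5) (nat_lit 578) (nat_lit 5) (nat_lit 579) (nat_lit 5) (nat_lit 426) (nat_lit 419) (nat_lit 355)) (XT.nd (nat_lit 78) (nat_lit 0) (nat_lit 76) (XT.lf (nat_lit 0) (nat_lit 1274823440) (nat_lit 1520) (nat_lit 2136188112) (nat_lit 1596) (nat_lit 5314085628) (nat_lit 539) (nat_lit 5) (nat_lit 559) (nat_lit 5) (nat_lit 560) (nat_lit 5) (nat_lit 427) (nat_lit 419) (nat_lit 354)) (XT.lf (nat_lit 0) (nat_lit 3234014437) (nat_lit 1520) (nat_lit 4043159000) (nat_lit 1596) (nat_lit 1555185818) (nat_lit 540) (nat_lit 5) (nat_lit 560) (nat_lit 5) (nat_lit 561) (nat_lit 5) (nat_lit 428) (nat_lit 419) (nat_lit 353)))) (XT.nd (nat_lit 78) (nat_lit 1520) (nat_lit 0) (XT.lf (nat_lit 76) (nat_lit 2985791115) (nat_lit 0) (nat_lit 2265681506) (nat_lit 1596) (nat_lit 3691386517) (nat_lit 541) (nat_lit 5) (nat_lit 540) (nat_lit 5) (nat_lit 561) (nat_lit 5) (nat_lit 429) (nat_lit 419) (nat_lit 352)) (XT.nd (nat_lit 78) (nat_lit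 1596) (nat_lit 0) (XT.lf (nat_lit 76) (nat_lit 1181235452) (nat_lit 0) (nat_lit 6146521121) (nat_lit 1596) (nat_lit 1728960897) (nat_lit 542) (nat_lit 5) (nat_lit 541) (nat_lit 5) (nat_lit 562) (nat_lit 5) (nat_lit 430) (nat_lit 419) (nat_lit 351)) (XT.lf (nat_lit 0) (nat_lit 289537513) (nat_lit 1596) (nat_lit 615456523) (nat_lit 1672) (nat_lit 8268947906) (nat_lit 520) (nat_lit 5) (nat_lit 541) (nat_lit 5) (nat_lit 542) (nat_lit 5) (nat_lit 431) (nat_lit 419) (nat_lit 350))))) (XT.nd (nat_lit 234) (nat_lit 3192) (nat_lit 0) (XT.nd (nat_lit 78) (nat_lit 0) (nat_lit 76) (XT.lf (nat_lit 0) (nat_lit 2366534051) (nat_lit 1596) (nat_lit 2421950958) (nat_lit 1672) (nat_lit 4505549683) (nat_lit 521) (nat_lit 5) (nat_lit 542) (nat_lit 5) (nat_lit 543) (nat_lit 5) (nat_lit 432) (nat_lit 419) (nat_lit 349)) (XT.nd (nat_lit 78) (nat_lit 0) (nat_lit 0) (XT.lf (nat_lit 0) (nat_lit 4502608290) (nat_lit 1596) (nat_lit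 4224834883) (nat_lit 1672) (nat_lit 690360212) (nat_lit 522) (nat_lit 5) (nat_lit 543) (nat_lit 5) (nat_lit 544) (nat_lit 5) (nat_lit 433) (nat_lit 419) (nat_lit 348)) (XT.lf (nat_lit 76) (nat_lit 3498312778) (nat_lit 0) (nat_lit 3225269177) (nat_lit 1672) (nat_lit 2821295107) (nat_lit 523) (nat_lit 5) (nat_lit 522) (nat_lit 5) (nat_lit 544) (nat_lit 5) (nat_lit 434) (nat_lit 419) (nat_lit 347)))) (XT.nd (nat_lit 78) (nat_lit 1748) (nat_lit 0) (XT.lf (nat_lit 0) (nat_lit 1803021224) (nat_lit 1596) (nat_lit 7215381978) (nat_lit 1672) (nat_lit 657223406) (nat_lit 502) (nat_lit 5) (nat_lit 523) (nat_lit 5) (nat_lit 524) (nat_lit 5) (nat_lit 435) (nat_lit 419) (nat_lit 346)) (XT.nd (nat_lit 78) (nat_lit 0) (nat_lit 0) (XT.lf (nat_lit 0) (nat_lit 90148048) (nat_lit 1672) (nat_lit 1476094390) (nat_lit 1748) (nat_lit 8243558023) (nat_lit 479) (nat_lit 5) (nat_lit 501) (nat_lit 5) (nat_lit 502) (nat_lit 5)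 (nat_lit 436) (nat_lit 419) (nat_lit 345)) (XT.lf (nat_lit 0) (nat_lit 3882916830) (nat_lit 1748) (nat_lit 1621647511) (nat_lit 76) (nat_lit 4442647049) (nat_lit 479) (nat_lit 5) (nat_lit 502) (nat_lit 5) (nat_lit 480) (nat_lit 5) (nat_lit 437) (nat_lit 419) (nat_lit 344))))))) (XT.nd (nat_lit 936) (nat_lit 6688) (nat_lit 0) (XT.nd (nat_lit 468) (nat_lit 4940) (nat_lit 0) (XT.nd (nat_lit 234) (nat_lit 1824) (nat_lit 0) (XT.nd (nat_lit 78) (nat_lit 2736) (nat_lit 0) (XT.lf (nat_lit 0) (nat_lit 6280226574) (nat_lit 1824) (nat_lit 3333180595) (nat_lit 76) (nat_lit 475121975) (nat_lit 456) (nat_lit 5) (nat_lit 480) (nat_lit 5) (nat_lit 457) (nat_lit 5) (nat_lit 438) (nat_lit 419) (nat_lit 343)) (XT.nd (nat_lit 78) (nat_lit 1064) (nat_lit 0) (XT.lf (nat_lit 0) (nat_lit 5162989258) (nat_lit 1672) (nat_lit 3623235385) (nat_lit 1748) (nat_lit 1447133401) (nat_lit 434) (nat_lit 5) (nat_lit 456) (nat_lit 5)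 (nat_lit 457) (nat_lit 5) (nat_lit 439) (nat_lit 419) (nat_lit 342)) (XT.lf (nat_lit 0) (nat_lit 990954889) (nat_lit 1064) (nat_lit 6821071484) (nat_lit 76) (nat_lit 2570004187) (nat_lit 420) (nat_lit 5) (nat_lit 434) (nat_lit 5) (nat_lit 421) (nat_lit 5) (nat_lit 440) (nat_lit 419) (nat_lit 341)))) (XT.nd (nat_lit 78) (nat_lit 912) (nat_lit 0) (XT.lf (nat_lit 0) (nat_lit 1937417582) (nat_lit 912) (nat_lit 1573787240) (nat_lit 988) (nat_lit 7023199983) (nat_lit 408) (nat_lit 5) (nat_lit 420) (nat_lit 5) (nat_lit 421) (nat_lit 5) (nat_lit 441) (nat_lit 419) (nat_lit 340)) (XT.nd (nat_lit 78) (nat_lit 0) (nat_lit 0) (XT.lf (nat_lit 0) (nat_lit 293424530) (nat_lit 912) (nat_lit 5851751010) (nat_lit 988) (nat_lit 4545418745) (nat_lit 396) (nat_lit 5) (nat_lit 408) (nat_lit 5) (nat_lit 409) (nat_lit 5) (nat_lit 442) (nat_lit 419) (nat_lit 339)) (XT.lf (nat_lit 0) (nat_lit 8890121523) (nat_lit 988) (nat_lit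 1337029318) (nat_lit 76) (nat_lit 623685575) (nat_lit 396) (nat_lit 5) (nat_lit 409) (nat_lit 5) (nat_lit 397) (nat_lit 5) (nat_lit 443) (nat_lit 419) (nat_lit 338))))) (XT.nd (nat_lit 234) (nat_lit 2432) (nat_lit 0) (XT.nd (nat_lit 78) (nat_lit 1596) (nat_lit 0) (XT.lf (nat_lit 0) (nat_lit 744220702) (nat_lit 912) (nat_lit 2997991467) (nat_lit 76) (nat_lit 7272550519) (nat_lit 384) (nat_lit 5) (nat_lit 396) (nat_lit 5) (nat_lit 385) (nat_lit 5) (nat_lit 444) (nat_lit 419) (nat_lit 337)) (XT.nd (nat_lit 78) (nat_lit 760) (nat_lit 0) (XT.lf (nat_lit 0) (nat_lit 3535745226) (nat_lit 912) (nat_lit 4683319594) (nat_lit 76) (nat_lit 2963646761) (nat_lit 373) (nat_lit 5) (nat_lit 385) (nat_lit 5) (nat_lit 374) (nat_lit 5) (nat_lit 445) (nat_lit 419) (nat_lit 336)) (XT.lf (nat_lit 0) (nat_lit 4968196971) (nat_lit 760) (nat_lit 1482417579) (nat_lit 836) (nat_lit 4904297876) (nat_lit 363) (nat_lit 5) (nat_lit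 373) (nat_lit 5) (nat_lit 374) (nat_lit 5) (nat_lit 446) (nat_lit 419) (nat_lit 335)))) (XT.nd (nat_lit 78) (nat_lit 1596) (nat_lit 0) (XT.lf (nat_lit 0) (nat_lit 3411478139) (nat_lit 836) (nat_lit 6093691224) (nat_lit 912) (nat_lit 2026070449) (nat_lit 352) (nat_lit 5) (nat_lit 363) (nat_lit 5) (nat_lit 364) (nat_lit 5) (nat_lit 447) (nat_lit 419) (nat_lit 334)) (XT.nd (nat_lit 78) (nat_lit 760) (nat_lit 0) (XT.lf (nat_lit 0) (nat_lit 960773518) (nat_lit 836) (nat_lit 9870174874) (nat_lit 76) (nat_lit 881100244) (nat_lit 341) (nat_lit 5) (nat_lit 352) (nat_lit 5) (nat_lit 342) (nat_lit 5) (nat_lit 448) (nat_lit 419) (nat_lit 333)) (XT.lf (nat_lit 0) (nat_lit 225340665) (nat_lit 760) (nat_lit 3846220308) (nat_lit 836) (nat_lit 7825220515) (nat_lit 331) (nat_lit 5) (nat_lit 341) (nat_lit 5) (nat_lit 342) (nat_lit 5) (nat_lit 449) (nat_lit 419) (nat_lit 332)))))) (XT.nd (nat_lit 468) (nat_lit 3192) (nat_lit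 0) (XT.nd (nat_lit 234) (nat_lit 1976) (nat_lit 0) (XT.nd (nat_lit 78) (nat_lit 1520) (nat_lit 0) (XT.lf (nat_lit 0) (nat_lit 7329614692) (nat_lit 836) (nat_lit 1388391258) (nat_lit 76) (nat_lit 3367976283) (nat_lit 331) (nat_lit 5) (nat_lit 342) (nat_lit 5) (nat_lit 332) (nat_lit 5) (nat_lit 450) (nat_lit 419) (nat_lit 331)) (XT.nd (nat_lit 78) (nat_lit 836) (nat_lit 0) (XT.lf (nat_lit 0) (nat_lit 9260711407) (nat_lit 684) (nat_lit 1476448153) (nat_lit 760) (nat_lit 1542669072) (nat_lit 322) (nat_lit 5) (nat_lit 331) (nat_lit 5) (nat_lit 332) (nat_lit 5) (nat_lit 451) (nat_lit 419) (nat_lit 330)) (XT.lf (nat_lit 0) (nat_lit 1810229617) (nat_lit 836) (nat_lit 4695984457) (nat_lit 76) (nat_lit 5971731848) (nat_lit 311) (nat_lit 5) (nat_lit 322) (nat_lit 5) (nat_lit 312) (nat_lit 5) (nat_lit 452) (nat_lit 419) (nat_lit 329)))) (XT.nd (nat_lit 78) (nat_lit 1292) (nat_lit 0) (XT.lf (nat_lit 0) (nat_lit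 5287875092) (nat_lit 760) (nat_lit 6396627635) (nat_lit 76) (nat_lit 996401960) (nat_lit 302) (nat_lit 5) (nat_lit 312) (nat_lit 5) (nat_lit 303) (nat_lit 5) (nat_lit 453) (nat_lit 419) (nat_lit 328)) (XT.nd (nat_lit 78) (nat_lit 608) (nat_lit 0) (XT.lf (nat_lit 0) (nat_lit 4749463922) (nat_lit 684) (nat_lit 4194576413) (nat_lit 760) (nat_lit 3944432218) (nat_lit 293) (nat_lit 5) (nat_lit 302) (nat_lit 5) (nat_lit 303) (nat_lit 5) (nat_lit 454) (nat_lit 419) (nat_lit 327)) (XT.lf (nat_lit 0) (nat_lit 3196887667) (nat_lit 608) (nat_lit 9568714248) (nat_lit 684) (nat_lit 335555337) (nat_lit 285) (nat_lit 5) (nat_lit 293) (nat_lit 5) (nat_lit 294) (nat_lit 5) (nat_lit 455) (nat_lit 419) (nat_lit 326))))) (XT.nd (nat_lit 234) (nat_lit 1824) (nat_lit 0) (XT.nd (nat_lit 78) (nat_lit 608) (nat_lit 0) (XT.lf (nat_lit 0) (nat_lit 1597940442) (nat_lit 684) (nat_lit 1802176374) (nat_lit 760) (nat_lit 9918412817)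 (nat_lit 275) (nat_lit 5) (nat_lit 284) (nat_lit 5) (nat_lit 285) (nat_lit 5) (nat_lit 456) (nat_lit 419) (nat_lit 325)) (XT.nd (nat_lit 78) (nat_lit 608) (nat_lit 0) (XT.lf (nat_lit 0) (nat_lit 7320677366) (nat_lit 760) (nat_lit 40967827) (nat_lit 76) (nat_lit 6179189808) (nat_lit 275) (nat_lit 5) (nat_lit 285) (nat_lit 5) (nat_lit 276) (nat_lit 5) (nat_lit 457) (nat_lit 419) (nat_lit 324)) (XT.lf (nat_lit 0) (nat_lit 11424312438) (nat_lit 684) (nat_lit 1673979986) (nat_lit 76) (nat_lit 670211565) (nat_lit 267) (nat_lit 5) (nat_lit 276) (nat_lit 5) (nat_lit 268) (nat_lit 5) (nat_lit 458) (nat_lit 419) (nat_lit 323)))) (XT.nd (nat_lit 78) (nat_lit 1140) (nat_lit 0) (XT.lf (nat_lit 0) (nat_lit 1716678692) (nat_lit 684) (nat_lit 3367070112) (nat_lit 76) (nat_lit 8917238881) (nat_lit 258) (nat_lit 5) (nat_lit 267) (nat_lit 5) (nat_lit 259) (nat_lit 5) (nat_lit 459) (nat_lit 419) (nat_lit 322)) (XT.nd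 (nat_lit 78) (nat_lit 608) (nat_lit 0) (XT.lf (nat_lit 0) (nat_lit 5931164640) (nat_lit 608) (nat_lit 5098627978) (nat_lit 76) (nat_lit 3209073949) (nat_lit 251) (nat_lit 5) (nat_lit 259) (nat_lit 5) (nat_lit 252) (nat_lit 5) (nat_lit 460) (nat_lit 419) (nat_lit 321)) (XT.lf (nat_lit 0) (nat_lit 7614850329) (nat_lit 608) (nat_lit 2735630053) (nat_lit 684) (nat_lit 4131836769) (nat_lit 243) (nat_lit 5) (nat_lit 251) (nat_lit 5) (nat_lit 252) (nat_lit 5) (nat_lit 461) (nat_lit 419) (nat_lit 320))))))))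
noncomputable def xc76 : XT := (XT.nd (nat_lit 1794) (nat_lit 2128) (nat_lit 0) (XT.nd (nat_lit 858) (nat_lit 3952) (nat_lit 0) (XT.nd (nat_lit 390) (nat_lit 2964) (nat_lit 0) (XT.nd (nat_lit 156) (nat_lit 1140) (nat_lit 0) (XT.nd (nat_lit 78) (nat_lit 532) (nat_lit 0) (XT.lf (nat_lit 0) (nat_lit 251939048) (nat_lit 608) (nat_lit 8680668738) (nat_lit 76) (nat_lit 5798747464) (nat_lit 235) (nat_lit 5) (nat_lit 243) (nat_lit 5) (nat_lit 236) (nat_lit 5) (nat_lit 462) (nat_lit 419) (nat_lit 319)) (XT.lf (nat_lit 0) (nat_lit 4439458005) (nat_lit 532) (nat_lit 338825119) (nat_lit 608) (nat_lit 10207694324) (nat_lit 228) (nat_lit 5) (nat_lit 235) (nat_lit 5) (nat_lit 236) (nat_lit 5) (nat_lit 463) (nat_lit 419) (nat_lit 318))) (XT.nd (nat_lit 78) (nat_lit 608) (nat_lit 0) (XT.lf (nat_lit 0) (nat_lit 2769736436) (nat_lit 532) (nat_lit 6776556641) (nat_lit 608) (nat_lit 5699830629) (nat_lit 221) (nat_lit 5)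 (nat_lit 228) (nat_lit 5) (nat_lit 229) (nat_lit 5) (nat_lit 464) (nat_lit 419) (nat_lit 317)) (XT.nd (nat_lit 78) (nat_lit 76) (nat_lit 0) (XT.lf (nat_lit 0) (nat_lit 1079735891) (nat_lit 532) (nat_lit 13445841865) (nat_lit 608) (nat_lit 987134732) (nat_lit 214) (nat_lit 5) (nat_lit 221) (nat_lit 5) (nat_lit 222) (nat_lit 5) (nat_lit 465) (nat_lit 419) (nat_lit 316)) (XT.lf (nat_lit 0) (nat_lit 3920902723) (nat_lit 608) (nat_lit 678795388) (nat_lit 76) (nat_lit 11185007848) (nat_lit 213) (nat_lit 5) (nat_lit 221) (nat_lit 5) (nat_lit 214) (nat_lit 5) (nat_lit 466) (nat_lit 419) (nat_lit 315))))) (XT.nd (nat_lit 234) (nat_lit 1444) (nat_lit 0) (XT.nd (nat_lit 78) (nat_lit 1064) (nat_lit 0) (XT.lf (nat_lit 0) (nat_lit 9056179294) (nat_lit 532) (nat_lit 2467699458) (nat_lit 76) (nat_lit 4538984405) (nat_lit 207) (nat_lit 5) (nat_lit 214) (nat_lit 5) (nat_lit 208) (nat_lit 5) (nat_lit 467) (nat_lit 419)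 (nat_lit 314)) (XT.nd (nat_lit 78) (nat_lit 532) (nat_lit 0) (XT.lf (nat_lit 0) (nat_lit 12050249352) (nat_lit 532) (nat_lit 2384344370) (nat_lit 608) (nat_lit 1912992288) (nat_lit 200) (nat_lit 5) (nat_lit 207) (nat_lit 5) (nat_lit 208) (nat_lit 5) (nat_lit 468) (nat_lit 419) (nat_lit 313)) (XT.lf (nat_lit 0) (nat_lit 3396721899) (nat_lit 532) (nat_lit 6206942621) (nat_lit 76) (nat_lit 7034616945) (nat_lit 193) (nat_lit 5) (nat_lit 200) (nat_lit 5) (nat_lit 194) (nat_lit 5) (nat_lit 469) (nat_lit 419) (nat_lit 312)))) (XT.nd (nat_lit 78) (nat_lit 988) (nat_lit 0) (XT.lf (nat_lit 0) (nat_lit 8775759342) (nat_lit 456) (nat_lit 142570578) (nat_lit 532) (nat_lit 8017545456) (nat_lit 187) (nat_lit 5) (nat_lit 193) (nat_lit 5) (nat_lit 194) (nat_lit 5) (nat_lit 470) (nat_lit 419) (nat_lit 311)) (XT.nd (nat_lit 78) (nat_lit 532) (nat_lit 0) (XT.lf (nat_lit 0) (nat_lit 7047312819) (nat_lit 456) (nat_lit 7685331125)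 (nat_lit 532) (nat_lit 2507214277) (nat_lit 181) (nat_lit 5) (nat_lit 187) (nat_lit 5) (nat_lit 188) (nat_lit 5) (nat_lit 471) (nat_lit 419) (nat_lit 310)) (XT.lf (nat_lit 0) (nat_lit 3208297060) (nat_lit 532) (nat_lit 12280137044) (nat_lit 76) (nat_lit 2062488686) (nat_lit 174) (nat_lit 5) (nat_lit 181) (nat_lit 5) (nat_lit 175) (nat_lit 5) (nat_lit 472) (nat_lit 419) (nat_lit 309)))))) (XT.nd (nat_lit 468) (nat_lit 1824) (nat_lit 0) (XT.nd (nat_lit 234) (nat_lit 1216) (nat_lit 0) (XT.nd (nat_lit 78) (nat_lit 532) (nat_lit 0) (XT.lf (nat_lit 0) (nat_lit 3410262925) (nat_lit 380) (nat_lit 5771522820) (nat_lit 456) (nat_lit 8686792693) (nat_lit 169) (nat_lit 5) (nat_lit 174) (nat_lit 5) (nat_lit 175) (nat_lit 5) (nat_lit 473) (nat_lit 419) (nat_lit 308)) (XT.nd (nat_lit 78) (nat_lit 76) (nat_lit 0) (XT.lf (nat_lit 0) (nat_lit 1503755226) (nat_lit 456) (nat_lit 13929457778) (nat_lit 532) (nat_lit 2760578110)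 (nat_lit 163) (nat_lit 5) (nat_lit 169) (nat_lit 5) (nat_lit 170) (nat_lit 5) (nat_lit 474) (nat_lit 419) (nat_lit 307)) (XT.lf (nat_lit 0) (nat_lit 3414779934) (nat_lit 532) (nat_lit 478187662) (nat_lit 76) (nat_lit 14633056228) (nat_lit 162) (nat_lit 5) (nat_lit 169) (nat_lit 5) (nat_lit 163) (nat_lit 5) (nat_lit 475) (nat_lit 419) (nat_lit 306)))) (XT.nd (nat_lit 78) (nat_lit 836) (nat_lit 0) (XT.lf (nat_lit 0) (nat_lit 9865713419) (nat_lit 456) (nat_lit 2524384770) (nat_lit 76) (nat_lit 6475205860) (nat_lit 157) (nat_lit 5) (nat_lit 163) (nat_lit 5) (nat_lit 158) (nat_lit 5) (nat_lit 476) (nat_lit 419) (nat_lit 305)) (XT.nd (nat_lit 78) (nat_lit 456) (nat_lit 0) (XT.lf (nat_lit 0) (nat_lit 14589840649) (nat_lit 380) (nat_lit 2023333968) (nat_lit 456) (nat_lit 2599529897) (nat_lit 152) (nat_lit 5) (nat_lit 157) (nat_lit 5) (nat_lit 158) (nat_lit 5) (nat_lit 477) (nat_lit 419) (nat_lit 304)) (XT.lf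 (nat_lit 0) (nat_lit 4076645432) (nat_lit 456) (nat_lit 6833439247) (nat_lit 76) (nat_lit 8657196101) (nat_lit 146) (nat_lit 5) (nat_lit 152) (nat_lit 5) (nat_lit 147) (nat_lit 5) (nat_lit 478) (nat_lit 419) (nat_lit 303))))) (XT.nd (nat_lit 234) (nat_lit 684) (nat_lit 0) (XT.nd (nat_lit 78) (nat_lit 760) (nat_lit 0) (XT.lf (nat_lit 0) (nat_lit 10821984123) (nat_lit 380) (nat_lit 190913085) (nat_lit 456) (nat_lit 8917352986) (nat_lit 141) (nat_lit 5) (nat_lit 146) (nat_lit 5) (nat_lit 147) (nat_lit 5) (nat_lit 479) (nat_lit 419) (nat_lit 302)) (XT.nd (nat_lit 78) (nat_lit 456) (nat_lit 0) (XT.lf (nat_lit 0) (nat_lit 8810926083) (nat_lit 304) (nat_lit 9500475364) (nat_lit 380) (nat_lit 1989625586) (nat_lit 137) (nat_lit 5) (nat_lit 141) (nat_lit 5) (nat_lit 142) (nat_lit 5) (nat_lit 480) (nat_lit 419) (nat_lit 301)) (XT.lf (nat_lit 0) (nat_lit 5175893664) (nat_lit 456) (nat_lit 13957869227) (nat_lit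 76) (nat_lit 1546548634) (nat_lit 131) (nat_lit 5) (nat_lit 137) (nat_lit 5) (nat_lit 132) (nat_lit 5) (nat_lit 481) (nat_lit 419) (nat_lit 300)))) (XT.nd (nat_lit 78) (nat_lit 380) (nat_lit 0) (XT.lf (nat_lit 0) (nat_lit 4520275124) (nat_lit 304) (nat_lit 8160947836) (nat_lit 380) (nat_lit 8386452566) (nat_lit 127) (nat_lit 5) (nat_lit 131) (nat_lit 5) (nat_lit 132) (nat_lit 5) (nat_lit 482) (nat_lit 419) (nat_lit 299)) (XT.nd (nat_lit 78) (nat_lit 76) (nat_lit 0) (XT.lf (nat_lit 0) (nat_lit 2256944664) (nat_lit 304) (nat_lit 18265786082) (nat_lit 380) (nat_lit 941710803) (nat_lit 123) (nat_lit 5) (nat_lit 127) (nat_lit 5) (nat_lit 128) (nat_lit 5) (nat_lit 483) (nat_lit 419) (nat_lit 298)) (XT.lf (nat_lit 0) (nat_lit 6786604336) (nat_lit 380) (nat_lit 148378930) (nat_lit 76) (nat_lit 14934286269) (nat_lit 122) (nat_lit 5) (nat_lit 127) (nat_lit 5) (nat_lit 123) (nat_lit 5) (nat_lit 484) (nat_lit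 419) (nat_lit 297))))))) (XT.nd (nat_lit 57720) (nat_lit 0) (nat_lit 32376) (XT.nd (nat_lit 390) (nat_lit 532) (nat_lit 0) (XT.nd (nat_lit 156) (nat_lit 912) (nat_lit 0) (XT.nd (nat_lit 78) (nat_lit 380) (nat_lit 0) (XT.lf (nat_lit 0) (nat_lit 14875103921) (nat_lit 380) (nat_lit 2610398846) (nat_lit 76) (nat_lit 4797793878) (nat_lit 118) (nat_lit 5) (nat_lit 123) (nat_lit 5) (nat_lit 119) (nat_lit 5) (nat_lit 485) (nat_lit 419) (nat_lit 296)) (XT.lf (nat_lit 0) (nat_lit 634019213) (nat_lit 380) (nat_lit 5175710723) (nat_lit 76) (nat_lit 16897071111) (nat_lit 113) (nat_lit 5) (nat_lit 118) (nat_lit 5) (nat_lit 114) (nat_lit 5) (nat_lit 486) (nat_lit 419) (nat_lit 295))) (XT.nd (nat_lit 78) (nat_lit 608) (nat_lit 0) (XT.lf (nat_lit 0) (nat_lit 8957956649) (nat_lit 380) (nat_lit 7889769715) (nat_lit 76) (nat_lit 6291483962) (nat_lit 109) (nat_lit 5) (nat_lit 114) (nat_lit 5) (nat_lit 110) (nat_lit 5)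 (nat_lit 487) (nat_lit 419) (nat_lit 294)) (XT.nd (nat_lit 78) (nat_lit 304) (nat_lit 0) (XT.lf (nat_lit 0) (nat_lit 12875135164) (nat_lit 304) (nat_lit 4796545367) (nat_lit 380) (nat_lit 5910111206) (nat_lit 105) (nat_lit 5) (nat_lit 109) (nat_lit 5) (nat_lit 110) (nat_lit 5) (nat_lit 488) (nat_lit 419) (nat_lit 293)) (XT.lf (nat_lit 0) (nat_lit 2729275203) (nat_lit 304) (nat_lit 13660395907) (nat_lit 76) (nat_lit 7644555248) (nat_lit 101) (nat_lit 5) (nat_lit 105) (nat_lit 5) (nat_lit 102) (nat_lit 5) (nat_lit 489) (nat_lit 419) (nat_lit 292))))) (XT.nd (nat_lit 57096) (nat_lit 0) (nat_lit 35036) (XT.nd (nat_lit 78) (nat_lit 228) (nat_lit 0) (XT.lf (nat_lit 0) (nat_lit 7735361526) (nat_lit 304) (nat_lit 3950761131) (nat_lit 380) (nat_lit 12810559677) (nat_lit 97) (nat_lit 5) (nat_lit 101) (nat_lit 5) (nat_lit 102) (nat_lit 5) (nat_lit 490) (nat_lit 419) (nat_lit 291)) (XT.nd (nat_lit 56940) (nat_lit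 0) (nat_lit 36480) (XT.lf (nat_lit 0) (nat_lit 4967503803) (nat_lit 228) (nat_lit 16110169765) (nat_lit 304) (nat_lit 3892019557) (nat_lit 94) (nat_lit 5) (nat_lit 97) (nat_lit 5) (nat_lit 98) (nat_lit 5) (nat_lit 491) (nat_lit 419) (nat_lit 290)) (XT.lf (nat_lit 0) (nat_lit 3247912488) (nat_lit 1444) (nat_lit 412400554) (nat_lit 1444) (nat_lit 412400554) (nat_lit 574) (nat_lit 3) (nat_lit 593) (nat_lit 3) (nat_lit 593) (nat_lit 5) (nat_lit 420) (nat_lit 420) (nat_lit 360)))) (XT.nd (nat_lit 78) (nat_lit 0) (nat_lit 76) (XT.lf (nat_lit 0) (nat_lit 98759444) (nat_lit 1444) (nat_lit 2995304402) (nat_lit 1520) (nat_lit 5138434160) (nat_lit 555) (nat_lit 5) (nat_lit 574) (nat_lit 3) (nat_lit 575) (nat_lit 5) (nat_lit 421) (nat_lit 420) (nat_lit 359)) (XT.nd (nat_lit 78) (nat_lit 0) (nat_lit 0) (XT.lf (nat_lit 0) (nat_lit 1844864885) (nat_lit 1444) (nat_lit 5166012805) (nat_lit 1520) (nat_lit 1311742991)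 (nat_lit 556) (nat_lit 5) (nat_lit 575) (nat_lit 5) (nat_lit 576) (nat_lit 5) (nat_lit 422) (nat_lit 420) (nat_lit 358)) (XT.lf (nat_lit 76) (nat_lit 1076070250) (nat_lit 0) (nat_lit 2550094007) (nat_lit 1520) (nat_lit 4789638123) (nat_lit 557) (nat_lit 5) (nat_lit 556) (nat_lit 5) (nat_lit 576) (nat_lit 5) (nat_lit 423) (nat_lit 420) (nat_lit 357)))))) (XT.nd (nat_lit 468) (nat_lit 1368) (nat_lit 0) (XT.nd (nat_lit 234) (nat_lit 0) (nat_lit 0) (XT.nd (nat_lit 78) (nat_lit 1444) (nat_lit 0) (XT.lf (nat_lit 0) (nat_lit 5445968494) (nat_lit 1444) (nat_lit 985587187) (nat_lit 1520) (nat_lit 2080533756) (nat_lit 557) (nat_lit 5) (nat_lit 576) (nat_lit 5) (nat_lit 577) (nat_lit 5) (nat_lit 424) (nat_lit 420) (nat_lit 356)) (XT.nd (nat_lit 78) (nat_lit 1444) (nat_lit 0) (XT.lf (nat_lit 76) (nat_lit 5579252250) (nat_lit 0) (nat_lit 1732793568) (nat_lit 1520) (nat_lit 1299396604) (nat_lit 558) (nat_lit 5)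 (nat_lit 557) (nat_lit 5) (nat_lit 577) (nat_lit 5) (nat_lit 425) (nat_lit 420) (nat_lit 355)) (XT.lf (nat_lit 0) (nat_lit 504030093) (nat_lit 1520) (nat_lit 5085829612) (nat_lit 1596) (nat_lit 3124048598) (nat_lit 538) (nat_lit 5) (nat_lit 558) (nat_lit 5) (nat_lit 559) (nat_lit 5) (nat_lit 426) (nat_lit 420) (nat_lit 354)))) (XT.nd (nat_lit 78) (nat_lit 0) (nat_lit 76) (XT.lf (nat_lit 76) (nat_lit 1675151241) (nat_lit 0) (nat_lit 653239134) (nat_lit 1596) (nat_lit 6491206387) (nat_lit 539) (nat_lit 5) (nat_lit 538) (nat_lit 5) (nat_lit 559) (nat_lit 5) (nat_lit 427) (nat_lit 420) (nat_lit 353)) (XT.nd (nat_lit 78) (nat_lit 0) (nat_lit 76) (XT.lf (nat_lit 0) (nat_lit 4213792035) (nat_lit 1520) (nat_lit 285908530) (nat_lit 1596) (nat_lit 4428638875) (nat_lit 539) (nat_lit 5) (nat_lit 559) (nat_lit 5) (nat_lit 560) (nat_lit 5) (nat_lit 428) (nat_lit 420) (nat_lit 352)) (XT.lf (nat_lit 0) (nat_lit 6153362746)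 (nat_lit 1520) (nat_lit 2217959240) (nat_lit 1596) (nat_lit 669079762) (nat_lit 540) (nat_lit 5) (nat_lit 560) (nat_lit 5) (nat_lit 561) (nat_lit 5) (nat_lit 429) (nat_lit 420) (nat_lit 351))))) (XT.nd (nat_lit 234) (nat_lit 0) (nat_lit 76) (XT.nd (nat_lit 78) (nat_lit 1520) (nat_lit 0) (XT.lf (nat_lit 76) (nat_lit 4990279817) (nat_lit 0) (nat_lit 3171294033) (nat_lit 1596) (nat_lit 994052226) (nat_lit 541) (nat_lit 5) (nat_lit 540) (nat_lit 5) (nat_lit 561) (nat_lit 5) (nat_lit 430) (nat_lit 420) (nat_lit 350)) (XT.nd (nat_lit 78) (nat_lit 0) (nat_lit 0) (XT.lf (nat_lit 0) (nat_lit 940446729) (nat_lit 1596) (nat_lit 6120068886) (nat_lit 1672) (nat_lit 2213731045) (nat_lit 520) (nat_lit 5) (nat_lit 541) (nat_lit 5) (nat_lit 542) (nat_lit 5) (nat_lit 431) (nat_lit 420) (nat_lit 349)) (XT.lf (nat_lit 76) (nat_lit 1305645562) (nat_lit 0) (nat_lit 1620395535) (nat_lit 1672) (nat_lit 6470130552) (nat_lit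 521) (nat_lit 5) (nat_lit 520) (nat_lit 5) (nat_lit 542) (nat_lit 5) (nat_lit 432) (nat_lit 420) (nat_lit 348)))) (XT.nd (nat_lit 78) (nat_lit 0) (nat_lit 76) (XT.lf (nat_lit 0) (nat_lit 4988546596) (nat_lit 1596) (nat_lit 547519023) (nat_lit 1672) (nat_lit 3985350169) (nat_lit 521) (nat_lit 5) (nat_lit 542) (nat_lit 5) (nat_lit 543) (nat_lit 5) (nat_lit 433) (nat_lit 420) (nat_lit 347)) (XT.nd (nat_lit 78) (nat_lit 0) (nat_lit 0) (XT.lf (nat_lit 0) (nat_lit 7123113795) (nat_lit 1596) (nat_lit 2382163747) (nat_lit 1672) (nat_lit 144944007) (nat_lit 522) (nat_lit 5) (nat_lit 543) (nat_lit 5) (nat_lit 544) (nat_lit 5) (nat_lit 434) (nat_lit 420) (nat_lit 346)) (XT.lf (nat_lit 76) (nat_lit 5540726907) (nat_lit 0) (nat_lit 3810177984) (nat_lit 1672) (nat_lit 431410646) (nat_lit 523) (nat_lit 5) (nat_lit 522) (nat_lit 5) (nat_lit 544) (nat_lit 5) (nat_lit 435) (nat_lit 420) (nat_lit 345))))))))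
noncomputable def xc77 : XT := (XT.nd (nat_lit 1794) (nat_lit 10336) (nat_lit 0) (XT.nd (nat_lit 858) (nat_lit 8056) (nat_lit 0) (XT.nd (nat_lit 390) (nat_lit 4560) (nat_lit 0) (XT.nd (nat_lit 156) (nat_lit 3496) (nat_lit 0) (XT.nd (nat_lit 78) (nat_lit 1672) (nat_lit 0) (XT.lf (nat_lit 0) (nat_lit 1712573890) (nat_lit 1672) (nat_lit 6115110503) (nat_lit 76) (nat_lit 2090309723) (nat_lit 501) (nat_lit 5) (nat_lit 523) (nat_lit 5) (nat_lit 502) (nat_lit 5) (nat_lit 436) (nat_lit 420) (nat_lit 344)) (XT.lf (nat_lit 0) (nat_lit 2049856719) (nat_lit 1672) (nat_lit 1887376064) (nat_lit 1748) (nat_lit 6120016119) (nat_lit 479) (nat_lit 5) (nat_lit 501) (nat_lit 5) (nat_lit 502) (nat_lit 5) (nat_lit 437) (nat_lit 420) (nat_lit 343))) (XT.nd (nat_lit 78) (nat_lit 1748) (nat_lit 0) (XT.lf (nat_lit 0) (nat_lit 281189558) (nat_lit 1748) (nat_lit 5974040709) (nat_lit 1824) (nat_lit 3944926080) (nat_lit 456) (nat_lit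 5) (nat_lit 479) (nat_lit 5) (nat_lit 480) (nat_lit 5) (nat_lit 438) (nat_lit 420) (nat_lit 342)) (XT.nd (nat_lit 78) (nat_lit 1748) (nat_lit 0) (XT.lf (nat_lit 0) (nat_lit 8667576603) (nat_lit 1824) (nat_lit 1470769971) (nat_lit 76) (nat_lit 208515050) (nat_lit 456) (nat_lit 5) (nat_lit 480) (nat_lit 5) (nat_lit 457) (nat_lit 5) (nat_lit 439) (nat_lit 420) (nat_lit 341)) (XT.lf (nat_lit 0) (nat_lit 690983769) (nat_lit 1748) (nat_lit 3253174348) (nat_lit 76) (nat_lit 6552826637) (nat_lit 433) (nat_lit 5) (nat_lit 456) (nat_lit 5) (nat_lit 434) (nat_lit 5) (nat_lit 440) (nat_lit 420) (nat_lit 340))))) (XT.nd (nat_lit 234) (nat_lit 1748) (nat_lit 0) (XT.nd (nat_lit 78) (nat_lit 1824) (nat_lit 0) (XT.lf (nat_lit 0) (nat_lit 3131019676) (nat_lit 1064) (nat_lit 5054126761) (nat_lit 76) (nat_lit 2465819932) (nat_lit 420) (nat_lit 5) (nat_lit 434) (nat_lit 5) (nat_lit 421) (nat_lit 5) (nat_lit 441) (nat_lit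 420) (nat_lit 339)) (XT.nd (nat_lit 78) (nat_lit 912) (nat_lit 0) (XT.lf (nat_lit 0) (nat_lit 3935130484) (nat_lit 912) (nat_lit 1742873629) (nat_lit 988) (nat_lit 5130894461) (nat_lit 408) (nat_lit 5) (nat_lit 420) (nat_lit 5) (nat_lit 421) (nat_lit 5) (nat_lit 442) (nat_lit 420) (nat_lit 338)) (XT.lf (nat_lit 0) (nat_lit 2251992996) (nat_lit 912) (nat_lit 6090849280) (nat_lit 988) (nat_lit 2627903499) (nat_lit 396) (nat_lit 5) (nat_lit 408) (nat_lit 5) (nat_lit 409) (nat_lit 5) (nat_lit 443) (nat_lit 420) (nat_lit 337)))) (XT.nd (nat_lit 78) (nat_lit 912) (nat_lit 0) (XT.lf (nat_lit 0) (nat_lit 563005516) (nat_lit 836) (nat_lit 10551745825) (nat_lit 912) (nat_lit 22160277) (nat_lit 385) (nat_lit 5) (nat_lit 396) (nat_lit 5) (nat_lit 397) (nat_lit 5) (nat_lit 444) (nat_lit 420) (nat_lit 336)) (XT.nd (nat_lit 78) (nat_lit 836) (nat_lit 0) (XT.lf (nat_lit 0) (nat_lit 2689168925) (nat_lit 912) (nat_lit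 1160698215) (nat_lit 76) (nat_lit 7456608661) (nat_lit 384) (nat_lit 5) (nat_lit 396) (nat_lit 5) (nat_lit 385) (nat_lit 5) (nat_lit 445) (nat_lit 420) (nat_lit 335)) (XT.lf (nat_lit 0) (nat_lit 5520860957) (nat_lit 912) (nat_lit 2890115930) (nat_lit 76) (nat_lit 3069365918) (nat_lit 373) (nat_lit 5) (nat_lit 385) (nat_lit 5) (nat_lit 374) (nat_lit 5) (nat_lit 446) (nat_lit 420) (nat_lit 334)))))) (XT.nd (nat_lit 468) (nat_lit 4104) (nat_lit 0) (XT.nd (nat_lit 234) (nat_lit 1520) (nat_lit 0) (XT.nd (nat_lit 78) (nat_lit 1672) (nat_lit 0) (XT.lf (nat_lit 0) (nat_lit 7019574094) (nat_lit 760) (nat_lit 1461224043) (nat_lit 836) (nat_lit 3177766944) (nat_lit 363) (nat_lit 5) (nat_lit 373) (nat_lit 5) (nat_lit 374) (nat_lit 5) (nat_lit 447) (nat_lit 420) (nat_lit 333)) (XT.nd (nat_lit 78) (nat_lit 836) (nat_lit 0) (XT.lf (nat_lit 0) (nat_lit 5421265725) (nat_lit 836) (nat_lit 6165027086) (nat_lit 912) (nat_lit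 254711029) (nat_lit 352) (nat_lit 5) (nat_lit 363) (nat_lit 5) (nat_lit 364) (nat_lit 5) (nat_lit 448) (nat_lit 420) (nat_lit 332)) (XT.lf (nat_lit 0) (nat_lit 2758245333) (nat_lit 836) (nat_lit 8231162619) (nat_lit 76) (nat_lit 1038387593) (nat_lit 341) (nat_lit 5) (nat_lit 352) (nat_lit 5) (nat_lit 342) (nat_lit 5) (nat_lit 449) (nat_lit 420) (nat_lit 331)))) (XT.nd (nat_lit 78) (nat_lit 760) (nat_lit 0) (XT.lf (nat_lit 0) (nat_lit 2135823404) (nat_lit 760) (nat_lit 3787379201) (nat_lit 836) (nat_lit 6295657892) (nat_lit 331) (nat_lit 5) (nat_lit 341) (nat_lit 5) (nat_lit 342) (nat_lit 5) (nat_lit 450) (nat_lit 420) (nat_lit 330)) (XT.nd (nat_lit 78) (nat_lit 76) (nat_lit 0) (XT.lf (nat_lit 0) (nat_lit 456935968) (nat_lit 684) (nat_lit 8775753318) (nat_lit 760) (nat_lit 3181980983) (nat_lit 322) (nat_lit 5) (nat_lit 331) (nat_lit 5) (nat_lit 332) (nat_lit 5) (nat_lit 451) (nat_lit 420) (nat_lit 329))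 (XT.lf (nat_lit 0) (nat_lit 86286604) (nat_lit 760) (nat_lit 1226702030) (nat_lit 76) (nat_lit 11302136518) (nat_lit 321) (nat_lit 5) (nat_lit 331) (nat_lit 5) (nat_lit 322) (nat_lit 5) (nat_lit 452) (nat_lit 420) (nat_lit 328))))) (XT.nd (nat_lit 234) (nat_lit 1976) (nat_lit 0) (XT.nd (nat_lit 78) (nat_lit 1368) (nat_lit 0) (XT.lf (nat_lit 0) (nat_lit 3484163097) (nat_lit 836) (nat_lit 2963454941) (nat_lit 76) (nat_lit 6372063301) (nat_lit 311) (nat_lit 5) (nat_lit 322) (nat_lit 5) (nat_lit 312) (nat_lit 5) (nat_lit 453) (nat_lit 420) (nat_lit 327)) (XT.nd (nat_lit 78) (nat_lit 684) (nat_lit 0) (XT.lf (nat_lit 0) (nat_lit 7032609401) (nat_lit 760) (nat_lit 4715297546) (nat_lit 76) (nat_lit 1281498619) (nat_lit 302) (nat_lit 5) (nat_lit 312) (nat_lit 5) (nat_lit 303) (nat_lit 5) (nat_lit 454) (nat_lit 420) (nat_lit 326)) (XT.lf (nat_lit 0) (nat_lit 6734785844) (nat_lit 684) (nat_lit 4029441654) (nat_lit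 760) (nat_lit 2479663564) (nat_lit 293) (nat_lit 5) (nat_lit 302) (nat_lit 5) (nat_lit 303) (nat_lit 5) (nat_lit 455) (nat_lit 420) (nat_lit 325)))) (XT.nd (nat_lit 78) (nat_lit 1292) (nat_lit 0) (XT.lf (nat_lit 0) (nat_lit 1189628591) (nat_lit 684) (nat_lit 8336811918) (nat_lit 76) (nat_lit 3936993191) (nat_lit 284) (nat_lit 5) (nat_lit 293) (nat_lit 5) (nat_lit 285) (nat_lit 5) (nat_lit 456) (nat_lit 420) (nat_lit 324)) (XT.nd (nat_lit 78) (nat_lit 608) (nat_lit 0) (XT.lf (nat_lit 0) (nat_lit 3478006121) (nat_lit 684) (nat_lit 1522143271) (nat_lit 760) (nat_lit 8687792251) (nat_lit 275) (nat_lit 5) (nat_lit 284) (nat_lit 5) (nat_lit 285) (nat_lit 5) (nat_lit 457) (nat_lit 420) (nat_lit 323)) (XT.lf (nat_lit 0) (nat_lit 1787166572) (nat_lit 608) (nat_lit 7221237750) (nat_lit 684) (nat_lit 4909115639) (nat_lit 267) (nat_lit 5) (nat_lit 275) (nat_lit 5) (nat_lit 276) (nat_lit 5) (nat_lit 458) (nat_lit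 420) (nat_lit 322))))))) (XT.nd (nat_lit 936) (nat_lit 4712) (nat_lit 0) (XT.nd (nat_lit 468) (nat_lit 2660) (nat_lit 0) (XT.nd (nat_lit 234) (nat_lit 1748) (nat_lit 0) (XT.nd (nat_lit 78) (nat_lit 608) (nat_lit 0) (XT.lf (nat_lit 0) (nat_lit 79879801) (nat_lit 608) (nat_lit 13115575403) (nat_lit 684) (nat_lit 957362861) (nat_lit 259) (nat_lit 5) (nat_lit 267) (nat_lit 5) (nat_lit 268) (nat_lit 5) (nat_lit 459) (nat_lit 420) (nat_lit 321)) (XT.nd (nat_lit 78) (nat_lit 532) (nat_lit 0) (XT.lf (nat_lit 0) (nat_lit 3175423842) (nat_lit 684) (nat_lit 1675436714) (nat_lit 76) (nat_lit 9541847409) (nat_lit 258) (nat_lit 5) (nat_lit 267) (nat_lit 5) (nat_lit 259) (nat_lit 5) (nat_lit 460) (nat_lit 420) (nat_lit 320)) (XT.lf (nat_lit 0) (nat_lit 7489312095) (nat_lit 608) (nat_lit 3462816274) (nat_lit 76) (nat_lit 3686140280) (nat_lit 251) (nat_lit 5) (nat_lit 259) (nat_lit 5) (nat_lit 252) (nat_lit 5) (nat_lit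 461) (nat_lit 420) (nat_lit 319)))) (XT.nd (nat_lit 78) (nat_lit 1140) (nat_lit 0) (XT.lf (nat_lit 0) (nat_lit 9603045705) (nat_lit 608) (nat_lit 2409386703) (nat_lit 684) (nat_lit 2877170491) (nat_lit 243) (nat_lit 5) (nat_lit 251) (nat_lit 5) (nat_lit 252) (nat_lit 5) (nat_lit 462) (nat_lit 420) (nat_lit 318)) (XT.nd (nat_lit 78) (nat_lit 532) (nat_lit 0) (XT.lf (nat_lit 0) (nat_lit 1594473476) (nat_lit 608) (nat_lit 7167865387) (nat_lit 76) (nat_lit 6384109970) (nat_lit 235) (nat_lit 5) (nat_lit 243) (nat_lit 5) (nat_lit 236) (nat_lit 5) (nat_lit 463) (nat_lit 420) (nat_lit 317)) (XT.lf (nat_lit 0) (nat_lit 6229622880) (nat_lit 608) (nat_lit 9092740064) (nat_lit 76) (nat_lit 86890751) (nat_lit 228) (nat_lit 5) (nat_lit 236) (nat_lit 5) (nat_lit 229) (nat_lit 5) (nat_lit 464) (nat_lit 420) (nat_lit 316))))) (XT.nd (nat_lit 234) (nat_lit 1064) (nat_lit 0) (XT.nd (nat_lit 78) (nat_lit 1064) (nat_lit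 0) (XT.lf (nat_lit 0) (nat_lit 4592055393) (nat_lit 532) (nat_lit 6524012998) (nat_lit 608) (nat_lit 4561632219) (nat_lit 221) (nat_lit 5) (nat_lit 228) (nat_lit 5) (nat_lit 229) (nat_lit 5) (nat_lit 465) (nat_lit 420) (nat_lit 315)) (XT.nd (nat_lit 78) (nat_lit 456) (nat_lit 0) (XT.lf (nat_lit 0) (nat_lit 265199278) (nat_lit 608) (nat_lit 13108886410) (nat_lit 76) (nat_lit 2578635560) (nat_lit 213) (nat_lit 5) (nat_lit 221) (nat_lit 5) (nat_lit 214) (nat_lit 5) (nat_lit 466) (nat_lit 420) (nat_lit 314)) (XT.lf (nat_lit 0) (nat_lit 1013627942) (nat_lit 456) (nat_lit 4263146317) (nat_lit 532) (nat_lit 10956579465) (nat_lit 207) (nat_lit 5) (nat_lit 213) (nat_lit 5) (nat_lit 214) (nat_lit 5) (nat_lit 467) (nat_lit 420) (nat_lit 313)))) (XT.nd (nat_lit 78) (nat_lit 1064) (nat_lit 0) (XT.lf (nat_lit 0) (nat_lit 10537530396) (nat_lit 532) (nat_lit 848572626) (nat_lit 76) (nat_lit 5134327935) (nat_lit 207)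 (nat_lit 5) (nat_lit 214) (nat_lit 5) (nat_lit 208) (nat_lit 5) (nat_lit 468) (nat_lit 420) (nat_lit 312)) (XT.nd (nat_lit 78) (nat_lit 532) (nat_lit 0) (XT.lf (nat_lit 0) (nat_lit 14077445174) (nat_lit 532) (nat_lit 1975433855) (nat_lit 608) (nat_lit 761308466) (nat_lit 200) (nat_lit 5) (nat_lit 207) (nat_lit 5) (nat_lit 208) (nat_lit 5) (nat_lit 469) (nat_lit 420) (nat_lit 311)) (XT.lf (nat_lit 0) (nat_lit 4670977490) (nat_lit 532) (nat_lit 4718420281) (nat_lit 76) (nat_lit 7724469748) (nat_lit 193) (nat_lit 5) (nat_lit 200) (nat_lit 5) (nat_lit 194) (nat_lit 5) (nat_lit 470) (nat_lit 420) (nat_lit 310)))))) (XT.nd (nat_lit 468) (nat_lit 1976) (nat_lit 0) (XT.nd (nat_lit 234) (nat_lit 1292) (nat_lit 0) (XT.nd (nat_lit 78) (nat_lit 988) (nat_lit 0) (XT.lf (nat_lit 0) (nat_lit 10337068742) (nat_lit 532) (nat_lit 6736553533) (nat_lit 76) (nat_lit 347193632) (nat_lit 187) (nat_lit 5) (nat_lit 194) (nat_lit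 5) (nat_lit 188) (nat_lit 5) (nat_lit 471) (nat_lit 420) (nat_lit 309)) (XT.nd (nat_lit 78) (nat_lit 532) (nat_lit 0) (XT.lf (nat_lit 0) (nat_lit 8899092966) (nat_lit 456) (nat_lit 7404765418) (nat_lit 532) (nat_lit 1430502189) (nat_lit 181) (nat_lit 5) (nat_lit 187) (nat_lit 5) (nat_lit 188) (nat_lit 5) (nat_lit 472) (nat_lit 420) (nat_lit 308)) (XT.lf (nat_lit 0) (nat_lit 4422170183) (nat_lit 532) (nat_lit 11000776709) (nat_lit 76) (nat_lit 2632047641) (nat_lit 174) (nat_lit 5) (nat_lit 181) (nat_lit 5) (nat_lit 175) (nat_lit 5) (nat_lit 473) (nat_lit 420) (nat_lit 307)))) (XT.nd (nat_lit 78) (nat_lit 912) (nat_lit 0) (XT.lf (nat_lit 0) (nat_lit 5133602238) (nat_lit 380) (nat_lit 5419233939) (nat_lit 456) (nat_lit 7829787232) (nat_lit 169) (nat_lit 5) (nat_lit 174) (nat_lit 5) (nat_lit 175) (nat_lit 5) (nat_lit 474) (nat_lit 420) (nat_lit 306)) (XT.nd (nat_lit 78) (nat_lit 456) (nat_lit 0) (XT.lf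 (nat_lit 0) (nat_lit 3161899133) (nat_lit 456) (nat_lit 13811781508) (nat_lit 532) (nat_lit 1744277262) (nat_lit 163) (nat_lit 5) (nat_lit 169) (nat_lit 5) (nat_lit 170) (nat_lit 5) (nat_lit 475) (nat_lit 420) (nat_lit 305)) (XT.lf (nat_lit 0) (nat_lit 1102058253) (nat_lit 380) (nat_lit 3475430137) (nat_lit 456) (nat_lit 14483018026) (nat_lit 157) (nat_lit 5) (nat_lit 162) (nat_lit 5) (nat_lit 163) (nat_lit 5) (nat_lit 476) (nat_lit 420) (nat_lit 304))))) (XT.nd (nat_lit 234) (nat_lit 1140) (nat_lit 0) (XT.nd (nat_lit 78) (nat_lit 836) (nat_lit 0) (XT.lf (nat_lit 0) (nat_lit 11197603336) (nat_lit 456) (nat_lit 1028262602) (nat_lit 76) (nat_lit 7184588744) (nat_lit 157) (nat_lit 5) (nat_lit 163) (nat_lit 5) (nat_lit 158) (nat_lit 5) (nat_lit 477) (nat_lit 420) (nat_lit 303)) (XT.nd (nat_lit 78) (nat_lit 456) (nat_lit 0) (XT.lf (nat_lit 0) (nat_lit 16573888121) (nat_lit 380) (nat_lit 1553467810) (nat_lit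 456) (nat_lit 1641326504) (nat_lit 152) (nat_lit 5) (nat_lit 157) (nat_lit 5) (nat_lit 158) (nat_lit 5) (nat_lit 478) (nat_lit 420) (nat_lit 302)) (XT.lf (nat_lit 0) (nat_lit 5205177934) (nat_lit 456) (nat_lit 5487039015) (nat_lit 76) (nat_lit 9441874312) (nat_lit 146) (nat_lit 5) (nat_lit 152) (nat_lit 5) (nat_lit 147) (nat_lit 5) (nat_lit 479) (nat_lit 420) (nat_lit 301)))) (XT.nd (nat_lit 78) (nat_lit 760) (nat_lit 0) (XT.lf (nat_lit 0) (nat_lit 12332344239) (nat_lit 456) (nat_lit 7837688190) (nat_lit 76) (nat_lit 338263214) (nat_lit 141) (nat_lit 5) (nat_lit 147) (nat_lit 5) (nat_lit 142) (nat_lit 5) (nat_lit 480) (nat_lit 420) (nat_lit 300)) (XT.nd (nat_lit 78) (nat_lit 456) (nat_lit 0) (XT.lf (nat_lit 0) (nat_lit 10592776981) (nat_lit 304) (nat_lit 9239311349) (nat_lit 380) (nat_lit 1058464118) (nat_lit 137) (nat_lit 5) (nat_lit 141) (nat_lit 5) (nat_lit 142) (nat_lit 5) (nat_lit 481) (nat_lit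 420) (nat_lit 299)) (XT.lf (nat_lit 0) (nat_lit 6293869701) (nat_lit 456) (nat_lit 12855133390) (nat_lit 76) (nat_lit 2132389077) (nat_lit 131) (nat_lit 5) (nat_lit 137) (nat_lit 5) (nat_lit 132) (nat_lit 5) (nat_lit 482) (nat_lit 420) (nat_lit 298))))))))
noncomputable def xc78 : XT := (XT.nd (nat_lit 58734) (nat_lit 0) (nat_lit 14212) (XT.nd (nat_lit 57798) (nat_lit 0) (nat_lit 32072) (XT.nd (nat_lit 390) (nat_lit 1216) (nat_lit 0) (XT.nd (nat_lit 156) (nat_lit 760) (nat_lit 0) (XT.nd (nat_lit 78) (nat_lit 304) (nat_lit 0) (XT.lf (nat_lit 0) (nat_lit 6152671217) (nat_lit 304) (nat_lit 7853366016) (nat_lit 380) (nat_lit 7674708466) (nat_lit 127) (nat_lit 5) (nat_lit 131) (nat_lit 5) (nat_lit 132) (nat_lit 5) (nat_lit 483) (nat_lit 420) (nat_lit 297)) (XT.lf (nat_lit 0) (nat_lit 3812281302) (nat_lit 304) (nat_lit 18256143625) (nat_lit 380) (nat_lit 21279193) (nat_lit 123) (nat_lit 5) (nat_lit 127)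 (nat_lit 5) (nat_lit 128) (nat_lit 5) (nat_lit 484) (nat_lit 420) (nat_lit 296))) (XT.nd (nat_lit 78) (nat_lit 380) (nat_lit 0) (XT.lf (nat_lit 0) (nat_lit 1320940179) (nat_lit 304) (nat_lit 6586810343) (nat_lit 380) (nat_lit 14599179101) (nat_lit 118) (nat_lit 5) (nat_lit 122) (nat_lit 5) (nat_lit 123) (nat_lit 5) (nat_lit 485) (nat_lit 420) (nat_lit 295)) (XT.nd (nat_lit 78) (nat_lit 380) (nat_lit 0) (XT.lf (nat_lit 0) (nat_lit 16216669217) (nat_lit 380) (nat_lit 1241505378) (nat_lit 76) (nat_lit 5475649622) (nat_lit 118) (nat_lit 5) (nat_lit 123) (nat_lit 5) (nat_lit 119) (nat_lit 5) (nat_lit 486) (nat_lit 420) (nat_lit 294)) (XT.lf (nat_lit 0) (nat_lit 1537398790) (nat_lit 380) (nat_lit 3895441185) (nat_lit 76) (nat_lit 17937415974) (nat_lit 113) (nat_lit 5) (nat_lit 118) (nat_lit 5) (nat_lit 114) (nat_lit 5) (nat_lit 487) (nat_lit 420) (nat_lit 293))))) (XT.nd (nat_lit 234) (nat_lit 304) (nat_lit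 0) (XT.nd (nat_lit 78) (nat_lit 608) (nat_lit 0) (XT.lf (nat_lit 0) (nat_lit 10098000719) (nat_lit 380) (nat_lit 6700331472) (nat_lit 76) (nat_lit 7017568193) (nat_lit 109) (nat_lit 5) (nat_lit 114) (nat_lit 5) (nat_lit 110) (nat_lit 5) (nat_lit 488) (nat_lit 420) (nat_lit 292)) (XT.nd (nat_lit 78) (nat_lit 304) (nat_lit 0) (XT.lf (nat_lit 0) (nat_lit 14664383267) (nat_lit 304) (nat_lit 4392484392) (nat_lit 380) (nat_lit 5215218703) (nat_lit 105) (nat_lit 5) (nat_lit 109) (nat_lit 5) (nat_lit 110) (nat_lit 5) (nat_lit 489) (nat_lit 420) (nat_lit 291)) (XT.lf (nat_lit 0) (nat_lit 3659424842) (nat_lit 304) (nat_lit 12665266228) (nat_lit 76) (nat_lit 8413541069) (nat_lit 101) (nat_lit 5) (nat_lit 105) (nat_lit 5) (nat_lit 102) (nat_lit 5) (nat_lit 490) (nat_lit 420) (nat_lit 290)))) (XT.nd (nat_lit 57018) (nat_lit 0) (nat_lit 34808) (XT.lf (nat_lit 0) (nat_lit 9349570420) (nat_lit 304) (nat_lit 3519674188)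 (nat_lit 380) (nat_lit 12345633468) (nat_lit 97) (nat_lit 5) (nat_lit 101) (nat_lit 5) (nat_lit 102) (nat_lit 5) (nat_lit 491) (nat_lit 420) (nat_lit 289)) (XT.nd (nat_lit 78) (nat_lit 0) (nat_lit 0) (XT.lf (nat_lit 0) (nat_lit 433857706) (nat_lit 0) (nat_lit 433857706) (nat_lit 1444) (nat_lit 3292865381) (nat_lit 555) (nat_lit 5) (nat_lit 555) (nat_lit 3) (nat_lit 574) (nat_lit 3) (nat_lit 421) (nat_lit 421) (nat_lit 358)) (XT.lf (nat_lit 0) (nat_lit 3414566479) (nat_lit 1444) (nat_lit 1345497594) (nat_lit 1520) (nat_lit 3652565278) (nat_lit 555) (nat_lit 5) (nat_lit 574) (nat_lit 3) (nat_lit 575) (nat_lit 5) (nat_lit 422) (nat_lit 421) (nat_lit 357)))))) (XT.nd (nat_lit 468) (nat_lit 1368) (nat_lit 0) (XT.nd (nat_lit 234) (nat_lit 1368) (nat_lit 0) (XT.nd (nat_lit 78) (nat_lit 0) (nat_lit 76) (XT.lf (nat_lit 76) (nat_lit 4971814600) (nat_lit 0) (nat_lit 146972905) (nat_lit 1520) (nat_lit 3388570641)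 (nat_lit 556) (nat_lit 5) (nat_lit 555) (nat_lit 5) (nat_lit 575) (nat_lit 5) (nat_lit 423) (nat_lit 421) (nat_lit 356)) (XT.nd (nat_lit 78) (nat_lit 0) (nat_lit 76) (XT.lf (nat_lit 76) (nat_lit 2865773965) (nat_lit 0) (nat_lit 4004490837) (nat_lit 1520) (nat_lit 1734752307) (nat_lit 557) (nat_lit 5) (nat_lit 556) (nat_lit 5) (nat_lit 576) (nat_lit 5) (nat_lit 424) (nat_lit 421) (nat_lit 355)) (XT.lf (nat_lit 76) (nat_lit 771297948) (nat_lit 0) (nat_lit 7878367489) (nat_lit 1520) (nat_lit 56443401) (nat_lit 558) (nat_lit 5) (nat_lit 557) (nat_lit 5) (nat_lit 577) (nat_lit 5) (nat_lit 425) (nat_lit 421) (nat_lit 354)))) (XT.nd (nat_lit 78) (nat_lit 0) (nat_lit 76) (XT.lf (nat_lit 0) (nat_lit 1657529140) (nat_lit 1520) (nat_lit 1326856326) (nat_lit 1596) (nat_lit 5825495866) (nat_lit 537) (nat_lit 5) (nat_lit 557) (nat_lit 5) (nat_lit 558) (nat_lit 5) (nat_lit 426) (nat_lit 421) (nat_lit 353)) (XT.nd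 (nat_lit 78) (nat_lit 0) (nat_lit 0) (XT.lf (nat_lit 0) (nat_lit 3414745113) (nat_lit 1520) (nat_lit 3413809461) (nat_lit 1596) (nat_lit 2088362919) (nat_lit 538) (nat_lit 5) (nat_lit 558) (nat_lit 5) (nat_lit 559) (nat_lit 5) (nat_lit 427) (nat_lit 421) (nat_lit 352)) (XT.lf (nat_lit 76) (nat_lit 3520398931) (nat_lit 0) (nat_lit 1700753866) (nat_lit 1596) (nat_lit 3806091928) (nat_lit 539) (nat_lit 5) (nat_lit 538) (nat_lit 5) (nat_lit 559) (nat_lit 5) (nat_lit 428) (nat_lit 421) (nat_lit 351))))) (XT.nd (nat_lit 234) (nat_lit 0) (nat_lit 76) (XT.nd (nat_lit 78) (nat_lit 1520) (nat_lit 0) (XT.lf (nat_lit 76) (nat_lit 1530053978) (nat_lit 0) (nat_lit 5554296417) (nat_lit 1596) (nat_lit 2056488641) (nat_lit 540) (nat_lit 5) (nat_lit 539) (nat_lit 5) (nat_lit 560) (nat_lit 5) (nat_lit 429) (nat_lit 421) (nat_lit 350)) (XT.nd (nat_lit 78) (nat_lit 1520) (nat_lit 0) (XT.lf (nat_lit 76) (nat_lit 8806937761)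 (nat_lit 0) (nat_lit 192591006) (nat_lit 1596) (nat_lit 258399658) (nat_lit 540) (nat_lit 5) (nat_lit 539) (nat_lit 5) (nat_lit 560) (nat_lit 5) (nat_lit 430) (nat_lit 421) (nat_lit 349)) (XT.lf (nat_lit 0) (nat_lit 1601721019) (nat_lit 1596) (nat_lit 2443521442) (nat_lit 1672) (nat_lit 5332509817) (nat_lit 519) (nat_lit 5) (nat_lit 540) (nat_lit 5) (nat_lit 541) (nat_lit 5) (nat_lit 431) (nat_lit 421) (nat_lit 348)))) (XT.nd (nat_lit 78) (nat_lit 0) (nat_lit 0) (XT.lf (nat_lit 0) (nat_lit 3511709006) (nat_lit 1596) (nat_lit 4437222404) (nat_lit 1672) (nat_lit 1552262057) (nat_lit 520) (nat_lit 5) (nat_lit 541) (nat_lit 5) (nat_lit 542) (nat_lit 5) (nat_lit 432) (nat_lit 421) (nat_lit 347)) (XT.nd (nat_lit 78) (nat_lit 0) (nat_lit 76) (XT.lf (nat_lit 76) (nat_lit 3180982567) (nat_lit 0) (nat_lit 2313740871) (nat_lit 1672) (nat_lit 4133307944) (nat_lit 521) (nat_lit 5) (nat_lit 520) (nat_lit 5) (nat_lit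 542) (nat_lit 5) (nat_lit 433) (nat_lit 421) (nat_lit 346)) (XT.lf (nat_lit 76) (nat_lit 1288270814) (nat_lit 0) (nat_lit 6262874227) (nat_lit 1672) (nat_lit 2207258852) (nat_lit 522) (nat_lit 5) (nat_lit 521) (nat_lit 5) (nat_lit 543) (nat_lit 5) (nat_lit 434) (nat_lit 421) (nat_lit 345))))))) (XT.nd (nat_lit 858) (nat_lit 7600) (nat_lit 0) (XT.nd (nat_lit 390) (nat_lit 5472) (nat_lit 0) (XT.nd (nat_lit 156) (nat_lit 3344) (nat_lit 0) (XT.nd (nat_lit 78) (nat_lit 1596) (nat_lit 0) (XT.lf (nat_lit 76) (nat_lit 9292644994) (nat_lit 0) (nat_lit 389444309) (nat_lit 1672) (nat_lit 210349243) (nat_lit 522) (nat_lit 5) (nat_lit 521) (nat_lit 5) (nat_lit 543) (nat_lit 5) (nat_lit 435) (nat_lit 421) (nat_lit 344)) (XT.lf (nat_lit 0) (nat_lit 1863359519) (nat_lit 1672) (nat_lit 2508748564) (nat_lit 1748) (nat_lit 5657331414) (nat_lit 500) (nat_lit 5) (nat_lit 522) (nat_lit 5) (nat_lit 523) (nat_lit 5) (nat_lit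 436) (nat_lit 421) (nat_lit 343))) (XT.nd (nat_lit 78) (nat_lit 3420) (nat_lit 0) (XT.lf (nat_lit 0) (nat_lit 4007928681) (nat_lit 1672) (nat_lit 4423478607) (nat_lit 76) (nat_lit 1738892233) (nat_lit 501) (nat_lit 5) (nat_lit 523) (nat_lit 5) (nat_lit 502) (nat_lit 5) (nat_lit 437) (nat_lit 421) (nat_lit 342)) (XT.nd (nat_lit 78) (nat_lit 1748) (nat_lit 0) (XT.lf (nat_lit 0) (nat_lit 3956016601) (nat_lit 1672) (nat_lit 2289928953) (nat_lit 1748) (nat_lit 4068864369) (nat_lit 479) (nat_lit 5) (nat_lit 501) (nat_lit 5) (nat_lit 502) (nat_lit 5) (nat_lit 438) (nat_lit 421) (nat_lit 341)) (XT.lf (nat_lit 0) (nat_lit 2150011579) (nat_lit 1748) (nat_lit 6429565885) (nat_lit 1824) (nat_lit 1883515271) (nat_lit 456) (nat_lit 5) (nat_lit 479) (nat_lit 5) (nat_lit 480) (nat_lit 5) (nat_lit 439) (nat_lit 421) (nat_lit 340))))) (XT.nd (nat_lit 234) (nat_lit 2736) (nat_lit 0) (XT.nd (nat_lit 78) (nat_lit 988)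 (nat_lit 0) (XT.lf (nat_lit 0) (nat_lit 336445899) (nat_lit 1672) (nat_lit 45852693) (nat_lit 1748) (nat_lit 10233089552) (nat_lit 433) (nat_lit 5) (nat_lit 455) (nat_lit 5) (nat_lit 456) (nat_lit 5) (nat_lit 440) (nat_lit 421) (nat_lit 339)) (XT.nd (nat_lit 78) (nat_lit 988) (nat_lit 0) (XT.lf (nat_lit 0) (nat_lit 2749589025) (nat_lit 1748) (nat_lit 1503632355) (nat_lit 76) (nat_lit 6517606289) (nat_lit 433) (nat_lit 5) (nat_lit 456) (nat_lit 5) (nat_lit 434) (nat_lit 5) (nat_lit 441) (nat_lit 421) (nat_lit 338)) (XT.lf (nat_lit 0) (nat_lit 5214144479) (nat_lit 1064) (nat_lit 3347350274) (nat_lit 76) (nat_lit 2368916614) (nat_lit 420) (nat_lit 5) (nat_lit 434) (nat_lit 5) (nat_lit 421) (nat_lit 5) (nat_lit 442) (nat_lit 421) (nat_lit 337)))) (XT.nd (nat_lit 78) (nat_lit 1824) (nat_lit 0) (XT.lf (nat_lit 0) (nat_lit 5881434351) (nat_lit 912) (nat_lit 1910036614) (nat_lit 988) (nat_lit 3302540665) (nat_lit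 408) (nat_lit 5) (nat_lit 420) (nat_lit 5) (nat_lit 421) (nat_lit 5) (nat_lit 443) (nat_lit 421) (nat_lit 336)) (XT.nd (nat_lit 78) (nat_lit 912) (nat_lit 0) (XT.lf (nat_lit 0) (nat_lit 4157393988) (nat_lit 912) (nat_lit 6333472713) (nat_lit 988) (nat_lit 770763783) (nat_lit 396) (nat_lit 5) (nat_lit 408) (nat_lit 5) (nat_lit 409) (nat_lit 5) (nat_lit 444) (nat_lit 421) (nat_lit 335)) (XT.lf (nat_lit 0) (nat_lit 1844097183) (nat_lit 912) (nat_lit 9019875095) (nat_lit 76) (nat_lit 569447937) (nat_lit 384) (nat_lit 5) (nat_lit 396) (nat_lit 5) (nat_lit 385) (nat_lit 5) (nat_lit 445) (nat_lit 421) (nat_lit 334)))))) (XT.nd (nat_lit 468) (nat_lit 3572) (nat_lit 0) (XT.nd (nat_lit 234) (nat_lit 2432) (nat_lit 0) (XT.nd (nat_lit 78) (nat_lit 760) (nat_lit 0) (XT.lf (nat_lit 0) (nat_lit 629336638) (nat_lit 836) (nat_lit 3956848682) (nat_lit 912) (nat_lit 7022896514) (nat_lit 373) (nat_lit 5) (nat_lit 384)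 (nat_lit 5) (nat_lit 385) (nat_lit 5) (nat_lit 446) (nat_lit 421) (nat_lit 333)) (XT.nd (nat_lit 78) (nat_lit 760) (nat_lit 0) (XT.lf (nat_lit 0) (nat_lit 7457665383) (nat_lit 912) (nat_lit 1154118634) (nat_lit 76) (nat_lit 3177291700) (nat_lit 373) (nat_lit 5) (nat_lit 385) (nat_lit 5) (nat_lit 374) (nat_lit 5) (nat_lit 447) (nat_lit 421) (nat_lit 332)) (XT.lf (nat_lit 0) (nat_lit 9023290936) (nat_lit 760) (nat_lit 1443164203) (nat_lit 836) (nat_lit 1506995825) (nat_lit 363) (nat_lit 5) (nat_lit 373) (nat_lit 5) (nat_lit 374) (nat_lit 5) (nat_lit 448) (nat_lit 421) (nat_lit 331)))) (XT.nd (nat_lit 78) (nat_lit 1520) (nat_lit 0) (XT.lf (nat_lit 0) (nat_lit 1445408042) (nat_lit 912) (nat_lit 4789794646) (nat_lit 76) (nat_lit 5926744401) (nat_lit 351) (nat_lit 5) (nat_lit 363) (nat_lit 5) (nat_lit 352) (nat_lit 5) (nat_lit 449) (nat_lit 421) (nat_lit 330)) (XT.nd (nat_lit 78) (nat_lit 760) (nat_lit 0)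 (XT.lf (nat_lit 0) (nat_lit 4508113638) (nat_lit 836) (nat_lit 6654063658) (nat_lit 76) (nat_lit 1192881988) (nat_lit 341) (nat_lit 5) (nat_lit 352) (nat_lit 5) (nat_lit 342) (nat_lit 5) (nat_lit 450) (nat_lit 421) (nat_lit 329)) (XT.lf (nat_lit 0) (nat_lit 3994339164) (nat_lit 760) (nat_lit 3736774245) (nat_lit 836) (nat_lit 4821487531) (nat_lit 331) (nat_lit 5) (nat_lit 341) (nat_lit 5) (nat_lit 342) (nat_lit 5) (nat_lit 451) (nat_lit 421) (nat_lit 328))))) (XT.nd (nat_lit 234) (nat_lit 2052) (nat_lit 0) (XT.nd (nat_lit 78) (nat_lit 836) (nat_lit 0) (XT.lf (nat_lit 0) (nat_lit 2267216282) (nat_lit 684) (nat_lit 8837886174) (nat_lit 760) (nat_lit 1649884633) (nat_lit 322) (nat_lit 5) (nat_lit 331) (nat_lit 5) (nat_lit 332) (nat_lit 5) (nat_lit 452) (nat_lit 421) (nat_lit 327)) (XT.nd (nat_lit 78) (nat_lit 0) (nat_lit 0) (XT.lf (nat_lit 0) (nat_lit 508336996) (nat_lit 760) (nat_lit 1143265941) (nat_lit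 836) (nat_lit 11310517115) (nat_lit 311) (nat_lit 5) (nat_lit 321) (nat_lit 5) (nat_lit 322) (nat_lit 5) (nat_lit 453) (nat_lit 421) (nat_lit 326)) (XT.lf (nat_lit 0) (nat_lit 5115341389) (nat_lit 836) (nat_lit 1286490883) (nat_lit 76) (nat_lit 6771708089) (nat_lit 311) (nat_lit 5) (nat_lit 322) (nat_lit 5) (nat_lit 312) (nat_lit 5) (nat_lit 454) (nat_lit 421) (nat_lit 325)))) (XT.nd (nat_lit 78) (nat_lit 1368) (nat_lit 0) (XT.lf (nat_lit 0) (nat_lit 8738637223) (nat_lit 760) (nat_lit 3091058559) (nat_lit 76) (nat_lit 1560498389) (nat_lit 302) (nat_lit 5) (nat_lit 312) (nat_lit 5) (nat_lit 303) (nat_lit 5) (nat_lit 455) (nat_lit 421) (nat_lit 324)) (XT.nd (nat_lit 78) (nat_lit 684) (nat_lit 0) (XT.lf (nat_lit 0) (nat_lit 8673880982) (nat_lit 684) (nat_lit 3876055838) (nat_lit 760) (nat_lit 1061828359) (nat_lit 293) (nat_lit 5) (nat_lit 302) (nat_lit 5) (nat_lit 303) (nat_lit 5) (nat_lit 456) (nat_lit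 421) (nat_lit 323)) (XT.lf (nat_lit 0) (nat_lit 2668165687) (nat_lit 684) (nat_lit 6831480562) (nat_lit 76) (nat_lit 4338655540) (nat_lit 284) (nat_lit 5) (nat_lit 293) (nat_lit 5) (nat_lit 285) (nat_lit 5) (nat_lit 457) (nat_lit 421) (nat_lit 322))))))))
noncomputable def xc79 : XT := (XT.nd (nat_lit 1794) (nat_lit 3420) (nat_lit 0) (XT.nd (nat_lit 858) (nat_lit 4636) (nat_lit 0) (XT.nd (nat_lit 390) (nat_lit 3344) (nat_lit 0) (XT.nd (nat_lit 156) (nat_lit 1216) (nat_lit 0) (XT.nd (nat_lit 78) (nat_lit 608) (nat_lit 0) (XT.lf (nat_lit 0) (nat_lit 5309302160) (nat_lit 684) (nat_lit 1252887789) (nat_lit 760) (nat_lit 7507976448) (nat_lit 275) (nat_lit 5) (nat_lit 284) (nat_lit 5) (nat_lit 285) (nat_lit 5) (nat_lit 458) (nat_lit 421) (nat_lit 321)) (XT.lf (nat_lit 0) (nat_lit 3565660642) (nat_lit 608) (nat_lit 7097088793) (nat_lit 684) (nat_lit 3644446521) (nat_lit 267) (nat_lit 5) (nat_lit 275) (nat_lit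 5) (nat_lit 276) (nat_lit 5) (nat_lit 459) (nat_lit 421) (nat_lit 320))) (XT.nd (nat_lit 78) (nat_lit 532) (nat_lit 0) (XT.lf (nat_lit 0) (nat_lit 393105995) (nat_lit 684) (nat_lit 12748291578) (nat_lit 76) (nat_lit 1408648275) (nat_lit 258) (nat_lit 5) (nat_lit 267) (nat_lit 5) (nat_lit 259) (nat_lit 5) (nat_lit 460) (nat_lit 421) (nat_lit 319)) (XT.nd (nat_lit 78) (nat_lit 532) (nat_lit 0) (XT.lf (nat_lit 0) (nat_lit 4597149739) (nat_lit 684) (nat_lit 35959500) (nat_lit 76) (nat_lit 10164695687) (nat_lit 258) (nat_lit 5) (nat_lit 267) (nat_lit 5) (nat_lit 259) (nat_lit 5) (nat_lit 461) (nat_lit 421) (nat_lit 318)) (XT.lf (nat_lit 0) (nat_lit 9014974129) (nat_lit 608) (nat_lit 1880612966) (nat_lit 76) (nat_lit 4155659461) (nat_lit 251) (nat_lit 5) (nat_lit 259) (nat_lit 5) (nat_lit 252) (nat_lit 5) (nat_lit 462) (nat_lit 421) (nat_lit 317))))) (XT.nd (nat_lit 234) (nat_lit 1596) (nat_lit 0) (XT.nd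 (nat_lit 78) (nat_lit 1140) (nat_lit 0) (XT.lf (nat_lit 0) (nat_lit 11549870101) (nat_lit 608) (nat_lit 2096794847) (nat_lit 684) (nat_lit 1664002732) (nat_lit 243) (nat_lit 5) (nat_lit 251) (nat_lit 5) (nat_lit 252) (nat_lit 5) (nat_lit 463) (nat_lit 421) (nat_lit 316)) (XT.nd (nat_lit 78) (nat_lit 532) (nat_lit 0) (XT.lf (nat_lit 0) (nat_lit 2900650839) (nat_lit 608) (nat_lit 5711468214) (nat_lit 76) (nat_lit 6963417304) (nat_lit 235) (nat_lit 5) (nat_lit 243) (nat_lit 5) (nat_lit 236) (nat_lit 5) (nat_lit 464) (nat_lit 421) (nat_lit 315)) (XT.lf (nat_lit 0) (nat_lit 7651554582) (nat_lit 608) (nat_lit 7699098391) (nat_lit 76) (nat_lit 496042445) (nat_lit 228) (nat_lit 5) (nat_lit 236) (nat_lit 5) (nat_lit 229) (nat_lit 5) (nat_lit 465) (nat_lit 421) (nat_lit 314)))) (XT.nd (nat_lit 78) (nat_lit 1064) (nat_lit 0) (XT.lf (nat_lit 0) (nat_lit 6369205182) (nat_lit 532) (nat_lit 6290060145) (nat_lit 608)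 (nat_lit 3464440909) (nat_lit 221) (nat_lit 5) (nat_lit 228) (nat_lit 5) (nat_lit 229) (nat_lit 5) (nat_lit 466) (nat_lit 421) (nat_lit 313)) (XT.nd (nat_lit 78) (nat_lit 456) (nat_lit 0) (XT.lf (nat_lit 0) (nat_lit 1468944878) (nat_lit 608) (nat_lit 11852159527) (nat_lit 76) (nat_lit 3086157907) (nat_lit 213) (nat_lit 5) (nat_lit 221) (nat_lit 5) (nat_lit 214) (nat_lit 5) (nat_lit 467) (nat_lit 421) (nat_lit 312)) (XT.lf (nat_lit 0) (nat_lit 2667261071) (nat_lit 456) (nat_lit 3939316262) (nat_lit 532) (nat_lit 10090225860) (nat_lit 207) (nat_lit 5) (nat_lit 213) (nat_lit 5) (nat_lit 214) (nat_lit 5) (nat_lit 468) (nat_lit 421) (nat_lit 311)))))) (XT.nd (nat_lit 468) (nat_lit 2128) (nat_lit 0) (XT.nd (nat_lit 234) (nat_lit 1444) (nat_lit 0) (XT.nd (nat_lit 78) (nat_lit 532) (nat_lit 0) (XT.lf (nat_lit 0) (nat_lit 731527946) (nat_lit 532) (nat_lit 11267103888) (nat_lit 608) (nat_lit 4994394922) (nat_lit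 200) (nat_lit 5) (nat_lit 207) (nat_lit 5) (nat_lit 208) (nat_lit 5) (nat_lit 469) (nat_lit 421) (nat_lit 310)) (XT.nd (nat_lit 78) (nat_lit 456) (nat_lit 0) (XT.lf (nat_lit 0) (nat_lit 350857389) (nat_lit 608) (nat_lit 1228623466) (nat_lit 76) (nat_lit 15716627719) (nat_lit 199) (nat_lit 5) (nat_lit 207) (nat_lit 5) (nat_lit 200) (nat_lit 5) (nat_lit 470) (nat_lit 421) (nat_lit 309)) (XT.lf (nat_lit 0) (nat_lit 5916162836) (nat_lit 532) (nat_lit 3281378660) (nat_lit 76) (nat_lit 8407532237) (nat_lit 193) (nat_lit 5) (nat_lit 200) (nat_lit 5) (nat_lit 194) (nat_lit 5) (nat_lit 471) (nat_lit 421) (nat_lit 308)))) (XT.nd (nat_lit 78) (nat_lit 988) (nat_lit 0) (XT.lf (nat_lit 0) (nat_lit 11733185476) (nat_lit 532) (nat_lit 5366953891) (nat_lit 76) (nat_lit 821475398) (nat_lit 187) (nat_lit 5) (nat_lit 194) (nat_lit 5) (nat_lit 188) (nat_lit 5) (nat_lit 472) (nat_lit 421) (nat_lit 307)) (XT.nd (nat_lit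 78) (nat_lit 532) (nat_lit 0) (XT.lf (nat_lit 0) (nat_lit 10712263100) (nat_lit 456) (nat_lit 7145123443) (nat_lit 532) (nat_lit 387614148) (nat_lit 181) (nat_lit 5) (nat_lit 187) (nat_lit 5) (nat_lit 188) (nat_lit 5) (nat_lit 473) (nat_lit 421) (nat_lit 306)) (XT.lf (nat_lit 0) (nat_lit 5608303298) (nat_lit 532) (nat_lit 9777623983) (nat_lit 76) (nat_lit 3189550209) (nat_lit 174) (nat_lit 5) (nat_lit 181) (nat_lit 5) (nat_lit 175) (nat_lit 5) (nat_lit 474) (nat_lit 421) (nat_lit 305))))) (XT.nd (nat_lit 234) (nat_lit 836) (nat_lit 0) (XT.nd (nat_lit 78) (nat_lit 912) (nat_lit 0) (XT.lf (nat_lit 0) (nat_lit 6815587896) (nat_lit 380) (nat_lit 5086538485) (nat_lit 456) (nat_lit 7011226950) (nat_lit 169) (nat_lit 5) (nat_lit 174) (nat_lit 5) (nat_lit 175) (nat_lit 5) (nat_lit 475) (nat_lit 421) (nat_lit 304)) (XT.nd (nat_lit 78) (nat_lit 456) (nat_lit 0) (XT.lf (nat_lit 0) (nat_lit 4777192766) (nat_lit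 456) (nat_lit 13721318285) (nat_lit 532) (nat_lit 760581270) (nat_lit 163) (nat_lit 5) (nat_lit 169) (nat_lit 5) (nat_lit 170) (nat_lit 5) (nat_lit 476) (nat_lit 421) (nat_lit 303)) (XT.lf (nat_lit 0) (nat_lit 2644345238) (nat_lit 380) (nat_lit 3072923652) (nat_lit 456) (nat_lit 13894916109) (nat_lit 157) (nat_lit 5) (nat_lit 162) (nat_lit 5) (nat_lit 163) (nat_lit 5) (nat_lit 477) (nat_lit 421) (nat_lit 302)))) (XT.nd (nat_lit 78) (nat_lit 456) (nat_lit 0) (XT.lf (nat_lit 0) (nat_lit 428127365) (nat_lit 380) (nat_lit 12084636312) (nat_lit 456) (nat_lit 7460335056) (nat_lit 152) (nat_lit 5) (nat_lit 157) (nat_lit 5) (nat_lit 158) (nat_lit 5) (nat_lit 478) (nat_lit 421) (nat_lit 301)) (XT.nd (nat_lit 78) (nat_lit 456) (nat_lit 0) (XT.lf (nat_lit 0) (nat_lit 18528690072) (nat_lit 380) (nat_lit 1099962336) (nat_lit 456) (nat_lit 713858513) (nat_lit 152) (nat_lit 5) (nat_lit 157) (nat_lit 5) (nat_lit 158)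 (nat_lit 5) (nat_lit 479) (nat_lit 421) (nat_lit 300)) (XT.lf (nat_lit 0) (nat_lit 6309804512) (nat_lit 456) (nat_lit 4189303679) (nat_lit 76) (nat_lit 10219957885) (nat_lit 146) (nat_lit 5) (nat_lit 152) (nat_lit 5) (nat_lit 147) (nat_lit 5) (nat_lit 480) (nat_lit 421) (nat_lit 299))))))) (XT.nd (nat_lit 57954) (nat_lit 0) (nat_lit 31692) (XT.nd (nat_lit 468) (nat_lit 1292) (nat_lit 0) (XT.nd (nat_lit 234) (nat_lit 988) (nat_lit 0) (XT.nd (nat_lit 78) (nat_lit 760) (nat_lit 0) (XT.lf (nat_lit 0) (nat_lit 13635802016) (nat_lit 456) (nat_lit 6618818324) (nat_lit 76) (nat_lit 850178212) (nat_lit 141) (nat_lit 5) (nat_lit 147) (nat_lit 5) (nat_lit 142) (nat_lit 5) (nat_lit 481) (nat_lit 421) (nat_lit 298)) (XT.nd (nat_lit 78) (nat_lit 456) (nat_lit 0) (XT.lf (nat_lit 0) (nat_lit 12340971372) (nat_lit 304) (nat_lit 9001665280) (nat_lit 380) (nat_lit 156246664) (nat_lit 137) (nat_lit 5) (nat_lit 141) (nat_lit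 5) (nat_lit 142) (nat_lit 5) (nat_lit 482) (nat_lit 421) (nat_lit 297)) (XT.lf (nat_lit 0) (nat_lit 7390122146) (nat_lit 456) (nat_lit 11806654190) (nat_lit 76) (nat_lit 2704838442) (nat_lit 131) (nat_lit 5) (nat_lit 137) (nat_lit 5) (nat_lit 132) (nat_lit 5) (nat_lit 483) (nat_lit 421) (nat_lit 296)))) (XT.nd (nat_lit 78) (nat_lit 684) (nat_lit 0) (XT.lf (nat_lit 0) (nat_lit 7748117448) (nat_lit 304) (nat_lit 7568267349) (nat_lit 380) (nat_lit 6996911567) (nat_lit 127) (nat_lit 5) (nat_lit 131) (nat_lit 5) (nat_lit 132) (nat_lit 5) (nat_lit 484) (nat_lit 421) (nat_lit 295)) (XT.nd (nat_lit 78) (nat_lit 304) (nat_lit 0) (XT.lf (nat_lit 0) (nat_lit 860866618) (nat_lit 380) (nat_lit 17411577850) (nat_lit 76) (nat_lit 4462238603) (nat_lit 122) (nat_lit 5) (nat_lit 127) (nat_lit 5) (nat_lit 123) (nat_lit 5) (nat_lit 485) (nat_lit 421) (nat_lit 294)) (XT.lf (nat_lit 0) (nat_lit 2751652853) (nat_lit 304)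 (nat_lit 6259154975) (nat_lit 380) (nat_lit 14153950000) (nat_lit 118) (nat_lit 5) (nat_lit 122) (nat_lit 5) (nat_lit 123) (nat_lit 5) (nat_lit 486) (nat_lit 421) (nat_lit 293))))) (XT.nd (nat_lit 234) (nat_lit 608) (nat_lit 0) (XT.nd (nat_lit 78) (nat_lit 380) (nat_lit 0) (XT.lf (nat_lit 0) (nat_lit 86514027) (nat_lit 304) (nat_lit 17461134568) (nat_lit 380) (nat_lit 6057239415) (nat_lit 114) (nat_lit 5) (nat_lit 118) (nat_lit 5) (nat_lit 119) (nat_lit 5) (nat_lit 487) (nat_lit 421) (nat_lit 292)) (XT.nd (nat_lit 78) (nat_lit 304) (nat_lit 0) (XT.lf (nat_lit 0) (nat_lit 2417113929) (nat_lit 380) (nat_lit 2659169479) (nat_lit 76) (nat_lit 18978349963) (nat_lit 113) (nat_lit 5) (nat_lit 118) (nat_lit 5) (nat_lit 114) (nat_lit 5) (nat_lit 488) (nat_lit 421) (nat_lit 291)) (XT.lf (nat_lit 0) (nat_lit 11222229618) (nat_lit 380) (nat_lit 5557075854) (nat_lit 76) (nat_lit 7734589453) (nat_lit 109) (nat_lit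 5) (nat_lit 114) (nat_lit 5) (nat_lit 110) (nat_lit 5) (nat_lit 489) (nat_lit 421) (nat_lit 290)))) (XT.nd (nat_lit 78) (nat_lit 304) (nat_lit 0) (XT.lf (nat_lit 0) (nat_lit 16426771215) (nat_lit 304) (nat_lit 4007756580) (nat_lit 380) (nat_lit 4549547034) (nat_lit 105) (nat_lit 5) (nat_lit 109) (nat_lit 5) (nat_lit 110) (nat_lit 5) (nat_lit 490) (nat_lit 421) (nat_lit 289)) (XT.nd (nat_lit 57096) (nat_lit 0) (nat_lit 34504) (XT.lf (nat_lit 0) (nat_lit 4568784723) (nat_lit 304) (nat_lit 11720932052) (nat_lit 76) (nat_lit 9174618396) (nat_lit 101) (nat_lit 5) (nat_lit 105) (nat_lit 5) (nat_lit 102) (nat_lit 5) (nat_lit 491) (nat_lit 421) (nat_lit 288)) (XT.lf (nat_lit 0) (nat_lit 1253580687) (nat_lit 0) (nat_lit 1253580687) (nat_lit 1444) (nat_lit 1745683742) (nat_lit 555) (nat_lit 5) (nat_lit 555) (nat_lit 3) (nat_lit 574) (nat_lit 3) (nat_lit 422) (nat_lit 422) (nat_lit 356)))))) (XT.nd (nat_lit 468)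 (nat_lit 1368) (nat_lit 0) (XT.nd (nat_lit 234) (nat_lit 0) (nat_lit 0) (XT.nd (nat_lit 78) (nat_lit 1444) (nat_lit 0) (XT.lf (nat_lit 76) (nat_lit 257314197) (nat_lit 0) (nat_lit 6384033370) (nat_lit 1520) (nat_lit 1960620753) (nat_lit 556) (nat_lit 5) (nat_lit 555) (nat_lit 5) (nat_lit 575) (nat_lit 5) (nat_lit 423) (nat_lit 422) (nat_lit 355)) (XT.nd (nat_lit 78) (nat_lit 1444) (nat_lit 0) (XT.lf (nat_lit 76) (nat_lit 6734167197) (nat_lit 0) (nat_lit 1580379671) (nat_lit 1520) (nat_lit 386651185) (nat_lit 556) (nat_lit 5) (nat_lit 555) (nat_lit 5) (nat_lit 575) (nat_lit 5) (nat_lit 424) (nat_lit 422) (nat_lit 354)) (XT.lf (nat_lit 0) (nat_lit 1212061141) (nat_lit 1520) (nat_lit 4203228110) (nat_lit 1596) (nat_lit 3388090892) (nat_lit 536) (nat_lit 5) (nat_lit 556) (nat_lit 5) (nat_lit 557) (nat_lit 5) (nat_lit 425) (nat_lit 422) (nat_lit 353)))) (XT.nd (nat_lit 78) (nat_lit 0) (nat_lit 76) (XT.lf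 (nat_lit 76) (nat_lit 2469606677) (nat_lit 0) (nat_lit 367008331) (nat_lit 1596) (nat_lit 6072308683) (nat_lit 537) (nat_lit 5) (nat_lit 536) (nat_lit 5) (nat_lit 557) (nat_lit 5) (nat_lit 426) (nat_lit 422) (nat_lit 352)) (XT.nd (nat_lit 78) (nat_lit 0) (nat_lit 76) (XT.lf (nat_lit 76) (nat_lit 322562234) (nat_lit 0) (nat_lit 4194171901) (nat_lit 1596) (nat_lit 4500772330) (nat_lit 538) (nat_lit 5) (nat_lit 537) (nat_lit 5) (nat_lit 558) (nat_lit 5) (nat_lit 427) (nat_lit 422) (nat_lit 351)) (XT.lf (nat_lit 0) (nat_lit 6246562636) (nat_lit 1520) (nat_lit 1796367924) (nat_lit 1596) (nat_lit 1086439259) (nat_lit 538) (nat_lit 5) (nat_lit 558) (nat_lit 5) (nat_lit 559) (nat_lit 5) (nat_lit 428) (nat_lit 422) (nat_lit 350))))) (XT.nd (nat_lit 234) (nat_lit 0) (nat_lit 76) (XT.nd (nat_lit 78) (nat_lit 1520) (nat_lit 0) (XT.lf (nat_lit 76) (nat_lit 5317964102) (nat_lit 0) (nat_lit 2720687367) (nat_lit 1596)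 (nat_lit 1205739243) (nat_lit 539) (nat_lit 5) (nat_lit 538) (nat_lit 5) (nat_lit 559) (nat_lit 5) (nat_lit 429) (nat_lit 422) (nat_lit 349)) (XT.nd (nat_lit 78) (nat_lit 0) (nat_lit 0) (XT.lf (nat_lit 0) (nat_lit 515619808) (nat_lit 1596) (nat_lit 6066798461) (nat_lit 1672) (nat_lit 2780368332) (nat_lit 518) (nat_lit 5) (nat_lit 539) (nat_lit 5) (nat_lit 540) (nat_lit 5) (nat_lit 430) (nat_lit 422) (nat_lit 348)) (XT.lf (nat_lit 76) (nat_lit 1261084372) (nat_lit 0) (nat_lit 1014561580) (nat_lit 1672) (nat_lit 7208869132) (nat_lit 519) (nat_lit 5) (nat_lit 518) (nat_lit 5) (nat_lit 540) (nat_lit 5) (nat_lit 431) (nat_lit 422) (nat_lit 347)))) (XT.nd (nat_lit 78) (nat_lit 0) (nat_lit 76) (XT.lf (nat_lit 0) (nat_lit 4111990129) (nat_lit 1596) (nat_lit 782320970) (nat_lit 1672) (nat_lit 4715122004) (nat_lit 519) (nat_lit 5) (nat_lit 540) (nat_lit 5) (nat_lit 541) (nat_lit 5) (nat_lit 432) (nat_lit 422)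 (nat_lit 346)) (XT.nd (nat_lit 78) (nat_lit 0) (nat_lit 0) (XT.lf (nat_lit 0) (nat_lit 6014127743) (nat_lit 1596) (nat_lit 2811032309) (nat_lit 1672) (nat_lit 912732343) (nat_lit 520) (nat_lit 5) (nat_lit 541) (nat_lit 5) (nat_lit 542) (nat_lit 5) (nat_lit 433) (nat_lit 422) (nat_lit 345)) (XT.lf (nat_lit 76) (nat_lit 5007176148) (nat_lit 0) (nat_lit 2990876229) (nat_lit 1672) (nat_lit 1871666195) (nat_lit 521) (nat_lit 5) (nat_lit 520) (nat_lit 5) (nat_lit 542) (nat_lit 5) (nat_lit 434) (nat_lit 422) (nat_lit 344))))))))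
noncomputable def xc80 : XT := (XT.nd (nat_lit 1794) (nat_lit 10716) (nat_lit 0) (XT.nd (nat_lit 858) (nat_lit 7828) (nat_lit 0) (XT.nd (nat_lit 390) (nat_lit 6384) (nat_lit 0) (XT.nd (nat_lit 156) (nat_lit 1520) (nat_lit 0) (XT.nd (nat_lit 78) (nat_lit 0) (nat_lit 0) (XT.lf (nat_lit 0) (nat_lit 49720461) (nat_lit 1672) (nat_lit 6925677850) (nat_lit 1748) (nat_lit 3029819804) (nat_lit 499) (nat_lit 5) (nat_lit 521) (nat_lit 5) (nat_lit 522) (nat_lit 5) (nat_lit 435) (nat_lit 422) (nat_lit 343)) (XT.lf (nat_lit 76) (nat_lit 1130286259) (nat_lit 0) (nat_lit 889816667) (nat_lit 1748) (nat_lit 8124103621) (nat_lit 500) (nat_lit 5) (nat_lit 499) (nat_lit 5) (nat_lit 522) (nat_lit 5) (nat_lit 436) (nat_lit 422) (nat_lit 342))) (XT.nd (nat_lit 78) (nat_lit 1596) (nat_lit 0) (XT.lf (nat_lit 0) (nat_lit 4089007422) (nat_lit 1672) (nat_lit 833419362) (nat_lit 1748) (nat_lit 5364156426) (nat_lit 500) (nat_lit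 5) (nat_lit 522) (nat_lit 5) (nat_lit 523) (nat_lit 5) (nat_lit 437) (nat_lit 422) (nat_lit 341)) (XT.nd (nat_lit 78) (nat_lit 1672) (nat_lit 0) (XT.lf (nat_lit 0) (nat_lit 6243330623) (nat_lit 1672) (nat_lit 2788735317) (nat_lit 76) (nat_lit 1400704790) (nat_lit 501) (nat_lit 5) (nat_lit 523) (nat_lit 5) (nat_lit 502) (nat_lit 5) (nat_lit 438) (nat_lit 422) (nat_lit 340)) (XT.lf (nat_lit 0) (nat_lit 5813470009) (nat_lit 1672) (nat_lit 2684700539) (nat_lit 1748) (nat_lit 2084461987) (nat_lit 479) (nat_lit 5) (nat_lit 501) (nat_lit 5) (nat_lit 502) (nat_lit 5) (nat_lit 439) (nat_lit 422) (nat_lit 339))))) (XT.nd (nat_lit 234) (nat_lit 1900) (nat_lit 0) (XT.nd (nat_lit 78) (nat_lit 2660) (nat_lit 0) (XT.lf (nat_lit 0) (nat_lit 113107658) (nat_lit 1824) (nat_lit 6769029168) (nat_lit 76) (nat_lit 3854237804) (nat_lit 455) (nat_lit 5) (nat_lit 479) (nat_lit 5) (nat_lit 456) (nat_lit 5) (nat_lit 440) (nat_lit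 422) (nat_lit 338)) (XT.nd (nat_lit 78) (nat_lit 988) (nat_lit 0) (XT.lf (nat_lit 0) (nat_lit 2098495647) (nat_lit 1672) (nat_lit 275272657) (nat_lit 1748) (nat_lit 8520181360) (nat_lit 433) (nat_lit 5) (nat_lit 455) (nat_lit 5) (nat_lit 456) (nat_lit 5) (nat_lit 441) (nat_lit 422) (nat_lit 337)) (XT.lf (nat_lit 0) (nat_lit 194919061) (nat_lit 988) (nat_lit 4559316516) (nat_lit 1064) (nat_lit 6300982376) (nat_lit 420) (nat_lit 5) (nat_lit 433) (nat_lit 5) (nat_lit 434) (nat_lit 5) (nat_lit 442) (nat_lit 422) (nat_lit 336)))) (XT.nd (nat_lit 78) (nat_lit 1900) (nat_lit 0) (XT.lf (nat_lit 0) (nat_lit 7245575141) (nat_lit 1064) (nat_lit 1696050272) (nat_lit 76) (nat_lit 2278915288) (nat_lit 420) (nat_lit 5) (nat_lit 434) (nat_lit 5) (nat_lit 421) (nat_lit 5) (nat_lit 443) (nat_lit 422) (nat_lit 335)) (XT.nd (nat_lit 78) (nat_lit 988) (nat_lit 0) (XT.lf (nat_lit 0) (nat_lit 7781178308) (nat_lit 912) (nat_lit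 2075620091) (nat_lit 988) (nat_lit 1533127271) (nat_lit 408) (nat_lit 5) (nat_lit 420) (nat_lit 5) (nat_lit 421) (nat_lit 5) (nat_lit 444) (nat_lit 422) (nat_lit 334)) (XT.lf (nat_lit 0) (nat_lit 1017435945) (nat_lit 988) (nat_lit 5555672986) (nat_lit 76) (nat_lit 4990193929) (nat_lit 395) (nat_lit 5) (nat_lit 408) (nat_lit 5) (nat_lit 396) (nat_lit 5) (nat_lit 445) (nat_lit 422) (nat_lit 333)))))) (XT.nd (nat_lit 468) (nat_lit 3724) (nat_lit 0) (XT.nd (nat_lit 234) (nat_lit 1672) (nat_lit 0) (XT.nd (nat_lit 78) (nat_lit 1596) (nat_lit 0) (XT.lf (nat_lit 0) (nat_lit 3658891222) (nat_lit 912) (nat_lit 7526780146) (nat_lit 76) (nat_lit 555308231) (nat_lit 384) (nat_lit 5) (nat_lit 396) (nat_lit 5) (nat_lit 385) (nat_lit 5) (nat_lit 446) (nat_lit 422) (nat_lit 332)) (XT.nd (nat_lit 78) (nat_lit 760) (nat_lit 0) (XT.lf (nat_lit 0) (nat_lit 2383294144) (nat_lit 836) (nat_lit 4059966401) (nat_lit 912) (nat_lit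 5479457543) (nat_lit 373) (nat_lit 5) (nat_lit 384) (nat_lit 5) (nat_lit 385) (nat_lit 5) (nat_lit 447) (nat_lit 422) (nat_lit 331)) (XT.lf (nat_lit 0) (nat_lit 536362592) (nat_lit 760) (nat_lit 8818020874) (nat_lit 836) (nat_lit 2754665529) (nat_lit 363) (nat_lit 5) (nat_lit 373) (nat_lit 5) (nat_lit 374) (nat_lit 5) (nat_lit 448) (nat_lit 422) (nat_lit 330)))) (XT.nd (nat_lit 78) (nat_lit 1596) (nat_lit 0) (XT.lf (nat_lit 0) (nat_lit 111041146) (nat_lit 836) (nat_lit 1316329392) (nat_lit 76) (nat_lit 10872400018) (nat_lit 362) (nat_lit 5) (nat_lit 373) (nat_lit 5) (nat_lit 363) (nat_lit 5) (nat_lit 449) (nat_lit 422) (nat_lit 329)) (XT.nd (nat_lit 78) (nat_lit 760) (nat_lit 0) (XT.lf (nat_lit 0) (nat_lit 3095254970) (nat_lit 912) (nat_lit 3217179458) (nat_lit 76) (nat_lit 6182020303) (nat_lit 351) (nat_lit 5) (nat_lit 363) (nat_lit 5) (nat_lit 352) (nat_lit 5) (nat_lit 450) (nat_lit 422) (nat_lit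 328)) (XT.lf (nat_lit 0) (nat_lit 6214778430) (nat_lit 836) (nat_lit 5134358732) (nat_lit 76) (nat_lit 1344930835) (nat_lit 341) (nat_lit 5) (nat_lit 352) (nat_lit 5) (nat_lit 342) (nat_lit 5) (nat_lit 451) (nat_lit 422) (nat_lit 327))))) (XT.nd (nat_lit 234) (nat_lit 1444) (nat_lit 0) (XT.nd (nat_lit 78) (nat_lit 1520) (nat_lit 0) (XT.lf (nat_lit 0) (nat_lit 5805602139) (nat_lit 760) (nat_lit 3694078403) (nat_lit 836) (nat_lit 3398557365) (nat_lit 331) (nat_lit 5) (nat_lit 341) (nat_lit 5) (nat_lit 342) (nat_lit 5) (nat_lit 452) (nat_lit 422) (nat_lit 326)) (XT.nd (nat_lit 78) (nat_lit 836) (nat_lit 0) (XT.lf (nat_lit 0) (nat_lit 4028674409) (nat_lit 684) (nat_lit 8913429261) (nat_lit 760) (nat_lit 165253753) (nat_lit 322) (nat_lit 5) (nat_lit 331) (nat_lit 5) (nat_lit 332) (nat_lit 5) (nat_lit 453) (nat_lit 422) (nat_lit 325)) (XT.lf (nat_lit 0) (nat_lit 2209543725) (nat_lit 760) (nat_lit 972463418)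 (nat_lit 836) (nat_lit 10139166815) (nat_lit 311) (nat_lit 5) (nat_lit 321) (nat_lit 5) (nat_lit 322) (nat_lit 5) (nat_lit 454) (nat_lit 422) (nat_lit 324)))) (XT.nd (nat_lit 78) (nat_lit 760) (nat_lit 0) (XT.lf (nat_lit 0) (nat_lit 343924699) (nat_lit 684) (nat_lit 6366127168) (nat_lit 760) (nat_lit 6829682737) (nat_lit 302) (nat_lit 5) (nat_lit 311) (nat_lit 5) (nat_lit 312) (nat_lit 5) (nat_lit 455) (nat_lit 422) (nat_lit 323)) (XT.nd (nat_lit 78) (nat_lit 760) (nat_lit 0) (XT.lf (nat_lit 0) (nat_lit 10410023920) (nat_lit 760) (nat_lit 1519450684) (nat_lit 76) (nat_lit 1834059322) (nat_lit 302) (nat_lit 5) (nat_lit 312) (nat_lit 5) (nat_lit 303) (nat_lit 5) (nat_lit 456) (nat_lit 422) (nat_lit 322)) (XT.lf (nat_lit 0) (nat_lit 308778570) (nat_lit 760) (nat_lit 3422961977) (nat_lit 76) (nat_lit 10260584472) (nat_lit 292) (nat_lit 5) (nat_lit 302) (nat_lit 5) (nat_lit 293) (nat_lit 5) (nat_lit 457)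 (nat_lit 422) (nat_lit 321))))))) (XT.nd (nat_lit 858) (nat_lit 4712) (nat_lit 0) (XT.nd (nat_lit 390) (nat_lit 2888) (nat_lit 0) (XT.nd (nat_lit 156) (nat_lit 1824) (nat_lit 0) (XT.nd (nat_lit 78) (nat_lit 684) (nat_lit 0) (XT.lf (nat_lit 0) (nat_lit 4108233503) (nat_lit 684) (nat_lit 5381758457) (nat_lit 76) (nat_lit 4736090682) (nat_lit 284) (nat_lit 5) (nat_lit 293) (nat_lit 5) (nat_lit 285) (nat_lit 5) (nat_lit 458) (nat_lit 422) (nat_lit 320)) (XT.lf (nat_lit 0) (nat_lit 7096402748) (nat_lit 684) (nat_lit 993632326) (nat_lit 760) (nat_lit 6375453868) (nat_lit 275) (nat_lit 5) (nat_lit 284) (nat_lit 5) (nat_lit 285) (nat_lit 5) (nat_lit 459) (nat_lit 422) (nat_lit 319))) (XT.nd (nat_lit 78) (nat_lit 1216) (nat_lit 0) (XT.lf (nat_lit 0) (nat_lit 5298494420) (nat_lit 608) (nat_lit 6988777883) (nat_lit 684) (nat_lit 2422888611) (nat_lit 267) (nat_lit 5) (nat_lit 275) (nat_lit 5) (nat_lit 276) (nat_lit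 5) (nat_lit 460) (nat_lit 422) (nat_lit 318)) (XT.nd (nat_lit 78) (nat_lit 532) (nat_lit 0) (XT.lf (nat_lit 0) (nat_lit 1692727507) (nat_lit 684) (nat_lit 11490215747) (nat_lit 76) (nat_lit 1777696904) (nat_lit 258) (nat_lit 5) (nat_lit 267) (nat_lit 5) (nat_lit 259) (nat_lit 5) (nat_lit 461) (nat_lit 422) (nat_lit 317)) (XT.lf (nat_lit 0) (nat_lit 1576378511) (nat_lit 532) (nat_lit 4419239384) (nat_lit 608) (nat_lit 9220763991) (nat_lit 251) (nat_lit 5) (nat_lit 258) (nat_lit 5) (nat_lit 259) (nat_lit 5) (nat_lit 462) (nat_lit 422) (nat_lit 316))))) (XT.nd (nat_lit 234) (nat_lit 1672) (nat_lit 0) (XT.nd (nat_lit 78) (nat_lit 1216) (nat_lit 0) (XT.lf (nat_lit 0) (nat_lit 10511724296) (nat_lit 608) (nat_lit 347731896) (nat_lit 76) (nat_lit 4618659882) (nat_lit 251) (nat_lit 5) (nat_lit 259) (nat_lit 5) (nat_lit 252) (nat_lit 5) (nat_lit 463) (nat_lit 422) (nat_lit 315)) (XT.nd (nat_lit 78) (nat_lit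 608) (nat_lit 0) (XT.lf (nat_lit 0) (nat_lit 13459881167) (nat_lit 608) (nat_lit 1796918545) (nat_lit 684) (nat_lit 489035574) (nat_lit 243) (nat_lit 5) (nat_lit 251) (nat_lit 5) (nat_lit 252) (nat_lit 5) (nat_lit 464) (nat_lit 422) (nat_lit 314)) (XT.lf (nat_lit 0) (nat_lit 4173779478) (nat_lit 608) (nat_lit 4307326225) (nat_lit 76) (nat_lit 7537843468) (nat_lit 235) (nat_lit 5) (nat_lit 243) (nat_lit 5) (nat_lit 236) (nat_lit 5) (nat_lit 465) (nat_lit 422) (nat_lit 313)))) (XT.nd (nat_lit 78) (nat_lit 1140) (nat_lit 0) (XT.lf (nat_lit 0) (nat_lit 9045247714) (nat_lit 608) (nat_lit 6359307016) (nat_lit 76) (nat_lit 894131345) (nat_lit 228) (nat_lit 5) (nat_lit 236) (nat_lit 5) (nat_lit 229) (nat_lit 5) (nat_lit 466) (nat_lit 422) (nat_lit 312)) (XT.nd (nat_lit 78) (nat_lit 608) (nat_lit 0) (XT.lf (nat_lit 0) (nat_lit 8105561879) (nat_lit 532) (nat_lit 6073753709) (nat_lit 608) (nat_lit 2405172820)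 (nat_lit 221) (nat_lit 5) (nat_lit 228) (nat_lit 5) (nat_lit 229) (nat_lit 5) (nat_lit 467) (nat_lit 422) (nat_lit 311)) (XT.lf (nat_lit 0) (nat_lit 2640159629) (nat_lit 608) (nat_lit 10652447213) (nat_lit 76) (nat_lit 3584212793) (nat_lit 213) (nat_lit 5) (nat_lit 221) (nat_lit 5) (nat_lit 214) (nat_lit 5) (nat_lit 468) (nat_lit 422) (nat_lit 310)))))) (XT.nd (nat_lit 468) (nat_lit 2204) (nat_lit 0) (XT.nd (nat_lit 234) (nat_lit 988) (nat_lit 0) (XT.nd (nat_lit 78) (nat_lit 1064) (nat_lit 0) (XT.lf (nat_lit 0) (nat_lit 4277323480) (nat_lit 456) (nat_lit 3631702136) (nat_lit 532) (nat_lit 9266482462) (nat_lit 207) (nat_lit 5) (nat_lit 213) (nat_lit 5) (nat_lit 214) (nat_lit 5) (nat_lit 469) (nat_lit 422) (nat_lit 309)) (XT.nd (nat_lit 78) (nat_lit 532) (nat_lit 0) (XT.lf (nat_lit 0) (nat_lit 2277814577) (nat_lit 532) (nat_lit 11165445571) (nat_lit 608) (nat_lit 4037753158) (nat_lit 200) (nat_lit 5)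 (nat_lit 207) (nat_lit 5) (nat_lit 208) (nat_lit 5) (nat_lit 470) (nat_lit 422) (nat_lit 308)) (XT.lf (nat_lit 0) (nat_lit 231693507) (nat_lit 456) (nat_lit 1191351204) (nat_lit 532) (nat_lit 16370608362) (nat_lit 193) (nat_lit 5) (nat_lit 199) (nat_lit 5) (nat_lit 200) (nat_lit 5) (nat_lit 471) (nat_lit 422) (nat_lit 307)))) (XT.nd (nat_lit 78) (nat_lit 988) (nat_lit 0) (XT.lf (nat_lit 0) (nat_lit 7135269006) (nat_lit 532) (nat_lit 1891843557) (nat_lit 76) (nat_lit 9085178503) (nat_lit 193) (nat_lit 5) (nat_lit 200) (nat_lit 5) (nat_lit 194) (nat_lit 5) (nat_lit 472) (nat_lit 422) (nat_lit 306)) (XT.nd (nat_lit 78) (nat_lit 532) (nat_lit 0) (XT.lf (nat_lit 0) (nat_lit 13108844601) (nat_lit 532) (nat_lit 4046488053) (nat_lit 76) (nat_lit 1283357813) (nat_lit 187) (nat_lit 5) (nat_lit 194) (nat_lit 5) (nat_lit 188) (nat_lit 5) (nat_lit 473) (nat_lit 422) (nat_lit 305)) (XT.lf (nat_lit 0) (nat_lit 616044092)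 (nat_lit 532) (nat_lit 6285170562) (nat_lit 76) (nat_lit 11870892211) (nat_lit 180) (nat_lit 5) (nat_lit 187) (nat_lit 5) (nat_lit 181) (nat_lit 5) (nat_lit 474) (nat_lit 422) (nat_lit 304))))) (XT.nd (nat_lit 234) (nat_lit 836) (nat_lit 0) (XT.nd (nat_lit 78) (nat_lit 912) (nat_lit 0) (XT.lf (nat_lit 0) (nat_lit 6769547033) (nat_lit 532) (nat_lit 8606935334) (nat_lit 76) (nat_lit 3736307635) (nat_lit 174) (nat_lit 5) (nat_lit 181) (nat_lit 5) (nat_lit 175) (nat_lit 5) (nat_lit 475) (nat_lit 422) (nat_lit 303)) (XT.nd (nat_lit 78) (nat_lit 532) (nat_lit 0) (XT.lf (nat_lit 0) (nat_lit 8460320960) (nat_lit 380) (nat_lit 4772292834) (nat_lit 456) (nat_lit 6228582423) (nat_lit 169) (nat_lit 5) (nat_lit 174) (nat_lit 5) (nat_lit 175) (nat_lit 5) (nat_lit 476) (nat_lit 422) (nat_lit 302)) (XT.lf (nat_lit 0) (nat_lit 190620324) (nat_lit 532) (nat_lit 13465220221) (nat_lit 76) (nat_lit 6161766435) (nat_lit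 162) (nat_lit 5) (nat_lit 169) (nat_lit 5) (nat_lit 163) (nat_lit 5) (nat_lit 477) (nat_lit 422) (nat_lit 301)))) (XT.nd (nat_lit 78) (nat_lit 456) (nat_lit 0) (XT.lf (nat_lit 0) (nat_lit 4146265130) (nat_lit 380) (nat_lit 2687432608) (nat_lit 456) (nat_lit 13347872125) (nat_lit 157) (nat_lit 5) (nat_lit 162) (nat_lit 5) (nat_lit 163) (nat_lit 5) (nat_lit 478) (nat_lit 422) (nat_lit 300)) (XT.nd (nat_lit 78) (nat_lit 76) (nat_lit 0) (XT.lf (nat_lit 0) (nat_lit 1856102552) (nat_lit 380) (nat_lit 11961632190) (nat_lit 456) (nat_lit 6735885121) (nat_lit 152) (nat_lit 5) (nat_lit 157) (nat_lit 5) (nat_lit 158) (nat_lit 5) (nat_lit 479) (nat_lit 422) (nat_lit 299)) (XT.lf (nat_lit 0) (nat_lit 182935379) (nat_lit 456) (nat_lit 477397058) (nat_lit 76) (nat_lit 20274301749) (nat_lit 151) (nat_lit 5) (nat_lit 157) (nat_lit 5) (nat_lit 152) (nat_lit 5) (nat_lit 480) (nat_lit 422) (nat_lit 298))))))))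
noncomputable def xc81 : XT := (XT.nd (nat_lit 58812) (nat_lit 0) (nat_lit 14592) (XT.nd (nat_lit 858) (nat_lit 304) (nat_lit 0) (XT.nd (nat_lit 390) (nat_lit 1672) (nat_lit 0) (XT.nd (nat_lit 156) (nat_lit 1064) (nat_lit 0) (XT.nd (nat_lit 78) (nat_lit 380) (nat_lit 0) (XT.lf (nat_lit 0) (nat_lit 7393123758) (nat_lit 456) (nat_lit 2936580955) (nat_lit 76) (nat_lit 10992978851) (nat_lit 146) (nat_lit 5) (nat_lit 152) (nat_lit 5) (nat_lit 147) (nat_lit 5) (nat_lit 481) (nat_lit 422) (nat_lit 297)) (XT.lf (nat_lit 0) (nat_lit 14924777527) (nat_lit 456) (nat_lit 5446847940) (nat_lit 76) (nat_lit 1348647175) (nat_lit 141) (nat_lit 5) (nat_lit 147) (nat_lit 5) (nat_lit 142) (nat_lit 5) (nat_lit 482) (nat_lit 422) (nat_lit 296))) (XT.nd (nat_lit 78) (nat_lit 684) (nat_lit 0) (XT.lf (nat_lit 0) (nat_lit 709988166) (nat_lit 380) (nat_lit 8071690353) (nat_lit 76) (nat_lit 13344747585) (nat_lit 136) (nat_lit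 5) (nat_lit 141) (nat_lit 5) (nat_lit 137) (nat_lit 5) (nat_lit 483) (nat_lit 422) (nat_lit 295)) (XT.nd (nat_lit 78) (nat_lit 304) (nat_lit 0) (XT.lf (nat_lit 0) (nat_lit 8467171605) (nat_lit 456) (nat_lit 10809045726) (nat_lit 76) (nat_lit 3265272588) (nat_lit 131) (nat_lit 5) (nat_lit 137) (nat_lit 5) (nat_lit 132) (nat_lit 5) (nat_lit 484) (nat_lit 422) (nat_lit 294)) (XT.lf (nat_lit 0) (nat_lit 9310437581) (nat_lit 304) (nat_lit 7304506011) (nat_lit 380) (nat_lit 6350905865) (nat_lit 127) (nat_lit 5) (nat_lit 131) (nat_lit 5) (nat_lit 132) (nat_lit 5) (nat_lit 485) (nat_lit 422) (nat_lit 293))))) (XT.nd (nat_lit 234) (nat_lit 684) (nat_lit 0) (XT.nd (nat_lit 78) (nat_lit 608) (nat_lit 0) (XT.lf (nat_lit 0) (nat_lit 1718530429) (nat_lit 380) (nat_lit 16601070676) (nat_lit 76) (nat_lit 5080424355) (nat_lit 122) (nat_lit 5) (nat_lit 127) (nat_lit 5) (nat_lit 123) (nat_lit 5) (nat_lit 486) (nat_lit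 422) (nat_lit 292)) (XT.nd (nat_lit 78) (nat_lit 304) (nat_lit 0) (XT.lf (nat_lit 0) (nat_lit 4145432967) (nat_lit 304) (nat_lit 5951822000) (nat_lit 380) (nat_lit 13746063576) (nat_lit 118) (nat_lit 5) (nat_lit 122) (nat_lit 5) (nat_lit 123) (nat_lit 5) (nat_lit 487) (nat_lit 422) (nat_lit 291)) (XT.lf (nat_lit 0) (nat_lit 1392020645) (nat_lit 304) (nat_lit 17485990045) (nat_lit 380) (nat_lit 5418887481) (nat_lit 114) (nat_lit 5) (nat_lit 118) (nat_lit 5) (nat_lit 119) (nat_lit 5) (nat_lit 488) (nat_lit 422) (nat_lit 290)))) (XT.nd (nat_lit 78) (nat_lit 608) (nat_lit 0) (XT.lf (nat_lit 0) (nat_lit 3275368864) (nat_lit 380) (nat_lit 1463485103) (nat_lit 76) (nat_lit 20021648533) (nat_lit 113) (nat_lit 5) (nat_lit 118) (nat_lit 5) (nat_lit 114) (nat_lit 5) (nat_lit 489) (nat_lit 422) (nat_lit 289)) (XT.nd (nat_lit 78) (nat_lit 304) (nat_lit 0) (XT.lf (nat_lit 0) (nat_lit 12333040042) (nat_lit 380) (nat_lit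 4456688910) (nat_lit 76) (nat_lit 8444046511) (nat_lit 109) (nat_lit 5) (nat_lit 114) (nat_lit 5) (nat_lit 110) (nat_lit 5) (nat_lit 490) (nat_lit 422) (nat_lit 288)) (XT.lf (nat_lit 0) (nat_lit 18166116392) (nat_lit 304) (nat_lit 3641136282) (nat_lit 380) (nat_lit 3911098739) (nat_lit 105) (nat_lit 5) (nat_lit 109) (nat_lit 5) (nat_lit 110) (nat_lit 5) (nat_lit 491) (nat_lit 422) (nat_lit 287)))))) (XT.nd (nat_lit 57486) (nat_lit 0) (nat_lit 31616) (XT.nd (nat_lit 57252) (nat_lit 0) (nat_lit 32984) (XT.nd (nat_lit 57096) (nat_lit 0) (nat_lit 32984) (XT.lf (nat_lit 0) (nat_lit 5459526402) (nat_lit 304) (nat_lit 10824287638) (nat_lit 76) (nat_lit 9929328241) (nat_lit 101) (nat_lit 5) (nat_lit 105) (nat_lit 5) (nat_lit 102) (nat_lit 5) (nat_lit 492) (nat_lit 422) (nat_lit 286)) (XT.nd (nat_lit 78) (nat_lit 1520) (nat_lit 0) (XT.lf (nat_lit 0) (nat_lit 2051587061) (nat_lit 0) (nat_lit 2051587061) (nat_lit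 1444) (nat_lit 246571927) (nat_lit 555) (nat_lit 5) (nat_lit 555) (nat_lit 3) (nat_lit 574) (nat_lit 3) (nat_lit 423) (nat_lit 423) (nat_lit 354)) (XT.lf (nat_lit 0) (nat_lit 980708663) (nat_lit 1520) (nat_lit 6975640926) (nat_lit 1596) (nat_lit 843955693) (nat_lit 535) (nat_lit 5) (nat_lit 555) (nat_lit 5) (nat_lit 556) (nat_lit 5) (nat_lit 424) (nat_lit 423) (nat_lit 353)))) (XT.nd (nat_lit 78) (nat_lit 0) (nat_lit 76) (XT.lf (nat_lit 0) (nat_lit 2494023602) (nat_lit 1520) (nat_lit 463998520) (nat_lit 1596) (nat_lit 5946026385) (nat_lit 535) (nat_lit 5) (nat_lit 555) (nat_lit 5) (nat_lit 556) (nat_lit 5) (nat_lit 425) (nat_lit 423) (nat_lit 352)) (XT.nd (nat_lit 78) (nat_lit 0) (nat_lit 0) (XT.lf (nat_lit 0) (nat_lit 4053043469) (nat_lit 1520) (nat_lit 2730124961) (nat_lit 1596) (nat_lit 2227738982) (nat_lit 536) (nat_lit 5) (nat_lit 556) (nat_lit 5) (nat_lit 557) (nat_lit 5) (nat_lit 426) (nat_lit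 423) (nat_lit 351)) (XT.lf (nat_lit 76) (nat_lit 4116949749) (nat_lit 0) (nat_lit 1537910841) (nat_lit 1596) (nat_lit 3466200174) (nat_lit 537) (nat_lit 5) (nat_lit 536) (nat_lit 5) (nat_lit 557) (nat_lit 5) (nat_lit 427) (nat_lit 423) (nat_lit 350))))) (XT.nd (nat_lit 234) (nat_lit 0) (nat_lit 76) (XT.nd (nat_lit 78) (nat_lit 1520) (nat_lit 0) (XT.lf (nat_lit 76) (nat_lit 1941614602) (nat_lit 0) (nat_lit 5367300148) (nat_lit 1596) (nat_lit 1925529263) (nat_lit 538) (nat_lit 5) (nat_lit 537) (nat_lit 5) (nat_lit 558) (nat_lit 5) (nat_lit 428) (nat_lit 423) (nat_lit 349)) (XT.nd (nat_lit 78) (nat_lit 1596) (nat_lit 0) (XT.lf (nat_lit 0) (nat_lit 9006657385) (nat_lit 1520) (nat_lit 229129901) (nat_lit 1596) (nat_lit 115568823) (nat_lit 538) (nat_lit 5) (nat_lit 558) (nat_lit 5) (nat_lit 559) (nat_lit 5) (nat_lit 429) (nat_lit 423) (nat_lit 348)) (XT.lf (nat_lit 0) (nat_lit 1299528531) (nat_lit 1596)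 (nat_lit 2407350372) (nat_lit 1672) (nat_lit 5764082140) (nat_lit 517) (nat_lit 5) (nat_lit 538) (nat_lit 5) (nat_lit 539) (nat_lit 5) (nat_lit 430) (nat_lit 423) (nat_lit 347)))) (XT.nd (nat_lit 78) (nat_lit 0) (nat_lit 0) (XT.lf (nat_lit 0) (nat_lit 2987514790) (nat_lit 1596) (nat_lit 4591193311) (nat_lit 1672) (nat_lit 2015426178) (nat_lit 518) (nat_lit 5) (nat_lit 539) (nat_lit 5) (nat_lit 540) (nat_lit 5) (nat_lit 431) (nat_lit 423) (nat_lit 346)) (XT.nd (nat_lit 78) (nat_lit 0) (nat_lit 76) (XT.lf (nat_lit 76) (nat_lit 2929633269) (nat_lit 0) (nat_lit 1809749742) (nat_lit 1672) (nat_lit 4981362644) (nat_lit 519) (nat_lit 5) (nat_lit 518) (nat_lit 5) (nat_lit 540) (nat_lit 5) (nat_lit 432) (nat_lit 423) (nat_lit 345)) (XT.lf (nat_lit 76) (nat_lit 840166705) (nat_lit 0) (nat_lit 5721514171) (nat_lit 1672) (nat_lit 3289124592) (nat_lit 520) (nat_lit 5) (nat_lit 519) (nat_lit 5) (nat_lit 541) (nat_lit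 5) (nat_lit 433) (nat_lit 423) (nat_lit 344))))))) (XT.nd (nat_lit 936) (nat_lit 8664) (nat_lit 0) (XT.nd (nat_lit 468) (nat_lit 6916) (nat_lit 0) (XT.nd (nat_lit 234) (nat_lit 0) (nat_lit 76) (XT.nd (nat_lit 78) (nat_lit 1672) (nat_lit 0) (XT.lf (nat_lit 0) (nat_lit 8454017563) (nat_lit 1596) (nat_lit 1237047918) (nat_lit 1672) (nat_lit 293401544) (nat_lit 520) (nat_lit 5) (nat_lit 541) (nat_lit 5) (nat_lit 542) (nat_lit 5) (nat_lit 434) (nat_lit 423) (nat_lit 343)) (XT.nd (nat_lit 78) (nat_lit 0) (nat_lit 76) (XT.lf (nat_lit 0) (nat_lit 316670865) (nat_lit 1672) (nat_lit 3334643960) (nat_lit 1748) (nat_lit 6470006703) (nat_lit 498) (nat_lit 5) (nat_lit 520) (nat_lit 5) (nat_lit 521) (nat_lit 5) (nat_lit 435) (nat_lit 423) (nat_lit 342)) (XT.lf (nat_lit 0) (nat_lit 2212942705) (nat_lit 1672) (nat_lit 5452047202) (nat_lit 1748) (nat_lit 2596805610) (nat_lit 499) (nat_lit 5) (nat_lit 521) (nat_lit 5)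 (nat_lit 522) (nat_lit 5) (nat_lit 436) (nat_lit 423) (nat_lit 341)))) (XT.nd (nat_lit 78) (nat_lit 0) (nat_lit 76) (XT.lf (nat_lit 76) (nat_lit 2818317098) (nat_lit 0) (nat_lit 1371896178) (nat_lit 1748) (nat_lit 6215794828) (nat_lit 500) (nat_lit 5) (nat_lit 499) (nat_lit 5) (nat_lit 522) (nat_lit 5) (nat_lit 437) (nat_lit 423) (nat_lit 340)) (XT.nd (nat_lit 78) (nat_lit 0) (nat_lit 76) (XT.lf (nat_lit 76) (nat_lit 802199584) (nat_lit 0) (nat_lit 5459881228) (nat_lit 1748) (nat_lit 4291767078) (nat_lit 501) (nat_lit 5) (nat_lit 500) (nat_lit 5) (nat_lit 523) (nat_lit 5) (nat_lit 438) (nat_lit 423) (nat_lit 339)) (XT.lf (nat_lit 0) (nat_lit 8424375553) (nat_lit 1672) (nat_lit 1206408453) (nat_lit 76) (nat_lit 1074779652) (nat_lit 501) (nat_lit 5) (nat_lit 523) (nat_lit 5) (nat_lit 502) (nat_lit 5) (nat_lit 439) (nat_lit 423) (nat_lit 338))))) (XT.nd (nat_lit 234) (nat_lit 1976) (nat_lit 0) (XT.nd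 (nat_lit 78) (nat_lit 3496) (nat_lit 0) (XT.lf (nat_lit 0) (nat_lit 7626834342) (nat_lit 1672) (nat_lit 3072597307) (nat_lit 1748) (nat_lit 161447431) (nat_lit 479) (nat_lit 5) (nat_lit 501) (nat_lit 5) (nat_lit 502) (nat_lit 5) (nat_lit 440) (nat_lit 423) (nat_lit 337)) (XT.nd (nat_lit 78) (nat_lit 1672) (nat_lit 0) (XT.lf (nat_lit 0) (nat_lit 2027788162) (nat_lit 1824) (nat_lit 5293479511) (nat_lit 76) (nat_lit 3698681084) (nat_lit 455) (nat_lit 5) (nat_lit 479) (nat_lit 5) (nat_lit 456) (nat_lit 5) (nat_lit 441) (nat_lit 423) (nat_lit 336)) (XT.lf (nat_lit 0) (nat_lit 3812837424) (nat_lit 1672) (nat_lit 498484540) (nat_lit 1748) (nat_lit 6871836497) (nat_lit 433) (nat_lit 5) (nat_lit 455) (nat_lit 5) (nat_lit 456) (nat_lit 5) (nat_lit 442) (nat_lit 423) (nat_lit 335)))) (XT.nd (nat_lit 78) (nat_lit 988) (nat_lit 0) (XT.lf (nat_lit 0) (nat_lit 1863734251) (nat_lit 988) (nat_lit 4854551686) (nat_lit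 1064) (nat_lit 4631885448) (nat_lit 420) (nat_lit 5) (nat_lit 433) (nat_lit 5) (nat_lit 434) (nat_lit 5) (nat_lit 443) (nat_lit 423) (nat_lit 334)) (XT.nd (nat_lit 78) (nat_lit 988) (nat_lit 0) (XT.lf (nat_lit 0) (nat_lit 9230315689) (nat_lit 1064) (nat_lit 95767193) (nat_lit 76) (nat_lit 2195459932) (nat_lit 420) (nat_lit 5) (nat_lit 434) (nat_lit 5) (nat_lit 421) (nat_lit 5) (nat_lit 444) (nat_lit 423) (nat_lit 333)) (XT.lf (nat_lit 0) (nat_lit 179721175) (nat_lit 988) (nat_lit 2059028022) (nat_lit 76) (nat_lit 9458062861) (nat_lit 407) (nat_lit 5) (nat_lit 420) (nat_lit 5) (nat_lit 408) (nat_lit 5) (nat_lit 445) (nat_lit 423) (nat_lit 332)))))) (XT.nd (nat_lit 468) (nat_lit 4408) (nat_lit 0) (XT.nd (nat_lit 234) (nat_lit 1672) (nat_lit 0) (XT.nd (nat_lit 78) (nat_lit 1672) (nat_lit 0) (XT.lf (nat_lit 0) (nat_lit 2745490059) (nat_lit 988) (nat_lit 4066639369) (nat_lit 76) (nat_lit 5063875488) (nat_lit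 395) (nat_lit 5) (nat_lit 408) (nat_lit 5) (nat_lit 396) (nat_lit 5) (nat_lit 446) (nat_lit 423) (nat_lit 331)) (XT.nd (nat_lit 78) (nat_lit 836) (nat_lit 0) (XT.lf (nat_lit 0) (nat_lit 5427128242) (nat_lit 912) (nat_lit 6090135439) (nat_lit 76) (nat_lit 542536669) (nat_lit 384) (nat_lit 5) (nat_lit 396) (nat_lit 5) (nat_lit 385) (nat_lit 5) (nat_lit 447) (nat_lit 423) (nat_lit 330)) (XT.lf (nat_lit 0) (nat_lit 4090269834) (nat_lit 836) (nat_lit 4167072451) (nat_lit 912) (nat_lit 3990409403) (nat_lit 373) (nat_lit 5) (nat_lit 384) (nat_lit 5) (nat_lit 385) (nat_lit 5) (nat_lit 448) (nat_lit 423) (nat_lit 329)))) (XT.nd (nat_lit 78) (nat_lit 912) (nat_lit 0) (XT.lf (nat_lit 0) (nat_lit 2193421085) (nat_lit 760) (nat_lit 9025917377) (nat_lit 836) (nat_lit 1221070033) (nat_lit 363) (nat_lit 5) (nat_lit 373) (nat_lit 5) (nat_lit 374) (nat_lit 5) (nat_lit 449) (nat_lit 423) (nat_lit 328)) (XT.nd (nat_lit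 78) (nat_lit 0) (nat_lit 0) (XT.lf (nat_lit 0) (nat_lit 261578276) (nat_lit 836) (nat_lit 1403073262) (nat_lit 912) (nat_lit 10972891913) (nat_lit 351) (nat_lit 5) (nat_lit 362) (nat_lit 5) (nat_lit 363) (nat_lit 5) (nat_lit 450) (nat_lit 423) (nat_lit 327)) (XT.lf (nat_lit 0) (nat_lit 4702378513) (nat_lit 912) (nat_lit 1695908974) (nat_lit 76) (nat_lit 6440507182) (nat_lit 351) (nat_lit 5) (nat_lit 363) (nat_lit 5) (nat_lit 352) (nat_lit 5) (nat_lit 451) (nat_lit 423) (nat_lit 326))))) (XT.nd (nat_lit 234) (nat_lit 2128) (nat_lit 0) (XT.nd (nat_lit 78) (nat_lit 1520) (nat_lit 0) (XT.lf (nat_lit 0) (nat_lit 7882437150) (nat_lit 836) (nat_lit 3667759052) (nat_lit 76) (nat_lit 1494867211) (nat_lit 341) (nat_lit 5) (nat_lit 352) (nat_lit 5) (nat_lit 342) (nat_lit 5) (nat_lit 452) (nat_lit 423) (nat_lit 325)) (XT.nd (nat_lit 78) (nat_lit 760) (nat_lit 0) (XT.lf (nat_lit 0) (nat_lit 7574107841) (nat_lit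 760) (nat_lit 3658987786) (nat_lit 836) (nat_lit 2022924500) (nat_lit 331) (nat_lit 5) (nat_lit 341) (nat_lit 5) (nat_lit 342) (nat_lit 5) (nat_lit 453) (nat_lit 423) (nat_lit 324)) (XT.lf (nat_lit 0) (nat_lit 1259117850) (nat_lit 760) (nat_lit 7734554888) (nat_lit 76) (nat_lit 4478198609) (nat_lit 321) (nat_lit 5) (nat_lit 331) (nat_lit 5) (nat_lit 322) (nat_lit 5) (nat_lit 454) (nat_lit 423) (nat_lit 323)))) (XT.nd (nat_lit 78) (nat_lit 1368) (nat_lit 0) (XT.lf (nat_lit 0) (nat_lit 3865005850) (nat_lit 760) (nat_lit 808310426) (nat_lit 836) (nat_lit 9019394405) (nat_lit 311) (nat_lit 5) (nat_lit 321) (nat_lit 5) (nat_lit 322) (nat_lit 5) (nat_lit 455) (nat_lit 423) (nat_lit 322)) (XT.nd (nat_lit 78) (nat_lit 684) (nat_lit 0) (XT.lf (nat_lit 0) (nat_lit 1944043553) (nat_lit 684) (nat_lit 6334043685) (nat_lit 760) (nat_lit 5640328497) (nat_lit 302) (nat_lit 5) (nat_lit 311) (nat_lit 5) (nat_lit 312)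 (nat_lit 5) (nat_lit 456) (nat_lit 423) (nat_lit 321)) (XT.lf (nat_lit 0) (nat_lit 3815563) (nat_lit 684) (nat_lit 12046865998) (nat_lit 760) (nat_lit 2099020146) (nat_lit 293) (nat_lit 5) (nat_lit 302) (nat_lit 5) (nat_lit 303) (nat_lit 5) (nat_lit 457) (nat_lit 423) (nat_lit 320))))))))
noncomputable def xc82 : XT := (XT.nd (nat_lit 1794) (nat_lit 3572) (nat_lit 0) (XT.nd (nat_lit 858) (nat_lit 5244) (nat_lit 0) (XT.nd (nat_lit 390) (nat_lit 2812) (nat_lit 0) (XT.nd (nat_lit 156) (nat_lit 1976) (nat_lit 0) (XT.nd (nat_lit 78) (nat_lit 608) (nat_lit 0) (XT.lf (nat_lit 0) (nat_lit 1626476208) (nat_lit 760) (nat_lit 1964751761) (nat_lit 76) (nat_lit 10794535258) (nat_lit 292) (nat_lit 5) (nat_lit 302) (nat_lit 5) (nat_lit 293) (nat_lit 5) (nat_lit 458) (nat_lit 423) (nat_lit 319)) (XT.lf (nat_lit 0) (nat_lit 5513432479) (nat_lit 684) (nat_lit 3983529315) (nat_lit 76) (nat_lit 5130106173) (nat_lit 284)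 (nat_lit 5) (nat_lit 293) (nat_lit 5) (nat_lit 285) (nat_lit 5) (nat_lit 459) (nat_lit 423) (nat_lit 318))) (XT.nd (nat_lit 78) (nat_lit 1292) (nat_lit 0) (XT.lf (nat_lit 0) (nat_lit 8843672740) (nat_lit 684) (nat_lit 743639149) (nat_lit 760) (nat_lit 5286896696) (nat_lit 275) (nat_lit 5) (nat_lit 284) (nat_lit 5) (nat_lit 285) (nat_lit 5) (nat_lit 460) (nat_lit 423) (nat_lit 317)) (XT.nd (nat_lit 78) (nat_lit 684) (nat_lit 0) (XT.lf (nat_lit 0) (nat_lit 6989981969) (nat_lit 608) (nat_lit 6895657192) (nat_lit 684) (nat_lit 1241082568) (nat_lit 267) (nat_lit 5) (nat_lit 275) (nat_lit 5) (nat_lit 276) (nat_lit 5) (nat_lit 461) (nat_lit 423) (nat_lit 316)) (XT.lf (nat_lit 0) (nat_lit 2957411049) (nat_lit 684) (nat_lit 10288570463) (nat_lit 76) (nat_lit 2139057956) (nat_lit 258) (nat_lit 5) (nat_lit 267) (nat_lit 5) (nat_lit 259) (nat_lit 5) (nat_lit 462) (nat_lit 423) (nat_lit 315))))) (XT.nd (nat_lit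 234) (nat_lit 1596) (nat_lit 0) (XT.nd (nat_lit 78) (nat_lit 684) (nat_lit 0) (XT.lf (nat_lit 0) (nat_lit 3144933903) (nat_lit 532) (nat_lit 4218974941) (nat_lit 608) (nat_lit 8285058323) (nat_lit 251) (nat_lit 5) (nat_lit 258) (nat_lit 5) (nat_lit 259) (nat_lit 5) (nat_lit 463) (nat_lit 423) (nat_lit 314)) (XT.nd (nat_lit 78) (nat_lit 76) (nat_lit 0) (XT.lf (nat_lit 0) (nat_lit 1155052030) (nat_lit 608) (nat_lit 10835429612) (nat_lit 684) (nat_lit 3928576087) (nat_lit 243) (nat_lit 5) (nat_lit 251) (nat_lit 5) (nat_lit 252) (nat_lit 5) (nat_lit 464) (nat_lit 423) (nat_lit 313)) (XT.lf (nat_lit 0) (nat_lit 642330822) (nat_lit 684) (nat_lit 862229819) (nat_lit 76) (nat_lit 14690799211) (nat_lit 242) (nat_lit 5) (nat_lit 251) (nat_lit 5) (nat_lit 243) (nat_lit 5) (nat_lit 465) (nat_lit 423) (nat_lit 312)))) (XT.nd (nat_lit 78) (nat_lit 1064) (nat_lit 0) (XT.lf (nat_lit 0) (nat_lit 5417014461) (nat_lit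 608) (nat_lit 2951499321) (nat_lit 76) (nat_lit 8108519864) (nat_lit 235) (nat_lit 5) (nat_lit 243) (nat_lit 5) (nat_lit 236) (nat_lit 5) (nat_lit 466) (nat_lit 423) (nat_lit 311)) (XT.nd (nat_lit 78) (nat_lit 532) (nat_lit 0) (XT.lf (nat_lit 0) (nat_lit 10413924869) (nat_lit 608) (nat_lit 5069490198) (nat_lit 76) (nat_lit 1282165226) (nat_lit 228) (nat_lit 5) (nat_lit 236) (nat_lit 5) (nat_lit 229) (nat_lit 5) (nat_lit 467) (nat_lit 423) (nat_lit 310)) (XT.lf (nat_lit 0) (nat_lit 9805303853) (nat_lit 532) (nat_lit 5874207209) (nat_lit 608) (nat_lit 1380899203) (nat_lit 221) (nat_lit 5) (nat_lit 228) (nat_lit 5) (nat_lit 229) (nat_lit 5) (nat_lit 468) (nat_lit 423) (nat_lit 309)))))) (XT.nd (nat_lit 468) (nat_lit 2660) (nat_lit 0) (XT.nd (nat_lit 234) (nat_lit 988) (nat_lit 0) (XT.nd (nat_lit 78) (nat_lit 988) (nat_lit 0) (XT.lf (nat_lit 0) (nat_lit 3781808009) (nat_lit 608) (nat_lit 9506022798) (nat_lit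 76) (nat_lit 4073933680) (nat_lit 213) (nat_lit 5) (nat_lit 221) (nat_lit 5) (nat_lit 214) (nat_lit 5) (nat_lit 469) (nat_lit 423) (nat_lit 308)) (XT.nd (nat_lit 78) (nat_lit 532) (nat_lit 0) (XT.lf (nat_lit 0) (nat_lit 5847856943) (nat_lit 456) (nat_lit 3339301882) (nat_lit 532) (nat_lit 8482689610) (nat_lit 207) (nat_lit 5) (nat_lit 213) (nat_lit 5) (nat_lit 214) (nat_lit 5) (nat_lit 470) (nat_lit 423) (nat_lit 307)) (XT.lf (nat_lit 0) (nat_lit 3782986410) (nat_lit 532) (nat_lit 11085976443) (nat_lit 608) (nat_lit 3115928252) (nat_lit 200) (nat_lit 5) (nat_lit 207) (nat_lit 5) (nat_lit 208) (nat_lit 5) (nat_lit 471) (nat_lit 423) (nat_lit 306)))) (XT.nd (nat_lit 78) (nat_lit 456) (nat_lit 0) (XT.lf (nat_lit 0) (nat_lit 1665728175) (nat_lit 456) (nat_lit 808573379) (nat_lit 532) (nat_lit 15832890332) (nat_lit 193) (nat_lit 5) (nat_lit 199) (nat_lit 5) (nat_lit 200) (nat_lit 5) (nat_lit 472) (nat_lit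 423) (nat_lit 305)) (XT.nd (nat_lit 78) (nat_lit 456) (nat_lit 0) (XT.lf (nat_lit 0) (nat_lit 8331155038) (nat_lit 532) (nat_lit 546038337) (nat_lit 76) (nat_lit 9758733292) (nat_lit 193) (nat_lit 5) (nat_lit 200) (nat_lit 5) (nat_lit 194) (nat_lit 5) (nat_lit 473) (nat_lit 423) (nat_lit 304)) (XT.lf (nat_lit 0) (nat_lit 14467011024) (nat_lit 532) (nat_lit 2771450934) (nat_lit 76) (nat_lit 1733997443) (nat_lit 187) (nat_lit 5) (nat_lit 194) (nat_lit 5) (nat_lit 188) (nat_lit 5) (nat_lit 474) (nat_lit 423) (nat_lit 303))))) (XT.nd (nat_lit 234) (nat_lit 1292) (nat_lit 0) (XT.nd (nat_lit 78) (nat_lit 836) (nat_lit 0) (XT.lf (nat_lit 0) (nat_lit 1586594910) (nat_lit 532) (nat_lit 5087207620) (nat_lit 76) (nat_lit 12642336909) (nat_lit 180) (nat_lit 5) (nat_lit 187) (nat_lit 5) (nat_lit 181) (nat_lit 5) (nat_lit 475) (nat_lit 423) (nat_lit 302)) (XT.nd (nat_lit 78) (nat_lit 380) (nat_lit 0) (XT.lf (nat_lit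 0) (nat_lit 7908626125) (nat_lit 532) (nat_lit 7485166611) (nat_lit 76) (nat_lit 4273574468) (nat_lit 174) (nat_lit 5) (nat_lit 181) (nat_lit 5) (nat_lit 175) (nat_lit 5) (nat_lit 476) (nat_lit 423) (nat_lit 301)) (XT.lf (nat_lit 0) (nat_lit 10071718888) (nat_lit 380) (nat_lit 4475418442) (nat_lit 456) (nat_lit 5479459750) (nat_lit 169) (nat_lit 5) (nat_lit 174) (nat_lit 5) (nat_lit 175) (nat_lit 5) (nat_lit 477) (nat_lit 423) (nat_lit 300)))) (XT.nd (nat_lit 78) (nat_lit 760) (nat_lit 0) (XT.lf (nat_lit 0) (nat_lit 1104760668) (nat_lit 532) (nat_lit 12506136034) (nat_lit 76) (nat_lit 6782989984) (nat_lit 162) (nat_lit 5) (nat_lit 169) (nat_lit 5) (nat_lit 163) (nat_lit 5) (nat_lit 478) (nat_lit 423) (nat_lit 299)) (XT.nd (nat_lit 78) (nat_lit 380) (nat_lit 0) (XT.lf (nat_lit 0) (nat_lit 5611580159) (nat_lit 380) (nat_lit 2317797547) (nat_lit 456) (nat_lit 12839748134) (nat_lit 157) (nat_lit 5) (nat_lit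 162) (nat_lit 5) (nat_lit 163) (nat_lit 5) (nat_lit 479) (nat_lit 423) (nat_lit 298)) (XT.lf (nat_lit 0) (nat_lit 3245682665) (nat_lit 380) (nat_lit 11862810111) (nat_lit 456) (nat_lit 6044135691) (nat_lit 152) (nat_lit 5) (nat_lit 157) (nat_lit 5) (nat_lit 158) (nat_lit 5) (nat_lit 480) (nat_lit 423) (nat_lit 297))))))) (XT.nd (nat_lit 858) (nat_lit 304) (nat_lit 0) (XT.nd (nat_lit 390) (nat_lit 1672) (nat_lit 0) (XT.nd (nat_lit 156) (nat_lit 1140) (nat_lit 0) (XT.nd (nat_lit 78) (nat_lit 0) (nat_lit 0) (XT.lf (nat_lit 0) (nat_lit 825607779) (nat_lit 380) (nat_lit 224587021) (nat_lit 456) (nat_lit 20495171148) (nat_lit 146) (nat_lit 5) (nat_lit 151) (nat_lit 5) (nat_lit 152) (nat_lit 5) (nat_lit 481) (nat_lit 423) (nat_lit 296)) (XT.lf (nat_lit 0) (nat_lit 8457621882) (nat_lit 456) (nat_lit 1725402453) (nat_lit 76) (nat_lit 11762415902) (nat_lit 146) (nat_lit 5) (nat_lit 152) (nat_lit 5) (nat_lit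 147) (nat_lit 5) (nat_lit 482) (nat_lit 423) (nat_lit 295))) (XT.nd (nat_lit 78) (nat_lit 760) (nat_lit 0) (XT.lf (nat_lit 0) (nat_lit 16201912361) (nat_lit 456) (nat_lit 4318392756) (nat_lit 76) (nat_lit 1834920160) (nat_lit 141) (nat_lit 5) (nat_lit 147) (nat_lit 5) (nat_lit 142) (nat_lit 5) (nat_lit 483) (nat_lit 423) (nat_lit 294)) (XT.nd (nat_lit 78) (nat_lit 380) (nat_lit 0) (XT.lf (nat_lit 0) (nat_lit 1550226026) (nat_lit 380) (nat_lit 7031991635) (nat_lit 76) (nat_lit 14191558010) (nat_lit 136) (nat_lit 5) (nat_lit 141) (nat_lit 5) (nat_lit 137) (nat_lit 5) (nat_lit 484) (nat_lit 423) (nat_lit 293)) (XT.lf (nat_lit 0) (nat_lit 9527432200) (nat_lit 456) (nat_lit 9859108323) (nat_lit 76) (nat_lit 3815006610) (nat_lit 131) (nat_lit 5) (nat_lit 137) (nat_lit 5) (nat_lit 132) (nat_lit 5) (nat_lit 485) (nat_lit 423) (nat_lit 292))))) (XT.nd (nat_lit 234) (nat_lit 684) (nat_lit 0) (XT.nd (nat_lit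 78) (nat_lit 684) (nat_lit 0) (XT.lf (nat_lit 0) (nat_lit 10843286960) (nat_lit 304) (nat_lit 7061006299) (nat_lit 380) (nat_lit 5734652903) (nat_lit 127) (nat_lit 5) (nat_lit 131) (nat_lit 5) (nat_lit 132) (nat_lit 5) (nat_lit 486) (nat_lit 423) (nat_lit 291)) (XT.nd (nat_lit 78) (nat_lit 304) (nat_lit 0) (XT.lf (nat_lit 0) (nat_lit 2554173260) (nat_lit 380) (nat_lit 15842759587) (nat_lit 76) (nat_lit 5689353810) (nat_lit 122) (nat_lit 5) (nat_lit 127) (nat_lit 5) (nat_lit 123) (nat_lit 5) (nat_lit 487) (nat_lit 423) (nat_lit 290)) (XT.lf (nat_lit 0) (nat_lit 5505756489) (nat_lit 304) (nat_lit 5663690239) (nat_lit 380) (nat_lit 13373729748) (nat_lit 118) (nat_lit 5) (nat_lit 122) (nat_lit 5) (nat_lit 123) (nat_lit 5) (nat_lit 488) (nat_lit 423) (nat_lit 289)))) (XT.nd (nat_lit 78) (nat_lit 380) (nat_lit 0) (XT.lf (nat_lit 0) (nat_lit 2661900030) (nat_lit 304) (nat_lit 17540234596) (nat_lit 380) (nat_lit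 4808460311) (nat_lit 114) (nat_lit 5) (nat_lit 118) (nat_lit 5) (nat_lit 119) (nat_lit 5) (nat_lit 489) (nat_lit 423) (nat_lit 288)) (XT.nd (nat_lit 78) (nat_lit 304) (nat_lit 0) (XT.lf (nat_lit 0) (nat_lit 4114266669) (nat_lit 380) (nat_lit 305146787) (nat_lit 76) (nat_lit 21069039502) (nat_lit 113) (nat_lit 5) (nat_lit 118) (nat_lit 5) (nat_lit 114) (nat_lit 5) (nat_lit 490) (nat_lit 423) (nat_lit 287)) (XT.lf (nat_lit 0) (nat_lit 13432735774) (nat_lit 380) (nat_lit 3396027037) (nat_lit 76) (nat_lit 9147381456) (nat_lit 109) (nat_lit 5) (nat_lit 114) (nat_lit 5) (nat_lit 110) (nat_lit 5) (nat_lit 491) (nat_lit 423) (nat_lit 286)))))) (XT.nd (nat_lit 57564) (nat_lit 0) (nat_lit 31236) (XT.nd (nat_lit 57330) (nat_lit 0) (nat_lit 32680) (XT.nd (nat_lit 57174) (nat_lit 0) (nat_lit 32604) (XT.lf (nat_lit 0) (nat_lit 19886085311) (nat_lit 304) (nat_lit 3291464728) (nat_lit 380) (nat_lit 3297981417) (nat_lit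 105) (nat_lit 5) (nat_lit 109) (nat_lit 5) (nat_lit 110) (nat_lit 5) (nat_lit 492) (nat_lit 423) (nat_lit 285)) (XT.nd (nat_lit 78) (nat_lit 0) (nat_lit 0) (XT.lf (nat_lit 0) (nat_lit 1192602746) (nat_lit 1596) (nat_lit 1629277878) (nat_lit 1596) (nat_lit 1629277878) (nat_lit 534) (nat_lit 3) (nat_lit 555) (nat_lit 3) (nat_lit 555) (nat_lit 5) (nat_lit 424) (nat_lit 424) (nat_lit 352)) (XT.lf (nat_lit 76) (nat_lit 3333704273) (nat_lit 0) (nat_lit 482520818) (nat_lit 1596) (nat_lit 5191485720) (nat_lit 535) (nat_lit 5) (nat_lit 534) (nat_lit 3) (nat_lit 555) (nat_lit 5) (nat_lit 425) (nat_lit 424) (nat_lit 351)))) (XT.nd (nat_lit 78) (nat_lit 0) (nat_lit 76) (XT.lf (nat_lit 76) (nat_lit 1005203256) (nat_lit 0) (nat_lit 4291490145) (nat_lit 1596) (nat_lit 3819451886) (nat_lit 536) (nat_lit 5) (nat_lit 535) (nat_lit 5) (nat_lit 556) (nat_lit 5) (nat_lit 426) (nat_lit 424) (nat_lit 350)) (XT.nd (nat_lit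 78) (nat_lit 0) (nat_lit 0) (XT.lf (nat_lit 0) (nat_lit 6818258576) (nat_lit 1520) (nat_lit 1304629340) (nat_lit 1596) (nat_lit 1105020169) (nat_lit 536) (nat_lit 5) (nat_lit 556) (nat_lit 5) (nat_lit 557) (nat_lit 5) (nat_lit 427) (nat_lit 424) (nat_lit 349)) (XT.lf (nat_lit 76) (nat_lit 5723401848) (nat_lit 0) (nat_lit 2677357866) (nat_lit 1596) (nat_lit 941966960) (nat_lit 537) (nat_lit 5) (nat_lit 536) (nat_lit 5) (nat_lit 557) (nat_lit 5) (nat_lit 428) (nat_lit 424) (nat_lit 348))))) (XT.nd (nat_lit 234) (nat_lit 0) (nat_lit 152) (XT.nd (nat_lit 78) (nat_lit 0) (nat_lit 0) (XT.lf (nat_lit 0) (nat_lit 563896833) (nat_lit 1596) (nat_lit 5947821883) (nat_lit 1672) (nat_lit 2949172926) (nat_lit 516) (nat_lit 5) (nat_lit 537) (nat_lit 5) (nat_lit 538) (nat_lit 5) (nat_lit 429) (nat_lit 424) (nat_lit 347)) (XT.nd (nat_lit 78) (nat_lit 0) (nat_lit 76) (XT.lf (nat_lit 76) (nat_lit 1289748196) (nat_lit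 0) (nat_lit 815202364) (nat_lit 1672) (nat_lit 7477478266) (nat_lit 517) (nat_lit 5) (nat_lit 516) (nat_lit 5) (nat_lit 538) (nat_lit 5) (nat_lit 430) (nat_lit 424) (nat_lit 346)) (XT.lf (nat_lit 0) (nat_lit 3718712390) (nat_lit 1596) (nat_lit 944265271) (nat_lit 1672) (nat_lit 5044112727) (nat_lit 517) (nat_lit 5) (nat_lit 538) (nat_lit 5) (nat_lit 539) (nat_lit 5) (nat_lit 431) (nat_lit 424) (nat_lit 345)))) (XT.nd (nat_lit 78) (nat_lit 0) (nat_lit 0) (XT.lf (nat_lit 0) (nat_lit 5392557698) (nat_lit 1596) (nat_lit 3166473550) (nat_lit 1672) (nat_lit 1276234703) (nat_lit 518) (nat_lit 5) (nat_lit 539) (nat_lit 5) (nat_lit 540) (nat_lit 5) (nat_lit 432) (nat_lit 424) (nat_lit 344)) (XT.nd (nat_lit 78) (nat_lit 0) (nat_lit 76) (XT.lf (nat_lit 76) (nat_lit 4554628843) (nat_lit 0) (nat_lit 2584893695) (nat_lit 1672) (nat_lit 2827313505) (nat_lit 519) (nat_lit 5) (nat_lit 518) (nat_lit 5) (nat_lit 540)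 (nat_lit 5) (nat_lit 433) (nat_lit 424) (nat_lit 343)) (XT.lf (nat_lit 76) (nat_lit 2426938149) (nat_lit 0) (nat_lit 6529380219) (nat_lit 1672) (nat_lit 1145693560) (nat_lit 520) (nat_lit 5) (nat_lit 519) (nat_lit 5) (nat_lit 541) (nat_lit 5) (nat_lit 434) (nat_lit 424) (nat_lit 342))))))))
noncomputable def xc83 : XT := (XT.nd (nat_lit 1794) (nat_lit 11400) (nat_lit 0) (XT.nd (nat_lit 858) (nat_lit 8056) (nat_lit 0) (XT.nd (nat_lit 390) (nat_lit 6764) (nat_lit 0) (XT.nd (nat_lit 156) (nat_lit 0) (nat_lit 152) (XT.nd (nat_lit 78) (nat_lit 0) (nat_lit 76) (XT.lf (nat_lit 76) (nat_lit 286816018) (nat_lit 0) (nat_lit 305607784) (nat_lit 1748) (nat_lit 9648475149) (nat_lit 498) (nat_lit 5) (nat_lit 497) (nat_lit 5) (nat_lit 520) (nat_lit 5) (nat_lit 435) (nat_lit 424) (nat_lit 341)) (XT.lf (nat_lit 0) (nat_lit 2417983029) (nat_lit 1672) (nat_lit 1868788213) (nat_lit 1748) (nat_lit 6096019197) (nat_lit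 498) (nat_lit 5) (nat_lit 520) (nat_lit 5) (nat_lit 521) (nat_lit 5) (nat_lit 436) (nat_lit 424) (nat_lit 340))) (XT.nd (nat_lit 78) (nat_lit 0) (nat_lit 0) (XT.lf (nat_lit 0) (nat_lit 4316969435) (nat_lit 1672) (nat_lit 4030726929) (nat_lit 1748) (nat_lit 2180875497) (nat_lit 499) (nat_lit 5) (nat_lit 521) (nat_lit 5) (nat_lit 522) (nat_lit 5) (nat_lit 437) (nat_lit 424) (nat_lit 339)) (XT.nd (nat_lit 78) (nat_lit 0) (nat_lit 76) (XT.lf (nat_lit 76) (nat_lit 4462035477) (nat_lit 0) (nat_lit 1842297111) (nat_lit 1748) (nat_lit 4373772207) (nat_lit 500) (nat_lit 5) (nat_lit 499) (nat_lit 5) (nat_lit 522) (nat_lit 5) (nat_lit 438) (nat_lit 424) (nat_lit 338)) (XT.lf (nat_lit 76) (nat_lit 2402313742) (nat_lit 0) (nat_lit 5985654455) (nat_lit 1748) (nat_lit 2443428519) (nat_lit 501) (nat_lit 5) (nat_lit 500) (nat_lit 5) (nat_lit 523) (nat_lit 5) (nat_lit 439) (nat_lit 424) (nat_lit 337))))) (XT.nd (nat_lit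 234) (nat_lit 3572) (nat_lit 0) (XT.nd (nat_lit 78) (nat_lit 1824) (nat_lit 0) (XT.lf (nat_lit 0) (nat_lit 332109309) (nat_lit 1672) (nat_lit 10226449674) (nat_lit 1748) (nat_lit 430245346) (nat_lit 479) (nat_lit 5) (nat_lit 501) (nat_lit 5) (nat_lit 502) (nat_lit 5) (nat_lit 440) (nat_lit 424) (nat_lit 336)) (XT.nd (nat_lit 78) (nat_lit 1748) (nat_lit 0) (XT.lf (nat_lit 0) (nat_lit 1682913918) (nat_lit 1748) (nat_lit 1760280345) (nat_lit 76) (nat_lit 7706309426) (nat_lit 478) (nat_lit 5) (nat_lit 501) (nat_lit 5) (nat_lit 479) (nat_lit 5) (nat_lit 441) (nat_lit 424) (nat_lit 335)) (XT.lf (nat_lit 0) (nat_lit 3890193372) (nat_lit 1824) (nat_lit 3870023050) (nat_lit 76) (nat_lit 3554024724) (nat_lit 455) (nat_lit 5) (nat_lit 479) (nat_lit 5) (nat_lit 456) (nat_lit 5) (nat_lit 442) (nat_lit 424) (nat_lit 334)))) (XT.nd (nat_lit 78) (nat_lit 1900) (nat_lit 0) (XT.lf (nat_lit 0) (nat_lit 5483813091) (nat_lit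 1672) (nat_lit 716053558) (nat_lit 1748) (nat_lit 5283335823) (nat_lit 433) (nat_lit 5) (nat_lit 455) (nat_lit 5) (nat_lit 456) (nat_lit 5) (nat_lit 443) (nat_lit 424) (nat_lit 333)) (XT.nd (nat_lit 78) (nat_lit 912) (nat_lit 0) (XT.lf (nat_lit 0) (nat_lit 3487152752) (nat_lit 988) (nat_lit 5149547907) (nat_lit 1064) (nat_lit 3019379668) (nat_lit 420) (nat_lit 5) (nat_lit 433) (nat_lit 5) (nat_lit 434) (nat_lit 5) (nat_lit 444) (nat_lit 424) (nat_lit 332)) (XT.lf (nat_lit 0) (nat_lit 1477113383) (nat_lit 912) (nat_lit 9705621012) (nat_lit 988) (nat_lit 650693182) (nat_lit 408) (nat_lit 5) (nat_lit 420) (nat_lit 5) (nat_lit 421) (nat_lit 5) (nat_lit 445) (nat_lit 424) (nat_lit 331)))))) (XT.nd (nat_lit 468) (nat_lit 3724) (nat_lit 0) (XT.nd (nat_lit 234) (nat_lit 2508) (nat_lit 0) (XT.nd (nat_lit 78) (nat_lit 1748) (nat_lit 0) (XT.lf (nat_lit 0) (nat_lit 1823468743) (nat_lit 988) (nat_lit 567656191)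 (nat_lit 76) (nat_lit 9623585137) (nat_lit 407) (nat_lit 5) (nat_lit 420) (nat_lit 5) (nat_lit 408) (nat_lit 5) (nat_lit 446) (nat_lit 424) (nat_lit 330)) (XT.nd (nat_lit 78) (nat_lit 836) (nat_lit 0) (XT.lf (nat_lit 0) (nat_lit 4427940571) (nat_lit 988) (nat_lit 2627978917) (nat_lit 76) (nat_lit 5144131597) (nat_lit 395) (nat_lit 5) (nat_lit 408) (nat_lit 5) (nat_lit 396) (nat_lit 5) (nat_lit 447) (nat_lit 424) (nat_lit 329)) (XT.lf (nat_lit 0) (nat_lit 7153209394) (nat_lit 912) (nat_lit 4705822713) (nat_lit 76) (nat_lit 531071409) (nat_lit 384) (nat_lit 5) (nat_lit 396) (nat_lit 5) (nat_lit 385) (nat_lit 5) (nat_lit 448) (nat_lit 424) (nat_lit 328)))) (XT.nd (nat_lit 78) (nat_lit 1672) (nat_lit 0) (XT.lf (nat_lit 0) (nat_lit 5754571733) (nat_lit 836) (nat_lit 4278235118) (nat_lit 912) (nat_lit 2551603573) (nat_lit 373) (nat_lit 5) (nat_lit 384) (nat_lit 5) (nat_lit 385) (nat_lit 5) (nat_lit 449)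 (nat_lit 424) (nat_lit 327)) (XT.nd (nat_lit 78) (nat_lit 836) (nat_lit 0) (XT.lf (nat_lit 0) (nat_lit 262269377) (nat_lit 836) (nat_lit 8979273038) (nat_lit 76) (nat_lit 3541963737) (nat_lit 362) (nat_lit 5) (nat_lit 373) (nat_lit 5) (nat_lit 363) (nat_lit 5) (nat_lit 450) (nat_lit 424) (nat_lit 326)) (XT.lf (nat_lit 0) (nat_lit 1810961749) (nat_lit 836) (nat_lit 1373323954) (nat_lit 912) (nat_lit 9802787843) (nat_lit 351) (nat_lit 5) (nat_lit 362) (nat_lit 5) (nat_lit 363) (nat_lit 5) (nat_lit 451) (nat_lit 424) (nat_lit 325))))) (XT.nd (nat_lit 234) (nat_lit 2204) (nat_lit 0) (XT.nd (nat_lit 78) (nat_lit 1520) (nat_lit 0) (XT.lf (nat_lit 0) (nat_lit 6270790705) (nat_lit 912) (nat_lit 221867903) (nat_lit 76) (nat_lit 6702556661) (nat_lit 351) (nat_lit 5) (nat_lit 363) (nat_lit 5) (nat_lit 352) (nat_lit 5) (nat_lit 452) (nat_lit 424) (nat_lit 324)) (XT.nd (nat_lit 78) (nat_lit 760) (nat_lit 0) (XT.lf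 (nat_lit 0) (nat_lit 9515097809) (nat_lit 836) (nat_lit 2250192199) (nat_lit 76) (nat_lit 1643010853) (nat_lit 341) (nat_lit 5) (nat_lit 352) (nat_lit 5) (nat_lit 342) (nat_lit 5) (nat_lit 453) (nat_lit 424) (nat_lit 323)) (XT.lf (nat_lit 0) (nat_lit 9304147212) (nat_lit 760) (nat_lit 3631220452) (nat_lit 836) (nat_lit 690842336) (nat_lit 331) (nat_lit 5) (nat_lit 341) (nat_lit 5) (nat_lit 342) (nat_lit 5) (nat_lit 454) (nat_lit 424) (nat_lit 322)))) (XT.nd (nat_lit 78) (nat_lit 1444) (nat_lit 0) (XT.lf (nat_lit 0) (nat_lit 2642067051) (nat_lit 760) (nat_lit 6443937665) (nat_lit 76) (nat_lit 4762943028) (nat_lit 321) (nat_lit 5) (nat_lit 331) (nat_lit 5) (nat_lit 322) (nat_lit 5) (nat_lit 455) (nat_lit 424) (nat_lit 321)) (XT.nd (nat_lit 78) (nat_lit 684) (nat_lit 0) (XT.lf (nat_lit 0) (nat_lit 5478906646) (nat_lit 760) (nat_lit 650330599) (nat_lit 836) (nat_lit 7947769228) (nat_lit 311) (nat_lit 5)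 (nat_lit 321) (nat_lit 5) (nat_lit 322) (nat_lit 5) (nat_lit 456) (nat_lit 424) (nat_lit 320)) (XT.lf (nat_lit 0) (nat_lit 3500904885) (nat_lit 684) (nat_lit 6313802674) (nat_lit 760) (nat_lit 4495328979) (nat_lit 302) (nat_lit 5) (nat_lit 311) (nat_lit 5) (nat_lit 312) (nat_lit 5) (nat_lit 457) (nat_lit 424) (nat_lit 319))))))) (XT.nd (nat_lit 936) (nat_lit 5244) (nat_lit 0) (XT.nd (nat_lit 468) (nat_lit 2812) (nat_lit 0) (XT.nd (nat_lit 234) (nat_lit 1976) (nat_lit 0) (XT.nd (nat_lit 78) (nat_lit 684) (nat_lit 0) (XT.lf (nat_lit 0) (nat_lit 1502325968) (nat_lit 684) (nat_lit 12171685073) (nat_lit 760) (nat_lit 874784261) (nat_lit 293) (nat_lit 5) (nat_lit 302) (nat_lit 5) (nat_lit 303) (nat_lit 5) (nat_lit 458) (nat_lit 424) (nat_lit 318)) (XT.nd (nat_lit 78) (nat_lit 608) (nat_lit 0) (XT.lf (nat_lit 0) (nat_lit 2908595296) (nat_lit 760) (nat_lit 552397230) (nat_lit 76) (nat_lit 11331523594) (nat_lit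 292) (nat_lit 5) (nat_lit 302) (nat_lit 5) (nat_lit 293) (nat_lit 5) (nat_lit 459) (nat_lit 424) (nat_lit 317)) (XT.lf (nat_lit 0) (nat_lit 6887198137) (nat_lit 684) (nat_lit 2632885421) (nat_lit 76) (nat_lit 5521480157) (nat_lit 284) (nat_lit 5) (nat_lit 293) (nat_lit 5) (nat_lit 285) (nat_lit 5) (nat_lit 460) (nat_lit 424) (nat_lit 316)))) (XT.nd (nat_lit 78) (nat_lit 1292) (nat_lit 0) (XT.lf (nat_lit 0) (nat_lit 10555281262) (nat_lit 684) (nat_lit 502207966) (nat_lit 760) (nat_lit 4239149759) (nat_lit 275) (nat_lit 5) (nat_lit 284) (nat_lit 5) (nat_lit 285) (nat_lit 5) (nat_lit 461) (nat_lit 424) (nat_lit 315)) (XT.nd (nat_lit 78) (nat_lit 684) (nat_lit 0) (XT.lf (nat_lit 0) (nat_lit 8644240497) (nat_lit 608) (nat_lit 6817123923) (nat_lit 684) (nat_lit 95835358) (nat_lit 267) (nat_lit 5) (nat_lit 275) (nat_lit 5) (nat_lit 276) (nat_lit 5) (nat_lit 462) (nat_lit 424) (nat_lit 314)) (XT.lf (nat_lit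 0) (nat_lit 4190352174) (nat_lit 684) (nat_lit 9139642737) (nat_lit 76) (nat_lit 2493577650) (nat_lit 258) (nat_lit 5) (nat_lit 267) (nat_lit 5) (nat_lit 259) (nat_lit 5) (nat_lit 463) (nat_lit 424) (nat_lit 313))))) (XT.nd (nat_lit 234) (nat_lit 1064) (nat_lit 0) (XT.nd (nat_lit 78) (nat_lit 1216) (nat_lit 0) (XT.lf (nat_lit 0) (nat_lit 4673219177) (nat_lit 532) (nat_lit 4031809035) (nat_lit 608) (nat_lit 7390874105) (nat_lit 251) (nat_lit 5) (nat_lit 258) (nat_lit 5) (nat_lit 259) (nat_lit 5) (nat_lit 464) (nat_lit 424) (nat_lit 312)) (XT.nd (nat_lit 78) (nat_lit 608) (nat_lit 0) (XT.lf (nat_lit 0) (nat_lit 2620541269) (nat_lit 608) (nat_lit 10828497274) (nat_lit 684) (nat_lit 2925488028) (nat_lit 243) (nat_lit 5) (nat_lit 251) (nat_lit 5) (nat_lit 252) (nat_lit 5) (nat_lit 465) (nat_lit 424) (nat_lit 311)) (XT.lf (nat_lit 0) (nat_lit 522309436) (nat_lit 532) (nat_lit 1216705734) (nat_lit 608) (nat_lit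 14920537219) (nat_lit 235) (nat_lit 5) (nat_lit 242) (nat_lit 5) (nat_lit 243) (nat_lit 5) (nat_lit 466) (nat_lit 424) (nat_lit 310)))) (XT.nd (nat_lit 78) (nat_lit 1064) (nat_lit 0) (XT.lf (nat_lit 0) (nat_lit 6633367480) (nat_lit 608) (nat_lit 1640245364) (nat_lit 76) (nat_lit 8676538484) (nat_lit 235) (nat_lit 5) (nat_lit 243) (nat_lit 5) (nat_lit 236) (nat_lit 5) (nat_lit 467) (nat_lit 424) (nat_lit 309)) (XT.nd (nat_lit 78) (nat_lit 532) (nat_lit 0) (XT.lf (nat_lit 0) (nat_lit 11760671697) (nat_lit 608) (nat_lit 3825971144) (nat_lit 76) (nat_lit 1661105196) (nat_lit 228) (nat_lit 5) (nat_lit 236) (nat_lit 5) (nat_lit 229) (nat_lit 5) (nat_lit 468) (nat_lit 424) (nat_lit 308)) (XT.lf (nat_lit 0) (nat_lit 11472424715) (nat_lit 532) (nat_lit 5690588849) (nat_lit 608) (nat_lit 388836875) (nat_lit 221) (nat_lit 5) (nat_lit 228) (nat_lit 5) (nat_lit 229) (nat_lit 5) (nat_lit 469) (nat_lit 424) (nat_lit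 307)))))) (XT.nd (nat_lit 468) (nat_lit 2660) (nat_lit 0) (XT.nd (nat_lit 234) (nat_lit 988) (nat_lit 0) (XT.nd (nat_lit 78) (nat_lit 988) (nat_lit 0) (XT.lf (nat_lit 0) (nat_lit 4896717232) (nat_lit 608) (nat_lit 8409359923) (nat_lit 76) (nat_lit 4556406666) (nat_lit 213) (nat_lit 5) (nat_lit 221) (nat_lit 5) (nat_lit 214) (nat_lit 5) (nat_lit 470) (nat_lit 424) (nat_lit 306)) (XT.nd (nat_lit 78) (nat_lit 532) (nat_lit 0) (XT.lf (nat_lit 0) (nat_lit 7382717440) (nat_lit 456) (nat_lit 3061168828) (nat_lit 532) (nat_lit 7736333909) (nat_lit 207) (nat_lit 5) (nat_lit 213) (nat_lit 5) (nat_lit 214) (nat_lit 5) (nat_lit 471) (nat_lit 424) (nat_lit 305)) (XT.lf (nat_lit 0) (nat_lit 5250833054) (nat_lit 532) (nat_lit 11027913362) (nat_lit 608) (nat_lit 2226318627) (nat_lit 200) (nat_lit 5) (nat_lit 207) (nat_lit 5) (nat_lit 208) (nat_lit 5) (nat_lit 472) (nat_lit 424) (nat_lit 304)))) (XT.nd (nat_lit 78)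 (nat_lit 456) (nat_lit 0) (XT.lf (nat_lit 0) (nat_lit 3060863432) (nat_lit 456) (nat_lit 438336886) (nat_lit 532) (nat_lit 15338100172) (nat_lit 193) (nat_lit 5) (nat_lit 199) (nat_lit 5) (nat_lit 200) (nat_lit 5) (nat_lit 473) (nat_lit 424) (nat_lit 303)) (XT.nd (nat_lit 78) (nat_lit 0) (nat_lit 0) (XT.lf (nat_lit 0) (nat_lit 769723388) (nat_lit 456) (nat_lit 8741830877) (nat_lit 532) (nat_lit 9664749884) (nat_lit 187) (nat_lit 5) (nat_lit 193) (nat_lit 5) (nat_lit 194) (nat_lit 5) (nat_lit 474) (nat_lit 424) (nat_lit 302)) (XT.lf (nat_lit 0) (nat_lit 15810533170) (nat_lit 532) (nat_lit 1538323598) (nat_lit 76) (nat_lit 2174497802) (nat_lit 187) (nat_lit 5) (nat_lit 194) (nat_lit 5) (nat_lit 188) (nat_lit 5) (nat_lit 475) (nat_lit 424) (nat_lit 301))))) (XT.nd (nat_lit 234) (nat_lit 1292) (nat_lit 0) (XT.nd (nat_lit 78) (nat_lit 836) (nat_lit 0) (XT.lf (nat_lit 0) (nat_lit 2531609568) (nat_lit 532)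 (nat_lit 3932897598) (nat_lit 76) (nat_lit 13413083999) (nat_lit 180) (nat_lit 5) (nat_lit 187) (nat_lit 5) (nat_lit 181) (nat_lit 5) (nat_lit 476) (nat_lit 424) (nat_lit 300)) (XT.nd (nat_lit 78) (nat_lit 380) (nat_lit 0) (XT.lf (nat_lit 0) (nat_lit 9028147781) (nat_lit 532) (nat_lit 6408961139) (nat_lit 76) (nat_lit 4802552373) (nat_lit 174) (nat_lit 5) (nat_lit 181) (nat_lit 5) (nat_lit 175) (nat_lit 5) (nat_lit 477) (nat_lit 424) (nat_lit 299)) (XT.lf (nat_lit 0) (nat_lit 11653527631) (nat_lit 380) (nat_lit 4194898097) (nat_lit 456) (nat_lit 4761592487) (nat_lit 169) (nat_lit 5) (nat_lit 174) (nat_lit 5) (nat_lit 175) (nat_lit 5) (nat_lit 478) (nat_lit 424) (nat_lit 298)))) (XT.nd (nat_lit 78) (nat_lit 760) (nat_lit 0) (XT.lf (nat_lit 0) (nat_lit 1994178099) (nat_lit 532) (nat_lit 11596523439) (nat_lit 76) (nat_lit 7397800784) (nat_lit 162) (nat_lit 5) (nat_lit 169) (nat_lit 5) (nat_lit 163) (nat_lit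 5) (nat_lit 479) (nat_lit 424) (nat_lit 297)) (XT.nd (nat_lit 78) (nat_lit 380) (nat_lit 0) (XT.lf (nat_lit 0) (nat_lit 7043879940) (nat_lit 380) (nat_lit 1962920088) (nat_lit 456) (nat_lit 12368535494) (nat_lit 157) (nat_lit 5) (nat_lit 162) (nat_lit 5) (nat_lit 163) (nat_lit 5) (nat_lit 480) (nat_lit 424) (nat_lit 296)) (XT.lf (nat_lit 0) (nat_lit 4600379035) (nat_lit 380) (nat_lit 11787295559) (nat_lit 456) (nat_lit 5382943046) (nat_lit 152) (nat_lit 5) (nat_lit 157) (nat_lit 5) (nat_lit 158) (nat_lit 5) (nat_lit 481) (nat_lit 424) (nat_lit 295))))))))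
noncomputable def xc84 : XT := (XT.nd (nat_lit 58968) (nat_lit 0) (nat_lit 13908) (XT.nd (nat_lit 58032) (nat_lit 0) (nat_lit 29488) (XT.nd (nat_lit 390) (nat_lit 1672) (nat_lit 0) (XT.nd (nat_lit 156) (nat_lit 1140) (nat_lit 0) (XT.nd (nat_lit 78) (nat_lit 0) (nat_lit 0) (XT.lf (nat_lit 0) (nat_lit 1898358355) (nat_lit 456) (nat_lit 20078416059) (nat_lit 76) (nat_lit 198551645) (nat_lit 146) (nat_lit 5) (nat_lit 152) (nat_lit 5) (nat_lit 147) (nat_lit 5) (nat_lit 482) (nat_lit 424) (nat_lit 294)) (XT.lf (nat_lit 0) (nat_lit 9505680270) (nat_lit 456) (nat_lit 552472349) (nat_lit 76) (nat_lit 12529698489) (nat_lit 146) (nat_lit 5) (nat_lit 152) (nat_lit 5) (nat_lit 147) (nat_lit 5) (nat_lit 483) (nat_lit 424) (nat_lit 293))) (XT.nd (nat_lit 78) (nat_lit 760) (nat_lit 0) (XT.lf (nat_lit 0) (nat_lit 17469750775) (nat_lit 456) (nat_lit 3230242001) (nat_lit 76) (nat_lit 2310189813) (nat_lit 141) (nat_lit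 5) (nat_lit 147) (nat_lit 5) (nat_lit 142) (nat_lit 5) (nat_lit 484) (nat_lit 424) (nat_lit 292)) (XT.nd (nat_lit 78) (nat_lit 380) (nat_lit 0) (XT.lf (nat_lit 0) (nat_lit 2368660618) (nat_lit 380) (nat_lit 6034685357) (nat_lit 76) (nat_lit 15038143658) (nat_lit 136) (nat_lit 5) (nat_lit 141) (nat_lit 5) (nat_lit 137) (nat_lit 5) (nat_lit 485) (nat_lit 424) (nat_lit 291)) (XT.lf (nat_lit 0) (nat_lit 10573218827) (nat_lit 456) (nat_lit 8953817594) (nat_lit 76) (nat_lit 4355298870) (nat_lit 131) (nat_lit 5) (nat_lit 137) (nat_lit 5) (nat_lit 132) (nat_lit 5) (nat_lit 486) (nat_lit 424) (nat_lit 290))))) (XT.nd (nat_lit 234) (nat_lit 684) (nat_lit 0) (XT.nd (nat_lit 78) (nat_lit 684) (nat_lit 0) (XT.lf (nat_lit 0) (nat_lit 12350163711) (nat_lit 304) (nat_lit 6836758731) (nat_lit 380) (nat_lit 5146224832) (nat_lit 127) (nat_lit 5) (nat_lit 131) (nat_lit 5) (nat_lit 132) (nat_lit 5) (nat_lit 487) (nat_lit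 424) (nat_lit 289)) (XT.nd (nat_lit 78) (nat_lit 304) (nat_lit 0) (XT.lf (nat_lit 0) (nat_lit 3369875580) (nat_lit 380) (nat_lit 15133818406) (nat_lit 76) (nat_lit 6290345222) (nat_lit 122) (nat_lit 5) (nat_lit 127) (nat_lit 5) (nat_lit 123) (nat_lit 5) (nat_lit 488) (nat_lit 424) (nat_lit 288)) (XT.lf (nat_lit 0) (nat_lit 6835940526) (nat_lit 304) (nat_lit 5393704234) (nat_lit 380) (nat_lit 13035271798) (nat_lit 118) (nat_lit 5) (nat_lit 122) (nat_lit 5) (nat_lit 123) (nat_lit 5) (nat_lit 489) (nat_lit 424) (nat_lit 287)))) (XT.nd (nat_lit 78) (nat_lit 380) (nat_lit 0) (XT.lf (nat_lit 0) (nat_lit 3899376754) (nat_lit 304) (nat_lit 17623105646) (nat_lit 380) (nat_lit 4224093331) (nat_lit 114) (nat_lit 5) (nat_lit 118) (nat_lit 5) (nat_lit 119) (nat_lit 5) (nat_lit 490) (nat_lit 424) (nat_lit 286)) (XT.nd (nat_lit 78) (nat_lit 0) (nat_lit 0) (XT.lf (nat_lit 0) (nat_lit 829811142) (nat_lit 304) (nat_lit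 4111392373) (nat_lit 380) (nat_lit 21297783953) (nat_lit 109) (nat_lit 5) (nat_lit 113) (nat_lit 5) (nat_lit 114) (nat_lit 5) (nat_lit 491) (nat_lit 424) (nat_lit 285)) (XT.lf (nat_lit 0) (nat_lit 14523534352) (nat_lit 380) (nat_lit 2372106603) (nat_lit 76) (nat_lit 9845983830) (nat_lit 109) (nat_lit 5) (nat_lit 114) (nat_lit 5) (nat_lit 110) (nat_lit 5) (nat_lit 492) (nat_lit 424) (nat_lit 284)))))) (XT.nd (nat_lit 468) (nat_lit 1368) (nat_lit 0) (XT.nd (nat_lit 234) (nat_lit 1444) (nat_lit 0) (XT.nd (nat_lit 78) (nat_lit 0) (nat_lit 0) (XT.lf (nat_lit 0) (nat_lit 2588773873) (nat_lit 1596) (nat_lit 984238838) (nat_lit 1596) (nat_lit 984238838) (nat_lit 534) (nat_lit 3) (nat_lit 555) (nat_lit 3) (nat_lit 555) (nat_lit 5) (nat_lit 425) (nat_lit 425) (nat_lit 350)) (XT.nd (nat_lit 78) (nat_lit 0) (nat_lit 76) (XT.lf (nat_lit 76) (nat_lit 4799034185) (nat_lit 0) (nat_lit 1782082108) (nat_lit 1596) (nat_lit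 2643363682) (nat_lit 535) (nat_lit 5) (nat_lit 534) (nat_lit 3) (nat_lit 555) (nat_lit 5) (nat_lit 426) (nat_lit 425) (nat_lit 349)) (XT.lf (nat_lit 76) (nat_lit 2439330526) (nat_lit 0) (nat_lit 5590486780) (nat_lit 1596) (nat_lit 1307887029) (nat_lit 536) (nat_lit 5) (nat_lit 535) (nat_lit 5) (nat_lit 556) (nat_lit 5) (nat_lit 427) (nat_lit 425) (nat_lit 348)))) (XT.nd (nat_lit 78) (nat_lit 0) (nat_lit 0) (XT.lf (nat_lit 0) (nat_lit 59916499) (nat_lit 1596) (nat_lit 9376739103) (nat_lit 1672) (nat_lit 17806310) (nat_lit 515) (nat_lit 5) (nat_lit 536) (nat_lit 5) (nat_lit 537) (nat_lit 5) (nat_lit 428) (nat_lit 425) (nat_lit 347)) (XT.nd (nat_lit 78) (nat_lit 0) (nat_lit 76) (XT.lf (nat_lit 0) (nat_lit 1487356530) (nat_lit 1596) (nat_lit 2290890376) (nat_lit 1672) (nat_lit 5795583005) (nat_lit 515) (nat_lit 5) (nat_lit 536) (nat_lit 5) (nat_lit 537) (nat_lit 5) (nat_lit 429) (nat_lit 425) (nat_lit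 346)) (XT.lf (nat_lit 0) (nat_lit 2957268355) (nat_lit 1596) (nat_lit 4664369893) (nat_lit 1672) (nat_lit 2075155524) (nat_lit 516) (nat_lit 5) (nat_lit 537) (nat_lit 5) (nat_lit 538) (nat_lit 5) (nat_lit 430) (nat_lit 425) (nat_lit 345))))) (XT.nd (nat_lit 234) (nat_lit 1444) (nat_lit 0) (XT.nd (nat_lit 78) (nat_lit 0) (nat_lit 76) (XT.lf (nat_lit 76) (nat_lit 2766609915) (nat_lit 0) (nat_lit 1718064202) (nat_lit 1672) (nat_lit 5338512065) (nat_lit 517) (nat_lit 5) (nat_lit 516) (nat_lit 5) (nat_lit 538) (nat_lit 5) (nat_lit 431) (nat_lit 425) (nat_lit 344)) (XT.nd (nat_lit 78) (nat_lit 0) (nat_lit 76) (XT.lf (nat_lit 76) (nat_lit 480886472) (nat_lit 0) (nat_lit 5596074424) (nat_lit 1672) (nat_lit 3876035638) (nat_lit 518) (nat_lit 5) (nat_lit 517) (nat_lit 5) (nat_lit 539) (nat_lit 5) (nat_lit 432) (nat_lit 425) (nat_lit 343)) (XT.lf (nat_lit 0) (nat_lit 7736837459) (nat_lit 1596) (nat_lit 1788703537)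 (nat_lit 1672) (nat_lit 560770910) (nat_lit 518) (nat_lit 5) (nat_lit 539) (nat_lit 5) (nat_lit 540) (nat_lit 5) (nat_lit 433) (nat_lit 425) (nat_lit 342)))) (XT.nd (nat_lit 78) (nat_lit 1596) (nat_lit 0) (XT.lf (nat_lit 76) (nat_lit 6140138078) (nat_lit 0) (nat_lit 3341912144) (nat_lit 1672) (nat_lit 740872641) (nat_lit 519) (nat_lit 5) (nat_lit 518) (nat_lit 5) (nat_lit 540) (nat_lit 5) (nat_lit 434) (nat_lit 425) (nat_lit 341)) (XT.nd (nat_lit 78) (nat_lit 0) (nat_lit 0) (XT.lf (nat_lit 0) (nat_lit 921093567) (nat_lit 1672) (nat_lit 6397685991) (nat_lit 1748) (nat_lit 3044397844) (nat_lit 497) (nat_lit 5) (nat_lit 519) (nat_lit 5) (nat_lit 520) (nat_lit 5) (nat_lit 435) (nat_lit 425) (nat_lit 340)) (XT.lf (nat_lit 76) (nat_lit 1771063375) (nat_lit 0) (nat_lit 873647177) (nat_lit 1748) (nat_lit 7862400334) (nat_lit 498) (nat_lit 5) (nat_lit 497) (nat_lit 5) (nat_lit 520) (nat_lit 5) (nat_lit 436)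 (nat_lit 425) (nat_lit 339))))))) (XT.nd (nat_lit 858) (nat_lit 7828) (nat_lit 0) (XT.nd (nat_lit 390) (nat_lit 6308) (nat_lit 0) (XT.nd (nat_lit 156) (nat_lit 1520) (nat_lit 0) (XT.nd (nat_lit 78) (nat_lit 0) (nat_lit 76) (XT.lf (nat_lit 0) (nat_lit 4462255989) (nat_lit 1672) (nat_lit 448845575) (nat_lit 1748) (nat_lit 5743422623) (nat_lit 498) (nat_lit 5) (nat_lit 520) (nat_lit 5) (nat_lit 521) (nat_lit 5) (nat_lit 437) (nat_lit 425) (nat_lit 338)) (XT.lf (nat_lit 0) (nat_lit 6367148184) (nat_lit 1672) (nat_lit 2657745740) (nat_lit 1748) (nat_lit 1780815588) (nat_lit 499) (nat_lit 5) (nat_lit 521) (nat_lit 5) (nat_lit 522) (nat_lit 5) (nat_lit 438) (nat_lit 425) (nat_lit 337))) (XT.nd (nat_lit 78) (nat_lit 1596) (nat_lit 0) (XT.lf (nat_lit 76) (nat_lit 6065562736) (nat_lit 0) (nat_lit 2302169708) (nat_lit 1748) (nat_lit 2592932902) (nat_lit 500) (nat_lit 5) (nat_lit 499) (nat_lit 5) (nat_lit 522)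 (nat_lit 5) (nat_lit 439) (nat_lit 425) (nat_lit 336)) (XT.nd (nat_lit 78) (nat_lit 1672) (nat_lit 0) (XT.lf (nat_lit 76) (nat_lit 3959959713) (nat_lit 0) (nat_lit 6506421930) (nat_lit 1748) (nat_lit 653132948) (nat_lit 501) (nat_lit 5) (nat_lit 500) (nat_lit 5) (nat_lit 523) (nat_lit 5) (nat_lit 440) (nat_lit 425) (nat_lit 335)) (XT.lf (nat_lit 0) (nat_lit 1355886347) (nat_lit 1748) (nat_lit 9449532159) (nat_lit 76) (nat_lit 476968316) (nat_lit 478) (nat_lit 5) (nat_lit 501) (nat_lit 5) (nat_lit 479) (nat_lit 5) (nat_lit 441) (nat_lit 425) (nat_lit 334))))) (XT.nd (nat_lit 234) (nat_lit 2888) (nat_lit 0) (XT.nd (nat_lit 78) (nat_lit 3420) (nat_lit 0) (XT.lf (nat_lit 0) (nat_lit 3474398449) (nat_lit 1748) (nat_lit 333490239) (nat_lit 76) (nat_lit 7641013526) (nat_lit 478) (nat_lit 5) (nat_lit 501) (nat_lit 5) (nat_lit 479) (nat_lit 5) (nat_lit 442) (nat_lit 425) (nat_lit 333)) (XT.nd (nat_lit 78) (nat_lit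 1672) (nat_lit 0) (XT.lf (nat_lit 0) (nat_lit 5705053160) (nat_lit 1824) (nat_lit 2494691141) (nat_lit 76) (nat_lit 3419702123) (nat_lit 455) (nat_lit 5) (nat_lit 479) (nat_lit 5) (nat_lit 456) (nat_lit 5) (nat_lit 443) (nat_lit 425) (nat_lit 332)) (XT.lf (nat_lit 0) (nat_lit 7115563362) (nat_lit 1672) (nat_lit 928518746) (nat_lit 1748) (nat_lit 3750200713) (nat_lit 433) (nat_lit 5) (nat_lit 455) (nat_lit 5) (nat_lit 456) (nat_lit 5) (nat_lit 444) (nat_lit 425) (nat_lit 331)))) (XT.nd (nat_lit 78) (nat_lit 1900) (nat_lit 0) (XT.lf (nat_lit 0) (nat_lit 5069292524) (nat_lit 988) (nat_lit 5444820158) (nat_lit 1064) (nat_lit 1459039819) (nat_lit 420) (nat_lit 5) (nat_lit 433) (nat_lit 5) (nat_lit 434) (nat_lit 5) (nat_lit 445) (nat_lit 425) (nat_lit 330)) (XT.nd (nat_lit 78) (nat_lit 912) (nat_lit 0) (XT.lf (nat_lit 0) (nat_lit 929212826) (nat_lit 988) (nat_lit 9154746640) (nat_lit 76) (nat_lit 2072512967)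 (nat_lit 407) (nat_lit 5) (nat_lit 420) (nat_lit 5) (nat_lit 408) (nat_lit 5) (nat_lit 446) (nat_lit 425) (nat_lit 329)) (XT.lf (nat_lit 0) (nat_lit 890985486) (nat_lit 912) (nat_lit 2537279787) (nat_lit 988) (nat_lit 8915658752) (nat_lit 395) (nat_lit 5) (nat_lit 407) (nat_lit 5) (nat_lit 408) (nat_lit 5) (nat_lit 447) (nat_lit 425) (nat_lit 328)))))) (XT.nd (nat_lit 468) (nat_lit 3724) (nat_lit 0) (XT.nd (nat_lit 234) (nat_lit 2432) (nat_lit 0) (XT.nd (nat_lit 78) (nat_lit 1672) (nat_lit 0) (XT.lf (nat_lit 0) (nat_lit 6069013127) (nat_lit 988) (nat_lit 1235746898) (nat_lit 76) (nat_lit 5230908976) (nat_lit 395) (nat_lit 5) (nat_lit 408) (nat_lit 5) (nat_lit 396) (nat_lit 5) (nat_lit 448) (nat_lit 425) (nat_lit 327)) (XT.nd (nat_lit 78) (nat_lit 836) (nat_lit 0) (XT.lf (nat_lit 0) (nat_lit 8841335042) (nat_lit 912) (nat_lit 3369933780) (nat_lit 76) (nat_lit 520854659) (nat_lit 384) (nat_lit 5) (nat_lit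 396) (nat_lit 5) (nat_lit 385) (nat_lit 5) (nat_lit 449) (nat_lit 425) (nat_lit 326)) (XT.lf (nat_lit 0) (nat_lit 7380308897) (nat_lit 836) (nat_lit 4393527683) (nat_lit 912) (nat_lit 1159098883) (nat_lit 373) (nat_lit 5) (nat_lit 384) (nat_lit 5) (nat_lit 385) (nat_lit 5) (nat_lit 450) (nat_lit 425) (nat_lit 325)))) (XT.nd (nat_lit 78) (nat_lit 1596) (nat_lit 0) (XT.lf (nat_lit 0) (nat_lit 1687308278) (nat_lit 836) (nat_lit 7771642878) (nat_lit 76) (nat_lit 3679520340) (nat_lit 362) (nat_lit 5) (nat_lit 373) (nat_lit 5) (nat_lit 363) (nat_lit 5) (nat_lit 451) (nat_lit 425) (nat_lit 324)) (XT.nd (nat_lit 78) (nat_lit 760) (nat_lit 0) (XT.lf (nat_lit 0) (nat_lit 3318336247) (nat_lit 836) (nat_lit 1346806164) (nat_lit 912) (nat_lit 8683646077) (nat_lit 351) (nat_lit 5) (nat_lit 362) (nat_lit 5) (nat_lit 363) (nat_lit 5) (nat_lit 452) (nat_lit 425) (nat_lit 323)) (XT.lf (nat_lit 0) (nat_lit 1224922934)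 (nat_lit 760) (nat_lit 6587350138) (nat_lit 836) (nat_lit 5751546334) (nat_lit 341) (nat_lit 5) (nat_lit 351) (nat_lit 5) (nat_lit 352) (nat_lit 5) (nat_lit 453) (nat_lit 425) (nat_lit 322))))) (XT.nd (nat_lit 234) (nat_lit 2204) (nat_lit 0) (XT.nd (nat_lit 78) (nat_lit 1520) (nat_lit 0) (XT.lf (nat_lit 0) (nat_lit 11116591412) (nat_lit 836) (nat_lit 877788808) (nat_lit 76) (nat_lit 1789669098) (nat_lit 341) (nat_lit 5) (nat_lit 352) (nat_lit 5) (nat_lit 342) (nat_lit 5) (nat_lit 454) (nat_lit 425) (nat_lit 321)) (XT.nd (nat_lit 78) (nat_lit 684) (nat_lit 0) (XT.lf (nat_lit 0) (nat_lit 593366080) (nat_lit 836) (nat_lit 3013167403) (nat_lit 76) (nat_lit 10402472091) (nat_lit 330) (nat_lit 5) (nat_lit 341) (nat_lit 5) (nat_lit 331) (nat_lit 5) (nat_lit 455) (nat_lit 425) (nat_lit 320)) (XT.lf (nat_lit 0) (nat_lit 3989286142) (nat_lit 760) (nat_lit 5202008486) (nat_lit 76) (nat_lit 5047596292) (nat_lit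 321) (nat_lit 5) (nat_lit 331) (nat_lit 5) (nat_lit 322) (nat_lit 5) (nat_lit 456) (nat_lit 425) (nat_lit 319)))) (XT.nd (nat_lit 78) (nat_lit 1444) (nat_lit 0) (XT.lf (nat_lit 0) (nat_lit 7055235972) (nat_lit 760) (nat_lit 498072076) (nat_lit 836) (nat_lit 6921043470) (nat_lit 311) (nat_lit 5) (nat_lit 321) (nat_lit 5) (nat_lit 322) (nat_lit 5) (nat_lit 457) (nat_lit 425) (nat_lit 318)) (XT.nd (nat_lit 78) (nat_lit 760) (nat_lit 0) (XT.lf (nat_lit 0) (nat_lit 5018449729) (nat_lit 684) (nat_lit 6305024350) (nat_lit 760) (nat_lit 3391420471) (nat_lit 302) (nat_lit 5) (nat_lit 311) (nat_lit 5) (nat_lit 312) (nat_lit 5) (nat_lit 458) (nat_lit 425) (nat_lit 317)) (XT.lf (nat_lit 0) (nat_lit 308192071) (nat_lit 760) (nat_lit 12003569574) (nat_lit 76) (nat_lit 2649517425) (nat_lit 292) (nat_lit 5) (nat_lit 302) (nat_lit 5) (nat_lit 293) (nat_lit 5) (nat_lit 459) (nat_lit 425) (nat_lit 316))))))))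
noncomputable def xc85 : XT := (XT.nd (nat_lit 1794) (nat_lit 3268) (nat_lit 0) (XT.nd (nat_lit 858) (nat_lit 5168) (nat_lit 0) (XT.nd (nat_lit 390) (nat_lit 2888) (nat_lit 0) (XT.nd (nat_lit 156) (nat_lit 1976) (nat_lit 0) (XT.nd (nat_lit 78) (nat_lit 0) (nat_lit 0) (XT.lf (nat_lit 0) (nat_lit 828738519) (nat_lit 608) (nat_lit 3335022267) (nat_lit 684) (nat_lit 11049027967) (nat_lit 284) (nat_lit 5) (nat_lit 292) (nat_lit 5) (nat_lit 293) (nat_lit 5) (nat_lit 460) (nat_lit 425) (nat_lit 315)) (XT.lf (nat_lit 0) (nat_lit 8232811804) (nat_lit 684) (nat_lit 1326114821) (nat_lit 76) (nat_lit 5910963565) (nat_lit 284) (nat_lit 5) (nat_lit 293) (nat_lit 5) (nat_lit 285) (nat_lit 5) (nat_lit 461) (nat_lit 425) (nat_lit 314))) (XT.nd (nat_lit 78) (nat_lit 1292) (nat_lit 0) (XT.lf (nat_lit 0) (nat_lit 12235214599) (nat_lit 684) (nat_lit 268673622) (nat_lit 760) (nat_lit 3229220059) (nat_lit 275) (nat_lit 5)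 (nat_lit 284) (nat_lit 5) (nat_lit 285) (nat_lit 5) (nat_lit 462) (nat_lit 425) (nat_lit 313)) (XT.nd (nat_lit 78) (nat_lit 608) (nat_lit 0) (XT.lf (nat_lit 0) (nat_lit 1002566515) (nat_lit 684) (nat_lit 5743323690) (nat_lit 76) (nat_lit 9255908916) (nat_lit 266) (nat_lit 5) (nat_lit 275) (nat_lit 5) (nat_lit 267) (nat_lit 5) (nat_lit 463) (nat_lit 425) (nat_lit 312)) (XT.lf (nat_lit 0) (nat_lit 5394598692) (nat_lit 684) (nat_lit 8039918512) (nat_lit 76) (nat_lit 2842065774) (nat_lit 258) (nat_lit 5) (nat_lit 267) (nat_lit 5) (nat_lit 259) (nat_lit 5) (nat_lit 464) (nat_lit 425) (nat_lit 311))))) (XT.nd (nat_lit 234) (nat_lit 1140) (nat_lit 0) (XT.nd (nat_lit 78) (nat_lit 1216) (nat_lit 0) (XT.lf (nat_lit 0) (nat_lit 6165039145) (nat_lit 532) (nat_lit 3857037834) (nat_lit 608) (nat_lit 6535462080) (nat_lit 251) (nat_lit 5) (nat_lit 258) (nat_lit 5) (nat_lit 259) (nat_lit 5) (nat_lit 465) (nat_lit 425)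 (nat_lit 310)) (XT.nd (nat_lit 78) (nat_lit 608) (nat_lit 0) (XT.lf (nat_lit 0) (nat_lit 4047859249) (nat_lit 608) (nat_lit 10840414851) (nat_lit 684) (nat_lit 1956654175) (nat_lit 243) (nat_lit 5) (nat_lit 251) (nat_lit 5) (nat_lit 252) (nat_lit 5) (nat_lit 466) (nat_lit 425) (nat_lit 309)) (XT.lf (nat_lit 0) (nat_lit 1878546622) (nat_lit 532) (nat_lit 933712776) (nat_lit 608) (nat_lit 14326545004) (nat_lit 235) (nat_lit 5) (nat_lit 242) (nat_lit 5) (nat_lit 243) (nat_lit 5) (nat_lit 467) (nat_lit 425) (nat_lit 308)))) (XT.nd (nat_lit 78) (nat_lit 1140) (nat_lit 0) (XT.lf (nat_lit 0) (nat_lit 7825716214) (nat_lit 608) (nat_lit 370007974) (nat_lit 76) (nat_lit 9242954937) (nat_lit 235) (nat_lit 5) (nat_lit 243) (nat_lit 5) (nat_lit 236) (nat_lit 5) (nat_lit 468) (nat_lit 425) (nat_lit 307)) (XT.nd (nat_lit 78) (nat_lit 608) (nat_lit 0) (XT.lf (nat_lit 0) (nat_lit 13088446209) (nat_lit 608) (nat_lit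 2625259883) (nat_lit 76) (nat_lit 2031868706) (nat_lit 228) (nat_lit 5) (nat_lit 236) (nat_lit 5) (nat_lit 229) (nat_lit 5) (nat_lit 469) (nat_lit 425) (nat_lit 306)) (XT.lf (nat_lit 0) (nat_lit 566137143) (nat_lit 608) (nat_lit 4952182268) (nat_lit 76) (nat_lit 12540809362) (nat_lit 220) (nat_lit 5) (nat_lit 228) (nat_lit 5) (nat_lit 221) (nat_lit 5) (nat_lit 470) (nat_lit 425) (nat_lit 305)))))) (XT.nd (nat_lit 468) (nat_lit 2660) (nat_lit 0) (XT.nd (nat_lit 234) (nat_lit 988) (nat_lit 0) (XT.nd (nat_lit 78) (nat_lit 988) (nat_lit 0) (XT.lf (nat_lit 0) (nat_lit 5987586118) (nat_lit 608) (nat_lit 7359120635) (nat_lit 76) (nat_lit 5032673732) (nat_lit 213) (nat_lit 5) (nat_lit 221) (nat_lit 5) (nat_lit 214) (nat_lit 5) (nat_lit 471) (nat_lit 425) (nat_lit 304)) (XT.nd (nat_lit 78) (nat_lit 532) (nat_lit 0) (XT.lf (nat_lit 0) (nat_lit 8885587208) (nat_lit 456) (nat_lit 2796408444) (nat_lit 532) (nat_lit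 7025039639) (nat_lit 207) (nat_lit 5) (nat_lit 213) (nat_lit 5) (nat_lit 214) (nat_lit 5) (nat_lit 472) (nat_lit 425) (nat_lit 303)) (XT.lf (nat_lit 0) (nat_lit 6684969461) (nat_lit 532) (nat_lit 10990532859) (nat_lit 608) (nat_lit 1366453955) (nat_lit 200) (nat_lit 5) (nat_lit 207) (nat_lit 5) (nat_lit 208) (nat_lit 5) (nat_lit 473) (nat_lit 425) (nat_lit 302)))) (XT.nd (nat_lit 78) (nat_lit 456) (nat_lit 0) (XT.lf (nat_lit 0) (nat_lit 4420634863) (nat_lit 456) (nat_lit 79638850) (nat_lit 532) (nat_lit 14884135467) (nat_lit 193) (nat_lit 5) (nat_lit 199) (nat_lit 5) (nat_lit 200) (nat_lit 5) (nat_lit 474) (nat_lit 425) (nat_lit 301)) (XT.nd (nat_lit 78) (nat_lit 0) (nat_lit 0) (XT.lf (nat_lit 0) (nat_lit 2055532720) (nat_lit 456) (nat_lit 8621908000) (nat_lit 532) (nat_lit 9056455953) (nat_lit 187) (nat_lit 5) (nat_lit 193) (nat_lit 5) (nat_lit 194) (nat_lit 5) (nat_lit 475) (nat_lit 425) (nat_lit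 300)) (XT.lf (nat_lit 0) (nat_lit 17142151282) (nat_lit 532) (nat_lit 343761774) (nat_lit 76) (nat_lit 2605912806) (nat_lit 187) (nat_lit 5) (nat_lit 194) (nat_lit 5) (nat_lit 188) (nat_lit 5) (nat_lit 476) (nat_lit 425) (nat_lit 299))))) (XT.nd (nat_lit 234) (nat_lit 1292) (nat_lit 0) (XT.nd (nat_lit 78) (nat_lit 836) (nat_lit 0) (XT.lf (nat_lit 0) (nat_lit 3453459270) (nat_lit 532) (nat_lit 2818981188) (nat_lit 76) (nat_lit 14184481122) (nat_lit 180) (nat_lit 5) (nat_lit 187) (nat_lit 5) (nat_lit 181) (nat_lit 5) (nat_lit 477) (nat_lit 425) (nat_lit 298)) (XT.nd (nat_lit 78) (nat_lit 380) (nat_lit 0) (XT.lf (nat_lit 0) (nat_lit 10130609589) (nat_lit 532) (nat_lit 5375138476) (nat_lit 76) (nat_lit 5324393738) (nat_lit 174) (nat_lit 5) (nat_lit 181) (nat_lit 5) (nat_lit 175) (nat_lit 5) (nat_lit 478) (nat_lit 425) (nat_lit 297)) (XT.lf (nat_lit 0) (nat_lit 13209333080) (nat_lit 380) (nat_lit 3929772377)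 (nat_lit 456) (nat_lit 4072834026) (nat_lit 169) (nat_lit 5) (nat_lit 174) (nat_lit 5) (nat_lit 175) (nat_lit 5) (nat_lit 479) (nat_lit 425) (nat_lit 296)))) (XT.nd (nat_lit 78) (nat_lit 760) (nat_lit 0) (XT.lf (nat_lit 0) (nat_lit 2861124387) (nat_lit 532) (nat_lit 10733375052) (nat_lit 76) (nat_lit 8007444395) (nat_lit 162) (nat_lit 5) (nat_lit 169) (nat_lit 5) (nat_lit 163) (nat_lit 5) (nat_lit 480) (nat_lit 425) (nat_lit 295)) (XT.nd (nat_lit 78) (nat_lit 380) (nat_lit 0) (XT.lf (nat_lit 0) (nat_lit 8446592677) (nat_lit 380) (nat_lit 1621759255) (nat_lit 456) (nat_lit 11932347630) (nat_lit 157) (nat_lit 5) (nat_lit 162) (nat_lit 5) (nat_lit 163) (nat_lit 5) (nat_lit 481) (nat_lit 425) (nat_lit 294)) (XT.lf (nat_lit 0) (nat_lit 5923540646) (nat_lit 380) (nat_lit 11734279631) (nat_lit 456) (nat_lit 4750278527) (nat_lit 152) (nat_lit 5) (nat_lit 157) (nat_lit 5) (nat_lit 158) (nat_lit 5) (nat_lit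 482) (nat_lit 425) (nat_lit 293))))))) (XT.nd (nat_lit 58188) (nat_lit 0) (nat_lit 29412) (XT.nd (nat_lit 468) (nat_lit 1368) (nat_lit 0) (XT.nd (nat_lit 234) (nat_lit 1064) (nat_lit 0) (XT.nd (nat_lit 78) (nat_lit 380) (nat_lit 0) (XT.lf (nat_lit 0) (nat_lit 2726503019) (nat_lit 456) (nat_lit 19491747010) (nat_lit 76) (nat_lit 606848106) (nat_lit 146) (nat_lit 5) (nat_lit 152) (nat_lit 5) (nat_lit 147) (nat_lit 5) (nat_lit 483) (nat_lit 425) (nat_lit 292)) (XT.nd (nat_lit 78) (nat_lit 0) (nat_lit 0) (XT.lf (nat_lit 0) (nat_lit 593122220) (nat_lit 380) (nat_lit 9950311356) (nat_lit 456) (nat_lit 12706939440) (nat_lit 141) (nat_lit 5) (nat_lit 146) (nat_lit 5) (nat_lit 147) (nat_lit 5) (nat_lit 484) (nat_lit 425) (nat_lit 291)) (XT.lf (nat_lit 0) (nat_lit 18730746911) (nat_lit 456) (nat_lit 2179347830) (nat_lit 76) (nat_lit 2775595090) (nat_lit 141) (nat_lit 5) (nat_lit 147) (nat_lit 5) (nat_lit 142)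 (nat_lit 5) (nat_lit 485) (nat_lit 425) (nat_lit 290)))) (XT.nd (nat_lit 78) (nat_lit 684) (nat_lit 0) (XT.lf (nat_lit 0) (nat_lit 3167336433) (nat_lit 380) (nat_lit 5076819303) (nat_lit 76) (nat_lit 15885969001) (nat_lit 136) (nat_lit 5) (nat_lit 141) (nat_lit 5) (nat_lit 137) (nat_lit 5) (nat_lit 486) (nat_lit 425) (nat_lit 289)) (XT.nd (nat_lit 78) (nat_lit 304) (nat_lit 0) (XT.lf (nat_lit 0) (nat_lit 11606754028) (nat_lit 456) (nat_lit 8090314129) (nat_lit 76) (nat_lit 4887354822) (nat_lit 131) (nat_lit 5) (nat_lit 137) (nat_lit 5) (nat_lit 132) (nat_lit 5) (nat_lit 487) (nat_lit 425) (nat_lit 288)) (XT.lf (nat_lit 0) (nat_lit 13834419346) (nat_lit 304) (nat_lit 6630816383) (nat_lit 380) (nat_lit 4583797873) (nat_lit 127) (nat_lit 5) (nat_lit 131) (nat_lit 5) (nat_lit 132) (nat_lit 5) (nat_lit 488) (nat_lit 425) (nat_lit 287))))) (XT.nd (nat_lit 234) (nat_lit 380) (nat_lit 0) (XT.nd (nat_lit 78)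 (nat_lit 608) (nat_lit 0) (XT.lf (nat_lit 0) (nat_lit 4167622920) (nat_lit 380) (nat_lit 14471588290) (nat_lit 76) (nat_lit 6884664776) (nat_lit 122) (nat_lit 5) (nat_lit 127) (nat_lit 5) (nat_lit 123) (nat_lit 5) (nat_lit 489) (nat_lit 425) (nat_lit 286)) (XT.nd (nat_lit 78) (nat_lit 304) (nat_lit 0) (XT.lf (nat_lit 0) (nat_lit 8139153666) (nat_lit 304) (nat_lit 5140870521) (nat_lit 380) (nat_lit 12729120184) (nat_lit 118) (nat_lit 5) (nat_lit 122) (nat_lit 5) (nat_lit 123) (nat_lit 5) (nat_lit 490) (nat_lit 425) (nat_lit 285)) (XT.lf (nat_lit 0) (nat_lit 5107525672) (nat_lit 304) (nat_lit 17733912127) (nat_lit 380) (nat_lit 3664021157) (nat_lit 114) (nat_lit 5) (nat_lit 118) (nat_lit 5) (nat_lit 119) (nat_lit 5) (nat_lit 491) (nat_lit 425) (nat_lit 284)))) (XT.nd (nat_lit 57330) (nat_lit 0) (nat_lit 32300) (XT.lf (nat_lit 0) (nat_lit 1937078207) (nat_lit 304) (nat_lit 3817435045) (nat_lit 380) (nat_lit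 21258296270) (nat_lit 109) (nat_lit 5) (nat_lit 113) (nat_lit 5) (nat_lit 114) (nat_lit 5) (nat_lit 492) (nat_lit 425) (nat_lit 283)) (XT.nd (nat_lit 78) (nat_lit 0) (nat_lit 0) (XT.lf (nat_lit 0) (nat_lit 3948738008) (nat_lit 1596) (nat_lit 359682322) (nat_lit 1596) (nat_lit 359682322) (nat_lit 534) (nat_lit 3) (nat_lit 555) (nat_lit 3) (nat_lit 555) (nat_lit 5) (nat_lit 426) (nat_lit 426) (nat_lit 348)) (XT.lf (nat_lit 76) (nat_lit 6229949110) (nat_lit 0) (nat_lit 3046861061) (nat_lit 1596) (nat_lit 174010986) (nat_lit 535) (nat_lit 5) (nat_lit 534) (nat_lit 3) (nat_lit 555) (nat_lit 5) (nat_lit 427) (nat_lit 426) (nat_lit 347)))))) (XT.nd (nat_lit 468) (nat_lit 1368) (nat_lit 0) (XT.nd (nat_lit 234) (nat_lit 0) (nat_lit 152) (XT.nd (nat_lit 78) (nat_lit 0) (nat_lit 0) (XT.lf (nat_lit 0) (nat_lit 1113475606) (nat_lit 1596) (nat_lit 5740328452) (nat_lit 1672) (nat_lit 2714940312) (nat_lit 514) (nat_lit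 5) (nat_lit 535) (nat_lit 5) (nat_lit 536) (nat_lit 5) (nat_lit 428) (nat_lit 426) (nat_lit 346)) (XT.nd (nat_lit 78) (nat_lit 0) (nat_lit 76) (XT.lf (nat_lit 76) (nat_lit 1414424172) (nat_lit 0) (nat_lit 1027610108) (nat_lit 1672) (nat_lit 7248059556) (nat_lit 515) (nat_lit 5) (nat_lit 514) (nat_lit 5) (nat_lit 536) (nat_lit 5) (nat_lit 429) (nat_lit 426) (nat_lit 345)) (XT.lf (nat_lit 0) (nat_lit 3836490196) (nat_lit 1596) (nat_lit 1011031129) (nat_lit 1672) (nat_lit 4967049216) (nat_lit 515) (nat_lit 5) (nat_lit 536) (nat_lit 5) (nat_lit 537) (nat_lit 5) (nat_lit 430) (nat_lit 426) (nat_lit 344)))) (XT.nd (nat_lit 78) (nat_lit 0) (nat_lit 0) (XT.lf (nat_lit 0) (nat_lit 5286022805) (nat_lit 1596) (nat_lit 3426332617) (nat_lit 1672) (nat_lit 1230168612) (nat_lit 516) (nat_lit 5) (nat_lit 537) (nat_lit 5) (nat_lit 538) (nat_lit 5) (nat_lit 431) (nat_lit 426) (nat_lit 343)) (XT.nd (nat_lit 78) (nat_lit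 0) (nat_lit 76) (XT.lf (nat_lit 76) (nat_lit 4205220685) (nat_lit 0) (nat_lit 2597587812) (nat_lit 1672) (nat_lit 3271039424) (nat_lit 517) (nat_lit 5) (nat_lit 516) (nat_lit 5) (nat_lit 538) (nat_lit 5) (nat_lit 432) (nat_lit 426) (nat_lit 342)) (XT.lf (nat_lit 76) (nat_lit 1877540378) (nat_lit 0) (nat_lit 6505478779) (nat_lit 1672) (nat_lit 1825740864) (nat_lit 518) (nat_lit 5) (nat_lit 517) (nat_lit 5) (nat_lit 539) (nat_lit 5) (nat_lit 433) (nat_lit 426) (nat_lit 341))))) (XT.nd (nat_lit 234) (nat_lit 0) (nat_lit 76) (XT.nd (nat_lit 78) (nat_lit 1596) (nat_lit 0) (XT.lf (nat_lit 76) (nat_lit 9892380843) (nat_lit 0) (nat_lit 134654432) (nat_lit 1672) (nat_lit 320362948) (nat_lit 518) (nat_lit 5) (nat_lit 517) (nat_lit 5) (nat_lit 539) (nat_lit 5) (nat_lit 434) (nat_lit 426) (nat_lit 340)) (XT.nd (nat_lit 78) (nat_lit 0) (nat_lit 76) (XT.lf (nat_lit 0) (nat_lit 1266688601) (nat_lit 1672) (nat_lit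 2807447946) (nat_lit 1748) (nat_lit 6414852754) (nat_lit 496) (nat_lit 5) (nat_lit 518) (nat_lit 5) (nat_lit 519) (nat_lit 5) (nat_lit 435) (nat_lit 426) (nat_lit 339)) (XT.lf (nat_lit 0) (nat_lit 2914680921) (nat_lit 1672) (nat_lit 5175743217) (nat_lit 1748) (nat_lit 2544014201) (nat_lit 497) (nat_lit 5) (nat_lit 519) (nat_lit 5) (nat_lit 520) (nat_lit 5) (nat_lit 436) (nat_lit 426) (nat_lit 338)))) (XT.nd (nat_lit 78) (nat_lit 0) (nat_lit 76) (XT.lf (nat_lit 76) (nat_lit 3215130215) (nat_lit 0) (nat_lit 1426646261) (nat_lit 1748) (nat_lit 6141887134) (nat_lit 498) (nat_lit 5) (nat_lit 497) (nat_lit 5) (nat_lit 520) (nat_lit 5) (nat_lit 437) (nat_lit 426) (nat_lit 337)) (XT.nd (nat_lit 78) (nat_lit 0) (nat_lit 76) (XT.lf (nat_lit 76) (nat_lit 941312017) (nat_lit 0) (nat_lit 5519471175) (nat_lit 1748) (nat_lit 4475786336) (nat_lit 499) (nat_lit 5) (nat_lit 498) (nat_lit 5) (nat_lit 521) (nat_lit 5)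 (nat_lit 438) (nat_lit 426) (nat_lit 336)) (XT.lf (nat_lit 0) (nat_lit 8368577999) (nat_lit 1672) (nat_lit 1329331260) (nat_lit 1748) (nat_lit 1395474693) (nat_lit 499) (nat_lit 5) (nat_lit 521) (nat_lit 5) (nat_lit 522) (nat_lit 5) (nat_lit 439) (nat_lit 426) (nat_lit 335))))))))
noncomputable def xc86 : XT := (XT.nd (nat_lit 1794) (nat_lit 10868) (nat_lit 0) (XT.nd (nat_lit 858) (nat_lit 7600) (nat_lit 0) (XT.nd (nat_lit 390) (nat_lit 5396) (nat_lit 0) (XT.nd (nat_lit 156) (nat_lit 1672) (nat_lit 0) (XT.nd (nat_lit 78) (nat_lit 1672) (nat_lit 0) (XT.lf (nat_lit 76) (nat_lit 7632830962) (nat_lit 0) (nat_lit 2752612576) (nat_lit 1748) (nat_lit 868428052) (nat_lit 500) (nat_lit 5) (nat_lit 499) (nat_lit 5) (nat_lit 522) (nat_lit 5) (nat_lit 440) (nat_lit 426) (nat_lit 334)) (XT.lf (nat_lit 0) (nat_lit 1069677860) (nat_lit 1748) (nat_lit 5946370316) (nat_lit 1824) (nat_lit 4402200929) (nat_lit 477) (nat_lit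 5) (nat_lit 500) (nat_lit 5) (nat_lit 501) (nat_lit 5) (nat_lit 441) (nat_lit 426) (nat_lit 333))) (XT.nd (nat_lit 78) (nat_lit 1748) (nat_lit 0) (XT.lf (nat_lit 0) (nat_lit 3086851398) (nat_lit 1748) (nat_lit 8296514709) (nat_lit 76) (nat_lit 203427673) (nat_lit 478) (nat_lit 5) (nat_lit 501) (nat_lit 5) (nat_lit 479) (nat_lit 5) (nat_lit 442) (nat_lit 426) (nat_lit 332)) (XT.nd (nat_lit 78) (nat_lit 0) (nat_lit 0) (XT.lf (nat_lit 0) (nat_lit 1065138038) (nat_lit 1748) (nat_lit 4161464705) (nat_lit 1824) (nat_lit 6532555755) (nat_lit 455) (nat_lit 5) (nat_lit 478) (nat_lit 5) (nat_lit 479) (nat_lit 5) (nat_lit 443) (nat_lit 426) (nat_lit 331)) (XT.lf (nat_lit 0) (nat_lit 7476877756) (nat_lit 1824) (nat_lit 1163713607) (nat_lit 76) (nat_lit 3295180978) (nat_lit 455) (nat_lit 5) (nat_lit 479) (nat_lit 5) (nat_lit 456) (nat_lit 5) (nat_lit 444) (nat_lit 426) (nat_lit 330))))) (XT.nd (nat_lit 234) (nat_lit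 1748) (nat_lit 0) (XT.nd (nat_lit 78) (nat_lit 1976) (nat_lit 0) (XT.lf (nat_lit 0) (nat_lit 8712040800) (nat_lit 1672) (nat_lit 1136394650) (nat_lit 1748) (nat_lit 2268178328) (nat_lit 433) (nat_lit 5) (nat_lit 455) (nat_lit 5) (nat_lit 456) (nat_lit 5) (nat_lit 445) (nat_lit 426) (nat_lit 329)) (XT.nd (nat_lit 78) (nat_lit 912) (nat_lit 0) (XT.lf (nat_lit 0) (nat_lit 52641020) (nat_lit 1064) (nat_lit 5687874626) (nat_lit 76) (nat_lit 6561086229) (nat_lit 419) (nat_lit 5) (nat_lit 433) (nat_lit 5) (nat_lit 420) (nat_lit 5) (nat_lit 446) (nat_lit 426) (nat_lit 328)) (XT.lf (nat_lit 0) (nat_lit 2456416978) (nat_lit 988) (nat_lit 8008043477) (nat_lit 76) (nat_lit 2026500666) (nat_lit 407) (nat_lit 5) (nat_lit 420) (nat_lit 5) (nat_lit 408) (nat_lit 5) (nat_lit 447) (nat_lit 426) (nat_lit 327)))) (XT.nd (nat_lit 78) (nat_lit 836) (nat_lit 0) (XT.lf (nat_lit 0) (nat_lit 2316000970) (nat_lit 912) (nat_lit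 2679848887) (nat_lit 988) (nat_lit 7688884603) (nat_lit 395) (nat_lit 5) (nat_lit 407) (nat_lit 5) (nat_lit 408) (nat_lit 5) (nat_lit 448) (nat_lit 426) (nat_lit 326)) (XT.nd (nat_lit 78) (nat_lit 0) (nat_lit 0) (XT.lf (nat_lit 0) (nat_lit 115318995) (nat_lit 836) (nat_lit 7558168771) (nat_lit 912) (nat_lit 5209596857) (nat_lit 384) (nat_lit 5) (nat_lit 395) (nat_lit 5) (nat_lit 396) (nat_lit 5) (nat_lit 449) (nat_lit 426) (nat_lit 325)) (XT.lf (nat_lit 0) (nat_lit 10495517845) (nat_lit 912) (nat_lit 2078757672) (nat_lit 76) (nat_lit 511832460) (nat_lit 384) (nat_lit 5) (nat_lit 396) (nat_lit 5) (nat_lit 385) (nat_lit 5) (nat_lit 450) (nat_lit 426) (nat_lit 324)))))) (XT.nd (nat_lit 468) (nat_lit 3496) (nat_lit 0) (XT.nd (nat_lit 234) (nat_lit 1596) (nat_lit 0) (XT.nd (nat_lit 78) (nat_lit 1596) (nat_lit 0) (XT.lf (nat_lit 0) (nat_lit 188348258) (nat_lit 912) (nat_lit 4323416232) (nat_lit 76) (nat_lit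 8781792117) (nat_lit 372) (nat_lit 5) (nat_lit 384) (nat_lit 5) (nat_lit 373) (nat_lit 5) (nat_lit 451) (nat_lit 426) (nat_lit 323)) (XT.nd (nat_lit 78) (nat_lit 836) (nat_lit 0) (XT.lf (nat_lit 0) (nat_lit 3073746943) (nat_lit 836) (nat_lit 6612570135) (nat_lit 76) (nat_lit 3819407026) (nat_lit 362) (nat_lit 5) (nat_lit 373) (nat_lit 5) (nat_lit 363) (nat_lit 5) (nat_lit 452) (nat_lit 426) (nat_lit 322)) (XT.lf (nat_lit 0) (nat_lit 4787521215) (nat_lit 836) (nat_lit 1323380101) (nat_lit 912) (nat_lit 7612054977) (nat_lit 351) (nat_lit 5) (nat_lit 362) (nat_lit 5) (nat_lit 363) (nat_lit 5) (nat_lit 453) (nat_lit 426) (nat_lit 321)))) (XT.nd (nat_lit 78) (nat_lit 836) (nat_lit 0) (XT.lf (nat_lit 0) (nat_lit 2634546329) (nat_lit 760) (nat_lit 6689182401) (nat_lit 836) (nat_lit 4621288989) (nat_lit 341) (nat_lit 5) (nat_lit 351) (nat_lit 5) (nat_lit 352) (nat_lit 5) (nat_lit 454) (nat_lit 426) (nat_lit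 320)) (XT.nd (nat_lit 78) (nat_lit 76) (nat_lit 0) (XT.lf (nat_lit 0) (nat_lit 459151867) (nat_lit 760) (nat_lit 12234412956) (nat_lit 836) (nat_lit 1478967025) (nat_lit 331) (nat_lit 5) (nat_lit 341) (nat_lit 5) (nat_lit 342) (nat_lit 5) (nat_lit 455) (nat_lit 426) (nat_lit 319)) (XT.lf (nat_lit 0) (nat_lit 1832395594) (nat_lit 836) (nat_lit 1751938993) (nat_lit 76) (nat_lit 10820355307) (nat_lit 330) (nat_lit 5) (nat_lit 341) (nat_lit 5) (nat_lit 331) (nat_lit 5) (nat_lit 456) (nat_lit 426) (nat_lit 318))))) (XT.nd (nat_lit 234) (nat_lit 1368) (nat_lit 0) (XT.nd (nat_lit 78) (nat_lit 1444) (nat_lit 0) (XT.lf (nat_lit 0) (nat_lit 5304135882) (nat_lit 760) (nat_lit 4005210498) (nat_lit 76) (nat_lit 5332651265) (nat_lit 321) (nat_lit 5) (nat_lit 331) (nat_lit 5) (nat_lit 322) (nat_lit 5) (nat_lit 457) (nat_lit 426) (nat_lit 317)) (XT.nd (nat_lit 78) (nat_lit 684) (nat_lit 0) (XT.lf (nat_lit 0) (nat_lit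 8597802776) (nat_lit 760) (nat_lit 351106008) (nat_lit 836) (nat_lit 5936141231) (nat_lit 311) (nat_lit 5) (nat_lit 321) (nat_lit 5) (nat_lit 322) (nat_lit 5) (nat_lit 458) (nat_lit 426) (nat_lit 316)) (XT.lf (nat_lit 0) (nat_lit 6500436624) (nat_lit 684) (nat_lit 6307359731) (nat_lit 760) (nat_lit 2325505080) (nat_lit 302) (nat_lit 5) (nat_lit 311) (nat_lit 5) (nat_lit 312) (nat_lit 5) (nat_lit 459) (nat_lit 426) (nat_lit 315)))) (XT.nd (nat_lit 78) (nat_lit 608) (nat_lit 0) (XT.lf (nat_lit 0) (nat_lit 1446104738) (nat_lit 760) (nat_lit 11017231407) (nat_lit 76) (nat_lit 2924067477) (nat_lit 292) (nat_lit 5) (nat_lit 302) (nat_lit 5) (nat_lit 293) (nat_lit 5) (nat_lit 460) (nat_lit 426) (nat_lit 314)) (XT.nd (nat_lit 78) (nat_lit 0) (nat_lit 0) (XT.lf (nat_lit 0) (nat_lit 2178201455) (nat_lit 608) (nat_lit 3214865453) (nat_lit 684) (nat_lit 10253881251) (nat_lit 284) (nat_lit 5) (nat_lit 292) (nat_lit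 5) (nat_lit 293) (nat_lit 5) (nat_lit 461) (nat_lit 426) (nat_lit 313)) (XT.lf (nat_lit 0) (nat_lit 9553410751) (nat_lit 684) (nat_lit 59689233) (nat_lit 76) (nat_lit 6299282201) (nat_lit 284) (nat_lit 5) (nat_lit 293) (nat_lit 5) (nat_lit 285) (nat_lit 5) (nat_lit 462) (nat_lit 426) (nat_lit 312))))))) (XT.nd (nat_lit 858) (nat_lit 5016) (nat_lit 0) (XT.nd (nat_lit 390) (nat_lit 2736) (nat_lit 0) (XT.nd (nat_lit 156) (nat_lit 1748) (nat_lit 0) (XT.nd (nat_lit 78) (nat_lit 684) (nat_lit 0) (XT.lf (nat_lit 0) (nat_lit 13887288380) (nat_lit 684) (nat_lit 42403939) (nat_lit 760) (nat_lit 2254266900) (nat_lit 275) (nat_lit 5) (nat_lit 284) (nat_lit 5) (nat_lit 285) (nat_lit 5) (nat_lit 463) (nat_lit 426) (nat_lit 311)) (XT.lf (nat_lit 0) (nat_lit 2069482355) (nat_lit 684) (nat_lit 4618249966) (nat_lit 76) (nat_lit 9773261627) (nat_lit 266) (nat_lit 5) (nat_lit 275) (nat_lit 5) (nat_lit 267) (nat_lit 5)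 (nat_lit 464) (nat_lit 426) (nat_lit 310))) (XT.nd (nat_lit 78) (nat_lit 1140) (nat_lit 0) (XT.lf (nat_lit 0) (nat_lit 6573060230) (nat_lit 684) (nat_lit 6986070816) (nat_lit 76) (nat_lit 3185298144) (nat_lit 258) (nat_lit 5) (nat_lit 267) (nat_lit 5) (nat_lit 259) (nat_lit 5) (nat_lit 465) (nat_lit 426) (nat_lit 309)) (XT.nd (nat_lit 78) (nat_lit 608) (nat_lit 0) (XT.lf (nat_lit 0) (nat_lit 7624025000) (nat_lit 532) (nat_lit 3693999349) (nat_lit 608) (nat_lit 5716219837) (nat_lit 251) (nat_lit 5) (nat_lit 258) (nat_lit 5) (nat_lit 259) (nat_lit 5) (nat_lit 466) (nat_lit 426) (nat_lit 308)) (XT.lf (nat_lit 0) (nat_lit 5440575771) (nat_lit 608) (nat_lit 10870653838) (nat_lit 684) (nat_lit 1019408382) (nat_lit 243) (nat_lit 5) (nat_lit 251) (nat_lit 5) (nat_lit 252) (nat_lit 5) (nat_lit 467) (nat_lit 426) (nat_lit 307))))) (XT.nd (nat_lit 234) (nat_lit 1596) (nat_lit 0) (XT.nd (nat_lit 78) (nat_lit 532)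 (nat_lit 0) (XT.lf (nat_lit 0) (nat_lit 3198516841) (nat_lit 532) (nat_lit 660570300) (nat_lit 608) (nat_lit 13774525602) (nat_lit 235) (nat_lit 5) (nat_lit 242) (nat_lit 5) (nat_lit 243) (nat_lit 5) (nat_lit 468) (nat_lit 426) (nat_lit 306)) (XT.nd (nat_lit 78) (nat_lit 0) (nat_lit 0) (XT.lf (nat_lit 0) (nat_lit 874058444) (nat_lit 532) (nat_lit 8128429710) (nat_lit 608) (nat_lit 8940407848) (nat_lit 228) (nat_lit 5) (nat_lit 235) (nat_lit 5) (nat_lit 236) (nat_lit 5) (nat_lit 469) (nat_lit 426) (nat_lit 305)) (XT.lf (nat_lit 0) (nat_lit 14400087589) (nat_lit 608) (nat_lit 1464041815) (nat_lit 76) (nat_lit 2395332407) (nat_lit 228) (nat_lit 5) (nat_lit 236) (nat_lit 5) (nat_lit 229) (nat_lit 5) (nat_lit 470) (nat_lit 426) (nat_lit 304)))) (XT.nd (nat_lit 78) (nat_lit 988) (nat_lit 0) (XT.lf (nat_lit 0) (nat_lit 1489320210) (nat_lit 608) (nat_lit 3868750466) (nat_lit 76) (nat_lit 13224612347) (nat_lit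 220) (nat_lit 5) (nat_lit 228) (nat_lit 5) (nat_lit 221) (nat_lit 5) (nat_lit 471) (nat_lit 426) (nat_lit 303)) (XT.nd (nat_lit 78) (nat_lit 456) (nat_lit 0) (XT.lf (nat_lit 0) (nat_lit 7056993483) (nat_lit 608) (nat_lit 6352144149) (nat_lit 76) (nat_lit 5503735823) (nat_lit 213) (nat_lit 5) (nat_lit 221) (nat_lit 5) (nat_lit 214) (nat_lit 5) (nat_lit 472) (nat_lit 426) (nat_lit 302)) (XT.lf (nat_lit 0) (nat_lit 10359986142) (nat_lit 456) (nat_lit 2544175287) (nat_lit 532) (nat_lit 6346560659) (nat_lit 207) (nat_lit 5) (nat_lit 213) (nat_lit 5) (nat_lit 214) (nat_lit 5) (nat_lit 473) (nat_lit 426) (nat_lit 301)))))) (XT.nd (nat_lit 468) (nat_lit 2508) (nat_lit 0) (XT.nd (nat_lit 234) (nat_lit 988) (nat_lit 0) (XT.nd (nat_lit 78) (nat_lit 988) (nat_lit 0) (XT.lf (nat_lit 0) (nat_lit 8088847243) (nat_lit 532) (nat_lit 10973168155) (nat_lit 608) (nat_lit 533987087) (nat_lit 200) (nat_lit 5) (nat_lit 207)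 (nat_lit 5) (nat_lit 208) (nat_lit 5) (nat_lit 474) (nat_lit 426) (nat_lit 300)) (XT.nd (nat_lit 78) (nat_lit 456) (nat_lit 0) (XT.lf (nat_lit 0) (nat_lit 5481682770) (nat_lit 532) (nat_lit 14202293936) (nat_lit 76) (nat_lit 264953430) (nat_lit 193) (nat_lit 5) (nat_lit 200) (nat_lit 5) (nat_lit 194) (nat_lit 5) (nat_lit 475) (nat_lit 426) (nat_lit 299)) (XT.lf (nat_lit 0) (nat_lit 3307431175) (nat_lit 456) (nat_lit 8520326007) (nat_lit 532) (nat_lit 8481475650) (nat_lit 187) (nat_lit 5) (nat_lit 193) (nat_lit 5) (nat_lit 194) (nat_lit 5) (nat_lit 476) (nat_lit 426) (nat_lit 298)))) (XT.nd (nat_lit 78) (nat_lit 532) (nat_lit 0) (XT.lf (nat_lit 0) (nat_lit 826251423) (nat_lit 456) (nat_lit 17643618437) (nat_lit 532) (nat_lit 2208363176) (nat_lit 181) (nat_lit 5) (nat_lit 187) (nat_lit 5) (nat_lit 188) (nat_lit 5) (nat_lit 477) (nat_lit 426) (nat_lit 297)) (XT.nd (nat_lit 78) (nat_lit 456) (nat_lit 0)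 (XT.lf (nat_lit 0) (nat_lit 4354406262) (nat_lit 532) (nat_lit 1742363578) (nat_lit 76) (nat_lit 14957837785) (nat_lit 180) (nat_lit 5) (nat_lit 187) (nat_lit 5) (nat_lit 181) (nat_lit 5) (nat_lit 478) (nat_lit 426) (nat_lit 296)) (XT.lf (nat_lit 0) (nat_lit 11218407012) (nat_lit 532) (nat_lit 4380683800) (nat_lit 76) (nat_lit 5840205100) (nat_lit 174) (nat_lit 5) (nat_lit 181) (nat_lit 5) (nat_lit 175) (nat_lit 5) (nat_lit 479) (nat_lit 426) (nat_lit 295))))) (XT.nd (nat_lit 234) (nat_lit 1216) (nat_lit 0) (XT.nd (nat_lit 78) (nat_lit 912) (nat_lit 0) (XT.lf (nat_lit 0) (nat_lit 14742571900) (nat_lit 380) (nat_lit 3679136316) (nat_lit 456) (nat_lit 3411150411) (nat_lit 169) (nat_lit 5) (nat_lit 174) (nat_lit 5) (nat_lit 175) (nat_lit 5) (nat_lit 480) (nat_lit 426) (nat_lit 294)) (XT.nd (nat_lit 78) (nat_lit 380) (nat_lit 0) (XT.lf (nat_lit 0) (nat_lit 3707747019) (nat_lit 532) (nat_lit 9913851098)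 (nat_lit 76) (nat_lit 8613121197) (nat_lit 162) (nat_lit 5) (nat_lit 169) (nat_lit 5) (nat_lit 163) (nat_lit 5) (nat_lit 481) (nat_lit 426) (nat_lit 293)) (XT.lf (nat_lit 0) (nat_lit 9822995773) (nat_lit 380) (nat_lit 1293328014) (nat_lit 456) (nat_lit 11529413233) (nat_lit 157) (nat_lit 5) (nat_lit 162) (nat_lit 5) (nat_lit 163) (nat_lit 5) (nat_lit 482) (nat_lit 426) (nat_lit 292)))) (XT.nd (nat_lit 78) (nat_lit 836) (nat_lit 0) (XT.lf (nat_lit 0) (nat_lit 7218364633) (nat_lit 380) (nat_lit 11703015725) (nat_lit 456) (nat_lit 4144221694) (nat_lit 152) (nat_lit 5) (nat_lit 157) (nat_lit 5) (nat_lit 158) (nat_lit 5) (nat_lit 483) (nat_lit 426) (nat_lit 291)) (XT.nd (nat_lit 78) (nat_lit 380) (nat_lit 0) (XT.lf (nat_lit 0) (nat_lit 3535222338) (nat_lit 456) (nat_lit 18955732589) (nat_lit 76) (nat_lit 1004297505) (nat_lit 146) (nat_lit 5) (nat_lit 152) (nat_lit 5) (nat_lit 147) (nat_lit 5) (nat_lit 484)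 (nat_lit 426) (nat_lit 290)) (XT.lf (nat_lit 0) (nat_lit 1713499607) (nat_lit 380) (nat_lit 9859147359) (nat_lit 456) (nat_lit 12360920622) (nat_lit 141) (nat_lit 5) (nat_lit 146) (nat_lit 5) (nat_lit 147) (nat_lit 5) (nat_lit 485) (nat_lit 426) (nat_lit 289))))))))
noncomputable def xc87 : XT := (XT.nd (nat_lit 59124) (nat_lit 0) (nat_lit 10944) (XT.nd (nat_lit 58188) (nat_lit 0) (nat_lit 27512) (XT.nd (nat_lit 390) (nat_lit 608) (nat_lit 0) (XT.nd (nat_lit 156) (nat_lit 1064) (nat_lit 0) (XT.nd (nat_lit 78) (nat_lit 380) (nat_lit 0) (XT.lf (nat_lit 0) (nat_lit 19987271649) (nat_lit 456) (nat_lit 1162815332) (nat_lit 76) (nat_lit 3232224790) (nat_lit 141) (nat_lit 5) (nat_lit 147) (nat_lit 5) (nat_lit 142) (nat_lit 5) (nat_lit 486) (nat_lit 426) (nat_lit 288)) (XT.lf (nat_lit 0) (nat_lit 3948204388) (nat_lit 380) (nat_lit 4155595166) (nat_lit 76) (nat_lit 16736457990) (nat_lit 136) (nat_lit 5) (nat_lit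 141) (nat_lit 5) (nat_lit 137) (nat_lit 5) (nat_lit 487) (nat_lit 426) (nat_lit 287))) (XT.nd (nat_lit 78) (nat_lit 684) (nat_lit 0) (XT.lf (nat_lit 0) (nat_lit 12630174518) (nat_lit 456) (nat_lit 7265893764) (nat_lit 76) (nat_lit 5412330624) (nat_lit 131) (nat_lit 5) (nat_lit 137) (nat_lit 5) (nat_lit 132) (nat_lit 5) (nat_lit 488) (nat_lit 426) (nat_lit 286)) (XT.nd (nat_lit 78) (nat_lit 380) (nat_lit 0) (XT.lf (nat_lit 0) (nat_lit 15299268802) (nat_lit 304) (nat_lit 6442291435) (nat_lit 380) (nat_lit 4045646145) (nat_lit 127) (nat_lit 5) (nat_lit 131) (nat_lit 5) (nat_lit 132) (nat_lit 5) (nat_lit 489) (nat_lit 426) (nat_lit 285)) (XT.lf (nat_lit 0) (nat_lit 4949312058) (nat_lit 380) (nat_lit 13853568280) (nat_lit 76) (nat_lit 7473530289) (nat_lit 122) (nat_lit 5) (nat_lit 127) (nat_lit 5) (nat_lit 123) (nat_lit 5) (nat_lit 490) (nat_lit 426) (nat_lit 284))))) (XT.nd (nat_lit 57564) (nat_lit 0)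 (nat_lit 30324) (XT.nd (nat_lit 78) (nat_lit 304) (nat_lit 0) (XT.lf (nat_lit 0) (nat_lit 9418425764) (nat_lit 304) (nat_lit 4904254106) (nat_lit 380) (nat_lit 12453806715) (nat_lit 118) (nat_lit 5) (nat_lit 122) (nat_lit 5) (nat_lit 123) (nat_lit 5) (nat_lit 491) (nat_lit 426) (nat_lit 283)) (XT.nd (nat_lit 57408) (nat_lit 0) (nat_lit 30324) (XT.lf (nat_lit 0) (nat_lit 6289281573) (nat_lit 304) (nat_lit 17872031208) (nat_lit 380) (nat_lit 3126571658) (nat_lit 114) (nat_lit 5) (nat_lit 118) (nat_lit 5) (nat_lit 119) (nat_lit 5) (nat_lit 492) (nat_lit 426) (nat_lit 282)) (XT.lf (nat_lit 0) (nat_lit 244444968) (nat_lit 0) (nat_lit 244444968) (nat_lit 1596) (nat_lit 4294745956) (nat_lit 513) (nat_lit 5) (nat_lit 513) (nat_lit 3) (nat_lit 534) (nat_lit 3) (nat_lit 427) (nat_lit 427) (nat_lit 346)))) (XT.nd (nat_lit 78) (nat_lit 0) (nat_lit 76) (XT.lf (nat_lit 0) (nat_lit 2193962538) (nat_lit 1596) (nat_lit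 2071363680) (nat_lit 1672) (nat_lit 5421230457) (nat_lit 513) (nat_lit 5) (nat_lit 534) (nat_lit 3) (nat_lit 535) (nat_lit 5) (nat_lit 428) (nat_lit 427) (nat_lit 345)) (XT.nd (nat_lit 78) (nat_lit 0) (nat_lit 0) (XT.lf (nat_lit 0) (nat_lit 3449577092) (nat_lit 1596) (nat_lit 4634142462) (nat_lit 1672) (nat_lit 1725649197) (nat_lit 514) (nat_lit 5) (nat_lit 535) (nat_lit 5) (nat_lit 536) (nat_lit 5) (nat_lit 429) (nat_lit 427) (nat_lit 344)) (XT.lf (nat_lit 76) (nat_lit 2714512288) (nat_lit 0) (nat_lit 2044576921) (nat_lit 1672) (nat_lit 5176458743) (nat_lit 515) (nat_lit 5) (nat_lit 514) (nat_lit 5) (nat_lit 536) (nat_lit 5) (nat_lit 430) (nat_lit 427) (nat_lit 343)))))) (XT.nd (nat_lit 468) (nat_lit 1444) (nat_lit 0) (XT.nd (nat_lit 234) (nat_lit 1520) (nat_lit 0) (XT.nd (nat_lit 78) (nat_lit 0) (nat_lit 76) (XT.lf (nat_lit 76) (nat_lit 232863592) (nat_lit 0) (nat_lit 5892457714) (nat_lit 1672) (nat_lit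 3939849661) (nat_lit 516) (nat_lit 5) (nat_lit 515) (nat_lit 5) (nat_lit 537) (nat_lit 5) (nat_lit 431) (nat_lit 427) (nat_lit 342)) (XT.nd (nat_lit 78) (nat_lit 0) (nat_lit 0) (XT.lf (nat_lit 0) (nat_lit 7556052636) (nat_lit 1596) (nat_lit 2230255245) (nat_lit 1672) (nat_lit 411911471) (nat_lit 516) (nat_lit 5) (nat_lit 537) (nat_lit 5) (nat_lit 538) (nat_lit 5) (nat_lit 432) (nat_lit 427) (nat_lit 341)) (XT.lf (nat_lit 76) (nat_lit 5609172077) (nat_lit 0) (nat_lit 3455967594) (nat_lit 1672) (nat_lit 1269417564) (nat_lit 517) (nat_lit 5) (nat_lit 516) (nat_lit 5) (nat_lit 538) (nat_lit 5) (nat_lit 433) (nat_lit 427) (nat_lit 340)))) (XT.nd (nat_lit 78) (nat_lit 0) (nat_lit 0) (XT.lf (nat_lit 0) (nat_lit 159571811) (nat_lit 1672) (nat_lit 7238956240) (nat_lit 1748) (nat_lit 3076105776) (nat_lit 495) (nat_lit 5) (nat_lit 517) (nat_lit 5) (nat_lit 518) (nat_lit 5) (nat_lit 434) (nat_lit 427) (nat_lit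 339)) (XT.nd (nat_lit 78) (nat_lit 0) (nat_lit 76) (XT.lf (nat_lit 76) (nat_lit 835687568) (nat_lit 0) (nat_lit 800812132) (nat_lit 1748) (nat_lit 8981805107) (nat_lit 496) (nat_lit 5) (nat_lit 495) (nat_lit 5) (nat_lit 518) (nat_lit 5) (nat_lit 435) (nat_lit 427) (nat_lit 338)) (XT.lf (nat_lit 0) (nat_lit 3208524912) (nat_lit 1672) (nat_lit 1578761742) (nat_lit 1748) (nat_lit 5977989503) (nat_lit 496) (nat_lit 5) (nat_lit 518) (nat_lit 5) (nat_lit 519) (nat_lit 5) (nat_lit 436) (nat_lit 427) (nat_lit 337))))) (XT.nd (nat_lit 234) (nat_lit 1596) (nat_lit 0) (XT.nd (nat_lit 78) (nat_lit 0) (nat_lit 0) (XT.lf (nat_lit 0) (nat_lit 4855222062) (nat_lit 1672) (nat_lit 3998304274) (nat_lit 1748) (nat_lit 2062585943) (nat_lit 497) (nat_lit 5) (nat_lit 519) (nat_lit 5) (nat_lit 520) (nat_lit 5) (nat_lit 437) (nat_lit 427) (nat_lit 336)) (XT.nd (nat_lit 78) (nat_lit 0) (nat_lit 76) (XT.lf (nat_lit 76) (nat_lit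 4622673704) (nat_lit 0) (nat_lit 1965995436) (nat_lit 1748) (nat_lit 4482063052) (nat_lit 498) (nat_lit 5) (nat_lit 497) (nat_lit 5) (nat_lit 520) (nat_lit 5) (nat_lit 438) (nat_lit 427) (nat_lit 335)) (XT.lf (nat_lit 76) (nat_lit 2298391825) (nat_lit 0) (nat_lit 6116702226) (nat_lit 1748) (nat_lit 2814082681) (nat_lit 499) (nat_lit 5) (nat_lit 498) (nat_lit 5) (nat_lit 521) (nat_lit 5) (nat_lit 439) (nat_lit 427) (nat_lit 334)))) (XT.nd (nat_lit 78) (nat_lit 1748) (nat_lit 0) (XT.lf (nat_lit 0) (nat_lit 10326125460) (nat_lit 1672) (nat_lit 41897734) (nat_lit 1748) (nat_lit 1023760498) (nat_lit 499) (nat_lit 5) (nat_lit 521) (nat_lit 5) (nat_lit 522) (nat_lit 5) (nat_lit 440) (nat_lit 427) (nat_lit 333)) (XT.nd (nat_lit 78) (nat_lit 0) (nat_lit 76) (XT.lf (nat_lit 0) (nat_lit 793803727) (nat_lit 1748) (nat_lit 2395545516) (nat_lit 1824) (nat_lit 8368464701) (nat_lit 476) (nat_lit 5) (nat_lit 499) (nat_lit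 5) (nat_lit 500) (nat_lit 5) (nat_lit 441) (nat_lit 427) (nat_lit 332)) (XT.lf (nat_lit 0) (nat_lit 2735835368) (nat_lit 1748) (nat_lit 4782878666) (nat_lit 1824) (nat_lit 4209149865) (nat_lit 477) (nat_lit 5) (nat_lit 500) (nat_lit 5) (nat_lit 501) (nat_lit 5) (nat_lit 442) (nat_lit 427) (nat_lit 331))))))) (XT.nd (nat_lit 936) (nat_lit 7068) (nat_lit 0) (XT.nd (nat_lit 468) (nat_lit 4256) (nat_lit 0) (XT.nd (nat_lit 234) (nat_lit 1976) (nat_lit 0) (XT.nd (nat_lit 78) (nat_lit 3344) (nat_lit 0) (XT.lf (nat_lit 76) (nat_lit 4710505810) (nat_lit 0) (nat_lit 62616666) (nat_lit 1824) (nat_lit 7129157791) (nat_lit 478) (nat_lit 5) (nat_lit 477) (nat_lit 5) (nat_lit 501) (nat_lit 5) (nat_lit 443) (nat_lit 427) (nat_lit 330)) (XT.nd (nat_lit 78) (nat_lit 1672) (nat_lit 0) (XT.lf (nat_lit 0) (nat_lit 2429166694) (nat_lit 1748) (nat_lit 4509736229) (nat_lit 1824) (nat_lit 5141683380) (nat_lit 455) (nat_lit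 5) (nat_lit 478) (nat_lit 5) (nat_lit 479) (nat_lit 5) (nat_lit 444) (nat_lit 427) (nat_lit 329)) (XT.lf (nat_lit 0) (nat_lit 128174565) (nat_lit 1672) (nat_lit 9082629541) (nat_lit 1748) (nat_lit 3052618997) (nat_lit 433) (nat_lit 5) (nat_lit 455) (nat_lit 5) (nat_lit 456) (nat_lit 5) (nat_lit 445) (nat_lit 427) (nat_lit 328)))) (XT.nd (nat_lit 78) (nat_lit 1976) (nat_lit 0) (XT.lf (nat_lit 0) (nat_lit 10277022099) (nat_lit 1672) (nat_lit 1340172928) (nat_lit 1748) (nat_lit 833227726) (nat_lit 433) (nat_lit 5) (nat_lit 455) (nat_lit 5) (nat_lit 456) (nat_lit 5) (nat_lit 446) (nat_lit 427) (nat_lit 327)) (XT.nd (nat_lit 78) (nat_lit 912) (nat_lit 0) (XT.lf (nat_lit 0) (nat_lit 1501804753) (nat_lit 1064) (nat_lit 4526298681) (nat_lit 76) (nat_lit 6613382254) (nat_lit 419) (nat_lit 5) (nat_lit 433) (nat_lit 5) (nat_lit 420) (nat_lit 5) (nat_lit 447) (nat_lit 427) (nat_lit 326)) (XT.lf (nat_lit 0) (nat_lit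 3943369706) (nat_lit 988) (nat_lit 6908530269) (nat_lit 76) (nat_lit 1985318412) (nat_lit 407) (nat_lit 5) (nat_lit 420) (nat_lit 5) (nat_lit 408) (nat_lit 5) (nat_lit 448) (nat_lit 427) (nat_lit 325))))) (XT.nd (nat_lit 234) (nat_lit 2508) (nat_lit 0) (XT.nd (nat_lit 78) (nat_lit 836) (nat_lit 0) (XT.lf (nat_lit 0) (nat_lit 3703499586) (nat_lit 912) (nat_lit 2822880518) (nat_lit 988) (nat_lit 6511082942) (nat_lit 395) (nat_lit 5) (nat_lit 407) (nat_lit 5) (nat_lit 408) (nat_lit 5) (nat_lit 449) (nat_lit 427) (nat_lit 324)) (XT.nd (nat_lit 78) (nat_lit 0) (nat_lit 0) (XT.lf (nat_lit 0) (nat_lit 1443176151) (nat_lit 836) (nat_lit 7809161791) (nat_lit 912) (nat_lit 3990071792) (nat_lit 384) (nat_lit 5) (nat_lit 395) (nat_lit 5) (nat_lit 396) (nat_lit 5) (nat_lit 450) (nat_lit 427) (nat_lit 323)) (XT.lf (nat_lit 0) (nat_lit 12119595137) (nat_lit 912) (nat_lit 828768512) (nat_lit 76) (nat_lit 503954482)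 (nat_lit 384) (nat_lit 5) (nat_lit 396) (nat_lit 5) (nat_lit 385) (nat_lit 5) (nat_lit 451) (nat_lit 427) (nat_lit 322)))) (XT.nd (nat_lit 78) (nat_lit 1596) (nat_lit 0) (XT.lf (nat_lit 0) (nat_lit 1482114705) (nat_lit 912) (nat_lit 3144760039) (nat_lit 76) (nat_lit 9039546485) (nat_lit 372) (nat_lit 5) (nat_lit 384) (nat_lit 5) (nat_lit 373) (nat_lit 5) (nat_lit 452) (nat_lit 427) (nat_lit 321)) (XT.nd (nat_lit 78) (nat_lit 836) (nat_lit 0) (XT.lf (nat_lit 0) (nat_lit 4425097269) (nat_lit 836) (nat_lit 5498644450) (nat_lit 76) (nat_lit 3961796829) (nat_lit 362) (nat_lit 5) (nat_lit 373) (nat_lit 5) (nat_lit 363) (nat_lit 5) (nat_lit 453) (nat_lit 427) (nat_lit 320)) (XT.lf (nat_lit 0) (nat_lit 6222159087) (nat_lit 836) (nat_lit 1302915374) (nat_lit 912) (nat_lit 6584784162) (nat_lit 351) (nat_lit 5) (nat_lit 362) (nat_lit 5) (nat_lit 363) (nat_lit 5) (nat_lit 454) (nat_lit 427) (nat_lit 319))))))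 (XT.nd (nat_lit 468) (nat_lit 3344) (nat_lit 0) (XT.nd (nat_lit 234) (nat_lit 2128) (nat_lit 0) (XT.nd (nat_lit 78) (nat_lit 836) (nat_lit 0) (XT.lf (nat_lit 0) (nat_lit 4007649743) (nat_lit 760) (nat_lit 6799568270) (nat_lit 836) (nat_lit 3531910187) (nat_lit 341) (nat_lit 5) (nat_lit 351) (nat_lit 5) (nat_lit 352) (nat_lit 5) (nat_lit 455) (nat_lit 427) (nat_lit 318)) (XT.nd (nat_lit 78) (nat_lit 76) (nat_lit 0) (XT.lf (nat_lit 0) (nat_lit 1769268823) (nat_lit 760) (nat_lit 12482804748) (nat_lit 836) (nat_lit 321920486) (nat_lit 331) (nat_lit 5) (nat_lit 341) (nat_lit 5) (nat_lit 342) (nat_lit 5) (nat_lit 456) (nat_lit 427) (nat_lit 317)) (XT.lf (nat_lit 0) (nat_lit 3038492480) (nat_lit 836) (nat_lit 530462445) (nat_lit 76) (nat_lit 11244701148) (nat_lit 330) (nat_lit 5) (nat_lit 341) (nat_lit 5) (nat_lit 331) (nat_lit 5) (nat_lit 457) (nat_lit 427) (nat_lit 316)))) (XT.nd (nat_lit 78) (nat_lit 1444)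 (nat_lit 0) (XT.lf (nat_lit 0) (nat_lit 6589823401) (nat_lit 760) (nat_lit 2850168168) (nat_lit 76) (nat_lit 5618587146) (nat_lit 321) (nat_lit 5) (nat_lit 331) (nat_lit 5) (nat_lit 322) (nat_lit 5) (nat_lit 458) (nat_lit 427) (nat_lit 315)) (XT.nd (nat_lit 78) (nat_lit 684) (nat_lit 0) (XT.lf (nat_lit 0) (nat_lit 10110246921) (nat_lit 760) (nat_lit 209025153) (nat_lit 836) (nat_lit 4990148230) (nat_lit 311) (nat_lit 5) (nat_lit 321) (nat_lit 5) (nat_lit 322) (nat_lit 5) (nat_lit 459) (nat_lit 427) (nat_lit 314)) (XT.lf (nat_lit 0) (nat_lit 7950453402) (nat_lit 684) (nat_lit 6320489138) (nat_lit 760) (nat_lit 1294640573) (nat_lit 302) (nat_lit 5) (nat_lit 311) (nat_lit 5) (nat_lit 312) (nat_lit 5) (nat_lit 460) (nat_lit 427) (nat_lit 313))))) (XT.nd (nat_lit 234) (nat_lit 1292) (nat_lit 0) (XT.nd (nat_lit 78) (nat_lit 1292) (nat_lit 0) (XT.lf (nat_lit 0) (nat_lit 2553364688) (nat_lit 760) (nat_lit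 10078594560) (nat_lit 76) (nat_lit 3195656529) (nat_lit 292) (nat_lit 5) (nat_lit 302) (nat_lit 5) (nat_lit 293) (nat_lit 5) (nat_lit 461) (nat_lit 427) (nat_lit 312)) (XT.nd (nat_lit 78) (nat_lit 684) (nat_lit 0) (XT.lf (nat_lit 0) (nat_lit 3492110775) (nat_lit 608) (nat_lit 3103744746) (nat_lit 684) (nat_lit 9499552590) (nat_lit 284) (nat_lit 5) (nat_lit 292) (nat_lit 5) (nat_lit 293) (nat_lit 5) (nat_lit 462) (nat_lit 427) (nat_lit 311)) (XT.lf (nat_lit 0) (nat_lit 1185292706) (nat_lit 684) (nat_lit 9674400798) (nat_lit 760) (nat_lit 5509541722) (nat_lit 275) (nat_lit 5) (nat_lit 284) (nat_lit 5) (nat_lit 285) (nat_lit 5) (nat_lit 463) (nat_lit 427) (nat_lit 310)))) (XT.nd (nat_lit 78) (nat_lit 1292) (nat_lit 0) (XT.lf (nat_lit 0) (nat_lit 15339107296) (nat_lit 760) (nat_lit 1135540734) (nat_lit 76) (nat_lit 174878299) (nat_lit 275) (nat_lit 5) (nat_lit 285) (nat_lit 5) (nat_lit 276) (nat_lit 5)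 (nat_lit 464) (nat_lit 427) (nat_lit 309)) (XT.nd (nat_lit 78) (nat_lit 608) (nat_lit 0) (XT.lf (nat_lit 0) (nat_lit 3108886879) (nat_lit 684) (nat_lit 3533898573) (nat_lit 76) (nat_lit 10292376569) (nat_lit 266) (nat_lit 5) (nat_lit 275) (nat_lit 5) (nat_lit 267) (nat_lit 5) (nat_lit 465) (nat_lit 427) (nat_lit 308)) (XT.lf (nat_lit 0) (nat_lit 7728517263) (nat_lit 684) (nat_lit 5974948585) (nat_lit 76) (nat_lit 3524018930) (nat_lit 258) (nat_lit 5) (nat_lit 267) (nat_lit 5) (nat_lit 259) (nat_lit 5) (nat_lit 466) (nat_lit 427) (nat_lit 307))))))))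
noncomputable def xc88 : XT := (XT.nd (nat_lit 1794) (nat_lit 988) (nat_lit 0) (XT.nd (nat_lit 858) (nat_lit 4256) (nat_lit 0) (XT.nd (nat_lit 390) (nat_lit 3116) (nat_lit 0) (XT.nd (nat_lit 156) (nat_lit 1140) (nat_lit 0) (XT.nd (nat_lit 78) (nat_lit 608) (nat_lit 0) (XT.lf (nat_lit 0) (nat_lit 9053645628) (nat_lit 532) (nat_lit 3542071077) (nat_lit 608) (nat_lit 4930683049) (nat_lit 251) (nat_lit 5) (nat_lit 258) (nat_lit 5) (nat_lit 259) (nat_lit 5) (nat_lit 467) (nat_lit 427) (nat_lit 306)) (XT.lf (nat_lit 0) (nat_lit 6802097074) (nat_lit 608) (nat_lit 10918732679) (nat_lit 684) (nat_lit 111216558) (nat_lit 243) (nat_lit 5) (nat_lit 251) (nat_lit 5) (nat_lit 252) (nat_lit 5) (nat_lit 468) (nat_lit 427) (nat_lit 305))) (XT.nd (nat_lit 78) (nat_lit 532) (nat_lit 0) (XT.lf (nat_lit 0) (nat_lit 4485549565) (nat_lit 532) (nat_lit 396521013) (nat_lit 608) (nat_lit 13262305858) (nat_lit 235) (nat_lit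 5) (nat_lit 242) (nat_lit 5) (nat_lit 243) (nat_lit 5) (nat_lit 469) (nat_lit 427) (nat_lit 304)) (XT.nd (nat_lit 78) (nat_lit 0) (nat_lit 0) (XT.lf (nat_lit 0) (nat_lit 2088169147) (nat_lit 532) (nat_lit 8074682789) (nat_lit 608) (nat_lit 8300427617) (nat_lit 228) (nat_lit 5) (nat_lit 235) (nat_lit 5) (nat_lit 236) (nat_lit 5) (nat_lit 470) (nat_lit 427) (nat_lit 303)) (XT.lf (nat_lit 0) (nat_lit 15698324539) (nat_lit 608) (nat_lit 339166892) (nat_lit 76) (nat_lit 2752334842) (nat_lit 228) (nat_lit 5) (nat_lit 236) (nat_lit 5) (nat_lit 229) (nat_lit 5) (nat_lit 471) (nat_lit 427) (nat_lit 302))))) (XT.nd (nat_lit 234) (nat_lit 1520) (nat_lit 0) (XT.nd (nat_lit 78) (nat_lit 988) (nat_lit 0) (XT.lf (nat_lit 0) (nat_lit 2388179243) (nat_lit 608) (nat_lit 2823537392) (nat_lit 76) (nat_lit 13911273145) (nat_lit 220) (nat_lit 5) (nat_lit 228) (nat_lit 5) (nat_lit 221) (nat_lit 5) (nat_lit 472) (nat_lit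 427) (nat_lit 301)) (XT.nd (nat_lit 78) (nat_lit 456) (nat_lit 0) (XT.lf (nat_lit 0) (nat_lit 8107406069) (nat_lit 608) (nat_lit 5385436248) (nat_lit 76) (nat_lit 5970555768) (nat_lit 213) (nat_lit 5) (nat_lit 221) (nat_lit 5) (nat_lit 214) (nat_lit 5) (nat_lit 473) (nat_lit 427) (nat_lit 300)) (XT.lf (nat_lit 0) (nat_lit 11809282585) (nat_lit 456) (nat_lit 2303670109) (nat_lit 532) (nat_lit 5698772759) (nat_lit 207) (nat_lit 5) (nat_lit 213) (nat_lit 5) (nat_lit 214) (nat_lit 5) (nat_lit 474) (nat_lit 427) (nat_lit 299)))) (XT.nd (nat_lit 78) (nat_lit 912) (nat_lit 0) (XT.lf (nat_lit 0) (nat_lit 269729025) (nat_lit 608) (nat_lit 10703667312) (nat_lit 76) (nat_lit 9194226320) (nat_lit 199) (nat_lit 5) (nat_lit 207) (nat_lit 5) (nat_lit 200) (nat_lit 5) (nat_lit 475) (nat_lit 427) (nat_lit 298)) (XT.nd (nat_lit 78) (nat_lit 456) (nat_lit 0) (XT.lf (nat_lit 0) (nat_lit 6444449235) (nat_lit 532) (nat_lit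 13487952696) (nat_lit 76) (nat_lit 598951269) (nat_lit 193) (nat_lit 5) (nat_lit 200) (nat_lit 5) (nat_lit 194) (nat_lit 5) (nat_lit 476) (nat_lit 427) (nat_lit 297)) (XT.lf (nat_lit 0) (nat_lit 4528562371) (nat_lit 456) (nat_lit 8436375759) (nat_lit 532) (nat_lit 7937848488) (nat_lit 187) (nat_lit 5) (nat_lit 193) (nat_lit 5) (nat_lit 194) (nat_lit 5) (nat_lit 477) (nat_lit 427) (nat_lit 296)))))) (XT.nd (nat_lit 468) (nat_lit 1976) (nat_lit 0) (XT.nd (nat_lit 234) (nat_lit 1292) (nat_lit 0) (XT.nd (nat_lit 78) (nat_lit 532) (nat_lit 0) (XT.lf (nat_lit 0) (nat_lit 1968044825) (nat_lit 456) (nat_lit 17824875301) (nat_lit 532) (nat_lit 1490206804) (nat_lit 181) (nat_lit 5) (nat_lit 187) (nat_lit 5) (nat_lit 188) (nat_lit 5) (nat_lit 478) (nat_lit 427) (nat_lit 295)) (XT.nd (nat_lit 78) (nat_lit 456) (nat_lit 0) (XT.lf (nat_lit 0) (nat_lit 5236610901) (nat_lit 532) (nat_lit 700104326) (nat_lit 76) (nat_lit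 15734428729) (nat_lit 180) (nat_lit 5) (nat_lit 187) (nat_lit 5) (nat_lit 181) (nat_lit 5) (nat_lit 479) (nat_lit 427) (nat_lit 294)) (XT.lf (nat_lit 0) (nat_lit 12293840489) (nat_lit 532) (nat_lit 3422737898) (nat_lit 76) (nat_lit 6351050380) (nat_lit 174) (nat_lit 5) (nat_lit 181) (nat_lit 5) (nat_lit 175) (nat_lit 5) (nat_lit 480) (nat_lit 427) (nat_lit 293)))) (XT.nd (nat_lit 78) (nat_lit 912) (nat_lit 0) (XT.lf (nat_lit 0) (nat_lit 16256541797) (nat_lit 380) (nat_lit 3442136259) (nat_lit 456) (nat_lit 2774613553) (nat_lit 169) (nat_lit 5) (nat_lit 174) (nat_lit 5) (nat_lit 175) (nat_lit 5) (nat_lit 481) (nat_lit 427) (nat_lit 292)) (XT.nd (nat_lit 78) (nat_lit 380) (nat_lit 0) (XT.lf (nat_lit 0) (nat_lit 4536095936) (nat_lit 532) (nat_lit 9135269642) (nat_lit 76) (nat_lit 9215989779) (nat_lit 162) (nat_lit 5) (nat_lit 169) (nat_lit 5) (nat_lit 163) (nat_lit 5) (nat_lit 482) (nat_lit 427) (nat_lit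 291)) (XT.lf (nat_lit 0) (nat_lit 11176225862) (nat_lit 380) (nat_lit 976690001) (nat_lit 456) (nat_lit 11158069854) (nat_lit 157) (nat_lit 5) (nat_lit 162) (nat_lit 5) (nat_lit 163) (nat_lit 5) (nat_lit 483) (nat_lit 427) (nat_lit 290))))) (XT.nd (nat_lit 234) (nat_lit 760) (nat_lit 0) (XT.nd (nat_lit 78) (nat_lit 836) (nat_lit 0) (XT.lf (nat_lit 0) (nat_lit 8487906211) (nat_lit 380) (nat_lit 11692816447) (nat_lit 456) (nat_lit 3562953859) (nat_lit 152) (nat_lit 5) (nat_lit 157) (nat_lit 5) (nat_lit 158) (nat_lit 5) (nat_lit 484) (nat_lit 427) (nat_lit 289)) (XT.nd (nat_lit 78) (nat_lit 380) (nat_lit 0) (XT.lf (nat_lit 0) (nat_lit 4326474812) (nat_lit 456) (nat_lit 18467974336) (nat_lit 76) (nat_lit 1391900231) (nat_lit 146) (nat_lit 5) (nat_lit 152) (nat_lit 5) (nat_lit 147) (nat_lit 5) (nat_lit 485) (nat_lit 427) (nat_lit 288)) (XT.lf (nat_lit 0) (nat_lit 2804195500) (nat_lit 380) (nat_lit 9787617286)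 (nat_lit 456) (nat_lit 12046267045) (nat_lit 141) (nat_lit 5) (nat_lit 146) (nat_lit 5) (nat_lit 147) (nat_lit 5) (nat_lit 486) (nat_lit 427) (nat_lit 287)))) (XT.nd (nat_lit 78) (nat_lit 760) (nat_lit 0) (XT.lf (nat_lit 0) (nat_lit 21241619114) (nat_lit 456) (nat_lit 177893087) (nat_lit 76) (nat_lit 3681120882) (nat_lit 141) (nat_lit 5) (nat_lit 147) (nat_lit 5) (nat_lit 142) (nat_lit 5) (nat_lit 487) (nat_lit 427) (nat_lit 286)) (XT.nd (nat_lit 78) (nat_lit 380) (nat_lit 0) (XT.lf (nat_lit 0) (nat_lit 4713127909) (nat_lit 380) (nat_lit 3268359245) (nat_lit 76) (nat_lit 17590997689) (nat_lit 136) (nat_lit 5) (nat_lit 141) (nat_lit 5) (nat_lit 137) (nat_lit 5) (nat_lit 488) (nat_lit 427) (nat_lit 285)) (XT.lf (nat_lit 0) (nat_lit 13645537355) (nat_lit 456) (nat_lit 6477998404) (nat_lit 76) (nat_lit 5931336566) (nat_lit 131) (nat_lit 5) (nat_lit 137) (nat_lit 5) (nat_lit 132) (nat_lit 5) (nat_lit 489)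 (nat_lit 427) (nat_lit 284))))))) (XT.nd (nat_lit 58266) (nat_lit 0) (nat_lit 23864) (XT.nd (nat_lit 57798) (nat_lit 0) (nat_lit 28576) (XT.nd (nat_lit 156) (nat_lit 304) (nat_lit 0) (XT.nd (nat_lit 78) (nat_lit 380) (nat_lit 0) (XT.lf (nat_lit 0) (nat_lit 16747799958) (nat_lit 304) (nat_lit 6270351922) (nat_lit 380) (nat_lit 3530135838) (nat_lit 127) (nat_lit 5) (nat_lit 131) (nat_lit 5) (nat_lit 132) (nat_lit 5) (nat_lit 490) (nat_lit 427) (nat_lit 283)) (XT.lf (nat_lit 0) (nat_lit 5716756874) (nat_lit 380) (nat_lit 13277406398) (nat_lit 76) (nat_lit 8058114716) (nat_lit 122) (nat_lit 5) (nat_lit 127) (nat_lit 5) (nat_lit 123) (nat_lit 5) (nat_lit 491) (nat_lit 427) (nat_lit 282))) (XT.nd (nat_lit 57486) (nat_lit 0) (nat_lit 30020) (XT.lf (nat_lit 0) (nat_lit 10676657195) (nat_lit 304) (nat_lit 4682975158) (nat_lit 380) (nat_lit 12207959068) (nat_lit 118) (nat_lit 5) (nat_lit 122) (nat_lit 5) (nat_lit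 123) (nat_lit 5) (nat_lit 492) (nat_lit 427) (nat_lit 281)) (XT.nd (nat_lit 78) (nat_lit 0) (nat_lit 0) (XT.lf (nat_lit 0) (nat_lit 829099874) (nat_lit 0) (nat_lit 829099874) (nat_lit 1596) (nat_lit 3245660355) (nat_lit 513) (nat_lit 5) (nat_lit 513) (nat_lit 3) (nat_lit 534) (nat_lit 3) (nat_lit 428) (nat_lit 428) (nat_lit 344)) (XT.lf (nat_lit 0) (nat_lit 4494528519) (nat_lit 1596) (nat_lit 960000169) (nat_lit 1672) (nat_lit 4477556923) (nat_lit 513) (nat_lit 5) (nat_lit 534) (nat_lit 3) (nat_lit 535) (nat_lit 5) (nat_lit 429) (nat_lit 428) (nat_lit 343))))) (XT.nd (nat_lit 234) (nat_lit 1520) (nat_lit 0) (XT.nd (nat_lit 78) (nat_lit 0) (nat_lit 0) (XT.lf (nat_lit 0) (nat_lit 5723577381) (nat_lit 1596) (nat_lit 3568156043) (nat_lit 1672) (nat_lit 768144166) (nat_lit 514) (nat_lit 5) (nat_lit 535) (nat_lit 5) (nat_lit 536) (nat_lit 5) (nat_lit 430) (nat_lit 428) (nat_lit 342)) (XT.nd (nat_lit 78)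 (nat_lit 0) (nat_lit 76) (XT.lf (nat_lit 76) (nat_lit 3981408482) (nat_lit 0) (nat_lit 3035444353) (nat_lit 1672) (nat_lit 3174110314) (nat_lit 515) (nat_lit 5) (nat_lit 514) (nat_lit 5) (nat_lit 536) (nat_lit 5) (nat_lit 431) (nat_lit 428) (nat_lit 341)) (XT.lf (nat_lit 76) (nat_lit 1453974120) (nat_lit 0) (nat_lit 6910519654) (nat_lit 1672) (nat_lit 1961182880) (nat_lit 516) (nat_lit 5) (nat_lit 515) (nat_lit 5) (nat_lit 537) (nat_lit 5) (nat_lit 432) (nat_lit 428) (nat_lit 340)))) (XT.nd (nat_lit 78) (nat_lit 1596) (nat_lit 0) (XT.lf (nat_lit 76) (nat_lit 9388611865) (nat_lit 0) (nat_lit 386877543) (nat_lit 1672) (nat_lit 688490172) (nat_lit 516) (nat_lit 5) (nat_lit 515) (nat_lit 5) (nat_lit 537) (nat_lit 5) (nat_lit 433) (nat_lit 428) (nat_lit 339)) (XT.nd (nat_lit 78) (nat_lit 0) (nat_lit 76) (XT.lf (nat_lit 0) (nat_lit 662908827) (nat_lit 1672) (nat_lit 3627940329) (nat_lit 1748) (nat_lit 6314534069)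 (nat_lit 494) (nat_lit 5) (nat_lit 516) (nat_lit 5) (nat_lit 517) (nat_lit 5) (nat_lit 434) (nat_lit 428) (nat_lit 338)) (XT.lf (nat_lit 0) (nat_lit 2064087152) (nat_lit 1672) (nat_lit 6202481365) (nat_lit 1748) (nat_lit 2484003649) (nat_lit 495) (nat_lit 5) (nat_lit 517) (nat_lit 5) (nat_lit 518) (nat_lit 5) (nat_lit 435) (nat_lit 428) (nat_lit 337)))))) (XT.nd (nat_lit 468) (nat_lit 3344) (nat_lit 0) (XT.nd (nat_lit 234) (nat_lit 1444) (nat_lit 0) (XT.nd (nat_lit 78) (nat_lit 0) (nat_lit 76) (XT.lf (nat_lit 76) (nat_lit 2094062879) (nat_lit 0) (nat_lit 1443935542) (nat_lit 1748) (nat_lit 7361510260) (nat_lit 496) (nat_lit 5) (nat_lit 495) (nat_lit 5) (nat_lit 518) (nat_lit 5) (nat_lit 436) (nat_lit 428) (nat_lit 336)) (XT.nd (nat_lit 78) (nat_lit 0) (nat_lit 76) (XT.lf (nat_lit 0) (nat_lit 5099328357) (nat_lit 1672) (nat_lit 388581337) (nat_lit 1748) (nat_lit 5564145255) (nat_lit 496) (nat_lit 5)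 (nat_lit 518) (nat_lit 5) (nat_lit 519) (nat_lit 5) (nat_lit 437) (nat_lit 428) (nat_lit 335)) (XT.lf (nat_lit 0) (nat_lit 6747603876) (nat_lit 1672) (nat_lit 2862045240) (nat_lit 1748) (nat_lit 1598731895) (nat_lit 497) (nat_lit 5) (nat_lit 519) (nat_lit 5) (nat_lit 520) (nat_lit 5) (nat_lit 438) (nat_lit 428) (nat_lit 334)))) (XT.nd (nat_lit 78) (nat_lit 1596) (nat_lit 0) (XT.lf (nat_lit 76) (nat_lit 5997181592) (nat_lit 0) (nat_lit 2493021096) (nat_lit 1748) (nat_lit 2878302024) (nat_lit 498) (nat_lit 5) (nat_lit 497) (nat_lit 5) (nat_lit 520) (nat_lit 5) (nat_lit 439) (nat_lit 428) (nat_lit 333)) (XT.nd (nat_lit 78) (nat_lit 1672) (nat_lit 0) (XT.lf (nat_lit 76) (nat_lit 3619903149) (nat_lit 0) (nat_lit 6707071910) (nat_lit 1748) (nat_lit 1205624357) (nat_lit 499) (nat_lit 5) (nat_lit 498) (nat_lit 5) (nat_lit 521) (nat_lit 5) (nat_lit 440) (nat_lit 428) (nat_lit 332)) (XT.lf (nat_lit 0) (nat_lit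 544203509) (nat_lit 1748) (nat_lit 10480512772) (nat_lit 1824) (nat_lit 676163399) (nat_lit 476) (nat_lit 5) (nat_lit 499) (nat_lit 5) (nat_lit 500) (nat_lit 5) (nat_lit 441) (nat_lit 428) (nat_lit 331))))) (XT.nd (nat_lit 234) (nat_lit 3344) (nat_lit 0) (XT.nd (nat_lit 78) (nat_lit 0) (nat_lit 76) (XT.lf (nat_lit 0) (nat_lit 2397930163) (nat_lit 1748) (nat_lit 1215344046) (nat_lit 1824) (nat_lit 8259423892) (nat_lit 476) (nat_lit 5) (nat_lit 499) (nat_lit 5) (nat_lit 500) (nat_lit 5) (nat_lit 442) (nat_lit 428) (nat_lit 330)) (XT.nd (nat_lit 78) (nat_lit 0) (nat_lit 0) (XT.lf (nat_lit 0) (nat_lit 4358175460) (nat_lit 1748) (nat_lit 3661511826) (nat_lit 1824) (nat_lit 4028970320) (nat_lit 477) (nat_lit 5) (nat_lit 500) (nat_lit 5) (nat_lit 501) (nat_lit 5) (nat_lit 443) (nat_lit 428) (nat_lit 329)) (XT.lf (nat_lit 76) (nat_lit 6096153444) (nat_lit 0) (nat_lit 323644682) (nat_lit 1824) (nat_lit 5809250903)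 (nat_lit 478) (nat_lit 5) (nat_lit 477) (nat_lit 5) (nat_lit 501) (nat_lit 5) (nat_lit 444) (nat_lit 428) (nat_lit 328)))) (XT.nd (nat_lit 78) (nat_lit 1748) (nat_lit 0) (XT.lf (nat_lit 0) (nat_lit 3757649683) (nat_lit 1748) (nat_lit 4855630242) (nat_lit 1824) (nat_lit 3800176460) (nat_lit 455) (nat_lit 5) (nat_lit 478) (nat_lit 5) (nat_lit 479) (nat_lit 5) (nat_lit 445) (nat_lit 428) (nat_lit 327)) (XT.nd (nat_lit 78) (nat_lit 76) (nat_lit 0) (XT.lf (nat_lit 0) (nat_lit 1397670360) (nat_lit 1672) (nat_lit 9519852542) (nat_lit 1748) (nat_lit 1684978196) (nat_lit 433) (nat_lit 5) (nat_lit 455) (nat_lit 5) (nat_lit 456) (nat_lit 5) (nat_lit 446) (nat_lit 428) (nat_lit 326)) (XT.lf (nat_lit 0) (nat_lit 551168537) (nat_lit 1748) (nat_lit 985456690) (nat_lit 76) (nat_lit 11259252543) (nat_lit 432) (nat_lit 5) (nat_lit 455) (nat_lit 5) (nat_lit 433) (nat_lit 5) (nat_lit 447) (nat_lit 428) (nat_lit 325))))))))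
noncomputable def xc89 : XT := (XT.nd (nat_lit 1794) (nat_lit 8588) (nat_lit 0) (XT.nd (nat_lit 858) (nat_lit 6536) (nat_lit 0) (XT.nd (nat_lit 390) (nat_lit 3952) (nat_lit 0) (XT.nd (nat_lit 156) (nat_lit 2584) (nat_lit 0) (XT.nd (nat_lit 78) (nat_lit 912) (nat_lit 0) (XT.lf (nat_lit 0) (nat_lit 2911346126) (nat_lit 1064) (nat_lit 3406349887) (nat_lit 76) (nat_lit 6675544149) (nat_lit 419) (nat_lit 5) (nat_lit 433) (nat_lit 5) (nat_lit 420) (nat_lit 5) (nat_lit 448) (nat_lit 428) (nat_lit 324)) (XT.lf (nat_lit 0) (nat_lit 5393804099) (nat_lit 988) (nat_lit 5852939055) (nat_lit 76) (nat_lit 1948754603) (nat_lit 407) (nat_lit 5) (nat_lit 420) (nat_lit 5) (nat_lit 408) (nat_lit 5) (nat_lit 449) (nat_lit 428) (nat_lit 323))) (XT.nd (nat_lit 78) (nat_lit 1672) (nat_lit 0) (XT.lf (nat_lit 0) (nat_lit 5056963501) (nat_lit 912) (nat_lit 2966607526) (nat_lit 988) (nat_lit 5378799069) (nat_lit 395) (nat_lit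 5) (nat_lit 407) (nat_lit 5) (nat_lit 408) (nat_lit 5) (nat_lit 450) (nat_lit 428) (nat_lit 322)) (XT.nd (nat_lit 78) (nat_lit 836) (nat_lit 0) (XT.lf (nat_lit 0) (nat_lit 2734843182) (nat_lit 836) (nat_lit 8066292670) (nat_lit 912) (nat_lit 2812938268) (nat_lit 384) (nat_lit 5) (nat_lit 395) (nat_lit 5) (nat_lit 396) (nat_lit 5) (nat_lit 451) (nat_lit 428) (nat_lit 321)) (XT.lf (nat_lit 0) (nat_lit 388480953) (nat_lit 836) (nat_lit 13331281960) (nat_lit 912) (nat_lit 111215154) (nat_lit 373) (nat_lit 5) (nat_lit 384) (nat_lit 5) (nat_lit 385) (nat_lit 5) (nat_lit 452) (nat_lit 428) (nat_lit 320))))) (XT.nd (nat_lit 234) (nat_lit 2280) (nat_lit 0) (XT.nd (nat_lit 78) (nat_lit 1596) (nat_lit 0) (XT.lf (nat_lit 0) (nat_lit 2740751018) (nat_lit 912) (nat_lit 2005849301) (nat_lit 76) (nat_lit 9305360653) (nat_lit 372) (nat_lit 5) (nat_lit 384) (nat_lit 5) (nat_lit 373) (nat_lit 5) (nat_lit 453) (nat_lit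 428) (nat_lit 319)) (XT.nd (nat_lit 78) (nat_lit 836) (nat_lit 0) (XT.lf (nat_lit 0) (nat_lit 5744708438) (nat_lit 836) (nat_lit 4426632543) (nat_lit 76) (nat_lit 4106862058) (nat_lit 362) (nat_lit 5) (nat_lit 373) (nat_lit 5) (nat_lit 363) (nat_lit 5) (nat_lit 454) (nat_lit 428) (nat_lit 318)) (XT.lf (nat_lit 0) (nat_lit 7625726711) (nat_lit 836) (nat_lit 1285290488) (nat_lit 912) (nat_lit 5598773662) (nat_lit 351) (nat_lit 5) (nat_lit 362) (nat_lit 5) (nat_lit 363) (nat_lit 5) (nat_lit 455) (nat_lit 428) (nat_lit 317)))) (XT.nd (nat_lit 78) (nat_lit 1520) (nat_lit 0) (XT.lf (nat_lit 0) (nat_lit 5347661519) (nat_lit 760) (nat_lit 6918448707) (nat_lit 836) (nat_lit 2480343248) (nat_lit 341) (nat_lit 5) (nat_lit 351) (nat_lit 5) (nat_lit 352) (nat_lit 5) (nat_lit 456) (nat_lit 428) (nat_lit 316)) (XT.nd (nat_lit 78) (nat_lit 684) (nat_lit 0) (XT.lf (nat_lit 0) (nat_lit 790367710) (nat_lit 836) (nat_lit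 11949787256) (nat_lit 76) (nat_lit 2248602436) (nat_lit 330) (nat_lit 5) (nat_lit 341) (nat_lit 5) (nat_lit 331) (nat_lit 5) (nat_lit 457) (nat_lit 428) (nat_lit 315)) (XT.lf (nat_lit 0) (nat_lit 663221869) (nat_lit 684) (nat_lit 3555777195) (nat_lit 760) (nat_lit 11017136363) (nat_lit 321) (nat_lit 5) (nat_lit 330) (nat_lit 5) (nat_lit 331) (nat_lit 5) (nat_lit 458) (nat_lit 428) (nat_lit 314)))))) (XT.nd (nat_lit 468) (nat_lit 3040) (nat_lit 0) (XT.nd (nat_lit 234) (nat_lit 2052) (nat_lit 0) (XT.nd (nat_lit 78) (nat_lit 1444) (nat_lit 0) (XT.lf (nat_lit 0) (nat_lit 7849412195) (nat_lit 760) (nat_lit 1733676187) (nat_lit 76) (nat_lit 5905870694) (nat_lit 321) (nat_lit 5) (nat_lit 331) (nat_lit 5) (nat_lit 322) (nat_lit 5) (nat_lit 459) (nat_lit 428) (nat_lit 313)) (XT.nd (nat_lit 78) (nat_lit 684) (nat_lit 0) (XT.lf (nat_lit 0) (nat_lit 11596050380) (nat_lit 760) (nat_lit 71442542) (nat_lit 836) (nat_lit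 4080302070) (nat_lit 311) (nat_lit 5) (nat_lit 321) (nat_lit 5) (nat_lit 322) (nat_lit 5) (nat_lit 460) (nat_lit 428) (nat_lit 312)) (XT.lf (nat_lit 0) (nat_lit 9371928338) (nat_lit 684) (nat_lit 6344120794) (nat_lit 760) (nat_lit 296030776) (nat_lit 302) (nat_lit 5) (nat_lit 311) (nat_lit 5) (nat_lit 312) (nat_lit 5) (nat_lit 461) (nat_lit 428) (nat_lit 311)))) (XT.nd (nat_lit 78) (nat_lit 1292) (nat_lit 0) (XT.lf (nat_lit 0) (nat_lit 3632771555) (nat_lit 760) (nat_lit 9184653228) (nat_lit 76) (nat_lit 3464838532) (nat_lit 292) (nat_lit 5) (nat_lit 302) (nat_lit 5) (nat_lit 293) (nat_lit 5) (nat_lit 462) (nat_lit 428) (nat_lit 310)) (XT.nd (nat_lit 78) (nat_lit 684) (nat_lit 0) (XT.lf (nat_lit 0) (nat_lit 4773764735) (nat_lit 608) (nat_lit 3001205593) (nat_lit 684) (nat_lit 8783554063) (nat_lit 284) (nat_lit 5) (nat_lit 292) (nat_lit 5) (nat_lit 293) (nat_lit 5) (nat_lit 463) (nat_lit 428) (nat_lit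 309)) (XT.lf (nat_lit 0) (nat_lit 2396824391) (nat_lit 684) (nat_lit 9750187775) (nat_lit 760) (nat_lit 4693951908) (nat_lit 275) (nat_lit 5) (nat_lit 284) (nat_lit 5) (nat_lit 285) (nat_lit 5) (nat_lit 464) (nat_lit 428) (nat_lit 308))))) (XT.nd (nat_lit 234) (nat_lit 1748) (nat_lit 0) (XT.nd (nat_lit 78) (nat_lit 1292) (nat_lit 0) (XT.lf (nat_lit 0) (nat_lit 16734154473) (nat_lit 760) (nat_lit 10452788) (nat_lit 76) (nat_lit 385593154) (nat_lit 275) (nat_lit 5) (nat_lit 285) (nat_lit 5) (nat_lit 276) (nat_lit 5) (nat_lit 465) (nat_lit 428) (nat_lit 307)) (XT.nd (nat_lit 78) (nat_lit 608) (nat_lit 0) (XT.lf (nat_lit 0) (nat_lit 4123371369) (nat_lit 684) (nat_lit 2487216038) (nat_lit 76) (nat_lit 10814096393) (nat_lit 266) (nat_lit 5) (nat_lit 275) (nat_lit 5) (nat_lit 267) (nat_lit 5) (nat_lit 466) (nat_lit 428) (nat_lit 306)) (XT.lf (nat_lit 0) (nat_lit 8863629662) (nat_lit 684) (nat_lit 5003566110)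 (nat_lit 76) (nat_lit 3858942854) (nat_lit 258) (nat_lit 5) (nat_lit 267) (nat_lit 5) (nat_lit 259) (nat_lit 5) (nat_lit 467) (nat_lit 428) (nat_lit 305)))) (XT.nd (nat_lit 78) (nat_lit 1216) (nat_lit 0) (XT.lf (nat_lit 0) (nat_lit 10457218310) (nat_lit 532) (nat_lit 3400667782) (nat_lit 608) (nat_lit 4176517216) (nat_lit 251) (nat_lit 5) (nat_lit 258) (nat_lit 5) (nat_lit 259) (nat_lit 5) (nat_lit 468) (nat_lit 428) (nat_lit 304)) (XT.nd (nat_lit 78) (nat_lit 532) (nat_lit 0) (XT.lf (nat_lit 0) (nat_lit 760228512) (nat_lit 684) (nat_lit 10218884516) (nat_lit 76) (nat_lit 7370346416) (nat_lit 242) (nat_lit 5) (nat_lit 251) (nat_lit 5) (nat_lit 243) (nat_lit 5) (nat_lit 469) (nat_lit 428) (nat_lit 303)) (XT.lf (nat_lit 0) (nat_lit 5742820566) (nat_lit 532) (nat_lit 140845339) (nat_lit 608) (nat_lit 12787844455) (nat_lit 235) (nat_lit 5) (nat_lit 242) (nat_lit 5) (nat_lit 243) (nat_lit 5) (nat_lit 470)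 (nat_lit 428) (nat_lit 302))))))) (XT.nd (nat_lit 936) (nat_lit 3572) (nat_lit 0) (XT.nd (nat_lit 468) (nat_lit 2280) (nat_lit 0) (XT.nd (nat_lit 234) (nat_lit 1596) (nat_lit 0) (XT.nd (nat_lit 78) (nat_lit 608) (nat_lit 0) (XT.lf (nat_lit 0) (nat_lit 3270513485) (nat_lit 532) (nat_lit 8036406907) (nat_lit 608) (nat_lit 7693381942) (nat_lit 228) (nat_lit 5) (nat_lit 235) (nat_lit 5) (nat_lit 236) (nat_lit 5) (nat_lit 471) (nat_lit 428) (nat_lit 301)) (XT.nd (nat_lit 78) (nat_lit 76) (nat_lit 0) (XT.lf (nat_lit 0) (nat_lit 762359072) (nat_lit 532) (nat_lit 16228373872) (nat_lit 608) (nat_lit 2346269675) (nat_lit 221) (nat_lit 5) (nat_lit 228) (nat_lit 5) (nat_lit 229) (nat_lit 5) (nat_lit 472) (nat_lit 428) (nat_lit 300)) (XT.lf (nat_lit 0) (nat_lit 3264970653) (nat_lit 608) (nat_lit 1813629896) (nat_lit 76) (nat_lit 14601891035) (nat_lit 220) (nat_lit 5) (nat_lit 228) (nat_lit 5) (nat_lit 221) (nat_lit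 5) (nat_lit 473) (nat_lit 428) (nat_lit 299)))) (XT.nd (nat_lit 78) (nat_lit 1064) (nat_lit 0) (XT.lf (nat_lit 0) (nat_lit 9141186062) (nat_lit 608) (nat_lit 4456159270) (nat_lit 76) (nat_lit 6434061046) (nat_lit 213) (nat_lit 5) (nat_lit 221) (nat_lit 5) (nat_lit 214) (nat_lit 5) (nat_lit 474) (nat_lit 428) (nat_lit 298)) (XT.nd (nat_lit 78) (nat_lit 608) (nat_lit 0) (XT.lf (nat_lit 0) (nat_lit 13236703545) (nat_lit 456) (nat_lit 2074137138) (nat_lit 532) (nat_lit 5079666454) (nat_lit 207) (nat_lit 5) (nat_lit 213) (nat_lit 5) (nat_lit 214) (nat_lit 5) (nat_lit 475) (nat_lit 428) (nat_lit 297)) (XT.lf (nat_lit 0) (nat_lit 1043701080) (nat_lit 608) (nat_lit 9945380990) (nat_lit 76) (nat_lit 9768175429) (nat_lit 199) (nat_lit 5) (nat_lit 207) (nat_lit 5) (nat_lit 200) (nat_lit 5) (nat_lit 476) (nat_lit 428) (nat_lit 296))))) (XT.nd (nat_lit 234) (nat_lit 912) (nat_lit 0) (XT.nd (nat_lit 78) (nat_lit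 912) (nat_lit 0) (XT.lf (nat_lit 0) (nat_lit 7390272090) (nat_lit 532) (nat_lit 12817645421) (nat_lit 76) (nat_lit 924252482) (nat_lit 193) (nat_lit 5) (nat_lit 200) (nat_lit 5) (nat_lit 194) (nat_lit 5) (nat_lit 477) (nat_lit 428) (nat_lit 295)) (XT.nd (nat_lit 78) (nat_lit 456) (nat_lit 0) (XT.lf (nat_lit 0) (nat_lit 5721925378) (nat_lit 456) (nat_lit 8369399139) (nat_lit 532) (nat_lit 7423725076) (nat_lit 187) (nat_lit 5) (nat_lit 193) (nat_lit 5) (nat_lit 194) (nat_lit 5) (nat_lit 478) (nat_lit 428) (nat_lit 294)) (XT.lf (nat_lit 0) (nat_lit 3079971323) (nat_lit 456) (nat_lit 18031549461) (nat_lit 532) (nat_lit 795533927) (nat_lit 181) (nat_lit 5) (nat_lit 187) (nat_lit 5) (nat_lit 188) (nat_lit 5) (nat_lit 479) (nat_lit 428) (nat_lit 293)))) (XT.nd (nat_lit 78) (nat_lit 380) (nat_lit 0) (XT.lf (nat_lit 0) (nat_lit 314719801) (nat_lit 456) (nat_lit 5789461913) (nat_lit 532) (nat_lit 16202820705)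 (nat_lit 174) (nat_lit 5) (nat_lit 180) (nat_lit 5) (nat_lit 181) (nat_lit 5) (nat_lit 480) (nat_lit 428) (nat_lit 292)) (XT.nd (nat_lit 78) (nat_lit 380) (nat_lit 0) (XT.lf (nat_lit 0) (nat_lit 13359122162) (nat_lit 532) (nat_lit 2498587708) (nat_lit 76) (nat_lit 6857953959) (nat_lit 174) (nat_lit 5) (nat_lit 181) (nat_lit 5) (nat_lit 175) (nat_lit 5) (nat_lit 481) (nat_lit 428) (nat_lit 291)) (XT.lf (nat_lit 0) (nat_lit 17754411243) (nat_lit 380) (nat_lit 3217966896) (nat_lit 456) (nat_lit 2161394830) (nat_lit 169) (nat_lit 5) (nat_lit 174) (nat_lit 5) (nat_lit 175) (nat_lit 5) (nat_lit 482) (nat_lit 428) (nat_lit 290)))))) (XT.nd (nat_lit 468) (nat_lit 1140) (nat_lit 0) (XT.nd (nat_lit 234) (nat_lit 1140) (nat_lit 0) (XT.nd (nat_lit 78) (nat_lit 760) (nat_lit 0) (XT.lf (nat_lit 0) (nat_lit 5348129899) (nat_lit 532) (nat_lit 8395097371) (nat_lit 76) (nat_lit 9817170147) (nat_lit 162) (nat_lit 5)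 (nat_lit 169) (nat_lit 5) (nat_lit 163) (nat_lit 5) (nat_lit 483) (nat_lit 428) (nat_lit 289)) (XT.nd (nat_lit 78) (nat_lit 380) (nat_lit 0) (XT.lf (nat_lit 0) (nat_lit 12509288316) (nat_lit 380) (nat_lit 670956434) (nat_lit 456) (nat_lit 10816757868) (nat_lit 157) (nat_lit 5) (nat_lit 162) (nat_lit 5) (nat_lit 163) (nat_lit 5) (nat_lit 484) (nat_lit 428) (nat_lit 288)) (XT.lf (nat_lit 0) (nat_lit 9735088065) (nat_lit 380) (nat_lit 11703050701) (nat_lit 456) (nat_lit 3004751999) (nat_lit 152) (nat_lit 5) (nat_lit 157) (nat_lit 5) (nat_lit 158) (nat_lit 5) (nat_lit 485) (nat_lit 428) (nat_lit 287)))) (XT.nd (nat_lit 78) (nat_lit 684) (nat_lit 0) (XT.lf (nat_lit 0) (nat_lit 5102131819) (nat_lit 456) (nat_lit 18026226753) (nat_lit 76) (nat_lit 1770610581) (nat_lit 146) (nat_lit 5) (nat_lit 152) (nat_lit 5) (nat_lit 147) (nat_lit 5) (nat_lit 486) (nat_lit 428) (nat_lit 286)) (XT.nd (nat_lit 78) (nat_lit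 304) (nat_lit 0) (XT.lf (nat_lit 0) (nat_lit 3867952721) (nat_lit 380) (nat_lit 9735026091) (nat_lit 456) (nat_lit 11761523285) (nat_lit 141) (nat_lit 5) (nat_lit 146) (nat_lit 5) (nat_lit 147) (nat_lit 5) (nat_lit 487) (nat_lit 428) (nat_lit 285)) (XT.lf (nat_lit 0) (nat_lit 788375433) (nat_lit 304) (nat_lit 21712756085) (nat_lit 380) (nat_lit 3340024897) (nat_lit 137) (nat_lit 5) (nat_lit 141) (nat_lit 5) (nat_lit 142) (nat_lit 5) (nat_lit 488) (nat_lit 428) (nat_lit 284))))) (XT.nd (nat_lit 234) (nat_lit 380) (nat_lit 0) (XT.nd (nat_lit 78) (nat_lit 684) (nat_lit 0) (XT.lf (nat_lit 0) (nat_lit 5463888689) (nat_lit 380) (nat_lit 2412593663) (nat_lit 76) (nat_lit 18450941740) (nat_lit 136) (nat_lit 5) (nat_lit 141) (nat_lit 5) (nat_lit 137) (nat_lit 5) (nat_lit 489) (nat_lit 428) (nat_lit 283)) (XT.nd (nat_lit 78) (nat_lit 304) (nat_lit 0) (XT.lf (nat_lit 0) (nat_lit 14654825806) (nat_lit 456) (nat_lit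 5724207360) (nat_lit 76) (nat_lit 6445440319) (nat_lit 131) (nat_lit 5) (nat_lit 137) (nat_lit 5) (nat_lit 132) (nat_lit 5) (nat_lit 490) (nat_lit 428) (nat_lit 282)) (XT.lf (nat_lit 0) (nat_lit 18182982654) (nat_lit 304) (nat_lit 6114218671) (nat_lit 380) (nat_lit 3035719721) (nat_lit 127) (nat_lit 5) (nat_lit 131) (nat_lit 5) (nat_lit 132) (nat_lit 5) (nat_lit 491) (nat_lit 428) (nat_lit 281)))) (XT.nd (nat_lit 57564) (nat_lit 0) (nat_lit 29716) (XT.lf (nat_lit 0) (nat_lit 6471693885) (nat_lit 380) (nat_lit 12740891254) (nat_lit 76) (nat_lit 8639549475) (nat_lit 122) (nat_lit 5) (nat_lit 127) (nat_lit 5) (nat_lit 123) (nat_lit 5) (nat_lit 492) (nat_lit 428) (nat_lit 280)) (XT.nd (nat_lit 78) (nat_lit 0) (nat_lit 0) (XT.lf (nat_lit 0) (nat_lit 1398153808) (nat_lit 0) (nat_lit 1398153808) (nat_lit 1596) (nat_lit 2232720071) (nat_lit 513) (nat_lit 5) (nat_lit 513) (nat_lit 3) (nat_lit 534) (nat_lit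 3) (nat_lit 429) (nat_lit 429) (nat_lit 342)) (XT.lf (nat_lit 76) (nat_lit 118899683) (nat_lit 0) (nat_lit 6617700146) (nat_lit 1672) (nat_lit 3450952220) (nat_lit 514) (nat_lit 5) (nat_lit 513) (nat_lit 5) (nat_lit 535) (nat_lit 5) (nat_lit 430) (nat_lit 429) (nat_lit 341))))))))
noncomputable def xc90 : XT := (XT.nd (nat_lit 1794) (nat_lit 12540) (nat_lit 0) (XT.nd (nat_lit 858) (nat_lit 7828) (nat_lit 0) (XT.nd (nat_lit 390) (nat_lit 1368) (nat_lit 0) (XT.nd (nat_lit 156) (nat_lit 1520) (nat_lit 0) (XT.nd (nat_lit 78) (nat_lit 0) (nat_lit 76) (XT.lf (nat_lit 76) (nat_lit 7779977138) (nat_lit 0) (nat_lit 162277833) (nat_lit 1672) (nat_lit 2378138356) (nat_lit 514) (nat_lit 5) (nat_lit 513) (nat_lit 5) (nat_lit 535) (nat_lit 5) (nat_lit 431) (nat_lit 429) (nat_lit 340)) (XT.lf (nat_lit 76) (nat_lit 5218261262) (nat_lit 0) (nat_lit 4002678976) (nat_lit 1672) (nat_lit 1235548922) (nat_lit 515) (nat_lit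 5) (nat_lit 514) (nat_lit 5) (nat_lit 536) (nat_lit 5) (nat_lit 432) (nat_lit 429) (nat_lit 339))) (XT.nd (nat_lit 78) (nat_lit 1672) (nat_lit 0) (XT.lf (nat_lit 76) (nat_lit 2642022243) (nat_lit 0) (nat_lit 7910830068) (nat_lit 1672) (nat_lit 43524568) (nat_lit 516) (nat_lit 5) (nat_lit 515) (nat_lit 5) (nat_lit 537) (nat_lit 5) (nat_lit 433) (nat_lit 429) (nat_lit 338)) (XT.nd (nat_lit 78) (nat_lit 0) (nat_lit 76) (XT.lf (nat_lit 76) (nat_lit 33990472) (nat_lit 0) (nat_lit 1160144859) (nat_lit 1748) (nat_lit 9545670018) (nat_lit 494) (nat_lit 5) (nat_lit 493) (nat_lit 5) (nat_lit 516) (nat_lit 5) (nat_lit 434) (nat_lit 429) (nat_lit 337)) (XT.lf (nat_lit 0) (nat_lit 2523931750) (nat_lit 1672) (nat_lit 2576709516) (nat_lit 1748) (nat_lit 5785783548) (nat_lit 494) (nat_lit 5) (nat_lit 516) (nat_lit 5) (nat_lit 517) (nat_lit 5) (nat_lit 435) (nat_lit 429) (nat_lit 336))))) (XT.nd (nat_lit 234) (nat_lit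 1520) (nat_lit 0) (XT.nd (nat_lit 78) (nat_lit 0) (nat_lit 0) (XT.lf (nat_lit 0) (nat_lit 3916685785) (nat_lit 1672) (nat_lit 5206876513) (nat_lit 1748) (nat_lit 1913424975) (nat_lit 495) (nat_lit 5) (nat_lit 517) (nat_lit 5) (nat_lit 518) (nat_lit 5) (nat_lit 436) (nat_lit 429) (nat_lit 335)) (XT.nd (nat_lit 78) (nat_lit 0) (nat_lit 76) (XT.lf (nat_lit 76) (nat_lit 3319392716) (nat_lit 0) (nat_lit 2070813837) (nat_lit 1748) (nat_lit 5801085891) (nat_lit 496) (nat_lit 5) (nat_lit 495) (nat_lit 5) (nat_lit 518) (nat_lit 5) (nat_lit 437) (nat_lit 429) (nat_lit 334)) (XT.lf (nat_lit 76) (nat_lit 776447685) (nat_lit 0) (nat_lit 6172435054) (nat_lit 1748) (nat_lit 4400530392) (nat_lit 497) (nat_lit 5) (nat_lit 496) (nat_lit 5) (nat_lit 519) (nat_lit 5) (nat_lit 438) (nat_lit 429) (nat_lit 333)))) (XT.nd (nat_lit 78) (nat_lit 1672) (nat_lit 0) (XT.lf (nat_lit 0) (nat_lit 8596487975) (nat_lit 1672) (nat_lit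 1763809923) (nat_lit 1748) (nat_lit 1151141370) (nat_lit 497) (nat_lit 5) (nat_lit 519) (nat_lit 5) (nat_lit 520) (nat_lit 5) (nat_lit 439) (nat_lit 429) (nat_lit 332)) (XT.nd (nat_lit 78) (nat_lit 1672) (nat_lit 0) (XT.lf (nat_lit 76) (nat_lit 7341983153) (nat_lit 0) (nat_lit 3008989783) (nat_lit 1748) (nat_lit 1326209272) (nat_lit 498) (nat_lit 5) (nat_lit 497) (nat_lit 5) (nat_lit 520) (nat_lit 5) (nat_lit 440) (nat_lit 429) (nat_lit 331)) (XT.lf (nat_lit 0) (nat_lit 349267846) (nat_lit 1748) (nat_lit 6940185144) (nat_lit 1824) (nat_lit 4557546152) (nat_lit 475) (nat_lit 5) (nat_lit 498) (nat_lit 5) (nat_lit 499) (nat_lit 5) (nat_lit 441) (nat_lit 429) (nat_lit 330)))))) (XT.nd (nat_lit 468) (nat_lit 4636) (nat_lit 0) (XT.nd (nat_lit 234) (nat_lit 3268) (nat_lit 0) (XT.nd (nat_lit 78) (nat_lit 0) (nat_lit 0) (XT.lf (nat_lit 0) (nat_lit 2094813423) (nat_lit 1748) (nat_lit 9579328314) (nat_lit 1824)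 (nat_lit 346841748) (nat_lit 476) (nat_lit 5) (nat_lit 499) (nat_lit 5) (nat_lit 500) (nat_lit 5) (nat_lit 442) (nat_lit 429) (nat_lit 329)) (XT.nd (nat_lit 78) (nat_lit 0) (nat_lit 76) (XT.lf (nat_lit 0) (nat_lit 3959463999) (nat_lit 1748) (nat_lit 71610348) (nat_lit 1824) (nat_lit 8167782771) (nat_lit 476) (nat_lit 5) (nat_lit 499) (nat_lit 5) (nat_lit 500) (nat_lit 5) (nat_lit 443) (nat_lit 429) (nat_lit 328)) (XT.lf (nat_lit 0) (nat_lit 5940768242) (nat_lit 1748) (nat_lit 2579111730) (nat_lit 1824) (nat_lit 3860977104) (nat_lit 477) (nat_lit 5) (nat_lit 500) (nat_lit 5) (nat_lit 501) (nat_lit 5) (nat_lit 444) (nat_lit 429) (nat_lit 327)))) (XT.nd (nat_lit 78) (nat_lit 3344) (nat_lit 0) (XT.lf (nat_lit 76) (nat_lit 7451940733) (nat_lit 0) (nat_lit 577627296) (nat_lit 1824) (nat_lit 4537792147) (nat_lit 478) (nat_lit 5) (nat_lit 477) (nat_lit 5) (nat_lit 501) (nat_lit 5) (nat_lit 445) (nat_lit 429)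 (nat_lit 326)) (XT.nd (nat_lit 78) (nat_lit 1672) (nat_lit 0) (XT.lf (nat_lit 0) (nat_lit 5053910126) (nat_lit 1748) (nat_lit 5199811663) (nat_lit 1824) (nat_lit 2504286927) (nat_lit 455) (nat_lit 5) (nat_lit 478) (nat_lit 5) (nat_lit 479) (nat_lit 5) (nat_lit 446) (nat_lit 429) (nat_lit 325)) (XT.lf (nat_lit 0) (nat_lit 2632597509) (nat_lit 1672) (nat_lit 9960735247) (nat_lit 1748) (nat_lit 360073333) (nat_lit 433) (nat_lit 5) (nat_lit 455) (nat_lit 5) (nat_lit 456) (nat_lit 5) (nat_lit 447) (nat_lit 429) (nat_lit 324))))) (XT.nd (nat_lit 234) (nat_lit 2660) (nat_lit 0) (XT.nd (nat_lit 78) (nat_lit 912) (nat_lit 0) (XT.lf (nat_lit 0) (nat_lit 163076364) (nat_lit 988) (nat_lit 1723564553) (nat_lit 1064) (nat_lit 11266539923) (nat_lit 419) (nat_lit 5) (nat_lit 432) (nat_lit 5) (nat_lit 433) (nat_lit 5) (nat_lit 448) (nat_lit 429) (nat_lit 323)) (XT.nd (nat_lit 78) (nat_lit 912) (nat_lit 0) (XT.lf (nat_lit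 0) (nat_lit 4284846590) (nat_lit 1064) (nat_lit 2324887113) (nat_lit 76) (nat_lit 6747391610) (nat_lit 419) (nat_lit 5) (nat_lit 433) (nat_lit 5) (nat_lit 420) (nat_lit 5) (nat_lit 449) (nat_lit 429) (nat_lit 322)) (XT.lf (nat_lit 0) (nat_lit 6811281622) (nat_lit 988) (nat_lit 4838172695) (nat_lit 76) (nat_lit 1916611753) (nat_lit 407) (nat_lit 5) (nat_lit 420) (nat_lit 5) (nat_lit 408) (nat_lit 5) (nat_lit 450) (nat_lit 429) (nat_lit 321)))) (XT.nd (nat_lit 78) (nat_lit 1748) (nat_lit 0) (XT.lf (nat_lit 0) (nat_lit 6379714850) (nat_lit 912) (nat_lit 3111257172) (nat_lit 988) (nat_lit 4288757289) (nat_lit 395) (nat_lit 5) (nat_lit 407) (nat_lit 5) (nat_lit 408) (nat_lit 5) (nat_lit 451) (nat_lit 429) (nat_lit 320)) (XT.nd (nat_lit 78) (nat_lit 912) (nat_lit 0) (XT.lf (nat_lit 0) (nat_lit 3993598579) (nat_lit 836) (nat_lit 8329825446) (nat_lit 912) (nat_lit 1674934411) (nat_lit 384) (nat_lit 5) (nat_lit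 395) (nat_lit 5) (nat_lit 396) (nat_lit 5) (nat_lit 452) (nat_lit 429) (nat_lit 319)) (XT.lf (nat_lit 0) (nat_lit 1065759369) (nat_lit 912) (nat_lit 12647694749) (nat_lit 76) (nat_lit 508727491) (nat_lit 372) (nat_lit 5) (nat_lit 384) (nat_lit 5) (nat_lit 373) (nat_lit 5) (nat_lit 453) (nat_lit 429) (nat_lit 318))))))) (XT.nd (nat_lit 858) (nat_lit 5852) (nat_lit 0) (XT.nd (nat_lit 390) (nat_lit 3496) (nat_lit 0) (XT.nd (nat_lit 156) (nat_lit 2432) (nat_lit 0) (XT.nd (nat_lit 78) (nat_lit 760) (nat_lit 0) (XT.lf (nat_lit 0) (nat_lit 3967447930) (nat_lit 912) (nat_lit 903565039) (nat_lit 76) (nat_lit 9579457634) (nat_lit 372) (nat_lit 5) (nat_lit 384) (nat_lit 5) (nat_lit 373) (nat_lit 5) (nat_lit 454) (nat_lit 429) (nat_lit 317)) (XT.lf (nat_lit 0) (nat_lit 7035777423) (nat_lit 836) (nat_lit 3393467488) (nat_lit 76) (nat_lit 4254774606) (nat_lit 362) (nat_lit 5) (nat_lit 373) (nat_lit 5) (nat_lit 363)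 (nat_lit 5) (nat_lit 455) (nat_lit 429) (nat_lit 316))) (XT.nd (nat_lit 78) (nat_lit 1596) (nat_lit 0) (XT.lf (nat_lit 0) (nat_lit 9001546163) (nat_lit 836) (nat_lit 1270392375) (nat_lit 912) (nat_lit 4651123690) (nat_lit 351) (nat_lit 5) (nat_lit 362) (nat_lit 5) (nat_lit 363) (nat_lit 5) (nat_lit 456) (nat_lit 429) (nat_lit 315)) (XT.nd (nat_lit 78) (nat_lit 836) (nat_lit 0) (XT.lf (nat_lit 0) (nat_lit 6657853156) (nat_lit 760) (nat_lit 7045781024) (nat_lit 836) (nat_lit 1463675927) (nat_lit 341) (nat_lit 5) (nat_lit 351) (nat_lit 5) (nat_lit 352) (nat_lit 5) (nat_lit 457) (nat_lit 429) (nat_lit 314)) (XT.lf (nat_lit 0) (nat_lit 1867521201) (nat_lit 836) (nat_lit 11142358628) (nat_lit 76) (nat_lit 2407332329) (nat_lit 330) (nat_lit 5) (nat_lit 341) (nat_lit 5) (nat_lit 331) (nat_lit 5) (nat_lit 458) (nat_lit 429) (nat_lit 313))))) (XT.nd (nat_lit 234) (nat_lit 2052) (nat_lit 0) (XT.nd (nat_lit 78)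 (nat_lit 760) (nat_lit 0) (XT.lf (nat_lit 0) (nat_lit 1830125068) (nat_lit 684) (nat_lit 3545650765) (nat_lit 760) (nat_lit 10296704455) (nat_lit 321) (nat_lit 5) (nat_lit 330) (nat_lit 5) (nat_lit 331) (nat_lit 5) (nat_lit 459) (nat_lit 429) (nat_lit 312)) (XT.nd (nat_lit 78) (nat_lit 760) (nat_lit 0) (XT.lf (nat_lit 0) (nat_lit 9085831588) (nat_lit 760) (nat_lit 652688994) (nat_lit 76) (nat_lit 6194957394) (nat_lit 321) (nat_lit 5) (nat_lit 331) (nat_lit 5) (nat_lit 322) (nat_lit 5) (nat_lit 460) (nat_lit 429) (nat_lit 311)) (XT.lf (nat_lit 0) (nat_lit 12996940667) (nat_lit 836) (nat_lit 3142375898) (nat_lit 76) (nat_lit 61196505) (nat_lit 311) (nat_lit 5) (nat_lit 322) (nat_lit 5) (nat_lit 312) (nat_lit 5) (nat_lit 461) (nat_lit 429) (nat_lit 310)))) (XT.nd (nat_lit 78) (nat_lit 1292) (nat_lit 0) (XT.lf (nat_lit 0) (nat_lit 664157197) (nat_lit 760) (nat_lit 5709375462) (nat_lit 76) (nat_lit 10099526661)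 (nat_lit 301) (nat_lit 5) (nat_lit 311) (nat_lit 5) (nat_lit 302) (nat_lit 5) (nat_lit 462) (nat_lit 429) (nat_lit 309)) (XT.nd (nat_lit 78) (nat_lit 608) (nat_lit 0) (XT.lf (nat_lit 0) (nat_lit 4686995465) (nat_lit 760) (nat_lit 8332566121) (nat_lit 76) (nat_lit 3732147161) (nat_lit 292) (nat_lit 5) (nat_lit 302) (nat_lit 5) (nat_lit 293) (nat_lit 5) (nat_lit 463) (nat_lit 429) (nat_lit 308)) (XT.lf (nat_lit 0) (nat_lit 6026309976) (nat_lit 608) (nat_lit 2906821462) (nat_lit 684) (nat_lit 8103536219) (nat_lit 284) (nat_lit 5) (nat_lit 292) (nat_lit 5) (nat_lit 293) (nat_lit 5) (nat_lit 464) (nat_lit 429) (nat_lit 307)))))) (XT.nd (nat_lit 468) (nat_lit 2660) (nat_lit 0) (XT.nd (nat_lit 234) (nat_lit 1824) (nat_lit 0) (XT.nd (nat_lit 78) (nat_lit 684) (nat_lit 0) (XT.lf (nat_lit 0) (nat_lit 3577196370) (nat_lit 684) (nat_lit 9840558385) (nat_lit 760) (nat_lit 3910200699) (nat_lit 275) (nat_lit 5) (nat_lit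 284) (nat_lit 5) (nat_lit 285) (nat_lit 5) (nat_lit 465) (nat_lit 429) (nat_lit 306)) (XT.nd (nat_lit 78) (nat_lit 0) (nat_lit 0) (XT.lf (nat_lit 0) (nat_lit 491737713) (nat_lit 684) (nat_lit 16533242572) (nat_lit 76) (nat_lit 601187257) (nat_lit 266) (nat_lit 5) (nat_lit 275) (nat_lit 5) (nat_lit 267) (nat_lit 5) (nat_lit 466) (nat_lit 429) (nat_lit 305)) (XT.lf (nat_lit 0) (nat_lit 5115408719) (nat_lit 684) (nat_lit 1475302692) (nat_lit 76) (nat_lit 11339243696) (nat_lit 266) (nat_lit 5) (nat_lit 275) (nat_lit 5) (nat_lit 267) (nat_lit 5) (nat_lit 467) (nat_lit 429) (nat_lit 304)))) (XT.nd (nat_lit 78) (nat_lit 1216) (nat_lit 0) (XT.lf (nat_lit 0) (nat_lit 9980944793) (nat_lit 684) (nat_lit 4069093084) (nat_lit 76) (nat_lit 4190757286) (nat_lit 258) (nat_lit 5) (nat_lit 267) (nat_lit 5) (nat_lit 259) (nat_lit 5) (nat_lit 468) (nat_lit 429) (nat_lit 303)) (XT.nd (nat_lit 78) (nat_lit 684) (nat_lit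 0) (XT.lf (nat_lit 0) (nat_lit 11837918847) (nat_lit 532) (nat_lit 3269239397) (nat_lit 608) (nat_lit 3451509853) (nat_lit 251) (nat_lit 5) (nat_lit 258) (nat_lit 5) (nat_lit 259) (nat_lit 5) (nat_lit 469) (nat_lit 429) (nat_lit 302)) (XT.lf (nat_lit 0) (nat_lit 1606184753) (nat_lit 684) (nat_lit 9449742273) (nat_lit 76) (nat_lit 7827461267) (nat_lit 242) (nat_lit 5) (nat_lit 251) (nat_lit 5) (nat_lit 243) (nat_lit 5) (nat_lit 470) (nat_lit 429) (nat_lit 301))))) (XT.nd (nat_lit 234) (nat_lit 1064) (nat_lit 0) (XT.nd (nat_lit 78) (nat_lit 1064) (nat_lit 0) (XT.lf (nat_lit 0) (nat_lit 6866916578) (nat_lit 608) (nat_lit 12242779266) (nat_lit 76) (nat_lit 105735744) (nat_lit 235) (nat_lit 5) (nat_lit 243) (nat_lit 5) (nat_lit 236) (nat_lit 5) (nat_lit 471) (nat_lit 429) (nat_lit 300)) (XT.nd (nat_lit 78) (nat_lit 532) (nat_lit 0) (XT.lf (nat_lit 0) (nat_lit 4424052835) (nat_lit 532) (nat_lit 8013085536)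 (nat_lit 608) (nat_lit 7117266157) (nat_lit 228) (nat_lit 5) (nat_lit 235) (nat_lit 5) (nat_lit 236) (nat_lit 5) (nat_lit 472) (nat_lit 429) (nat_lit 299)) (XT.lf (nat_lit 0) (nat_lit 1837490700) (nat_lit 532) (nat_lit 16439434184) (nat_lit 608) (nat_lit 1624574270) (nat_lit 221) (nat_lit 5) (nat_lit 228) (nat_lit 5) (nat_lit 229) (nat_lit 5) (nat_lit 473) (nat_lit 429) (nat_lit 298)))) (XT.nd (nat_lit 78) (nat_lit 988) (nat_lit 0) (XT.lf (nat_lit 0) (nat_lit 4121847129) (nat_lit 608) (nat_lit 836260475) (nat_lit 76) (nat_lit 15297540088) (nat_lit 220) (nat_lit 5) (nat_lit 228) (nat_lit 5) (nat_lit 221) (nat_lit 5) (nat_lit 474) (nat_lit 429) (nat_lit 297)) (XT.nd (nat_lit 78) (nat_lit 456) (nat_lit 0) (XT.lf (nat_lit 0) (nat_lit 10160598202) (nat_lit 608) (nat_lit 3561622664) (nat_lit 76) (nat_lit 6895146412) (nat_lit 213) (nat_lit 5) (nat_lit 221) (nat_lit 5) (nat_lit 214) (nat_lit 5) (nat_lit 475)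 (nat_lit 429) (nat_lit 296)) (XT.lf (nat_lit 0) (nat_lit 14645344364) (nat_lit 456) (nat_lit 1854861513) (nat_lit 532) (nat_lit 4487340180) (nat_lit 207) (nat_lit 5) (nat_lit 213) (nat_lit 5) (nat_lit 214) (nat_lit 5) (nat_lit 476) (nat_lit 429) (nat_lit 295))))))))
noncomputable def xc91 : XT := (XT.nd (nat_lit 59358) (nat_lit 0) (nat_lit 14744) (XT.nd (nat_lit 858) (nat_lit 1444) (nat_lit 0) (XT.nd (nat_lit 390) (nat_lit 2128) (nat_lit 0) (XT.nd (nat_lit 156) (nat_lit 1444) (nat_lit 0) (XT.nd (nat_lit 78) (nat_lit 456) (nat_lit 0) (XT.lf (nat_lit 0) (nat_lit 1796927642) (nat_lit 608) (nat_lit 9226307843) (nat_lit 76) (nat_lit 10342229570) (nat_lit 199) (nat_lit 5) (nat_lit 207) (nat_lit 5) (nat_lit 200) (nat_lit 5) (nat_lit 477) (nat_lit 429) (nat_lit 294)) (XT.lf (nat_lit 0) (nat_lit 8321273663) (nat_lit 532) (nat_lit 12188935217) (nat_lit 76) (nat_lit 1241670580) (nat_lit 193) (nat_lit 5) (nat_lit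 200) (nat_lit 5) (nat_lit 194) (nat_lit 5) (nat_lit 478) (nat_lit 429) (nat_lit 293))) (XT.nd (nat_lit 78) (nat_lit 988) (nat_lit 0) (XT.lf (nat_lit 0) (nat_lit 6890384098) (nat_lit 456) (nat_lit 8318786427) (nat_lit 532) (nat_lit 6937360698) (nat_lit 187) (nat_lit 5) (nat_lit 193) (nat_lit 5) (nat_lit 194) (nat_lit 5) (nat_lit 479) (nat_lit 429) (nat_lit 292)) (XT.nd (nat_lit 78) (nat_lit 532) (nat_lit 0) (XT.lf (nat_lit 0) (nat_lit 4164815701) (nat_lit 456) (nat_lit 18263256526) (nat_lit 532) (nat_lit 122464248) (nat_lit 181) (nat_lit 5) (nat_lit 187) (nat_lit 5) (nat_lit 188) (nat_lit 5) (nat_lit 480) (nat_lit 429) (nat_lit 291)) (XT.lf (nat_lit 0) (nat_lit 1309560958) (nat_lit 456) (nat_lit 5651906464) (nat_lit 532) (nat_lit 16001199272) (nat_lit 174) (nat_lit 5) (nat_lit 180) (nat_lit 5) (nat_lit 181) (nat_lit 5) (nat_lit 481) (nat_lit 429) (nat_lit 290))))) (XT.nd (nat_lit 234) (nat_lit 1216)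 (nat_lit 0) (XT.nd (nat_lit 78) (nat_lit 912) (nat_lit 0) (XT.lf (nat_lit 0) (nat_lit 14416382262) (nat_lit 532) (nat_lit 1605657389) (nat_lit 76) (nat_lit 7361903595) (nat_lit 174) (nat_lit 5) (nat_lit 181) (nat_lit 5) (nat_lit 175) (nat_lit 5) (nat_lit 482) (nat_lit 429) (nat_lit 289)) (XT.nd (nat_lit 78) (nat_lit 532) (nat_lit 0) (XT.lf (nat_lit 0) (nat_lit 19239228698) (nat_lit 380) (nat_lit 3005868473) (nat_lit 456) (nat_lit 1569759033) (nat_lit 169) (nat_lit 5) (nat_lit 174) (nat_lit 5) (nat_lit 175) (nat_lit 5) (nat_lit 483) (nat_lit 429) (nat_lit 288)) (XT.lf (nat_lit 0) (nat_lit 6145722523) (nat_lit 532) (nat_lit 7690940904) (nat_lit 76) (nat_lit 10417746780) (nat_lit 162) (nat_lit 5) (nat_lit 169) (nat_lit 5) (nat_lit 163) (nat_lit 5) (nat_lit 484) (nat_lit 429) (nat_lit 287)))) (XT.nd (nat_lit 78) (nat_lit 836) (nat_lit 0) (XT.lf (nat_lit 0) (nat_lit 13825066237) (nat_lit 380) (nat_lit 375283197)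 (nat_lit 456) (nat_lit 10504014792) (nat_lit 157) (nat_lit 5) (nat_lit 162) (nat_lit 5) (nat_lit 163) (nat_lit 5) (nat_lit 485) (nat_lit 429) (nat_lit 286)) (XT.nd (nat_lit 78) (nat_lit 456) (nat_lit 0) (XT.lf (nat_lit 0) (nat_lit 10962709251) (nat_lit 380) (nat_lit 11733140960) (nat_lit 456) (nat_lit 2467982998) (nat_lit 152) (nat_lit 5) (nat_lit 157) (nat_lit 5) (nat_lit 158) (nat_lit 5) (nat_lit 486) (nat_lit 429) (nat_lit 285)) (XT.lf (nat_lit 0) (nat_lit 5863983370) (nat_lit 456) (nat_lit 17628388979) (nat_lit 76) (nat_lit 2141339740) (nat_lit 146) (nat_lit 5) (nat_lit 152) (nat_lit 5) (nat_lit 147) (nat_lit 5) (nat_lit 487) (nat_lit 429) (nat_lit 284)))))) (XT.nd (nat_lit 58032) (nat_lit 0) (nat_lit 27740) (XT.nd (nat_lit 234) (nat_lit 684) (nat_lit 0) (XT.nd (nat_lit 78) (nat_lit 380) (nat_lit 0) (XT.lf (nat_lit 0) (nat_lit 4907387810) (nat_lit 380) (nat_lit 9700731588) (nat_lit 456) (nat_lit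 11505327819) (nat_lit 141) (nat_lit 5) (nat_lit 146) (nat_lit 5) (nat_lit 147) (nat_lit 5) (nat_lit 488) (nat_lit 429) (nat_lit 283)) (XT.nd (nat_lit 78) (nat_lit 76) (nat_lit 0) (XT.lf (nat_lit 0) (nat_lit 1730153138) (nat_lit 304) (nat_lit 22033691928) (nat_lit 380) (nat_lit 2840744956) (nat_lit 137) (nat_lit 5) (nat_lit 141) (nat_lit 5) (nat_lit 142) (nat_lit 5) (nat_lit 489) (nat_lit 429) (nat_lit 282)) (XT.lf (nat_lit 0) (nat_lit 6202192136) (nat_lit 380) (nat_lit 1585908074) (nat_lit 76) (nat_lit 19317613663) (nat_lit 136) (nat_lit 5) (nat_lit 141) (nat_lit 5) (nat_lit 137) (nat_lit 5) (nat_lit 490) (nat_lit 429) (nat_lit 281)))) (XT.nd (nat_lit 78) (nat_lit 304) (nat_lit 0) (XT.lf (nat_lit 0) (nat_lit 15659954916) (nat_lit 456) (nat_lit 5002229183) (nat_lit 76) (nat_lit 6955670016) (nat_lit 131) (nat_lit 5) (nat_lit 137) (nat_lit 5) (nat_lit 132) (nat_lit 5) (nat_lit 491) (nat_lit 429) (nat_lit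 280)) (XT.nd (nat_lit 57642) (nat_lit 0) (nat_lit 29336) (XT.lf (nat_lit 0) (nat_lit 19607677239) (nat_lit 304) (nat_lit 5973162426) (nat_lit 380) (nat_lit 2560931956) (nat_lit 127) (nat_lit 5) (nat_lit 131) (nat_lit 5) (nat_lit 132) (nat_lit 5) (nat_lit 492) (nat_lit 429) (nat_lit 279)) (XT.lf (nat_lit 0) (nat_lit 1953041148) (nat_lit 0) (nat_lit 1953041148) (nat_lit 1596) (nat_lit 1253127920) (nat_lit 513) (nat_lit 5) (nat_lit 513) (nat_lit 3) (nat_lit 534) (nat_lit 3) (nat_lit 430) (nat_lit 430) (nat_lit 340))))) (XT.nd (nat_lit 234) (nat_lit 0) (nat_lit 76) (XT.nd (nat_lit 78) (nat_lit 1596) (nat_lit 0) (XT.lf (nat_lit 76) (nat_lit 1178966336) (nat_lit 0) (nat_lit 7752134843) (nat_lit 1672) (nat_lit 1521898117) (nat_lit 514) (nat_lit 5) (nat_lit 513) (nat_lit 5) (nat_lit 535) (nat_lit 5) (nat_lit 431) (nat_lit 430) (nat_lit 339)) (XT.nd (nat_lit 78) (nat_lit 1596) (nat_lit 0) (XT.lf (nat_lit 76)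 (nat_lit 9039104279) (nat_lit 0) (nat_lit 1075790530) (nat_lit 1672) (nat_lit 476101274) (nat_lit 514) (nat_lit 5) (nat_lit 513) (nat_lit 5) (nat_lit 535) (nat_lit 5) (nat_lit 432) (nat_lit 430) (nat_lit 338)) (XT.lf (nat_lit 0) (nat_lit 635970043) (nat_lit 1672) (nat_lit 4308397085) (nat_lit 1748) (nat_lit 5787837953) (nat_lit 492) (nat_lit 5) (nat_lit 514) (nat_lit 5) (nat_lit 515) (nat_lit 5) (nat_lit 433) (nat_lit 430) (nat_lit 337)))) (XT.nd (nat_lit 78) (nat_lit 0) (nat_lit 0) (XT.lf (nat_lit 0) (nat_lit 1794358582) (nat_lit 1672) (nat_lit 7089228974) (nat_lit 1748) (nat_lit 1993617237) (nat_lit 493) (nat_lit 5) (nat_lit 515) (nat_lit 5) (nat_lit 516) (nat_lit 5) (nat_lit 434) (nat_lit 430) (nat_lit 336)) (XT.nd (nat_lit 78) (nat_lit 0) (nat_lit 76) (XT.lf (nat_lit 76) (nat_lit 1120573007) (nat_lit 0) (nat_lit 1901484025) (nat_lit 1748) (nat_lit 8003811987) (nat_lit 494) (nat_lit 5) (nat_lit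 493) (nat_lit 5) (nat_lit 516) (nat_lit 5) (nat_lit 435) (nat_lit 430) (nat_lit 335)) (XT.lf (nat_lit 0) (nat_lit 4335096643) (nat_lit 1672) (nat_lit 1560534486) (nat_lit 1748) (nat_lit 5282397356) (nat_lit 494) (nat_lit 5) (nat_lit 516) (nat_lit 5) (nat_lit 517) (nat_lit 5) (nat_lit 436) (nat_lit 430) (nat_lit 334))))))) (XT.nd (nat_lit 936) (nat_lit 8436) (nat_lit 0) (XT.nd (nat_lit 468) (nat_lit 3192) (nat_lit 0) (XT.nd (nat_lit 234) (nat_lit 1596) (nat_lit 0) (XT.nd (nat_lit 78) (nat_lit 0) (nat_lit 0) (XT.lf (nat_lit 0) (nat_lit 5722070247) (nat_lit 1672) (nat_lit 4249236741) (nat_lit 1748) (nat_lit 1362760249) (nat_lit 495) (nat_lit 5) (nat_lit 517) (nat_lit 5) (nat_lit 518) (nat_lit 5) (nat_lit 437) (nat_lit 430) (nat_lit 333)) (XT.nd (nat_lit 78) (nat_lit 0) (nat_lit 76) (XT.lf (nat_lit 76) (nat_lit 4514749735) (nat_lit 0) (nat_lit 2682999736) (nat_lit 1748) (nat_lit 4296100957) (nat_lit 496)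 (nat_lit 5) (nat_lit 495) (nat_lit 5) (nat_lit 518) (nat_lit 5) (nat_lit 438) (nat_lit 430) (nat_lit 332)) (XT.lf (nat_lit 76) (nat_lit 1913894595) (nat_lit 0) (nat_lit 6845120837) (nat_lit 1748) (nat_lit 2898590407) (nat_lit 497) (nat_lit 5) (nat_lit 496) (nat_lit 5) (nat_lit 519) (nat_lit 5) (nat_lit 439) (nat_lit 430) (nat_lit 331)))) (XT.nd (nat_lit 78) (nat_lit 1748) (nat_lit 0) (XT.lf (nat_lit 0) (nat_lit 10406325288) (nat_lit 1672) (nat_lit 700599539) (nat_lit 1748) (nat_lit 718569870) (nat_lit 497) (nat_lit 5) (nat_lit 519) (nat_lit 5) (nat_lit 520) (nat_lit 5) (nat_lit 440) (nat_lit 430) (nat_lit 330)) (XT.nd (nat_lit 78) (nat_lit 0) (nat_lit 76) (XT.lf (nat_lit 0) (nat_lit 176053344) (nat_lit 1748) (nat_lit 3337877351) (nat_lit 1824) (nat_lit 8483024778) (nat_lit 474) (nat_lit 5) (nat_lit 497) (nat_lit 5) (nat_lit 498) (nat_lit 5) (nat_lit 441) (nat_lit 430) (nat_lit 329)) (XT.lf (nat_lit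 0) (nat_lit 1844121972) (nat_lit 1748) (nat_lit 6015551160) (nat_lit 1824) (nat_lit 4312818455) (nat_lit 475) (nat_lit 5) (nat_lit 498) (nat_lit 5) (nat_lit 499) (nat_lit 5) (nat_lit 442) (nat_lit 430) (nat_lit 328))))) (XT.nd (nat_lit 234) (nat_lit 3344) (nat_lit 0) (XT.nd (nat_lit 78) (nat_lit 0) (nat_lit 0) (XT.lf (nat_lit 0) (nat_lit 3603867468) (nat_lit 1748) (nat_lit 8720888727) (nat_lit 1824) (nat_lit 27709293) (nat_lit 476) (nat_lit 5) (nat_lit 499) (nat_lit 5) (nat_lit 500) (nat_lit 5) (nat_lit 443) (nat_lit 430) (nat_lit 327)) (XT.nd (nat_lit 78) (nat_lit 0) (nat_lit 76) (XT.lf (nat_lit 76) (nat_lit 1052491005) (nat_lit 0) (nat_lit 4436677414) (nat_lit 1824) (nat_lit 7047219197) (nat_lit 477) (nat_lit 5) (nat_lit 476) (nat_lit 5) (nat_lit 500) (nat_lit 5) (nat_lit 444) (nat_lit 430) (nat_lit 326)) (XT.lf (nat_lit 0) (nat_lit 7487496820) (nat_lit 1748) (nat_lit 1532679396) (nat_lit 1824) (nat_lit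 3704525971) (nat_lit 477) (nat_lit 5) (nat_lit 500) (nat_lit 5) (nat_lit 501) (nat_lit 5) (nat_lit 445) (nat_lit 430) (nat_lit 325)))) (XT.nd (nat_lit 78) (nat_lit 3420) (nat_lit 0) (XT.lf (nat_lit 76) (nat_lit 8781072228) (nat_lit 0) (nat_lit 825207103) (nat_lit 1824) (nat_lit 3311180805) (nat_lit 478) (nat_lit 5) (nat_lit 477) (nat_lit 5) (nat_lit 501) (nat_lit 5) (nat_lit 446) (nat_lit 430) (nat_lit 324)) (XT.nd (nat_lit 78) (nat_lit 1748) (nat_lit 0) (XT.lf (nat_lit 0) (nat_lit 6321118865) (nat_lit 1748) (nat_lit 5542923096) (nat_lit 1824) (nat_lit 1250454439) (nat_lit 455) (nat_lit 5) (nat_lit 478) (nat_lit 5) (nat_lit 479) (nat_lit 5) (nat_lit 447) (nat_lit 430) (nat_lit 323)) (XT.lf (nat_lit 0) (nat_lit 913482279) (nat_lit 1748) (nat_lit 9486318090) (nat_lit 76) (nat_lit 2916477336) (nat_lit 432) (nat_lit 5) (nat_lit 455) (nat_lit 5) (nat_lit 433) (nat_lit 5) (nat_lit 448) (nat_lit 430) (nat_lit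 322)))))) (XT.nd (nat_lit 468) (nat_lit 3876) (nat_lit 0) (XT.nd (nat_lit 234) (nat_lit 2660) (nat_lit 0) (XT.nd (nat_lit 78) (nat_lit 912) (nat_lit 0) (XT.lf (nat_lit 0) (nat_lit 1291152596) (nat_lit 988) (nat_lit 1901606909) (nat_lit 1064) (nat_lit 10329843021) (nat_lit 419) (nat_lit 5) (nat_lit 432) (nat_lit 5) (nat_lit 433) (nat_lit 5) (nat_lit 449) (nat_lit 430) (nat_lit 321)) (XT.nd (nat_lit 78) (nat_lit 912) (nat_lit 0) (XT.lf (nat_lit 0) (nat_lit 5625721219) (nat_lit 1064) (nat_lit 1278926996) (nat_lit 76) (nat_lit 6828766263) (nat_lit 419) (nat_lit 5) (nat_lit 433) (nat_lit 5) (nat_lit 420) (nat_lit 5) (nat_lit 450) (nat_lit 430) (nat_lit 320)) (XT.lf (nat_lit 0) (nat_lit 8199203255) (nat_lit 988) (nat_lit 3861294564) (nat_lit 76) (nat_lit 1888705744) (nat_lit 407) (nat_lit 5) (nat_lit 420) (nat_lit 5) (nat_lit 408) (nat_lit 5) (nat_lit 451) (nat_lit 430) (nat_lit 319)))) (XT.nd (nat_lit 78)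 (nat_lit 1748) (nat_lit 0) (XT.lf (nat_lit 0) (nat_lit 7674926112) (nat_lit 912) (nat_lit 3257051689) (nat_lit 988) (nat_lit 3237850066) (nat_lit 395) (nat_lit 5) (nat_lit 407) (nat_lit 5) (nat_lit 408) (nat_lit 5) (nat_lit 452) (nat_lit 430) (nat_lit 318)) (XT.nd (nat_lit 78) (nat_lit 912) (nat_lit 0) (XT.lf (nat_lit 0) (nat_lit 5222568664) (nat_lit 836) (nat_lit 8600027491) (nat_lit 912) (nat_lit 572960741) (nat_lit 384) (nat_lit 5) (nat_lit 395) (nat_lit 5) (nat_lit 396) (nat_lit 5) (nat_lit 453) (nat_lit 430) (nat_lit 317)) (XT.lf (nat_lit 0) (nat_lit 2208872326) (nat_lit 912) (nat_lit 11898523901) (nat_lit 76) (nat_lit 519072968) (nat_lit 372) (nat_lit 5) (nat_lit 384) (nat_lit 5) (nat_lit 373) (nat_lit 5) (nat_lit 454) (nat_lit 430) (nat_lit 316))))) (XT.nd (nat_lit 234) (nat_lit 2280) (nat_lit 0) (XT.nd (nat_lit 78) (nat_lit 836) (nat_lit 0) (XT.lf (nat_lit 0) (nat_lit 167251337) (nat_lit 760)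 (nat_lit 4999082808) (nat_lit 836) (nat_lit 9695902778) (nat_lit 362) (nat_lit 5) (nat_lit 372) (nat_lit 5) (nat_lit 373) (nat_lit 5) (nat_lit 455) (nat_lit 430) (nat_lit 315)) (XT.nd (nat_lit 78) (nat_lit 836) (nat_lit 0) (XT.lf (nat_lit 0) (nat_lit 8301358929) (nat_lit 836) (nat_lit 2396238586) (nat_lit 76) (nat_lit 4405706265) (nat_lit 362) (nat_lit 5) (nat_lit 373) (nat_lit 5) (nat_lit 363) (nat_lit 5) (nat_lit 456) (nat_lit 430) (nat_lit 314)) (XT.lf (nat_lit 0) (nat_lit 10352794970) (nat_lit 836) (nat_lit 1258115960) (nat_lit 912) (nat_lit 3739084980) (nat_lit 351) (nat_lit 5) (nat_lit 362) (nat_lit 5) (nat_lit 363) (nat_lit 5) (nat_lit 457) (nat_lit 430) (nat_lit 313)))) (XT.nd (nat_lit 78) (nat_lit 1520) (nat_lit 0) (XT.lf (nat_lit 0) (nat_lit 7941349511) (nat_lit 760) (nat_lit 7181538334) (nat_lit 836) (nat_lit 479140906) (nat_lit 341) (nat_lit 5) (nat_lit 351) (nat_lit 5) (nat_lit 352) (nat_lit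 5) (nat_lit 458) (nat_lit 430) (nat_lit 312)) (XT.nd (nat_lit 78) (nat_lit 684) (nat_lit 0) (XT.lf (nat_lit 0) (nat_lit 2916517389) (nat_lit 836) (nat_lit 10377635847) (nat_lit 76) (nat_lit 2565584742) (nat_lit 330) (nat_lit 5) (nat_lit 341) (nat_lit 5) (nat_lit 331) (nat_lit 5) (nat_lit 459) (nat_lit 430) (nat_lit 311)) (XT.lf (nat_lit 0) (nat_lit 2966192495) (nat_lit 684) (nat_lit 3541925324) (nat_lit 760) (nat_lit 9614988190) (nat_lit 321) (nat_lit 5) (nat_lit 330) (nat_lit 5) (nat_lit 331) (nat_lit 5) (nat_lit 460) (nat_lit 430) (nat_lit 310))))))))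
noncomputable def xc92 : XT := (XT.nd (nat_lit 1794) (nat_lit 3268) (nat_lit 0) (XT.nd (nat_lit 858) (nat_lit 5168) (nat_lit 0) (XT.nd (nat_lit 390) (nat_lit 3192) (nat_lit 0) (XT.nd (nat_lit 156) (nat_lit 2052) (nat_lit 0) (XT.nd (nat_lit 78) (nat_lit 0) (nat_lit 0) (XT.lf (nat_lit 0) (nat_lit 400947625) (nat_lit 760) (nat_lit 9903541275) (nat_lit 836) (nat_lit 6087948163) (nat_lit 311) (nat_lit 5) (nat_lit 321) (nat_lit 5) (nat_lit 322) (nat_lit 5) (nat_lit 461) (nat_lit 430) (nat_lit 309)) (XT.lf (nat_lit 0) (nat_lit 14310499301) (nat_lit 836) (nat_lit 2168268172) (nat_lit 76) (nat_lit 189167977) (nat_lit 311) (nat_lit 5) (nat_lit 322) (nat_lit 5) (nat_lit 312) (nat_lit 5) (nat_lit 462) (nat_lit 430) (nat_lit 308))) (XT.nd (nat_lit 78) (nat_lit 1292) (nat_lit 0) (XT.lf (nat_lit 0) (nat_lit 1593752876) (nat_lit 760) (nat_lit 4817407629) (nat_lit 76) (nat_lit 10537782949) (nat_lit 301) (nat_lit 5)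 (nat_lit 311) (nat_lit 5) (nat_lit 302) (nat_lit 5) (nat_lit 463) (nat_lit 430) (nat_lit 307)) (XT.nd (nat_lit 78) (nat_lit 608) (nat_lit 0) (XT.lf (nat_lit 0) (nat_lit 5718585406) (nat_lit 760) (nat_lit 7519646788) (nat_lit 76) (nat_lit 3998097316) (nat_lit 292) (nat_lit 5) (nat_lit 302) (nat_lit 5) (nat_lit 293) (nat_lit 5) (nat_lit 464) (nat_lit 430) (nat_lit 306)) (XT.lf (nat_lit 0) (nat_lit 7252751363) (nat_lit 608) (nat_lit 2820192286) (nat_lit 684) (nat_lit 7457280004) (nat_lit 284) (nat_lit 5) (nat_lit 292) (nat_lit 5) (nat_lit 293) (nat_lit 5) (nat_lit 465) (nat_lit 430) (nat_lit 305))))) (XT.nd (nat_lit 234) (nat_lit 1824) (nat_lit 0) (XT.nd (nat_lit 78) (nat_lit 684) (nat_lit 0) (XT.lf (nat_lit 0) (nat_lit 4729348955) (nat_lit 684) (nat_lit 9945243491) (nat_lit 760) (nat_lit 3156011040) (nat_lit 275) (nat_lit 5) (nat_lit 284) (nat_lit 5) (nat_lit 285) (nat_lit 5) (nat_lit 466) (nat_lit 430)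 (nat_lit 304)) (XT.nd (nat_lit 78) (nat_lit 0) (nat_lit 0) (XT.lf (nat_lit 0) (nat_lit 1349534707) (nat_lit 684) (nat_lit 15974356522) (nat_lit 76) (nat_lit 814100944) (nat_lit 266) (nat_lit 5) (nat_lit 275) (nat_lit 5) (nat_lit 267) (nat_lit 5) (nat_lit 467) (nat_lit 430) (nat_lit 303)) (XT.lf (nat_lit 0) (nat_lit 6087361139) (nat_lit 684) (nat_lit 495403204) (nat_lit 76) (nat_lit 11868623016) (nat_lit 266) (nat_lit 5) (nat_lit 275) (nat_lit 5) (nat_lit 267) (nat_lit 5) (nat_lit 468) (nat_lit 430) (nat_lit 302)))) (XT.nd (nat_lit 78) (nat_lit 1216) (nat_lit 0) (XT.lf (nat_lit 0) (nat_lit 11082905176) (nat_lit 684) (nat_lit 3168845196) (nat_lit 76) (nat_lit 4520124218) (nat_lit 258) (nat_lit 5) (nat_lit 267) (nat_lit 5) (nat_lit 259) (nat_lit 5) (nat_lit 469) (nat_lit 430) (nat_lit 301)) (XT.nd (nat_lit 78) (nat_lit 684) (nat_lit 0) (XT.lf (nat_lit 0) (nat_lit 13198791154) (nat_lit 532) (nat_lit 3147269054)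 (nat_lit 608) (nat_lit 2753563133) (nat_lit 251) (nat_lit 5) (nat_lit 258) (nat_lit 5) (nat_lit 259) (nat_lit 5) (nat_lit 470) (nat_lit 430) (nat_lit 300)) (XT.lf (nat_lit 0) (nat_lit 2430267539) (nat_lit 684) (nat_lit 8719275847) (nat_lit 76) (nat_lit 8284741942) (nat_lit 242) (nat_lit 5) (nat_lit 251) (nat_lit 5) (nat_lit 243) (nat_lit 5) (nat_lit 471) (nat_lit 430) (nat_lit 299)))))) (XT.nd (nat_lit 468) (nat_lit 2508) (nat_lit 0) (XT.nd (nat_lit 234) (nat_lit 1064) (nat_lit 0) (XT.nd (nat_lit 78) (nat_lit 1064) (nat_lit 0) (XT.lf (nat_lit 0) (nat_lit 7834242380) (nat_lit 608) (nat_lit 11598818110) (nat_lit 76) (nat_lit 343523534) (nat_lit 235) (nat_lit 5) (nat_lit 243) (nat_lit 5) (nat_lit 236) (nat_lit 5) (nat_lit 472) (nat_lit 430) (nat_lit 298)) (XT.nd (nat_lit 78) (nat_lit 532) (nat_lit 0) (XT.lf (nat_lit 0) (nat_lit 5551612713) (nat_lit 532) (nat_lit 8004242945) (nat_lit 608) (nat_lit 6570187250)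 (nat_lit 228) (nat_lit 5) (nat_lit 235) (nat_lit 5) (nat_lit 236) (nat_lit 5) (nat_lit 473) (nat_lit 430) (nat_lit 297)) (XT.lf (nat_lit 0) (nat_lit 2884472199) (nat_lit 532) (nat_lit 16672657832) (nat_lit 608) (nat_lit 926696836) (nat_lit 221) (nat_lit 5) (nat_lit 228) (nat_lit 5) (nat_lit 229) (nat_lit 5) (nat_lit 474) (nat_lit 430) (nat_lit 296)))) (XT.nd (nat_lit 78) (nat_lit 456) (nat_lit 0) (XT.lf (nat_lit 0) (nat_lit 112679544) (nat_lit 532) (nat_lit 4848916411) (nat_lit 608) (nat_lit 15887323806) (nat_lit 213) (nat_lit 5) (nat_lit 220) (nat_lit 5) (nat_lit 221) (nat_lit 5) (nat_lit 475) (nat_lit 430) (nat_lit 295)) (XT.nd (nat_lit 78) (nat_lit 456) (nat_lit 0) (XT.lf (nat_lit 0) (nat_lit 11167816524) (nat_lit 608) (nat_lit 2699274074) (nat_lit 76) (nat_lit 7354676396) (nat_lit 213) (nat_lit 5) (nat_lit 221) (nat_lit 5) (nat_lit 214) (nat_lit 5) (nat_lit 476) (nat_lit 430) (nat_lit 294)) (XT.lf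 (nat_lit 0) (nat_lit 16038177891) (nat_lit 456) (nat_lit 1645166855) (nat_lit 532) (nat_lit 3919993879) (nat_lit 207) (nat_lit 5) (nat_lit 213) (nat_lit 5) (nat_lit 214) (nat_lit 5) (nat_lit 477) (nat_lit 430) (nat_lit 293))))) (XT.nd (nat_lit 234) (nat_lit 988) (nat_lit 0) (XT.nd (nat_lit 78) (nat_lit 912) (nat_lit 0) (XT.lf (nat_lit 0) (nat_lit 2531310096) (nat_lit 608) (nat_lit 8544067410) (nat_lit 76) (nat_lit 10917374276) (nat_lit 199) (nat_lit 5) (nat_lit 207) (nat_lit 5) (nat_lit 200) (nat_lit 5) (nat_lit 478) (nat_lit 430) (nat_lit 292)) (XT.nd (nat_lit 78) (nat_lit 456) (nat_lit 0) (XT.lf (nat_lit 0) (nat_lit 9239488940) (nat_lit 532) (nat_lit 11599527803) (nat_lit 76) (nat_lit 1551981799) (nat_lit 193) (nat_lit 5) (nat_lit 200) (nat_lit 5) (nat_lit 194) (nat_lit 5) (nat_lit 479) (nat_lit 430) (nat_lit 291)) (XT.lf (nat_lit 0) (nat_lit 8036676126) (nat_lit 456) (nat_lit 8283973842) (nat_lit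 532) (nat_lit 6477109260) (nat_lit 187) (nat_lit 5) (nat_lit 193) (nat_lit 5) (nat_lit 194) (nat_lit 5) (nat_lit 480) (nat_lit 430) (nat_lit 290)))) (XT.nd (nat_lit 78) (nat_lit 456) (nat_lit 0) (XT.lf (nat_lit 0) (nat_lit 523829147) (nat_lit 532) (nat_lit 17992322095) (nat_lit 76) (nat_lit 4697890677) (nat_lit 180) (nat_lit 5) (nat_lit 187) (nat_lit 5) (nat_lit 181) (nat_lit 5) (nat_lit 481) (nat_lit 430) (nat_lit 289)) (XT.nd (nat_lit 78) (nat_lit 0) (nat_lit 0) (XT.lf (nat_lit 0) (nat_lit 2277681384) (nat_lit 456) (nat_lit 5528090760) (nat_lit 532) (nat_lit 15833006336) (nat_lit 174) (nat_lit 5) (nat_lit 180) (nat_lit 5) (nat_lit 181) (nat_lit 5) (nat_lit 482) (nat_lit 430) (nat_lit 288)) (XT.lf (nat_lit 0) (nat_lit 15467675157) (nat_lit 532) (nat_lit 741499888) (nat_lit 76) (nat_lit 7863853187) (nat_lit 174) (nat_lit 5) (nat_lit 181) (nat_lit 5) (nat_lit 175) (nat_lit 5) (nat_lit 483) (nat_lit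 430) (nat_lit 287))))))) (XT.nd (nat_lit 58500) (nat_lit 0) (nat_lit 26068) (XT.nd (nat_lit 390) (nat_lit 1140) (nat_lit 0) (XT.nd (nat_lit 156) (nat_lit 1216) (nat_lit 0) (XT.nd (nat_lit 78) (nat_lit 532) (nat_lit 0) (XT.lf (nat_lit 0) (nat_lit 20713931357) (nat_lit 380) (nat_lit 2805124148) (nat_lit 456) (nat_lit 998058664) (nat_lit 169) (nat_lit 5) (nat_lit 174) (nat_lit 5) (nat_lit 175) (nat_lit 5) (nat_lit 484) (nat_lit 430) (nat_lit 286)) (XT.lf (nat_lit 0) (nat_lit 6930667982) (nat_lit 532) (nat_lit 7020538593) (nat_lit 76) (nat_lit 11018771527) (nat_lit 162) (nat_lit 5) (nat_lit 169) (nat_lit 5) (nat_lit 163) (nat_lit 5) (nat_lit 485) (nat_lit 430) (nat_lit 285))) (XT.nd (nat_lit 78) (nat_lit 836) (nat_lit 0) (XT.lf (nat_lit 0) (nat_lit 15126328990) (nat_lit 380) (nat_lit 88868087) (nat_lit 456) (nat_lit 10218469940) (nat_lit 157) (nat_lit 5) (nat_lit 162) (nat_lit 5) (nat_lit 163) (nat_lit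 5) (nat_lit 486) (nat_lit 430) (nat_lit 284)) (XT.nd (nat_lit 78) (nat_lit 456) (nat_lit 0) (XT.lf (nat_lit 0) (nat_lit 12173453610) (nat_lit 380) (nat_lit 11782560711) (nat_lit 456) (nat_lit 1951098214) (nat_lit 152) (nat_lit 5) (nat_lit 157) (nat_lit 5) (nat_lit 158) (nat_lit 5) (nat_lit 487) (nat_lit 430) (nat_lit 283)) (XT.lf (nat_lit 0) (nat_lit 6613743570) (nat_lit 456) (nat_lit 17272496963) (nat_lit 76) (nat_lit 2504958613) (nat_lit 146) (nat_lit 5) (nat_lit 152) (nat_lit 5) (nat_lit 147) (nat_lit 5) (nat_lit 488) (nat_lit 430) (nat_lit 282))))) (XT.nd (nat_lit 234) (nat_lit 380) (nat_lit 0) (XT.nd (nat_lit 78) (nat_lit 380) (nat_lit 0) (XT.lf (nat_lit 0) (nat_lit 5924999215) (nat_lit 380) (nat_lit 9684141804) (nat_lit 456) (nat_lit 11276407943) (nat_lit 141) (nat_lit 5) (nat_lit 146) (nat_lit 5) (nat_lit 147) (nat_lit 5) (nat_lit 489) (nat_lit 430) (nat_lit 281)) (XT.nd (nat_lit 78) (nat_lit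 76) (nat_lit 0) (XT.lf (nat_lit 0) (nat_lit 2647479960) (nat_lit 304) (nat_lit 22383224847) (nat_lit 380) (nat_lit 2360899261) (nat_lit 137) (nat_lit 5) (nat_lit 141) (nat_lit 5) (nat_lit 142) (nat_lit 5) (nat_lit 490) (nat_lit 430) (nat_lit 280)) (XT.lf (nat_lit 0) (nat_lit 6929672536) (nat_lit 380) (nat_lit 786031834) (nat_lit 76) (nat_lit 20192310016) (nat_lit 136) (nat_lit 5) (nat_lit 141) (nat_lit 5) (nat_lit 137) (nat_lit 5) (nat_lit 491) (nat_lit 430) (nat_lit 279)))) (XT.nd (nat_lit 57720) (nat_lit 0) (nat_lit 27360) (XT.lf (nat_lit 0) (nat_lit 16662776784) (nat_lit 456) (nat_lit 4309893949) (nat_lit 76) (nat_lit 7463017171) (nat_lit 131) (nat_lit 5) (nat_lit 137) (nat_lit 5) (nat_lit 132) (nat_lit 5) (nat_lit 492) (nat_lit 430) (nat_lit 278)) (XT.nd (nat_lit 78) (nat_lit 1672) (nat_lit 0) (XT.lf (nat_lit 0) (nat_lit 2495130097) (nat_lit 0) (nat_lit 2495130097) (nat_lit 1596) (nat_lit 304225619)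 (nat_lit 513) (nat_lit 5) (nat_lit 513) (nat_lit 3) (nat_lit 534) (nat_lit 3) (nat_lit 431) (nat_lit 431) (nat_lit 338)) (XT.lf (nat_lit 0) (nat_lit 343780388) (nat_lit 1672) (nat_lit 8520790545) (nat_lit 1748) (nat_lit 1864100250) (nat_lit 491) (nat_lit 5) (nat_lit 513) (nat_lit 5) (nat_lit 514) (nat_lit 5) (nat_lit 432) (nat_lit 431) (nat_lit 337)))))) (XT.nd (nat_lit 468) (nat_lit 1292) (nat_lit 0) (XT.nd (nat_lit 234) (nat_lit 0) (nat_lit 152) (XT.nd (nat_lit 78) (nat_lit 0) (nat_lit 76) (XT.lf (nat_lit 0) (nat_lit 1351752683) (nat_lit 1672) (nat_lit 603725049) (nat_lit 1748) (nat_lit 8916300607) (nat_lit 491) (nat_lit 5) (nat_lit 513) (nat_lit 5) (nat_lit 514) (nat_lit 5) (nat_lit 433) (nat_lit 431) (nat_lit 336)) (XT.nd (nat_lit 78) (nat_lit 0) (nat_lit 76) (XT.lf (nat_lit 0) (nat_lit 2438341493) (nat_lit 1672) (nat_lit 3420856663) (nat_lit 1748) (nat_lit 5159018690) (nat_lit 492) (nat_lit 5)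 (nat_lit 514) (nat_lit 5) (nat_lit 515) (nat_lit 5) (nat_lit 434) (nat_lit 431) (nat_lit 335)) (XT.lf (nat_lit 0) (nat_lit 3581247055) (nat_lit 1672) (nat_lit 6261784029) (nat_lit 1748) (nat_lit 1325548564) (nat_lit 493) (nat_lit 5) (nat_lit 515) (nat_lit 5) (nat_lit 516) (nat_lit 5) (nat_lit 435) (nat_lit 431) (nat_lit 334)))) (XT.nd (nat_lit 78) (nat_lit 0) (nat_lit 76) (XT.lf (nat_lit 76) (nat_lit 2177437271) (nat_lit 0) (nat_lit 2624505376) (nat_lit 1748) (nat_lit 6520645988) (nat_lit 494) (nat_lit 5) (nat_lit 493) (nat_lit 5) (nat_lit 516) (nat_lit 5) (nat_lit 436) (nat_lit 431) (nat_lit 333)) (XT.nd (nat_lit 78) (nat_lit 0) (nat_lit 76) (XT.lf (nat_lit 0) (nat_lit 6100974728) (nat_lit 1672) (nat_lit 576644219) (nat_lit 1748) (nat_lit 4802769835) (nat_lit 494) (nat_lit 5) (nat_lit 516) (nat_lit 5) (nat_lit 517) (nat_lit 5) (nat_lit 437) (nat_lit 431) (nat_lit 332)) (XT.lf (nat_lit 0) (nat_lit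 7484724804) (nat_lit 1672) (nat_lit 3326807097) (nat_lit 1748) (nat_lit 830481142) (nat_lit 495) (nat_lit 5) (nat_lit 517) (nat_lit 5) (nat_lit 518) (nat_lit 5) (nat_lit 438) (nat_lit 431) (nat_lit 331))))) (XT.nd (nat_lit 234) (nat_lit 0) (nat_lit 0) (XT.nd (nat_lit 78) (nat_lit 1596) (nat_lit 0) (XT.lf (nat_lit 76) (nat_lit 5683065484) (nat_lit 0) (nat_lit 3281975432) (nat_lit 1748) (nat_lit 2842348950) (nat_lit 496) (nat_lit 5) (nat_lit 495) (nat_lit 5) (nat_lit 518) (nat_lit 5) (nat_lit 439) (nat_lit 431) (nat_lit 330)) (XT.nd (nat_lit 78) (nat_lit 1672) (nat_lit 0) (XT.lf (nat_lit 76) (nat_lit 3021507944) (nat_lit 0) (nat_lit 7510001968) (nat_lit 1748) (nat_lit 1445387975) (nat_lit 497) (nat_lit 5) (nat_lit 496) (nat_lit 5) (nat_lit 519) (nat_lit 5) (nat_lit 440) (nat_lit 431) (nat_lit 329)) (XT.lf (nat_lit 0) (nat_lit 32389001) (nat_lit 1748) (nat_lit 11816109073) (nat_lit 1824) (nat_lit 302222019)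 (nat_lit 474) (nat_lit 5) (nat_lit 497) (nat_lit 5) (nat_lit 498) (nat_lit 5) (nat_lit 441) (nat_lit 431) (nat_lit 328)))) (XT.nd (nat_lit 78) (nat_lit 0) (nat_lit 76) (XT.lf (nat_lit 0) (nat_lit 1617977056) (nat_lit 1748) (nat_lit 2383711921) (nat_lit 1824) (nat_lit 8326219008) (nat_lit 474) (nat_lit 5) (nat_lit 497) (nat_lit 5) (nat_lit 498) (nat_lit 5) (nat_lit 442) (nat_lit 431) (nat_lit 327)) (XT.nd (nat_lit 78) (nat_lit 0) (nat_lit 0) (XT.lf (nat_lit 0) (nat_lit 3298612462) (nat_lit 1748) (nat_lit 5128207779) (nat_lit 1824) (nat_lit 4082645952) (nat_lit 475) (nat_lit 5) (nat_lit 498) (nat_lit 5) (nat_lit 499) (nat_lit 5) (nat_lit 443) (nat_lit 431) (nat_lit 326)) (XT.lf (nat_lit 76) (nat_lit 4791201555) (nat_lit 0) (nat_lit 285829020) (nat_lit 1824) (nat_lit 7618497446) (nat_lit 476) (nat_lit 5) (nat_lit 475) (nat_lit 5) (nat_lit 499) (nat_lit 5) (nat_lit 444) (nat_lit 431) (nat_lit 325))))))))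
noncomputable def xc93 : XT := (XT.nd (nat_lit 1794) (nat_lit 10488) (nat_lit 0) (XT.nd (nat_lit 858) (nat_lit 7372) (nat_lit 0) (XT.nd (nat_lit 390) (nat_lit 4560) (nat_lit 0) (XT.nd (nat_lit 156) (nat_lit 3344) (nat_lit 0) (XT.nd (nat_lit 78) (nat_lit 0) (nat_lit 76) (XT.lf (nat_lit 76) (nat_lit 2146588007) (nat_lit 0) (nat_lit 4837640756) (nat_lit 1824) (nat_lit 5901438417) (nat_lit 477) (nat_lit 5) (nat_lit 476) (nat_lit 5) (nat_lit 500) (nat_lit 5) (nat_lit 445) (nat_lit 431) (nat_lit 324)) (XT.lf (nat_lit 0) (nat_lit 9002069439) (nat_lit 1748) (nat_lit 519365136) (nat_lit 1824) (nat_lit 3559011315) (nat_lit 477) (nat_lit 5) (nat_lit 500) (nat_lit 5) (nat_lit 501) (nat_lit 5) (nat_lit 446) (nat_lit 431) (nat_lit 323))) (XT.nd (nat_lit 78) (nat_lit 3420) (nat_lit 0) (XT.lf (nat_lit 76) (nat_lit 10086613240) (nat_lit 0) (nat_lit 1066996956) (nat_lit 1824) (nat_lit 2125998267) (nat_lit 478) (nat_lit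 5) (nat_lit 477) (nat_lit 5) (nat_lit 501) (nat_lit 5) (nat_lit 447) (nat_lit 431) (nat_lit 322)) (XT.nd (nat_lit 78) (nat_lit 1748) (nat_lit 0) (XT.lf (nat_lit 0) (nat_lit 7562304354) (nat_lit 1748) (nat_lit 5885586586) (nat_lit 1824) (nat_lit 35294781) (nat_lit 455) (nat_lit 5) (nat_lit 478) (nat_lit 5) (nat_lit 479) (nat_lit 5) (nat_lit 448) (nat_lit 431) (nat_lit 321)) (XT.lf (nat_lit 0) (nat_lit 2146932287) (nat_lit 1748) (nat_lit 8694739496) (nat_lit 76) (nat_lit 2849795332) (nat_lit 432) (nat_lit 5) (nat_lit 455) (nat_lit 5) (nat_lit 433) (nat_lit 5) (nat_lit 449) (nat_lit 431) (nat_lit 320))))) (XT.nd (nat_lit 234) (nat_lit 2660) (nat_lit 0) (XT.nd (nat_lit 78) (nat_lit 912) (nat_lit 0) (XT.lf (nat_lit 0) (nat_lit 2388595762) (nat_lit 988) (nat_lit 2077738367) (nat_lit 1064) (nat_lit 9438217811) (nat_lit 419) (nat_lit 5) (nat_lit 432) (nat_lit 5) (nat_lit 433) (nat_lit 5) (nat_lit 450) (nat_lit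 431) (nat_lit 319)) (XT.nd (nat_lit 78) (nat_lit 912) (nat_lit 0) (XT.lf (nat_lit 0) (nat_lit 6937229429) (nat_lit 1064) (nat_lit 265634206) (nat_lit 76) (nat_lit 6919530754) (nat_lit 419) (nat_lit 5) (nat_lit 433) (nat_lit 5) (nat_lit 420) (nat_lit 5) (nat_lit 451) (nat_lit 431) (nat_lit 318)) (XT.lf (nat_lit 0) (nat_lit 9560820020) (nat_lit 988) (nat_lit 2919518818) (nat_lit 76) (nat_lit 1864865114) (nat_lit 407) (nat_lit 5) (nat_lit 420) (nat_lit 5) (nat_lit 408) (nat_lit 5) (nat_lit 452) (nat_lit 431) (nat_lit 317)))) (XT.nd (nat_lit 78) (nat_lit 1748) (nat_lit 0) (XT.lf (nat_lit 0) (nat_lit 8945629939) (nat_lit 912) (nat_lit 3404208806) (nat_lit 988) (nat_lit 2223127765) (nat_lit 395) (nat_lit 5) (nat_lit 407) (nat_lit 5) (nat_lit 408) (nat_lit 5) (nat_lit 453) (nat_lit 431) (nat_lit 316)) (XT.nd (nat_lit 78) (nat_lit 836) (nat_lit 0) (XT.lf (nat_lit 0) (nat_lit 489425690) (nat_lit 912) (nat_lit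 8384459883) (nat_lit 76) (nat_lit 5932027414) (nat_lit 383) (nat_lit 5) (nat_lit 395) (nat_lit 5) (nat_lit 384) (nat_lit 5) (nat_lit 454) (nat_lit 431) (nat_lit 315)) (XT.lf (nat_lit 0) (nat_lit 3322494681) (nat_lit 912) (nat_lit 11191664282) (nat_lit 76) (nat_lit 530011027) (nat_lit 372) (nat_lit 5) (nat_lit 384) (nat_lit 5) (nat_lit 373) (nat_lit 5) (nat_lit 455) (nat_lit 431) (nat_lit 314)))))) (XT.nd (nat_lit 468) (nat_lit 3496) (nat_lit 0) (XT.nd (nat_lit 234) (nat_lit 2280) (nat_lit 0) (XT.nd (nat_lit 78) (nat_lit 836) (nat_lit 0) (XT.lf (nat_lit 0) (nat_lit 1218825073) (nat_lit 760) (nat_lit 5126144698) (nat_lit 836) (nat_lit 8942519447) (nat_lit 362) (nat_lit 5) (nat_lit 372) (nat_lit 5) (nat_lit 373) (nat_lit 5) (nat_lit 456) (nat_lit 431) (nat_lit 313)) (XT.nd (nat_lit 78) (nat_lit 836) (nat_lit 0) (XT.lf (nat_lit 0) (nat_lit 9544374796) (nat_lit 836) (nat_lit 1432181804) (nat_lit 76) (nat_lit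 4559829024) (nat_lit 362) (nat_lit 5) (nat_lit 373) (nat_lit 5) (nat_lit 363) (nat_lit 5) (nat_lit 457) (nat_lit 431) (nat_lit 312)) (XT.lf (nat_lit 0) (nat_lit 11682515800) (nat_lit 836) (nat_lit 1248363740) (nat_lit 912) (nat_lit 2860049666) (nat_lit 351) (nat_lit 5) (nat_lit 362) (nat_lit 5) (nat_lit 363) (nat_lit 5) (nat_lit 458) (nat_lit 431) (nat_lit 311)))) (XT.nd (nat_lit 78) (nat_lit 1444) (nat_lit 0) (XT.lf (nat_lit 0) (nat_lit 469651773) (nat_lit 836) (nat_lit 6852905652) (nat_lit 76) (nat_lit 8728335071) (nat_lit 340) (nat_lit 5) (nat_lit 351) (nat_lit 5) (nat_lit 341) (nat_lit 5) (nat_lit 459) (nat_lit 431) (nat_lit 310)) (XT.nd (nat_lit 78) (nat_lit 684) (nat_lit 0) (XT.lf (nat_lit 0) (nat_lit 3939982892) (nat_lit 836) (nat_lit 9653058108) (nat_lit 76) (nat_lit 2723646114) (nat_lit 330) (nat_lit 5) (nat_lit 341) (nat_lit 5) (nat_lit 331) (nat_lit 5) (nat_lit 460) (nat_lit 431) (nat_lit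 309)) (XT.lf (nat_lit 0) (nat_lit 4074278727) (nat_lit 684) (nat_lit 3544408022) (nat_lit 760) (nat_lit 8969685927) (nat_lit 321) (nat_lit 5) (nat_lit 330) (nat_lit 5) (nat_lit 331) (nat_lit 5) (nat_lit 461) (nat_lit 431) (nat_lit 308))))) (XT.nd (nat_lit 234) (nat_lit 1976) (nat_lit 0) (XT.nd (nat_lit 78) (nat_lit 760) (nat_lit 0) (XT.lf (nat_lit 0) (nat_lit 1433007536) (nat_lit 760) (nat_lit 10076558337) (nat_lit 836) (nat_lit 5356608946) (nat_lit 311) (nat_lit 5) (nat_lit 321) (nat_lit 5) (nat_lit 322) (nat_lit 5) (nat_lit 462) (nat_lit 431) (nat_lit 307)) (XT.nd (nat_lit 78) (nat_lit 760) (nat_lit 0) (XT.lf (nat_lit 0) (nat_lit 15610443381) (nat_lit 836) (nat_lit 1226266539) (nat_lit 76) (nat_lit 313737894) (nat_lit 311) (nat_lit 5) (nat_lit 322) (nat_lit 5) (nat_lit 312) (nat_lit 5) (nat_lit 463) (nat_lit 431) (nat_lit 306)) (XT.lf (nat_lit 0) (nat_lit 2499017591) (nat_lit 760) (nat_lit 3959715609)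 (nat_lit 76) (nat_lit 10981421847) (nat_lit 301) (nat_lit 5) (nat_lit 311) (nat_lit 5) (nat_lit 302) (nat_lit 5) (nat_lit 464) (nat_lit 431) (nat_lit 305)))) (XT.nd (nat_lit 78) (nat_lit 1292) (nat_lit 0) (XT.lf (nat_lit 0) (nat_lit 6729977144) (nat_lit 760) (nat_lit 6743354471) (nat_lit 76) (nat_lit 4263186565) (nat_lit 292) (nat_lit 5) (nat_lit 302) (nat_lit 5) (nat_lit 293) (nat_lit 5) (nat_lit 465) (nat_lit 431) (nat_lit 304)) (XT.nd (nat_lit 78) (nat_lit 684) (nat_lit 0) (XT.lf (nat_lit 0) (nat_lit 8455961284) (nat_lit 608) (nat_lit 2740943008) (nat_lit 684) (nat_lit 6842689138) (nat_lit 284) (nat_lit 5) (nat_lit 292) (nat_lit 5) (nat_lit 293) (nat_lit 5) (nat_lit 466) (nat_lit 431) (nat_lit 303)) (XT.lf (nat_lit 0) (nat_lit 5856088216) (nat_lit 684) (nat_lit 10064006445) (nat_lit 760) (nat_lit 2429223108) (nat_lit 275) (nat_lit 5) (nat_lit 284) (nat_lit 5) (nat_lit 285) (nat_lit 5) (nat_lit 467)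 (nat_lit 431) (nat_lit 302))))))) (XT.nd (nat_lit 936) (nat_lit 4712) (nat_lit 0) (XT.nd (nat_lit 468) (nat_lit 2736) (nat_lit 0) (XT.nd (nat_lit 234) (nat_lit 1748) (nat_lit 0) (XT.nd (nat_lit 78) (nat_lit 608) (nat_lit 0) (XT.lf (nat_lit 0) (nat_lit 2184671388) (nat_lit 684) (nat_lit 15459258510) (nat_lit 76) (nat_lit 1022215242) (nat_lit 266) (nat_lit 5) (nat_lit 275) (nat_lit 5) (nat_lit 267) (nat_lit 5) (nat_lit 468) (nat_lit 431) (nat_lit 301)) (XT.nd (nat_lit 78) (nat_lit 0) (nat_lit 0) (XT.lf (nat_lit 0) (nat_lit 461150448) (nat_lit 608) (nat_lit 6583331094) (nat_lit 684) (nat_lit 11944866392) (nat_lit 258) (nat_lit 5) (nat_lit 266) (nat_lit 5) (nat_lit 267) (nat_lit 5) (nat_lit 469) (nat_lit 431) (nat_lit 300)) (XT.lf (nat_lit 0) (nat_lit 12171855749) (nat_lit 684) (nat_lit 2300275261) (nat_lit 76) (nat_lit 4847682148) (nat_lit 258) (nat_lit 5) (nat_lit 267) (nat_lit 5) (nat_lit 259) (nat_lit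 5) (nat_lit 470) (nat_lit 431) (nat_lit 299)))) (XT.nd (nat_lit 78) (nat_lit 1216) (nat_lit 0) (XT.lf (nat_lit 0) (nat_lit 14542756342) (nat_lit 532) (nat_lit 3034271229) (nat_lit 608) (nat_lit 2080686931) (nat_lit 251) (nat_lit 5) (nat_lit 258) (nat_lit 5) (nat_lit 259) (nat_lit 5) (nat_lit 471) (nat_lit 431) (nat_lit 298)) (XT.nd (nat_lit 78) (nat_lit 532) (nat_lit 0) (XT.lf (nat_lit 0) (nat_lit 3234533133) (nat_lit 684) (nat_lit 8025100805) (nat_lit 76) (nat_lit 8742971104) (nat_lit 242) (nat_lit 5) (nat_lit 251) (nat_lit 5) (nat_lit 243) (nat_lit 5) (nat_lit 472) (nat_lit 431) (nat_lit 297)) (XT.lf (nat_lit 0) (nat_lit 8786885172) (nat_lit 608) (nat_lit 10993587692) (nat_lit 76) (nat_lit 574977057) (nat_lit 235) (nat_lit 5) (nat_lit 243) (nat_lit 5) (nat_lit 236) (nat_lit 5) (nat_lit 473) (nat_lit 431) (nat_lit 296))))) (XT.nd (nat_lit 234) (nat_lit 1064) (nat_lit 0) (XT.nd (nat_lit 78) (nat_lit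 1140) (nat_lit 0) (XT.lf (nat_lit 0) (nat_lit 6655891600) (nat_lit 532) (nat_lit 8009442193) (nat_lit 608) (nat_lit 6050357348) (nat_lit 228) (nat_lit 5) (nat_lit 235) (nat_lit 5) (nat_lit 236) (nat_lit 5) (nat_lit 474) (nat_lit 431) (nat_lit 295)) (XT.nd (nat_lit 78) (nat_lit 608) (nat_lit 0) (XT.lf (nat_lit 0) (nat_lit 3905926506) (nat_lit 532) (nat_lit 16927800920) (nat_lit 608) (nat_lit 250741815) (nat_lit 221) (nat_lit 5) (nat_lit 228) (nat_lit 5) (nat_lit 229) (nat_lit 5) (nat_lit 475) (nat_lit 431) (nat_lit 294)) (XT.lf (nat_lit 0) (nat_lit 1044964351) (nat_lit 532) (nat_lit 4745807673) (nat_lit 608) (nat_lit 15669937605) (nat_lit 213) (nat_lit 5) (nat_lit 220) (nat_lit 5) (nat_lit 221) (nat_lit 5) (nat_lit 476) (nat_lit 431) (nat_lit 293)))) (XT.nd (nat_lit 78) (nat_lit 1064) (nat_lit 0) (XT.lf (nat_lit 0) (nat_lit 12164930740) (nat_lit 608) (nat_lit 1866690914) (nat_lit 76) (nat_lit 7813487666)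 (nat_lit 213) (nat_lit 5) (nat_lit 221) (nat_lit 5) (nat_lit 214) (nat_lit 5) (nat_lit 477) (nat_lit 431) (nat_lit 292)) (XT.nd (nat_lit 78) (nat_lit 608) (nat_lit 0) (XT.lf (nat_lit 0) (nat_lit 17418063162) (nat_lit 456) (nat_lit 1444412988) (nat_lit 532) (nat_lit 3375922937) (nat_lit 207) (nat_lit 5) (nat_lit 213) (nat_lit 5) (nat_lit 214) (nat_lit 5) (nat_lit 478) (nat_lit 431) (nat_lit 291)) (XT.lf (nat_lit 0) (nat_lit 3248661996) (nat_lit 608) (nat_lit 7896411989) (nat_lit 76) (nat_lit 11494568252) (nat_lit 199) (nat_lit 5) (nat_lit 207) (nat_lit 5) (nat_lit 200) (nat_lit 5) (nat_lit 479) (nat_lit 431) (nat_lit 290)))))) (XT.nd (nat_lit 468) (nat_lit 2432) (nat_lit 0) (XT.nd (nat_lit 234) (nat_lit 836) (nat_lit 0) (XT.nd (nat_lit 78) (nat_lit 988) (nat_lit 0) (XT.lf (nat_lit 0) (nat_lit 10146871616) (nat_lit 532) (nat_lit 11047263406) (nat_lit 76) (nat_lit 1855927531) (nat_lit 193) (nat_lit 5)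 (nat_lit 200) (nat_lit 5) (nat_lit 194) (nat_lit 5) (nat_lit 480) (nat_lit 431) (nat_lit 289)) (XT.nd (nat_lit 78) (nat_lit 532) (nat_lit 0) (XT.lf (nat_lit 0) (nat_lit 9163421151) (nat_lit 456) (nat_lit 8264441236) (nat_lit 532) (nat_lit 6041417580) (nat_lit 187) (nat_lit 5) (nat_lit 193) (nat_lit 5) (nat_lit 194) (nat_lit 5) (nat_lit 481) (nat_lit 431) (nat_lit 288)) (XT.lf (nat_lit 0) (nat_lit 1150641201) (nat_lit 532) (nat_lit 17642138576) (nat_lit 76) (nat_lit 5105404174) (nat_lit 180) (nat_lit 5) (nat_lit 187) (nat_lit 5) (nat_lit 181) (nat_lit 5) (nat_lit 482) (nat_lit 431) (nat_lit 287)))) (XT.nd (nat_lit 78) (nat_lit 380) (nat_lit 0) (XT.lf (nat_lit 0) (nat_lit 3221526574) (nat_lit 456) (nat_lit 5417401390) (nat_lit 532) (nat_lit 15696978605) (nat_lit 174) (nat_lit 5) (nat_lit 180) (nat_lit 5) (nat_lit 181) (nat_lit 5) (nat_lit 483) (nat_lit 431) (nat_lit 286)) (XT.nd (nat_lit 78) (nat_lit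 0) (nat_lit 0) (XT.lf (nat_lit 0) (nat_lit 97489616) (nat_lit 380) (nat_lit 16418128457) (nat_lit 456) (nat_lit 8267868760) (nat_lit 169) (nat_lit 5) (nat_lit 174) (nat_lit 5) (nat_lit 175) (nat_lit 5) (nat_lit 484) (nat_lit 431) (nat_lit 285)) (XT.lf (nat_lit 0) (nat_lit 22181353443) (nat_lit 380) (nat_lit 2615057513) (nat_lit 456) (nat_lit 444728542) (nat_lit 169) (nat_lit 5) (nat_lit 174) (nat_lit 5) (nat_lit 175) (nat_lit 5) (nat_lit 485) (nat_lit 431) (nat_lit 284))))) (XT.nd (nat_lit 234) (nat_lit 1140) (nat_lit 0) (XT.nd (nat_lit 78) (nat_lit 760) (nat_lit 0) (XT.lf (nat_lit 0) (nat_lit 7704686414) (nat_lit 532) (nat_lit 6381752791) (nat_lit 76) (nat_lit 11621266377) (nat_lit 162) (nat_lit 5) (nat_lit 169) (nat_lit 5) (nat_lit 163) (nat_lit 5) (nat_lit 486) (nat_lit 431) (nat_lit 283)) (XT.nd (nat_lit 78) (nat_lit 380) (nat_lit 0) (XT.lf (nat_lit 0) (nat_lit 16227915937) (nat_lit 456) (nat_lit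 9771015044) (nat_lit 76) (nat_lit 186572345) (nat_lit 157) (nat_lit 5) (nat_lit 163) (nat_lit 5) (nat_lit 158) (nat_lit 5) (nat_lit 487) (nat_lit 431) (nat_lit 282)) (XT.lf (nat_lit 0) (nat_lit 13369897752) (nat_lit 380) (nat_lit 11850832069) (nat_lit 456) (nat_lit 1452628358) (nat_lit 152) (nat_lit 5) (nat_lit 157) (nat_lit 5) (nat_lit 158) (nat_lit 5) (nat_lit 488) (nat_lit 431) (nat_lit 281)))) (XT.nd (nat_lit 78) (nat_lit 684) (nat_lit 0) (XT.lf (nat_lit 0) (nat_lit 7353055772) (nat_lit 456) (nat_lit 16956716093) (nat_lit 76) (nat_lit 2862300491) (nat_lit 146) (nat_lit 5) (nat_lit 152) (nat_lit 5) (nat_lit 147) (nat_lit 5) (nat_lit 489) (nat_lit 431) (nat_lit 280)) (XT.nd (nat_lit 78) (nat_lit 304) (nat_lit 0) (XT.lf (nat_lit 0) (nat_lit 6923175029) (nat_lit 380) (nat_lit 9684712499) (nat_lit 456) (nat_lit 11073574996) (nat_lit 141) (nat_lit 5) (nat_lit 146) (nat_lit 5) (nat_lit 147) (nat_lit 5)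 (nat_lit 490) (nat_lit 431) (nat_lit 279)) (XT.lf (nat_lit 0) (nat_lit 3542647811) (nat_lit 304) (nat_lit 22761123856) (nat_lit 380) (nat_lit 1899095412) (nat_lit 137) (nat_lit 5) (nat_lit 141) (nat_lit 5) (nat_lit 142) (nat_lit 5) (nat_lit 491) (nat_lit 431) (nat_lit 278))))))))
noncomputable def xc94 : XT := (XT.nd (nat_lit 59514) (nat_lit 0) (nat_lit 6384) (XT.nd (nat_lit 58578) (nat_lit 0) (nat_lit 20596) (XT.nd (nat_lit 58110) (nat_lit 0) (nat_lit 27132) (XT.nd (nat_lit 57876) (nat_lit 0) (nat_lit 26980) (XT.nd (nat_lit 57798) (nat_lit 0) (nat_lit 26904) (XT.lf (nat_lit 0) (nat_lit 7647897933) (nat_lit 380) (nat_lit 10806604) (nat_lit 76) (nat_lit 21076303411) (nat_lit 136) (nat_lit 5) (nat_lit 141) (nat_lit 5) (nat_lit 137) (nat_lit 5) (nat_lit 492) (nat_lit 431) (nat_lit 277)) (XT.lf (nat_lit 0) (nat_lit 608429133) (nat_lit 1748) (nat_lit 2413214955) (nat_lit 1748) (nat_lit 2413214955) (nat_lit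 490) (nat_lit 3) (nat_lit 513) (nat_lit 3) (nat_lit 513) (nat_lit 5) (nat_lit 432) (nat_lit 432) (nat_lit 336))) (XT.nd (nat_lit 78) (nat_lit 0) (nat_lit 0) (XT.lf (nat_lit 0) (nat_lit 2136332166) (nat_lit 1672) (nat_lit 7813754446) (nat_lit 1748) (nat_lit 1064511400) (nat_lit 491) (nat_lit 5) (nat_lit 513) (nat_lit 5) (nat_lit 514) (nat_lit 5) (nat_lit 433) (nat_lit 432) (nat_lit 335)) (XT.nd (nat_lit 78) (nat_lit 0) (nat_lit 76) (XT.lf (nat_lit 76) (nat_lit 316941118) (nat_lit 0) (nat_lit 2807750448) (nat_lit 1748) (nat_lit 8038312262) (nat_lit 492) (nat_lit 5) (nat_lit 491) (nat_lit 5) (nat_lit 514) (nat_lit 5) (nat_lit 434) (nat_lit 432) (nat_lit 334)) (XT.lf (nat_lit 0) (nat_lit 4192415811) (nat_lit 1672) (nat_lit 2565058068) (nat_lit 1748) (nat_lit 4557399016) (nat_lit 492) (nat_lit 5) (nat_lit 514) (nat_lit 5) (nat_lit 515) (nat_lit 5) (nat_lit 435) (nat_lit 432) (nat_lit 333))))) (XT.nd (nat_lit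 234) (nat_lit 0) (nat_lit 152) (XT.nd (nat_lit 78) (nat_lit 0) (nat_lit 0) (XT.lf (nat_lit 0) (nat_lit 5322257579) (nat_lit 1672) (nat_lit 5469222982) (nat_lit 1748) (nat_lit 679220960) (nat_lit 493) (nat_lit 5) (nat_lit 515) (nat_lit 5) (nat_lit 516) (nat_lit 5) (nat_lit 436) (nat_lit 432) (nat_lit 332)) (XT.nd (nat_lit 78) (nat_lit 0) (nat_lit 76) (XT.lf (nat_lit 76) (nat_lit 3207268895) (nat_lit 0) (nat_lit 3330987574) (nat_lit 1748) (nat_lit 5091908351) (nat_lit 494) (nat_lit 5) (nat_lit 493) (nat_lit 5) (nat_lit 516) (nat_lit 5) (nat_lit 437) (nat_lit 432) (nat_lit 331)) (XT.lf (nat_lit 76) (nat_lit 382614049) (nat_lit 0) (nat_lit 7445796232) (nat_lit 1748) (nat_lit 3965253141) (nat_lit 495) (nat_lit 5) (nat_lit 494) (nat_lit 5) (nat_lit 517) (nat_lit 5) (nat_lit 438) (nat_lit 432) (nat_lit 330)))) (XT.nd (nat_lit 78) (nat_lit 0) (nat_lit 0) (XT.lf (nat_lit 0) (nat_lit 9208929522) (nat_lit 1672)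 (nat_lit 2436973506) (nat_lit 1748) (nat_lit 315135501) (nat_lit 495) (nat_lit 5) (nat_lit 517) (nat_lit 5) (nat_lit 518) (nat_lit 5) (nat_lit 439) (nat_lit 432) (nat_lit 329)) (XT.nd (nat_lit 78) (nat_lit 0) (nat_lit 76) (XT.lf (nat_lit 76) (nat_lit 6827139555) (nat_lit 0) (nat_lit 3869157199) (nat_lit 1748) (nat_lit 1435834107) (nat_lit 496) (nat_lit 5) (nat_lit 495) (nat_lit 5) (nat_lit 518) (nat_lit 5) (nat_lit 440) (nat_lit 432) (nat_lit 328)) (XT.lf (nat_lit 76) (nat_lit 4102064118) (nat_lit 0) (nat_lit 8168450774) (nat_lit 1748) (nat_lit 37000963) (nat_lit 497) (nat_lit 5) (nat_lit 496) (nat_lit 5) (nat_lit 519) (nat_lit 5) (nat_lit 441) (nat_lit 432) (nat_lit 327)))))) (XT.nd (nat_lit 468) (nat_lit 5016) (nat_lit 0) (XT.nd (nat_lit 234) (nat_lit 0) (nat_lit 152) (XT.nd (nat_lit 78) (nat_lit 0) (nat_lit 76) (XT.lf (nat_lit 76) (nat_lit 1339539799) (nat_lit 0) (nat_lit 89198173) (nat_lit 1824)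 (nat_lit 11058379372) (nat_lit 474) (nat_lit 5) (nat_lit 473) (nat_lit 5) (nat_lit 497) (nat_lit 5) (nat_lit 442) (nat_lit 432) (nat_lit 326)) (XT.nd (nat_lit 78) (nat_lit 0) (nat_lit 76) (XT.lf (nat_lit 0) (nat_lit 3020689346) (nat_lit 1748) (nat_lit 1461442762) (nat_lit 1824) (nat_lit 8188319167) (nat_lit 474) (nat_lit 5) (nat_lit 497) (nat_lit 5) (nat_lit 498) (nat_lit 5) (nat_lit 443) (nat_lit 432) (nat_lit 325)) (XT.lf (nat_lit 0) (nat_lit 4716419767) (nat_lit 1748) (nat_lit 4275540754) (nat_lit 1824) (nat_lit 3866208319) (nat_lit 475) (nat_lit 5) (nat_lit 498) (nat_lit 5) (nat_lit 499) (nat_lit 5) (nat_lit 444) (nat_lit 432) (nat_lit 324)))) (XT.nd (nat_lit 78) (nat_lit 0) (nat_lit 76) (XT.lf (nat_lit 76) (nat_lit 5925121377) (nat_lit 0) (nat_lit 591084900) (nat_lit 1824) (nat_lit 6534251881) (nat_lit 476) (nat_lit 5) (nat_lit 475) (nat_lit 5) (nat_lit 499) (nat_lit 5) (nat_lit 445) (nat_lit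 432) (nat_lit 323)) (XT.nd (nat_lit 78) (nat_lit 0) (nat_lit 76) (XT.lf (nat_lit 76) (nat_lit 3212514793) (nat_lit 0) (nat_lit 5235256565) (nat_lit 1824) (nat_lit 4799192894) (nat_lit 477) (nat_lit 5) (nat_lit 476) (nat_lit 5) (nat_lit 500) (nat_lit 5) (nat_lit 446) (nat_lit 432) (nat_lit 322)) (XT.lf (nat_lit 76) (nat_lit 469700916) (nat_lit 0) (nat_lit 10021379655) (nat_lit 1824) (nat_lit 2957212698) (nat_lit 478) (nat_lit 5) (nat_lit 477) (nat_lit 5) (nat_lit 501) (nat_lit 5) (nat_lit 447) (nat_lit 432) (nat_lit 321))))) (XT.nd (nat_lit 234) (nat_lit 1900) (nat_lit 0) (XT.nd (nat_lit 78) (nat_lit 3420) (nat_lit 0) (XT.lf (nat_lit 76) (nat_lit 11371499171) (nat_lit 0) (nat_lit 1303581885) (nat_lit 1824) (nat_lit 978996839) (nat_lit 478) (nat_lit 5) (nat_lit 477) (nat_lit 5) (nat_lit 501) (nat_lit 5) (nat_lit 448) (nat_lit 432) (nat_lit 320)) (XT.nd (nat_lit 78) (nat_lit 1672) (nat_lit 0) (XT.lf (nat_lit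 0) (nat_lit 1129401938) (nat_lit 1824) (nat_lit 5091424469) (nat_lit 76) (nat_lit 7643381204) (nat_lit 454) (nat_lit 5) (nat_lit 478) (nat_lit 5) (nat_lit 455) (nat_lit 5) (nat_lit 449) (nat_lit 432) (nat_lit 319)) (XT.lf (nat_lit 0) (nat_lit 3348153847) (nat_lit 1748) (nat_lit 7941189997) (nat_lit 76) (nat_lit 2789963221) (nat_lit 432) (nat_lit 5) (nat_lit 455) (nat_lit 5) (nat_lit 433) (nat_lit 5) (nat_lit 450) (nat_lit 432) (nat_lit 318)))) (XT.nd (nat_lit 78) (nat_lit 912) (nat_lit 0) (XT.lf (nat_lit 0) (nat_lit 3458188019) (nat_lit 988) (nat_lit 2252317902) (nat_lit 1064) (nat_lit 8588816037) (nat_lit 419) (nat_lit 5) (nat_lit 432) (nat_lit 5) (nat_lit 433) (nat_lit 5) (nat_lit 451) (nat_lit 432) (nat_lit 317)) (XT.nd (nat_lit 78) (nat_lit 0) (nat_lit 0) (XT.lf (nat_lit 0) (nat_lit 727225438) (nat_lit 912) (nat_lit 7499981323) (nat_lit 988) (nat_lit 6297064091) (nat_lit 407) (nat_lit 5) (nat_lit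 419) (nat_lit 5) (nat_lit 420) (nat_lit 5) (nat_lit 452) (nat_lit 432) (nat_lit 316)) (XT.lf (nat_lit 0) (nat_lit 10899242950) (nat_lit 988) (nat_lit 2010201202) (nat_lit 76) (nat_lit 1844930398) (nat_lit 407) (nat_lit 5) (nat_lit 420) (nat_lit 5) (nat_lit 408) (nat_lit 5) (nat_lit 453) (nat_lit 432) (nat_lit 315))))))) (XT.nd (nat_lit 858) (nat_lit 6916) (nat_lit 0) (XT.nd (nat_lit 390) (nat_lit 3876) (nat_lit 0) (XT.nd (nat_lit 156) (nat_lit 1596) (nat_lit 0) (XT.nd (nat_lit 78) (nat_lit 912) (nat_lit 0) (XT.lf (nat_lit 0) (nat_lit 10194728447) (nat_lit 912) (nat_lit 3552942259) (nat_lit 988) (nat_lit 1241788983) (nat_lit 395) (nat_lit 5) (nat_lit 407) (nat_lit 5) (nat_lit 408) (nat_lit 5) (nat_lit 454) (nat_lit 432) (nat_lit 314)) (XT.lf (nat_lit 0) (nat_lit 1514416064) (nat_lit 912) (nat_lit 7636949138) (nat_lit 76) (nat_lit 6078377122) (nat_lit 383) (nat_lit 5) (nat_lit 395) (nat_lit 5) (nat_lit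 384) (nat_lit 5) (nat_lit 455) (nat_lit 432) (nat_lit 313))) (XT.nd (nat_lit 78) (nat_lit 760) (nat_lit 0) (XT.lf (nat_lit 0) (nat_lit 4409403177) (nat_lit 912) (nat_lit 10524666227) (nat_lit 76) (nat_lit 541543245) (nat_lit 372) (nat_lit 5) (nat_lit 384) (nat_lit 5) (nat_lit 373) (nat_lit 5) (nat_lit 456) (nat_lit 432) (nat_lit 312)) (XT.nd (nat_lit 78) (nat_lit 0) (nat_lit 0) (XT.lf (nat_lit 0) (nat_lit 2241869415) (nat_lit 760) (nat_lit 5258333606) (nat_lit 836) (nat_lit 8226479436) (nat_lit 362) (nat_lit 5) (nat_lit 372) (nat_lit 5) (nat_lit 373) (nat_lit 5) (nat_lit 457) (nat_lit 432) (nat_lit 311)) (XT.lf (nat_lit 0) (nat_lit 10767622903) (nat_lit 836) (nat_lit 498670738) (nat_lit 76) (nat_lit 4717315356) (nat_lit 362) (nat_lit 5) (nat_lit 373) (nat_lit 5) (nat_lit 363) (nat_lit 5) (nat_lit 458) (nat_lit 432) (nat_lit 310))))) (XT.nd (nat_lit 234) (nat_lit 1444) (nat_lit 0) (XT.nd (nat_lit 78)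 (nat_lit 1596) (nat_lit 0) (XT.lf (nat_lit 0) (nat_lit 12993625623) (nat_lit 836) (nat_lit 1241045401) (nat_lit 912) (nat_lit 2011542680) (nat_lit 351) (nat_lit 5) (nat_lit 362) (nat_lit 5) (nat_lit 363) (nat_lit 5) (nat_lit 459) (nat_lit 432) (nat_lit 309)) (XT.nd (nat_lit 78) (nat_lit 760) (nat_lit 0) (XT.lf (nat_lit 0) (nat_lit 1385517523) (nat_lit 836) (nat_lit 6083481288) (nat_lit 76) (nat_lit 9045264932) (nat_lit 340) (nat_lit 5) (nat_lit 351) (nat_lit 5) (nat_lit 341) (nat_lit 5) (nat_lit 460) (nat_lit 432) (nat_lit 308)) (XT.lf (nat_lit 0) (nat_lit 4940423854) (nat_lit 836) (nat_lit 8966208325) (nat_lit 76) (nat_lit 2881794209) (nat_lit 330) (nat_lit 5) (nat_lit 341) (nat_lit 5) (nat_lit 331) (nat_lit 5) (nat_lit 461) (nat_lit 432) (nat_lit 307)))) (XT.nd (nat_lit 78) (nat_lit 760) (nat_lit 0) (XT.lf (nat_lit 0) (nat_lit 5157107011) (nat_lit 684) (nat_lit 3552922314) (nat_lit 760) (nat_lit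 8358625776) (nat_lit 321) (nat_lit 5) (nat_lit 330) (nat_lit 5) (nat_lit 331) (nat_lit 5) (nat_lit 462) (nat_lit 432) (nat_lit 306)) (XT.nd (nat_lit 78) (nat_lit 0) (nat_lit 0) (XT.lf (nat_lit 0) (nat_lit 2437475264) (nat_lit 760) (nat_lit 10261889137) (nat_lit 836) (nat_lit 4655795611) (nat_lit 311) (nat_lit 5) (nat_lit 321) (nat_lit 5) (nat_lit 322) (nat_lit 5) (nat_lit 463) (nat_lit 432) (nat_lit 305)) (XT.lf (nat_lit 0) (nat_lit 16899408112) (nat_lit 836) (nat_lit 313813628) (nat_lit 76) (nat_lit 435219857) (nat_lit 311) (nat_lit 5) (nat_lit 322) (nat_lit 5) (nat_lit 312) (nat_lit 5) (nat_lit 464) (nat_lit 432) (nat_lit 304)))))) (XT.nd (nat_lit 468) (nat_lit 2888) (nat_lit 0) (XT.nd (nat_lit 234) (nat_lit 1976) (nat_lit 0) (XT.nd (nat_lit 78) (nat_lit 1292) (nat_lit 0) (XT.lf (nat_lit 0) (nat_lit 3382218988) (nat_lit 760) (nat_lit 3133824027) (nat_lit 76) (nat_lit 11431050580) (nat_lit 301) (nat_lit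 5) (nat_lit 311) (nat_lit 5) (nat_lit 302) (nat_lit 5) (nat_lit 465) (nat_lit 432) (nat_lit 303)) (XT.nd (nat_lit 78) (nat_lit 608) (nat_lit 0) (XT.lf (nat_lit 0) (nat_lit 7723500717) (nat_lit 760) (nat_lit 6001285493) (nat_lit 76) (nat_lit 4527896498) (nat_lit 292) (nat_lit 5) (nat_lit 302) (nat_lit 5) (nat_lit 293) (nat_lit 5) (nat_lit 466) (nat_lit 432) (nat_lit 302)) (XT.lf (nat_lit 0) (nat_lit 9638688459) (nat_lit 608) (nat_lit 2668722201) (nat_lit 684) (nat_lit 6257782926) (nat_lit 284) (nat_lit 5) (nat_lit 292) (nat_lit 5) (nat_lit 293) (nat_lit 5) (nat_lit 467) (nat_lit 432) (nat_lit 301)))) (XT.nd (nat_lit 78) (nat_lit 1292) (nat_lit 0) (XT.lf (nat_lit 0) (nat_lit 6960094732) (nat_lit 684) (nat_lit 10196641738) (nat_lit 760) (nat_lit 1727787177) (nat_lit 275) (nat_lit 5) (nat_lit 284) (nat_lit 5) (nat_lit 285) (nat_lit 5) (nat_lit 468) (nat_lit 432) (nat_lit 300)) (XT.nd (nat_lit 78) (nat_lit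 608) (nat_lit 0) (XT.lf (nat_lit 0) (nat_lit 2999245971) (nat_lit 684) (nat_lit 14985786092) (nat_lit 76) (nat_lit 1226028340) (nat_lit 266) (nat_lit 5) (nat_lit 275) (nat_lit 5) (nat_lit 267) (nat_lit 5) (nat_lit 469) (nat_lit 432) (nat_lit 299)) (XT.lf (nat_lit 0) (nat_lit 1397029364) (nat_lit 608) (nat_lit 6591991053) (nat_lit 684) (nat_lit 11555258039) (nat_lit 258) (nat_lit 5) (nat_lit 266) (nat_lit 5) (nat_lit 267) (nat_lit 5) (nat_lit 470) (nat_lit 432) (nat_lit 298))))) (XT.nd (nat_lit 234) (nat_lit 1672) (nat_lit 0) (XT.nd (nat_lit 78) (nat_lit 1216) (nat_lit 0) (XT.lf (nat_lit 0) (nat_lit 13250050745) (nat_lit 684) (nat_lit 1460964836) (nat_lit 76) (nat_lit 5174047858) (nat_lit 258) (nat_lit 5) (nat_lit 267) (nat_lit 5) (nat_lit 259) (nat_lit 5) (nat_lit 471) (nat_lit 432) (nat_lit 297)) (XT.nd (nat_lit 78) (nat_lit 684) (nat_lit 0) (XT.lf (nat_lit 0) (nat_lit 15872621324) (nat_lit 532) (nat_lit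 2929789991) (nat_lit 608) (nat_lit 1430992264) (nat_lit 251) (nat_lit 5) (nat_lit 258) (nat_lit 5) (nat_lit 259) (nat_lit 5) (nat_lit 472) (nat_lit 432) (nat_lit 296)) (XT.lf (nat_lit 0) (nat_lit 4020943779) (nat_lit 684) (nat_lit 7364964663) (nat_lit 76) (nat_lit 9202910256) (nat_lit 242) (nat_lit 5) (nat_lit 251) (nat_lit 5) (nat_lit 243) (nat_lit 5) (nat_lit 473) (nat_lit 432) (nat_lit 295)))) (XT.nd (nat_lit 78) (nat_lit 1140) (nat_lit 0) (XT.lf (nat_lit 0) (nat_lit 9726913181) (nat_lit 608) (nat_lit 10424917651) (nat_lit 76) (nat_lit 800679396) (nat_lit 235) (nat_lit 5) (nat_lit 243) (nat_lit 5) (nat_lit 236) (nat_lit 5) (nat_lit 474) (nat_lit 432) (nat_lit 294)) (XT.nd (nat_lit 78) (nat_lit 608) (nat_lit 0) (XT.lf (nat_lit 0) (nat_lit 7739469287) (nat_lit 532) (nat_lit 8028283250) (nat_lit 608) (nat_lit 5556087581) (nat_lit 228) (nat_lit 5) (nat_lit 235) (nat_lit 5) (nat_lit 236) (nat_lit 5)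 (nat_lit 475) (nat_lit 432) (nat_lit 293)) (XT.lf (nat_lit 0) (nat_lit 399780514) (nat_lit 608) (nat_lit 16802201155) (nat_lit 76) (nat_lit 4501892950) (nat_lit 220) (nat_lit 5) (nat_lit 228) (nat_lit 5) (nat_lit 221) (nat_lit 5) (nat_lit 476) (nat_lit 432) (nat_lit 292))))))))
noncomputable def xc95 : XT := (XT.nd (nat_lit 59592) (nat_lit 0) (nat_lit 13984) (XT.nd (nat_lit 858) (nat_lit 1900) (nat_lit 0) (XT.nd (nat_lit 390) (nat_lit 2356) (nat_lit 0) (XT.nd (nat_lit 156) (nat_lit 1520) (nat_lit 0) (XT.nd (nat_lit 78) (nat_lit 0) (nat_lit 0) (XT.lf (nat_lit 0) (nat_lit 1951894788) (nat_lit 532) (nat_lit 4653874966) (nat_lit 608) (nat_lit 15485868597) (nat_lit 213) (nat_lit 5) (nat_lit 220) (nat_lit 5) (nat_lit 221) (nat_lit 5) (nat_lit 477) (nat_lit 432) (nat_lit 291)) (XT.lf (nat_lit 0) (nat_lit 13153952299) (nat_lit 608) (nat_lit 1061572421) (nat_lit 76) (nat_lit 8272391287) (nat_lit 213) (nat_lit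 5) (nat_lit 221) (nat_lit 5) (nat_lit 214) (nat_lit 5) (nat_lit 478) (nat_lit 432) (nat_lit 290))) (XT.nd (nat_lit 78) (nat_lit 1064) (nat_lit 0) (XT.lf (nat_lit 0) (nat_lit 18787753641) (nat_lit 456) (nat_lit 1251993778) (nat_lit 532) (nat_lit 2853512476) (nat_lit 207) (nat_lit 5) (nat_lit 213) (nat_lit 5) (nat_lit 214) (nat_lit 5) (nat_lit 479) (nat_lit 432) (nat_lit 289)) (XT.nd (nat_lit 78) (nat_lit 456) (nat_lit 0) (XT.lf (nat_lit 0) (nat_lit 3950714746) (nat_lit 608) (nat_lit 7281218909) (nat_lit 76) (nat_lit 12074745811) (nat_lit 199) (nat_lit 5) (nat_lit 207) (nat_lit 5) (nat_lit 200) (nat_lit 5) (nat_lit 480) (nat_lit 432) (nat_lit 288)) (XT.lf (nat_lit 0) (nat_lit 11045299828) (nat_lit 532) (nat_lit 10530109123) (nat_lit 76) (nat_lit 2154216609) (nat_lit 193) (nat_lit 5) (nat_lit 200) (nat_lit 5) (nat_lit 194) (nat_lit 5) (nat_lit 481) (nat_lit 432) (nat_lit 287))))) (XT.nd (nat_lit 234)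 (nat_lit 912) (nat_lit 0) (XT.nd (nat_lit 78) (nat_lit 988) (nat_lit 0) (XT.lf (nat_lit 0) (nat_lit 10273128895) (nat_lit 456) (nat_lit 8259709922) (nat_lit 532) (nat_lit 5628820011) (nat_lit 187) (nat_lit 5) (nat_lit 193) (nat_lit 5) (nat_lit 194) (nat_lit 5) (nat_lit 482) (nat_lit 432) (nat_lit 286)) (XT.nd (nat_lit 78) (nat_lit 456) (nat_lit 0) (XT.lf (nat_lit 0) (nat_lit 1761178139) (nat_lit 532) (nat_lit 17332536505) (nat_lit 76) (nat_lit 5509840478) (nat_lit 180) (nat_lit 5) (nat_lit 187) (nat_lit 5) (nat_lit 181) (nat_lit 5) (nat_lit 483) (nat_lit 432) (nat_lit 285)) (XT.lf (nat_lit 0) (nat_lit 4143428991) (nat_lit 456) (nat_lit 5319265412) (nat_lit 532) (nat_lit 15591944969) (nat_lit 174) (nat_lit 5) (nat_lit 180) (nat_lit 5) (nat_lit 181) (nat_lit 5) (nat_lit 484) (nat_lit 432) (nat_lit 284)))) (XT.nd (nat_lit 78) (nat_lit 532) (nat_lit 0) (XT.lf (nat_lit 0) (nat_lit 921777552) (nat_lit 380)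 (nat_lit 16644438952) (nat_lit 456) (nat_lit 7949621442) (nat_lit 169) (nat_lit 5) (nat_lit 174) (nat_lit 5) (nat_lit 175) (nat_lit 5) (nat_lit 485) (nat_lit 432) (nat_lit 283)) (XT.nd (nat_lit 78) (nat_lit 456) (nat_lit 0) (XT.lf (nat_lit 0) (nat_lit 90516376) (nat_lit 456) (nat_lit 2343906460) (nat_lit 76) (nat_lit 23553110303) (nat_lit 168) (nat_lit 5) (nat_lit 174) (nat_lit 5) (nat_lit 169) (nat_lit 5) (nat_lit 486) (nat_lit 432) (nat_lit 282)) (XT.lf (nat_lit 0) (nat_lit 8469429034) (nat_lit 532) (nat_lit 5772562563) (nat_lit 76) (nat_lit 12226226079) (nat_lit 162) (nat_lit 5) (nat_lit 169) (nat_lit 5) (nat_lit 163) (nat_lit 5) (nat_lit 487) (nat_lit 432) (nat_lit 281)))))) (XT.nd (nat_lit 58266) (nat_lit 0) (nat_lit 26904) (XT.nd (nat_lit 234) (nat_lit 684) (nat_lit 0) (XT.nd (nat_lit 78) (nat_lit 836) (nat_lit 0) (XT.lf (nat_lit 0) (nat_lit 17239644778) (nat_lit 456) (nat_lit 9267700190) (nat_lit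 76) (nat_lit 453179968) (nat_lit 157) (nat_lit 5) (nat_lit 163) (nat_lit 5) (nat_lit 158) (nat_lit 5) (nat_lit 488) (nat_lit 432) (nat_lit 280)) (XT.nd (nat_lit 78) (nat_lit 456) (nat_lit 0) (XT.lf (nat_lit 0) (nat_lit 14554518611) (nat_lit 380) (nat_lit 11937523527) (nat_lit 456) (nat_lit 971178646) (nat_lit 152) (nat_lit 5) (nat_lit 157) (nat_lit 5) (nat_lit 158) (nat_lit 5) (nat_lit 489) (nat_lit 432) (nat_lit 279)) (XT.lf (nat_lit 0) (nat_lit 8083497474) (nat_lit 456) (nat_lit 16679334270) (nat_lit 76) (nat_lit 3214163585) (nat_lit 146) (nat_lit 5) (nat_lit 152) (nat_lit 5) (nat_lit 147) (nat_lit 5) (nat_lit 490) (nat_lit 432) (nat_lit 278)))) (XT.nd (nat_lit 78) (nat_lit 304) (nat_lit 0) (XT.lf (nat_lit 0) (nat_lit 7904200318) (nat_lit 380) (nat_lit 9701944835) (nat_lit 456) (nat_lit 10895719859) (nat_lit 141) (nat_lit 5) (nat_lit 146) (nat_lit 5) (nat_lit 147) (nat_lit 5) (nat_lit 491) (nat_lit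 432) (nat_lit 277)) (XT.nd (nat_lit 57876) (nat_lit 0) (nat_lit 26828) (XT.lf (nat_lit 0) (nat_lit 4417843686) (nat_lit 304) (nat_lit 23167213546) (nat_lit 380) (nat_lit 1454012637) (nat_lit 137) (nat_lit 5) (nat_lit 141) (nat_lit 5) (nat_lit 142) (nat_lit 5) (nat_lit 492) (nat_lit 432) (nat_lit 276)) (XT.lf (nat_lit 0) (nat_lit 1491675737) (nat_lit 1748) (nat_lit 2044394568) (nat_lit 1748) (nat_lit 2044394568) (nat_lit 490) (nat_lit 3) (nat_lit 513) (nat_lit 3) (nat_lit 513) (nat_lit 5) (nat_lit 433) (nat_lit 433) (nat_lit 334))))) (XT.nd (nat_lit 234) (nat_lit 0) (nat_lit 152) (XT.nd (nat_lit 78) (nat_lit 0) (nat_lit 0) (XT.lf (nat_lit 0) (nat_lit 3880352724) (nat_lit 1672) (nat_lit 7140767876) (nat_lit 1748) (nat_lit 290044765) (nat_lit 491) (nat_lit 5) (nat_lit 513) (nat_lit 5) (nat_lit 514) (nat_lit 5) (nat_lit 434) (nat_lit 433) (nat_lit 333)) (XT.nd (nat_lit 78) (nat_lit 0) (nat_lit 76) (XT.lf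 (nat_lit 76) (nat_lit 1219127081) (nat_lit 0) (nat_lit 3636101664) (nat_lit 1748) (nat_lit 6609665216) (nat_lit 492) (nat_lit 5) (nat_lit 491) (nat_lit 5) (nat_lit 514) (nat_lit 5) (nat_lit 435) (nat_lit 433) (nat_lit 332)) (XT.lf (nat_lit 0) (nat_lit 5902620441) (nat_lit 1672) (nat_lit 1738602991) (nat_lit 1748) (nat_lit 3981150644) (nat_lit 492) (nat_lit 5) (nat_lit 514) (nat_lit 5) (nat_lit 515) (nat_lit 5) (nat_lit 436) (nat_lit 433) (nat_lit 331)))) (XT.nd (nat_lit 78) (nat_lit 0) (nat_lit 0) (XT.lf (nat_lit 0) (nat_lit 7021724640) (nat_lit 1672) (nat_lit 4709164911) (nat_lit 1748) (nat_lit 52888133) (nat_lit 493) (nat_lit 5) (nat_lit 515) (nat_lit 5) (nat_lit 516) (nat_lit 5) (nat_lit 437) (nat_lit 433) (nat_lit 330)) (XT.nd (nat_lit 78) (nat_lit 0) (nat_lit 76) (XT.lf (nat_lit 76) (nat_lit 4212628733) (nat_lit 0) (nat_lit 4022628990) (nat_lit 1748) (nat_lit 3713553324) (nat_lit 494) (nat_lit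 5) (nat_lit 493) (nat_lit 5) (nat_lit 516) (nat_lit 5) (nat_lit 438) (nat_lit 433) (nat_lit 329)) (XT.lf (nat_lit 76) (nat_lit 1322031761) (nat_lit 0) (nat_lit 8200665117) (nat_lit 1748) (nat_lit 2595353153) (nat_lit 495) (nat_lit 5) (nat_lit 494) (nat_lit 5) (nat_lit 517) (nat_lit 5) (nat_lit 439) (nat_lit 433) (nat_lit 328))))))) (XT.nd (nat_lit 936) (nat_lit 8436) (nat_lit 0) (XT.nd (nat_lit 468) (nat_lit 3116) (nat_lit 0) (XT.nd (nat_lit 234) (nat_lit 0) (nat_lit 0) (XT.nd (nat_lit 78) (nat_lit 1596) (nat_lit 0) (XT.lf (nat_lit 76) (nat_lit 10712877072) (nat_lit 0) (nat_lit 187111370) (nat_lit 1748) (nat_lit 1391357646) (nat_lit 495) (nat_lit 5) (nat_lit 494) (nat_lit 5) (nat_lit 517) (nat_lit 5) (nat_lit 440) (nat_lit 433) (nat_lit 327)) (XT.nd (nat_lit 78) (nat_lit 1672) (nat_lit 0) (XT.lf (nat_lit 76) (nat_lit 7949648253) (nat_lit 0) (nat_lit 4445899748) (nat_lit 1748) (nat_lit 72758399) (nat_lit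 496) (nat_lit 5) (nat_lit 495) (nat_lit 5) (nat_lit 518) (nat_lit 5) (nat_lit 441) (nat_lit 433) (nat_lit 326)) (XT.lf (nat_lit 0) (nat_lit 1312854206) (nat_lit 1748) (nat_lit 7500124385) (nat_lit 1824) (nat_lit 3836547891) (nat_lit 473) (nat_lit 5) (nat_lit 496) (nat_lit 5) (nat_lit 497) (nat_lit 5) (nat_lit 442) (nat_lit 433) (nat_lit 325)))) (XT.nd (nat_lit 78) (nat_lit 0) (nat_lit 76) (XT.lf (nat_lit 76) (nat_lit 2315536660) (nat_lit 0) (nat_lit 473270778) (nat_lit 1824) (nat_lit 10046374921) (nat_lit 474) (nat_lit 5) (nat_lit 473) (nat_lit 5) (nat_lit 497) (nat_lit 5) (nat_lit 443) (nat_lit 433) (nat_lit 324)) (XT.nd (nat_lit 78) (nat_lit 0) (nat_lit 76) (XT.lf (nat_lit 0) (nat_lit 4387747936) (nat_lit 1748) (nat_lit 568552595) (nat_lit 1824) (nat_lit 8068537117) (nat_lit 474) (nat_lit 5) (nat_lit 497) (nat_lit 5) (nat_lit 498) (nat_lit 5) (nat_lit 444) (nat_lit 433) (nat_lit 323)) (XT.lf (nat_lit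 0) (nat_lit 6101053968) (nat_lit 1748) (nat_lit 3455071697) (nat_lit 1824) (nat_lit 3662732780) (nat_lit 475) (nat_lit 5) (nat_lit 498) (nat_lit 5) (nat_lit 499) (nat_lit 5) (nat_lit 445) (nat_lit 433) (nat_lit 322))))) (XT.nd (nat_lit 234) (nat_lit 3268) (nat_lit 0) (XT.nd (nat_lit 78) (nat_lit 0) (nat_lit 76) (XT.lf (nat_lit 76) (nat_lit 7036218196) (nat_lit 0) (nat_lit 888467753) (nat_lit 1824) (nat_lit 5492839068) (nat_lit 476) (nat_lit 5) (nat_lit 475) (nat_lit 5) (nat_lit 499) (nat_lit 5) (nat_lit 446) (nat_lit 433) (nat_lit 321)) (XT.nd (nat_lit 78) (nat_lit 0) (nat_lit 76) (XT.lf (nat_lit 76) (nat_lit 4252927513) (nat_lit 0) (nat_lit 5630307085) (nat_lit 1824) (nat_lit 3737316408) (nat_lit 477) (nat_lit 5) (nat_lit 476) (nat_lit 5) (nat_lit 500) (nat_lit 5) (nat_lit 447) (nat_lit 433) (nat_lit 320)) (XT.lf (nat_lit 76) (nat_lit 1437469161) (nat_lit 0) (nat_lit 10520637569) (nat_lit 1824) (nat_lit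 1870413180) (nat_lit 478) (nat_lit 5) (nat_lit 477) (nat_lit 5) (nat_lit 501) (nat_lit 5) (nat_lit 448) (nat_lit 433) (nat_lit 319)))) (XT.nd (nat_lit 78) (nat_lit 1596) (nat_lit 0) (XT.lf (nat_lit 0) (nat_lit 131167678) (nat_lit 1824) (nat_lit 1403473037) (nat_lit 1900) (nat_lit 12506496474) (nat_lit 453) (nat_lit 5) (nat_lit 477) (nat_lit 5) (nat_lit 478) (nat_lit 5) (nat_lit 449) (nat_lit 433) (nat_lit 318)) (XT.nd (nat_lit 78) (nat_lit 1672) (nat_lit 0) (XT.lf (nat_lit 0) (nat_lit 2261671007) (nat_lit 1824) (nat_lit 4295117049) (nat_lit 76) (nat_lit 7701215139) (nat_lit 454) (nat_lit 5) (nat_lit 478) (nat_lit 5) (nat_lit 455) (nat_lit 5) (nat_lit 450) (nat_lit 433) (nat_lit 317)) (XT.lf (nat_lit 0) (nat_lit 4520154304) (nat_lit 1748) (nat_lit 7223264245) (nat_lit 76) (nat_lit 2736678451) (nat_lit 432) (nat_lit 5) (nat_lit 455) (nat_lit 5) (nat_lit 433) (nat_lit 5) (nat_lit 451) (nat_lit 433) (nat_lit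 316)))))) (XT.nd (nat_lit 468) (nat_lit 3876) (nat_lit 0) (XT.nd (nat_lit 234) (nat_lit 2660) (nat_lit 0) (XT.nd (nat_lit 78) (nat_lit 912) (nat_lit 0) (XT.lf (nat_lit 0) (nat_lit 4502582528) (nat_lit 988) (nat_lit 2425691365) (nat_lit 1064) (nat_lit 7778945116) (nat_lit 419) (nat_lit 5) (nat_lit 432) (nat_lit 5) (nat_lit 433) (nat_lit 5) (nat_lit 452) (nat_lit 433) (nat_lit 315)) (XT.nd (nat_lit 78) (nat_lit 0) (nat_lit 0) (XT.lf (nat_lit 0) (nat_lit 1695846532) (nat_lit 912) (nat_lit 7799630358) (nat_lit 988) (nat_lit 5443943928) (nat_lit 407) (nat_lit 5) (nat_lit 419) (nat_lit 5) (nat_lit 420) (nat_lit 5) (nat_lit 453) (nat_lit 433) (nat_lit 314)) (XT.lf (nat_lit 0) (nat_lit 12217452522) (nat_lit 988) (nat_lit 1130830379) (nat_lit 76) (nat_lit 1828753502) (nat_lit 407) (nat_lit 5) (nat_lit 420) (nat_lit 5) (nat_lit 408) (nat_lit 5) (nat_lit 454) (nat_lit 433) (nat_lit 313)))) (XT.nd (nat_lit 78)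 (nat_lit 1748) (nat_lit 0) (XT.lf (nat_lit 0) (nat_lit 11425002019) (nat_lit 912) (nat_lit 3703462272) (nat_lit 988) (nat_lit 291171396) (nat_lit 395) (nat_lit 5) (nat_lit 407) (nat_lit 5) (nat_lit 408) (nat_lit 5) (nat_lit 455) (nat_lit 433) (nat_lit 312)) (XT.nd (nat_lit 78) (nat_lit 836) (nat_lit 0) (XT.lf (nat_lit 0) (nat_lit 2512160359) (nat_lit 912) (nat_lit 6924362314) (nat_lit 76) (nat_lit 6230931929) (nat_lit 383) (nat_lit 5) (nat_lit 395) (nat_lit 5) (nat_lit 384) (nat_lit 5) (nat_lit 456) (nat_lit 433) (nat_lit 311)) (XT.lf (nat_lit 0) (nat_lit 5472247677) (nat_lit 912) (nat_lit 9895220066) (nat_lit 76) (nat_lit 553672178) (nat_lit 372) (nat_lit 5) (nat_lit 384) (nat_lit 5) (nat_lit 373) (nat_lit 5) (nat_lit 457) (nat_lit 433) (nat_lit 310))))) (XT.nd (nat_lit 234) (nat_lit 2280) (nat_lit 0) (XT.nd (nat_lit 78) (nat_lit 836) (nat_lit 0) (XT.lf (nat_lit 0) (nat_lit 3238977123) (nat_lit 760)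 (nat_lit 5395727848) (nat_lit 836) (nat_lit 7545461966) (nat_lit 362) (nat_lit 5) (nat_lit 372) (nat_lit 5) (nat_lit 373) (nat_lit 5) (nat_lit 458) (nat_lit 433) (nat_lit 309)) (XT.nd (nat_lit 78) (nat_lit 0) (nat_lit 0) (XT.lf (nat_lit 0) (nat_lit 412197963) (nat_lit 836) (nat_lit 11564263891) (nat_lit 912) (nat_lit 4468816802) (nat_lit 351) (nat_lit 5) (nat_lit 362) (nat_lit 5) (nat_lit 363) (nat_lit 5) (nat_lit 459) (nat_lit 433) (nat_lit 308)) (XT.lf (nat_lit 0) (nat_lit 14288924398) (nat_lit 836) (nat_lit 1236077450) (nat_lit 912) (nat_lit 1191213613) (nat_lit 351) (nat_lit 5) (nat_lit 362) (nat_lit 5) (nat_lit 363) (nat_lit 5) (nat_lit 460) (nat_lit 433) (nat_lit 307)))) (XT.nd (nat_lit 78) (nat_lit 1444) (nat_lit 0) (XT.lf (nat_lit 0) (nat_lit 2277093603) (nat_lit 836) (nat_lit 5346943842) (nat_lit 76) (nat_lit 9368540883) (nat_lit 340) (nat_lit 5) (nat_lit 351) (nat_lit 5) (nat_lit 341) (nat_lit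 5) (nat_lit 461) (nat_lit 433) (nat_lit 306)) (XT.nd (nat_lit 78) (nat_lit 684) (nat_lit 0) (XT.lf (nat_lit 0) (nat_lit 5920233775) (nat_lit 836) (nat_lit 8314804787) (nat_lit 76) (nat_lit 3040298852) (nat_lit 330) (nat_lit 5) (nat_lit 341) (nat_lit 5) (nat_lit 331) (nat_lit 5) (nat_lit 462) (nat_lit 433) (nat_lit 305)) (XT.lf (nat_lit 0) (nat_lit 6217277778) (nat_lit 684) (nat_lit 3567307186) (nat_lit 760) (nat_lit 7779758073) (nat_lit 321) (nat_lit 5) (nat_lit 330) (nat_lit 5) (nat_lit 331) (nat_lit 5) (nat_lit 463) (nat_lit 433) (nat_lit 304))))))))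
noncomputable def xc96 : XT := (XT.nd (nat_lit 1794) (nat_lit 2128) (nat_lit 0) (XT.nd (nat_lit 858) (nat_lit 5548) (nat_lit 0) (XT.nd (nat_lit 390) (nat_lit 3192) (nat_lit 0) (XT.nd (nat_lit 156) (nat_lit 1292) (nat_lit 0) (XT.nd (nat_lit 78) (nat_lit 760) (nat_lit 0) (XT.lf (nat_lit 0) (nat_lit 3416884282) (nat_lit 760) (nat_lit 10459494185) (nat_lit 836) (nat_lit 3983412165) (nat_lit 311) (nat_lit 5) (nat_lit 321) (nat_lit 5) (nat_lit 322) (nat_lit 5) (nat_lit 464) (nat_lit 433) (nat_lit 303)) (XT.lf (nat_lit 0) (nat_lit 21163510) (nat_lit 760) (nat_lit 17583269732) (nat_lit 76) (nat_lit 557812263) (nat_lit 301) (nat_lit 5) (nat_lit 311) (nat_lit 5) (nat_lit 302) (nat_lit 5) (nat_lit 465) (nat_lit 433) (nat_lit 302))) (XT.nd (nat_lit 78) (nat_lit 1292) (nat_lit 0) (XT.lf (nat_lit 0) (nat_lit 4245520669) (nat_lit 760) (nat_lit 2337384368) (nat_lit 76) (nat_lit 11887269002) (nat_lit 301) (nat_lit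 5) (nat_lit 311) (nat_lit 5) (nat_lit 302) (nat_lit 5) (nat_lit 466) (nat_lit 433) (nat_lit 301)) (XT.nd (nat_lit 78) (nat_lit 608) (nat_lit 0) (XT.lf (nat_lit 0) (nat_lit 8701387526) (nat_lit 760) (nat_lit 5291165126) (nat_lit 76) (nat_lit 4792694027) (nat_lit 292) (nat_lit 5) (nat_lit 302) (nat_lit 5) (nat_lit 293) (nat_lit 5) (nat_lit 467) (nat_lit 433) (nat_lit 300)) (XT.lf (nat_lit 0) (nat_lit 10803566274) (nat_lit 608) (nat_lit 2603200780) (nat_lit 684) (nat_lit 5700689488) (nat_lit 284) (nat_lit 5) (nat_lit 292) (nat_lit 5) (nat_lit 293) (nat_lit 5) (nat_lit 468) (nat_lit 433) (nat_lit 299))))) (XT.nd (nat_lit 234) (nat_lit 1216) (nat_lit 0) (XT.nd (nat_lit 78) (nat_lit 1292) (nat_lit 0) (XT.lf (nat_lit 0) (nat_lit 8043931855) (nat_lit 684) (nat_lit 10342973737) (nat_lit 760) (nat_lit 1049756881) (nat_lit 275) (nat_lit 5) (nat_lit 284) (nat_lit 5) (nat_lit 285) (nat_lit 5) (nat_lit 469) (nat_lit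 433) (nat_lit 298)) (XT.nd (nat_lit 78) (nat_lit 608) (nat_lit 0) (XT.lf (nat_lit 0) (nat_lit 3795260150) (nat_lit 684) (nat_lit 14551911497) (nat_lit 76) (nat_lit 1426016505) (nat_lit 266) (nat_lit 5) (nat_lit 275) (nat_lit 5) (nat_lit 267) (nat_lit 5) (nat_lit 470) (nat_lit 433) (nat_lit 297)) (XT.lf (nat_lit 0) (nat_lit 2308055526) (nat_lit 608) (nat_lit 6611750997) (nat_lit 684) (nat_lit 11196897075) (nat_lit 258) (nat_lit 5) (nat_lit 266) (nat_lit 5) (nat_lit 267) (nat_lit 5) (nat_lit 471) (nat_lit 433) (nat_lit 296)))) (XT.nd (nat_lit 78) (nat_lit 1216) (nat_lit 0) (XT.lf (nat_lit 0) (nat_lit 14319660216) (nat_lit 684) (nat_lit 648616306) (nat_lit 76) (nat_lit 5499818117) (nat_lit 258) (nat_lit 5) (nat_lit 267) (nat_lit 5) (nat_lit 259) (nat_lit 5) (nat_lit 472) (nat_lit 433) (nat_lit 295)) (XT.nd (nat_lit 78) (nat_lit 684) (nat_lit 0) (XT.lf (nat_lit 0) (nat_lit 17191086976) (nat_lit 532) (nat_lit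 2833397353) (nat_lit 608) (nat_lit 802685087) (nat_lit 251) (nat_lit 5) (nat_lit 258) (nat_lit 5) (nat_lit 259) (nat_lit 5) (nat_lit 473) (nat_lit 433) (nat_lit 294)) (XT.lf (nat_lit 0) (nat_lit 4791373819) (nat_lit 684) (nat_lit 6736739159) (nat_lit 76) (nat_lit 9665301662) (nat_lit 242) (nat_lit 5) (nat_lit 251) (nat_lit 5) (nat_lit 243) (nat_lit 5) (nat_lit 474) (nat_lit 433) (nat_lit 293)))))) (XT.nd (nat_lit 468) (nat_lit 2888) (nat_lit 0) (XT.nd (nat_lit 234) (nat_lit 988) (nat_lit 0) (XT.nd (nat_lit 78) (nat_lit 1140) (nat_lit 0) (XT.lf (nat_lit 0) (nat_lit 10656312672) (nat_lit 608) (nat_lit 9890763803) (nat_lit 76) (nat_lit 1021186748) (nat_lit 235) (nat_lit 5) (nat_lit 243) (nat_lit 5) (nat_lit 236) (nat_lit 5) (nat_lit 475) (nat_lit 433) (nat_lit 292)) (XT.nd (nat_lit 78) (nat_lit 608) (nat_lit 0) (XT.lf (nat_lit 0) (nat_lit 8804814774) (nat_lit 532) (nat_lit 8060401227) (nat_lit 608) (nat_lit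 5085782285) (nat_lit 228) (nat_lit 5) (nat_lit 235) (nat_lit 5) (nat_lit 236) (nat_lit 5) (nat_lit 476) (nat_lit 433) (nat_lit 291)) (XT.lf (nat_lit 0) (nat_lit 1028851321) (nat_lit 608) (nat_lit 16467336998) (nat_lit 76) (nat_lit 4846395869) (nat_lit 220) (nat_lit 5) (nat_lit 228) (nat_lit 5) (nat_lit 221) (nat_lit 5) (nat_lit 477) (nat_lit 433) (nat_lit 290)))) (XT.nd (nat_lit 78) (nat_lit 456) (nat_lit 0) (XT.lf (nat_lit 0) (nat_lit 2835771178) (nat_lit 532) (nat_lit 4572634454) (nat_lit 608) (nat_lit 15333829389) (nat_lit 213) (nat_lit 5) (nat_lit 220) (nat_lit 5) (nat_lit 221) (nat_lit 5) (nat_lit 478) (nat_lit 433) (nat_lit 289)) (XT.nd (nat_lit 78) (nat_lit 456) (nat_lit 0) (XT.lf (nat_lit 0) (nat_lit 14136820124) (nat_lit 608) (nat_lit 281732138) (nat_lit 76) (nat_lit 8732174855) (nat_lit 213) (nat_lit 5) (nat_lit 221) (nat_lit 5) (nat_lit 214) (nat_lit 5) (nat_lit 479) (nat_lit 433) (nat_lit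 288)) (XT.lf (nat_lit 0) (nat_lit 20149905041) (nat_lit 456) (nat_lit 1067335097) (nat_lit 532) (nat_lit 2351231952) (nat_lit 207) (nat_lit 5) (nat_lit 213) (nat_lit 5) (nat_lit 214) (nat_lit 5) (nat_lit 480) (nat_lit 433) (nat_lit 287))))) (XT.nd (nat_lit 234) (nat_lit 1368) (nat_lit 0) (XT.nd (nat_lit 78) (nat_lit 912) (nat_lit 0) (XT.lf (nat_lit 0) (nat_lit 4639122974) (nat_lit 608) (nat_lit 6696483227) (nat_lit 76) (nat_lit 12658819189) (nat_lit 199) (nat_lit 5) (nat_lit 207) (nat_lit 5) (nat_lit 200) (nat_lit 5) (nat_lit 481) (nat_lit 433) (nat_lit 286)) (XT.nd (nat_lit 78) (nat_lit 456) (nat_lit 0) (XT.lf (nat_lit 0) (nat_lit 11936581591) (nat_lit 532) (nat_lit 10046151727) (nat_lit 76) (nat_lit 2447527481) (nat_lit 193) (nat_lit 5) (nat_lit 200) (nat_lit 5) (nat_lit 194) (nat_lit 5) (nat_lit 482) (nat_lit 433) (nat_lit 285)) (XT.lf (nat_lit 0) (nat_lit 11368206643) (nat_lit 456) (nat_lit 8269340648)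 (nat_lit 532) (nat_lit 5237933367) (nat_lit 187) (nat_lit 5) (nat_lit 193) (nat_lit 5) (nat_lit 194) (nat_lit 5) (nat_lit 483) (nat_lit 433) (nat_lit 284)))) (XT.nd (nat_lit 78) (nat_lit 836) (nat_lit 0) (XT.lf (nat_lit 0) (nat_lit 2356965413) (nat_lit 532) (nat_lit 17061800725) (nat_lit 76) (nat_lit 5911985705) (nat_lit 180) (nat_lit 5) (nat_lit 187) (nat_lit 5) (nat_lit 181) (nat_lit 5) (nat_lit 484) (nat_lit 433) (nat_lit 283)) (XT.nd (nat_lit 78) (nat_lit 380) (nat_lit 0) (XT.lf (nat_lit 0) (nat_lit 5045615375) (nat_lit 456) (nat_lit 5233148192) (nat_lit 532) (nat_lit 15516821809) (nat_lit 174) (nat_lit 5) (nat_lit 180) (nat_lit 5) (nat_lit 181) (nat_lit 5) (nat_lit 485) (nat_lit 433) (nat_lit 282)) (XT.lf (nat_lit 0) (nat_lit 1723644516) (nat_lit 380) (nat_lit 16892821646) (nat_lit 456) (nat_lit 7654333687) (nat_lit 169) (nat_lit 5) (nat_lit 174) (nat_lit 5) (nat_lit 175) (nat_lit 5) (nat_lit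 486) (nat_lit 433) (nat_lit 281))))))) (XT.nd (nat_lit 58734) (nat_lit 0) (nat_lit 23712) (XT.nd (nat_lit 390) (nat_lit 380) (nat_lit 0) (XT.nd (nat_lit 156) (nat_lit 1216) (nat_lit 0) (XT.nd (nat_lit 78) (nat_lit 456) (nat_lit 0) (XT.lf (nat_lit 0) (nat_lit 604664707) (nat_lit 456) (nat_lit 1655717593) (nat_lit 76) (nat_lit 24496502515) (nat_lit 168) (nat_lit 5) (nat_lit 174) (nat_lit 5) (nat_lit 169) (nat_lit 5) (nat_lit 487) (nat_lit 433) (nat_lit 280)) (XT.lf (nat_lit 0) (nat_lit 9226482994) (nat_lit 532) (nat_lit 5191056801) (nat_lit 76) (nat_lit 12834620658) (nat_lit 162) (nat_lit 5) (nat_lit 169) (nat_lit 5) (nat_lit 163) (nat_lit 5) (nat_lit 488) (nat_lit 433) (nat_lit 279))) (XT.nd (nat_lit 78) (nat_lit 836) (nat_lit 0) (XT.lf (nat_lit 0) (nat_lit 18251594574) (nat_lit 456) (nat_lit 8795005109) (nat_lit 76) (nat_lit 712802752) (nat_lit 157) (nat_lit 5) (nat_lit 163) (nat_lit 5) (nat_lit 158)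 (nat_lit 5) (nat_lit 489) (nat_lit 433) (nat_lit 278)) (XT.nd (nat_lit 78) (nat_lit 456) (nat_lit 0) (XT.lf (nat_lit 0) (nat_lit 15729700617) (nat_lit 380) (nat_lit 12042247872) (nat_lit 456) (nat_lit 505424230) (nat_lit 152) (nat_lit 5) (nat_lit 157) (nat_lit 5) (nat_lit 158) (nat_lit 5) (nat_lit 490) (nat_lit 433) (nat_lit 277)) (XT.lf (nat_lit 0) (nat_lit 8806584949) (nat_lit 456) (nat_lit 16438755389) (nat_lit 76) (nat_lit 3561313425) (nat_lit 146) (nat_lit 5) (nat_lit 152) (nat_lit 5) (nat_lit 147) (nat_lit 5) (nat_lit 491) (nat_lit 433) (nat_lit 276))))) (XT.nd (nat_lit 58110) (nat_lit 0) (nat_lit 26600) (XT.nd (nat_lit 57954) (nat_lit 0) (nat_lit 26524) (XT.lf (nat_lit 0) (nat_lit 8870264058) (nat_lit 380) (nat_lit 9735383198) (nat_lit 456) (nat_lit 10741808735) (nat_lit 141) (nat_lit 5) (nat_lit 146) (nat_lit 5) (nat_lit 147) (nat_lit 5) (nat_lit 492) (nat_lit 433) (nat_lit 275)) (XT.nd (nat_lit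 78) (nat_lit 0) (nat_lit 0) (XT.lf (nat_lit 0) (nat_lit 2351765561) (nat_lit 1748) (nat_lit 1689837220) (nat_lit 1748) (nat_lit 1689837220) (nat_lit 490) (nat_lit 3) (nat_lit 513) (nat_lit 3) (nat_lit 513) (nat_lit 5) (nat_lit 434) (nat_lit 434) (nat_lit 332)) (XT.lf (nat_lit 76) (nat_lit 5115797912) (nat_lit 0) (nat_lit 467496395) (nat_lit 1748) (nat_lit 6035219036) (nat_lit 491) (nat_lit 5) (nat_lit 490) (nat_lit 3) (nat_lit 513) (nat_lit 5) (nat_lit 435) (nat_lit 434) (nat_lit 331)))) (XT.nd (nat_lit 78) (nat_lit 0) (nat_lit 76) (XT.lf (nat_lit 76) (nat_lit 2097135269) (nat_lit 0) (nat_lit 4446587958) (nat_lit 1748) (nat_lit 5234011903) (nat_lit 492) (nat_lit 5) (nat_lit 491) (nat_lit 5) (nat_lit 514) (nat_lit 5) (nat_lit 436) (nat_lit 434) (nat_lit 330)) (XT.nd (nat_lit 78) (nat_lit 0) (nat_lit 0) (XT.lf (nat_lit 0) (nat_lit 7573178321) (nat_lit 1672) (nat_lit 939213509) (nat_lit 1748) (nat_lit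 3428542236) (nat_lit 492) (nat_lit 5) (nat_lit 514) (nat_lit 5) (nat_lit 515) (nat_lit 5) (nat_lit 437) (nat_lit 434) (nat_lit 329)) (XT.lf (nat_lit 76) (nat_lit 8124948936) (nat_lit 0) (nat_lit 562488041) (nat_lit 1748) (nat_lit 3420518218) (nat_lit 493) (nat_lit 5) (nat_lit 492) (nat_lit 5) (nat_lit 515) (nat_lit 5) (nat_lit 438) (nat_lit 434) (nat_lit 328)))))) (XT.nd (nat_lit 468) (nat_lit 1444) (nat_lit 0) (XT.nd (nat_lit 234) (nat_lit 1596) (nat_lit 0) (XT.nd (nat_lit 78) (nat_lit 0) (nat_lit 76) (XT.lf (nat_lit 76) (nat_lit 5195960911) (nat_lit 0) (nat_lit 4701052971) (nat_lit 1748) (nat_lit 2381739753) (nat_lit 494) (nat_lit 5) (nat_lit 493) (nat_lit 5) (nat_lit 516) (nat_lit 5) (nat_lit 439) (nat_lit 434) (nat_lit 327)) (XT.nd (nat_lit 78) (nat_lit 0) (nat_lit 0) (XT.lf (nat_lit 76) (nat_lit 2236364492) (nat_lit 0) (nat_lit 8947670082) (nat_lit 1748) (nat_lit 1269822682) (nat_lit 495) (nat_lit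 5) (nat_lit 494) (nat_lit 5) (nat_lit 517) (nat_lit 5) (nat_lit 440) (nat_lit 434) (nat_lit 326)) (XT.lf (nat_lit 76) (nat_lit 11883459286) (nat_lit 0) (nat_lit 679117925) (nat_lit 1748) (nat_lit 70582778) (nat_lit 495) (nat_lit 5) (nat_lit 494) (nat_lit 5) (nat_lit 517) (nat_lit 5) (nat_lit 441) (nat_lit 434) (nat_lit 325)))) (XT.nd (nat_lit 78) (nat_lit 0) (nat_lit 76) (XT.lf (nat_lit 0) (nat_lit 1234090364) (nat_lit 1748) (nat_lit 3771128595) (nat_lit 1824) (nat_lit 7810781031) (nat_lit 472) (nat_lit 5) (nat_lit 495) (nat_lit 5) (nat_lit 496) (nat_lit 5) (nat_lit 442) (nat_lit 434) (nat_lit 324)) (XT.nd (nat_lit 78) (nat_lit 0) (nat_lit 0) (XT.lf (nat_lit 0) (nat_lit 2625182961) (nat_lit 1748) (nat_lit 6828489920) (nat_lit 1824) (nat_lit 3549682125) (nat_lit 473) (nat_lit 5) (nat_lit 496) (nat_lit 5) (nat_lit 497) (nat_lit 5) (nat_lit 443) (nat_lit 434) (nat_lit 323)) (XT.lf (nat_lit 76) (nat_lit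 3267094066) (nat_lit 0) (nat_lit 846971832) (nat_lit 1824) (nat_lit 9081147418) (nat_lit 474) (nat_lit 5) (nat_lit 473) (nat_lit 5) (nat_lit 497) (nat_lit 5) (nat_lit 444) (nat_lit 434) (nat_lit 322))))) (XT.nd (nat_lit 234) (nat_lit 1596) (nat_lit 0) (XT.nd (nat_lit 78) (nat_lit 0) (nat_lit 76) (XT.lf (nat_lit 76) (nat_lit 301303594) (nat_lit 0) (nat_lit 5423198194) (nat_lit 1824) (nat_lit 7666791544) (nat_lit 475) (nat_lit 5) (nat_lit 474) (nat_lit 5) (nat_lit 498) (nat_lit 5) (nat_lit 445) (nat_lit 434) (nat_lit 321)) (XT.nd (nat_lit 78) (nat_lit 0) (nat_lit 0) (XT.lf (nat_lit 0) (nat_lit 7455865780) (nat_lit 1748) (nat_lit 2664449855) (nat_lit 1824) (nat_lit 3471491389) (nat_lit 475) (nat_lit 5) (nat_lit 498) (nat_lit 5) (nat_lit 499) (nat_lit 5) (nat_lit 446) (nat_lit 434) (nat_lit 320)) (XT.lf (nat_lit 76) (nat_lit 8127070202) (nat_lit 0) (nat_lit 1178719019) (nat_lit 1824) (nat_lit 4491218010)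 (nat_lit 476) (nat_lit 5) (nat_lit 475) (nat_lit 5) (nat_lit 499) (nat_lit 5) (nat_lit 447) (nat_lit 434) (nat_lit 319)))) (XT.nd (nat_lit 78) (nat_lit 1748) (nat_lit 0) (XT.lf (nat_lit 76) (nat_lit 5270361014) (nat_lit 0) (nat_lit 6023547359) (nat_lit 1824) (nat_lit 2712804482) (nat_lit 477) (nat_lit 5) (nat_lit 476) (nat_lit 5) (nat_lit 500) (nat_lit 5) (nat_lit 448) (nat_lit 434) (nat_lit 318)) (XT.nd (nat_lit 78) (nat_lit 1824) (nat_lit 0) (XT.lf (nat_lit 76) (nat_lit 2379525480) (nat_lit 0) (nat_lit 11023471820) (nat_lit 1824) (nat_lit 818489097) (nat_lit 478) (nat_lit 5) (nat_lit 477) (nat_lit 5) (nat_lit 501) (nat_lit 5) (nat_lit 449) (nat_lit 434) (nat_lit 317)) (XT.lf (nat_lit 0) (nat_lit 1196757446) (nat_lit 1824) (nat_lit 558560484) (nat_lit 1900) (nat_lit 12685662120) (nat_lit 453) (nat_lit 5) (nat_lit 477) (nat_lit 5) (nat_lit 478) (nat_lit 5) (nat_lit 450) (nat_lit 434) (nat_lit 316))))))))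
noncomputable def xc97 : XT := (XT.nd (nat_lit 1794) (nat_lit 7980) (nat_lit 0) (XT.nd (nat_lit 858) (nat_lit 7600) (nat_lit 0) (XT.nd (nat_lit 390) (nat_lit 4256) (nat_lit 0) (XT.nd (nat_lit 156) (nat_lit 1900) (nat_lit 0) (XT.nd (nat_lit 78) (nat_lit 1672) (nat_lit 0) (XT.lf (nat_lit 0) (nat_lit 3364856239) (nat_lit 1824) (nat_lit 3529399768) (nat_lit 76) (nat_lit 7770627028) (nat_lit 454) (nat_lit 5) (nat_lit 478) (nat_lit 5) (nat_lit 455) (nat_lit 5) (nat_lit 451) (nat_lit 434) (nat_lit 315)) (XT.lf (nat_lit 0) (nat_lit 5665803086) (nat_lit 1748) (nat_lit 6538688300) (nat_lit 76) (nat_lit 2689658561) (nat_lit 432) (nat_lit 5) (nat_lit 455) (nat_lit 5) (nat_lit 433) (nat_lit 5) (nat_lit 452) (nat_lit 434) (nat_lit 314))) (XT.nd (nat_lit 78) (nat_lit 912) (nat_lit 0) (XT.lf (nat_lit 0) (nat_lit 5524311778) (nat_lit 988) (nat_lit 2598192453) (nat_lit 1064) (nat_lit 7006058966) (nat_lit 419) (nat_lit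 5) (nat_lit 432) (nat_lit 5) (nat_lit 433) (nat_lit 5) (nat_lit 453) (nat_lit 434) (nat_lit 313)) (XT.nd (nat_lit 78) (nat_lit 0) (nat_lit 0) (XT.lf (nat_lit 0) (nat_lit 2639175817) (nat_lit 912) (nat_lit 8103983672) (nat_lit 988) (nat_lit 4625047065) (nat_lit 407) (nat_lit 5) (nat_lit 419) (nat_lit 5) (nat_lit 420) (nat_lit 5) (nat_lit 454) (nat_lit 434) (nat_lit 312)) (XT.lf (nat_lit 0) (nat_lit 13518307592) (nat_lit 988) (nat_lit 279019727) (nat_lit 76) (nat_lit 1816197115) (nat_lit 407) (nat_lit 5) (nat_lit 420) (nat_lit 5) (nat_lit 408) (nat_lit 5) (nat_lit 455) (nat_lit 434) (nat_lit 311))))) (XT.nd (nat_lit 234) (nat_lit 1596) (nat_lit 0) (XT.nd (nat_lit 78) (nat_lit 1672) (nat_lit 0) (XT.lf (nat_lit 0) (nat_lit 622977819) (nat_lit 988) (nat_lit 3228817695) (nat_lit 76) (nat_lit 12011959307) (nat_lit 394) (nat_lit 5) (nat_lit 407) (nat_lit 5) (nat_lit 395) (nat_lit 5) (nat_lit 456) (nat_lit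 434) (nat_lit 310)) (XT.nd (nat_lit 78) (nat_lit 836) (nat_lit 0) (XT.lf (nat_lit 0) (nat_lit 3485170390) (nat_lit 912) (nat_lit 6244455048) (nat_lit 76) (nat_lit 6389773821) (nat_lit 383) (nat_lit 5) (nat_lit 395) (nat_lit 5) (nat_lit 384) (nat_lit 5) (nat_lit 457) (nat_lit 434) (nat_lit 309)) (XT.lf (nat_lit 0) (nat_lit 6513559423) (nat_lit 912) (nat_lit 9301148072) (nat_lit 76) (nat_lit 566401333) (nat_lit 372) (nat_lit 5) (nat_lit 384) (nat_lit 5) (nat_lit 373) (nat_lit 5) (nat_lit 458) (nat_lit 434) (nat_lit 308)))) (XT.nd (nat_lit 78) (nat_lit 836) (nat_lit 0) (XT.lf (nat_lit 0) (nat_lit 4212620774) (nat_lit 760) (nat_lit 5538412421) (nat_lit 836) (nat_lit 6897274167) (nat_lit 362) (nat_lit 5) (nat_lit 372) (nat_lit 5) (nat_lit 373) (nat_lit 5) (nat_lit 459) (nat_lit 434) (nat_lit 307)) (XT.nd (nat_lit 78) (nat_lit 0) (nat_lit 0) (XT.lf (nat_lit 0) (nat_lit 1303680413) (nat_lit 836) (nat_lit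 11870221601) (nat_lit 912) (nat_lit 3747856697) (nat_lit 351) (nat_lit 5) (nat_lit 362) (nat_lit 5) (nat_lit 363) (nat_lit 5) (nat_lit 460) (nat_lit 434) (nat_lit 306)) (XT.lf (nat_lit 0) (nat_lit 15571103307) (nat_lit 836) (nat_lit 1233382874) (nat_lit 912) (nat_lit 396829041) (nat_lit 351) (nat_lit 5) (nat_lit 362) (nat_lit 5) (nat_lit 363) (nat_lit 5) (nat_lit 461) (nat_lit 434) (nat_lit 305)))))) (XT.nd (nat_lit 468) (nat_lit 3800) (nat_lit 0) (XT.nd (nat_lit 234) (nat_lit 1520) (nat_lit 0) (XT.nd (nat_lit 78) (nat_lit 1444) (nat_lit 0) (XT.lf (nat_lit 0) (nat_lit 3146622882) (nat_lit 836) (nat_lit 4641067038) (nat_lit 76) (nat_lit 9698534806) (nat_lit 340) (nat_lit 5) (nat_lit 351) (nat_lit 5) (nat_lit 341) (nat_lit 5) (nat_lit 462) (nat_lit 434) (nat_lit 304)) (XT.nd (nat_lit 78) (nat_lit 684) (nat_lit 0) (XT.lf (nat_lit 0) (nat_lit 6881700912) (nat_lit 836) (nat_lit 7696693283) (nat_lit 76)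 (nat_lit 3199422623) (nat_lit 330) (nat_lit 5) (nat_lit 341) (nat_lit 5) (nat_lit 331) (nat_lit 5) (nat_lit 463) (nat_lit 434) (nat_lit 303)) (XT.lf (nat_lit 0) (nat_lit 7257276700) (nat_lit 684) (nat_lit 3587416421) (nat_lit 760) (nat_lit 7231148293) (nat_lit 321) (nat_lit 5) (nat_lit 330) (nat_lit 5) (nat_lit 331) (nat_lit 5) (nat_lit 464) (nat_lit 434) (nat_lit 302)))) (XT.nd (nat_lit 78) (nat_lit 760) (nat_lit 0) (XT.lf (nat_lit 0) (nat_lit 4373651118) (nat_lit 760) (nat_lit 10669356278) (nat_lit 836) (nat_lit 3337472628) (nat_lit 311) (nat_lit 5) (nat_lit 321) (nat_lit 5) (nat_lit 322) (nat_lit 5) (nat_lit 465) (nat_lit 434) (nat_lit 301)) (XT.nd (nat_lit 78) (nat_lit 0) (nat_lit 0) (XT.lf (nat_lit 0) (nat_lit 761444154) (nat_lit 760) (nat_lit 17246249009) (nat_lit 76) (nat_lit 684533917) (nat_lit 301) (nat_lit 5) (nat_lit 311) (nat_lit 5) (nat_lit 302) (nat_lit 5) (nat_lit 466) (nat_lit 434)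 (nat_lit 300)) (XT.lf (nat_lit 0) (nat_lit 5090988947) (nat_lit 760) (nat_lit 1568167244) (nat_lit 76) (nat_lit 12350670845) (nat_lit 301) (nat_lit 5) (nat_lit 311) (nat_lit 5) (nat_lit 302) (nat_lit 5) (nat_lit 467) (nat_lit 434) (nat_lit 299))))) (XT.nd (nat_lit 234) (nat_lit 1824) (nat_lit 0) (XT.nd (nat_lit 78) (nat_lit 1292) (nat_lit 0) (XT.lf (nat_lit 0) (nat_lit 9665777053) (nat_lit 760) (nat_lit 4610839912) (nat_lit 76) (nat_lit 5058032613) (nat_lit 292) (nat_lit 5) (nat_lit 302) (nat_lit 5) (nat_lit 293) (nat_lit 5) (nat_lit 468) (nat_lit 434) (nat_lit 298)) (XT.nd (nat_lit 78) (nat_lit 684) (nat_lit 0) (XT.lf (nat_lit 0) (nat_lit 11953120676) (nat_lit 608) (nat_lit 2544070781) (nat_lit 684) (nat_lit 5169639359) (nat_lit 284) (nat_lit 5) (nat_lit 292) (nat_lit 5) (nat_lit 293) (nat_lit 5) (nat_lit 469) (nat_lit 434) (nat_lit 297)) (XT.lf (nat_lit 0) (nat_lit 9110053545) (nat_lit 684) (nat_lit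 10502855508) (nat_lit 760) (nat_lit 393282850) (nat_lit 275) (nat_lit 5) (nat_lit 284) (nat_lit 5) (nat_lit 285) (nat_lit 5) (nat_lit 470) (nat_lit 434) (nat_lit 296)))) (XT.nd (nat_lit 78) (nat_lit 1140) (nat_lit 0) (XT.lf (nat_lit 0) (nat_lit 4574625355) (nat_lit 684) (nat_lit 14155734202) (nat_lit 76) (nat_lit 1622635547) (nat_lit 266) (nat_lit 5) (nat_lit 275) (nat_lit 5) (nat_lit 267) (nat_lit 5) (nat_lit 471) (nat_lit 434) (nat_lit 295)) (XT.nd (nat_lit 78) (nat_lit 532) (nat_lit 0) (XT.lf (nat_lit 0) (nat_lit 3196521701) (nat_lit 608) (nat_lit 6642321656) (nat_lit 684) (nat_lit 10868256240) (nat_lit 258) (nat_lit 5) (nat_lit 266) (nat_lit 5) (nat_lit 267) (nat_lit 5) (nat_lit 472) (nat_lit 434) (nat_lit 294)) (XT.lf (nat_lit 0) (nat_lit 140801223) (nat_lit 532) (nat_lit 15242889177) (nat_lit 608) (nat_lit 5685684235) (nat_lit 251) (nat_lit 5) (nat_lit 258) (nat_lit 5) (nat_lit 259) (nat_lit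 5) (nat_lit 473) (nat_lit 434) (nat_lit 293))))))) (XT.nd (nat_lit 936) (nat_lit 2584) (nat_lit 0) (XT.nd (nat_lit 468) (nat_lit 2508) (nat_lit 0) (XT.nd (nat_lit 234) (nat_lit 1672) (nat_lit 0) (XT.nd (nat_lit 78) (nat_lit 1216) (nat_lit 0) (XT.lf (nat_lit 0) (nat_lit 18500755878) (nat_lit 532) (nat_lit 2744691726) (nat_lit 608) (nat_lit 194060441) (nat_lit 251) (nat_lit 5) (nat_lit 258) (nat_lit 5) (nat_lit 259) (nat_lit 5) (nat_lit 474) (nat_lit 434) (nat_lit 292)) (XT.nd (nat_lit 78) (nat_lit 532) (nat_lit 0) (XT.lf (nat_lit 0) (nat_lit 5547615482) (nat_lit 684) (nat_lit 6138412978) (nat_lit 76) (nat_lit 10130870193) (nat_lit 242) (nat_lit 5) (nat_lit 251) (nat_lit 5) (nat_lit 243) (nat_lit 5) (nat_lit 475) (nat_lit 434) (nat_lit 291)) (XT.lf (nat_lit 0) (nat_lit 11576993753) (nat_lit 608) (nat_lit 9389200944) (nat_lit 76) (nat_lit 1237030165) (nat_lit 235) (nat_lit 5) (nat_lit 243) (nat_lit 5)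 (nat_lit 236) (nat_lit 5) (nat_lit 476) (nat_lit 434) (nat_lit 290)))) (XT.nd (nat_lit 78) (nat_lit 1140) (nat_lit 0) (XT.lf (nat_lit 0) (nat_lit 9854293753) (nat_lit 532) (nat_lit 8105464729) (nat_lit 608) (nat_lit 4637933543) (nat_lit 228) (nat_lit 5) (nat_lit 235) (nat_lit 5) (nat_lit 236) (nat_lit 5) (nat_lit 477) (nat_lit 434) (nat_lit 289)) (XT.nd (nat_lit 78) (nat_lit 532) (nat_lit 0) (XT.lf (nat_lit 0) (nat_lit 1641371485) (nat_lit 608) (nat_lit 16170584941) (nat_lit 76) (nat_lit 5189210811) (nat_lit 220) (nat_lit 5) (nat_lit 228) (nat_lit 5) (nat_lit 221) (nat_lit 5) (nat_lit 478) (nat_lit 434) (nat_lit 288)) (XT.lf (nat_lit 0) (nat_lit 3698787142) (nat_lit 532) (nat_lit 4501634808) (nat_lit 608) (nat_lit 15212625243) (nat_lit 213) (nat_lit 5) (nat_lit 220) (nat_lit 5) (nat_lit 221) (nat_lit 5) (nat_lit 479) (nat_lit 434) (nat_lit 287))))) (XT.nd (nat_lit 234) (nat_lit 1444) (nat_lit 0) (XT.nd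 (nat_lit 78) (nat_lit 608) (nat_lit 0) (XT.lf (nat_lit 0) (nat_lit 481220464) (nat_lit 456) (nat_lit 14637310008) (nat_lit 532) (nat_lit 8715508484) (nat_lit 207) (nat_lit 5) (nat_lit 213) (nat_lit 5) (nat_lit 214) (nat_lit 5) (nat_lit 480) (nat_lit 434) (nat_lit 286)) (XT.nd (nat_lit 78) (nat_lit 608) (nat_lit 0) (XT.lf (nat_lit 0) (nat_lit 21507082738) (nat_lit 456) (nat_lit 889892907) (nat_lit 532) (nat_lit 1867630067) (nat_lit 207) (nat_lit 5) (nat_lit 213) (nat_lit 5) (nat_lit 214) (nat_lit 5) (nat_lit 481) (nat_lit 434) (nat_lit 285)) (XT.lf (nat_lit 0) (nat_lit 5315469615) (nat_lit 608) (nat_lit 6140310847) (nat_lit 76) (nat_lit 13247680761) (nat_lit 199) (nat_lit 5) (nat_lit 207) (nat_lit 5) (nat_lit 200) (nat_lit 5) (nat_lit 482) (nat_lit 434) (nat_lit 284)))) (XT.nd (nat_lit 78) (nat_lit 988) (nat_lit 0) (XT.lf (nat_lit 0) (nat_lit 12822459949) (nat_lit 532) (nat_lit 9593590883) (nat_lit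 76) (nat_lit 2736510261) (nat_lit 193) (nat_lit 5) (nat_lit 200) (nat_lit 5) (nat_lit 194) (nat_lit 5) (nat_lit 483) (nat_lit 434) (nat_lit 283)) (XT.nd (nat_lit 78) (nat_lit 532) (nat_lit 0) (XT.lf (nat_lit 0) (nat_lit 12450966370) (nat_lit 456) (nat_lit 8292931687) (nat_lit 532) (nat_lit 4867452134) (nat_lit 187) (nat_lit 5) (nat_lit 193) (nat_lit 5) (nat_lit 194) (nat_lit 5) (nat_lit 484) (nat_lit 434) (nat_lit 282)) (XT.lf (nat_lit 0) (nat_lit 2939458643) (nat_lit 532) (nat_lit 16828332968) (nat_lit 76) (nat_lit 6312599130) (nat_lit 180) (nat_lit 5) (nat_lit 187) (nat_lit 5) (nat_lit 181) (nat_lit 5) (nat_lit 485) (nat_lit 434) (nat_lit 281)))))) (XT.nd (nat_lit 468) (nat_lit 456) (nat_lit 0) (XT.nd (nat_lit 234) (nat_lit 1216) (nat_lit 0) (XT.nd (nat_lit 78) (nat_lit 456) (nat_lit 0) (XT.lf (nat_lit 0) (nat_lit 5930213655) (nat_lit 456) (nat_lit 5158551363) (nat_lit 532) (nat_lit 15470608573)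 (nat_lit 174) (nat_lit 5) (nat_lit 180) (nat_lit 5) (nat_lit 181) (nat_lit 5) (nat_lit 486) (nat_lit 434) (nat_lit 280)) (XT.nd (nat_lit 78) (nat_lit 76) (nat_lit 0) (XT.lf (nat_lit 0) (nat_lit 2505124458) (nat_lit 380) (nat_lit 17163061405) (nat_lit 456) (nat_lit 7380828249) (nat_lit 169) (nat_lit 5) (nat_lit 174) (nat_lit 5) (nat_lit 175) (nat_lit 5) (nat_lit 487) (nat_lit 434) (nat_lit 279)) (XT.lf (nat_lit 0) (nat_lit 1104879150) (nat_lit 456) (nat_lit 990424412) (nat_lit 76) (nat_lit 25454603267) (nat_lit 168) (nat_lit 5) (nat_lit 174) (nat_lit 5) (nat_lit 169) (nat_lit 5) (nat_lit 488) (nat_lit 434) (nat_lit 278)))) (XT.nd (nat_lit 78) (nat_lit 760) (nat_lit 0) (XT.lf (nat_lit 0) (nat_lit 9977375975) (nat_lit 532) (nat_lit 4635427737) (nat_lit 76) (nat_lit 13447397799) (nat_lit 162) (nat_lit 5) (nat_lit 169) (nat_lit 5) (nat_lit 163) (nat_lit 5) (nat_lit 489) (nat_lit 434) (nat_lit 277)) (XT.nd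 (nat_lit 78) (nat_lit 380) (nat_lit 0) (XT.lf (nat_lit 0) (nat_lit 19265501589) (nat_lit 456) (nat_lit 8351223924) (nat_lit 76) (nat_lit 966091241) (nat_lit 157) (nat_lit 5) (nat_lit 163) (nat_lit 5) (nat_lit 158) (nat_lit 5) (nat_lit 490) (nat_lit 434) (nat_lit 276)) (XT.lf (nat_lit 0) (nat_lit 16897742496) (nat_lit 380) (nat_lit 12164660222) (nat_lit 456) (nat_lit 54105879) (nat_lit 152) (nat_lit 5) (nat_lit 157) (nat_lit 5) (nat_lit 158) (nat_lit 5) (nat_lit 491) (nat_lit 434) (nat_lit 275))))) (XT.nd (nat_lit 58188) (nat_lit 0) (nat_lit 26220) (XT.nd (nat_lit 58032) (nat_lit 0) (nat_lit 26144) (XT.lf (nat_lit 0) (nat_lit 9523777644) (nat_lit 456) (nat_lit 16233493215) (nat_lit 76) (nat_lit 3904485122) (nat_lit 146) (nat_lit 5) (nat_lit 152) (nat_lit 5) (nat_lit 147) (nat_lit 5) (nat_lit 492) (nat_lit 434) (nat_lit 274)) (XT.nd (nat_lit 78) (nat_lit 0) (nat_lit 0) (XT.lf (nat_lit 0) (nat_lit 3190854254)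 (nat_lit 1748) (nat_lit 1348516892) (nat_lit 1748) (nat_lit 1348516892) (nat_lit 490) (nat_lit 3) (nat_lit 513) (nat_lit 3) (nat_lit 513) (nat_lit 5) (nat_lit 435) (nat_lit 435) (nat_lit 330)) (XT.lf (nat_lit 76) (nat_lit 6040582768) (nat_lit 0) (nat_lit 1207520611) (nat_lit 1748) (nat_lit 4688777513) (nat_lit 491) (nat_lit 5) (nat_lit 490) (nat_lit 3) (nat_lit 513) (nat_lit 5) (nat_lit 436) (nat_lit 435) (nat_lit 329)))) (XT.nd (nat_lit 78) (nat_lit 0) (nat_lit 76) (XT.lf (nat_lit 76) (nat_lit 2953181928) (nat_lit 0) (nat_lit 5241125426) (nat_lit 1748) (nat_lit 3907439773) (nat_lit 492) (nat_lit 5) (nat_lit 491) (nat_lit 5) (nat_lit 514) (nat_lit 5) (nat_lit 437) (nat_lit 435) (nat_lit 328)) (XT.nd (nat_lit 78) (nat_lit 0) (nat_lit 0) (XT.lf (nat_lit 0) (nat_lit 9208121119) (nat_lit 1672) (nat_lit 164724656) (nat_lit 1748) (nat_lit 2897933589) (nat_lit 492) (nat_lit 5) (nat_lit 514) (nat_lit 5) (nat_lit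 515) (nat_lit 5) (nat_lit 438) (nat_lit 435) (nat_lit 327)) (XT.lf (nat_lit 76) (nat_lit 9158340372) (nat_lit 0) (nat_lit 1161591695) (nat_lit 1748) (nat_lit 2123603203) (nat_lit 493) (nat_lit 5) (nat_lit 492) (nat_lit 5) (nat_lit 515) (nat_lit 5) (nat_lit 439) (nat_lit 435) (nat_lit 326))))))))
noncomputable def xc98 : XT := (XT.nd (nat_lit 1794) (nat_lit 12388) (nat_lit 0) (XT.nd (nat_lit 858) (nat_lit 7828) (nat_lit 0) (XT.nd (nat_lit 390) (nat_lit 1368) (nat_lit 0) (XT.nd (nat_lit 156) (nat_lit 0) (nat_lit 0) (XT.nd (nat_lit 78) (nat_lit 1672) (nat_lit 0) (XT.lf (nat_lit 76) (nat_lit 6159600427) (nat_lit 0) (nat_lit 5367812820) (nat_lit 1748) (nat_lit 1092818518) (nat_lit 494) (nat_lit 5) (nat_lit 493) (nat_lit 5) (nat_lit 516) (nat_lit 5) (nat_lit 440) (nat_lit 435) (nat_lit 325)) (XT.lf (nat_lit 0) (nat_lit 14717724) (nat_lit 1748) (nat_lit 9673510118) (nat_lit 1824) (nat_lit 3113100980) (nat_lit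 471) (nat_lit 5) (nat_lit 494) (nat_lit 5) (nat_lit 495) (nat_lit 5) (nat_lit 441) (nat_lit 435) (nat_lit 324))) (XT.nd (nat_lit 78) (nat_lit 0) (nat_lit 76) (XT.lf (nat_lit 76) (nat_lit 46379404) (nat_lit 0) (nat_lit 1149632718) (nat_lit 1824) (nat_lit 11790598521) (nat_lit 472) (nat_lit 5) (nat_lit 471) (nat_lit 5) (nat_lit 495) (nat_lit 5) (nat_lit 442) (nat_lit 435) (nat_lit 323)) (XT.nd (nat_lit 78) (nat_lit 0) (nat_lit 76) (XT.lf (nat_lit 0) (nat_lit 2504074381) (nat_lit 1748) (nat_lit 3052324731) (nat_lit 1824) (nat_lit 7619229024) (nat_lit 472) (nat_lit 5) (nat_lit 495) (nat_lit 5) (nat_lit 496) (nat_lit 5) (nat_lit 443) (nat_lit 435) (nat_lit 322)) (XT.lf (nat_lit 0) (nat_lit 3903809436) (nat_lit 1748) (nat_lit 6188177122) (nat_lit 1824) (nat_lit 3277284660) (nat_lit 473) (nat_lit 5) (nat_lit 496) (nat_lit 5) (nat_lit 497) (nat_lit 5) (nat_lit 444) (nat_lit 435) (nat_lit 321))))) (XT.nd (nat_lit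 234) (nat_lit 1520) (nat_lit 0) (XT.nd (nat_lit 78) (nat_lit 0) (nat_lit 76) (XT.lf (nat_lit 76) (nat_lit 4196562545) (nat_lit 0) (nat_lit 1211246980) (nat_lit 1824) (nat_lit 8159672188) (nat_lit 474) (nat_lit 5) (nat_lit 473) (nat_lit 5) (nat_lit 497) (nat_lit 5) (nat_lit 445) (nat_lit 435) (nat_lit 320)) (XT.nd (nat_lit 78) (nat_lit 0) (nat_lit 76) (XT.lf (nat_lit 76) (nat_lit 1153678743) (nat_lit 0) (nat_lit 5882132145) (nat_lit 1824) (nat_lit 6734253480) (nat_lit 475) (nat_lit 5) (nat_lit 474) (nat_lit 5) (nat_lit 498) (nat_lit 5) (nat_lit 446) (nat_lit 435) (nat_lit 319)) (XT.lf (nat_lit 0) (nat_lit 8784056970) (nat_lit 1748) (nat_lit 1901444343) (nat_lit 1824) (nat_lit 3291798470) (nat_lit 475) (nat_lit 5) (nat_lit 498) (nat_lit 5) (nat_lit 499) (nat_lit 5) (nat_lit 447) (nat_lit 435) (nat_lit 318)))) (XT.nd (nat_lit 78) (nat_lit 1672) (nat_lit 0) (XT.lf (nat_lit 76) (nat_lit 9200145631) (nat_lit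 0) (nat_lit 1462546264) (nat_lit 1824) (nat_lit 3526504809) (nat_lit 476) (nat_lit 5) (nat_lit 475) (nat_lit 5) (nat_lit 499) (nat_lit 5) (nat_lit 448) (nat_lit 435) (nat_lit 317)) (XT.nd (nat_lit 78) (nat_lit 1748) (nat_lit 0) (XT.lf (nat_lit 76) (nat_lit 6267236737) (nat_lit 0) (nat_lit 6415707321) (nat_lit 1824) (nat_lit 1722804491) (nat_lit 477) (nat_lit 5) (nat_lit 476) (nat_lit 5) (nat_lit 500) (nat_lit 5) (nat_lit 449) (nat_lit 435) (nat_lit 316)) (XT.lf (nat_lit 0) (nat_lit 198745655) (nat_lit 1824) (nat_lit 11330564842) (nat_lit 1900) (nat_lit 3098161756) (nat_lit 453) (nat_lit 5) (nat_lit 477) (nat_lit 5) (nat_lit 478) (nat_lit 5) (nat_lit 450) (nat_lit 435) (nat_lit 315)))))) (XT.nd (nat_lit 468) (nat_lit 3420) (nat_lit 0) (XT.nd (nat_lit 234) (nat_lit 2812) (nat_lit 0) (XT.nd (nat_lit 78) (nat_lit 1596) (nat_lit 0) (XT.lf (nat_lit 76) (nat_lit 264246697) (nat_lit 0) (nat_lit 1970840550)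 (nat_lit 1900) (nat_lit 12618924582) (nat_lit 454) (nat_lit 5) (nat_lit 453) (nat_lit 5) (nat_lit 478) (nat_lit 5) (nat_lit 451) (nat_lit 435) (nat_lit 314)) (XT.nd (nat_lit 78) (nat_lit 1672) (nat_lit 0) (XT.lf (nat_lit 0) (nat_lit 4441704558) (nat_lit 1824) (nat_lit 2792062992) (nat_lit 76) (nat_lit 7851399184) (nat_lit 454) (nat_lit 5) (nat_lit 478) (nat_lit 5) (nat_lit 455) (nat_lit 5) (nat_lit 452) (nat_lit 435) (nat_lit 313)) (XT.lf (nat_lit 0) (nat_lit 6787840664) (nat_lit 1748) (nat_lit 5885311883) (nat_lit 76) (nat_lit 2648640104) (nat_lit 432) (nat_lit 5) (nat_lit 455) (nat_lit 5) (nat_lit 433) (nat_lit 5) (nat_lit 453) (nat_lit 435) (nat_lit 312)))) (XT.nd (nat_lit 78) (nat_lit 1824) (nat_lit 0) (XT.lf (nat_lit 0) (nat_lit 6525795467) (nat_lit 988) (nat_lit 2770143644) (nat_lit 1064) (nat_lit 6267749357) (nat_lit 419) (nat_lit 5) (nat_lit 432) (nat_lit 5) (nat_lit 433) (nat_lit 5) (nat_lit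 454) (nat_lit 435) (nat_lit 311)) (XT.nd (nat_lit 78) (nat_lit 912) (nat_lit 0) (XT.lf (nat_lit 0) (nat_lit 3559574476) (nat_lit 912) (nat_lit 8413428381) (nat_lit 988) (nat_lit 3837966465) (nat_lit 407) (nat_lit 5) (nat_lit 419) (nat_lit 5) (nat_lit 420) (nat_lit 5) (nat_lit 455) (nat_lit 435) (nat_lit 310)) (XT.lf (nat_lit 0) (nat_lit 554776391) (nat_lit 912) (nat_lit 14253379451) (nat_lit 988) (nat_lit 1255959748) (nat_lit 395) (nat_lit 5) (nat_lit 407) (nat_lit 5) (nat_lit 408) (nat_lit 5) (nat_lit 456) (nat_lit 435) (nat_lit 309))))) (XT.nd (nat_lit 234) (nat_lit 1672) (nat_lit 0) (XT.nd (nat_lit 78) (nat_lit 1672) (nat_lit 0) (XT.lf (nat_lit 0) (nat_lit 1507866634) (nat_lit 988) (nat_lit 2492702877) (nat_lit 76) (nat_lit 12321651560) (nat_lit 394) (nat_lit 5) (nat_lit 407) (nat_lit 5) (nat_lit 395) (nat_lit 5) (nat_lit 457) (nat_lit 435) (nat_lit 308)) (XT.nd (nat_lit 78) (nat_lit 836) (nat_lit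 0) (XT.lf (nat_lit 0) (nat_lit 4435842214) (nat_lit 912) (nat_lit 5595104624) (nat_lit 76) (nat_lit 6554993225) (nat_lit 383) (nat_lit 5) (nat_lit 395) (nat_lit 5) (nat_lit 384) (nat_lit 5) (nat_lit 458) (nat_lit 435) (nat_lit 307)) (XT.lf (nat_lit 0) (nat_lit 7535758849) (nat_lit 912) (nat_lit 8740396864) (nat_lit 76) (nat_lit 579735148) (nat_lit 372) (nat_lit 5) (nat_lit 384) (nat_lit 5) (nat_lit 373) (nat_lit 5) (nat_lit 459) (nat_lit 435) (nat_lit 306)))) (XT.nd (nat_lit 78) (nat_lit 912) (nat_lit 0) (XT.lf (nat_lit 0) (nat_lit 5165160523) (nat_lit 760) (nat_lit 5686478959) (nat_lit 836) (nat_lit 6279843578) (nat_lit 362) (nat_lit 5) (nat_lit 372) (nat_lit 5) (nat_lit 373) (nat_lit 5) (nat_lit 460) (nat_lit 435) (nat_lit 305)) (XT.nd (nat_lit 78) (nat_lit 76) (nat_lit 0) (XT.lf (nat_lit 0) (nat_lit 2171442453) (nat_lit 836) (nat_lit 12187709900) (nat_lit 912) (nat_lit 3054349699) (nat_lit 351)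 (nat_lit 5) (nat_lit 362) (nat_lit 5) (nat_lit 363) (nat_lit 5) (nat_lit 461) (nat_lit 435) (nat_lit 304)) (XT.lf (nat_lit 0) (nat_lit 368833128) (nat_lit 912) (nat_lit 861582624) (nat_lit 76) (nat_lit 16471444356) (nat_lit 350) (nat_lit 5) (nat_lit 362) (nat_lit 5) (nat_lit 351) (nat_lit 5) (nat_lit 462) (nat_lit 435) (nat_lit 303))))))) (XT.nd (nat_lit 858) (nat_lit 5396) (nat_lit 0) (XT.nd (nat_lit 390) (nat_lit 3268) (nat_lit 0) (XT.nd (nat_lit 156) (nat_lit 2204) (nat_lit 0) (XT.nd (nat_lit 78) (nat_lit 760) (nat_lit 0) (XT.lf (nat_lit 0) (nat_lit 3996244937) (nat_lit 836) (nat_lit 3963742239) (nat_lit 76) (nat_lit 10035619323) (nat_lit 340) (nat_lit 5) (nat_lit 351) (nat_lit 5) (nat_lit 341) (nat_lit 5) (nat_lit 463) (nat_lit 435) (nat_lit 302)) (XT.lf (nat_lit 0) (nat_lit 7827015285) (nat_lit 836) (nat_lit 7109839676) (nat_lit 76) (nat_lit 3359421519) (nat_lit 330) (nat_lit 5) (nat_lit 341)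 (nat_lit 5) (nat_lit 331) (nat_lit 5) (nat_lit 464) (nat_lit 435) (nat_lit 301))) (XT.nd (nat_lit 78) (nat_lit 1520) (nat_lit 0) (XT.lf (nat_lit 0) (nat_lit 8279482312) (nat_lit 684) (nat_lit 3613117921) (nat_lit 760) (nat_lit 6710970363) (nat_lit 321) (nat_lit 5) (nat_lit 330) (nat_lit 5) (nat_lit 331) (nat_lit 5) (nat_lit 465) (nat_lit 435) (nat_lit 300)) (XT.nd (nat_lit 78) (nat_lit 760) (nat_lit 0) (XT.lf (nat_lit 0) (nat_lit 5310082923) (nat_lit 760) (nat_lit 10891479825) (nat_lit 836) (nat_lit 2716094401) (nat_lit 311) (nat_lit 5) (nat_lit 321) (nat_lit 5) (nat_lit 322) (nat_lit 5) (nat_lit 466) (nat_lit 435) (nat_lit 299)) (XT.lf (nat_lit 0) (nat_lit 1481474526) (nat_lit 760) (nat_lit 16948744581) (nat_lit 76) (nat_lit 808743501) (nat_lit 301) (nat_lit 5) (nat_lit 311) (nat_lit 5) (nat_lit 302) (nat_lit 5) (nat_lit 467) (nat_lit 435) (nat_lit 298))))) (XT.nd (nat_lit 234) (nat_lit 1976) (nat_lit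 0) (XT.nd (nat_lit 78) (nat_lit 1292) (nat_lit 0) (XT.lf (nat_lit 0) (nat_lit 5920599244) (nat_lit 760) (nat_lit 824055078) (nat_lit 76) (nat_lit 12821844918) (nat_lit 301) (nat_lit 5) (nat_lit 311) (nat_lit 5) (nat_lit 302) (nat_lit 5) (nat_lit 468) (nat_lit 435) (nat_lit 297)) (XT.nd (nat_lit 78) (nat_lit 608) (nat_lit 0) (XT.lf (nat_lit 0) (nat_lit 10618723218) (nat_lit 760) (nat_lit 3958270427) (nat_lit 76) (nat_lit 5324353444) (nat_lit 292) (nat_lit 5) (nat_lit 302) (nat_lit 5) (nat_lit 293) (nat_lit 5) (nat_lit 469) (nat_lit 435) (nat_lit 296)) (XT.lf (nat_lit 0) (nat_lit 13089777652) (nat_lit 608) (nat_lit 2491044217) (nat_lit 684) (nat_lit 4662959463) (nat_lit 284) (nat_lit 5) (nat_lit 292) (nat_lit 5) (nat_lit 293) (nat_lit 5) (nat_lit 470) (nat_lit 435) (nat_lit 295)))) (XT.nd (nat_lit 78) (nat_lit 1216) (nat_lit 0) (XT.lf (nat_lit 0) (nat_lit 240201149) (nat_lit 760) (nat_lit 10434354708)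 (nat_lit 76) (nat_lit 9918998751) (nat_lit 274) (nat_lit 5) (nat_lit 284) (nat_lit 5) (nat_lit 275) (nat_lit 5) (nat_lit 471) (nat_lit 435) (nat_lit 294)) (XT.nd (nat_lit 78) (nat_lit 608) (nat_lit 0) (XT.lf (nat_lit 0) (nat_lit 5339168668) (nat_lit 684) (nat_lit 13795473964) (nat_lit 76) (nat_lit 1816322199) (nat_lit 266) (nat_lit 5) (nat_lit 275) (nat_lit 5) (nat_lit 267) (nat_lit 5) (nat_lit 472) (nat_lit 435) (nat_lit 293)) (XT.lf (nat_lit 0) (nat_lit 4064615023) (nat_lit 608) (nat_lit 6683440801) (nat_lit 684) (nat_lit 10567903939) (nat_lit 258) (nat_lit 5) (nat_lit 266) (nat_lit 5) (nat_lit 267) (nat_lit 5) (nat_lit 473) (nat_lit 435) (nat_lit 292)))))) (XT.nd (nat_lit 468) (nat_lit 2508) (nat_lit 0) (XT.nd (nat_lit 234) (nat_lit 1672) (nat_lit 0) (XT.nd (nat_lit 78) (nat_lit 684) (nat_lit 0) (XT.lf (nat_lit 0) (nat_lit 915837194) (nat_lit 532) (nat_lit 15531527748) (nat_lit 608) (nat_lit 5241977870)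 (nat_lit 251) (nat_lit 5) (nat_lit 258) (nat_lit 5) (nat_lit 259) (nat_lit 5) (nat_lit 474) (nat_lit 435) (nat_lit 291)) (XT.nd (nat_lit 78) (nat_lit 608) (nat_lit 0) (XT.lf (nat_lit 0) (nat_lit 391302868) (nat_lit 608) (nat_lit 2269367738) (nat_lit 76) (nat_lit 19410210939) (nat_lit 250) (nat_lit 5) (nat_lit 258) (nat_lit 5) (nat_lit 251) (nat_lit 5) (nat_lit 475) (nat_lit 435) (nat_lit 290)) (XT.lf (nat_lit 0) (nat_lit 6291384364) (nat_lit 684) (nat_lit 5568084873) (nat_lit 76) (nat_lit 10600325077) (nat_lit 242) (nat_lit 5) (nat_lit 251) (nat_lit 5) (nat_lit 243) (nat_lit 5) (nat_lit 476) (nat_lit 435) (nat_lit 289)))) (XT.nd (nat_lit 78) (nat_lit 1140) (nat_lit 0) (XT.lf (nat_lit 0) (nat_lit 12490795884) (nat_lit 608) (nat_lit 8918416067) (nat_lit 76) (nat_lit 1448717199) (nat_lit 235) (nat_lit 5) (nat_lit 243) (nat_lit 5) (nat_lit 236) (nat_lit 5) (nat_lit 477) (nat_lit 435) (nat_lit 288)) (XT.nd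 (nat_lit 78) (nat_lit 608) (nat_lit 0) (XT.lf (nat_lit 0) (nat_lit 10890175686) (nat_lit 532) (nat_lit 8163174307) (nat_lit 608) (nat_lit 4211116030) (nat_lit 228) (nat_lit 5) (nat_lit 235) (nat_lit 5) (nat_lit 236) (nat_lit 5) (nat_lit 478) (nat_lit 435) (nat_lit 287)) (XT.lf (nat_lit 0) (nat_lit 2238877900) (nat_lit 608) (nat_lit 15910323879) (nat_lit 76) (nat_lit 5530977310) (nat_lit 220) (nat_lit 5) (nat_lit 228) (nat_lit 5) (nat_lit 221) (nat_lit 5) (nat_lit 479) (nat_lit 435) (nat_lit 286))))) (XT.nd (nat_lit 234) (nat_lit 1520) (nat_lit 0) (XT.nd (nat_lit 78) (nat_lit 456) (nat_lit 0) (XT.lf (nat_lit 0) (nat_lit 4543036484) (nat_lit 532) (nat_lit 4440455481) (nat_lit 608) (nat_lit 15121149322) (nat_lit 213) (nat_lit 5) (nat_lit 220) (nat_lit 5) (nat_lit 221) (nat_lit 5) (nat_lit 480) (nat_lit 435) (nat_lit 285)) (XT.nd (nat_lit 78) (nat_lit 0) (nat_lit 0) (XT.lf (nat_lit 0) (nat_lit 1226414889)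 (nat_lit 456) (nat_lit 14873067907) (nat_lit 532) (nat_lit 8438974862) (nat_lit 207) (nat_lit 5) (nat_lit 213) (nat_lit 5) (nat_lit 214) (nat_lit 5) (nat_lit 481) (nat_lit 435) (nat_lit 284)) (XT.lf (nat_lit 0) (nat_lit 22861768823) (nat_lit 456) (nat_lit 719151440) (nat_lit 532) (nat_lit 1401329963) (nat_lit 207) (nat_lit 5) (nat_lit 213) (nat_lit 5) (nat_lit 214) (nat_lit 5) (nat_lit 482) (nat_lit 435) (nat_lit 283)))) (XT.nd (nat_lit 78) (nat_lit 912) (nat_lit 0) (XT.lf (nat_lit 0) (nat_lit 5981270731) (nat_lit 608) (nat_lit 5610912031) (nat_lit 76) (nat_lit 13842205157) (nat_lit 199) (nat_lit 5) (nat_lit 207) (nat_lit 5) (nat_lit 200) (nat_lit 5) (nat_lit 483) (nat_lit 435) (nat_lit 282)) (XT.nd (nat_lit 78) (nat_lit 456) (nat_lit 0) (XT.lf (nat_lit 0) (nat_lit 13704617874) (nat_lit 532) (nat_lit 9170732764) (nat_lit 76) (nat_lit 3021788674) (nat_lit 193) (nat_lit 5) (nat_lit 200) (nat_lit 5) (nat_lit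 194) (nat_lit 5) (nat_lit 484) (nat_lit 435) (nat_lit 281)) (XT.lf (nat_lit 0) (nat_lit 13523631497) (nat_lit 456) (nat_lit 8330117055) (nat_lit 532) (nat_lit 4516143967) (nat_lit 187) (nat_lit 5) (nat_lit 193) (nat_lit 5) (nat_lit 194) (nat_lit 5) (nat_lit 485) (nat_lit 435) (nat_lit 280))))))))
noncomputable def xc99 : XT := (XT.nd (nat_lit 59826) (nat_lit 0) (nat_lit 7600) (XT.nd (nat_lit 58890) (nat_lit 0) (nat_lit 22952) (XT.nd (nat_lit 390) (nat_lit 836) (nat_lit 0) (XT.nd (nat_lit 156) (nat_lit 912) (nat_lit 0) (XT.nd (nat_lit 78) (nat_lit 456) (nat_lit 0) (XT.lf (nat_lit 0) (nat_lit 3510048159) (nat_lit 532) (nat_lit 16630645698) (nat_lit 76) (nat_lit 6712415273) (nat_lit 180) (nat_lit 5) (nat_lit 187) (nat_lit 5) (nat_lit 181) (nat_lit 5) (nat_lit 486) (nat_lit 435) (nat_lit 279)) (XT.lf (nat_lit 0) (nat_lit 6799259492) (nat_lit 456) (nat_lit 5095010916) (nat_lit 532) (nat_lit 15452383640)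 (nat_lit 174) (nat_lit 5) (nat_lit 180) (nat_lit 5) (nat_lit 181) (nat_lit 5) (nat_lit 487) (nat_lit 435) (nat_lit 278))) (XT.nd (nat_lit 78) (nat_lit 532) (nat_lit 0) (XT.lf (nat_lit 0) (nat_lit 3268156981) (nat_lit 380) (nat_lit 17454987000) (nat_lit 456) (nat_lit 7127999680) (nat_lit 169) (nat_lit 5) (nat_lit 174) (nat_lit 5) (nat_lit 175) (nat_lit 5) (nat_lit 488) (nat_lit 435) (nat_lit 277)) (XT.nd (nat_lit 78) (nat_lit 456) (nat_lit 0) (XT.lf (nat_lit 0) (nat_lit 1592426978) (nat_lit 456) (nat_lit 346214333) (nat_lit 76) (nat_lit 26428634122) (nat_lit 168) (nat_lit 5) (nat_lit 174) (nat_lit 5) (nat_lit 169) (nat_lit 5) (nat_lit 489) (nat_lit 435) (nat_lit 276)) (XT.lf (nat_lit 0) (nat_lit 10723580552) (nat_lit 532) (nat_lit 4103964818) (nat_lit 76) (nat_lit 14065485131) (nat_lit 162) (nat_lit 5) (nat_lit 169) (nat_lit 5) (nat_lit 163) (nat_lit 5) (nat_lit 490) (nat_lit 435) (nat_lit 275)))))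 (XT.nd (nat_lit 58266) (nat_lit 0) (nat_lit 25764) (XT.nd (nat_lit 78) (nat_lit 456) (nat_lit 0) (XT.lf (nat_lit 0) (nat_lit 20283054890) (nat_lit 456) (nat_lit 7934750237) (nat_lit 76) (nat_lit 1213666123) (nat_lit 157) (nat_lit 5) (nat_lit 163) (nat_lit 5) (nat_lit 158) (nat_lit 5) (nat_lit 491) (nat_lit 435) (nat_lit 274)) (XT.nd (nat_lit 58110) (nat_lit 0) (nat_lit 25764) (XT.lf (nat_lit 0) (nat_lit 378938210) (nat_lit 456) (nat_lit 11922975115) (nat_lit 76) (nat_lit 17679382638) (nat_lit 151) (nat_lit 5) (nat_lit 157) (nat_lit 5) (nat_lit 152) (nat_lit 5) (nat_lit 492) (nat_lit 435) (nat_lit 273)) (XT.lf (nat_lit 0) (nat_lit 4010998513) (nat_lit 1748) (nat_lit 1019460245) (nat_lit 1748) (nat_lit 1019460245) (nat_lit 490) (nat_lit 3) (nat_lit 513) (nat_lit 3) (nat_lit 513) (nat_lit 5) (nat_lit 436) (nat_lit 436) (nat_lit 328)))) (XT.nd (nat_lit 78) (nat_lit 0) (nat_lit 76) (XT.lf (nat_lit 76) (nat_lit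 6948834767) (nat_lit 0) (nat_lit 1928070222) (nat_lit 1748) (nat_lit 3389627384) (nat_lit 491) (nat_lit 5) (nat_lit 490) (nat_lit 3) (nat_lit 513) (nat_lit 5) (nat_lit 437) (nat_lit 436) (nat_lit 327)) (XT.nd (nat_lit 78) (nat_lit 0) (nat_lit 76) (XT.lf (nat_lit 76) (nat_lit 3789380930) (nat_lit 0) (nat_lit 6021546888) (nat_lit 1748) (nat_lit 2626234758) (nat_lit 492) (nat_lit 5) (nat_lit 491) (nat_lit 5) (nat_lit 514) (nat_lit 5) (nat_lit 438) (nat_lit 436) (nat_lit 326)) (XT.lf (nat_lit 76) (nat_lit 594722484) (nat_lit 0) (nat_lit 10220440586) (nat_lit 1748) (nat_lit 1796909008) (nat_lit 493) (nat_lit 5) (nat_lit 492) (nat_lit 5) (nat_lit 515) (nat_lit 5) (nat_lit 439) (nat_lit 436) (nat_lit 325)))))) (XT.nd (nat_lit 468) (nat_lit 1292) (nat_lit 0) (XT.nd (nat_lit 234) (nat_lit 0) (nat_lit 76) (XT.nd (nat_lit 78) (nat_lit 1672) (nat_lit 0) (XT.lf (nat_lit 76) (nat_lit 10177404814) (nat_lit 0) (nat_lit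 1745246132) (nat_lit 1748) (nat_lit 868119517) (nat_lit 493) (nat_lit 5) (nat_lit 492) (nat_lit 5) (nat_lit 515) (nat_lit 5) (nat_lit 440) (nat_lit 436) (nat_lit 324)) (XT.nd (nat_lit 78) (nat_lit 0) (nat_lit 76) (XT.lf (nat_lit 0) (nat_lit 154624476) (nat_lit 1748) (nat_lit 5868734424) (nat_lit 1824) (nat_lit 6950118272) (nat_lit 470) (nat_lit 5) (nat_lit 493) (nat_lit 5) (nat_lit 494) (nat_lit 5) (nat_lit 441) (nat_lit 436) (nat_lit 323)) (XT.lf (nat_lit 0) (nat_lit 1245700791) (nat_lit 1748) (nat_lit 9170034997) (nat_lit 1824) (nat_lit 2744829438) (nat_lit 471) (nat_lit 5) (nat_lit 494) (nat_lit 5) (nat_lit 495) (nat_lit 5) (nat_lit 442) (nat_lit 436) (nat_lit 322)))) (XT.nd (nat_lit 78) (nat_lit 0) (nat_lit 76) (XT.lf (nat_lit 76) (nat_lit 828574688) (nat_lit 0) (nat_lit 1603087815) (nat_lit 1824) (nat_lit 10920364042) (nat_lit 472) (nat_lit 5) (nat_lit 471) (nat_lit 5) (nat_lit 495) (nat_lit 5)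 (nat_lit 443) (nat_lit 436) (nat_lit 321)) (XT.nd (nat_lit 78) (nat_lit 0) (nat_lit 76) (XT.lf (nat_lit 0) (nat_lit 3741380895) (nat_lit 1748) (nat_lit 2359713379) (nat_lit 1824) (nat_lit 7446377449) (nat_lit 472) (nat_lit 5) (nat_lit 495) (nat_lit 5) (nat_lit 496) (nat_lit 5) (nat_lit 444) (nat_lit 436) (nat_lit 320)) (XT.lf (nat_lit 0) (nat_lit 5151917203) (nat_lit 1748) (nat_lit 5577171012) (nat_lit 1824) (nat_lit 3018464989) (nat_lit 473) (nat_lit 5) (nat_lit 496) (nat_lit 5) (nat_lit 497) (nat_lit 5) (nat_lit 445) (nat_lit 436) (nat_lit 319))))) (XT.nd (nat_lit 234) (nat_lit 1520) (nat_lit 0) (XT.nd (nat_lit 78) (nat_lit 0) (nat_lit 76) (XT.lf (nat_lit 76) (nat_lit 5106186123) (nat_lit 0) (nat_lit 1566998087) (nat_lit 1824) (nat_lit 7279087999) (nat_lit 474) (nat_lit 5) (nat_lit 473) (nat_lit 5) (nat_lit 497) (nat_lit 5) (nat_lit 446) (nat_lit 436) (nat_lit 318)) (XT.nd (nat_lit 78) (nat_lit 0)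 (nat_lit 76) (XT.lf (nat_lit 76) (nat_lit 1983214208) (nat_lit 0) (nat_lit 6337828842) (nat_lit 1824) (nat_lit 5840473930) (nat_lit 475) (nat_lit 5) (nat_lit 474) (nat_lit 5) (nat_lit 498) (nat_lit 5) (nat_lit 447) (nat_lit 436) (nat_lit 317)) (XT.lf (nat_lit 0) (nat_lit 10088690204) (nat_lit 1748) (nat_lit 1163936813) (nat_lit 1824) (nat_lit 3123008206) (nat_lit 475) (nat_lit 5) (nat_lit 498) (nat_lit 5) (nat_lit 499) (nat_lit 5) (nat_lit 448) (nat_lit 436) (nat_lit 316)))) (XT.nd (nat_lit 78) (nat_lit 1672) (nat_lit 0) (XT.lf (nat_lit 76) (nat_lit 10257810217) (nat_lit 0) (nat_lit 1740625381) (nat_lit 1824) (nat_lit 2595963125) (nat_lit 476) (nat_lit 5) (nat_lit 475) (nat_lit 5) (nat_lit 499) (nat_lit 5) (nat_lit 449) (nat_lit 436) (nat_lit 315)) (XT.nd (nat_lit 78) (nat_lit 1748) (nat_lit 0) (XT.lf (nat_lit 76) (nat_lit 7245870195) (nat_lit 0) (nat_lit 6807493784) (nat_lit 1824) (nat_lit 764606331)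 (nat_lit 477) (nat_lit 5) (nat_lit 476) (nat_lit 5) (nat_lit 500) (nat_lit 5) (nat_lit 450) (nat_lit 436) (nat_lit 314)) (XT.lf (nat_lit 0) (nat_lit 1176272503) (nat_lit 1824) (nat_lit 10858735812) (nat_lit 1900) (nat_lit 3011712077) (nat_lit 453) (nat_lit 5) (nat_lit 477) (nat_lit 5) (nat_lit 478) (nat_lit 5) (nat_lit 451) (nat_lit 436) (nat_lit 313))))))) (XT.nd (nat_lit 936) (nat_lit 7524) (nat_lit 0) (XT.nd (nat_lit 468) (nat_lit 3420) (nat_lit 0) (XT.nd (nat_lit 234) (nat_lit 2812) (nat_lit 0) (XT.nd (nat_lit 78) (nat_lit 1596) (nat_lit 0) (XT.lf (nat_lit 76) (nat_lit 1070750459) (nat_lit 0) (nat_lit 2179840777) (nat_lit 1900) (nat_lit 12029931398) (nat_lit 454) (nat_lit 5) (nat_lit 453) (nat_lit 5) (nat_lit 478) (nat_lit 5) (nat_lit 452) (nat_lit 436) (nat_lit 312)) (XT.nd (nat_lit 78) (nat_lit 1672) (nat_lit 0) (XT.lf (nat_lit 0) (nat_lit 5494837524) (nat_lit 1824) (nat_lit 2081010320) (nat_lit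 76) (nat_lit 7943339827) (nat_lit 454) (nat_lit 5) (nat_lit 478) (nat_lit 5) (nat_lit 455) (nat_lit 5) (nat_lit 453) (nat_lit 436) (nat_lit 311)) (XT.lf (nat_lit 0) (nat_lit 7888887031) (nat_lit 1748) (nat_lit 5261101077) (nat_lit 76) (nat_lit 2613377643) (nat_lit 432) (nat_lit 5) (nat_lit 455) (nat_lit 5) (nat_lit 433) (nat_lit 5) (nat_lit 454) (nat_lit 436) (nat_lit 310)))) (XT.nd (nat_lit 78) (nat_lit 1824) (nat_lit 0) (XT.lf (nat_lit 0) (nat_lit 7509347949) (nat_lit 988) (nat_lit 2941857075) (nat_lit 1064) (nat_lit 5561737744) (nat_lit 419) (nat_lit 5) (nat_lit 432) (nat_lit 5) (nat_lit 433) (nat_lit 5) (nat_lit 455) (nat_lit 436) (nat_lit 309)) (XT.nd (nat_lit 78) (nat_lit 912) (nat_lit 0) (XT.lf (nat_lit 0) (nat_lit 4459295432) (nat_lit 912) (nat_lit 8728349094) (nat_lit 988) (nat_lit 3080419992) (nat_lit 407) (nat_lit 5) (nat_lit 419) (nat_lit 5) (nat_lit 420) (nat_lit 5) (nat_lit 456) (nat_lit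 436) (nat_lit 308)) (XT.lf (nat_lit 0) (nat_lit 1368842603) (nat_lit 912) (nat_lit 14718876744) (nat_lit 988) (nat_lit 441492117) (nat_lit 395) (nat_lit 5) (nat_lit 407) (nat_lit 5) (nat_lit 408) (nat_lit 5) (nat_lit 457) (nat_lit 436) (nat_lit 307))))) (XT.nd (nat_lit 234) (nat_lit 1672) (nat_lit 0) (XT.nd (nat_lit 78) (nat_lit 1672) (nat_lit 0) (XT.lf (nat_lit 0) (nat_lit 2369578721) (nat_lit 988) (nat_lit 1782321037) (nat_lit 76) (nat_lit 12643543046) (nat_lit 394) (nat_lit 5) (nat_lit 407) (nat_lit 5) (nat_lit 395) (nat_lit 5) (nat_lit 458) (nat_lit 436) (nat_lit 306)) (XT.nd (nat_lit 78) (nat_lit 836) (nat_lit 0) (XT.lf (nat_lit 0) (nat_lit 5366463631) (nat_lit 912) (nat_lit 4974302776) (nat_lit 76) (nat_lit 6726688917) (nat_lit 383) (nat_lit 5) (nat_lit 395) (nat_lit 5) (nat_lit 384) (nat_lit 5) (nat_lit 459) (nat_lit 436) (nat_lit 305)) (XT.lf (nat_lit 0) (nat_lit 8541162979) (nat_lit 912) (nat_lit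 8211030251) (nat_lit 76) (nat_lit 593678974) (nat_lit 372) (nat_lit 5) (nat_lit 384) (nat_lit 5) (nat_lit 373) (nat_lit 5) (nat_lit 460) (nat_lit 436) (nat_lit 304)))) (XT.nd (nat_lit 78) (nat_lit 912) (nat_lit 0) (XT.lf (nat_lit 0) (nat_lit 6098851436) (nat_lit 760) (nat_lit 5840025694) (nat_lit 836) (nat_lit 5691211065) (nat_lit 362) (nat_lit 5) (nat_lit 372) (nat_lit 5) (nat_lit 373) (nat_lit 5) (nat_lit 461) (nat_lit 436) (nat_lit 303)) (XT.nd (nat_lit 78) (nat_lit 76) (nat_lit 0) (XT.lf (nat_lit 0) (nat_lit 3017669361) (nat_lit 836) (nat_lit 12516939699) (nat_lit 912) (nat_lit 2386301899) (nat_lit 351) (nat_lit 5) (nat_lit 362) (nat_lit 5) (nat_lit 363) (nat_lit 5) (nat_lit 462) (nat_lit 436) (nat_lit 302)) (XT.lf (nat_lit 0) (nat_lit 1107776737) (nat_lit 912) (nat_lit 119325778) (nat_lit 76) (nat_lit 16991158249) (nat_lit 350) (nat_lit 5) (nat_lit 362) (nat_lit 5) (nat_lit 351) (nat_lit 5) (nat_lit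 463) (nat_lit 436) (nat_lit 301)))))) (XT.nd (nat_lit 468) (nat_lit 3800) (nat_lit 0) (XT.nd (nat_lit 234) (nat_lit 1520) (nat_lit 0) (XT.nd (nat_lit 78) (nat_lit 1444) (nat_lit 0) (XT.lf (nat_lit 0) (nat_lit 4828002742) (nat_lit 836) (nat_lit 3312971397) (nat_lit 76) (nat_lit 10380168413) (nat_lit 340) (nat_lit 5) (nat_lit 351) (nat_lit 5) (nat_lit 341) (nat_lit 5) (nat_lit 464) (nat_lit 436) (nat_lit 300)) (XT.nd (nat_lit 78) (nat_lit 684) (nat_lit 0) (XT.lf (nat_lit 0) (nat_lit 8758275311) (nat_lit 836) (nat_lit 6552322909) (nat_lit 76) (nat_lit 3520545589) (nat_lit 330) (nat_lit 5) (nat_lit 341) (nat_lit 5) (nat_lit 331) (nat_lit 5) (nat_lit 465) (nat_lit 436) (nat_lit 299)) (XT.lf (nat_lit 0) (nat_lit 9286173231) (nat_lit 684) (nat_lit 3644293067) (nat_lit 760) (nat_lit 6217500361) (nat_lit 321) (nat_lit 5) (nat_lit 330) (nat_lit 5) (nat_lit 331) (nat_lit 5) (nat_lit 466) (nat_lit 436) (nat_lit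 298)))) (XT.nd (nat_lit 78) (nat_lit 760) (nat_lit 0) (XT.lf (nat_lit 0) (nat_lit 6228384629) (nat_lit 760) (nat_lit 11125890218) (nat_lit 836) (nat_lit 2117492018) (nat_lit 311) (nat_lit 5) (nat_lit 321) (nat_lit 5) (nat_lit 322) (nat_lit 5) (nat_lit 467) (nat_lit 436) (nat_lit 297)) (XT.nd (nat_lit 78) (nat_lit 0) (nat_lit 0) (XT.lf (nat_lit 0) (nat_lit 2183084420) (nat_lit 760) (nat_lit 16689093149) (nat_lit 76) (nat_lit 930728085) (nat_lit 301) (nat_lit 5) (nat_lit 311) (nat_lit 5) (nat_lit 302) (nat_lit 5) (nat_lit 468) (nat_lit 436) (nat_lit 296)) (XT.lf (nat_lit 0) (nat_lit 6736242133) (nat_lit 760) (nat_lit 103035207) (nat_lit 76) (nat_lit 13301376265) (nat_lit 301) (nat_lit 5) (nat_lit 311) (nat_lit 5) (nat_lit 302) (nat_lit 5) (nat_lit 469) (nat_lit 436) (nat_lit 295))))) (XT.nd (nat_lit 234) (nat_lit 1748) (nat_lit 0) (XT.nd (nat_lit 78) (nat_lit 1368) (nat_lit 0) (XT.lf (nat_lit 0) (nat_lit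 11562200414) (nat_lit 760) (nat_lit 3331524448) (nat_lit 76) (nat_lit 5592086548) (nat_lit 292) (nat_lit 5) (nat_lit 302) (nat_lit 5) (nat_lit 293) (nat_lit 5) (nat_lit 470) (nat_lit 436) (nat_lit 294)) (XT.nd (nat_lit 78) (nat_lit 760) (nat_lit 0) (XT.lf (nat_lit 0) (nat_lit 14215870317) (nat_lit 608) (nat_lit 2443852000) (nat_lit 684) (nat_lit 4179067423) (nat_lit 284) (nat_lit 5) (nat_lit 292) (nat_lit 5) (nat_lit 293) (nat_lit 5) (nat_lit 471) (nat_lit 436) (nat_lit 293)) (XT.lf (nat_lit 0) (nat_lit 850640072) (nat_lit 760) (nat_lit 10006469388) (nat_lit 76) (nat_lit 10342115250) (nat_lit 274) (nat_lit 5) (nat_lit 284) (nat_lit 5) (nat_lit 275) (nat_lit 5) (nat_lit 472) (nat_lit 436) (nat_lit 292)))) (XT.nd (nat_lit 78) (nat_lit 1140) (nat_lit 0) (XT.lf (nat_lit 0) (nat_lit 6090638433) (nat_lit 684) (nat_lit 13469464242) (nat_lit 76) (nat_lit 2007495421) (nat_lit 266) (nat_lit 5) (nat_lit 275)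 (nat_lit 5) (nat_lit 267) (nat_lit 5) (nat_lit 473) (nat_lit 436) (nat_lit 291)) (XT.nd (nat_lit 78) (nat_lit 532) (nat_lit 0) (XT.lf (nat_lit 0) (nat_lit 4914423839) (nat_lit 608) (nat_lit 6734872006) (nat_lit 684) (nat_lit 10294498992) (nat_lit 258) (nat_lit 5) (nat_lit 266) (nat_lit 5) (nat_lit 267) (nat_lit 5) (nat_lit 474) (nat_lit 436) (nat_lit 290)) (XT.lf (nat_lit 0) (nat_lit 1669876486) (nat_lit 532) (nat_lit 15838506566) (nat_lit 608) (nat_lit 4820222321) (nat_lit 251) (nat_lit 5) (nat_lit 258) (nat_lit 5) (nat_lit 259) (nat_lit 5) (nat_lit 475) (nat_lit 436) (nat_lit 289))))))))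
noncomputable def xc100 : XT := (XT.nd (nat_lit 59904) (nat_lit 0) (nat_lit 13908) (XT.nd (nat_lit 858) (nat_lit 2280) (nat_lit 0) (XT.nd (nat_lit 390) (nat_lit 2508) (nat_lit 0) (XT.nd (nat_lit 156) (nat_lit 1672) (nat_lit 0) (XT.nd (nat_lit 78) (nat_lit 608) (nat_lit 0) (XT.lf (nat_lit 0) (nat_lit 957819624) (nat_lit 608) (nat_lit 1624611342) (nat_lit 76) (nat_lit 20139418859) (nat_lit 250) (nat_lit 5) (nat_lit 258) (nat_lit 5) (nat_lit 251) (nat_lit 5) (nat_lit 476) (nat_lit 436) (nat_lit 288)) (XT.lf (nat_lit 0) (nat_lit 7024324611) (nat_lit 684) (nat_lit 5023957192) (nat_lit 76) (nat_lit 11074361579) (nat_lit 242) (nat_lit 5) (nat_lit 251) (nat_lit 5) (nat_lit 243) (nat_lit 5) (nat_lit 477) (nat_lit 436) (nat_lit 287))) (XT.nd (nat_lit 78) (nat_lit 1140) (nat_lit 0) (XT.lf (nat_lit 0) (nat_lit 13399493102) (nat_lit 608) (nat_lit 8476701979) (nat_lit 76) (nat_lit 1656733459) (nat_lit 235) (nat_lit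 5) (nat_lit 243) (nat_lit 5) (nat_lit 236) (nat_lit 5) (nat_lit 478) (nat_lit 436) (nat_lit 286)) (XT.nd (nat_lit 78) (nat_lit 608) (nat_lit 0) (XT.lf (nat_lit 0) (nat_lit 11914640519) (nat_lit 532) (nat_lit 8233261011) (nat_lit 608) (nat_lit 3803982154) (nat_lit 228) (nat_lit 5) (nat_lit 235) (nat_lit 5) (nat_lit 236) (nat_lit 5) (nat_lit 479) (nat_lit 436) (nat_lit 285)) (XT.lf (nat_lit 0) (nat_lit 2822836838) (nat_lit 608) (nat_lit 15685042767) (nat_lit 76) (nat_lit 5872314466) (nat_lit 220) (nat_lit 5) (nat_lit 228) (nat_lit 5) (nat_lit 221) (nat_lit 5) (nat_lit 480) (nat_lit 436) (nat_lit 284))))) (XT.nd (nat_lit 234) (nat_lit 1520) (nat_lit 0) (XT.nd (nat_lit 78) (nat_lit 456) (nat_lit 0) (XT.lf (nat_lit 0) (nat_lit 5370519705) (nat_lit 532) (nat_lit 4388705085) (nat_lit 608) (nat_lit 15058378224) (nat_lit 213) (nat_lit 5) (nat_lit 220) (nat_lit 5) (nat_lit 221) (nat_lit 5) (nat_lit 481) (nat_lit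 436) (nat_lit 283)) (XT.nd (nat_lit 78) (nat_lit 0) (nat_lit 0) (XT.lf (nat_lit 0) (nat_lit 1952016659) (nat_lit 456) (nat_lit 15127572320) (nat_lit 532) (nat_lit 8185028567) (nat_lit 207) (nat_lit 5) (nat_lit 213) (nat_lit 5) (nat_lit 214) (nat_lit 5) (nat_lit 482) (nat_lit 436) (nat_lit 282)) (XT.lf (nat_lit 0) (nat_lit 24216368803) (nat_lit 456) (nat_lit 554621493) (nat_lit 532) (nat_lit 951024677) (nat_lit 207) (nat_lit 5) (nat_lit 213) (nat_lit 5) (nat_lit 214) (nat_lit 5) (nat_lit 483) (nat_lit 436) (nat_lit 281)))) (XT.nd (nat_lit 78) (nat_lit 912) (nat_lit 0) (XT.lf (nat_lit 0) (nat_lit 6637980064) (nat_lit 608) (nat_lit 5106595278) (nat_lit 76) (nat_lit 14443251284) (nat_lit 199) (nat_lit 5) (nat_lit 207) (nat_lit 5) (nat_lit 200) (nat_lit 5) (nat_lit 484) (nat_lit 436) (nat_lit 280)) (XT.nd (nat_lit 78) (nat_lit 456) (nat_lit 0) (XT.lf (nat_lit 0) (nat_lit 14584682913) (nat_lit 532) (nat_lit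 8775984028) (nat_lit 76) (nat_lit 3303961897) (nat_lit 193) (nat_lit 5) (nat_lit 200) (nat_lit 5) (nat_lit 194) (nat_lit 5) (nat_lit 485) (nat_lit 436) (nat_lit 279)) (XT.lf (nat_lit 0) (nat_lit 14588343305) (nat_lit 456) (nat_lit 8380564837) (nat_lit 532) (nat_lit 4182845430) (nat_lit 187) (nat_lit 5) (nat_lit 193) (nat_lit 5) (nat_lit 194) (nat_lit 5) (nat_lit 486) (nat_lit 436) (nat_lit 278)))))) (XT.nd (nat_lit 58578) (nat_lit 0) (nat_lit 23712) (XT.nd (nat_lit 234) (nat_lit 912) (nat_lit 0) (XT.nd (nat_lit 78) (nat_lit 836) (nat_lit 0) (XT.lf (nat_lit 0) (nat_lit 4070063297) (nat_lit 532) (nat_lit 16467356322) (nat_lit 76) (nat_lit 7112145888) (nat_lit 180) (nat_lit 5) (nat_lit 187) (nat_lit 5) (nat_lit 181) (nat_lit 5) (nat_lit 487) (nat_lit 436) (nat_lit 277)) (XT.nd (nat_lit 78) (nat_lit 380) (nat_lit 0) (XT.lf (nat_lit 0) (nat_lit 7654702474) (nat_lit 456) (nat_lit 5042095396) (nat_lit 532)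 (nat_lit 15461300432) (nat_lit 174) (nat_lit 5) (nat_lit 180) (nat_lit 5) (nat_lit 181) (nat_lit 5) (nat_lit 488) (nat_lit 436) (nat_lit 276)) (XT.lf (nat_lit 0) (nat_lit 4014593423) (nat_lit 380) (nat_lit 17768469538) (nat_lit 456) (nat_lit 6894810340) (nat_lit 169) (nat_lit 5) (nat_lit 174) (nat_lit 5) (nat_lit 175) (nat_lit 5) (nat_lit 489) (nat_lit 436) (nat_lit 275)))) (XT.nd (nat_lit 78) (nat_lit 380) (nat_lit 0) (XT.lf (nat_lit 0) (nat_lit 282339047) (nat_lit 456) (nat_lit 1788010823) (nat_lit 532) (nat_lit 27139302583) (nat_lit 162) (nat_lit 5) (nat_lit 168) (nat_lit 5) (nat_lit 169) (nat_lit 5) (nat_lit 490) (nat_lit 436) (nat_lit 274)) (XT.nd (nat_lit 78) (nat_lit 380) (nat_lit 0) (XT.lf (nat_lit 0) (nat_lit 11466518337) (nat_lit 532) (nat_lit 3595048934) (nat_lit 76) (nat_lit 14689792410) (nat_lit 162) (nat_lit 5) (nat_lit 169) (nat_lit 5) (nat_lit 163) (nat_lit 5) (nat_lit 491) (nat_lit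 436) (nat_lit 273)) (XT.lf (nat_lit 0) (nat_lit 21305900626) (nat_lit 456) (nat_lit 7544071466) (nat_lit 76) (nat_lit 1456120168) (nat_lit 157) (nat_lit 5) (nat_lit 163) (nat_lit 5) (nat_lit 158) (nat_lit 5) (nat_lit 492) (nat_lit 436) (nat_lit 272))))) (XT.nd (nat_lit 234) (nat_lit 1596) (nat_lit 0) (XT.nd (nat_lit 78) (nat_lit 0) (nat_lit 0) (XT.lf (nat_lit 0) (nat_lit 4814162506) (nat_lit 1748) (nat_lit 701743408) (nat_lit 1748) (nat_lit 701743408) (nat_lit 490) (nat_lit 3) (nat_lit 513) (nat_lit 3) (nat_lit 513) (nat_lit 5) (nat_lit 437) (nat_lit 437) (nat_lit 326)) (XT.nd (nat_lit 78) (nat_lit 0) (nat_lit 76) (XT.lf (nat_lit 76) (nat_lit 7842599572) (nat_lit 0) (nat_lit 2630953325) (nat_lit 1748) (nat_lit 2134153933) (nat_lit 491) (nat_lit 5) (nat_lit 490) (nat_lit 3) (nat_lit 513) (nat_lit 5) (nat_lit 438) (nat_lit 437) (nat_lit 325)) (XT.lf (nat_lit 76) (nat_lit 4607750401) (nat_lit 0) (nat_lit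 6789607470) (nat_lit 1748) (nat_lit 1386869092) (nat_lit 492) (nat_lit 5) (nat_lit 491) (nat_lit 5) (nat_lit 514) (nat_lit 5) (nat_lit 439) (nat_lit 437) (nat_lit 324)))) (XT.nd (nat_lit 78) (nat_lit 1748) (nat_lit 0) (XT.lf (nat_lit 76) (nat_lit 1335199335) (nat_lit 0) (nat_lit 11059875829) (nat_lit 1748) (nat_lit 570047558) (nat_lit 493) (nat_lit 5) (nat_lit 492) (nat_lit 5) (nat_lit 515) (nat_lit 5) (nat_lit 440) (nat_lit 437) (nat_lit 323)) (XT.nd (nat_lit 78) (nat_lit 0) (nat_lit 76) (XT.lf (nat_lit 0) (nat_lit 344720520) (nat_lit 1748) (nat_lit 1967872677) (nat_lit 1824) (nat_lit 10837280732) (nat_lit 469) (nat_lit 5) (nat_lit 492) (nat_lit 5) (nat_lit 493) (nat_lit 5) (nat_lit 441) (nat_lit 437) (nat_lit 322)) (XT.lf (nat_lit 0) (nat_lit 1352085403) (nat_lit 1748) (nat_lit 5311072550) (nat_lit 1824) (nat_lit 6675480074) (nat_lit 470) (nat_lit 5) (nat_lit 493) (nat_lit 5) (nat_lit 494) (nat_lit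 5) (nat_lit 442) (nat_lit 437) (nat_lit 321))))))) (XT.nd (nat_lit 858) (nat_lit 8512) (nat_lit 0) (XT.nd (nat_lit 390) (nat_lit 1444) (nat_lit 0) (XT.nd (nat_lit 156) (nat_lit 0) (nat_lit 76) (XT.nd (nat_lit 78) (nat_lit 0) (nat_lit 0) (XT.lf (nat_lit 0) (nat_lit 2442975233) (nat_lit 1748) (nat_lit 8697016126) (nat_lit 1824) (nat_lit 2392011185) (nat_lit 471) (nat_lit 5) (nat_lit 494) (nat_lit 5) (nat_lit 495) (nat_lit 5) (nat_lit 443) (nat_lit 437) (nat_lit 320)) (XT.lf (nat_lit 76) (nat_lit 1589414493) (nat_lit 0) (nat_lit 2046096196) (nat_lit 1824) (nat_lit 10094282405) (nat_lit 472) (nat_lit 5) (nat_lit 471) (nat_lit 5) (nat_lit 495) (nat_lit 5) (nat_lit 444) (nat_lit 437) (nat_lit 319))) (XT.nd (nat_lit 78) (nat_lit 0) (nat_lit 76) (XT.lf (nat_lit 0) (nat_lit 4949092472) (nat_lit 1748) (nat_lit 1691338890) (nat_lit 1824) (nat_lit 7291383962) (nat_lit 472) (nat_lit 5) (nat_lit 495) (nat_lit 5)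 (nat_lit 496) (nat_lit 5) (nat_lit 445) (nat_lit 437) (nat_lit 318)) (XT.nd (nat_lit 78) (nat_lit 0) (nat_lit 0) (XT.lf (nat_lit 0) (nat_lit 6372544549) (nat_lit 1748) (nat_lit 4993565769) (nat_lit 1824) (nat_lit 2772381922) (nat_lit 473) (nat_lit 5) (nat_lit 496) (nat_lit 5) (nat_lit 497) (nat_lit 5) (nat_lit 446) (nat_lit 437) (nat_lit 317)) (XT.lf (nat_lit 76) (nat_lit 5998109289) (nat_lit 0) (nat_lit 1915086075) (nat_lit 1824) (nat_lit 6436687376) (nat_lit 474) (nat_lit 5) (nat_lit 473) (nat_lit 5) (nat_lit 497) (nat_lit 5) (nat_lit 447) (nat_lit 437) (nat_lit 316))))) (XT.nd (nat_lit 234) (nat_lit 1672) (nat_lit 0) (XT.nd (nat_lit 78) (nat_lit 0) (nat_lit 76) (XT.lf (nat_lit 76) (nat_lit 2792003784) (nat_lit 0) (nat_lit 6791167339) (nat_lit 1824) (nat_lit 4982784807) (nat_lit 475) (nat_lit 5) (nat_lit 474) (nat_lit 5) (nat_lit 498) (nat_lit 5) (nat_lit 448) (nat_lit 437) (nat_lit 315)) (XT.nd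 (nat_lit 78) (nat_lit 0) (nat_lit 0) (XT.lf (nat_lit 0) (nat_lit 11372698375) (nat_lit 1748) (nat_lit 449914527) (nat_lit 1824) (nat_lit 2964512366) (nat_lit 475) (nat_lit 5) (nat_lit 498) (nat_lit 5) (nat_lit 499) (nat_lit 5) (nat_lit 449) (nat_lit 437) (nat_lit 314)) (XT.lf (nat_lit 76) (nat_lit 11302334246) (nat_lit 0) (nat_lit 2013602676) (nat_lit 1824) (nat_lit 1696995164) (nat_lit 476) (nat_lit 5) (nat_lit 475) (nat_lit 5) (nat_lit 499) (nat_lit 5) (nat_lit 450) (nat_lit 437) (nat_lit 313)))) (XT.nd (nat_lit 78) (nat_lit 0) (nat_lit 76) (XT.lf (nat_lit 0) (nat_lit 162210702) (nat_lit 1824) (nat_lit 7036293108) (nat_lit 1900) (nat_lit 8045178823) (nat_lit 452) (nat_lit 5) (nat_lit 476) (nat_lit 5) (nat_lit 477) (nat_lit 5) (nat_lit 451) (nat_lit 437) (nat_lit 312)) (XT.nd (nat_lit 78) (nat_lit 0) (nat_lit 0) (XT.lf (nat_lit 0) (nat_lit 2127353381) (nat_lit 1824) (nat_lit 10419349451) (nat_lit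 1900) (nat_lit 2932966887) (nat_lit 453) (nat_lit 5) (nat_lit 477) (nat_lit 5) (nat_lit 478) (nat_lit 5) (nat_lit 452) (nat_lit 437) (nat_lit 311)) (XT.lf (nat_lit 76) (nat_lit 1855607783) (nat_lit 0) (nat_lit 2386507572) (nat_lit 1900) (nat_lit 11478810373) (nat_lit 454) (nat_lit 5) (nat_lit 453) (nat_lit 5) (nat_lit 478) (nat_lit 5) (nat_lit 453) (nat_lit 437) (nat_lit 310)))))) (XT.nd (nat_lit 468) (nat_lit 4104) (nat_lit 0) (XT.nd (nat_lit 234) (nat_lit 1900) (nat_lit 0) (XT.nd (nat_lit 78) (nat_lit 2660) (nat_lit 0) (XT.lf (nat_lit 0) (nat_lit 6526759498) (nat_lit 1824) (nat_lit 1394251674) (nat_lit 76) (nat_lit 8046281993) (nat_lit 454) (nat_lit 5) (nat_lit 478) (nat_lit 5) (nat_lit 455) (nat_lit 5) (nat_lit 454) (nat_lit 437) (nat_lit 309)) (XT.nd (nat_lit 78) (nat_lit 988) (nat_lit 0) (XT.lf (nat_lit 0) (nat_lit 8971449719) (nat_lit 1748) (nat_lit 4664131430) (nat_lit 76) (nat_lit 2583642801)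 (nat_lit 432) (nat_lit 5) (nat_lit 455) (nat_lit 5) (nat_lit 433) (nat_lit 5) (nat_lit 455) (nat_lit 437) (nat_lit 308)) (XT.lf (nat_lit 0) (nat_lit 8477185290) (nat_lit 988) (nat_lit 3113635383) (nat_lit 1064) (nat_lit 4885867572) (nat_lit 419) (nat_lit 5) (nat_lit 432) (nat_lit 5) (nat_lit 433) (nat_lit 5) (nat_lit 456) (nat_lit 437) (nat_lit 307)))) (XT.nd (nat_lit 78) (nat_lit 988) (nat_lit 0) (XT.lf (nat_lit 0) (nat_lit 5340490377) (nat_lit 912) (nat_lit 9049128646) (nat_lit 988) (nat_lit 2350242841) (nat_lit 407) (nat_lit 5) (nat_lit 419) (nat_lit 5) (nat_lit 420) (nat_lit 5) (nat_lit 457) (nat_lit 437) (nat_lit 306)) (XT.nd (nat_lit 78) (nat_lit 0) (nat_lit 0) (XT.lf (nat_lit 0) (nat_lit 343922305) (nat_lit 988) (nat_lit 14849933370) (nat_lit 76) (nat_lit 1815325259) (nat_lit 394) (nat_lit 5) (nat_lit 407) (nat_lit 5) (nat_lit 395) (nat_lit 5) (nat_lit 458) (nat_lit 437) (nat_lit 305)) (XT.lf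 (nat_lit 0) (nat_lit 3210273102) (nat_lit 988) (nat_lit 1095699306) (nat_lit 76) (nat_lit 12977832784) (nat_lit 394) (nat_lit 5) (nat_lit 407) (nat_lit 5) (nat_lit 395) (nat_lit 5) (nat_lit 459) (nat_lit 437) (nat_lit 304))))) (XT.nd (nat_lit 234) (nat_lit 1672) (nat_lit 0) (XT.nd (nat_lit 78) (nat_lit 1596) (nat_lit 0) (XT.lf (nat_lit 0) (nat_lit 6279221280) (nat_lit 912) (nat_lit 4380148895) (nat_lit 76) (nat_lit 6904967946) (nat_lit 383) (nat_lit 5) (nat_lit 395) (nat_lit 5) (nat_lit 384) (nat_lit 5) (nat_lit 460) (nat_lit 437) (nat_lit 303)) (XT.nd (nat_lit 78) (nat_lit 760) (nat_lit 0) (XT.lf (nat_lit 0) (nat_lit 9531992424) (nat_lit 912) (nat_lit 7711222486) (nat_lit 76) (nat_lit 608239058) (nat_lit 372) (nat_lit 5) (nat_lit 384) (nat_lit 5) (nat_lit 373) (nat_lit 5) (nat_lit 461) (nat_lit 437) (nat_lit 302)) (XT.lf (nat_lit 0) (nat_lit 7015850439) (nat_lit 760) (nat_lit 5999157435) (nat_lit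 836) (nat_lit 5129524153) (nat_lit 362) (nat_lit 5) (nat_lit 372) (nat_lit 5) (nat_lit 373) (nat_lit 5) (nat_lit 462) (nat_lit 437) (nat_lit 301)))) (XT.nd (nat_lit 78) (nat_lit 836) (nat_lit 0) (XT.lf (nat_lit 0) (nat_lit 3844445681) (nat_lit 836) (nat_lit 12858135987) (nat_lit 912) (nat_lit 1741821306) (nat_lit 351) (nat_lit 5) (nat_lit 362) (nat_lit 5) (nat_lit 363) (nat_lit 5) (nat_lit 463) (nat_lit 437) (nat_lit 300)) (XT.nd (nat_lit 78) (nat_lit 0) (nat_lit 0) (XT.lf (nat_lit 0) (nat_lit 609094829) (nat_lit 760) (nat_lit 1221965262) (nat_lit 836) (nat_lit 16919855521) (nat_lit 340) (nat_lit 5) (nat_lit 350) (nat_lit 5) (nat_lit 351) (nat_lit 5) (nat_lit 464) (nat_lit 437) (nat_lit 299)) (XT.lf (nat_lit 0) (nat_lit 5643849005) (nat_lit 836) (nat_lit 2686860389) (nat_lit 76) (nat_lit 10732558016) (nat_lit 340) (nat_lit 5) (nat_lit 351) (nat_lit 5) (nat_lit 341) (nat_lit 5) (nat_lit 465) (nat_lit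 437) (nat_lit 298))))))))
noncomputable def xc101 : XT := (XT.nd (nat_lit 1794) (nat_lit 1368) (nat_lit 0) (XT.nd (nat_lit 858) (nat_lit 5396) (nat_lit 0) (XT.nd (nat_lit 390) (nat_lit 3116) (nat_lit 0) (XT.nd (nat_lit 156) (nat_lit 2204) (nat_lit 0) (XT.nd (nat_lit 78) (nat_lit 684) (nat_lit 0) (XT.lf (nat_lit 0) (nat_lit 9677494083) (nat_lit 836) (nat_lit 6022328399) (nat_lit 76) (nat_lit 3683039537) (nat_lit 330) (nat_lit 5) (nat_lit 341) (nat_lit 5) (nat_lit 331) (nat_lit 5) (nat_lit 466) (nat_lit 437) (nat_lit 297)) (XT.lf (nat_lit 0) (nat_lit 10279534984) (nat_lit 684) (nat_lit 3680836119) (nat_lit 760) (nat_lit 5749110571) (nat_lit 321) (nat_lit 5) (nat_lit 330) (nat_lit 5) (nat_lit 331) (nat_lit 5) (nat_lit 467) (nat_lit 437) (nat_lit 296))) (XT.nd (nat_lit 78) (nat_lit 1444) (nat_lit 0) (XT.lf (nat_lit 0) (nat_lit 7130665727) (nat_lit 760) (nat_lit 11372633273) (nat_lit 836) (nat_lit 1539971236)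 (nat_lit 311) (nat_lit 5) (nat_lit 321) (nat_lit 5) (nat_lit 322) (nat_lit 5) (nat_lit 468) (nat_lit 437) (nat_lit 295)) (XT.nd (nat_lit 78) (nat_lit 684) (nat_lit 0) (XT.lf (nat_lit 0) (nat_lit 2868018615) (nat_lit 760) (nat_lit 16465745046) (nat_lit 76) (nat_lit 1050762548) (nat_lit 301) (nat_lit 5) (nat_lit 311) (nat_lit 5) (nat_lit 302) (nat_lit 5) (nat_lit 469) (nat_lit 437) (nat_lit 294)) (XT.lf (nat_lit 0) (nat_lit 604737892) (nat_lit 684) (nat_lit 6938917536) (nat_lit 760) (nat_lit 13189035749) (nat_lit 292) (nat_lit 5) (nat_lit 301) (nat_lit 5) (nat_lit 302) (nat_lit 5) (nat_lit 470) (nat_lit 437) (nat_lit 293))))) (XT.nd (nat_lit 234) (nat_lit 1748) (nat_lit 0) (XT.nd (nat_lit 78) (nat_lit 1368) (nat_lit 0) (XT.lf (nat_lit 0) (nat_lit 12498109220) (nat_lit 760) (nat_lit 2728770500) (nat_lit 76) (nat_lit 5861651860) (nat_lit 292) (nat_lit 5) (nat_lit 302) (nat_lit 5) (nat_lit 293) (nat_lit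 5) (nat_lit 471) (nat_lit 437) (nat_lit 292)) (XT.nd (nat_lit 78) (nat_lit 760) (nat_lit 0) (XT.lf (nat_lit 0) (nat_lit 15333645640) (nat_lit 608) (nat_lit 2402242927) (nat_lit 684) (nat_lit 3716466192) (nat_lit 284) (nat_lit 5) (nat_lit 292) (nat_lit 5) (nat_lit 293) (nat_lit 5) (nat_lit 472) (nat_lit 437) (nat_lit 291)) (XT.lf (nat_lit 0) (nat_lit 1444764127) (nat_lit 760) (nat_lit 9608279116) (nat_lit 76) (nat_lit 10770718359) (nat_lit 274) (nat_lit 5) (nat_lit 284) (nat_lit 5) (nat_lit 275) (nat_lit 5) (nat_lit 473) (nat_lit 437) (nat_lit 290)))) (XT.nd (nat_lit 78) (nat_lit 1140) (nat_lit 0) (XT.lf (nat_lit 0) (nat_lit 6830709556) (nat_lit 684) (nat_lit 13176146019) (nat_lit 76) (nat_lit 2196557645) (nat_lit 266) (nat_lit 5) (nat_lit 275) (nat_lit 5) (nat_lit 267) (nat_lit 5) (nat_lit 474) (nat_lit 437) (nat_lit 289)) (XT.nd (nat_lit 78) (nat_lit 532) (nat_lit 0) (XT.lf (nat_lit 0) (nat_lit 5747944183)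 (nat_lit 608) (nat_lit 6796403491) (nat_lit 684) (nat_lit 10046785685) (nat_lit 258) (nat_lit 5) (nat_lit 266) (nat_lit 5) (nat_lit 267) (nat_lit 5) (nat_lit 475) (nat_lit 437) (nat_lit 288)) (XT.lf (nat_lit 0) (nat_lit 2404829201) (nat_lit 532) (nat_lit 16163820107) (nat_lit 608) (nat_lit 4419051929) (nat_lit 251) (nat_lit 5) (nat_lit 258) (nat_lit 5) (nat_lit 259) (nat_lit 5) (nat_lit 476) (nat_lit 437) (nat_lit 287)))))) (XT.nd (nat_lit 468) (nat_lit 2508) (nat_lit 0) (XT.nd (nat_lit 234) (nat_lit 1672) (nat_lit 0) (XT.nd (nat_lit 78) (nat_lit 1140) (nat_lit 0) (XT.lf (nat_lit 0) (nat_lit 1509485376) (nat_lit 608) (nat_lit 1001432040) (nat_lit 76) (nat_lit 20882070264) (nat_lit 250) (nat_lit 5) (nat_lit 258) (nat_lit 5) (nat_lit 251) (nat_lit 5) (nat_lit 477) (nat_lit 437) (nat_lit 286)) (XT.nd (nat_lit 78) (nat_lit 532) (nat_lit 0) (XT.lf (nat_lit 0) (nat_lit 7748013833) (nat_lit 684) (nat_lit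 4504329760) (nat_lit 76) (nat_lit 11553662603) (nat_lit 242) (nat_lit 5) (nat_lit 251) (nat_lit 5) (nat_lit 243) (nat_lit 5) (nat_lit 478) (nat_lit 437) (nat_lit 285)) (XT.lf (nat_lit 0) (nat_lit 14304798983) (nat_lit 608) (nat_lit 8062451270) (nat_lit 76) (nat_lit 1861544092) (nat_lit 235) (nat_lit 5) (nat_lit 243) (nat_lit 5) (nat_lit 236) (nat_lit 5) (nat_lit 479) (nat_lit 437) (nat_lit 284)))) (XT.nd (nat_lit 78) (nat_lit 1140) (nat_lit 0) (XT.lf (nat_lit 0) (nat_lit 12929785045) (nat_lit 532) (nat_lit 8315485041) (nat_lit 608) (nat_lit 3415257470) (nat_lit 228) (nat_lit 5) (nat_lit 235) (nat_lit 5) (nat_lit 236) (nat_lit 5) (nat_lit 480) (nat_lit 437) (nat_lit 283)) (XT.nd (nat_lit 78) (nat_lit 532) (nat_lit 0) (XT.lf (nat_lit 0) (nat_lit 3394648534) (nat_lit 608) (nat_lit 15493334810) (nat_lit 76) (nat_lit 6213822610) (nat_lit 220) (nat_lit 5) (nat_lit 228) (nat_lit 5) (nat_lit 221) (nat_lit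 5) (nat_lit 481) (nat_lit 437) (nat_lit 282)) (XT.lf (nat_lit 0) (nat_lit 6183150168) (nat_lit 532) (nat_lit 4346019871) (nat_lit 608) (nat_lit 15023367785) (nat_lit 213) (nat_lit 5) (nat_lit 220) (nat_lit 5) (nat_lit 221) (nat_lit 5) (nat_lit 482) (nat_lit 437) (nat_lit 281))))) (XT.nd (nat_lit 234) (nat_lit 1444) (nat_lit 0) (XT.nd (nat_lit 78) (nat_lit 608) (nat_lit 0) (XT.lf (nat_lit 0) (nat_lit 2659846009) (nat_lit 456) (nat_lit 15400715518) (nat_lit 532) (nat_lit 7952574391) (nat_lit 207) (nat_lit 5) (nat_lit 213) (nat_lit 5) (nat_lit 214) (nat_lit 5) (nat_lit 483) (nat_lit 437) (nat_lit 280)) (XT.nd (nat_lit 78) (nat_lit 608) (nat_lit 0) (XT.lf (nat_lit 0) (nat_lit 25573217974) (nat_lit 456) (nat_lit 395838807) (nat_lit 532) (nat_lit 515472861) (nat_lit 207) (nat_lit 5) (nat_lit 213) (nat_lit 5) (nat_lit 214) (nat_lit 5) (nat_lit 484) (nat_lit 437) (nat_lit 279)) (XT.lf (nat_lit 0) (nat_lit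 7286993356) (nat_lit 608) (nat_lit 4625761545) (nat_lit 76) (nat_lit 15051664265) (nat_lit 199) (nat_lit 5) (nat_lit 207) (nat_lit 5) (nat_lit 200) (nat_lit 5) (nat_lit 485) (nat_lit 437) (nat_lit 278)))) (XT.nd (nat_lit 78) (nat_lit 988) (nat_lit 0) (XT.lf (nat_lit 0) (nat_lit 15464231604) (nat_lit 532) (nat_lit 8407846150) (nat_lit 76) (nat_lit 3583606310) (nat_lit 193) (nat_lit 5) (nat_lit 200) (nat_lit 5) (nat_lit 194) (nat_lit 5) (nat_lit 486) (nat_lit 437) (nat_lit 277)) (XT.nd (nat_lit 78) (nat_lit 532) (nat_lit 0) (XT.lf (nat_lit 0) (nat_lit 15647167006) (nat_lit 456) (nat_lit 8443975628) (nat_lit 532) (nat_lit 3866457992) (nat_lit 187) (nat_lit 5) (nat_lit 193) (nat_lit 5) (nat_lit 194) (nat_lit 5) (nat_lit 487) (nat_lit 437) (nat_lit 276)) (XT.lf (nat_lit 0) (nat_lit 4620776463) (nat_lit 532) (nat_lit 16337181755) (nat_lit 76) (nat_lit 7512481852) (nat_lit 180) (nat_lit 5) (nat_lit 187) (nat_lit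 5) (nat_lit 181) (nat_lit 5) (nat_lit 488) (nat_lit 437) (nat_lit 275))))))) (XT.nd (nat_lit 59124) (nat_lit 0) (nat_lit 19532) (XT.nd (nat_lit 58656) (nat_lit 0) (nat_lit 23332) (XT.nd (nat_lit 234) (nat_lit 0) (nat_lit 0) (XT.nd (nat_lit 78) (nat_lit 912) (nat_lit 0) (XT.lf (nat_lit 0) (nat_lit 8498411977) (nat_lit 456) (nat_lit 4999404211) (nat_lit 532) (nat_lit 15496583768) (nat_lit 174) (nat_lit 5) (nat_lit 180) (nat_lit 5) (nat_lit 181) (nat_lit 5) (nat_lit 489) (nat_lit 437) (nat_lit 274)) (XT.nd (nat_lit 78) (nat_lit 532) (nat_lit 0) (XT.lf (nat_lit 0) (nat_lit 4746202620) (nat_lit 380) (nat_lit 18103421002) (nat_lit 456) (nat_lit 6680286633) (nat_lit 169) (nat_lit 5) (nat_lit 174) (nat_lit 5) (nat_lit 175) (nat_lit 5) (nat_lit 490) (nat_lit 437) (nat_lit 273)) (XT.lf (nat_lit 0) (nat_lit 897538268) (nat_lit 456) (nat_lit 1642591193) (nat_lit 532) (nat_lit 27537623139) (nat_lit 162) (nat_lit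 5) (nat_lit 168) (nat_lit 5) (nat_lit 169) (nat_lit 5) (nat_lit 491) (nat_lit 437) (nat_lit 272)))) (XT.nd (nat_lit 58266) (nat_lit 0) (nat_lit 24928) (XT.lf (nat_lit 0) (nat_lit 12207563910) (nat_lit 532) (nat_lit 3107146958) (nat_lit 76) (nat_lit 15321213608) (nat_lit 162) (nat_lit 5) (nat_lit 169) (nat_lit 5) (nat_lit 163) (nat_lit 5) (nat_lit 492) (nat_lit 437) (nat_lit 271)) (XT.nd (nat_lit 78) (nat_lit 0) (nat_lit 0) (XT.lf (nat_lit 0) (nat_lit 5602223953) (nat_lit 1748) (nat_lit 394488947) (nat_lit 1748) (nat_lit 394488947) (nat_lit 490) (nat_lit 3) (nat_lit 513) (nat_lit 3) (nat_lit 513) (nat_lit 5) (nat_lit 438) (nat_lit 438) (nat_lit 324)) (XT.lf (nat_lit 76) (nat_lit 8723838310) (nat_lit 0) (nat_lit 3317894929) (nat_lit 1748) (nat_lit 918922945) (nat_lit 491) (nat_lit 5) (nat_lit 490) (nat_lit 3) (nat_lit 513) (nat_lit 5) (nat_lit 439) (nat_lit 438) (nat_lit 323))))) (XT.nd (nat_lit 234)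 (nat_lit 0) (nat_lit 76) (XT.nd (nat_lit 78) (nat_lit 1672) (nat_lit 0) (XT.lf (nat_lit 76) (nat_lit 5410218979) (nat_lit 0) (nat_lit 7546989892) (nat_lit 1748) (nat_lit 185989814) (nat_lit 492) (nat_lit 5) (nat_lit 491) (nat_lit 5) (nat_lit 514) (nat_lit 5) (nat_lit 440) (nat_lit 438) (nat_lit 322)) (XT.nd (nat_lit 78) (nat_lit 0) (nat_lit 0) (XT.lf (nat_lit 0) (nat_lit 611965669) (nat_lit 1748) (nat_lit 11277835684) (nat_lit 1824) (nat_lit 1440335994) (nat_lit 469) (nat_lit 5) (nat_lit 492) (nat_lit 5) (nat_lit 493) (nat_lit 5) (nat_lit 441) (nat_lit 438) (nat_lit 321)) (XT.lf (nat_lit 0) (nat_lit 1511774844) (nat_lit 1748) (nat_lit 1350041630) (nat_lit 1824) (nat_lit 10659237848) (nat_lit 469) (nat_lit 5) (nat_lit 492) (nat_lit 5) (nat_lit 493) (nat_lit 5) (nat_lit 442) (nat_lit 438) (nat_lit 320)))) (XT.nd (nat_lit 78) (nat_lit 0) (nat_lit 76) (XT.lf (nat_lit 0) (nat_lit 2516997284) (nat_lit 1748)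 (nat_lit 4778799573) (nat_lit 1824) (nat_lit 6420337042) (nat_lit 470) (nat_lit 5) (nat_lit 493) (nat_lit 5) (nat_lit 494) (nat_lit 5) (nat_lit 443) (nat_lit 438) (nat_lit 319)) (XT.nd (nat_lit 78) (nat_lit 0) (nat_lit 0) (XT.lf (nat_lit 0) (nat_lit 3609584706) (nat_lit 1748) (nat_lit 8252751833) (nat_lit 1824) (nat_lit 2053588529) (nat_lit 471) (nat_lit 5) (nat_lit 494) (nat_lit 5) (nat_lit 495) (nat_lit 5) (nat_lit 444) (nat_lit 438) (nat_lit 318)) (XT.lf (nat_lit 76) (nat_lit 2330831082) (nat_lit 0) (nat_lit 2479725048) (nat_lit 1824) (nat_lit 9309644991) (nat_lit 472) (nat_lit 5) (nat_lit 471) (nat_lit 5) (nat_lit 495) (nat_lit 5) (nat_lit 445) (nat_lit 438) (nat_lit 317)))))) (XT.nd (nat_lit 468) (nat_lit 4028) (nat_lit 0) (XT.nd (nat_lit 234) (nat_lit 0) (nat_lit 152) (XT.nd (nat_lit 78) (nat_lit 0) (nat_lit 76) (XT.lf (nat_lit 0) (nat_lit 6130150929) (nat_lit 1748) (nat_lit 1045344312) (nat_lit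 1824) (nat_lit 7153461506) (nat_lit 472) (nat_lit 5) (nat_lit 495) (nat_lit 5) (nat_lit 496) (nat_lit 5) (nat_lit 446) (nat_lit 438) (nat_lit 316)) (XT.nd (nat_lit 78) (nat_lit 0) (nat_lit 0) (XT.lf (nat_lit 0) (nat_lit 7568593947) (nat_lit 1748) (nat_lit 4435558271) (nat_lit 1824) (nat_lit 2538240705) (nat_lit 473) (nat_lit 5) (nat_lit 496) (nat_lit 5) (nat_lit 497) (nat_lit 5) (nat_lit 447) (nat_lit 438) (nat_lit 315)) (XT.lf (nat_lit 76) (nat_lit 6874383590) (nat_lit 0) (nat_lit 2256333590) (nat_lit 1824) (nat_lit 5629907459) (nat_lit 474) (nat_lit 5) (nat_lit 473) (nat_lit 5) (nat_lit 497) (nat_lit 5) (nat_lit 448) (nat_lit 438) (nat_lit 314)))) (XT.nd (nat_lit 78) (nat_lit 0) (nat_lit 76) (XT.lf (nat_lit 76) (nat_lit 3582044555) (nat_lit 0) (nat_lit 7242997025) (nat_lit 1824) (nat_lit 4158657888) (nat_lit 475) (nat_lit 5) (nat_lit 474) (nat_lit 5) (nat_lit 498) (nat_lit 5) (nat_lit 449) (nat_lit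 438) (nat_lit 313)) (XT.nd (nat_lit 78) (nat_lit 0) (nat_lit 0) (XT.lf (nat_lit 76) (nat_lit 245759363) (nat_lit 0) (nat_lit 12394729701) (nat_lit 1824) (nat_lit 2571574434) (nat_lit 476) (nat_lit 5) (nat_lit 475) (nat_lit 5) (nat_lit 499) (nat_lit 5) (nat_lit 450) (nat_lit 438) (nat_lit 312)) (XT.lf (nat_lit 76) (nat_lit 12335899252) (nat_lit 0) (nat_lit 2282096847) (nat_lit 1824) (nat_lit 827133170) (nat_lit 476) (nat_lit 5) (nat_lit 475) (nat_lit 5) (nat_lit 499) (nat_lit 5) (nat_lit 451) (nat_lit 438) (nat_lit 311))))) (XT.nd (nat_lit 234) (nat_lit 2508) (nat_lit 0) (XT.nd (nat_lit 78) (nat_lit 0) (nat_lit 76) (XT.lf (nat_lit 0) (nat_lit 1052576538) (nat_lit 1824) (nat_lit 6533029230) (nat_lit 1900) (nat_lit 8097544897) (nat_lit 452) (nat_lit 5) (nat_lit 476) (nat_lit 5) (nat_lit 477) (nat_lit 5) (nat_lit 452) (nat_lit 438) (nat_lit 310)) (XT.nd (nat_lit 78) (nat_lit 0) (nat_lit 0) (XT.lf (nat_lit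 0) (nat_lit 3054396438) (nat_lit 1824) (nat_lit 10010704150) (nat_lit 1900) (nat_lit 2861566176) (nat_lit 453) (nat_lit 5) (nat_lit 477) (nat_lit 5) (nat_lit 478) (nat_lit 5) (nat_lit 453) (nat_lit 438) (nat_lit 309)) (XT.lf (nat_lit 76) (nat_lit 2620800770) (nat_lit 0) (nat_lit 2591264805) (nat_lit 1900) (nat_lit 10963509337) (nat_lit 454) (nat_lit 5) (nat_lit 453) (nat_lit 5) (nat_lit 478) (nat_lit 5) (nat_lit 454) (nat_lit 438) (nat_lit 308)))) (XT.nd (nat_lit 78) (nat_lit 2660) (nat_lit 0) (XT.lf (nat_lit 0) (nat_lit 7539865373) (nat_lit 1824) (nat_lit 729896780) (nat_lit 76) (nat_lit 8160082528) (nat_lit 454) (nat_lit 5) (nat_lit 478) (nat_lit 5) (nat_lit 455) (nat_lit 5) (nat_lit 455) (nat_lit 438) (nat_lit 307)) (XT.nd (nat_lit 78) (nat_lit 988) (nat_lit 0) (XT.lf (nat_lit 0) (nat_lit 10037931391) (nat_lit 1748) (nat_lit 4092581455) (nat_lit 76) (nat_lit 2559223372) (nat_lit 432) (nat_lit 5)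 (nat_lit 455) (nat_lit 5) (nat_lit 433) (nat_lit 5) (nat_lit 456) (nat_lit 438) (nat_lit 306)) (XT.lf (nat_lit 0) (nat_lit 9431431948) (nat_lit 988) (nat_lit 3285772502) (nat_lit 1064) (nat_lit 4238097002) (nat_lit 419) (nat_lit 5) (nat_lit 432) (nat_lit 5) (nat_lit 433) (nat_lit 5) (nat_lit 457) (nat_lit 438) (nat_lit 305))))))))
noncomputable def xc102 : XT := (XT.nd (nat_lit 1794) (nat_lit 5548) (nat_lit 0) (XT.nd (nat_lit 858) (nat_lit 6536) (nat_lit 0) (XT.nd (nat_lit 390) (nat_lit 3876) (nat_lit 0) (XT.nd (nat_lit 156) (nat_lit 1672) (nat_lit 0) (XT.nd (nat_lit 78) (nat_lit 988) (nat_lit 0) (XT.lf (nat_lit 0) (nat_lit 6205216429) (nat_lit 912) (nat_lit 9376148816) (nat_lit 988) (nat_lit 1645380392) (nat_lit 407) (nat_lit 5) (nat_lit 419) (nat_lit 5) (nat_lit 420) (nat_lit 5) (nat_lit 458) (nat_lit 438) (nat_lit 304)) (XT.lf (nat_lit 0) (nat_lit 1101431255) (nat_lit 988) (nat_lit 14576896068)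 (nat_lit 76) (nat_lit 1826079626) (nat_lit 394) (nat_lit 5) (nat_lit 407) (nat_lit 5) (nat_lit 395) (nat_lit 5) (nat_lit 459) (nat_lit 438) (nat_lit 303))) (XT.nd (nat_lit 78) (nat_lit 1672) (nat_lit 0) (XT.lf (nat_lit 0) (nat_lit 4032009724) (nat_lit 988) (nat_lit 430963194) (nat_lit 76) (nat_lit 13324735349) (nat_lit 394) (nat_lit 5) (nat_lit 407) (nat_lit 5) (nat_lit 395) (nat_lit 5) (nat_lit 460) (nat_lit 438) (nat_lit 302)) (XT.nd (nat_lit 78) (nat_lit 836) (nat_lit 0) (XT.lf (nat_lit 0) (nat_lit 7176207344) (nat_lit 912) (nat_lit 3810843621) (nat_lit 76) (nat_lit 7089945585) (nat_lit 383) (nat_lit 5) (nat_lit 395) (nat_lit 5) (nat_lit 384) (nat_lit 5) (nat_lit 461) (nat_lit 438) (nat_lit 301)) (XT.lf (nat_lit 0) (nat_lit 10510378019) (nat_lit 912) (nat_lit 7239251899) (nat_lit 76) (nat_lit 623422524) (nat_lit 372) (nat_lit 5) (nat_lit 384) (nat_lit 5) (nat_lit 373) (nat_lit 5) (nat_lit 462) (nat_lit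 438) (nat_lit 300))))) (XT.nd (nat_lit 234) (nat_lit 1444) (nat_lit 0) (XT.nd (nat_lit 78) (nat_lit 1672) (nat_lit 0) (XT.lf (nat_lit 0) (nat_lit 7918222888) (nat_lit 760) (nat_lit 6163985556) (nat_lit 836) (nat_lit 4593030723) (nat_lit 362) (nat_lit 5) (nat_lit 372) (nat_lit 5) (nat_lit 373) (nat_lit 5) (nat_lit 463) (nat_lit 438) (nat_lit 299)) (XT.nd (nat_lit 78) (nat_lit 836) (nat_lit 0) (XT.lf (nat_lit 0) (nat_lit 4653761744) (nat_lit 836) (nat_lit 13211537807) (nat_lit 912) (nat_lit 1119111623) (nat_lit 351) (nat_lit 5) (nat_lit 362) (nat_lit 5) (nat_lit 363) (nat_lit 5) (nat_lit 464) (nat_lit 438) (nat_lit 298)) (XT.lf (nat_lit 0) (nat_lit 1318887829) (nat_lit 760) (nat_lit 1218304595) (nat_lit 836) (nat_lit 16763139953) (nat_lit 340) (nat_lit 5) (nat_lit 350) (nat_lit 5) (nat_lit 351) (nat_lit 5) (nat_lit 465) (nat_lit 438) (nat_lit 297)))) (XT.nd (nat_lit 78) (nat_lit 1444) (nat_lit 0) (XT.lf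 (nat_lit 0) (nat_lit 6445652156) (nat_lit 836) (nat_lit 2083612728) (nat_lit 76) (nat_lit 11093166626) (nat_lit 340) (nat_lit 5) (nat_lit 351) (nat_lit 5) (nat_lit 341) (nat_lit 5) (nat_lit 466) (nat_lit 438) (nat_lit 296)) (XT.nd (nat_lit 78) (nat_lit 684) (nat_lit 0) (XT.lf (nat_lit 0) (nat_lit 10586605326) (nat_lit 836) (nat_lit 5518141810) (nat_lit 76) (nat_lit 3847143298) (nat_lit 330) (nat_lit 5) (nat_lit 341) (nat_lit 5) (nat_lit 331) (nat_lit 5) (nat_lit 467) (nat_lit 438) (nat_lit 295)) (XT.lf (nat_lit 0) (nat_lit 11261666492) (nat_lit 684) (nat_lit 3722653661) (nat_lit 760) (nat_lit 5304263875) (nat_lit 321) (nat_lit 5) (nat_lit 330) (nat_lit 5) (nat_lit 331) (nat_lit 5) (nat_lit 468) (nat_lit 438) (nat_lit 294)))))) (XT.nd (nat_lit 468) (nat_lit 2964) (nat_lit 0) (XT.nd (nat_lit 234) (nat_lit 1368) (nat_lit 0) (XT.nd (nat_lit 78) (nat_lit 1444) (nat_lit 0) (XT.lf (nat_lit 0) (nat_lit 8018946674)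 (nat_lit 760) (nat_lit 11631774707) (nat_lit 836) (nat_lit 981923467) (nat_lit 311) (nat_lit 5) (nat_lit 321) (nat_lit 5) (nat_lit 322) (nat_lit 5) (nat_lit 469) (nat_lit 438) (nat_lit 293)) (XT.nd (nat_lit 78) (nat_lit 684) (nat_lit 0) (XT.lf (nat_lit 0) (nat_lit 3537942349) (nat_lit 760) (nat_lit 16277258262) (nat_lit 76) (nat_lit 1169110404) (nat_lit 301) (nat_lit 5) (nat_lit 311) (nat_lit 5) (nat_lit 302) (nat_lit 5) (nat_lit 470) (nat_lit 438) (nat_lit 292)) (XT.lf (nat_lit 0) (nat_lit 1294267076) (nat_lit 684) (nat_lit 7046933975) (nat_lit 760) (nat_lit 13001974961) (nat_lit 292) (nat_lit 5) (nat_lit 301) (nat_lit 5) (nat_lit 302) (nat_lit 5) (nat_lit 471) (nat_lit 438) (nat_lit 291)))) (XT.nd (nat_lit 78) (nat_lit 1368) (nat_lit 0) (XT.lf (nat_lit 0) (nat_lit 13428281824) (nat_lit 760) (nat_lit 2148271770) (nat_lit 76) (nat_lit 6133460238) (nat_lit 292) (nat_lit 5) (nat_lit 302) (nat_lit 5)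 (nat_lit 293) (nat_lit 5) (nat_lit 472) (nat_lit 438) (nat_lit 290)) (XT.nd (nat_lit 78) (nat_lit 760) (nat_lit 0) (XT.lf (nat_lit 0) (nat_lit 16445270820) (nat_lit 608) (nat_lit 2365982725) (nat_lit 684) (nat_lit 3273738995) (nat_lit 284) (nat_lit 5) (nat_lit 292) (nat_lit 5) (nat_lit 293) (nat_lit 5) (nat_lit 473) (nat_lit 438) (nat_lit 289)) (XT.lf (nat_lit 0) (nat_lit 2024071659) (nat_lit 760) (nat_lit 9238233254) (nat_lit 76) (nat_lit 11205386382) (nat_lit 274) (nat_lit 5) (nat_lit 284) (nat_lit 5) (nat_lit 275) (nat_lit 5) (nat_lit 474) (nat_lit 438) (nat_lit 288))))) (XT.nd (nat_lit 234) (nat_lit 1216) (nat_lit 0) (XT.nd (nat_lit 78) (nat_lit 1140) (nat_lit 0) (XT.lf (nat_lit 0) (nat_lit 7560988529) (nat_lit 684) (nat_lit 12914061986) (nat_lit 76) (nat_lit 2383895944) (nat_lit 266) (nat_lit 5) (nat_lit 275) (nat_lit 5) (nat_lit 267) (nat_lit 5) (nat_lit 475) (nat_lit 438) (nat_lit 287)) (XT.nd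 (nat_lit 78) (nat_lit 532) (nat_lit 0) (XT.lf (nat_lit 0) (nat_lit 6567085901) (nat_lit 608) (nat_lit 6867847037) (nat_lit 684) (nat_lit 9823589127) (nat_lit 258) (nat_lit 5) (nat_lit 266) (nat_lit 5) (nat_lit 267) (nat_lit 5) (nat_lit 476) (nat_lit 438) (nat_lit 286)) (XT.lf (nat_lit 0) (nat_lit 3122516937) (nat_lit 532) (nat_lit 16507494577) (nat_lit 608) (nat_lit 4037176260) (nat_lit 251) (nat_lit 5) (nat_lit 258) (nat_lit 5) (nat_lit 259) (nat_lit 5) (nat_lit 477) (nat_lit 438) (nat_lit 285)))) (XT.nd (nat_lit 78) (nat_lit 1140) (nat_lit 0) (XT.lf (nat_lit 0) (nat_lit 2047682712) (nat_lit 608) (nat_lit 398128180) (nat_lit 76) (nat_lit 21639052534) (nat_lit 250) (nat_lit 5) (nat_lit 258) (nat_lit 5) (nat_lit 251) (nat_lit 5) (nat_lit 478) (nat_lit 438) (nat_lit 284)) (XT.nd (nat_lit 78) (nat_lit 532) (nat_lit 0) (XT.lf (nat_lit 0) (nat_lit 8463967758) (nat_lit 684) (nat_lit 4007594117) (nat_lit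 76) (nat_lit 12038900227) (nat_lit 242) (nat_lit 5) (nat_lit 251) (nat_lit 5) (nat_lit 243) (nat_lit 5) (nat_lit 479) (nat_lit 438) (nat_lit 283)) (XT.lf (nat_lit 0) (nat_lit 15208371351) (nat_lit 608) (nat_lit 7674150647) (nat_lit 76) (nat_lit 2063595174) (nat_lit 235) (nat_lit 5) (nat_lit 243) (nat_lit 5) (nat_lit 236) (nat_lit 5) (nat_lit 480) (nat_lit 438) (nat_lit 282))))))) (XT.nd (nat_lit 858) (nat_lit 532) (nat_lit 0) (XT.nd (nat_lit 390) (nat_lit 2888) (nat_lit 0) (XT.nd (nat_lit 156) (nat_lit 988) (nat_lit 0) (XT.nd (nat_lit 78) (nat_lit 608) (nat_lit 0) (XT.lf (nat_lit 0) (nat_lit 13937628930) (nat_lit 532) (nat_lit 8409634482) (nat_lit 608) (nat_lit 3043736357) (nat_lit 228) (nat_lit 5) (nat_lit 235) (nat_lit 5) (nat_lit 236) (nat_lit 5) (nat_lit 481) (nat_lit 438) (nat_lit 281)) (XT.lf (nat_lit 0) (nat_lit 3955651522) (nat_lit 608) (nat_lit 15333892003) (nat_lit 76) (nat_lit 6556084880)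 (nat_lit 220) (nat_lit 5) (nat_lit 228) (nat_lit 5) (nat_lit 221) (nat_lit 5) (nat_lit 482) (nat_lit 438) (nat_lit 280))) (XT.nd (nat_lit 78) (nat_lit 456) (nat_lit 0) (XT.lf (nat_lit 0) (nat_lit 6982759925) (nat_lit 532) (nat_lit 4312062295) (nat_lit 608) (nat_lit 15015249151) (nat_lit 213) (nat_lit 5) (nat_lit 220) (nat_lit 5) (nat_lit 221) (nat_lit 5) (nat_lit 483) (nat_lit 438) (nat_lit 279)) (XT.nd (nat_lit 78) (nat_lit 0) (nat_lit 0) (XT.lf (nat_lit 0) (nat_lit 3351639552) (nat_lit 456) (nat_lit 15692425012) (nat_lit 532) (nat_lit 7740586033) (nat_lit 207) (nat_lit 5) (nat_lit 213) (nat_lit 5) (nat_lit 214) (nat_lit 5) (nat_lit 484) (nat_lit 438) (nat_lit 278)) (XT.lf (nat_lit 0) (nat_lit 26934587486) (nat_lit 456) (nat_lit 242362542) (nat_lit 532) (nat_lit 93494727) (nat_lit 207) (nat_lit 5) (nat_lit 213) (nat_lit 5) (nat_lit 214) (nat_lit 5) (nat_lit 485) (nat_lit 438) (nat_lit 277))))) (XT.nd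 (nat_lit 234) (nat_lit 1368) (nat_lit 0) (XT.nd (nat_lit 78) (nat_lit 912) (nat_lit 0) (XT.lf (nat_lit 0) (nat_lit 7929652446) (nat_lit 608) (nat_lit 4166898808) (nat_lit 76) (nat_lit 15668277293) (nat_lit 199) (nat_lit 5) (nat_lit 207) (nat_lit 5) (nat_lit 200) (nat_lit 5) (nat_lit 486) (nat_lit 438) (nat_lit 276)) (XT.nd (nat_lit 78) (nat_lit 456) (nat_lit 0) (XT.lf (nat_lit 0) (nat_lit 16344793676) (nat_lit 532) (nat_lit 8064910077) (nat_lit 76) (nat_lit 3861277151) (nat_lit 193) (nat_lit 5) (nat_lit 200) (nat_lit 5) (nat_lit 194) (nat_lit 5) (nat_lit 487) (nat_lit 438) (nat_lit 275)) (XT.lf (nat_lit 0) (nat_lit 16702097524) (nat_lit 456) (nat_lit 8520081065) (nat_lit 532) (nat_lit 3565944236) (nat_lit 187) (nat_lit 5) (nat_lit 193) (nat_lit 5) (nat_lit 194) (nat_lit 5) (nat_lit 488) (nat_lit 438) (nat_lit 274)))) (XT.nd (nat_lit 78) (nat_lit 836) (nat_lit 0) (XT.lf (nat_lit 0) (nat_lit 5163406984)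 (nat_lit 532) (nat_lit 16238933313) (nat_lit 76) (nat_lit 7914094961) (nat_lit 180) (nat_lit 5) (nat_lit 187) (nat_lit 5) (nat_lit 181) (nat_lit 5) (nat_lit 489) (nat_lit 438) (nat_lit 273)) (XT.nd (nat_lit 78) (nat_lit 380) (nat_lit 0) (XT.lf (nat_lit 0) (nat_lit 9332182726) (nat_lit 456) (nat_lit 4966566047) (nat_lit 532) (nat_lit 15557526453) (nat_lit 174) (nat_lit 5) (nat_lit 180) (nat_lit 5) (nat_lit 181) (nat_lit 5) (nat_lit 490) (nat_lit 438) (nat_lit 272)) (XT.lf (nat_lit 0) (nat_lit 5464676355) (nat_lit 380) (nat_lit 18459792911) (nat_lit 456) (nat_lit 6483515462) (nat_lit 169) (nat_lit 5) (nat_lit 174) (nat_lit 5) (nat_lit 175) (nat_lit 5) (nat_lit 491) (nat_lit 438) (nat_lit 271)))))) (XT.nd (nat_lit 58734) (nat_lit 0) (nat_lit 23408) (XT.nd (nat_lit 58500) (nat_lit 0) (nat_lit 23256) (XT.nd (nat_lit 58344) (nat_lit 0) (nat_lit 23180) (XT.lf (nat_lit 0) (nat_lit 1496364736) (nat_lit 456)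 (nat_lit 1504235829) (nat_lit 532) (nat_lit 27971765293) (nat_lit 162) (nat_lit 5) (nat_lit 168) (nat_lit 5) (nat_lit 169) (nat_lit 5) (nat_lit 492) (nat_lit 438) (nat_lit 270)) (XT.nd (nat_lit 78) (nat_lit 1748) (nat_lit 0) (XT.lf (nat_lit 0) (nat_lit 6376979870) (nat_lit 1748) (nat_lit 96863004) (nat_lit 1748) (nat_lit 96863004) (nat_lit 490) (nat_lit 3) (nat_lit 513) (nat_lit 3) (nat_lit 513) (nat_lit 5) (nat_lit 439) (nat_lit 439) (nat_lit 322)) (XT.lf (nat_lit 0) (nat_lit 255929300) (nat_lit 1748) (nat_lit 3732895626) (nat_lit 1824) (nat_lit 9336786700) (nat_lit 467) (nat_lit 5) (nat_lit 490) (nat_lit 3) (nat_lit 491) (nat_lit 5) (nat_lit 440) (nat_lit 439) (nat_lit 321)))) (XT.nd (nat_lit 78) (nat_lit 0) (nat_lit 76) (XT.lf (nat_lit 0) (nat_lit 966744573) (nat_lit 1748) (nat_lit 7322077537) (nat_lit 1824) (nat_lit 5225399808) (nat_lit 468) (nat_lit 5) (nat_lit 491) (nat_lit 5) (nat_lit 492) (nat_lit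 5) (nat_lit 441) (nat_lit 439) (nat_lit 320)) (XT.nd (nat_lit 78) (nat_lit 0) (nat_lit 0) (XT.lf (nat_lit 0) (nat_lit 1753346686) (nat_lit 1748) (nat_lit 10959018107) (nat_lit 1824) (nat_lit 995039952) (nat_lit 469) (nat_lit 5) (nat_lit 492) (nat_lit 5) (nat_lit 493) (nat_lit 5) (nat_lit 442) (nat_lit 439) (nat_lit 319)) (XT.lf (nat_lit 0) (nat_lit 2647440757) (nat_lit 1748) (nat_lit 752530599) (nat_lit 1824) (nat_lit 10504737194) (nat_lit 469) (nat_lit 5) (nat_lit 492) (nat_lit 5) (nat_lit 493) (nat_lit 5) (nat_lit 443) (nat_lit 439) (nat_lit 318))))) (XT.nd (nat_lit 234) (nat_lit 0) (nat_lit 152) (XT.nd (nat_lit 78) (nat_lit 0) (nat_lit 76) (XT.lf (nat_lit 0) (nat_lit 3652314270) (nat_lit 1748) (nat_lit 4270259372) (nat_lit 1824) (nat_lit 6183681969) (nat_lit 470) (nat_lit 5) (nat_lit 493) (nat_lit 5) (nat_lit 494) (nat_lit 5) (nat_lit 444) (nat_lit 439) (nat_lit 317)) (XT.nd (nat_lit 78) (nat_lit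 0) (nat_lit 0) (XT.lf (nat_lit 0) (nat_lit 4748431411) (nat_lit 1748) (nat_lit 7835639528) (nat_lit 1824) (nat_lit 1728559375) (nat_lit 471) (nat_lit 5) (nat_lit 494) (nat_lit 5) (nat_lit 495) (nat_lit 5) (nat_lit 445) (nat_lit 439) (nat_lit 316)) (XT.lf (nat_lit 76) (nat_lit 3054666990) (nat_lit 0) (nat_lit 2904994325) (nat_lit 1824) (nat_lit 8563893445) (nat_lit 472) (nat_lit 5) (nat_lit 471) (nat_lit 5) (nat_lit 495) (nat_lit 5) (nat_lit 446) (nat_lit 439) (nat_lit 315)))) (XT.nd (nat_lit 78) (nat_lit 0) (nat_lit 76) (XT.lf (nat_lit 0) (nat_lit 7287366497) (nat_lit 1748) (nat_lit 419965322) (nat_lit 1824) (nat_lit 7031875348) (nat_lit 472) (nat_lit 5) (nat_lit 495) (nat_lit 5) (nat_lit 496) (nat_lit 5) (nat_lit 447) (nat_lit 439) (nat_lit 314)) (XT.nd (nat_lit 78) (nat_lit 0) (nat_lit 0) (XT.lf (nat_lit 0) (nat_lit 8742841002) (nat_lit 1748) (nat_lit 3901441993) (nat_lit 1824) (nat_lit 2315290297)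 (nat_lit 473) (nat_lit 5) (nat_lit 496) (nat_lit 5) (nat_lit 497) (nat_lit 5) (nat_lit 448) (nat_lit 439) (nat_lit 313)) (XT.lf (nat_lit 76) (nat_lit 7736973872) (nat_lit 0) (nat_lit 2591527541) (nat_lit 1824) (nat_lit 4856321378) (nat_lit 474) (nat_lit 5) (nat_lit 473) (nat_lit 5) (nat_lit 497) (nat_lit 5) (nat_lit 449) (nat_lit 439) (nat_lit 312))))))))
noncomputable def xc103 : XT := (XT.nd (nat_lit 1794) (nat_lit 9348) (nat_lit 0) (XT.nd (nat_lit 858) (nat_lit 7752) (nat_lit 0) (XT.nd (nat_lit 390) (nat_lit 4332) (nat_lit 0) (XT.nd (nat_lit 156) (nat_lit 1748) (nat_lit 0) (XT.nd (nat_lit 78) (nat_lit 0) (nat_lit 76) (XT.lf (nat_lit 76) (nat_lit 4355243150) (nat_lit 0) (nat_lit 7694139953) (nat_lit 1824) (nat_lit 3365696384) (nat_lit 475) (nat_lit 5) (nat_lit 474) (nat_lit 5) (nat_lit 498) (nat_lit 5) (nat_lit 450) (nat_lit 439) (nat_lit 311)) (XT.lf (nat_lit 76) (nat_lit 927399113) (nat_lit 0)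 (nat_lit 12968596923) (nat_lit 1824) (nat_lit 1754768415) (nat_lit 476) (nat_lit 5) (nat_lit 475) (nat_lit 5) (nat_lit 499) (nat_lit 5) (nat_lit 451) (nat_lit 439) (nat_lit 310))) (XT.nd (nat_lit 78) (nat_lit 0) (nat_lit 76) (XT.lf (nat_lit 0) (nat_lit 15759181) (nat_lit 1824) (nat_lit 2530835916) (nat_lit 1900) (nat_lit 13344739421) (nat_lit 451) (nat_lit 5) (nat_lit 475) (nat_lit 5) (nat_lit 476) (nat_lit 5) (nat_lit 452) (nat_lit 439) (nat_lit 309)) (XT.nd (nat_lit 78) (nat_lit 0) (nat_lit 76) (XT.lf (nat_lit 0) (nat_lit 1918822056) (nat_lit 1824) (nat_lit 6055674201) (nat_lit 1900) (nat_lit 8162330712) (nat_lit 452) (nat_lit 5) (nat_lit 476) (nat_lit 5) (nat_lit 477) (nat_lit 5) (nat_lit 453) (nat_lit 439) (nat_lit 308)) (XT.lf (nat_lit 0) (nat_lit 3959698287) (nat_lit 1824) (nat_lit 9631200800) (nat_lit 1900) (nat_lit 2797173064) (nat_lit 453) (nat_lit 5) (nat_lit 477) (nat_lit 5) (nat_lit 478)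 (nat_lit 5) (nat_lit 454) (nat_lit 439) (nat_lit 307))))) (XT.nd (nat_lit 234) (nat_lit 2888) (nat_lit 0) (XT.nd (nat_lit 78) (nat_lit 1596) (nat_lit 0) (XT.lf (nat_lit 76) (nat_lit 3368219923) (nat_lit 0) (nat_lit 2794520711) (nat_lit 1900) (nat_lit 10482097577) (nat_lit 454) (nat_lit 5) (nat_lit 453) (nat_lit 5) (nat_lit 478) (nat_lit 5) (nat_lit 455) (nat_lit 439) (nat_lit 306)) (XT.nd (nat_lit 78) (nat_lit 1672) (nat_lit 0) (XT.lf (nat_lit 0) (nat_lit 8536447884) (nat_lit 1824) (nat_lit 86149001) (nat_lit 76) (nat_lit 8284621148) (nat_lit 454) (nat_lit 5) (nat_lit 478) (nat_lit 5) (nat_lit 455) (nat_lit 5) (nat_lit 456) (nat_lit 439) (nat_lit 305)) (XT.lf (nat_lit 0) (nat_lit 11090637040) (nat_lit 1748) (nat_lit 3544726495) (nat_lit 76) (nat_lit 2539922486) (nat_lit 432) (nat_lit 5) (nat_lit 455) (nat_lit 5) (nat_lit 433) (nat_lit 5) (nat_lit 457) (nat_lit 439) (nat_lit 304)))) (XT.nd (nat_lit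 78) (nat_lit 1900) (nat_lit 0) (XT.lf (nat_lit 0) (nat_lit 10374127097) (nat_lit 988) (nat_lit 3458554421) (nat_lit 1064) (nat_lit 3616492060) (nat_lit 419) (nat_lit 5) (nat_lit 432) (nat_lit 5) (nat_lit 433) (nat_lit 5) (nat_lit 458) (nat_lit 439) (nat_lit 303)) (XT.nd (nat_lit 78) (nat_lit 988) (nat_lit 0) (XT.lf (nat_lit 0) (nat_lit 7055442430) (nat_lit 912) (nat_lit 9709791005) (nat_lit 988) (nat_lit 963881464) (nat_lit 407) (nat_lit 5) (nat_lit 419) (nat_lit 5) (nat_lit 420) (nat_lit 5) (nat_lit 459) (nat_lit 439) (nat_lit 302)) (XT.lf (nat_lit 0) (nat_lit 1838773638) (nat_lit 988) (nat_lit 14336914512) (nat_lit 76) (nat_lit 1839665492) (nat_lit 394) (nat_lit 5) (nat_lit 407) (nat_lit 5) (nat_lit 395) (nat_lit 5) (nat_lit 460) (nat_lit 439) (nat_lit 301)))))) (XT.nd (nat_lit 468) (nat_lit 3648) (nat_lit 0) (XT.nd (nat_lit 234) (nat_lit 2432) (nat_lit 0) (XT.nd (nat_lit 78) (nat_lit 836) (nat_lit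 0) (XT.lf (nat_lit 0) (nat_lit 216509054) (nat_lit 836) (nat_lit 4621652551) (nat_lit 912) (nat_lit 13469377452) (nat_lit 383) (nat_lit 5) (nat_lit 394) (nat_lit 5) (nat_lit 395) (nat_lit 5) (nat_lit 461) (nat_lit 439) (nat_lit 300)) (XT.nd (nat_lit 78) (nat_lit 836) (nat_lit 0) (XT.lf (nat_lit 0) (nat_lit 8059425910) (nat_lit 912) (nat_lit 3264682794) (nat_lit 76) (nat_lit 7281745282) (nat_lit 383) (nat_lit 5) (nat_lit 395) (nat_lit 5) (nat_lit 384) (nat_lit 5) (nat_lit 462) (nat_lit 439) (nat_lit 299)) (XT.lf (nat_lit 0) (nat_lit 11478367108) (nat_lit 912) (nat_lit 6793494909) (nat_lit 76) (nat_lit 639237363) (nat_lit 372) (nat_lit 5) (nat_lit 384) (nat_lit 5) (nat_lit 373) (nat_lit 5) (nat_lit 463) (nat_lit 439) (nat_lit 298)))) (XT.nd (nat_lit 78) (nat_lit 1672) (nat_lit 0) (XT.lf (nat_lit 0) (nat_lit 8807948796) (nat_lit 760) (nat_lit 6334627998) (nat_lit 836) (nat_lit 4080073079) (nat_lit 362)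 (nat_lit 5) (nat_lit 372) (nat_lit 5) (nat_lit 373) (nat_lit 5) (nat_lit 464) (nat_lit 439) (nat_lit 297)) (XT.nd (nat_lit 78) (nat_lit 836) (nat_lit 0) (XT.lf (nat_lit 0) (nat_lit 5447519843) (nat_lit 836) (nat_lit 13577398259) (nat_lit 912) (nat_lit 516466363) (nat_lit 351) (nat_lit 5) (nat_lit 362) (nat_lit 5) (nat_lit 363) (nat_lit 5) (nat_lit 465) (nat_lit 439) (nat_lit 296)) (XT.lf (nat_lit 0) (nat_lit 2010278532) (nat_lit 760) (nat_lit 1216848620) (nat_lit 836) (nat_lit 16639857099) (nat_lit 340) (nat_lit 5) (nat_lit 350) (nat_lit 5) (nat_lit 351) (nat_lit 5) (nat_lit 466) (nat_lit 439) (nat_lit 295))))) (XT.nd (nat_lit 234) (nat_lit 2204) (nat_lit 0) (XT.nd (nat_lit 78) (nat_lit 1444) (nat_lit 0) (XT.lf (nat_lit 0) (nat_lit 7235202021) (nat_lit 836) (nat_lit 1501523623) (nat_lit 76) (nat_lit 11462375867) (nat_lit 340) (nat_lit 5) (nat_lit 351) (nat_lit 5) (nat_lit 341) (nat_lit 5) (nat_lit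 467) (nat_lit 439) (nat_lit 294)) (XT.nd (nat_lit 78) (nat_lit 684) (nat_lit 0) (XT.lf (nat_lit 0) (nat_lit 11487469034) (nat_lit 836) (nat_lit 5038143186) (nat_lit 76) (nat_lit 4013092590) (nat_lit 330) (nat_lit 5) (nat_lit 341) (nat_lit 5) (nat_lit 331) (nat_lit 5) (nat_lit 468) (nat_lit 439) (nat_lit 293)) (XT.lf (nat_lit 0) (nat_lit 12234586199) (nat_lit 684) (nat_lit 3769664083) (nat_lit 760) (nat_lit 4881508473) (nat_lit 321) (nat_lit 5) (nat_lit 330) (nat_lit 5) (nat_lit 331) (nat_lit 5) (nat_lit 469) (nat_lit 439) (nat_lit 292)))) (XT.nd (nat_lit 78) (nat_lit 1444) (nat_lit 0) (XT.lf (nat_lit 0) (nat_lit 8895164971) (nat_lit 760) (nat_lit 11903399676) (nat_lit 836) (nat_lit 441820510) (nat_lit 311) (nat_lit 5) (nat_lit 321) (nat_lit 5) (nat_lit 322) (nat_lit 5) (nat_lit 470) (nat_lit 439) (nat_lit 291)) (XT.nd (nat_lit 78) (nat_lit 684) (nat_lit 0) (XT.lf (nat_lit 0) (nat_lit 4194446513) (nat_lit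 760) (nat_lit 16122292820) (nat_lit 76) (nat_lit 1286024587) (nat_lit 301) (nat_lit 5) (nat_lit 311) (nat_lit 5) (nat_lit 302) (nat_lit 5) (nat_lit 471) (nat_lit 439) (nat_lit 290)) (XT.lf (nat_lit 0) (nat_lit 1965941772) (nat_lit 684) (nat_lit 7163939989) (nat_lit 760) (nat_lit 12842753542) (nat_lit 292) (nat_lit 5) (nat_lit 301) (nat_lit 5) (nat_lit 302) (nat_lit 5) (nat_lit 472) (nat_lit 439) (nat_lit 289))))))) (XT.nd (nat_lit 936) (nat_lit 3344) (nat_lit 0) (XT.nd (nat_lit 468) (nat_lit 2888) (nat_lit 0) (XT.nd (nat_lit 234) (nat_lit 1748) (nat_lit 0) (XT.nd (nat_lit 78) (nat_lit 1368) (nat_lit 0) (XT.lf (nat_lit 0) (nat_lit 14354487172) (nat_lit 760) (nat_lit 1588380358) (nat_lit 76) (nat_lit 6407914439) (nat_lit 292) (nat_lit 5) (nat_lit 302) (nat_lit 5) (nat_lit 293) (nat_lit 5) (nat_lit 473) (nat_lit 439) (nat_lit 288)) (XT.nd (nat_lit 78) (nat_lit 760) (nat_lit 0) (XT.lf (nat_lit 0) (nat_lit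 17552839342) (nat_lit 608) (nat_lit 2334853159) (nat_lit 684) (nat_lit 2849544545) (nat_lit 284) (nat_lit 5) (nat_lit 292) (nat_lit 5) (nat_lit 293) (nat_lit 5) (nat_lit 474) (nat_lit 439) (nat_lit 287)) (XT.lf (nat_lit 0) (nat_lit 2589991855) (nat_lit 760) (nat_lit 8894874798) (nat_lit 76) (nat_lit 11646691221) (nat_lit 274) (nat_lit 5) (nat_lit 284) (nat_lit 5) (nat_lit 275) (nat_lit 5) (nat_lit 475) (nat_lit 439) (nat_lit 286)))) (XT.nd (nat_lit 78) (nat_lit 1140) (nat_lit 0) (XT.lf (nat_lit 0) (nat_lit 8283018192) (nat_lit 684) (nat_lit 12681851068) (nat_lit 76) (nat_lit 2569883149) (nat_lit 266) (nat_lit 5) (nat_lit 275) (nat_lit 5) (nat_lit 267) (nat_lit 5) (nat_lit 476) (nat_lit 439) (nat_lit 285)) (XT.nd (nat_lit 78) (nat_lit 532) (nat_lit 0) (XT.lf (nat_lit 0) (nat_lit 7373678450) (nat_lit 608) (nat_lit 6949036979) (nat_lit 684) (nat_lit 9623810866) (nat_lit 258) (nat_lit 5) (nat_lit 266)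 (nat_lit 5) (nat_lit 267) (nat_lit 5) (nat_lit 477) (nat_lit 439) (nat_lit 284)) (XT.lf (nat_lit 0) (nat_lit 3824678504) (nat_lit 532) (nat_lit 16869587044) (nat_lit 608) (nat_lit 3673375697) (nat_lit 251) (nat_lit 5) (nat_lit 258) (nat_lit 5) (nat_lit 259) (nat_lit 5) (nat_lit 478) (nat_lit 439) (nat_lit 283))))) (XT.nd (nat_lit 234) (nat_lit 1672) (nat_lit 0) (XT.nd (nat_lit 78) (nat_lit 532) (nat_lit 0) (XT.lf (nat_lit 0) (nat_lit 189402140) (nat_lit 608) (nat_lit 2385558343) (nat_lit 684) (nat_lit 22223079464) (nat_lit 242) (nat_lit 5) (nat_lit 250) (nat_lit 5) (nat_lit 251) (nat_lit 5) (nat_lit 479) (nat_lit 439) (nat_lit 282)) (XT.nd (nat_lit 78) (nat_lit 532) (nat_lit 0) (XT.lf (nat_lit 0) (nat_lit 9173644648) (nat_lit 684) (nat_lit 3532228071) (nat_lit 76) (nat_lit 12530737180) (nat_lit 242) (nat_lit 5) (nat_lit 251) (nat_lit 5) (nat_lit 243) (nat_lit 5) (nat_lit 480) (nat_lit 439) (nat_lit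 281)) (XT.lf (nat_lit 0) (nat_lit 16111816759) (nat_lit 608) (nat_lit 7310375580) (nat_lit 76) (nat_lit 2263315037) (nat_lit 235) (nat_lit 5) (nat_lit 243) (nat_lit 5) (nat_lit 236) (nat_lit 5) (nat_lit 481) (nat_lit 439) (nat_lit 280)))) (XT.nd (nat_lit 78) (nat_lit 1140) (nat_lit 0) (XT.lf (nat_lit 0) (nat_lit 14940120447) (nat_lit 532) (nat_lit 8515524129) (nat_lit 608) (nat_lit 2688277934) (nat_lit 228) (nat_lit 5) (nat_lit 235) (nat_lit 5) (nat_lit 236) (nat_lit 5) (nat_lit 482) (nat_lit 439) (nat_lit 279)) (XT.nd (nat_lit 78) (nat_lit 532) (nat_lit 0) (XT.lf (nat_lit 0) (nat_lit 4507126735) (nat_lit 608) (nat_lit 15205500005) (nat_lit 76) (nat_lit 6899668728) (nat_lit 220) (nat_lit 5) (nat_lit 228) (nat_lit 5) (nat_lit 221) (nat_lit 5) (nat_lit 483) (nat_lit 439) (nat_lit 278)) (XT.lf (nat_lit 0) (nat_lit 7771105247) (nat_lit 532) (nat_lit 4286519676) (nat_lit 608) (nat_lit 15033225084) (nat_lit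 213) (nat_lit 5) (nat_lit 220) (nat_lit 5) (nat_lit 221) (nat_lit 5) (nat_lit 484) (nat_lit 439) (nat_lit 277)))))) (XT.nd (nat_lit 468) (nat_lit 836) (nat_lit 0) (XT.nd (nat_lit 234) (nat_lit 1444) (nat_lit 0) (XT.nd (nat_lit 78) (nat_lit 608) (nat_lit 0) (XT.lf (nat_lit 0) (nat_lit 4029055702) (nat_lit 456) (nat_lit 16002662394) (nat_lit 532) (nat_lit 7548102333) (nat_lit 207) (nat_lit 5) (nat_lit 213) (nat_lit 5) (nat_lit 214) (nat_lit 5) (nat_lit 485) (nat_lit 439) (nat_lit 276)) (XT.nd (nat_lit 78) (nat_lit 0) (nat_lit 0) (XT.lf (nat_lit 0) (nat_lit 223132468) (nat_lit 532) (nat_lit 90203214) (nat_lit 608) (nat_lit 27767026497) (nat_lit 199) (nat_lit 5) (nat_lit 206) (nat_lit 5) (nat_lit 207) (nat_lit 5) (nat_lit 486) (nat_lit 439) (nat_lit 275)) (XT.lf (nat_lit 0) (nat_lit 8567249145) (nat_lit 608) (nat_lit 3728576916) (nat_lit 76) (nat_lit 16293913414) (nat_lit 199) (nat_lit 5) (nat_lit 207)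 (nat_lit 5) (nat_lit 200) (nat_lit 5) (nat_lit 487) (nat_lit 439) (nat_lit 274)))) (XT.nd (nat_lit 78) (nat_lit 988) (nat_lit 0) (XT.lf (nat_lit 0) (nat_lit 17227856050) (nat_lit 532) (nat_lit 7745851198) (nat_lit 76) (nat_lit 4137510084) (nat_lit 193) (nat_lit 5) (nat_lit 200) (nat_lit 5) (nat_lit 194) (nat_lit 5) (nat_lit 488) (nat_lit 439) (nat_lit 273)) (XT.nd (nat_lit 78) (nat_lit 532) (nat_lit 0) (XT.lf (nat_lit 0) (nat_lit 17755064972) (nat_lit 456) (nat_lit 8608642464) (nat_lit 532) (nat_lit 3280324302) (nat_lit 187) (nat_lit 5) (nat_lit 193) (nat_lit 5) (nat_lit 194) (nat_lit 5) (nat_lit 489) (nat_lit 439) (nat_lit 272)) (XT.lf (nat_lit 0) (nat_lit 5699124752) (nat_lit 532) (nat_lit 16171511912) (nat_lit 76) (nat_lit 8317639644) (nat_lit 180) (nat_lit 5) (nat_lit 187) (nat_lit 5) (nat_lit 181) (nat_lit 5) (nat_lit 490) (nat_lit 439) (nat_lit 271))))) (XT.nd (nat_lit 58578) (nat_lit 0) (nat_lit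 22648) (XT.nd (nat_lit 78) (nat_lit 380) (nat_lit 0) (XT.lf (nat_lit 0) (nat_lit 10157740054) (nat_lit 456) (nat_lit 4943237371) (nat_lit 532) (nat_lit 15643486078) (nat_lit 174) (nat_lit 5) (nat_lit 180) (nat_lit 5) (nat_lit 181) (nat_lit 5) (nat_lit 491) (nat_lit 439) (nat_lit 270)) (XT.nd (nat_lit 58422) (nat_lit 0) (nat_lit 22648) (XT.lf (nat_lit 0) (nat_lit 6171634513) (nat_lit 380) (nat_lit 18837575085) (nat_lit 456) (nat_lit 6303640900) (nat_lit 169) (nat_lit 5) (nat_lit 174) (nat_lit 5) (nat_lit 175) (nat_lit 5) (nat_lit 492) (nat_lit 439) (nat_lit 269)) (XT.lf (nat_lit 0) (nat_lit 190664731) (nat_lit 0) (nat_lit 190664731) (nat_lit 1748) (nat_lit 6374867711) (nat_lit 467) (nat_lit 5) (nat_lit 467) (nat_lit 3) (nat_lit 490) (nat_lit 3) (nat_lit 440) (nat_lit 440) (nat_lit 320)))) (XT.nd (nat_lit 78) (nat_lit 0) (nat_lit 76) (XT.lf (nat_lit 0) (nat_lit 1385302476) (nat_lit 1748) (nat_lit 3255871711)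 (nat_lit 1824) (nat_lit 9061595600) (nat_lit 467) (nat_lit 5) (nat_lit 490) (nat_lit 3) (nat_lit 491) (nat_lit 5) (nat_lit 441) (nat_lit 440) (nat_lit 319)) (XT.nd (nat_lit 78) (nat_lit 0) (nat_lit 76) (XT.lf (nat_lit 0) (nat_lit 2085200784) (nat_lit 1748) (nat_lit 6936925305) (nat_lit 1824) (nat_lit 4875562262) (nat_lit 468) (nat_lit 5) (nat_lit 491) (nat_lit 5) (nat_lit 492) (nat_lit 5) (nat_lit 442) (nat_lit 440) (nat_lit 318)) (XT.lf (nat_lit 0) (nat_lit 2864503075) (nat_lit 1748) (nat_lit 10668359252) (nat_lit 1824) (nat_lit 564427278) (nat_lit 469) (nat_lit 5) (nat_lit 492) (nat_lit 5) (nat_lit 493) (nat_lit 5) (nat_lit 443) (nat_lit 440) (nat_lit 317))))))))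
noncomputable def xc104 : XT := (XT.nd (nat_lit 1794) (nat_lit 11932) (nat_lit 0) (XT.nd (nat_lit 858) (nat_lit 7676) (nat_lit 0) (XT.nd (nat_lit 390) (nat_lit 1368) (nat_lit 0) (XT.nd (nat_lit 156) (nat_lit 0) (nat_lit 152) (XT.nd (nat_lit 78) (nat_lit 0) (nat_lit 76) (XT.lf (nat_lit 0) (nat_lit 3754588240) (nat_lit 1748) (nat_lit 173718752) (nat_lit 1824) (nat_lit 10372827007) (nat_lit 469) (nat_lit 5) (nat_lit 492) (nat_lit 5) (nat_lit 493) (nat_lit 5) (nat_lit 444) (nat_lit 440) (nat_lit 316)) (XT.lf (nat_lit 0) (nat_lit 4760853506) (nat_lit 1748) (nat_lit 3783884933) (nat_lit 1824) (nat_lit 5964568821) (nat_lit 470) (nat_lit 5) (nat_lit 493) (nat_lit 5) (nat_lit 494) (nat_lit 5) (nat_lit 445) (nat_lit 440) (nat_lit 315))) (XT.nd (nat_lit 78) (nat_lit 0) (nat_lit 0) (XT.lf (nat_lit 0) (nat_lit 5862285205) (nat_lit 1748) (nat_lit 7444170058) (nat_lit 1824) (nat_lit 1415973881) (nat_lit 471) (nat_lit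 5) (nat_lit 494) (nat_lit 5) (nat_lit 495) (nat_lit 5) (nat_lit 446) (nat_lit 440) (nat_lit 314)) (XT.nd (nat_lit 78) (nat_lit 0) (nat_lit 76) (XT.lf (nat_lit 76) (nat_lit 3762680810) (nat_lit 0) (nat_lit 3322879875) (nat_lit 1824) (nat_lit 7854610894) (nat_lit 472) (nat_lit 5) (nat_lit 471) (nat_lit 5) (nat_lit 495) (nat_lit 5) (nat_lit 447) (nat_lit 440) (nat_lit 313)) (XT.lf (nat_lit 76) (nat_lit 188953676) (nat_lit 0) (nat_lit 8235699633) (nat_lit 1824) (nat_lit 6738213423) (nat_lit 473) (nat_lit 5) (nat_lit 472) (nat_lit 5) (nat_lit 496) (nat_lit 5) (nat_lit 448) (nat_lit 440) (nat_lit 312))))) (XT.nd (nat_lit 234) (nat_lit 1672) (nat_lit 0) (XT.nd (nat_lit 78) (nat_lit 0) (nat_lit 0) (XT.lf (nat_lit 0) (nat_lit 9897942931) (nat_lit 1748) (nat_lit 3389601262) (nat_lit 1824) (nat_lit 2102820804) (nat_lit 473) (nat_lit 5) (nat_lit 496) (nat_lit 5) (nat_lit 497) (nat_lit 5) (nat_lit 449) (nat_lit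 440) (nat_lit 311)) (XT.nd (nat_lit 78) (nat_lit 0) (nat_lit 76) (XT.lf (nat_lit 76) (nat_lit 8587764183) (nat_lit 0) (nat_lit 2921421490) (nat_lit 1824) (nat_lit 4113630111) (nat_lit 474) (nat_lit 5) (nat_lit 473) (nat_lit 5) (nat_lit 497) (nat_lit 5) (nat_lit 450) (nat_lit 440) (nat_lit 310)) (XT.lf (nat_lit 76) (nat_lit 5113421661) (nat_lit 0) (nat_lit 8145393049) (nat_lit 1824) (nat_lit 2601626989) (nat_lit 475) (nat_lit 5) (nat_lit 474) (nat_lit 5) (nat_lit 498) (nat_lit 5) (nat_lit 451) (nat_lit 440) (nat_lit 309)))) (XT.nd (nat_lit 78) (nat_lit 1824) (nat_lit 0) (XT.lf (nat_lit 76) (nat_lit 1590782373) (nat_lit 0) (nat_lit 13548083081) (nat_lit 1824) (nat_lit 964774790) (nat_lit 476) (nat_lit 5) (nat_lit 475) (nat_lit 5) (nat_lit 499) (nat_lit 5) (nat_lit 452) (nat_lit 440) (nat_lit 308)) (XT.nd (nat_lit 78) (nat_lit 0) (nat_lit 76) (XT.lf (nat_lit 0) (nat_lit 823596370) (nat_lit 1824) (nat_lit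 1978860536) (nat_lit 1900) (nat_lit 13549349142) (nat_lit 451) (nat_lit 5) (nat_lit 475) (nat_lit 5) (nat_lit 476) (nat_lit 5) (nat_lit 453) (nat_lit 440) (nat_lit 307)) (XT.lf (nat_lit 0) (nat_lit 2763141568) (nat_lit 1824) (nat_lit 5602651330) (nat_lit 1900) (nat_lit 8239286097) (nat_lit 452) (nat_lit 5) (nat_lit 476) (nat_lit 5) (nat_lit 477) (nat_lit 5) (nat_lit 454) (nat_lit 440) (nat_lit 306)))))) (XT.nd (nat_lit 468) (nat_lit 4332) (nat_lit 0) (XT.nd (nat_lit 234) (nat_lit 1900) (nat_lit 0) (XT.nd (nat_lit 78) (nat_lit 1596) (nat_lit 0) (XT.lf (nat_lit 0) (nat_lit 4845451206) (nat_lit 1824) (nat_lit 9279337056) (nat_lit 1900) (nat_lit 2739472556) (nat_lit 453) (nat_lit 5) (nat_lit 477) (nat_lit 5) (nat_lit 478) (nat_lit 5) (nat_lit 455) (nat_lit 440) (nat_lit 305)) (XT.nd (nat_lit 78) (nat_lit 1596) (nat_lit 0) (XT.lf (nat_lit 76) (nat_lit 4099670074) (nat_lit 0) (nat_lit 2996669050) (nat_lit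 1900) (nat_lit 10032758978) (nat_lit 454) (nat_lit 5) (nat_lit 453) (nat_lit 5) (nat_lit 478) (nat_lit 5) (nat_lit 456) (nat_lit 440) (nat_lit 304)) (XT.lf (nat_lit 0) (nat_lit 545859529) (nat_lit 1672) (nat_lit 8976389083) (nat_lit 1748) (nat_lit 7877484117) (nat_lit 432) (nat_lit 5) (nat_lit 454) (nat_lit 5) (nat_lit 455) (nat_lit 5) (nat_lit 457) (nat_lit 440) (nat_lit 303)))) (XT.nd (nat_lit 78) (nat_lit 1900) (nat_lit 0) (XT.lf (nat_lit 0) (nat_lit 12131780798) (nat_lit 1748) (nat_lit 3018932929) (nat_lit 76) (nat_lit 2525557820) (nat_lit 432) (nat_lit 5) (nat_lit 455) (nat_lit 5) (nat_lit 433) (nat_lit 5) (nat_lit 458) (nat_lit 440) (nat_lit 302)) (XT.nd (nat_lit 78) (nat_lit 912) (nat_lit 0) (XT.lf (nat_lit 0) (nat_lit 11307230625) (nat_lit 988) (nat_lit 3632259913) (nat_lit 1064) (nat_lit 3019220159) (nat_lit 419) (nat_lit 5) (nat_lit 432) (nat_lit 5) (nat_lit 433) (nat_lit 5) (nat_lit 459)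 (nat_lit 440) (nat_lit 301)) (XT.lf (nat_lit 0) (nat_lit 7893054905) (nat_lit 912) (nat_lit 10050436912) (nat_lit 988) (nat_lit 303891942) (nat_lit 407) (nat_lit 5) (nat_lit 419) (nat_lit 5) (nat_lit 420) (nat_lit 5) (nat_lit 460) (nat_lit 440) (nat_lit 300))))) (XT.nd (nat_lit 234) (nat_lit 2508) (nat_lit 0) (XT.nd (nat_lit 78) (nat_lit 836) (nat_lit 0) (XT.lf (nat_lit 0) (nat_lit 2557806623) (nat_lit 988) (nat_lit 14128612637) (nat_lit 76) (nat_lit 1856023783) (nat_lit 394) (nat_lit 5) (nat_lit 407) (nat_lit 5) (nat_lit 395) (nat_lit 5) (nat_lit 461) (nat_lit 440) (nat_lit 299)) (XT.nd (nat_lit 78) (nat_lit 0) (nat_lit 0) (XT.lf (nat_lit 0) (nat_lit 851056203) (nat_lit 836) (nat_lit 4780861742) (nat_lit 912) (nat_lit 13211783973) (nat_lit 383) (nat_lit 5) (nat_lit 394) (nat_lit 5) (nat_lit 395) (nat_lit 5) (nat_lit 462) (nat_lit 440) (nat_lit 298)) (XT.lf (nat_lit 0) (nat_lit 8930798984) (nat_lit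 912) (nat_lit 2740051749) (nat_lit 76) (nat_lit 7480498640) (nat_lit 383) (nat_lit 5) (nat_lit 395) (nat_lit 5) (nat_lit 384) (nat_lit 5) (nat_lit 463) (nat_lit 440) (nat_lit 297)))) (XT.nd (nat_lit 78) (nat_lit 1672) (nat_lit 0) (XT.lf (nat_lit 0) (nat_lit 12437929496) (nat_lit 912) (nat_lit 6372420365) (nat_lit 76) (nat_lit 655692421) (nat_lit 372) (nat_lit 5) (nat_lit 384) (nat_lit 5) (nat_lit 373) (nat_lit 5) (nat_lit 464) (nat_lit 440) (nat_lit 296)) (XT.nd (nat_lit 78) (nat_lit 912) (nat_lit 0) (XT.lf (nat_lit 0) (nat_lit 9686928727) (nat_lit 760) (nat_lit 6511209278) (nat_lit 836) (nat_lit 3589082335) (nat_lit 362) (nat_lit 5) (nat_lit 372) (nat_lit 5) (nat_lit 373) (nat_lit 5) (nat_lit 465) (nat_lit 440) (nat_lit 295)) (XT.lf (nat_lit 0) (nat_lit 66848324) (nat_lit 912) (nat_lit 13888687616) (nat_lit 76) (nat_lit 6160243160) (nat_lit 350) (nat_lit 5) (nat_lit 362) (nat_lit 5) (nat_lit 351)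 (nat_lit 5) (nat_lit 466) (nat_lit 440) (nat_lit 294))))))) (XT.nd (nat_lit 858) (nat_lit 5548) (nat_lit 0) (XT.nd (nat_lit 390) (nat_lit 3344) (nat_lit 0) (XT.nd (nat_lit 156) (nat_lit 2280) (nat_lit 0) (XT.nd (nat_lit 78) (nat_lit 0) (nat_lit 0) (XT.lf (nat_lit 0) (nat_lit 2684993589) (nat_lit 760) (nat_lit 1217530614) (nat_lit 836) (nat_lit 16548820885) (nat_lit 340) (nat_lit 5) (nat_lit 350) (nat_lit 5) (nat_lit 351) (nat_lit 5) (nat_lit 467) (nat_lit 440) (nat_lit 293)) (XT.lf (nat_lit 0) (nat_lit 8014215194) (nat_lit 836) (nat_lit 938974378) (nat_lit 76) (nat_lit 11840571059) (nat_lit 340) (nat_lit 5) (nat_lit 351) (nat_lit 5) (nat_lit 341) (nat_lit 5) (nat_lit 468) (nat_lit 440) (nat_lit 292))) (XT.nd (nat_lit 78) (nat_lit 1520) (nat_lit 0) (XT.lf (nat_lit 0) (nat_lit 12381876825) (nat_lit 836) (nat_lit 4580801405) (nat_lit 76) (nat_lit 4181119446) (nat_lit 330) (nat_lit 5) (nat_lit 341) (nat_lit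 5) (nat_lit 331) (nat_lit 5) (nat_lit 469) (nat_lit 440) (nat_lit 291)) (XT.nd (nat_lit 78) (nat_lit 836) (nat_lit 0) (XT.lf (nat_lit 0) (nat_lit 13200237899) (nat_lit 684) (nat_lit 3821797094) (nat_lit 760) (nat_lit 4479472891) (nat_lit 321) (nat_lit 5) (nat_lit 330) (nat_lit 5) (nat_lit 331) (nat_lit 5) (nat_lit 470) (nat_lit 440) (nat_lit 290)) (XT.lf (nat_lit 0) (nat_lit 80717727) (nat_lit 836) (nat_lit 12106352967) (nat_lit 76) (nat_lit 9679921526) (nat_lit 310) (nat_lit 5) (nat_lit 321) (nat_lit 5) (nat_lit 311) (nat_lit 5) (nat_lit 471) (nat_lit 440) (nat_lit 289))))) (XT.nd (nat_lit 234) (nat_lit 1976) (nat_lit 0) (XT.nd (nat_lit 78) (nat_lit 684) (nat_lit 0) (XT.lf (nat_lit 0) (nat_lit 4839052548) (nat_lit 760) (nat_lit 15999605502) (nat_lit 76) (nat_lit 1401748194) (nat_lit 301) (nat_lit 5) (nat_lit 311) (nat_lit 5) (nat_lit 302) (nat_lit 5) (nat_lit 472) (nat_lit 440) (nat_lit 288)) (XT.nd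 (nat_lit 78) (nat_lit 0) (nat_lit 0) (XT.lf (nat_lit 0) (nat_lit 2621438721) (nat_lit 684) (nat_lit 7289875245) (nat_lit 760) (nat_lit 12710286437) (nat_lit 292) (nat_lit 5) (nat_lit 301) (nat_lit 5) (nat_lit 302) (nat_lit 5) (nat_lit 473) (nat_lit 440) (nat_lit 287)) (XT.lf (nat_lit 0) (nat_lit 15278435853) (nat_lit 760) (nat_lit 1047531849) (nat_lit 76) (nat_lit 6685410043) (nat_lit 292) (nat_lit 5) (nat_lit 302) (nat_lit 5) (nat_lit 293) (nat_lit 5) (nat_lit 474) (nat_lit 440) (nat_lit 286)))) (XT.nd (nat_lit 78) (nat_lit 1368) (nat_lit 0) (XT.lf (nat_lit 0) (nat_lit 18658376731) (nat_lit 608) (nat_lit 2308651183) (nat_lit 684) (nat_lit 2442612538) (nat_lit 284) (nat_lit 5) (nat_lit 292) (nat_lit 5) (nat_lit 293) (nat_lit 5) (nat_lit 475) (nat_lit 440) (nat_lit 285)) (XT.nd (nat_lit 78) (nat_lit 608) (nat_lit 0) (XT.lf (nat_lit 0) (nat_lit 3143889223) (nat_lit 760) (nat_lit 8576835140) (nat_lit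 76) (nat_lit 12095199553) (nat_lit 274) (nat_lit 5) (nat_lit 284) (nat_lit 5) (nat_lit 275) (nat_lit 5) (nat_lit 476) (nat_lit 440) (nat_lit 284)) (XT.lf (nat_lit 0) (nat_lit 8998282238) (nat_lit 684) (nat_lit 12478243278) (nat_lit 76) (nat_lit 2754878906) (nat_lit 266) (nat_lit 5) (nat_lit 275) (nat_lit 5) (nat_lit 267) (nat_lit 5) (nat_lit 477) (nat_lit 440) (nat_lit 283)))))) (XT.nd (nat_lit 468) (nat_lit 2660) (nat_lit 0) (XT.nd (nat_lit 234) (nat_lit 1064) (nat_lit 0) (XT.nd (nat_lit 78) (nat_lit 1216) (nat_lit 0) (XT.lf (nat_lit 0) (nat_lit 8169476391) (nat_lit 608) (nat_lit 7039829260) (nat_lit 684) (nat_lit 9446424773) (nat_lit 258) (nat_lit 5) (nat_lit 266) (nat_lit 5) (nat_lit 267) (nat_lit 5) (nat_lit 478) (nat_lit 440) (nat_lit 282)) (XT.nd (nat_lit 78) (nat_lit 684) (nat_lit 0) (XT.lf (nat_lit 0) (nat_lit 4512975329) (nat_lit 532) (nat_lit 17250184626) (nat_lit 608) (nat_lit 3326497271)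 (nat_lit 251) (nat_lit 5) (nat_lit 258) (nat_lit 5) (nat_lit 259) (nat_lit 5) (nat_lit 479) (nat_lit 440) (nat_lit 281)) (XT.lf (nat_lit 0) (nat_lit 765282911) (nat_lit 608) (nat_lit 2328575111) (nat_lit 684) (nat_lit 22439240722) (nat_lit 242) (nat_lit 5) (nat_lit 250) (nat_lit 5) (nat_lit 251) (nat_lit 5) (nat_lit 480) (nat_lit 440) (nat_lit 280)))) (XT.nd (nat_lit 78) (nat_lit 1064) (nat_lit 0) (XT.lf (nat_lit 0) (nat_lit 9878449479) (nat_lit 684) (nat_lit 3076790569) (nat_lit 76) (nat_lit 13029828252) (nat_lit 242) (nat_lit 5) (nat_lit 251) (nat_lit 5) (nat_lit 243) (nat_lit 5) (nat_lit 481) (nat_lit 440) (nat_lit 279)) (XT.nd (nat_lit 78) (nat_lit 532) (nat_lit 0) (XT.lf (nat_lit 0) (nat_lit 17016694748) (nat_lit 608) (nat_lit 6969785267) (nat_lit 76) (nat_lit 2461115523) (nat_lit 235) (nat_lit 5) (nat_lit 243) (nat_lit 5) (nat_lit 236) (nat_lit 5) (nat_lit 482) (nat_lit 440) (nat_lit 278)) (XT.lf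 (nat_lit 0) (nat_lit 15939141903) (nat_lit 532) (nat_lit 8632994390) (nat_lit 608) (nat_lit 2347802214) (nat_lit 228) (nat_lit 5) (nat_lit 235) (nat_lit 5) (nat_lit 236) (nat_lit 5) (nat_lit 483) (nat_lit 440) (nat_lit 277))))) (XT.nd (nat_lit 234) (nat_lit 1064) (nat_lit 0) (XT.nd (nat_lit 78) (nat_lit 988) (nat_lit 0) (XT.lf (nat_lit 0) (nat_lit 5050301388) (nat_lit 608) (nat_lit 15107033318) (nat_lit 76) (nat_lit 7245127357) (nat_lit 220) (nat_lit 5) (nat_lit 228) (nat_lit 5) (nat_lit 221) (nat_lit 5) (nat_lit 484) (nat_lit 440) (nat_lit 276)) (XT.nd (nat_lit 78) (nat_lit 456) (nat_lit 0) (XT.lf (nat_lit 0) (nat_lit 8549871853) (nat_lit 532) (nat_lit 4269102929) (nat_lit 608) (nat_lit 15076566504) (nat_lit 213) (nat_lit 5) (nat_lit 220) (nat_lit 5) (nat_lit 221) (nat_lit 5) (nat_lit 485) (nat_lit 440) (nat_lit 275)) (XT.lf (nat_lit 0) (nat_lit 4693679814) (nat_lit 456) (nat_lit 16331422285) (nat_lit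 532) (nat_lit 7374223713) (nat_lit 207) (nat_lit 5) (nat_lit 213) (nat_lit 5) (nat_lit 214) (nat_lit 5) (nat_lit 486) (nat_lit 440) (nat_lit 274)))) (XT.nd (nat_lit 78) (nat_lit 456) (nat_lit 0) (XT.lf (nat_lit 0) (nat_lit 710197693) (nat_lit 608) (nat_lit 28145422153) (nat_lit 76) (nat_lit 59365330) (nat_lit 199) (nat_lit 5) (nat_lit 207) (nat_lit 5) (nat_lit 200) (nat_lit 5) (nat_lit 487) (nat_lit 440) (nat_lit 273)) (XT.nd (nat_lit 78) (nat_lit 456) (nat_lit 0) (XT.lf (nat_lit 0) (nat_lit 9201028920) (nat_lit 608) (nat_lit 3309442748) (nat_lit 76) (nat_lit 16929387243) (nat_lit 199) (nat_lit 5) (nat_lit 207) (nat_lit 5) (nat_lit 200) (nat_lit 5) (nat_lit 488) (nat_lit 440) (nat_lit 272)) (XT.lf (nat_lit 0) (nat_lit 18114866643) (nat_lit 532) (nat_lit 7449424602) (nat_lit 76) (nat_lit 4412822698) (nat_lit 193) (nat_lit 5) (nat_lit 200) (nat_lit 5) (nat_lit 194) (nat_lit 5) (nat_lit 489) (nat_lit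 440) (nat_lit 271))))))))
noncomputable def xc105 : XT := (XT.nd (nat_lit 60294) (nat_lit 0) (nat_lit 3040) (XT.nd (nat_lit 59358) (nat_lit 0) (nat_lit 17176) (XT.nd (nat_lit 58890) (nat_lit 0) (nat_lit 21964) (XT.nd (nat_lit 58656) (nat_lit 0) (nat_lit 21812) (XT.nd (nat_lit 78) (nat_lit 532) (nat_lit 0) (XT.lf (nat_lit 0) (nat_lit 18807939866) (nat_lit 456) (nat_lit 8709449543) (nat_lit 532) (nat_lit 3008672516) (nat_lit 187) (nat_lit 5) (nat_lit 193) (nat_lit 5) (nat_lit 194) (nat_lit 5) (nat_lit 490) (nat_lit 440) (nat_lit 270)) (XT.lf (nat_lit 0) (nat_lit 6229053683) (nat_lit 532) (nat_lit 16133903570) (nat_lit 76) (nat_lit 8723754594) (nat_lit 180) (nat_lit 5) (nat_lit 187) (nat_lit 5) (nat_lit 181) (nat_lit 5) (nat_lit 491) (nat_lit 440) (nat_lit 269))) (XT.nd (nat_lit 78) (nat_lit 0) (nat_lit 0) (XT.lf (nat_lit 0) (nat_lit 469527526) (nat_lit 0) (nat_lit 469527526) (nat_lit 1748) (nat_lit 6008816750)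 (nat_lit 467) (nat_lit 5) (nat_lit 467) (nat_lit 3) (nat_lit 490) (nat_lit 3) (nat_lit 441) (nat_lit 441) (nat_lit 318)) (XT.nd (nat_lit 78) (nat_lit 0) (nat_lit 76) (XT.lf (nat_lit 0) (nat_lit 2484166948) (nat_lit 1748) (nat_lit 2798348707) (nat_lit 1824) (nat_lit 8810024954) (nat_lit 467) (nat_lit 5) (nat_lit 490) (nat_lit 3) (nat_lit 491) (nat_lit 5) (nat_lit 442) (nat_lit 441) (nat_lit 317)) (XT.lf (nat_lit 0) (nat_lit 3174671571) (nat_lit 1748) (nat_lit 6574937336) (nat_lit 1824) (nat_lit 4544310476) (nat_lit 468) (nat_lit 5) (nat_lit 491) (nat_lit 5) (nat_lit 492) (nat_lit 5) (nat_lit 443) (nat_lit 441) (nat_lit 316))))) (XT.nd (nat_lit 234) (nat_lit 0) (nat_lit 152) (XT.nd (nat_lit 78) (nat_lit 0) (nat_lit 0) (XT.lf (nat_lit 0) (nat_lit 3948228711) (nat_lit 1748) (nat_lit 10404538413) (nat_lit 1824) (nat_lit 147328733) (nat_lit 469) (nat_lit 5) (nat_lit 492) (nat_lit 5) (nat_lit 493) (nat_lit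 5) (nat_lit 444) (nat_lit 441) (nat_lit 315)) (XT.nd (nat_lit 78) (nat_lit 0) (nat_lit 76) (XT.lf (nat_lit 76) (nat_lit 393090788) (nat_lit 0) (nat_lit 4445415988) (nat_lit 1824) (nat_lit 9872083562) (nat_lit 470) (nat_lit 5) (nat_lit 469) (nat_lit 5) (nat_lit 493) (nat_lit 5) (nat_lit 445) (nat_lit 441) (nat_lit 314)) (XT.lf (nat_lit 0) (nat_lit 5845303964) (nat_lit 1748) (nat_lit 3318193053) (nat_lit 1824) (nat_lit 5762109329) (nat_lit 470) (nat_lit 5) (nat_lit 493) (nat_lit 5) (nat_lit 494) (nat_lit 5) (nat_lit 446) (nat_lit 441) (nat_lit 313)))) (XT.nd (nat_lit 78) (nat_lit 0) (nat_lit 0) (XT.lf (nat_lit 0) (nat_lit 6953792230) (nat_lit 1748) (nat_lit 7076922386) (nat_lit 1824) (nat_lit 1114931300) (nat_lit 471) (nat_lit 5) (nat_lit 494) (nat_lit 5) (nat_lit 495) (nat_lit 5) (nat_lit 447) (nat_lit 441) (nat_lit 312)) (XT.nd (nat_lit 78) (nat_lit 0) (nat_lit 76) (XT.lf (nat_lit 76) (nat_lit 4456552667)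 (nat_lit 0) (nat_lit 3734316408) (nat_lit 1824) (nat_lit 7179513661) (nat_lit 472) (nat_lit 5) (nat_lit 471) (nat_lit 5) (nat_lit 495) (nat_lit 5) (nat_lit 448) (nat_lit 441) (nat_lit 311)) (XT.lf (nat_lit 76) (nat_lit 785881132) (nat_lit 0) (nat_lit 8760124874) (nat_lit 1824) (nat_lit 6054239361) (nat_lit 473) (nat_lit 5) (nat_lit 472) (nat_lit 5) (nat_lit 496) (nat_lit 5) (nat_lit 449) (nat_lit 441) (nat_lit 310)))))) (XT.nd (nat_lit 468) (nat_lit 3420) (nat_lit 0) (XT.nd (nat_lit 234) (nat_lit 1672) (nat_lit 0) (XT.nd (nat_lit 78) (nat_lit 0) (nat_lit 0) (XT.lf (nat_lit 0) (nat_lit 11036446588) (nat_lit 1748) (nat_lit 2898505823) (nat_lit 1824) (nat_lit 1900161059) (nat_lit 473) (nat_lit 5) (nat_lit 496) (nat_lit 5) (nat_lit 497) (nat_lit 5) (nat_lit 450) (nat_lit 441) (nat_lit 309)) (XT.nd (nat_lit 78) (nat_lit 0) (nat_lit 76) (XT.lf (nat_lit 76) (nat_lit 9428563377) (nat_lit 0) (nat_lit 3246737924)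 (nat_lit 1824) (nat_lit 3399654806) (nat_lit 474) (nat_lit 5) (nat_lit 473) (nat_lit 5) (nat_lit 497) (nat_lit 5) (nat_lit 451) (nat_lit 441) (nat_lit 308)) (XT.lf (nat_lit 76) (nat_lit 5858323243) (nat_lit 0) (nat_lit 8597530217) (nat_lit 1824) (nat_lit 1864292364) (nat_lit 475) (nat_lit 5) (nat_lit 474) (nat_lit 5) (nat_lit 498) (nat_lit 5) (nat_lit 452) (nat_lit 441) (nat_lit 307)))) (XT.nd (nat_lit 78) (nat_lit 1824) (nat_lit 0) (XT.lf (nat_lit 76) (nat_lit 2237583313) (nat_lit 0) (nat_lit 14134022463) (nat_lit 1824) (nat_lit 199452148) (nat_lit 476) (nat_lit 5) (nat_lit 475) (nat_lit 5) (nat_lit 499) (nat_lit 5) (nat_lit 453) (nat_lit 441) (nat_lit 306)) (XT.nd (nat_lit 78) (nat_lit 0) (nat_lit 76) (XT.lf (nat_lit 0) (nat_lit 1609322655) (nat_lit 1824) (nat_lit 1446369949) (nat_lit 1900) (nat_lit 13771333000) (nat_lit 451) (nat_lit 5) (nat_lit 475) (nat_lit 5) (nat_lit 476) (nat_lit 5) (nat_lit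 454) (nat_lit 441) (nat_lit 305)) (XT.lf (nat_lit 0) (nat_lit 3587627718) (nat_lit 1824) (nat_lit 5172471754) (nat_lit 1900) (nat_lit 8328189124) (nat_lit 452) (nat_lit 5) (nat_lit 476) (nat_lit 5) (nat_lit 477) (nat_lit 5) (nat_lit 455) (nat_lit 441) (nat_lit 304))))) (XT.nd (nat_lit 234) (nat_lit 1976) (nat_lit 0) (XT.nd (nat_lit 78) (nat_lit 1596) (nat_lit 0) (XT.lf (nat_lit 0) (nat_lit 5713749959) (nat_lit 1824) (nat_lit 8953701927) (nat_lit 1900) (nat_lit 2688170353) (nat_lit 453) (nat_lit 5) (nat_lit 477) (nat_lit 5) (nat_lit 478) (nat_lit 5) (nat_lit 456) (nat_lit 441) (nat_lit 303)) (XT.nd (nat_lit 78) (nat_lit 1596) (nat_lit 0) (XT.lf (nat_lit 76) (nat_lit 4816875987) (nat_lit 0) (nat_lit 3198090205) (nat_lit 1900) (nat_lit 9613785553) (nat_lit 454) (nat_lit 5) (nat_lit 453) (nat_lit 5) (nat_lit 478) (nat_lit 5) (nat_lit 457) (nat_lit 441) (nat_lit 302)) (XT.lf (nat_lit 0) (nat_lit 1161511611)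 (nat_lit 1672) (nat_lit 9334773830) (nat_lit 1748) (nat_lit 7411570366) (nat_lit 432) (nat_lit 5) (nat_lit 454) (nat_lit 5) (nat_lit 455) (nat_lit 5) (nat_lit 458) (nat_lit 441) (nat_lit 301)))) (XT.nd (nat_lit 78) (nat_lit 1976) (nat_lit 0) (XT.lf (nat_lit 0) (nat_lit 13163492396) (nat_lit 1748) (nat_lit 2513652711) (nat_lit 76) (nat_lit 2515960862) (nat_lit 432) (nat_lit 5) (nat_lit 455) (nat_lit 5) (nat_lit 433) (nat_lit 5) (nat_lit 459) (nat_lit 441) (nat_lit 300)) (XT.nd (nat_lit 78) (nat_lit 988) (nat_lit 0) (XT.lf (nat_lit 0) (nat_lit 12232628820) (nat_lit 988) (nat_lit 3807161218) (nat_lit 1064) (nat_lit 2444543994) (nat_lit 419) (nat_lit 5) (nat_lit 432) (nat_lit 5) (nat_lit 433) (nat_lit 5) (nat_lit 460) (nat_lit 441) (nat_lit 299)) (XT.lf (nat_lit 0) (nat_lit 331939938) (nat_lit 988) (nat_lit 10064301749) (nat_lit 76) (nat_lit 8385696279) (nat_lit 406) (nat_lit 5) (nat_lit 419) (nat_lit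 5) (nat_lit 407) (nat_lit 5) (nat_lit 461) (nat_lit 441) (nat_lit 298))))))) (XT.nd (nat_lit 936) (nat_lit 6156) (nat_lit 0) (XT.nd (nat_lit 468) (nat_lit 3724) (nat_lit 0) (XT.nd (nat_lit 234) (nat_lit 2508) (nat_lit 0) (XT.nd (nat_lit 78) (nat_lit 836) (nat_lit 0) (XT.lf (nat_lit 0) (nat_lit 3260301757) (nat_lit 988) (nat_lit 13950709012) (nat_lit 76) (nat_lit 1875101920) (nat_lit 394) (nat_lit 5) (nat_lit 407) (nat_lit 5) (nat_lit 395) (nat_lit 5) (nat_lit 462) (nat_lit 441) (nat_lit 297)) (XT.nd (nat_lit 78) (nat_lit 0) (nat_lit 0) (XT.lf (nat_lit 0) (nat_lit 1468587020) (nat_lit 836) (nat_lit 4943667002) (nat_lit 912) (nat_lit 12984445530) (nat_lit 383) (nat_lit 5) (nat_lit 394) (nat_lit 5) (nat_lit 395) (nat_lit 5) (nat_lit 463) (nat_lit 441) (nat_lit 296)) (XT.lf (nat_lit 0) (nat_lit 9792172192) (nat_lit 912) (nat_lit 2235419925) (nat_lit 76) (nat_lit 7686345401) (nat_lit 383) (nat_lit 5) (nat_lit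 395) (nat_lit 5) (nat_lit 384) (nat_lit 5) (nat_lit 464) (nat_lit 441) (nat_lit 295)))) (XT.nd (nat_lit 78) (nat_lit 1672) (nat_lit 0) (XT.lf (nat_lit 0) (nat_lit 13390963107) (nat_lit 912) (nat_lit 5974584217) (nat_lit 76) (nat_lit 672797388) (nat_lit 372) (nat_lit 5) (nat_lit 384) (nat_lit 5) (nat_lit 373) (nat_lit 5) (nat_lit 465) (nat_lit 441) (nat_lit 294)) (XT.nd (nat_lit 78) (nat_lit 912) (nat_lit 0) (XT.lf (nat_lit 0) (nat_lit 10556989380) (nat_lit 760) (nat_lit 6693860516) (nat_lit 836) (nat_lit 3118573132) (nat_lit 362) (nat_lit 5) (nat_lit 372) (nat_lit 5) (nat_lit 373) (nat_lit 5) (nat_lit 466) (nat_lit 441) (nat_lit 293)) (XT.lf (nat_lit 0) (nat_lit 626712124) (nat_lit 912) (nat_lit 13716660239) (nat_lit 76) (nat_lit 6364648161) (nat_lit 350) (nat_lit 5) (nat_lit 362) (nat_lit 5) (nat_lit 351) (nat_lit 5) (nat_lit 467) (nat_lit 441) (nat_lit 292))))) (XT.nd (nat_lit 234) (nat_lit 2204)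 (nat_lit 0) (XT.nd (nat_lit 78) (nat_lit 760) (nat_lit 0) (XT.lf (nat_lit 0) (nat_lit 3344680639) (nat_lit 760) (nat_lit 1220289481) (nat_lit 836) (nat_lit 16488935312) (nat_lit 340) (nat_lit 5) (nat_lit 350) (nat_lit 5) (nat_lit 351) (nat_lit 5) (nat_lit 468) (nat_lit 441) (nat_lit 291)) (XT.nd (nat_lit 78) (nat_lit 760) (nat_lit 0) (XT.lf (nat_lit 0) (nat_lit 8784340125) (nat_lit 836) (nat_lit 394427092) (nat_lit 76) (nat_lit 12228141774) (nat_lit 340) (nat_lit 5) (nat_lit 351) (nat_lit 5) (nat_lit 341) (nat_lit 5) (nat_lit 469) (nat_lit 441) (nat_lit 290)) (XT.lf (nat_lit 0) (nat_lit 13271557014) (nat_lit 836) (nat_lit 4144668960) (nat_lit 76) (nat_lit 4351452716) (nat_lit 330) (nat_lit 5) (nat_lit 341) (nat_lit 5) (nat_lit 331) (nat_lit 5) (nat_lit 470) (nat_lit 441) (nat_lit 289)))) (XT.nd (nat_lit 78) (nat_lit 1520) (nat_lit 0) (XT.lf (nat_lit 0) (nat_lit 14160496250) (nat_lit 684) (nat_lit 3878993271)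 (nat_lit 760) (nat_lit 4096861286) (nat_lit 321) (nat_lit 5) (nat_lit 330) (nat_lit 5) (nat_lit 331) (nat_lit 5) (nat_lit 471) (nat_lit 441) (nat_lit 288)) (XT.nd (nat_lit 78) (nat_lit 684) (nat_lit 0) (XT.lf (nat_lit 0) (nat_lit 582549629) (nat_lit 836) (nat_lit 11898076711) (nat_lit 76) (nat_lit 10032324196) (nat_lit 310) (nat_lit 5) (nat_lit 321) (nat_lit 5) (nat_lit 311) (nat_lit 5) (nat_lit 472) (nat_lit 441) (nat_lit 287)) (XT.lf (nat_lit 0) (nat_lit 5473217092) (nat_lit 760) (nat_lit 15908044885) (nat_lit 76) (nat_lit 1516515193) (nat_lit 301) (nat_lit 5) (nat_lit 311) (nat_lit 5) (nat_lit 302) (nat_lit 5) (nat_lit 473) (nat_lit 441) (nat_lit 286)))))) (XT.nd (nat_lit 468) (nat_lit 2888) (nat_lit 0) (XT.nd (nat_lit 234) (nat_lit 1976) (nat_lit 0) (XT.nd (nat_lit 78) (nat_lit 608) (nat_lit 0) (XT.lf (nat_lit 0) (nat_lit 3262357965) (nat_lit 684) (nat_lit 7424696544) (nat_lit 760) (nat_lit 12603566272)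 (nat_lit 292) (nat_lit 5) (nat_lit 301) (nat_lit 5) (nat_lit 302) (nat_lit 5) (nat_lit 474) (nat_lit 441) (nat_lit 285)) (XT.nd (nat_lit 78) (nat_lit 608) (nat_lit 0) (XT.lf (nat_lit 0) (nat_lit 16201784750) (nat_lit 760) (nat_lit 524240187) (nat_lit 76) (nat_lit 6966336348) (nat_lit 292) (nat_lit 5) (nat_lit 302) (nat_lit 5) (nat_lit 293) (nat_lit 5) (nat_lit 475) (nat_lit 441) (nat_lit 284)) (XT.lf (nat_lit 0) (nat_lit 19763846016) (nat_lit 608) (nat_lit 2287188152) (nat_lit 684) (nat_lit 2051739399) (nat_lit 284) (nat_lit 5) (nat_lit 292) (nat_lit 5) (nat_lit 293) (nat_lit 5) (nat_lit 476) (nat_lit 441) (nat_lit 283)))) (XT.nd (nat_lit 78) (nat_lit 1216) (nat_lit 0) (XT.lf (nat_lit 0) (nat_lit 3687067821) (nat_lit 760) (nat_lit 8282829136) (nat_lit 76) (nat_lit 12551473953) (nat_lit 274) (nat_lit 5) (nat_lit 284) (nat_lit 5) (nat_lit 275) (nat_lit 5) (nat_lit 477) (nat_lit 441) (nat_lit 282)) (XT.nd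 (nat_lit 78) (nat_lit 608) (nat_lit 0) (XT.lf (nat_lit 0) (nat_lit 9708209497) (nat_lit 684) (nat_lit 12302054879) (nat_lit 76) (nat_lit 2939230676) (nat_lit 266) (nat_lit 5) (nat_lit 275) (nat_lit 5) (nat_lit 267) (nat_lit 5) (nat_lit 478) (nat_lit 441) (nat_lit 281)) (XT.lf (nat_lit 0) (nat_lit 8956164593) (nat_lit 608) (nat_lit 7140100555) (nat_lit 684) (nat_lit 9290473168) (nat_lit 258) (nat_lit 5) (nat_lit 266) (nat_lit 5) (nat_lit 267) (nat_lit 5) (nat_lit 479) (nat_lit 441) (nat_lit 280))))) (XT.nd (nat_lit 234) (nat_lit 1672) (nat_lit 0) (XT.nd (nat_lit 78) (nat_lit 684) (nat_lit 0) (XT.lf (nat_lit 0) (nat_lit 5188996571) (nat_lit 532) (nat_lit 17649403778) (nat_lit 608) (nat_lit 2995450736) (nat_lit 251) (nat_lit 5) (nat_lit 258) (nat_lit 5) (nat_lit 259) (nat_lit 5) (nat_lit 480) (nat_lit 441) (nat_lit 279)) (XT.nd (nat_lit 78) (nat_lit 0) (nat_lit 0) (XT.lf (nat_lit 0) (nat_lit 1325708366)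 (nat_lit 608) (nat_lit 2277261678) (nat_lit 684) (nat_lit 22687749149) (nat_lit 242) (nat_lit 5) (nat_lit 250) (nat_lit 5) (nat_lit 251) (nat_lit 5) (nat_lit 481) (nat_lit 441) (nat_lit 278)) (XT.lf (nat_lit 0) (nat_lit 10579737916) (nat_lit 684) (nat_lit 2639916847) (nat_lit 76) (nat_lit 13536821655) (nat_lit 242) (nat_lit 5) (nat_lit 251) (nat_lit 5) (nat_lit 243) (nat_lit 5) (nat_lit 482) (nat_lit 441) (nat_lit 277)))) (XT.nd (nat_lit 78) (nat_lit 1140) (nat_lit 0) (XT.lf (nat_lit 0) (nat_lit 17924521905) (nat_lit 608) (nat_lit 6651117886) (nat_lit 76) (nat_lit 2657393173) (nat_lit 235) (nat_lit 5) (nat_lit 243) (nat_lit 5) (nat_lit 236) (nat_lit 5) (nat_lit 483) (nat_lit 441) (nat_lit 276)) (XT.nd (nat_lit 78) (nat_lit 608) (nat_lit 0) (XT.lf (nat_lit 0) (nat_lit 16936514805) (nat_lit 532) (nat_lit 8761910262) (nat_lit 608) (nat_lit 2021286466) (nat_lit 228) (nat_lit 5) (nat_lit 235) (nat_lit 5)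 (nat_lit 236) (nat_lit 5) (nat_lit 484) (nat_lit 441) (nat_lit 275)) (XT.lf (nat_lit 0) (nat_lit 5586352659) (nat_lit 608) (nat_lit 15037450757) (nat_lit 76) (nat_lit 7593001082) (nat_lit 220) (nat_lit 5) (nat_lit 228) (nat_lit 5) (nat_lit 221) (nat_lit 5) (nat_lit 485) (nat_lit 441) (nat_lit 274))))))))
noncomputable def xc106 : XT := (XT.nd (nat_lit 60372) (nat_lit 0) (nat_lit 4864) (XT.nd (nat_lit 59436) (nat_lit 0) (nat_lit 20064) (XT.nd (nat_lit 390) (nat_lit 456) (nat_lit 0) (XT.nd (nat_lit 156) (nat_lit 1064) (nat_lit 0) (XT.nd (nat_lit 78) (nat_lit 456) (nat_lit 0) (XT.lf (nat_lit 0) (nat_lit 9320679864) (nat_lit 532) (nat_lit 4259545385) (nat_lit 608) (nat_lit 15144609251) (nat_lit 213) (nat_lit 5) (nat_lit 220) (nat_lit 5) (nat_lit 221) (nat_lit 5) (nat_lit 486) (nat_lit 441) (nat_lit 273)) (XT.lf (nat_lit 0) (nat_lit 5347029034) (nat_lit 456) (nat_lit 16678731358) (nat_lit 532) (nat_lit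 7218108837) (nat_lit 207) (nat_lit 5) (nat_lit 213) (nat_lit 5) (nat_lit 214) (nat_lit 5) (nat_lit 487) (nat_lit 441) (nat_lit 272))) (XT.nd (nat_lit 78) (nat_lit 456) (nat_lit 0) (XT.lf (nat_lit 0) (nat_lit 1097292266) (nat_lit 608) (nat_lit 28474259114) (nat_lit 76) (nat_lit 203531170) (nat_lit 199) (nat_lit 5) (nat_lit 207) (nat_lit 5) (nat_lit 200) (nat_lit 5) (nat_lit 488) (nat_lit 441) (nat_lit 271)) (XT.nd (nat_lit 78) (nat_lit 456) (nat_lit 0) (XT.lf (nat_lit 0) (nat_lit 9832194391) (nat_lit 608) (nat_lit 2908215638) (nat_lit 76) (nat_lit 17575506608) (nat_lit 199) (nat_lit 5) (nat_lit 207) (nat_lit 5) (nat_lit 200) (nat_lit 5) (nat_lit 489) (nat_lit 441) (nat_lit 270)) (XT.lf (nat_lit 0) (nat_lit 19007238000) (nat_lit 532) (nat_lit 7174460615) (nat_lit 76) (nat_lit 4687715920) (nat_lit 193) (nat_lit 5) (nat_lit 200) (nat_lit 5) (nat_lit 194) (nat_lit 5) (nat_lit 490) (nat_lit 441) (nat_lit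 269))))) (XT.nd (nat_lit 58812) (nat_lit 0) (nat_lit 21356) (XT.nd (nat_lit 58656) (nat_lit 0) (nat_lit 21280) (XT.lf (nat_lit 0) (nat_lit 19862538082) (nat_lit 456) (nat_lit 8822319235) (nat_lit 532) (nat_lit 2750114222) (nat_lit 187) (nat_lit 5) (nat_lit 193) (nat_lit 5) (nat_lit 194) (nat_lit 5) (nat_lit 491) (nat_lit 441) (nat_lit 268)) (XT.nd (nat_lit 78) (nat_lit 0) (nat_lit 0) (XT.lf (nat_lit 0) (nat_lit 741076686) (nat_lit 0) (nat_lit 741076686) (nat_lit 1748) (nat_lit 5663775387) (nat_lit 467) (nat_lit 5) (nat_lit 467) (nat_lit 3) (nat_lit 490) (nat_lit 3) (nat_lit 442) (nat_lit 442) (nat_lit 316)) (XT.lf (nat_lit 0) (nat_lit 3555303700) (nat_lit 1748) (nat_lit 2358970716) (nat_lit 1824) (nat_lit 8580953553) (nat_lit 467) (nat_lit 5) (nat_lit 490) (nat_lit 3) (nat_lit 491) (nat_lit 5) (nat_lit 443) (nat_lit 442) (nat_lit 315)))) (XT.nd (nat_lit 78) (nat_lit 0) (nat_lit 0) (XT.lf (nat_lit 0)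 (nat_lit 4237877374) (nat_lit 1748) (nat_lit 6234815555) (nat_lit 1824) (nat_lit 4230532661) (nat_lit 468) (nat_lit 5) (nat_lit 491) (nat_lit 5) (nat_lit 492) (nat_lit 5) (nat_lit 444) (nat_lit 442) (nat_lit 314)) (XT.nd (nat_lit 78) (nat_lit 0) (nat_lit 76) (XT.lf (nat_lit 76) (nat_lit 4748094194) (nat_lit 0) (nat_lit 260787870) (nat_lit 1824) (nat_lit 9907224906) (nat_lit 469) (nat_lit 5) (nat_lit 468) (nat_lit 5) (nat_lit 492) (nat_lit 5) (nat_lit 445) (nat_lit 442) (nat_lit 313)) (XT.lf (nat_lit 76) (nat_lit 946309653) (nat_lit 0) (nat_lit 4953987318) (nat_lit 1824) (nat_lit 9233135044) (nat_lit 470) (nat_lit 5) (nat_lit 469) (nat_lit 5) (nat_lit 493) (nat_lit 5) (nat_lit 446) (nat_lit 442) (nat_lit 312)))))) (XT.nd (nat_lit 468) (nat_lit 1444) (nat_lit 0) (XT.nd (nat_lit 234) (nat_lit 0) (nat_lit 152) (XT.nd (nat_lit 78) (nat_lit 0) (nat_lit 76) (XT.lf (nat_lit 0) (nat_lit 6908234818) (nat_lit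 1748) (nat_lit 2871779350) (nat_lit 1824) (nat_lit 5575469775) (nat_lit 470) (nat_lit 5) (nat_lit 493) (nat_lit 5) (nat_lit 494) (nat_lit 5) (nat_lit 447) (nat_lit 442) (nat_lit 311)) (XT.nd (nat_lit 78) (nat_lit 0) (nat_lit 0) (XT.lf (nat_lit 0) (nat_lit 8025483072) (nat_lit 1748) (nat_lit 6732558577) (nat_lit 1824) (nat_lit 824576997) (nat_lit 471) (nat_lit 5) (nat_lit 494) (nat_lit 5) (nat_lit 495) (nat_lit 5) (nat_lit 448) (nat_lit 442) (nat_lit 310)) (XT.lf (nat_lit 76) (nat_lit 5137889394) (nat_lit 0) (nat_lit 4140200304) (nat_lit 1824) (nat_lit 6536443459) (nat_lit 472) (nat_lit 5) (nat_lit 471) (nat_lit 5) (nat_lit 495) (nat_lit 5) (nat_lit 449) (nat_lit 442) (nat_lit 309)))) (XT.nd (nat_lit 78) (nat_lit 0) (nat_lit 76) (XT.lf (nat_lit 76) (nat_lit 1366775735) (nat_lit 0) (nat_lit 9284361603) (nat_lit 1824) (nat_lit 5400613016) (nat_lit 473) (nat_lit 5) (nat_lit 472) (nat_lit 5) (nat_lit 496)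 (nat_lit 5) (nat_lit 450) (nat_lit 442) (nat_lit 308)) (XT.nd (nat_lit 78) (nat_lit 0) (nat_lit 0) (XT.lf (nat_lit 0) (nat_lit 12160796059) (nat_lit 1748) (nat_lit 2426705718) (nat_lit 1824) (nat_lit 1706676335) (nat_lit 473) (nat_lit 5) (nat_lit 496) (nat_lit 5) (nat_lit 497) (nat_lit 5) (nat_lit 451) (nat_lit 442) (nat_lit 307)) (XT.lf (nat_lit 76) (nat_lit 10261110418) (nat_lit 0) (nat_lit 3568170403) (nat_lit 1824) (nat_lit 2712329520) (nat_lit 474) (nat_lit 5) (nat_lit 473) (nat_lit 5) (nat_lit 497) (nat_lit 5) (nat_lit 452) (nat_lit 442) (nat_lit 306))))) (XT.nd (nat_lit 234) (nat_lit 0) (nat_lit 76) (XT.nd (nat_lit 78) (nat_lit 1748) (nat_lit 0) (XT.lf (nat_lit 76) (nat_lit 6591617413) (nat_lit 0) (nat_lit 9051304344) (nat_lit 1824) (nat_lit 1151644044) (nat_lit 475) (nat_lit 5) (nat_lit 474) (nat_lit 5) (nat_lit 498) (nat_lit 5) (nat_lit 453) (nat_lit 442) (nat_lit 305)) (XT.nd (nat_lit 78)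 (nat_lit 0) (nat_lit 0) (XT.lf (nat_lit 0) (nat_lit 536111422) (nat_lit 1824) (nat_lit 14187527158) (nat_lit 1900) (nat_lit 2329689772) (nat_lit 451) (nat_lit 5) (nat_lit 475) (nat_lit 5) (nat_lit 476) (nat_lit 5) (nat_lit 454) (nat_lit 442) (nat_lit 304)) (XT.lf (nat_lit 0) (nat_lit 2374935160) (nat_lit 1824) (nat_lit 931879624) (nat_lit 1900) (nat_lit 14010567233) (nat_lit 451) (nat_lit 5) (nat_lit 475) (nat_lit 5) (nat_lit 476) (nat_lit 5) (nat_lit 455) (nat_lit 442) (nat_lit 303)))) (XT.nd (nat_lit 78) (nat_lit 0) (nat_lit 76) (XT.lf (nat_lit 0) (nat_lit 4394278044) (nat_lit 1824) (nat_lit 4763729311) (nat_lit 1900) (nat_lit 8428844906) (nat_lit 452) (nat_lit 5) (nat_lit 476) (nat_lit 5) (nat_lit 477) (nat_lit 5) (nat_lit 456) (nat_lit 442) (nat_lit 302)) (XT.nd (nat_lit 78) (nat_lit 0) (nat_lit 0) (XT.lf (nat_lit 0) (nat_lit 6566598235) (nat_lit 1824) (nat_lit 8652970691) (nat_lit 1900) (nat_lit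 2642991748) (nat_lit 453) (nat_lit 5) (nat_lit 477) (nat_lit 5) (nat_lit 478) (nat_lit 5) (nat_lit 457) (nat_lit 442) (nat_lit 301)) (XT.lf (nat_lit 76) (nat_lit 5521487659) (nat_lit 0) (nat_lit 3399152229) (nat_lit 1900) (nat_lit 9223571356) (nat_lit 454) (nat_lit 5) (nat_lit 453) (nat_lit 5) (nat_lit 478) (nat_lit 5) (nat_lit 458) (nat_lit 442) (nat_lit 300))))))) (XT.nd (nat_lit 858) (nat_lit 6764) (nat_lit 0) (XT.nd (nat_lit 390) (nat_lit 4104) (nat_lit 0) (XT.nd (nat_lit 156) (nat_lit 2888) (nat_lit 0) (XT.nd (nat_lit 78) (nat_lit 0) (nat_lit 0) (XT.lf (nat_lit 0) (nat_lit 1761232344) (nat_lit 1672) (nat_lit 9698795813) (nat_lit 1748) (nat_lit 6971990552) (nat_lit 432) (nat_lit 5) (nat_lit 454) (nat_lit 5) (nat_lit 455) (nat_lit 5) (nat_lit 459) (nat_lit 442) (nat_lit 299)) (XT.lf (nat_lit 0) (nat_lit 14187823291) (nat_lit 1748) (nat_lit 2027418212) (nat_lit 76) (nat_lit 2510976221) (nat_lit 432)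 (nat_lit 5) (nat_lit 455) (nat_lit 5) (nat_lit 433) (nat_lit 5) (nat_lit 460) (nat_lit 442) (nat_lit 298))) (XT.nd (nat_lit 78) (nat_lit 1900) (nat_lit 0) (XT.lf (nat_lit 0) (nat_lit 13152139757) (nat_lit 988) (nat_lit 3983524710) (nat_lit 1064) (nat_lit 1890815775) (nat_lit 419) (nat_lit 5) (nat_lit 432) (nat_lit 5) (nat_lit 433) (nat_lit 5) (nat_lit 461) (nat_lit 442) (nat_lit 297)) (XT.nd (nat_lit 78) (nat_lit 912) (nat_lit 0) (XT.lf (nat_lit 0) (nat_lit 945954572) (nat_lit 988) (nat_lit 9801969599) (nat_lit 76) (nat_lit 8585304953) (nat_lit 406) (nat_lit 5) (nat_lit 419) (nat_lit 5) (nat_lit 407) (nat_lit 5) (nat_lit 462) (nat_lit 442) (nat_lit 296)) (XT.lf (nat_lit 0) (nat_lit 3947950507) (nat_lit 988) (nat_lit 13802011879) (nat_lit 76) (nat_lit 1896853538) (nat_lit 394) (nat_lit 5) (nat_lit 407) (nat_lit 5) (nat_lit 395) (nat_lit 5) (nat_lit 463) (nat_lit 442) (nat_lit 295))))) (XT.nd (nat_lit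 234) (nat_lit 2432) (nat_lit 0) (XT.nd (nat_lit 78) (nat_lit 836) (nat_lit 0) (XT.lf (nat_lit 0) (nat_lit 2070660590) (nat_lit 836) (nat_lit 5110243963) (nat_lit 912) (nat_lit 12786089403) (nat_lit 383) (nat_lit 5) (nat_lit 394) (nat_lit 5) (nat_lit 395) (nat_lit 5) (nat_lit 464) (nat_lit 442) (nat_lit 294)) (XT.nd (nat_lit 78) (nat_lit 836) (nat_lit 0) (XT.lf (nat_lit 0) (nat_lit 10645320182) (nat_lit 912) (nat_lit 1749335782) (nat_lit 76) (nat_lit 7899433455) (nat_lit 383) (nat_lit 5) (nat_lit 395) (nat_lit 5) (nat_lit 384) (nat_lit 5) (nat_lit 465) (nat_lit 442) (nat_lit 293)) (XT.lf (nat_lit 0) (nat_lit 14339299338) (nat_lit 912) (nat_lit 5598624497) (nat_lit 76) (nat_lit 690562792) (nat_lit 372) (nat_lit 5) (nat_lit 384) (nat_lit 5) (nat_lit 373) (nat_lit 5) (nat_lit 466) (nat_lit 442) (nat_lit 292)))) (XT.nd (nat_lit 78) (nat_lit 1672) (nat_lit 0) (XT.lf (nat_lit 0) (nat_lit 11419888892) (nat_lit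 760) (nat_lit 6882719464) (nat_lit 836) (nat_lit 2667138647) (nat_lit 362) (nat_lit 5) (nat_lit 372) (nat_lit 5) (nat_lit 373) (nat_lit 5) (nat_lit 467) (nat_lit 442) (nat_lit 291)) (XT.nd (nat_lit 78) (nat_lit 760) (nat_lit 0) (XT.lf (nat_lit 0) (nat_lit 1171348486) (nat_lit 912) (nat_lit 13573265139) (nat_lit 76) (nat_lit 6574060323) (nat_lit 350) (nat_lit 5) (nat_lit 362) (nat_lit 5) (nat_lit 351) (nat_lit 5) (nat_lit 468) (nat_lit 442) (nat_lit 290)) (XT.lf (nat_lit 0) (nat_lit 3990913454) (nat_lit 760) (nat_lit 1225069481) (nat_lit 836) (nat_lit 16459189948) (nat_lit 340) (nat_lit 5) (nat_lit 350) (nat_lit 5) (nat_lit 351) (nat_lit 5) (nat_lit 469) (nat_lit 442) (nat_lit 289)))))) (XT.nd (nat_lit 468) (nat_lit 3116) (nat_lit 0) (XT.nd (nat_lit 234) (nat_lit 2204) (nat_lit 0) (XT.nd (nat_lit 78) (nat_lit 684) (nat_lit 0) (XT.lf (nat_lit 0) (nat_lit 135355553) (nat_lit 760) (nat_lit 9412685209)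 (nat_lit 836) (nat_lit 12491005646) (nat_lit 330) (nat_lit 5) (nat_lit 340) (nat_lit 5) (nat_lit 341) (nat_lit 5) (nat_lit 470) (nat_lit 442) (nat_lit 288)) (XT.nd (nat_lit 78) (nat_lit 684) (nat_lit 0) (XT.lf (nat_lit 0) (nat_lit 14158179439) (nat_lit 836) (nat_lit 3728377031) (nat_lit 76) (nat_lit 4524318559) (nat_lit 330) (nat_lit 5) (nat_lit 341) (nat_lit 5) (nat_lit 331) (nat_lit 5) (nat_lit 471) (nat_lit 442) (nat_lit 287)) (XT.lf (nat_lit 0) (nat_lit 15117172023) (nat_lit 684) (nat_lit 3941203643) (nat_lit 760) (nat_lit 3732449006) (nat_lit 321) (nat_lit 5) (nat_lit 330) (nat_lit 5) (nat_lit 331) (nat_lit 5) (nat_lit 472) (nat_lit 442) (nat_lit 286)))) (XT.nd (nat_lit 78) (nat_lit 1368) (nat_lit 0) (XT.lf (nat_lit 0) (nat_lit 1070768289) (nat_lit 836) (nat_lit 11716356702) (nat_lit 76) (nat_lit 10391739603) (nat_lit 310) (nat_lit 5) (nat_lit 321) (nat_lit 5) (nat_lit 311) (nat_lit 5) (nat_lit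 473) (nat_lit 442) (nat_lit 285)) (XT.nd (nat_lit 78) (nat_lit 684) (nat_lit 0) (XT.lf (nat_lit 0) (nat_lit 6098336376) (nat_lit 760) (nat_lit 15846546688) (nat_lit 76) (nat_lit 1630551089) (nat_lit 301) (nat_lit 5) (nat_lit 311) (nat_lit 5) (nat_lit 302) (nat_lit 5) (nat_lit 474) (nat_lit 442) (nat_lit 284)) (XT.lf (nat_lit 0) (nat_lit 3890227838) (nat_lit 684) (nat_lit 7568377248) (nat_lit 760) (nat_lit 12521659348) (nat_lit 292) (nat_lit 5) (nat_lit 301) (nat_lit 5) (nat_lit 302) (nat_lit 5) (nat_lit 475) (nat_lit 442) (nat_lit 283))))) (XT.nd (nat_lit 234) (nat_lit 1748) (nat_lit 0) (XT.nd (nat_lit 78) (nat_lit 1368) (nat_lit 0) (XT.lf (nat_lit 0) (nat_lit 17126141451) (nat_lit 760) (nat_lit 17092836) (nat_lit 76) (nat_lit 7251077219) (nat_lit 292) (nat_lit 5) (nat_lit 302) (nat_lit 5) (nat_lit 293) (nat_lit 5) (nat_lit 476) (nat_lit 442) (nat_lit 282)) (XT.nd (nat_lit 78) (nat_lit 760) (nat_lit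 0) (XT.lf (nat_lit 0) (nat_lit 20871152935) (nat_lit 608) (nat_lit 2270289076) (nat_lit 684) (nat_lit 1675784261) (nat_lit 284) (nat_lit 5) (nat_lit 292) (nat_lit 5) (nat_lit 293) (nat_lit 5) (nat_lit 477) (nat_lit 442) (nat_lit 281)) (XT.lf (nat_lit 0) (nat_lit 4220775267) (nat_lit 760) (nat_lit 8011650462) (nat_lit 76) (nat_lit 13016073987) (nat_lit 274) (nat_lit 5) (nat_lit 284) (nat_lit 5) (nat_lit 275) (nat_lit 5) (nat_lit 478) (nat_lit 442) (nat_lit 280)))) (XT.nd (nat_lit 78) (nat_lit 1140) (nat_lit 0) (XT.lf (nat_lit 0) (nat_lit 10414177991) (nat_lit 684) (nat_lit 12152183829) (nat_lit 76) (nat_lit 3123274692) (nat_lit 266) (nat_lit 5) (nat_lit 275) (nat_lit 5) (nat_lit 267) (nat_lit 5) (nat_lit 479) (nat_lit 442) (nat_lit 279)) (XT.nd (nat_lit 78) (nat_lit 532) (nat_lit 0) (XT.lf (nat_lit 0) (nat_lit 9735363160) (nat_lit 608) (nat_lit 7249747457) (nat_lit 684) (nat_lit 9155063177) (nat_lit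 258) (nat_lit 5) (nat_lit 266) (nat_lit 5) (nat_lit 267) (nat_lit 5) (nat_lit 480) (nat_lit 442) (nat_lit 278)) (XT.lf (nat_lit 0) (nat_lit 5854263963) (nat_lit 532) (nat_lit 18067389626) (nat_lit 608) (nat_lit 2679204868) (nat_lit 251) (nat_lit 5) (nat_lit 258) (nat_lit 5) (nat_lit 259) (nat_lit 5) (nat_lit 481) (nat_lit 442) (nat_lit 277))))))))
noncomputable def xc107 : XT := (XT.nd (nat_lit 60450) (nat_lit 0) (nat_lit 6156) (XT.nd (nat_lit 59514) (nat_lit 0) (nat_lit 19608) (XT.nd (nat_lit 390) (nat_lit 2052) (nat_lit 0) (XT.nd (nat_lit 156) (nat_lit 1672) (nat_lit 0) (XT.nd (nat_lit 78) (nat_lit 0) (nat_lit 0) (XT.lf (nat_lit 0) (nat_lit 1872093782) (nat_lit 608) (nat_lit 2231364534) (nat_lit 684) (nat_lit 22968090554) (nat_lit 242) (nat_lit 5) (nat_lit 250) (nat_lit 5) (nat_lit 251) (nat_lit 5) (nat_lit 482) (nat_lit 442) (nat_lit 276)) (XT.lf (nat_lit 0) (nat_lit 11278820084) (nat_lit 684) (nat_lit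 2220313864) (nat_lit 76) (nat_lit 14052360327) (nat_lit 242) (nat_lit 5) (nat_lit 251) (nat_lit 5) (nat_lit 243) (nat_lit 5) (nat_lit 483) (nat_lit 442) (nat_lit 275))) (XT.nd (nat_lit 78) (nat_lit 1140) (nat_lit 0) (XT.lf (nat_lit 0) (nat_lit 18836775721) (nat_lit 608) (nat_lit 6353186120) (nat_lit 76) (nat_lit 2852530355) (nat_lit 235) (nat_lit 5) (nat_lit 243) (nat_lit 5) (nat_lit 236) (nat_lit 5) (nat_lit 484) (nat_lit 442) (nat_lit 274)) (XT.nd (nat_lit 78) (nat_lit 608) (nat_lit 0) (XT.lf (nat_lit 0) (nat_lit 17934004768) (nat_lit 532) (nat_lit 8902160387) (nat_lit 608) (nat_lit 1707761789) (nat_lit 228) (nat_lit 5) (nat_lit 235) (nat_lit 5) (nat_lit 236) (nat_lit 5) (nat_lit 485) (nat_lit 442) (nat_lit 273)) (XT.lf (nat_lit 0) (nat_lit 6116411171) (nat_lit 608) (nat_lit 14995791209) (nat_lit 76) (nat_lit 7943818642) (nat_lit 220) (nat_lit 5) (nat_lit 228) (nat_lit 5) (nat_lit 221) (nat_lit 5)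 (nat_lit 486) (nat_lit 442) (nat_lit 272))))) (XT.nd (nat_lit 234) (nat_lit 456) (nat_lit 0) (XT.nd (nat_lit 78) (nat_lit 1064) (nat_lit 0) (XT.lf (nat_lit 0) (nat_lit 10085088511) (nat_lit 532) (nat_lit 4257601676) (nat_lit 608) (nat_lit 15236751046) (nat_lit 213) (nat_lit 5) (nat_lit 220) (nat_lit 5) (nat_lit 221) (nat_lit 5) (nat_lit 487) (nat_lit 442) (nat_lit 271)) (XT.nd (nat_lit 78) (nat_lit 608) (nat_lit 0) (XT.lf (nat_lit 0) (nat_lit 5990556906) (nat_lit 456) (nat_lit 17044647455) (nat_lit 532) (nat_lit 7078971465) (nat_lit 207) (nat_lit 5) (nat_lit 213) (nat_lit 5) (nat_lit 214) (nat_lit 5) (nat_lit 488) (nat_lit 442) (nat_lit 270)) (XT.lf (nat_lit 0) (nat_lit 1475001911) (nat_lit 608) (nat_lit 28842554467) (nat_lit 76) (nat_lit 343848510) (nat_lit 199) (nat_lit 5) (nat_lit 207) (nat_lit 5) (nat_lit 200) (nat_lit 5) (nat_lit 489) (nat_lit 442) (nat_lit 269)))) (XT.nd (nat_lit 78) (nat_lit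 456) (nat_lit 0) (XT.lf (nat_lit 0) (nat_lit 10461908647) (nat_lit 608) (nat_lit 2523683059) (nat_lit 76) (nat_lit 18233074141) (nat_lit 199) (nat_lit 5) (nat_lit 207) (nat_lit 5) (nat_lit 200) (nat_lit 5) (nat_lit 490) (nat_lit 442) (nat_lit 268)) (XT.nd (nat_lit 58734) (nat_lit 0) (nat_lit 20824) (XT.lf (nat_lit 0) (nat_lit 19906350754) (nat_lit 532) (nat_lit 6919860589) (nat_lit 76) (nat_lit 4962675366) (nat_lit 193) (nat_lit 5) (nat_lit 200) (nat_lit 5) (nat_lit 194) (nat_lit 5) (nat_lit 491) (nat_lit 442) (nat_lit 267)) (XT.lf (nat_lit 0) (nat_lit 1005992874) (nat_lit 0) (nat_lit 1005992874) (nat_lit 1748) (nat_lit 5338537489) (nat_lit 467) (nat_lit 5) (nat_lit 467) (nat_lit 3) (nat_lit 490) (nat_lit 3) (nat_lit 443) (nat_lit 443) (nat_lit 314)))))) (XT.nd (nat_lit 468) (nat_lit 1216) (nat_lit 0) (XT.nd (nat_lit 234) (nat_lit 0) (nat_lit 152) (XT.nd (nat_lit 78) (nat_lit 0) (nat_lit 76) (XT.lf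 (nat_lit 0) (nat_lit 4601364963) (nat_lit 1748) (nat_lit 1936452580) (nat_lit 1824) (nat_lit 8373331589) (nat_lit 467) (nat_lit 5) (nat_lit 490) (nat_lit 3) (nat_lit 491) (nat_lit 5) (nat_lit 444) (nat_lit 443) (nat_lit 313)) (XT.nd (nat_lit 78) (nat_lit 0) (nat_lit 0) (XT.lf (nat_lit 0) (nat_lit 5277414162) (nat_lit 1748) (nat_lit 5915337351) (nat_lit 1824) (nat_lit 3933179501) (nat_lit 468) (nat_lit 5) (nat_lit 491) (nat_lit 5) (nat_lit 492) (nat_lit 5) (nat_lit 445) (nat_lit 443) (nat_lit 312)) (XT.lf (nat_lit 76) (nat_lit 5388841962) (nat_lit 0) (nat_lit 659367587) (nat_lit 1824) (nat_lit 9297460251) (nat_lit 469) (nat_lit 5) (nat_lit 468) (nat_lit 5) (nat_lit 492) (nat_lit 5) (nat_lit 446) (nat_lit 443) (nat_lit 311)))) (XT.nd (nat_lit 78) (nat_lit 0) (nat_lit 76) (XT.lf (nat_lit 76) (nat_lit 1485045008) (nat_lit 0) (nat_lit 5456277265) (nat_lit 1824) (nat_lit 8628697269) (nat_lit 470) (nat_lit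 5) (nat_lit 469) (nat_lit 5) (nat_lit 493) (nat_lit 5) (nat_lit 447) (nat_lit 443) (nat_lit 310)) (XT.nd (nat_lit 78) (nat_lit 0) (nat_lit 76) (XT.lf (nat_lit 0) (nat_lit 7952103349) (nat_lit 1748) (nat_lit 2443313545) (nat_lit 1824) (nat_lit 5403867968) (nat_lit 470) (nat_lit 5) (nat_lit 493) (nat_lit 5) (nat_lit 494) (nat_lit 5) (nat_lit 448) (nat_lit 443) (nat_lit 309)) (XT.lf (nat_lit 0) (nat_lit 9079780485) (nat_lit 1748) (nat_lit 6409819074) (nat_lit 1824) (nat_lit 544099639) (nat_lit 471) (nat_lit 5) (nat_lit 494) (nat_lit 5) (nat_lit 495) (nat_lit 5) (nat_lit 449) (nat_lit 443) (nat_lit 308))))) (XT.nd (nat_lit 234) (nat_lit 1520) (nat_lit 0) (XT.nd (nat_lit 78) (nat_lit 0) (nat_lit 76) (XT.lf (nat_lit 76) (nat_lit 5808229438) (nat_lit 0) (nat_lit 4541392272) (nat_lit 1824) (nat_lit 5923360014) (nat_lit 472) (nat_lit 5) (nat_lit 471) (nat_lit 5) (nat_lit 495) (nat_lit 5) (nat_lit 450) (nat_lit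 443) (nat_lit 307)) (XT.nd (nat_lit 78) (nat_lit 0) (nat_lit 76) (XT.lf (nat_lit 76) (nat_lit 1933104834) (nat_lit 0) (nat_lit 9809318112) (nat_lit 1824) (nat_lit 4775324851) (nat_lit 473) (nat_lit 5) (nat_lit 472) (nat_lit 5) (nat_lit 496) (nat_lit 5) (nat_lit 451) (nat_lit 443) (nat_lit 306)) (XT.lf (nat_lit 0) (nat_lit 13273339871) (nat_lit 1748) (nat_lit 1972826448) (nat_lit 1824) (nat_lit 1521766194) (nat_lit 473) (nat_lit 5) (nat_lit 496) (nat_lit 5) (nat_lit 497) (nat_lit 5) (nat_lit 452) (nat_lit 443) (nat_lit 305)))) (XT.nd (nat_lit 78) (nat_lit 1672) (nat_lit 0) (XT.lf (nat_lit 76) (nat_lit 11087079408) (nat_lit 0) (nat_lit 3886385598) (nat_lit 1824) (nat_lit 2049694381) (nat_lit 474) (nat_lit 5) (nat_lit 473) (nat_lit 5) (nat_lit 497) (nat_lit 5) (nat_lit 453) (nat_lit 443) (nat_lit 304)) (XT.nd (nat_lit 78) (nat_lit 1748) (nat_lit 0) (XT.lf (nat_lit 76) (nat_lit 7314905075) (nat_lit 0)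 (nat_lit 9507449205) (nat_lit 1824) (nat_lit 461735744) (nat_lit 475) (nat_lit 5) (nat_lit 474) (nat_lit 5) (nat_lit 498) (nat_lit 5) (nat_lit 454) (nat_lit 443) (nat_lit 303)) (XT.lf (nat_lit 0) (nat_lit 1248634400) (nat_lit 1824) (nat_lit 14071520523) (nat_lit 1900) (nat_lit 2230739925) (nat_lit 451) (nat_lit 5) (nat_lit 475) (nat_lit 5) (nat_lit 476) (nat_lit 5) (nat_lit 455) (nat_lit 443) (nat_lit 302))))))) (XT.nd (nat_lit 936) (nat_lit 7448) (nat_lit 0) (XT.nd (nat_lit 468) (nat_lit 4560) (nat_lit 0) (XT.nd (nat_lit 234) (nat_lit 1444) (nat_lit 0) (XT.nd (nat_lit 78) (nat_lit 0) (nat_lit 76) (XT.lf (nat_lit 0) (nat_lit 3122338200) (nat_lit 1824) (nat_lit 433979264) (nat_lit 1900) (nat_lit 14266961396) (nat_lit 451) (nat_lit 5) (nat_lit 475) (nat_lit 5) (nat_lit 476) (nat_lit 5) (nat_lit 456) (nat_lit 443) (nat_lit 301)) (XT.nd (nat_lit 78) (nat_lit 0) (nat_lit 76) (XT.lf (nat_lit 0) (nat_lit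 5185001187) (nat_lit 1824) (nat_lit 4375095714) (nat_lit 1900) (nat_lit 8541084473) (nat_lit 452) (nat_lit 5) (nat_lit 476) (nat_lit 5) (nat_lit 477) (nat_lit 5) (nat_lit 457) (nat_lit 443) (nat_lit 300)) (XT.lf (nat_lit 0) (nat_lit 7405914759) (nat_lit 1824) (nat_lit 8375900094) (nat_lit 1900) (nat_lit 2603680581) (nat_lit 453) (nat_lit 5) (nat_lit 477) (nat_lit 5) (nat_lit 478) (nat_lit 5) (nat_lit 458) (nat_lit 443) (nat_lit 299)))) (XT.nd (nat_lit 78) (nat_lit 1596) (nat_lit 0) (XT.lf (nat_lit 76) (nat_lit 6215085340) (nat_lit 0) (nat_lit 3600211834) (nat_lit 1900) (nat_lit 8860606743) (nat_lit 454) (nat_lit 5) (nat_lit 453) (nat_lit 5) (nat_lit 478) (nat_lit 5) (nat_lit 459) (nat_lit 443) (nat_lit 298)) (XT.nd (nat_lit 78) (nat_lit 0) (nat_lit 0) (XT.lf (nat_lit 0) (nat_lit 2346518541) (nat_lit 1672) (nat_lit 10068917730) (nat_lit 1748) (nat_lit 6557220657) (nat_lit 432) (nat_lit 5) (nat_lit 454)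 (nat_lit 5) (nat_lit 455) (nat_lit 5) (nat_lit 460) (nat_lit 443) (nat_lit 297)) (XT.lf (nat_lit 0) (nat_lit 15206752478) (nat_lit 1748) (nat_lit 1558837346) (nat_lit 76) (nat_lit 2510460973) (nat_lit 432) (nat_lit 5) (nat_lit 455) (nat_lit 5) (nat_lit 433) (nat_lit 5) (nat_lit 461) (nat_lit 443) (nat_lit 296))))) (XT.nd (nat_lit 234) (nat_lit 1672) (nat_lit 0) (XT.nd (nat_lit 78) (nat_lit 1900) (nat_lit 0) (XT.lf (nat_lit 0) (nat_lit 14067518421) (nat_lit 988) (nat_lit 4161611520) (nat_lit 1064) (nat_lit 1356471779) (nat_lit 419) (nat_lit 5) (nat_lit 432) (nat_lit 5) (nat_lit 433) (nat_lit 5) (nat_lit 462) (nat_lit 443) (nat_lit 295)) (XT.nd (nat_lit 78) (nat_lit 912) (nat_lit 0) (XT.lf (nat_lit 0) (nat_lit 1543714335) (nat_lit 988) (nat_lit 9564158385) (nat_lit 76) (nat_lit 8793884731) (nat_lit 406) (nat_lit 5) (nat_lit 419) (nat_lit 5) (nat_lit 407) (nat_lit 5) (nat_lit 463) (nat_lit 443) (nat_lit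 294)) (XT.lf (nat_lit 0) (nat_lit 4622369508) (nat_lit 988) (nat_lit 13681414488) (nat_lit 76) (nat_lit 1921238228) (nat_lit 394) (nat_lit 5) (nat_lit 407) (nat_lit 5) (nat_lit 395) (nat_lit 5) (nat_lit 464) (nat_lit 443) (nat_lit 293)))) (XT.nd (nat_lit 78) (nat_lit 836) (nat_lit 0) (XT.lf (nat_lit 0) (nat_lit 2658763967) (nat_lit 836) (nat_lit 5280769636) (nat_lit 912) (nat_lit 12615529855) (nat_lit 383) (nat_lit 5) (nat_lit 394) (nat_lit 5) (nat_lit 395) (nat_lit 5) (nat_lit 465) (nat_lit 443) (nat_lit 292)) (XT.nd (nat_lit 78) (nat_lit 836) (nat_lit 0) (XT.lf (nat_lit 0) (nat_lit 11491951749) (nat_lit 912) (nat_lit 1280422001) (nat_lit 76) (nat_lit 8119918855) (nat_lit 383) (nat_lit 5) (nat_lit 395) (nat_lit 5) (nat_lit 384) (nat_lit 5) (nat_lit 466) (nat_lit 443) (nat_lit 291)) (XT.lf (nat_lit 0) (nat_lit 15284708160) (nat_lit 912) (nat_lit 5243256579) (nat_lit 76) (nat_lit 708999991) (nat_lit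 372) (nat_lit 5) (nat_lit 384) (nat_lit 5) (nat_lit 373) (nat_lit 5) (nat_lit 467) (nat_lit 443) (nat_lit 290)))))) (XT.nd (nat_lit 468) (nat_lit 3572) (nat_lit 0) (XT.nd (nat_lit 234) (nat_lit 1444) (nat_lit 0) (XT.nd (nat_lit 78) (nat_lit 1672) (nat_lit 0) (XT.lf (nat_lit 0) (nat_lit 12277321859) (nat_lit 760) (nat_lit 7077930553) (nat_lit 836) (nat_lit 2233445879) (nat_lit 362) (nat_lit 5) (nat_lit 372) (nat_lit 5) (nat_lit 373) (nat_lit 5) (nat_lit 468) (nat_lit 443) (nat_lit 289)) (XT.nd (nat_lit 78) (nat_lit 760) (nat_lit 0) (XT.lf (nat_lit 0) (nat_lit 1702138859) (nat_lit 912) (nat_lit 13457421425) (nat_lit 76) (nat_lit 6788694441) (nat_lit 350) (nat_lit 5) (nat_lit 362) (nat_lit 5) (nat_lit 351) (nat_lit 5) (nat_lit 469) (nat_lit 443) (nat_lit 288)) (XT.lf (nat_lit 0) (nat_lit 4625196797) (nat_lit 760) (nat_lit 1231819978) (nat_lit 836) (nat_lit 16458655700) (nat_lit 340) (nat_lit 5) (nat_lit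 350) (nat_lit 5) (nat_lit 351) (nat_lit 5) (nat_lit 470) (nat_lit 443) (nat_lit 287)))) (XT.nd (nat_lit 78) (nat_lit 684) (nat_lit 0) (XT.lf (nat_lit 0) (nat_lit 655029793) (nat_lit 760) (nat_lit 9653430133) (nat_lit 836) (nat_lit 12382215687) (nat_lit 330) (nat_lit 5) (nat_lit 340) (nat_lit 5) (nat_lit 341) (nat_lit 5) (nat_lit 471) (nat_lit 443) (nat_lit 286)) (XT.nd (nat_lit 78) (nat_lit 684) (nat_lit 0) (XT.lf (nat_lit 0) (nat_lit 15043360032) (nat_lit 836) (nat_lit 3330630832) (nat_lit 76) (nat_lit 4699940906) (nat_lit 330) (nat_lit 5) (nat_lit 341) (nat_lit 5) (nat_lit 331) (nat_lit 5) (nat_lit 472) (nat_lit 443) (nat_lit 285)) (XT.lf (nat_lit 0) (nat_lit 16072017080) (nat_lit 684) (nat_lit 4008389298) (nat_lit 760) (nat_lit 3385078411) (nat_lit 321) (nat_lit 5) (nat_lit 330) (nat_lit 5) (nat_lit 331) (nat_lit 5) (nat_lit 473) (nat_lit 443) (nat_lit 284))))) (XT.nd (nat_lit 234) (nat_lit 1368)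 (nat_lit 0) (XT.nd (nat_lit 78) (nat_lit 1368) (nat_lit 0) (XT.lf (nat_lit 0) (nat_lit 1546610983) (nat_lit 836) (nat_lit 11560106514) (nat_lit 76) (nat_lit 10758582452) (nat_lit 310) (nat_lit 5) (nat_lit 321) (nat_lit 5) (nat_lit 311) (nat_lit 5) (nat_lit 474) (nat_lit 443) (nat_lit 283)) (XT.nd (nat_lit 78) (nat_lit 684) (nat_lit 0) (XT.lf (nat_lit 0) (nat_lit 6715750386) (nat_lit 760) (nat_lit 15814129399) (nat_lit 76) (nat_lit 1744073561) (nat_lit 301) (nat_lit 5) (nat_lit 311) (nat_lit 5) (nat_lit 302) (nat_lit 5) (nat_lit 475) (nat_lit 443) (nat_lit 282)) (XT.lf (nat_lit 0) (nat_lit 4506509690) (nat_lit 684) (nat_lit 7720906751) (nat_lit 760) (nat_lit 12463701897) (nat_lit 292) (nat_lit 5) (nat_lit 301) (nat_lit 5) (nat_lit 302) (nat_lit 5) (nat_lit 476) (nat_lit 443) (nat_lit 281)))) (XT.nd (nat_lit 78) (nat_lit 760) (nat_lit 0) (XT.lf (nat_lit 0) (nat_lit 481569669) (nat_lit 608) (nat_lit 17574625458)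 (nat_lit 684) (nat_lit 7061568912) (nat_lit 284) (nat_lit 5) (nat_lit 292) (nat_lit 5) (nat_lit 293) (nat_lit 5) (nat_lit 477) (nat_lit 443) (nat_lit 280)) (XT.nd (nat_lit 78) (nat_lit 760) (nat_lit 0) (XT.lf (nat_lit 0) (nat_lit 21982150882) (nat_lit 608) (nat_lit 2257791923) (nat_lit 684) (nat_lit 1313665179) (nat_lit 284) (nat_lit 5) (nat_lit 292) (nat_lit 5) (nat_lit 293) (nat_lit 5) (nat_lit 478) (nat_lit 443) (nat_lit 279)) (XT.lf (nat_lit 0) (nat_lit 4746206528) (nat_lit 760) (nat_lit 7762167241) (nat_lit 76) (nat_lit 13489557257) (nat_lit 274) (nat_lit 5) (nat_lit 284) (nat_lit 5) (nat_lit 275) (nat_lit 5) (nat_lit 479) (nat_lit 443) (nat_lit 278))))))))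
noncomputable def xc108 : XT := (XT.nd (nat_lit 60528) (nat_lit 0) (nat_lit 7068) (XT.nd (nat_lit 858) (nat_lit 0) (nat_lit 0) (XT.nd (nat_lit 390) (nat_lit 3268) (nat_lit 0) (XT.nd (nat_lit 156) (nat_lit 1216) (nat_lit 0) (XT.nd (nat_lit 78) (nat_lit 608) (nat_lit 0) (XT.lf (nat_lit 0) (nat_lit 11117518789) (nat_lit 684) (nat_lit 12027605508) (nat_lit 76) (nat_lit 3307336866) (nat_lit 266) (nat_lit 5) (nat_lit 275) (nat_lit 5) (nat_lit 267) (nat_lit 5) (nat_lit 480) (nat_lit 443) (nat_lit 277)) (XT.lf (nat_lit 0) (nat_lit 10508632114) (nat_lit 608) (nat_lit 7368685715) (nat_lit 684) (nat_lit 9039363309) (nat_lit 258) (nat_lit 5) (nat_lit 266) (nat_lit 5) (nat_lit 267) (nat_lit 5) (nat_lit 481) (nat_lit 443) (nat_lit 276))) (XT.nd (nat_lit 78) (nat_lit 684) (nat_lit 0) (XT.lf (nat_lit 0) (nat_lit 6510236395) (nat_lit 532) (nat_lit 18504315392) (nat_lit 608) (nat_lit 2376783963) (nat_lit 251) (nat_lit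 5) (nat_lit 258) (nat_lit 5) (nat_lit 259) (nat_lit 5) (nat_lit 482) (nat_lit 443) (nat_lit 275)) (XT.nd (nat_lit 78) (nat_lit 0) (nat_lit 0) (XT.lf (nat_lit 0) (nat_lit 2405789035) (nat_lit 608) (nat_lit 2190646884) (nat_lit 684) (nat_lit 23279820546) (nat_lit 242) (nat_lit 5) (nat_lit 250) (nat_lit 5) (nat_lit 251) (nat_lit 5) (nat_lit 483) (nat_lit 443) (nat_lit 274)) (XT.lf (nat_lit 0) (nat_lit 11976964147) (nat_lit 684) (nat_lit 1816755979) (nat_lit 76) (nat_lit 14577083199) (nat_lit 242) (nat_lit 5) (nat_lit 251) (nat_lit 5) (nat_lit 243) (nat_lit 5) (nat_lit 484) (nat_lit 443) (nat_lit 273))))) (XT.nd (nat_lit 234) (nat_lit 1596) (nat_lit 0) (XT.nd (nat_lit 78) (nat_lit 1140) (nat_lit 0) (XT.lf (nat_lit 0) (nat_lit 19754898277) (nat_lit 608) (nat_lit 6074872945) (nat_lit 76) (nat_lit 3046896337) (nat_lit 235) (nat_lit 5) (nat_lit 243) (nat_lit 5) (nat_lit 236) (nat_lit 5) (nat_lit 485) (nat_lit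 443) (nat_lit 272)) (XT.nd (nat_lit 78) (nat_lit 608) (nat_lit 0) (XT.lf (nat_lit 0) (nat_lit 18933326183) (nat_lit 532) (nat_lit 9053656171) (nat_lit 608) (nat_lit 1406309874) (nat_lit 228) (nat_lit 5) (nat_lit 235) (nat_lit 5) (nat_lit 236) (nat_lit 5) (nat_lit 486) (nat_lit 443) (nat_lit 271)) (XT.lf (nat_lit 0) (nat_lit 6641564296) (nat_lit 608) (nat_lit 14981169638) (nat_lit 76) (nat_lit 8298098446) (nat_lit 220) (nat_lit 5) (nat_lit 228) (nat_lit 5) (nat_lit 221) (nat_lit 5) (nat_lit 487) (nat_lit 443) (nat_lit 270)))) (XT.nd (nat_lit 78) (nat_lit 1064) (nat_lit 0) (XT.lf (nat_lit 0) (nat_lit 10844600589) (nat_lit 532) (nat_lit 4263046693) (nat_lit 608) (nat_lit 15352448655) (nat_lit 213) (nat_lit 5) (nat_lit 220) (nat_lit 5) (nat_lit 221) (nat_lit 5) (nat_lit 488) (nat_lit 443) (nat_lit 269)) (XT.nd (nat_lit 78) (nat_lit 608) (nat_lit 0) (XT.lf (nat_lit 0) (nat_lit 6625657721) (nat_lit 456)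 (nat_lit 17429258777) (nat_lit 532) (nat_lit 6956077496) (nat_lit 207) (nat_lit 5) (nat_lit 213) (nat_lit 5) (nat_lit 214) (nat_lit 5) (nat_lit 489) (nat_lit 443) (nat_lit 268)) (XT.lf (nat_lit 0) (nat_lit 1844250439) (nat_lit 608) (nat_lit 29249793190) (nat_lit 76) (nat_lit 480671087) (nat_lit 199) (nat_lit 5) (nat_lit 207) (nat_lit 5) (nat_lit 200) (nat_lit 5) (nat_lit 490) (nat_lit 443) (nat_lit 267)))))) (XT.nd (nat_lit 59202) (nat_lit 0) (nat_lit 20596) (XT.nd (nat_lit 58968) (nat_lit 0) (nat_lit 20444) (XT.nd (nat_lit 58812) (nat_lit 0) (nat_lit 20368) (XT.lf (nat_lit 0) (nat_lit 11091298402) (nat_lit 608) (nat_lit 2154696550) (nat_lit 76) (nat_lit 18902888813) (nat_lit 199) (nat_lit 5) (nat_lit 207) (nat_lit 5) (nat_lit 200) (nat_lit 5) (nat_lit 491) (nat_lit 443) (nat_lit 266)) (XT.nd (nat_lit 78) (nat_lit 0) (nat_lit 0) (XT.lf (nat_lit 0) (nat_lit 1264925498) (nat_lit 0) (nat_lit 1264925498)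 (nat_lit 1748) (nat_lit 5031966157) (nat_lit 467) (nat_lit 5) (nat_lit 467) (nat_lit 3) (nat_lit 490) (nat_lit 3) (nat_lit 444) (nat_lit 444) (nat_lit 312)) (XT.lf (nat_lit 0) (nat_lit 5624882537) (nat_lit 1748) (nat_lit 1529575606) (nat_lit 1824) (nat_lit 8186176772) (nat_lit 467) (nat_lit 5) (nat_lit 490) (nat_lit 3) (nat_lit 491) (nat_lit 5) (nat_lit 445) (nat_lit 444) (nat_lit 311)))) (XT.nd (nat_lit 78) (nat_lit 0) (nat_lit 0) (XT.lf (nat_lit 0) (nat_lit 6295761534) (nat_lit 1748) (nat_lit 5615351274) (nat_lit 1824) (nat_lit 3651260531) (nat_lit 468) (nat_lit 5) (nat_lit 491) (nat_lit 5) (nat_lit 492) (nat_lit 5) (nat_lit 446) (nat_lit 444) (nat_lit 310)) (XT.nd (nat_lit 78) (nat_lit 0) (nat_lit 76) (XT.lf (nat_lit 76) (nat_lit 6020207420) (nat_lit 0) (nat_lit 1047473697) (nat_lit 1824) (nat_lit 8721467100) (nat_lit 469) (nat_lit 5) (nat_lit 468) (nat_lit 5) (nat_lit 492) (nat_lit 5) (nat_lit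 447) (nat_lit 444) (nat_lit 309)) (XT.lf (nat_lit 76) (nat_lit 2010646472) (nat_lit 0) (nat_lit 5953333787) (nat_lit 1824) (nat_lit 8056724153) (nat_lit 470) (nat_lit 5) (nat_lit 469) (nat_lit 5) (nat_lit 493) (nat_lit 5) (nat_lit 448) (nat_lit 444) (nat_lit 308))))) (XT.nd (nat_lit 234) (nat_lit 0) (nat_lit 152) (XT.nd (nat_lit 78) (nat_lit 0) (nat_lit 76) (XT.lf (nat_lit 0) (nat_lit 8979262440) (nat_lit 1748) (nat_lit 2031535012) (nat_lit 1824) (nat_lit 5246570396) (nat_lit 470) (nat_lit 5) (nat_lit 493) (nat_lit 5) (nat_lit 494) (nat_lit 5) (nat_lit 449) (nat_lit 444) (nat_lit 307)) (XT.nd (nat_lit 78) (nat_lit 0) (nat_lit 0) (XT.lf (nat_lit 0) (nat_lit 10119006702) (nat_lit 1748) (nat_lit 6107518245) (nat_lit 1824) (nat_lit 272728531) (nat_lit 471) (nat_lit 5) (nat_lit 494) (nat_lit 5) (nat_lit 495) (nat_lit 5) (nat_lit 450) (nat_lit 444) (nat_lit 306)) (XT.lf (nat_lit 76) (nat_lit 6469047499)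 (nat_lit 0) (nat_lit 4938719871) (nat_lit 1824) (nat_lit 5338334122) (nat_lit 472) (nat_lit 5) (nat_lit 471) (nat_lit 5) (nat_lit 495) (nat_lit 5) (nat_lit 451) (nat_lit 444) (nat_lit 305)))) (XT.nd (nat_lit 78) (nat_lit 0) (nat_lit 76) (XT.lf (nat_lit 76) (nat_lit 2486267954) (nat_lit 0) (nat_lit 10335877474) (nat_lit 1824) (nat_lit 4176472657) (nat_lit 473) (nat_lit 5) (nat_lit 472) (nat_lit 5) (nat_lit 496) (nat_lit 5) (nat_lit 452) (nat_lit 444) (nat_lit 304)) (XT.nd (nat_lit 78) (nat_lit 0) (nat_lit 0) (XT.lf (nat_lit 0) (nat_lit 14376337814) (nat_lit 1748) (nat_lit 1535564412) (nat_lit 1824) (nat_lit 1344862454) (nat_lit 473) (nat_lit 5) (nat_lit 496) (nat_lit 5) (nat_lit 497) (nat_lit 5) (nat_lit 453) (nat_lit 444) (nat_lit 303)) (XT.lf (nat_lit 76) (nat_lit 11908084360) (nat_lit 0) (nat_lit 4202025223) (nat_lit 1824) (nat_lit 1409889121) (nat_lit 474) (nat_lit 5) (nat_lit 473) (nat_lit 5) (nat_lit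 497) (nat_lit 5) (nat_lit 454) (nat_lit 444) (nat_lit 302))))))) (XT.nd (nat_lit 858) (nat_lit 7752) (nat_lit 0) (XT.nd (nat_lit 390) (nat_lit 4256) (nat_lit 0) (XT.nd (nat_lit 156) (nat_lit 0) (nat_lit 76) (XT.nd (nat_lit 78) (nat_lit 0) (nat_lit 76) (XT.lf (nat_lit 0) (nat_lit 204564420) (nat_lit 1824) (nat_lit 9760744134) (nat_lit 1900) (nat_lit 7823786115) (nat_lit 450) (nat_lit 5) (nat_lit 474) (nat_lit 5) (nat_lit 475) (nat_lit 5) (nat_lit 455) (nat_lit 444) (nat_lit 301)) (XT.lf (nat_lit 0) (nat_lit 1942554584) (nat_lit 1824) (nat_lit 13983125606) (nat_lit 1900) (nat_lit 2138513720) (nat_lit 451) (nat_lit 5) (nat_lit 475) (nat_lit 5) (nat_lit 476) (nat_lit 5) (nat_lit 456) (nat_lit 444) (nat_lit 300))) (XT.nd (nat_lit 78) (nat_lit 0) (nat_lit 76) (XT.lf (nat_lit 76) (nat_lit 49318599) (nat_lit 0) (nat_lit 3804350880) (nat_lit 1900) (nat_lit 14491458835) (nat_lit 452) (nat_lit 5) (nat_lit 451)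 (nat_lit 5) (nat_lit 476) (nat_lit 5) (nat_lit 457) (nat_lit 444) (nat_lit 299)) (XT.nd (nat_lit 78) (nat_lit 0) (nat_lit 76) (XT.lf (nat_lit 0) (nat_lit 5961622767) (nat_lit 1824) (nat_lit 4005315994) (nat_lit 1900) (nat_lit 8664763721) (nat_lit 452) (nat_lit 5) (nat_lit 476) (nat_lit 5) (nat_lit 477) (nat_lit 5) (nat_lit 458) (nat_lit 444) (nat_lit 298)) (XT.lf (nat_lit 0) (nat_lit 8233539064) (nat_lit 1824) (nat_lit 8121323842) (nat_lit 1900) (nat_lit 2569998257) (nat_lit 453) (nat_lit 5) (nat_lit 477) (nat_lit 5) (nat_lit 478) (nat_lit 5) (nat_lit 459) (nat_lit 444) (nat_lit 297))))) (XT.nd (nat_lit 234) (nat_lit 2888) (nat_lit 0) (XT.nd (nat_lit 78) (nat_lit 1596) (nat_lit 0) (XT.lf (nat_lit 76) (nat_lit 6899184287) (nat_lit 0) (nat_lit 3801615340) (nat_lit 1900) (nat_lit 8523472967) (nat_lit 454) (nat_lit 5) (nat_lit 453) (nat_lit 5) (nat_lit 478) (nat_lit 5) (nat_lit 460) (nat_lit 444) (nat_lit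 296)) (XT.nd (nat_lit 78) (nat_lit 0) (nat_lit 0) (XT.lf (nat_lit 0) (nat_lit 2918798560) (nat_lit 1672) (nat_lit 10445599310) (nat_lit 1748) (nat_lit 6165823777) (nat_lit 432) (nat_lit 5) (nat_lit 454) (nat_lit 5) (nat_lit 455) (nat_lit 5) (nat_lit 461) (nat_lit 444) (nat_lit 295)) (XT.lf (nat_lit 0) (nat_lit 16222192010) (nat_lit 1748) (nat_lit 1106588975) (nat_lit 76) (nat_lit 2514284054) (nat_lit 432) (nat_lit 5) (nat_lit 455) (nat_lit 5) (nat_lit 433) (nat_lit 5) (nat_lit 462) (nat_lit 444) (nat_lit 294)))) (XT.nd (nat_lit 78) (nat_lit 1900) (nat_lit 0) (XT.lf (nat_lit 0) (nat_lit 14980461564) (nat_lit 988) (nat_lit 4341678141) (nat_lit 1064) (nat_lit 840027212) (nat_lit 419) (nat_lit 5) (nat_lit 432) (nat_lit 5) (nat_lit 433) (nat_lit 5) (nat_lit 463) (nat_lit 444) (nat_lit 293)) (XT.nd (nat_lit 78) (nat_lit 912) (nat_lit 0) (XT.lf (nat_lit 0) (nat_lit 2126722084) (nat_lit 988) (nat_lit 9349744367)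 (nat_lit 76) (nat_lit 9011533519) (nat_lit 406) (nat_lit 5) (nat_lit 419) (nat_lit 5) (nat_lit 407) (nat_lit 5) (nat_lit 464) (nat_lit 444) (nat_lit 292)) (XT.lf (nat_lit 0) (nat_lit 5285105524) (nat_lit 988) (nat_lit 13587890718) (nat_lit 76) (nat_lit 1948221293) (nat_lit 394) (nat_lit 5) (nat_lit 407) (nat_lit 5) (nat_lit 395) (nat_lit 5) (nat_lit 465) (nat_lit 444) (nat_lit 291)))))) (XT.nd (nat_lit 468) (nat_lit 3648) (nat_lit 0) (XT.nd (nat_lit 234) (nat_lit 2432) (nat_lit 0) (XT.nd (nat_lit 78) (nat_lit 836) (nat_lit 0) (XT.lf (nat_lit 0) (nat_lit 3234316839) (nat_lit 836) (nat_lit 5455422674) (nat_lit 912) (nat_lit 12471663551) (nat_lit 383) (nat_lit 5) (nat_lit 394) (nat_lit 5) (nat_lit 395) (nat_lit 5) (nat_lit 466) (nat_lit 444) (nat_lit 290)) (XT.nd (nat_lit 78) (nat_lit 836) (nat_lit 0) (XT.lf (nat_lit 0) (nat_lit 12333714695) (nat_lit 912) (nat_lit 827370947) (nat_lit 76) (nat_lit 8347965848)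 (nat_lit 383) (nat_lit 5) (nat_lit 395) (nat_lit 5) (nat_lit 384) (nat_lit 5) (nat_lit 467) (nat_lit 444) (nat_lit 289)) (XT.lf (nat_lit 0) (nat_lit 16228902945) (nat_lit 912) (nat_lit 4907268714) (nat_lit 76) (nat_lit 728121169) (nat_lit 372) (nat_lit 5) (nat_lit 384) (nat_lit 5) (nat_lit 373) (nat_lit 5) (nat_lit 468) (nat_lit 444) (nat_lit 288)))) (XT.nd (nat_lit 78) (nat_lit 1672) (nat_lit 0) (XT.lf (nat_lit 0) (nat_lit 13130924104) (nat_lit 760) (nat_lit 7279644948) (nat_lit 836) (nat_lit 1816231207) (nat_lit 362) (nat_lit 5) (nat_lit 372) (nat_lit 5) (nat_lit 373) (nat_lit 5) (nat_lit 469) (nat_lit 444) (nat_lit 287)) (XT.nd (nat_lit 78) (nat_lit 760) (nat_lit 0) (XT.lf (nat_lit 0) (nat_lit 2220400610) (nat_lit 912) (nat_lit 13368127130) (nat_lit 76) (nat_lit 7008768045) (nat_lit 350) (nat_lit 5) (nat_lit 362) (nat_lit 5) (nat_lit 351) (nat_lit 5) (nat_lit 470) (nat_lit 444) (nat_lit 286)) (XT.lf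 (nat_lit 0) (nat_lit 5248971024) (nat_lit 760) (nat_lit 1240495203) (nat_lit 836) (nat_lit 16486480837) (nat_lit 340) (nat_lit 5) (nat_lit 350) (nat_lit 5) (nat_lit 351) (nat_lit 5) (nat_lit 471) (nat_lit 444) (nat_lit 285))))) (XT.nd (nat_lit 234) (nat_lit 2204) (nat_lit 0) (XT.nd (nat_lit 78) (nat_lit 684) (nat_lit 0) (XT.lf (nat_lit 0) (nat_lit 1160695931) (nat_lit 760) (nat_lit 9903787459) (nat_lit 836) (nat_lit 12297918063) (nat_lit 330) (nat_lit 5) (nat_lit 340) (nat_lit 5) (nat_lit 341) (nat_lit 5) (nat_lit 472) (nat_lit 444) (nat_lit 284)) (XT.nd (nat_lit 78) (nat_lit 684) (nat_lit 0) (XT.lf (nat_lit 0) (nat_lit 15928665178) (nat_lit 836) (nat_lit 2950205229) (nat_lit 76) (nat_lit 4878541914) (nat_lit 330) (nat_lit 5) (nat_lit 341) (nat_lit 5) (nat_lit 331) (nat_lit 5) (nat_lit 473) (nat_lit 444) (nat_lit 283)) (XT.lf (nat_lit 0) (nat_lit 17026729101) (nat_lit 684) (nat_lit 4080521028) (nat_lit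 760) (nat_lit 3053654927) (nat_lit 321) (nat_lit 5) (nat_lit 330) (nat_lit 5) (nat_lit 331) (nat_lit 5) (nat_lit 474) (nat_lit 444) (nat_lit 282)))) (XT.nd (nat_lit 78) (nat_lit 1368) (nat_lit 0) (XT.lf (nat_lit 0) (nat_lit 2011257635) (nat_lit 836) (nat_lit 11428315223) (nat_lit 76) (nat_lit 11133268157) (nat_lit 310) (nat_lit 5) (nat_lit 321) (nat_lit 5) (nat_lit 311) (nat_lit 5) (nat_lit 475) (nat_lit 444) (nat_lit 281)) (XT.nd (nat_lit 78) (nat_lit 684) (nat_lit 0) (XT.lf (nat_lit 0) (nat_lit 7326746809) (nat_lit 760) (nat_lit 15809890174) (nat_lit 76) (nat_lit 1857293061) (nat_lit 301) (nat_lit 5) (nat_lit 311) (nat_lit 5) (nat_lit 302) (nat_lit 5) (nat_lit 476) (nat_lit 444) (nat_lit 280)) (XT.lf (nat_lit 0) (nat_lit 5112602347) (nat_lit 684) (nat_lit 7882289996) (nat_lit 760) (nat_lit 12428896551) (nat_lit 292) (nat_lit 5) (nat_lit 301) (nat_lit 5) (nat_lit 302) (nat_lit 5) (nat_lit 477) (nat_lit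 444) (nat_lit 279))))))))
noncomputable def xc109 : XT := (XT.nd (nat_lit 60606) (nat_lit 0) (nat_lit 7752) (XT.nd (nat_lit 858) (nat_lit 1596) (nat_lit 0) (XT.nd (nat_lit 390) (nat_lit 2888) (nat_lit 0) (XT.nd (nat_lit 156) (nat_lit 1976) (nat_lit 0) (XT.nd (nat_lit 78) (nat_lit 0) (nat_lit 0) (XT.lf (nat_lit 0) (nat_lit 966757885) (nat_lit 608) (nat_lit 18023606139) (nat_lit 684) (nat_lit 6873034805) (nat_lit 284) (nat_lit 5) (nat_lit 292) (nat_lit 5) (nat_lit 293) (nat_lit 5) (nat_lit 478) (nat_lit 444) (nat_lit 278)) (XT.lf (nat_lit 0) (nat_lit 23098645628) (nat_lit 608) (nat_lit 2249546959) (nat_lit 684) (nat_lit 964355547) (nat_lit 284) (nat_lit 5) (nat_lit 292) (nat_lit 5) (nat_lit 293) (nat_lit 5) (nat_lit 479) (nat_lit 444) (nat_lit 277))) (XT.nd (nat_lit 78) (nat_lit 1216) (nat_lit 0) (XT.lf (nat_lit 0) (nat_lit 5264507516) (nat_lit 760) (nat_lit 7533317927) (nat_lit 76) (nat_lit 13972480426)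 (nat_lit 274) (nat_lit 5) (nat_lit 284) (nat_lit 5) (nat_lit 275) (nat_lit 5) (nat_lit 480) (nat_lit 444) (nat_lit 276)) (XT.nd (nat_lit 78) (nat_lit 608) (nat_lit 0) (XT.lf (nat_lit 0) (nat_lit 11819519664) (nat_lit 684) (nat_lit 11927368694) (nat_lit 76) (nat_lit 3491733646) (nat_lit 266) (nat_lit 5) (nat_lit 275) (nat_lit 5) (nat_lit 267) (nat_lit 5) (nat_lit 481) (nat_lit 444) (nat_lit 275)) (XT.lf (nat_lit 0) (nat_lit 11277475825) (nat_lit 608) (nat_lit 7496849532) (nat_lit 684) (nat_lit 8942600233) (nat_lit 258) (nat_lit 5) (nat_lit 266) (nat_lit 5) (nat_lit 267) (nat_lit 5) (nat_lit 482) (nat_lit 444) (nat_lit 274))))) (XT.nd (nat_lit 234) (nat_lit 1672) (nat_lit 0) (XT.nd (nat_lit 78) (nat_lit 684) (nat_lit 0) (XT.lf (nat_lit 0) (nat_lit 7158314261) (nat_lit 532) (nat_lit 18960381866) (nat_lit 608) (nat_lit 2087264548) (nat_lit 251) (nat_lit 5) (nat_lit 258) (nat_lit 5) (nat_lit 259) (nat_lit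 5) (nat_lit 483) (nat_lit 444) (nat_lit 273)) (XT.nd (nat_lit 78) (nat_lit 0) (nat_lit 0) (XT.lf (nat_lit 0) (nat_lit 2928082831) (nat_lit 608) (nat_lit 2154887748) (nat_lit 684) (nat_lit 23622561732) (nat_lit 242) (nat_lit 5) (nat_lit 250) (nat_lit 5) (nat_lit 251) (nat_lit 5) (nat_lit 484) (nat_lit 444) (nat_lit 272)) (XT.lf (nat_lit 0) (nat_lit 12675399719) (nat_lit 684) (nat_lit 1428080885) (nat_lit 76) (nat_lit 15111626407) (nat_lit 242) (nat_lit 5) (nat_lit 251) (nat_lit 5) (nat_lit 243) (nat_lit 5) (nat_lit 485) (nat_lit 444) (nat_lit 271)))) (XT.nd (nat_lit 78) (nat_lit 1140) (nat_lit 0) (XT.lf (nat_lit 0) (nat_lit 20680299758) (nat_lit 608) (nat_lit 5815127655) (nat_lit 76) (nat_lit 3240848304) (nat_lit 235) (nat_lit 5) (nat_lit 243) (nat_lit 5) (nat_lit 236) (nat_lit 5) (nat_lit 486) (nat_lit 444) (nat_lit 270)) (XT.nd (nat_lit 78) (nat_lit 608) (nat_lit 0) (XT.lf (nat_lit 0) (nat_lit 19936146659)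 (nat_lit 532) (nat_lit 9216330962) (nat_lit 608) (nat_lit 1116059950) (nat_lit 228) (nat_lit 5) (nat_lit 235) (nat_lit 5) (nat_lit 236) (nat_lit 5) (nat_lit 487) (nat_lit 444) (nat_lit 269)) (XT.lf (nat_lit 0) (nat_lit 7162859288) (nat_lit 608) (nat_lit 14992773351) (nat_lit 76) (nat_lit 8656349764) (nat_lit 220) (nat_lit 5) (nat_lit 228) (nat_lit 5) (nat_lit 221) (nat_lit 5) (nat_lit 488) (nat_lit 444) (nat_lit 268)))))) (XT.nd (nat_lit 59280) (nat_lit 0) (nat_lit 20444) (XT.nd (nat_lit 59046) (nat_lit 0) (nat_lit 20368) (XT.nd (nat_lit 78) (nat_lit 1064) (nat_lit 0) (XT.lf (nat_lit 0) (nat_lit 11600666688) (nat_lit 532) (nat_lit 4275674606) (nat_lit 608) (nat_lit 15491215231) (nat_lit 213) (nat_lit 5) (nat_lit 220) (nat_lit 5) (nat_lit 221) (nat_lit 5) (nat_lit 489) (nat_lit 444) (nat_lit 267)) (XT.nd (nat_lit 78) (nat_lit 608) (nat_lit 0) (XT.lf (nat_lit 0) (nat_lit 7253670651) (nat_lit 456) (nat_lit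 17832683150) (nat_lit 532) (nat_lit 6848742182) (nat_lit 207) (nat_lit 5) (nat_lit 213) (nat_lit 5) (nat_lit 214) (nat_lit 5) (nat_lit 490) (nat_lit 444) (nat_lit 266)) (XT.lf (nat_lit 0) (nat_lit 2205920181) (nat_lit 608) (nat_lit 29695542325) (nat_lit 76) (nat_lit 614336315) (nat_lit 199) (nat_lit 5) (nat_lit 207) (nat_lit 5) (nat_lit 200) (nat_lit 5) (nat_lit 491) (nat_lit 444) (nat_lit 265)))) (XT.nd (nat_lit 78) (nat_lit 0) (nat_lit 0) (XT.lf (nat_lit 0) (nat_lit 1518494753) (nat_lit 0) (nat_lit 1518494753) (nat_lit 1748) (nat_lit 4742989749) (nat_lit 467) (nat_lit 5) (nat_lit 467) (nat_lit 3) (nat_lit 490) (nat_lit 3) (nat_lit 445) (nat_lit 445) (nat_lit 310)) (XT.nd (nat_lit 78) (nat_lit 0) (nat_lit 76) (XT.lf (nat_lit 0) (nat_lit 6628275657) (nat_lit 1748) (nat_lit 1137183534) (nat_lit 1824) (nat_lit 8018570667) (nat_lit 467) (nat_lit 5) (nat_lit 490) (nat_lit 3) (nat_lit 491) (nat_lit 5) (nat_lit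 446) (nat_lit 445) (nat_lit 309)) (XT.lf (nat_lit 0) (nat_lit 7295290378) (nat_lit 1748) (nat_lit 5333772980) (nat_lit 1824) (nat_lit 3383840712) (nat_lit 468) (nat_lit 5) (nat_lit 491) (nat_lit 5) (nat_lit 492) (nat_lit 5) (nat_lit 447) (nat_lit 445) (nat_lit 308))))) (XT.nd (nat_lit 234) (nat_lit 0) (nat_lit 228) (XT.nd (nat_lit 78) (nat_lit 0) (nat_lit 76) (XT.lf (nat_lit 76) (nat_lit 6643551130) (nat_lit 0) (nat_lit 1426079624) (nat_lit 1824) (nat_lit 8177269885) (nat_lit 469) (nat_lit 5) (nat_lit 468) (nat_lit 5) (nat_lit 492) (nat_lit 5) (nat_lit 448) (nat_lit 445) (nat_lit 307)) (XT.nd (nat_lit 78) (nat_lit 0) (nat_lit 76) (XT.lf (nat_lit 76) (nat_lit 2524401735) (nat_lit 0) (nat_lit 6446165306) (nat_lit 1824) (nat_lit 7515285116) (nat_lit 470) (nat_lit 5) (nat_lit 469) (nat_lit 5) (nat_lit 493) (nat_lit 5) (nat_lit 449) (nat_lit 445) (nat_lit 306)) (XT.lf (nat_lit 0) (nat_lit 9991967667) (nat_lit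 1748) (nat_lit 1635248581) (nat_lit 1824) (nat_lit 5102889544) (nat_lit 470) (nat_lit 5) (nat_lit 493) (nat_lit 5) (nat_lit 494) (nat_lit 5) (nat_lit 450) (nat_lit 445) (nat_lit 305)))) (XT.nd (nat_lit 78) (nat_lit 0) (nat_lit 0) (XT.lf (nat_lit 0) (nat_lit 11145390366) (nat_lit 1748) (nat_lit 5824540192) (nat_lit 1824) (nat_lit 9731107) (nat_lit 471) (nat_lit 5) (nat_lit 494) (nat_lit 5) (nat_lit 495) (nat_lit 5) (nat_lit 451) (nat_lit 445) (nat_lit 304)) (XT.nd (nat_lit 78) (nat_lit 0) (nat_lit 76) (XT.lf (nat_lit 76) (nat_lit 7121758926) (nat_lit 0) (nat_lit 5332979904) (nat_lit 1824) (nat_lit 4779541085) (nat_lit 472) (nat_lit 5) (nat_lit 471) (nat_lit 5) (nat_lit 495) (nat_lit 5) (nat_lit 452) (nat_lit 445) (nat_lit 303)) (XT.lf (nat_lit 76) (nat_lit 3027601185) (nat_lit 0) (nat_lit 10864899806) (nat_lit 1824) (nat_lit 3602255159) (nat_lit 473) (nat_lit 5) (nat_lit 472) (nat_lit 5) (nat_lit 496)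 (nat_lit 5) (nat_lit 453) (nat_lit 445) (nat_lit 302))))))) (XT.nd (nat_lit 936) (nat_lit 7980) (nat_lit 0) (XT.nd (nat_lit 468) (nat_lit 3344) (nat_lit 0) (XT.nd (nat_lit 234) (nat_lit 0) (nat_lit 76) (XT.nd (nat_lit 78) (nat_lit 1748) (nat_lit 0) (XT.lf (nat_lit 0) (nat_lit 15471967422) (nat_lit 1748) (nat_lit 1113682594) (nat_lit 1824) (nat_lit 1175427269) (nat_lit 473) (nat_lit 5) (nat_lit 496) (nat_lit 5) (nat_lit 497) (nat_lit 5) (nat_lit 454) (nat_lit 445) (nat_lit 301)) (XT.nd (nat_lit 78) (nat_lit 1748) (nat_lit 0) (XT.lf (nat_lit 76) (nat_lit 12725683728) (nat_lit 0) (nat_lit 4515707863) (nat_lit 1824) (nat_lit 791146967) (nat_lit 474) (nat_lit 5) (nat_lit 473) (nat_lit 5) (nat_lit 497) (nat_lit 5) (nat_lit 455) (nat_lit 445) (nat_lit 300)) (XT.lf (nat_lit 0) (nat_lit 845930702) (nat_lit 1824) (nat_lit 9578094186) (nat_lit 1900) (nat_lit 7885942344) (nat_lit 450) (nat_lit 5) (nat_lit 474)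 (nat_lit 5) (nat_lit 475) (nat_lit 5) (nat_lit 456) (nat_lit 445) (nat_lit 299)))) (XT.nd (nat_lit 78) (nat_lit 0) (nat_lit 0) (XT.lf (nat_lit 0) (nat_lit 2619608817) (nat_lit 1824) (nat_lit 13921385958) (nat_lit 1900) (nat_lit 2052656499) (nat_lit 451) (nat_lit 5) (nat_lit 475) (nat_lit 5) (nat_lit 476) (nat_lit 5) (nat_lit 457) (nat_lit 445) (nat_lit 298)) (XT.nd (nat_lit 78) (nat_lit 0) (nat_lit 76) (XT.lf (nat_lit 76) (nat_lit 524224133) (nat_lit 0) (nat_lit 4048884173) (nat_lit 1900) (nat_lit 14310207086) (nat_lit 452) (nat_lit 5) (nat_lit 451) (nat_lit 5) (nat_lit 476) (nat_lit 5) (nat_lit 458) (nat_lit 445) (nat_lit 297)) (XT.lf (nat_lit 0) (nat_lit 6725890947) (nat_lit 1824) (nat_lit 3653204203) (nat_lit 1900) (nat_lit 8799762447) (nat_lit 452) (nat_lit 5) (nat_lit 476) (nat_lit 5) (nat_lit 477) (nat_lit 5) (nat_lit 459) (nat_lit 445) (nat_lit 296))))) (XT.nd (nat_lit 234) (nat_lit 1976) (nat_lit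 0) (XT.nd (nat_lit 78) (nat_lit 1596) (nat_lit 0) (XT.lf (nat_lit 0) (nat_lit 9051236971) (nat_lit 1824) (nat_lit 7888148349) (nat_lit 1900) (nat_lit 2541722824) (nat_lit 453) (nat_lit 5) (nat_lit 477) (nat_lit 5) (nat_lit 478) (nat_lit 5) (nat_lit 460) (nat_lit 445) (nat_lit 295)) (XT.nd (nat_lit 78) (nat_lit 1596) (nat_lit 0) (XT.lf (nat_lit 76) (nat_lit 7575239264) (nat_lit 0) (nat_lit 4003699574) (nat_lit 1900) (nat_lit 8210837088) (nat_lit 454) (nat_lit 5) (nat_lit 453) (nat_lit 5) (nat_lit 478) (nat_lit 5) (nat_lit 461) (nat_lit 445) (nat_lit 294)) (XT.lf (nat_lit 0) (nat_lit 3479436759) (nat_lit 1672) (nat_lit 10829298185) (nat_lit 1748) (nat_lit 5796445112) (nat_lit 432) (nat_lit 5) (nat_lit 454) (nat_lit 5) (nat_lit 455) (nat_lit 5) (nat_lit 462) (nat_lit 445) (nat_lit 293)))) (XT.nd (nat_lit 78) (nat_lit 1976) (nat_lit 0) (XT.lf (nat_lit 0) (nat_lit 17235992239) (nat_lit 1748) (nat_lit 669418569)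 (nat_lit 76) (nat_lit 2522325688) (nat_lit 432) (nat_lit 5) (nat_lit 455) (nat_lit 5) (nat_lit 433) (nat_lit 5) (nat_lit 463) (nat_lit 445) (nat_lit 292)) (XT.nd (nat_lit 78) (nat_lit 988) (nat_lit 0) (XT.lf (nat_lit 0) (nat_lit 15892612323) (nat_lit 988) (nat_lit 4523977005) (nat_lit 1064) (nat_lit 340071349) (nat_lit 419) (nat_lit 5) (nat_lit 432) (nat_lit 5) (nat_lit 433) (nat_lit 5) (nat_lit 464) (nat_lit 445) (nat_lit 291)) (XT.lf (nat_lit 0) (nat_lit 2696411502) (nat_lit 988) (nat_lit 9157676824) (nat_lit 76) (nat_lit 9238361988) (nat_lit 406) (nat_lit 5) (nat_lit 419) (nat_lit 5) (nat_lit 407) (nat_lit 5) (nat_lit 465) (nat_lit 445) (nat_lit 290)))))) (XT.nd (nat_lit 468) (nat_lit 3724) (nat_lit 0) (XT.nd (nat_lit 234) (nat_lit 2508) (nat_lit 0) (XT.nd (nat_lit 78) (nat_lit 836) (nat_lit 0) (XT.lf (nat_lit 0) (nat_lit 5937640151) (nat_lit 988) (nat_lit 13520490956) (nat_lit 76) (nat_lit 1977773520)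 (nat_lit 394) (nat_lit 5) (nat_lit 407) (nat_lit 5) (nat_lit 395) (nat_lit 5) (nat_lit 466) (nat_lit 445) (nat_lit 289)) (XT.nd (nat_lit 78) (nat_lit 0) (nat_lit 0) (XT.lf (nat_lit 0) (nat_lit 3798675924) (nat_lit 836) (nat_lit 5634383638) (nat_lit 912) (nat_lit 12353465263) (nat_lit 383) (nat_lit 5) (nat_lit 394) (nat_lit 5) (nat_lit 395) (nat_lit 5) (nat_lit 467) (nat_lit 445) (nat_lit 288)) (XT.lf (nat_lit 0) (nat_lit 13172200445) (nat_lit 912) (nat_lit 388940389) (nat_lit 76) (nat_lit 8583746916) (nat_lit 383) (nat_lit 5) (nat_lit 395) (nat_lit 5) (nat_lit 384) (nat_lit 5) (nat_lit 468) (nat_lit 445) (nat_lit 287)))) (XT.nd (nat_lit 78) (nat_lit 1672) (nat_lit 0) (XT.lf (nat_lit 0) (nat_lit 17173545074) (nat_lit 912) (nat_lit 4589517822) (nat_lit 76) (nat_lit 747939334) (nat_lit 372) (nat_lit 5) (nat_lit 384) (nat_lit 5) (nat_lit 373) (nat_lit 5) (nat_lit 469) (nat_lit 445) (nat_lit 286)) (XT.nd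 (nat_lit 78) (nat_lit 912) (nat_lit 0) (XT.lf (nat_lit 0) (nat_lit 13982277212) (nat_lit 760) (nat_lit 7488020608) (nat_lit 836) (nat_lit 1414296191) (nat_lit 362) (nat_lit 5) (nat_lit 372) (nat_lit 5) (nat_lit 373) (nat_lit 5) (nat_lit 470) (nat_lit 445) (nat_lit 285)) (XT.lf (nat_lit 0) (nat_lit 2727391161) (nat_lit 912) (nat_lit 13304455196) (nat_lit 76) (nat_lit 7234501697) (nat_lit 350) (nat_lit 5) (nat_lit 362) (nat_lit 5) (nat_lit 351) (nat_lit 5) (nat_lit 471) (nat_lit 445) (nat_lit 284))))) (XT.nd (nat_lit 234) (nat_lit 2204) (nat_lit 0) (XT.nd (nat_lit 78) (nat_lit 760) (nat_lit 0) (XT.lf (nat_lit 0) (nat_lit 5863616442) (nat_lit 760) (nat_lit 1251054038) (nat_lit 836) (nat_lit 16541887277) (nat_lit 340) (nat_lit 5) (nat_lit 350) (nat_lit 5) (nat_lit 351) (nat_lit 5) (nat_lit 472) (nat_lit 445) (nat_lit 283)) (XT.nd (nat_lit 78) (nat_lit 0) (nat_lit 0) (XT.lf (nat_lit 0) (nat_lit 1653632790)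 (nat_lit 760) (nat_lit 10163908363) (nat_lit 836) (nat_lit 12237254233) (nat_lit 330) (nat_lit 5) (nat_lit 340) (nat_lit 5) (nat_lit 341) (nat_lit 5) (nat_lit 473) (nat_lit 445) (nat_lit 282)) (XT.lf (nat_lit 0) (nat_lit 16815615854) (nat_lit 836) (nat_lit 2585940598) (nat_lit 76) (nat_lit 5060342399) (nat_lit 330) (nat_lit 5) (nat_lit 341) (nat_lit 5) (nat_lit 331) (nat_lit 5) (nat_lit 474) (nat_lit 445) (nat_lit 281)))) (XT.nd (nat_lit 78) (nat_lit 1520) (nat_lit 0) (XT.lf (nat_lit 0) (nat_lit 17982956093) (nat_lit 684) (nat_lit 4157578992) (nat_lit 760) (nat_lit 2737143323) (nat_lit 321) (nat_lit 5) (nat_lit 330) (nat_lit 5) (nat_lit 331) (nat_lit 5) (nat_lit 475) (nat_lit 445) (nat_lit 280)) (XT.nd (nat_lit 78) (nat_lit 684) (nat_lit 0) (XT.lf (nat_lit 0) (nat_lit 2465834522) (nat_lit 836) (nat_lit 11320043476) (nat_lit 76) (nat_lit 11516213540) (nat_lit 310) (nat_lit 5) (nat_lit 321) (nat_lit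 5) (nat_lit 311) (nat_lit 5) (nat_lit 476) (nat_lit 445) (nat_lit 279)) (XT.lf (nat_lit 0) (nat_lit 7932564778) (nat_lit 760) (nat_lit 15833000993) (nat_lit 76) (nat_lit 1970413393) (nat_lit 301) (nat_lit 5) (nat_lit 311) (nat_lit 5) (nat_lit 302) (nat_lit 5) (nat_lit 477) (nat_lit 445) (nat_lit 278))))))))
noncomputable def xc110 : XT := (XT.nd (nat_lit 60684) (nat_lit 0) (nat_lit 7828) (XT.nd (nat_lit 858) (nat_lit 1596) (nat_lit 0) (XT.nd (nat_lit 390) (nat_lit 2888) (nat_lit 0) (XT.nd (nat_lit 156) (nat_lit 1368) (nat_lit 0) (XT.nd (nat_lit 78) (nat_lit 608) (nat_lit 0) (XT.lf (nat_lit 0) (nat_lit 5709846349) (nat_lit 684) (nat_lit 8052547029) (nat_lit 760) (nat_lit 12416509039) (nat_lit 292) (nat_lit 5) (nat_lit 301) (nat_lit 5) (nat_lit 302) (nat_lit 5) (nat_lit 478) (nat_lit 445) (nat_lit 277)) (XT.lf (nat_lit 0) (nat_lit 1439479281) (nat_lit 608) (nat_lit 18490548574) (nat_lit 684) (nat_lit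 6701828192) (nat_lit 284) (nat_lit 5) (nat_lit 292) (nat_lit 5) (nat_lit 293) (nat_lit 5) (nat_lit 479) (nat_lit 445) (nat_lit 276))) (XT.nd (nat_lit 78) (nat_lit 1368) (nat_lit 0) (XT.lf (nat_lit 0) (nat_lit 24222399812) (nat_lit 608) (nat_lit 2245416136) (nat_lit 684) (nat_lit 626880721) (nat_lit 284) (nat_lit 5) (nat_lit 292) (nat_lit 5) (nat_lit 293) (nat_lit 5) (nat_lit 480) (nat_lit 445) (nat_lit 275)) (XT.nd (nat_lit 78) (nat_lit 608) (nat_lit 0) (XT.lf (nat_lit 0) (nat_lit 5776778487) (nat_lit 760) (nat_lit 7324107424) (nat_lit 76) (nat_lit 14465400197) (nat_lit 274) (nat_lit 5) (nat_lit 284) (nat_lit 5) (nat_lit 275) (nat_lit 5) (nat_lit 481) (nat_lit 445) (nat_lit 274)) (XT.lf (nat_lit 0) (nat_lit 12521428575) (nat_lit 684) (nat_lit 11850591791) (nat_lit 76) (nat_lit 3676772839) (nat_lit 266) (nat_lit 5) (nat_lit 275) (nat_lit 5) (nat_lit 267) (nat_lit 5) (nat_lit 482) (nat_lit 445) (nat_lit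 273))))) (XT.nd (nat_lit 234) (nat_lit 1064) (nat_lit 0) (XT.nd (nat_lit 78) (nat_lit 1216) (nat_lit 0) (XT.lf (nat_lit 0) (nat_lit 12043347228) (nat_lit 608) (nat_lit 7634190918) (nat_lit 684) (nat_lit 8864055755) (nat_lit 258) (nat_lit 5) (nat_lit 266) (nat_lit 5) (nat_lit 267) (nat_lit 5) (nat_lit 483) (nat_lit 445) (nat_lit 272)) (XT.nd (nat_lit 78) (nat_lit 684) (nat_lit 0) (XT.lf (nat_lit 0) (nat_lit 7799843568) (nat_lit 532) (nat_lit 19435816956) (nat_lit 608) (nat_lit 1809772263) (nat_lit 251) (nat_lit 5) (nat_lit 258) (nat_lit 5) (nat_lit 259) (nat_lit 5) (nat_lit 484) (nat_lit 445) (nat_lit 271)) (XT.lf (nat_lit 0) (nat_lit 3440206703) (nat_lit 608) (nat_lit 2123881122) (nat_lit 684) (nat_lit 23996001116) (nat_lit 242) (nat_lit 5) (nat_lit 250) (nat_lit 5) (nat_lit 251) (nat_lit 5) (nat_lit 485) (nat_lit 445) (nat_lit 270)))) (XT.nd (nat_lit 78) (nat_lit 1064) (nat_lit 0) (XT.lf (nat_lit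 0) (nat_lit 13375321102) (nat_lit 684) (nat_lit 1053185755) (nat_lit 76) (nat_lit 15656624471) (nat_lit 242) (nat_lit 5) (nat_lit 251) (nat_lit 5) (nat_lit 243) (nat_lit 5) (nat_lit 486) (nat_lit 445) (nat_lit 269)) (XT.nd (nat_lit 78) (nat_lit 532) (nat_lit 0) (XT.lf (nat_lit 0) (nat_lit 21614361813) (nat_lit 608) (nat_lit 5572962126) (nat_lit 76) (nat_lit 3434732323) (nat_lit 235) (nat_lit 5) (nat_lit 243) (nat_lit 5) (nat_lit 236) (nat_lit 5) (nat_lit 487) (nat_lit 445) (nat_lit 268)) (XT.lf (nat_lit 0) (nat_lit 20944091264) (nat_lit 532) (nat_lit 9390139306) (nat_lit 608) (nat_lit 836185900) (nat_lit 228) (nat_lit 5) (nat_lit 235) (nat_lit 5) (nat_lit 236) (nat_lit 5) (nat_lit 488) (nat_lit 445) (nat_lit 267)))))) (XT.nd (nat_lit 59358) (nat_lit 0) (nat_lit 19836) (XT.nd (nat_lit 59124) (nat_lit 0) (nat_lit 19760) (XT.nd (nat_lit 78) (nat_lit 988) (nat_lit 0) (XT.lf (nat_lit 0) (nat_lit 7681306254)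 (nat_lit 608) (nat_lit 15029858488) (nat_lit 76) (nat_lit 9019073875) (nat_lit 220) (nat_lit 5) (nat_lit 228) (nat_lit 5) (nat_lit 221) (nat_lit 5) (nat_lit 489) (nat_lit 445) (nat_lit 266)) (XT.nd (nat_lit 78) (nat_lit 456) (nat_lit 0) (XT.lf (nat_lit 0) (nat_lit 12354689217) (nat_lit 532) (nat_lit 4295297953) (nat_lit 608) (nat_lit 15652617836) (nat_lit 213) (nat_lit 5) (nat_lit 220) (nat_lit 5) (nat_lit 221) (nat_lit 5) (nat_lit 490) (nat_lit 445) (nat_lit 265)) (XT.lf (nat_lit 0) (nat_lit 7875883652) (nat_lit 456) (nat_lit 18255067367) (nat_lit 532) (nat_lit 6756327513) (nat_lit 207) (nat_lit 5) (nat_lit 213) (nat_lit 5) (nat_lit 214) (nat_lit 5) (nat_lit 491) (nat_lit 445) (nat_lit 264)))) (XT.nd (nat_lit 78) (nat_lit 0) (nat_lit 0) (XT.lf (nat_lit 0) (nat_lit 1767293530) (nat_lit 0) (nat_lit 1767293530) (nat_lit 1748) (nat_lit 4470598141) (nat_lit 467) (nat_lit 5) (nat_lit 467) (nat_lit 3) (nat_lit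 490) (nat_lit 3) (nat_lit 446) (nat_lit 446) (nat_lit 308)) (XT.nd (nat_lit 78) (nat_lit 0) (nat_lit 76) (XT.lf (nat_lit 0) (nat_lit 7613858440) (nat_lit 1748) (nat_lit 758178727) (nat_lit 1824) (nat_lit 7869655256) (nat_lit 467) (nat_lit 5) (nat_lit 490) (nat_lit 3) (nat_lit 491) (nat_lit 5) (nat_lit 447) (nat_lit 446) (nat_lit 307)) (XT.lf (nat_lit 0) (nat_lit 8278270116) (nat_lit 1748) (nat_lit 5069581407) (nat_lit 1824) (nat_lit 3130037208) (nat_lit 468) (nat_lit 5) (nat_lit 491) (nat_lit 5) (nat_lit 492) (nat_lit 5) (nat_lit 448) (nat_lit 446) (nat_lit 306))))) (XT.nd (nat_lit 234) (nat_lit 0) (nat_lit 152) (XT.nd (nat_lit 78) (nat_lit 0) (nat_lit 76) (XT.lf (nat_lit 76) (nat_lit 7260180208) (nat_lit 0) (nat_lit 1796114079) (nat_lit 1824) (nat_lit 7663005337) (nat_lit 469) (nat_lit 5) (nat_lit 468) (nat_lit 5) (nat_lit 492) (nat_lit 5) (nat_lit 449) (nat_lit 446) (nat_lit 305)) (XT.nd (nat_lit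 78) (nat_lit 0) (nat_lit 76) (XT.lf (nat_lit 76) (nat_lit 3027540583) (nat_lit 0) (nat_lit 6935743597) (nat_lit 1824) (nat_lit 7002558391) (nat_lit 470) (nat_lit 5) (nat_lit 469) (nat_lit 5) (nat_lit 493) (nat_lit 5) (nat_lit 450) (nat_lit 446) (nat_lit 304)) (XT.lf (nat_lit 0) (nat_lit 10992384021) (nat_lit 1748) (nat_lit 1253320572) (nat_lit 1824) (nat_lit 4972181374) (nat_lit 470) (nat_lit 5) (nat_lit 493) (nat_lit 5) (nat_lit 494) (nat_lit 5) (nat_lit 451) (nat_lit 446) (nat_lit 303)))) (XT.nd (nat_lit 78) (nat_lit 0) (nat_lit 76) (XT.lf (nat_lit 76) (nat_lit 11913835617) (nat_lit 0) (nat_lit 248853192) (nat_lit 1824) (nat_lit 5312597317) (nat_lit 471) (nat_lit 5) (nat_lit 470) (nat_lit 5) (nat_lit 494) (nat_lit 5) (nat_lit 452) (nat_lit 446) (nat_lit 302)) (XT.nd (nat_lit 78) (nat_lit 0) (nat_lit 76) (XT.lf (nat_lit 76) (nat_lit 7767723883) (nat_lit 0) (nat_lit 5724940681) (nat_lit 1824) (nat_lit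 4245254530) (nat_lit 472) (nat_lit 5) (nat_lit 471) (nat_lit 5) (nat_lit 495) (nat_lit 5) (nat_lit 453) (nat_lit 446) (nat_lit 301)) (XT.lf (nat_lit 76) (nat_lit 3558381330) (nat_lit 0) (nat_lit 11397224411) (nat_lit 1824) (nat_lit 3050965968) (nat_lit 473) (nat_lit 5) (nat_lit 472) (nat_lit 5) (nat_lit 496) (nat_lit 5) (nat_lit 454) (nat_lit 446) (nat_lit 300))))))) (XT.nd (nat_lit 858) (nat_lit 8208) (nat_lit 0) (XT.nd (nat_lit 390) (nat_lit 2432) (nat_lit 0) (XT.nd (nat_lit 156) (nat_lit 1748) (nat_lit 0) (XT.nd (nat_lit 78) (nat_lit 0) (nat_lit 0) (XT.lf (nat_lit 0) (nat_lit 16562330114) (nat_lit 1748) (nat_lit 706006494) (nat_lit 1824) (nat_lit 1012951318) (nat_lit 473) (nat_lit 5) (nat_lit 496) (nat_lit 5) (nat_lit 497) (nat_lit 5) (nat_lit 455) (nat_lit 446) (nat_lit 299)) (XT.lf (nat_lit 76) (nat_lit 13541384713) (nat_lit 0) (nat_lit 4828030719) (nat_lit 1824) (nat_lit 191788881) (nat_lit 474)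 (nat_lit 5) (nat_lit 473) (nat_lit 5) (nat_lit 497) (nat_lit 5) (nat_lit 456) (nat_lit 446) (nat_lit 298))) (XT.nd (nat_lit 78) (nat_lit 0) (nat_lit 76) (XT.lf (nat_lit 0) (nat_lit 1470073210) (nat_lit 1824) (nat_lit 9417258793) (nat_lit 1900) (nat_lit 7959868759) (nat_lit 450) (nat_lit 5) (nat_lit 474) (nat_lit 5) (nat_lit 475) (nat_lit 5) (nat_lit 457) (nat_lit 446) (nat_lit 297)) (XT.nd (nat_lit 78) (nat_lit 0) (nat_lit 0) (XT.lf (nat_lit 0) (nat_lit 3281454312) (nat_lit 1824) (nat_lit 13885418886) (nat_lit 1900) (nat_lit 1972834899) (nat_lit 451) (nat_lit 5) (nat_lit 475) (nat_lit 5) (nat_lit 476) (nat_lit 5) (nat_lit 458) (nat_lit 446) (nat_lit 296)) (XT.lf (nat_lit 76) (nat_lit 986200246) (nat_lit 0) (nat_lit 4293267812) (nat_lit 1900) (nat_lit 14158878447) (nat_lit 452) (nat_lit 5) (nat_lit 451) (nat_lit 5) (nat_lit 476) (nat_lit 5) (nat_lit 459) (nat_lit 446) (nat_lit 295))))) (XT.nd (nat_lit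 234) (nat_lit 2584) (nat_lit 0) (XT.nd (nat_lit 78) (nat_lit 0) (nat_lit 76) (XT.lf (nat_lit 0) (nat_lit 7479481698) (nat_lit 1824) (nat_lit 3317639361) (nat_lit 1900) (nat_lit 8945983443) (nat_lit 452) (nat_lit 5) (nat_lit 476) (nat_lit 5) (nat_lit 477) (nat_lit 5) (nat_lit 460) (nat_lit 446) (nat_lit 294)) (XT.nd (nat_lit 78) (nat_lit 0) (nat_lit 0) (XT.lf (nat_lit 0) (nat_lit 9860705776) (nat_lit 1824) (nat_lit 7675348735) (nat_lit 1900) (nat_lit 2518648106) (nat_lit 453) (nat_lit 5) (nat_lit 477) (nat_lit 5) (nat_lit 478) (nat_lit 5) (nat_lit 461) (nat_lit 446) (nat_lit 293)) (XT.lf (nat_lit 76) (nat_lit 8244648811) (nat_lit 0) (nat_lit 4206792721) (nat_lit 1900) (nat_lit 7921447178) (nat_lit 454) (nat_lit 5) (nat_lit 453) (nat_lit 5) (nat_lit 478) (nat_lit 5) (nat_lit 462) (nat_lit 446) (nat_lit 292)))) (XT.nd (nat_lit 78) (nat_lit 1064) (nat_lit 0) (XT.lf (nat_lit 0) (nat_lit 4029737706) (nat_lit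 1672) (nat_lit 11220470745) (nat_lit 1748) (nat_lit 5447807238) (nat_lit 432) (nat_lit 5) (nat_lit 454) (nat_lit 5) (nat_lit 455) (nat_lit 5) (nat_lit 463) (nat_lit 446) (nat_lit 291)) (XT.nd (nat_lit 78) (nat_lit 1064) (nat_lit 0) (XT.lf (nat_lit 0) (nat_lit 18249946800) (nat_lit 1748) (nat_lit 246134102) (nat_lit 76) (nat_lit 2534476855) (nat_lit 432) (nat_lit 5) (nat_lit 455) (nat_lit 5) (nat_lit 433) (nat_lit 5) (nat_lit 464) (nat_lit 446) (nat_lit 290)) (XT.lf (nat_lit 0) (nat_lit 142838795) (nat_lit 1064) (nat_lit 4564959719) (nat_lit 76) (nat_lit 16661767294) (nat_lit 418) (nat_lit 5) (nat_lit 432) (nat_lit 5) (nat_lit 419) (nat_lit 5) (nat_lit 465) (nat_lit 446) (nat_lit 289)))))) (XT.nd (nat_lit 468) (nat_lit 3952) (nat_lit 0) (XT.nd (nat_lit 234) (nat_lit 1596) (nat_lit 0) (XT.nd (nat_lit 78) (nat_lit 1748) (nat_lit 0) (XT.lf (nat_lit 0) (nat_lit 3254151576) (nat_lit 988) (nat_lit 8986974124)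 (nat_lit 76) (nat_lit 9474493396) (nat_lit 406) (nat_lit 5) (nat_lit 419) (nat_lit 5) (nat_lit 407) (nat_lit 5) (nat_lit 466) (nat_lit 446) (nat_lit 288)) (XT.nd (nat_lit 78) (nat_lit 836) (nat_lit 0) (XT.lf (nat_lit 0) (nat_lit 6581394259) (nat_lit 988) (nat_lit 13478338239) (nat_lit 76) (nat_lit 2009870971) (nat_lit 394) (nat_lit 5) (nat_lit 407) (nat_lit 5) (nat_lit 395) (nat_lit 5) (nat_lit 467) (nat_lit 446) (nat_lit 287)) (XT.lf (nat_lit 0) (nat_lit 4353139153) (nat_lit 836) (nat_lit 5817835248) (nat_lit 912) (nat_lit 12259983827) (nat_lit 383) (nat_lit 5) (nat_lit 394) (nat_lit 5) (nat_lit 395) (nat_lit 5) (nat_lit 468) (nat_lit 446) (nat_lit 286)))) (XT.nd (nat_lit 78) (nat_lit 760) (nat_lit 0) (XT.lf (nat_lit 0) (nat_lit 36529635) (nat_lit 836) (nat_lit 13972655964) (nat_lit 912) (nat_lit 8791150379) (nat_lit 372) (nat_lit 5) (nat_lit 383) (nat_lit 5) (nat_lit 384) (nat_lit 5) (nat_lit 469)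 (nat_lit 446) (nat_lit 285)) (XT.nd (nat_lit 78) (nat_lit 760) (nat_lit 0) (XT.lf (nat_lit 0) (nat_lit 18120248307) (nat_lit 912) (nat_lit 4288925524) (nat_lit 76) (nat_lit 768468314) (nat_lit 372) (nat_lit 5) (nat_lit 384) (nat_lit 5) (nat_lit 373) (nat_lit 5) (nat_lit 470) (nat_lit 446) (nat_lit 284)) (XT.lf (nat_lit 0) (nat_lit 14832912824) (nat_lit 760) (nat_lit 7703222365) (nat_lit 836) (nat_lit 1026503613) (nat_lit 362) (nat_lit 5) (nat_lit 372) (nat_lit 5) (nat_lit 373) (nat_lit 5) (nat_lit 471) (nat_lit 446) (nat_lit 283))))) (XT.nd (nat_lit 234) (nat_lit 1520) (nat_lit 0) (XT.nd (nat_lit 78) (nat_lit 1520) (nat_lit 0) (XT.lf (nat_lit 0) (nat_lit 3224311900) (nat_lit 912) (nat_lit 13265549689) (nat_lit 76) (nat_lit 7466119282) (nat_lit 350) (nat_lit 5) (nat_lit 362) (nat_lit 5) (nat_lit 351) (nat_lit 5) (nat_lit 472) (nat_lit 446) (nat_lit 282)) (XT.nd (nat_lit 78) (nat_lit 760) (nat_lit 0)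 (XT.lf (nat_lit 0) (nat_lit 6470457434) (nat_lit 760) (nat_lit 1263459801) (nat_lit 836) (nat_lit 16624167096) (nat_lit 340) (nat_lit 5) (nat_lit 350) (nat_lit 5) (nat_lit 351) (nat_lit 5) (nat_lit 473) (nat_lit 446) (nat_lit 281)) (XT.lf (nat_lit 0) (nat_lit 2135060024) (nat_lit 760) (nat_lit 10433956426) (nat_lit 836) (nat_lit 12199431365) (nat_lit 330) (nat_lit 5) (nat_lit 340) (nat_lit 5) (nat_lit 341) (nat_lit 5) (nat_lit 474) (nat_lit 446) (nat_lit 280)))) (XT.nd (nat_lit 78) (nat_lit 1520) (nat_lit 0) (XT.lf (nat_lit 0) (nat_lit 17705691569) (nat_lit 836) (nat_lit 2236738925) (nat_lit 76) (nat_lit 5245562255) (nat_lit 330) (nat_lit 5) (nat_lit 341) (nat_lit 5) (nat_lit 331) (nat_lit 5) (nat_lit 475) (nat_lit 446) (nat_lit 279)) (XT.nd (nat_lit 78) (nat_lit 836) (nat_lit 0) (XT.lf (nat_lit 0) (nat_lit 18942300671) (nat_lit 684) (nat_lit 4239552411) (nat_lit 760) (nat_lit 2434564200) (nat_lit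 321) (nat_lit 5) (nat_lit 330) (nat_lit 5) (nat_lit 331) (nat_lit 5) (nat_lit 476) (nat_lit 446) (nat_lit 278)) (XT.lf (nat_lit 0) (nat_lit 2911417774) (nat_lit 836) (nat_lit 11234419778) (nat_lit 76) (nat_lit 11907837508) (nat_lit 310) (nat_lit 5) (nat_lit 321) (nat_lit 5) (nat_lit 311) (nat_lit 5) (nat_lit 477) (nat_lit 446) (nat_lit 277))))))))
noncomputable def xc111 : XT := (XT.nd (nat_lit 60762) (nat_lit 0) (nat_lit 6688) (XT.nd (nat_lit 858) (nat_lit 1672) (nat_lit 0) (XT.nd (nat_lit 390) (nat_lit 2964) (nat_lit 0) (XT.nd (nat_lit 156) (nat_lit 1368) (nat_lit 0) (XT.nd (nat_lit 78) (nat_lit 684) (nat_lit 0) (XT.lf (nat_lit 0) (nat_lit 8534398413) (nat_lit 760) (nat_lit 15882705052) (nat_lit 76) (nat_lit 2083632251) (nat_lit 301) (nat_lit 5) (nat_lit 311) (nat_lit 5) (nat_lit 302) (nat_lit 5) (nat_lit 478) (nat_lit 446) (nat_lit 276)) (XT.lf (nat_lit 0) (nat_lit 6299527951) (nat_lit 684) (nat_lit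 8231712593) (nat_lit 760) (nat_lit 12425865080) (nat_lit 292) (nat_lit 5) (nat_lit 301) (nat_lit 5) (nat_lit 302) (nat_lit 5) (nat_lit 479) (nat_lit 446) (nat_lit 275))) (XT.nd (nat_lit 78) (nat_lit 760) (nat_lit 0) (XT.lf (nat_lit 0) (nat_lit 1900911053) (nat_lit 608) (nat_lit 18975733738) (nat_lit 684) (nat_lit 6547149550) (nat_lit 284) (nat_lit 5) (nat_lit 292) (nat_lit 5) (nat_lit 293) (nat_lit 5) (nat_lit 480) (nat_lit 446) (nat_lit 274)) (XT.nd (nat_lit 78) (nat_lit 760) (nat_lit 0) (XT.lf (nat_lit 0) (nat_lit 25355137237) (nat_lit 608) (nat_lit 2245272510) (nat_lit 684) (nat_lit 300314824) (nat_lit 284) (nat_lit 5) (nat_lit 292) (nat_lit 5) (nat_lit 293) (nat_lit 5) (nat_lit 481) (nat_lit 446) (nat_lit 273)) (XT.lf (nat_lit 0) (nat_lit 6284077266) (nat_lit 760) (nat_lit 7133603443) (nat_lit 76) (nat_lit 14968874276) (nat_lit 274) (nat_lit 5) (nat_lit 284) (nat_lit 5) (nat_lit 275) (nat_lit 5)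 (nat_lit 482) (nat_lit 446) (nat_lit 272))))) (XT.nd (nat_lit 234) (nat_lit 1216) (nat_lit 0) (XT.nd (nat_lit 78) (nat_lit 1140) (nat_lit 0) (XT.lf (nat_lit 0) (nat_lit 13224456974) (nat_lit 684) (nat_lit 11796459282) (nat_lit 76) (nat_lit 3862754396) (nat_lit 266) (nat_lit 5) (nat_lit 275) (nat_lit 5) (nat_lit 267) (nat_lit 5) (nat_lit 483) (nat_lit 446) (nat_lit 271)) (XT.nd (nat_lit 78) (nat_lit 532) (nat_lit 0) (XT.lf (nat_lit 0) (nat_lit 12807651818) (nat_lit 608) (nat_lit 7780679083) (nat_lit 684) (nat_lit 8803063971) (nat_lit 258) (nat_lit 5) (nat_lit 266) (nat_lit 5) (nat_lit 267) (nat_lit 5) (nat_lit 484) (nat_lit 446) (nat_lit 270)) (XT.lf (nat_lit 0) (nat_lit 8436119843) (nat_lit 532) (nat_lit 19930875283) (nat_lit 608) (nat_lit 1543478928) (nat_lit 251) (nat_lit 5) (nat_lit 258) (nat_lit 5) (nat_lit 259) (nat_lit 5) (nat_lit 485) (nat_lit 446) (nat_lit 269)))) (XT.nd (nat_lit 78) (nat_lit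 532) (nat_lit 0) (XT.lf (nat_lit 0) (nat_lit 3943338805) (nat_lit 608) (nat_lit 2097435184) (nat_lit 684) (nat_lit 24399887683) (nat_lit 242) (nat_lit 5) (nat_lit 250) (nat_lit 5) (nat_lit 251) (nat_lit 5) (nat_lit 486) (nat_lit 446) (nat_lit 268)) (XT.nd (nat_lit 78) (nat_lit 532) (nat_lit 0) (XT.lf (nat_lit 0) (nat_lit 14077890370) (nat_lit 684) (nat_lit 691023615) (nat_lit 76) (nat_lit 16212711433) (nat_lit 242) (nat_lit 5) (nat_lit 251) (nat_lit 5) (nat_lit 243) (nat_lit 5) (nat_lit 487) (nat_lit 446) (nat_lit 267)) (XT.lf (nat_lit 0) (nat_lit 22558440760) (nat_lit 608) (nat_lit 5347447287) (nat_lit 76) (nat_lit 3628884265) (nat_lit 235) (nat_lit 5) (nat_lit 243) (nat_lit 5) (nat_lit 236) (nat_lit 5) (nat_lit 488) (nat_lit 446) (nat_lit 266)))))) (XT.nd (nat_lit 59436) (nat_lit 0) (nat_lit 19380) (XT.nd (nat_lit 59202) (nat_lit 0) (nat_lit 19304) (XT.nd (nat_lit 78) (nat_lit 1140) (nat_lit 0) (XT.lf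 (nat_lit 0) (nat_lit 21958746554) (nat_lit 532) (nat_lit 9575056244) (nat_lit 608) (nat_lit 565903535) (nat_lit 228) (nat_lit 5) (nat_lit 235) (nat_lit 5) (nat_lit 236) (nat_lit 5) (nat_lit 489) (nat_lit 446) (nat_lit 265)) (XT.nd (nat_lit 78) (nat_lit 532) (nat_lit 0) (XT.lf (nat_lit 0) (nat_lit 8197880974) (nat_lit 608) (nat_lit 15091746736) (nat_lit 76) (nat_lit 9386765157) (nat_lit 220) (nat_lit 5) (nat_lit 228) (nat_lit 5) (nat_lit 221) (nat_lit 5) (nat_lit 490) (nat_lit 446) (nat_lit 264)) (XT.lf (nat_lit 0) (nat_lit 13108026216) (nat_lit 532) (nat_lit 4321746776) (nat_lit 608) (nat_lit 15836275123) (nat_lit 213) (nat_lit 5) (nat_lit 220) (nat_lit 5) (nat_lit 221) (nat_lit 5) (nat_lit 491) (nat_lit 446) (nat_lit 263)))) (XT.nd (nat_lit 78) (nat_lit 0) (nat_lit 0) (XT.lf (nat_lit 0) (nat_lit 2011889237) (nat_lit 0) (nat_lit 2011889237) (nat_lit 1748) (nat_lit 4213839187) (nat_lit 467) (nat_lit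 5) (nat_lit 467) (nat_lit 3) (nat_lit 490) (nat_lit 3) (nat_lit 447) (nat_lit 447) (nat_lit 306)) (XT.nd (nat_lit 78) (nat_lit 0) (nat_lit 76) (XT.lf (nat_lit 0) (nat_lit 8583846927) (nat_lit 1748) (nat_lit 391518572) (nat_lit 1824) (nat_lit 7738629699) (nat_lit 467) (nat_lit 5) (nat_lit 490) (nat_lit 3) (nat_lit 491) (nat_lit 5) (nat_lit 448) (nat_lit 447) (nat_lit 305)) (XT.lf (nat_lit 0) (nat_lit 9246875574) (nat_lit 1748) (nat_lit 4821815176) (nat_lit 1824) (nat_lit 2889016348) (nat_lit 468) (nat_lit 5) (nat_lit 491) (nat_lit 5) (nat_lit 492) (nat_lit 5) (nat_lit 449) (nat_lit 447) (nat_lit 304))))) (XT.nd (nat_lit 234) (nat_lit 0) (nat_lit 152) (XT.nd (nat_lit 78) (nat_lit 0) (nat_lit 76) (XT.lf (nat_lit 76) (nat_lit 7871352137) (nat_lit 0) (nat_lit 2158463959) (nat_lit 1824) (nat_lit 7176916003) (nat_lit 469) (nat_lit 5) (nat_lit 468) (nat_lit 5) (nat_lit 492) (nat_lit 5) (nat_lit 450) (nat_lit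 447) (nat_lit 303)) (XT.nd (nat_lit 78) (nat_lit 0) (nat_lit 76) (XT.lf (nat_lit 76) (nat_lit 3521238698) (nat_lit 0) (nat_lit 7423006527) (nat_lit 1824) (nat_lit 6516824720) (nat_lit 470) (nat_lit 5) (nat_lit 469) (nat_lit 5) (nat_lit 493) (nat_lit 5) (nat_lit 451) (nat_lit 447) (nat_lit 302)) (XT.lf (nat_lit 0) (nat_lit 11982592268) (nat_lit 1748) (nat_lit 884675052) (nat_lit 1824) (nat_lit 4853842944) (nat_lit 470) (nat_lit 5) (nat_lit 493) (nat_lit 5) (nat_lit 494) (nat_lit 5) (nat_lit 452) (nat_lit 447) (nat_lit 301)))) (XT.nd (nat_lit 78) (nat_lit 0) (nat_lit 76) (XT.lf (nat_lit 76) (nat_lit 12670904978) (nat_lit 0) (nat_lit 500460022) (nat_lit 1824) (nat_lit 4815203268) (nat_lit 471) (nat_lit 5) (nat_lit 470) (nat_lit 5) (nat_lit 494) (nat_lit 5) (nat_lit 453) (nat_lit 447) (nat_lit 300)) (XT.nd (nat_lit 78) (nat_lit 0) (nat_lit 76) (XT.lf (nat_lit 76) (nat_lit 8408251301) (nat_lit 0) (nat_lit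 6115344175) (nat_lit 1824) (nat_lit 3733840568) (nat_lit 472) (nat_lit 5) (nat_lit 471) (nat_lit 5) (nat_lit 495) (nat_lit 5) (nat_lit 454) (nat_lit 447) (nat_lit 299)) (XT.lf (nat_lit 76) (nat_lit 4079829828) (nat_lit 0) (nat_lit 11933671835) (nat_lit 1824) (nat_lit 2520987882) (nat_lit 473) (nat_lit 5) (nat_lit 472) (nat_lit 5) (nat_lit 496) (nat_lit 5) (nat_lit 455) (nat_lit 447) (nat_lit 298))))))) (XT.nd (nat_lit 936) (nat_lit 7980) (nat_lit 0) (XT.nd (nat_lit 468) (nat_lit 3268) (nat_lit 0) (XT.nd (nat_lit 234) (nat_lit 0) (nat_lit 152) (XT.nd (nat_lit 78) (nat_lit 1824) (nat_lit 0) (XT.lf (nat_lit 0) (nat_lit 17649457035) (nat_lit 1748) (nat_lit 311420285) (nat_lit 1824) (nat_lit 856952104) (nat_lit 473) (nat_lit 5) (nat_lit 496) (nat_lit 5) (nat_lit 497) (nat_lit 5) (nat_lit 456) (nat_lit 447) (nat_lit 297)) (XT.nd (nat_lit 78) (nat_lit 0) (nat_lit 76) (XT.lf (nat_lit 0) (nat_lit 384669828)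 (nat_lit 1824) (nat_lit 4752320089) (nat_lit 1900) (nat_lit 13969396176) (nat_lit 449) (nat_lit 5) (nat_lit 473) (nat_lit 5) (nat_lit 474) (nat_lit 5) (nat_lit 457) (nat_lit 447) (nat_lit 296)) (XT.lf (nat_lit 0) (nat_lit 2078568455) (nat_lit 1824) (nat_lit 9277325602) (nat_lit 1900) (nat_lit 8045349847) (nat_lit 450) (nat_lit 5) (nat_lit 474) (nat_lit 5) (nat_lit 475) (nat_lit 5) (nat_lit 458) (nat_lit 447) (nat_lit 295)))) (XT.nd (nat_lit 78) (nat_lit 0) (nat_lit 0) (XT.lf (nat_lit 0) (nat_lit 3929673821) (nat_lit 1824) (nat_lit 13874411795) (nat_lit 1900) (nat_lit 1898735665) (nat_lit 451) (nat_lit 5) (nat_lit 475) (nat_lit 5) (nat_lit 476) (nat_lit 5) (nat_lit 459) (nat_lit 447) (nat_lit 294)) (XT.nd (nat_lit 78) (nat_lit 0) (nat_lit 76) (XT.lf (nat_lit 76) (nat_lit 1436419101) (nat_lit 0) (nat_lit 4537927016) (nat_lit 1900) (nat_lit 14036340765) (nat_lit 452) (nat_lit 5) (nat_lit 451) (nat_lit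 5) (nat_lit 476) (nat_lit 5) (nat_lit 460) (nat_lit 447) (nat_lit 293)) (XT.lf (nat_lit 0) (nat_lit 8224003789) (nat_lit 1824) (nat_lit 2997561635) (nat_lit 1900) (nat_lit 9103351656) (nat_lit 452) (nat_lit 5) (nat_lit 476) (nat_lit 5) (nat_lit 477) (nat_lit 5) (nat_lit 461) (nat_lit 447) (nat_lit 292))))) (XT.nd (nat_lit 234) (nat_lit 1976) (nat_lit 0) (XT.nd (nat_lit 78) (nat_lit 1596) (nat_lit 0) (XT.lf (nat_lit 0) (nat_lit 10663579165) (nat_lit 1824) (nat_lit 7481965060) (nat_lit 1900) (nat_lit 2500582888) (nat_lit 453) (nat_lit 5) (nat_lit 477) (nat_lit 5) (nat_lit 478) (nat_lit 5) (nat_lit 462) (nat_lit 447) (nat_lit 291)) (XT.nd (nat_lit 78) (nat_lit 1596) (nat_lit 0) (XT.lf (nat_lit 76) (nat_lit 8908759289) (nat_lit 0) (nat_lit 4411215146) (nat_lit 1900) (nat_lit 7654127804) (nat_lit 454) (nat_lit 5) (nat_lit 453) (nat_lit 5) (nat_lit 478) (nat_lit 5) (nat_lit 463) (nat_lit 447) (nat_lit 290))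 (XT.lf (nat_lit 0) (nat_lit 4570950174) (nat_lit 1672) (nat_lit 11619572957) (nat_lit 1748) (nat_lit 5118705659) (nat_lit 432) (nat_lit 5) (nat_lit 454) (nat_lit 5) (nat_lit 455) (nat_lit 5) (nat_lit 464) (nat_lit 447) (nat_lit 289)))) (XT.nd (nat_lit 78) (nat_lit 988) (nat_lit 0) (XT.lf (nat_lit 0) (nat_lit 166582577) (nat_lit 988) (nat_lit 19100296339) (nat_lit 1064) (nat_lit 2385137772) (nat_lit 419) (nat_lit 5) (nat_lit 432) (nat_lit 5) (nat_lit 433) (nat_lit 5) (nat_lit 465) (nat_lit 447) (nat_lit 288)) (XT.nd (nat_lit 78) (nat_lit 912) (nat_lit 0) (XT.lf (nat_lit 0) (nat_lit 607599390) (nat_lit 1064) (nat_lit 4284587482) (nat_lit 76) (nat_lit 17109190602) (nat_lit 418) (nat_lit 5) (nat_lit 432) (nat_lit 5) (nat_lit 419) (nat_lit 5) (nat_lit 466) (nat_lit 447) (nat_lit 287)) (XT.lf (nat_lit 0) (nat_lit 3801250842) (nat_lit 988) (nat_lit 8836720021) (nat_lit 76) (nat_lit 9720063430) (nat_lit 406)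 (nat_lit 5) (nat_lit 419) (nat_lit 5) (nat_lit 407) (nat_lit 5) (nat_lit 467) (nat_lit 447) (nat_lit 286)))))) (XT.nd (nat_lit 468) (nat_lit 3724) (nat_lit 0) (XT.nd (nat_lit 234) (nat_lit 1672) (nat_lit 0) (XT.nd (nat_lit 78) (nat_lit 1672) (nat_lit 0) (XT.lf (nat_lit 0) (nat_lit 7217732216) (nat_lit 988) (nat_lit 13460624624) (nat_lit 76) (nat_lit 2044494789) (nat_lit 394) (nat_lit 5) (nat_lit 407) (nat_lit 5) (nat_lit 395) (nat_lit 5) (nat_lit 468) (nat_lit 447) (nat_lit 285)) (XT.nd (nat_lit 78) (nat_lit 836) (nat_lit 0) (XT.lf (nat_lit 0) (nat_lit 4898949607) (nat_lit 836) (nat_lit 6005962632) (nat_lit 912) (nat_lit 12190338348) (nat_lit 383) (nat_lit 5) (nat_lit 394) (nat_lit 5) (nat_lit 395) (nat_lit 5) (nat_lit 469) (nat_lit 447) (nat_lit 284)) (XT.lf (nat_lit 0) (nat_lit 454688504) (nat_lit 836) (nat_lit 14393713869) (nat_lit 912) (nat_lit 8627506400) (nat_lit 372) (nat_lit 5) (nat_lit 383)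 (nat_lit 5) (nat_lit 384) (nat_lit 5) (nat_lit 470) (nat_lit 447) (nat_lit 283)))) (XT.nd (nat_lit 78) (nat_lit 1672) (nat_lit 0) (XT.lf (nat_lit 0) (nat_lit 19070582951) (nat_lit 912) (nat_lit 4004474397) (nat_lit 76) (nat_lit 789722759) (nat_lit 372) (nat_lit 5) (nat_lit 384) (nat_lit 5) (nat_lit 373) (nat_lit 5) (nat_lit 471) (nat_lit 447) (nat_lit 282)) (XT.nd (nat_lit 78) (nat_lit 912) (nat_lit 0) (XT.lf (nat_lit 0) (nat_lit 15684316738) (nat_lit 760) (nat_lit 7925422004) (nat_lit 836) (nat_lit 651773729) (nat_lit 362) (nat_lit 5) (nat_lit 372) (nat_lit 5) (nat_lit 373) (nat_lit 5) (nat_lit 472) (nat_lit 447) (nat_lit 281)) (XT.lf (nat_lit 0) (nat_lit 3712311879) (nat_lit 912) (nat_lit 13250622256) (nat_lit 76) (nat_lit 7703848297) (nat_lit 350) (nat_lit 5) (nat_lit 362) (nat_lit 5) (nat_lit 351) (nat_lit 5) (nat_lit 473) (nat_lit 447) (nat_lit 280))))) (XT.nd (nat_lit 234) (nat_lit 2204) (nat_lit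 0) (XT.nd (nat_lit 78) (nat_lit 760) (nat_lit 0) (XT.lf (nat_lit 0) (nat_lit 7070766367) (nat_lit 760) (nat_lit 1277680065) (nat_lit 836) (nat_lit 16732679273) (nat_lit 340) (nat_lit 5) (nat_lit 350) (nat_lit 5) (nat_lit 351) (nat_lit 5) (nat_lit 474) (nat_lit 447) (nat_lit 279)) (XT.nd (nat_lit 78) (nat_lit 0) (nat_lit 0) (XT.lf (nat_lit 0) (nat_lit 2606141940) (nat_lit 760) (nat_lit 10714107566) (nat_lit 836) (nat_lit 12183719052) (nat_lit 330) (nat_lit 5) (nat_lit 340) (nat_lit 5) (nat_lit 341) (nat_lit 5) (nat_lit 475) (nat_lit 447) (nat_lit 278)) (XT.lf (nat_lit 0) (nat_lit 18600334122) (nat_lit 836) (nat_lit 1901560112) (nat_lit 76) (nat_lit 5434420860) (nat_lit 330) (nat_lit 5) (nat_lit 341) (nat_lit 5) (nat_lit 331) (nat_lit 5) (nat_lit 476) (nat_lit 447) (nat_lit 277)))) (XT.nd (nat_lit 78) (nat_lit 1520) (nat_lit 0) (XT.lf (nat_lit 0) (nat_lit 19906324140) (nat_lit 684) (nat_lit 4326439283)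 (nat_lit 760) (nat_lit 2144990679) (nat_lit 321) (nat_lit 5) (nat_lit 330) (nat_lit 5) (nat_lit 331) (nat_lit 5) (nat_lit 477) (nat_lit 447) (nat_lit 276)) (XT.nd (nat_lit 78) (nat_lit 684) (nat_lit 0) (XT.lf (nat_lit 0) (nat_lit 3349036693) (nat_lit 836) (nat_lit 11170637025) (nat_lit 76) (nat_lit 12308561709) (nat_lit 310) (nat_lit 5) (nat_lit 321) (nat_lit 5) (nat_lit 311) (nat_lit 5) (nat_lit 478) (nat_lit 447) (nat_lit 275)) (XT.lf (nat_lit 0) (nat_lit 9133400195) (nat_lit 760) (nat_lit 15958313387) (nat_lit 76) (nat_lit 2197141744) (nat_lit 301) (nat_lit 5) (nat_lit 311) (nat_lit 5) (nat_lit 302) (nat_lit 5) (nat_lit 479) (nat_lit 447) (nat_lit 274))))))))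
noncomputable def xc112 : XT := (XT.nd (nat_lit 60840) (nat_lit 0) (nat_lit 5472) (XT.nd (nat_lit 858) (nat_lit 608) (nat_lit 0) (XT.nd (nat_lit 390) (nat_lit 2888) (nat_lit 0) (XT.nd (nat_lit 156) (nat_lit 1368) (nat_lit 0) (XT.nd (nat_lit 78) (nat_lit 608) (nat_lit 0) (XT.lf (nat_lit 0) (nat_lit 6882882920) (nat_lit 684) (nat_lit 8419835763) (nat_lit 760) (nat_lit 12456347480) (nat_lit 292) (nat_lit 5) (nat_lit 301) (nat_lit 5) (nat_lit 302) (nat_lit 5) (nat_lit 480) (nat_lit 447) (nat_lit 273)) (XT.lf (nat_lit 0) (nat_lit 2352176666) (nat_lit 608) (nat_lit 19479465838) (nat_lit 684) (nat_lit 6408251106) (nat_lit 284) (nat_lit 5) (nat_lit 292) (nat_lit 5) (nat_lit 293) (nat_lit 5) (nat_lit 481) (nat_lit 447) (nat_lit 272))) (XT.nd (nat_lit 78) (nat_lit 1292) (nat_lit 0) (XT.lf (nat_lit 0) (nat_lit 16009506) (nat_lit 684) (nat_lit 2232882763) (nat_lit 76) (nat_lit 26482430028) (nat_lit 283) (nat_lit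 5) (nat_lit 292) (nat_lit 5) (nat_lit 284) (nat_lit 5) (nat_lit 482) (nat_lit 447) (nat_lit 271)) (XT.nd (nat_lit 78) (nat_lit 608) (nat_lit 0) (XT.lf (nat_lit 0) (nat_lit 6787422305) (nat_lit 760) (nat_lit 6960933062) (nat_lit 76) (nat_lit 15483462300) (nat_lit 274) (nat_lit 5) (nat_lit 284) (nat_lit 5) (nat_lit 275) (nat_lit 5) (nat_lit 483) (nat_lit 447) (nat_lit 270)) (XT.lf (nat_lit 0) (nat_lit 13929782956) (nat_lit 684) (nat_lit 11764218399) (nat_lit 76) (nat_lit 4049971151) (nat_lit 266) (nat_lit 5) (nat_lit 275) (nat_lit 5) (nat_lit 267) (nat_lit 5) (nat_lit 484) (nat_lit 447) (nat_lit 269))))) (XT.nd (nat_lit 234) (nat_lit 1064) (nat_lit 0) (XT.nd (nat_lit 78) (nat_lit 1216) (nat_lit 0) (XT.lf (nat_lit 0) (nat_lit 13571751458) (nat_lit 608) (nat_lit 7936299886) (nat_lit 684) (nat_lit 8759008604) (nat_lit 258) (nat_lit 5) (nat_lit 266) (nat_lit 5) (nat_lit 267) (nat_lit 5) (nat_lit 485) (nat_lit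 447) (nat_lit 268)) (XT.nd (nat_lit 78) (nat_lit 684) (nat_lit 0) (XT.lf (nat_lit 0) (nat_lit 9068391833) (nat_lit 532) (nat_lit 20445837850) (nat_lit 608) (nat_lit 1287599769) (nat_lit 251) (nat_lit 5) (nat_lit 258) (nat_lit 5) (nat_lit 259) (nat_lit 5) (nat_lit 486) (nat_lit 447) (nat_lit 267)) (XT.lf (nat_lit 0) (nat_lit 4438607486) (nat_lit 608) (nat_lit 2075371558) (nat_lit 684) (nat_lit 24834030164) (nat_lit 242) (nat_lit 5) (nat_lit 250) (nat_lit 5) (nat_lit 251) (nat_lit 5) (nat_lit 487) (nat_lit 447) (nat_lit 266)))) (XT.nd (nat_lit 78) (nat_lit 1064) (nat_lit 0) (XT.lf (nat_lit 0) (nat_lit 14784240309) (nat_lit 684) (nat_lit 340599915) (nat_lit 76) (nat_lit 16780521967) (nat_lit 242) (nat_lit 5) (nat_lit 251) (nat_lit 5) (nat_lit 243) (nat_lit 5) (nat_lit 488) (nat_lit 447) (nat_lit 265)) (XT.nd (nat_lit 78) (nat_lit 532) (nat_lit 0) (XT.lf (nat_lit 0) (nat_lit 23513870666) (nat_lit 608)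 (nat_lit 5137709801) (nat_lit 76) (nat_lit 3823630680) (nat_lit 235) (nat_lit 5) (nat_lit 243) (nat_lit 5) (nat_lit 236) (nat_lit 5) (nat_lit 489) (nat_lit 447) (nat_lit 264)) (XT.lf (nat_lit 0) (nat_lit 22981664434) (nat_lit 532) (nat_lit 9771076673) (nat_lit 608) (nat_lit 304468028) (nat_lit 228) (nat_lit 5) (nat_lit 235) (nat_lit 5) (nat_lit 236) (nat_lit 5) (nat_lit 490) (nat_lit 447) (nat_lit 263)))))) (XT.nd (nat_lit 59514) (nat_lit 0) (nat_lit 17404) (XT.nd (nat_lit 59280) (nat_lit 0) (nat_lit 18848) (XT.nd (nat_lit 59124) (nat_lit 0) (nat_lit 18772) (XT.lf (nat_lit 0) (nat_lit 8713527586) (nat_lit 608) (nat_lit 15177822253) (nat_lit 76) (nat_lit 9759912147) (nat_lit 220) (nat_lit 5) (nat_lit 228) (nat_lit 5) (nat_lit 221) (nat_lit 5) (nat_lit 491) (nat_lit 447) (nat_lit 262)) (XT.nd (nat_lit 78) (nat_lit 0) (nat_lit 0) (XT.lf (nat_lit 0) (nat_lit 2252825517) (nat_lit 0) (nat_lit 2252825517)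 (nat_lit 1748) (nat_lit 3971815398) (nat_lit 467) (nat_lit 5) (nat_lit 467) (nat_lit 3) (nat_lit 490) (nat_lit 3) (nat_lit 448) (nat_lit 448) (nat_lit 304)) (XT.lf (nat_lit 0) (nat_lit 9540365759) (nat_lit 1748) (nat_lit 36212082) (nat_lit 1824) (nat_lit 7624747291) (nat_lit 467) (nat_lit 5) (nat_lit 490) (nat_lit 3) (nat_lit 491) (nat_lit 5) (nat_lit 449) (nat_lit 448) (nat_lit 303)))) (XT.nd (nat_lit 78) (nat_lit 0) (nat_lit 0) (XT.lf (nat_lit 0) (nat_lit 10203193476) (nat_lit 1748) (nat_lit 4589569194) (nat_lit 1824) (nat_lit 2659990754) (nat_lit 468) (nat_lit 5) (nat_lit 491) (nat_lit 5) (nat_lit 492) (nat_lit 5) (nat_lit 450) (nat_lit 448) (nat_lit 302)) (XT.nd (nat_lit 78) (nat_lit 0) (nat_lit 76) (XT.lf (nat_lit 76) (nat_lit 8478278376) (nat_lit 0) (nat_lit 2513977100) (nat_lit 1824) (nat_lit 6717344141) (nat_lit 469) (nat_lit 5) (nat_lit 468) (nat_lit 5) (nat_lit 492) (nat_lit 5) (nat_lit 451)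 (nat_lit 448) (nat_lit 301)) (XT.lf (nat_lit 76) (nat_lit 4006621260) (nat_lit 0) (nat_lit 7908860661) (nat_lit 1824) (nat_lit 6056461403) (nat_lit 470) (nat_lit 5) (nat_lit 469) (nat_lit 5) (nat_lit 493) (nat_lit 5) (nat_lit 452) (nat_lit 448) (nat_lit 300))))) (XT.nd (nat_lit 234) (nat_lit 1596) (nat_lit 0) (XT.nd (nat_lit 78) (nat_lit 0) (nat_lit 0) (XT.lf (nat_lit 0) (nat_lit 12964594993) (nat_lit 1748) (nat_lit 528290298) (nat_lit 1824) (nat_lit 4747310177) (nat_lit 470) (nat_lit 5) (nat_lit 493) (nat_lit 5) (nat_lit 494) (nat_lit 5) (nat_lit 453) (nat_lit 448) (nat_lit 299)) (XT.nd (nat_lit 78) (nat_lit 0) (nat_lit 76) (XT.lf (nat_lit 76) (nat_lit 13427744629) (nat_lit 0) (nat_lit 745600351) (nat_lit 1824) (nat_lit 4340588796) (nat_lit 471) (nat_lit 5) (nat_lit 470) (nat_lit 5) (nat_lit 494) (nat_lit 5) (nat_lit 454) (nat_lit 448) (nat_lit 298)) (XT.lf (nat_lit 76) (nat_lit 9044602621) (nat_lit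 0) (nat_lit 6504908067) (nat_lit 1824) (nat_lit 3243752291) (nat_lit 472) (nat_lit 5) (nat_lit 471) (nat_lit 5) (nat_lit 495) (nat_lit 5) (nat_lit 455) (nat_lit 448) (nat_lit 297)))) (XT.nd (nat_lit 78) (nat_lit 1748) (nat_lit 0) (XT.lf (nat_lit 76) (nat_lit 4593116474) (nat_lit 0) (nat_lit 12475045824) (nat_lit 1824) (nat_lit 2010787501) (nat_lit 473) (nat_lit 5) (nat_lit 472) (nat_lit 5) (nat_lit 496) (nat_lit 5) (nat_lit 456) (nat_lit 448) (nat_lit 296)) (XT.nd (nat_lit 78) (nat_lit 1824) (nat_lit 0) (XT.lf (nat_lit 76) (nat_lit 72082188) (nat_lit 0) (nat_lit 18663700413) (nat_lit 1824) (nat_lit 635358149) (nat_lit 474) (nat_lit 5) (nat_lit 473) (nat_lit 5) (nat_lit 497) (nat_lit 5) (nat_lit 457) (nat_lit 448) (nat_lit 295)) (XT.lf (nat_lit 0) (nat_lit 942558844) (nat_lit 1824) (nat_lit 4502004855) (nat_lit 1900) (nat_lit 14224004456) (nat_lit 449) (nat_lit 5) (nat_lit 473) (nat_lit 5) (nat_lit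 474) (nat_lit 5) (nat_lit 458) (nat_lit 448) (nat_lit 294))))))) (XT.nd (nat_lit 858) (nat_lit 7752) (nat_lit 0) (XT.nd (nat_lit 390) (nat_lit 4256) (nat_lit 0) (XT.nd (nat_lit 156) (nat_lit 0) (nat_lit 76) (XT.nd (nat_lit 78) (nat_lit 0) (nat_lit 76) (XT.lf (nat_lit 0) (nat_lit 2672920089) (nat_lit 1824) (nat_lit 9157444828) (nat_lit 1900) (nat_lit 8142196275) (nat_lit 450) (nat_lit 5) (nat_lit 474) (nat_lit 5) (nat_lit 475) (nat_lit 5) (nat_lit 459) (nat_lit 448) (nat_lit 293)) (XT.lf (nat_lit 0) (nat_lit 4565780531) (nat_lit 1824) (nat_lit 13887618738) (nat_lit 1900) (nat_lit 1830064516) (nat_lit 451) (nat_lit 5) (nat_lit 475) (nat_lit 5) (nat_lit 476) (nat_lit 5) (nat_lit 460) (nat_lit 448) (nat_lit 292))) (XT.nd (nat_lit 78) (nat_lit 0) (nat_lit 76) (XT.lf (nat_lit 76) (nat_lit 1875998477) (nat_lit 0) (nat_lit 4783275090) (nat_lit 1900) (nat_lit 13941544442) (nat_lit 452) (nat_lit 5) (nat_lit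 451) (nat_lit 5) (nat_lit 476) (nat_lit 5) (nat_lit 461) (nat_lit 448) (nat_lit 291)) (XT.nd (nat_lit 78) (nat_lit 0) (nat_lit 76) (XT.lf (nat_lit 0) (nat_lit 8961003515) (nat_lit 1824) (nat_lit 2691968730) (nat_lit 1900) (nat_lit 9271813418) (nat_lit 452) (nat_lit 5) (nat_lit 476) (nat_lit 5) (nat_lit 477) (nat_lit 5) (nat_lit 462) (nat_lit 448) (nat_lit 290)) (XT.lf (nat_lit 0) (nat_lit 11461431884) (nat_lit 1824) (nat_lit 7307098781) (nat_lit 1900) (nat_lit 2487350152) (nat_lit 453) (nat_lit 5) (nat_lit 477) (nat_lit 5) (nat_lit 478) (nat_lit 5) (nat_lit 463) (nat_lit 448) (nat_lit 289))))) (XT.nd (nat_lit 234) (nat_lit 1900) (nat_lit 0) (XT.nd (nat_lit 78) (nat_lit 2584) (nat_lit 0) (XT.lf (nat_lit 76) (nat_lit 9568868720) (nat_lit 0) (nat_lit 4617280175) (nat_lit 1900) (nat_lit 7407775778) (nat_lit 454) (nat_lit 5) (nat_lit 453) (nat_lit 5) (nat_lit 478) (nat_lit 5) (nat_lit 464) (nat_lit 448)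 (nat_lit 288)) (XT.nd (nat_lit 78) (nat_lit 988) (nat_lit 0) (XT.lf (nat_lit 0) (nat_lit 5104270909) (nat_lit 1672) (nat_lit 12027061164) (nat_lit 1748) (nat_lit 4808004601) (nat_lit 432) (nat_lit 5) (nat_lit 454) (nat_lit 5) (nat_lit 455) (nat_lit 5) (nat_lit 465) (nat_lit 448) (nat_lit 287)) (XT.lf (nat_lit 0) (nat_lit 570740980) (nat_lit 988) (nat_lit 19718202740) (nat_lit 1064) (nat_lit 2003687140) (nat_lit 419) (nat_lit 5) (nat_lit 432) (nat_lit 5) (nat_lit 433) (nat_lit 5) (nat_lit 466) (nat_lit 448) (nat_lit 286)))) (XT.nd (nat_lit 78) (nat_lit 1824) (nat_lit 0) (XT.lf (nat_lit 0) (nat_lit 1059869630) (nat_lit 1064) (nat_lit 4019760013) (nat_lit 76) (nat_lit 17573046289) (nat_lit 418) (nat_lit 5) (nat_lit 432) (nat_lit 5) (nat_lit 419) (nat_lit 5) (nat_lit 467) (nat_lit 448) (nat_lit 285)) (XT.nd (nat_lit 78) (nat_lit 912) (nat_lit 0) (XT.lf (nat_lit 0) (nat_lit 4338961398) (nat_lit 988) (nat_lit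 8706060166) (nat_lit 76) (nat_lit 9975220081) (nat_lit 406) (nat_lit 5) (nat_lit 419) (nat_lit 5) (nat_lit 407) (nat_lit 5) (nat_lit 468) (nat_lit 448) (nat_lit 284)) (XT.lf (nat_lit 0) (nat_lit 7847965879) (nat_lit 988) (nat_lit 13466607787) (nat_lit 76) (nat_lit 2081631017) (nat_lit 394) (nat_lit 5) (nat_lit 407) (nat_lit 5) (nat_lit 395) (nat_lit 5) (nat_lit 469) (nat_lit 448) (nat_lit 283)))))) (XT.nd (nat_lit 468) (nat_lit 3648) (nat_lit 0) (XT.nd (nat_lit 234) (nat_lit 2432) (nat_lit 0) (XT.nd (nat_lit 78) (nat_lit 836) (nat_lit 0) (XT.lf (nat_lit 0) (nat_lit 5437299262) (nat_lit 836) (nat_lit 6198953583) (nat_lit 912) (nat_lit 12143714637) (nat_lit 383) (nat_lit 5) (nat_lit 394) (nat_lit 5) (nat_lit 395) (nat_lit 5) (nat_lit 470) (nat_lit 448) (nat_lit 282)) (XT.nd (nat_lit 78) (nat_lit 0) (nat_lit 0) (XT.lf (nat_lit 0) (nat_lit 861451017) (nat_lit 836) (nat_lit 14827295693) (nat_lit 912) (nat_lit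 8483486376) (nat_lit 372) (nat_lit 5) (nat_lit 383) (nat_lit 5) (nat_lit 384) (nat_lit 5) (nat_lit 471) (nat_lit 448) (nat_lit 281)) (XT.lf (nat_lit 0) (nat_lit 20026079829) (nat_lit 912) (nat_lit 3735204451) (nat_lit 76) (nat_lit 811718142) (nat_lit 372) (nat_lit 5) (nat_lit 384) (nat_lit 5) (nat_lit 373) (nat_lit 5) (nat_lit 472) (nat_lit 448) (nat_lit 280)))) (XT.nd (nat_lit 78) (nat_lit 1672) (nat_lit 0) (XT.lf (nat_lit 0) (nat_lit 16537932798) (nat_lit 760) (nat_lit 8154798357) (nat_lit 836) (nat_lit 289080742) (nat_lit 362) (nat_lit 5) (nat_lit 372) (nat_lit 5) (nat_lit 373) (nat_lit 5) (nat_lit 473) (nat_lit 448) (nat_lit 279)) (XT.nd (nat_lit 78) (nat_lit 760) (nat_lit 0) (XT.lf (nat_lit 0) (nat_lit 4192491324) (nat_lit 912) (nat_lit 13258948801) (nat_lit 76) (nat_lit 7947920139) (nat_lit 350) (nat_lit 5) (nat_lit 362) (nat_lit 5) (nat_lit 351) (nat_lit 5) (nat_lit 474) (nat_lit 448) (nat_lit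 278)) (XT.lf (nat_lit 0) (nat_lit 7665767301) (nat_lit 760) (nat_lit 1293686468) (nat_lit 836) (nat_lit 16866846627) (nat_lit 340) (nat_lit 5) (nat_lit 350) (nat_lit 5) (nat_lit 351) (nat_lit 5) (nat_lit 475) (nat_lit 448) (nat_lit 277))))) (XT.nd (nat_lit 234) (nat_lit 2204) (nat_lit 0) (XT.nd (nat_lit 78) (nat_lit 684) (nat_lit 0) (XT.lf (nat_lit 0) (nat_lit 3067991121) (nat_lit 760) (nat_lit 11004549972) (nat_lit 836) (nat_lit 12189446238) (nat_lit 330) (nat_lit 5) (nat_lit 340) (nat_lit 5) (nat_lit 341) (nat_lit 5) (nat_lit 476) (nat_lit 448) (nat_lit 276)) (XT.nd (nat_lit 78) (nat_lit 684) (nat_lit 0) (XT.lf (nat_lit 0) (nat_lit 19500951184) (nat_lit 836) (nat_lit 1579418510) (nat_lit 76) (nat_lit 5627137469) (nat_lit 330) (nat_lit 5) (nat_lit 341) (nat_lit 5) (nat_lit 331) (nat_lit 5) (nat_lit 477) (nat_lit 448) (nat_lit 275)) (XT.lf (nat_lit 0) (nat_lit 20876550389) (nat_lit 684) (nat_lit 4418246130)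 (nat_lit 760) (nat_lit 1867545276) (nat_lit 321) (nat_lit 5) (nat_lit 330) (nat_lit 5) (nat_lit 331) (nat_lit 5) (nat_lit 478) (nat_lit 448) (nat_lit 274)))) (XT.nd (nat_lit 78) (nat_lit 1368) (nat_lit 0) (XT.lf (nat_lit 0) (nat_lit 3779676882) (nat_lit 836) (nat_lit 11127949229) (nat_lit 76) (nat_lit 12718811186) (nat_lit 310) (nat_lit 5) (nat_lit 321) (nat_lit 5) (nat_lit 311) (nat_lit 5) (nat_lit 479) (nat_lit 448) (nat_lit 273)) (XT.nd (nat_lit 78) (nat_lit 684) (nat_lit 0) (XT.lf (nat_lit 0) (nat_lit 9730684158) (nat_lit 760) (nat_lit 16059201712) (nat_lit 76) (nat_lit 2311128882) (nat_lit 301) (nat_lit 5) (nat_lit 311) (nat_lit 5) (nat_lit 302) (nat_lit 5) (nat_lit 480) (nat_lit 448) (nat_lit 272)) (XT.lf (nat_lit 0) (nat_lit 7461100137) (nat_lit 684) (nat_lit 8616979607) (nat_lit 760) (nat_lit 12507393402) (nat_lit 292) (nat_lit 5) (nat_lit 301) (nat_lit 5) (nat_lit 302) (nat_lit 5) (nat_lit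 481) (nat_lit 448) (nat_lit 271))))))))
noncomputable def xc113 : XT := (XT.nd (nat_lit 60996) (nat_lit 0) (nat_lit 2356) (XT.nd (nat_lit 60060) (nat_lit 0) (nat_lit 16264) (XT.nd (nat_lit 390) (nat_lit 1748) (nat_lit 0) (XT.nd (nat_lit 156) (nat_lit 1900) (nat_lit 0) (XT.nd (nat_lit 78) (nat_lit 76) (nat_lit 0) (XT.lf (nat_lit 0) (nat_lit 2794349358) (nat_lit 608) (nat_lit 20002072160) (nat_lit 684) (nat_lit 6284434042) (nat_lit 284) (nat_lit 5) (nat_lit 292) (nat_lit 5) (nat_lit 293) (nat_lit 5) (nat_lit 482) (nat_lit 448) (nat_lit 270)) (XT.lf (nat_lit 0) (nat_lit 319324115) (nat_lit 684) (nat_lit 1935024441) (nat_lit 76) (nat_lit 27332820304) (nat_lit 283) (nat_lit 5) (nat_lit 292) (nat_lit 5) (nat_lit 284) (nat_lit 5) (nat_lit 483) (nat_lit 448) (nat_lit 269))) (XT.nd (nat_lit 78) (nat_lit 1216) (nat_lit 0) (XT.lf (nat_lit 0) (nat_lit 7287795582) (nat_lit 760) (nat_lit 6805279497) (nat_lit 76)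 (nat_lit 16009726746) (nat_lit 274) (nat_lit 5) (nat_lit 284) (nat_lit 5) (nat_lit 275) (nat_lit 5) (nat_lit 484) (nat_lit 448) (nat_lit 268)) (XT.nd (nat_lit 78) (nat_lit 608) (nat_lit 0) (XT.lf (nat_lit 0) (nat_lit 14638554258) (nat_lit 684) (nat_lit 11753175999) (nat_lit 76) (nat_lit 4238709538) (nat_lit 266) (nat_lit 5) (nat_lit 275) (nat_lit 5) (nat_lit 267) (nat_lit 5) (nat_lit 485) (nat_lit 448) (nat_lit 267)) (XT.lf (nat_lit 0) (nat_lit 14336967990) (nat_lit 608) (nat_lit 8101055328) (nat_lit 684) (nat_lit 8731320490) (nat_lit 258) (nat_lit 5) (nat_lit 266) (nat_lit 5) (nat_lit 267) (nat_lit 5) (nat_lit 486) (nat_lit 448) (nat_lit 266))))) (XT.nd (nat_lit 234) (nat_lit 532) (nat_lit 0) (XT.nd (nat_lit 78) (nat_lit 684) (nat_lit 0) (XT.lf (nat_lit 0) (nat_lit 9697865018) (nat_lit 532) (nat_lit 20981011748) (nat_lit 608) (nat_lit 1041390806) (nat_lit 251) (nat_lit 5) (nat_lit 258) (nat_lit 5)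 (nat_lit 259) (nat_lit 5) (nat_lit 487) (nat_lit 448) (nat_lit 265)) (XT.nd (nat_lit 78) (nat_lit 0) (nat_lit 0) (XT.lf (nat_lit 0) (nat_lit 4927094693) (nat_lit 608) (nat_lit 2057524606) (nat_lit 684) (nat_lit 25298294967) (nat_lit 242) (nat_lit 5) (nat_lit 250) (nat_lit 5) (nat_lit 251) (nat_lit 5) (nat_lit 488) (nat_lit 448) (nat_lit 264)) (XT.lf (nat_lit 0) (nat_lit 15495477226) (nat_lit 684) (nat_lit 969286) (nat_lit 76) (nat_lit 17360692448) (nat_lit 242) (nat_lit 5) (nat_lit 251) (nat_lit 5) (nat_lit 243) (nat_lit 5) (nat_lit 489) (nat_lit 448) (nat_lit 263)))) (XT.nd (nat_lit 59280) (nat_lit 0) (nat_lit 17632) (XT.lf (nat_lit 0) (nat_lit 24481966287) (nat_lit 608) (nat_lit 4942928941) (nat_lit 76) (nat_lit 4019289630) (nat_lit 235) (nat_lit 5) (nat_lit 243) (nat_lit 5) (nat_lit 236) (nat_lit 5) (nat_lit 490) (nat_lit 448) (nat_lit 262)) (XT.nd (nat_lit 78) (nat_lit 0) (nat_lit 0) (XT.lf (nat_lit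 0) (nat_lit 2490623878) (nat_lit 0) (nat_lit 2490623878) (nat_lit 1748) (nat_lit 3743680799) (nat_lit 467) (nat_lit 5) (nat_lit 467) (nat_lit 3) (nat_lit 490) (nat_lit 3) (nat_lit 449) (nat_lit 449) (nat_lit 302)) (XT.lf (nat_lit 76) (nat_lit 312785551) (nat_lit 0) (nat_lit 10174699760) (nat_lit 1824) (nat_lit 7216557856) (nat_lit 468) (nat_lit 5) (nat_lit 467) (nat_lit 5) (nat_lit 491) (nat_lit 5) (nat_lit 450) (nat_lit 449) (nat_lit 301)))))) (XT.nd (nat_lit 468) (nat_lit 1444) (nat_lit 0) (XT.nd (nat_lit 234) (nat_lit 0) (nat_lit 152) (XT.nd (nat_lit 78) (nat_lit 0) (nat_lit 0) (XT.lf (nat_lit 0) (nat_lit 11149228611) (nat_lit 1748) (nat_lit 4371991460) (nat_lit 1824) (nat_lit 2442216638) (nat_lit 468) (nat_lit 5) (nat_lit 491) (nat_lit 5) (nat_lit 492) (nat_lit 5) (nat_lit 451) (nat_lit 449) (nat_lit 300)) (XT.nd (nat_lit 78) (nat_lit 0) (nat_lit 76) (XT.lf (nat_lit 76) (nat_lit 9082127788) (nat_lit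 0) (nat_lit 2863464866) (nat_lit 1824) (nat_lit 6282725959) (nat_lit 469) (nat_lit 5) (nat_lit 468) (nat_lit 5) (nat_lit 492) (nat_lit 5) (nat_lit 452) (nat_lit 449) (nat_lit 299)) (XT.lf (nat_lit 76) (nat_lit 4484766361) (nat_lit 0) (nat_lit 8394183733) (nat_lit 1824) (nat_lit 5619936696) (nat_lit 470) (nat_lit 5) (nat_lit 469) (nat_lit 5) (nat_lit 493) (nat_lit 5) (nat_lit 453) (nat_lit 449) (nat_lit 298)))) (XT.nd (nat_lit 78) (nat_lit 0) (nat_lit 0) (XT.lf (nat_lit 0) (nat_lit 13940322321) (nat_lit 1748) (nat_lit 183195464) (nat_lit 1824) (nat_lit 4652055758) (nat_lit 470) (nat_lit 5) (nat_lit 493) (nat_lit 5) (nat_lit 494) (nat_lit 5) (nat_lit 454) (nat_lit 449) (nat_lit 297)) (XT.nd (nat_lit 78) (nat_lit 0) (nat_lit 76) (XT.lf (nat_lit 76) (nat_lit 14185664630) (nat_lit 0) (nat_lit 984884685) (nat_lit 1824) (nat_lit 3887273072) (nat_lit 471) (nat_lit 5) (nat_lit 470) (nat_lit 5) (nat_lit 494)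 (nat_lit 5) (nat_lit 455) (nat_lit 449) (nat_lit 296)) (XT.lf (nat_lit 76) (nat_lit 9677995352) (nat_lit 0) (nat_lit 6894327687) (nat_lit 1824) (nat_lit 2773524569) (nat_lit 472) (nat_lit 5) (nat_lit 471) (nat_lit 5) (nat_lit 495) (nat_lit 5) (nat_lit 456) (nat_lit 449) (nat_lit 295))))) (XT.nd (nat_lit 234) (nat_lit 0) (nat_lit 76) (XT.nd (nat_lit 78) (nat_lit 1748) (nat_lit 0) (XT.lf (nat_lit 76) (nat_lit 5099362933) (nat_lit 0) (nat_lit 13022135199) (nat_lit 1824) (nat_lit 1518910148) (nat_lit 473) (nat_lit 5) (nat_lit 472) (nat_lit 5) (nat_lit 496) (nat_lit 5) (nat_lit 457) (nat_lit 449) (nat_lit 294)) (XT.nd (nat_lit 78) (nat_lit 1824) (nat_lit 0) (XT.lf (nat_lit 76) (nat_lit 448556891) (nat_lit 0) (nat_lit 19376165186) (nat_lit 1824) (nat_lit 116933834) (nat_lit 474) (nat_lit 5) (nat_lit 473) (nat_lit 5) (nat_lit 497) (nat_lit 5) (nat_lit 458) (nat_lit 449) (nat_lit 293)) (XT.lf (nat_lit 0) (nat_lit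 1485821868) (nat_lit 1824) (nat_lit 4266733361) (nat_lit 1900) (nat_lit 14495692441) (nat_lit 449) (nat_lit 5) (nat_lit 473) (nat_lit 5) (nat_lit 474) (nat_lit 5) (nat_lit 459) (nat_lit 449) (nat_lit 292)))) (XT.nd (nat_lit 78) (nat_lit 0) (nat_lit 76) (XT.lf (nat_lit 0) (nat_lit 3254563606) (nat_lit 1824) (nat_lit 9056825971) (nat_lit 1900) (nat_lit 8250243794) (nat_lit 450) (nat_lit 5) (nat_lit 474) (nat_lit 5) (nat_lit 475) (nat_lit 5) (nat_lit 460) (nat_lit 449) (nat_lit 291)) (XT.nd (nat_lit 78) (nat_lit 0) (nat_lit 0) (XT.lf (nat_lit 0) (nat_lit 5191222695) (nat_lit 1824) (nat_lit 13924357197) (nat_lit 1900) (nat_lit 1766545094) (nat_lit 451) (nat_lit 5) (nat_lit 475) (nat_lit 5) (nat_lit 476) (nat_lit 5) (nat_lit 461) (nat_lit 449) (nat_lit 290)) (XT.lf (nat_lit 76) (nat_lit 2306005268) (nat_lit 0) (nat_lit 5029714491) (nat_lit 1900) (nat_lit 13873518228) (nat_lit 452) (nat_lit 5) (nat_lit 451)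 (nat_lit 5) (nat_lit 476) (nat_lit 5) (nat_lit 462) (nat_lit 449) (nat_lit 289))))))) (XT.nd (nat_lit 936) (nat_lit 7220) (nat_lit 0) (XT.nd (nat_lit 468) (nat_lit 4332) (nat_lit 0) (XT.nd (nat_lit 234) (nat_lit 2584) (nat_lit 0) (XT.nd (nat_lit 78) (nat_lit 0) (nat_lit 76) (XT.lf (nat_lit 0) (nat_lit 9691969177) (nat_lit 1824) (nat_lit 2399912489) (nat_lit 1900) (nat_lit 9451335727) (nat_lit 452) (nat_lit 5) (nat_lit 476) (nat_lit 5) (nat_lit 477) (nat_lit 5) (nat_lit 463) (nat_lit 449) (nat_lit 288)) (XT.nd (nat_lit 78) (nat_lit 0) (nat_lit 0) (XT.lf (nat_lit 0) (nat_lit 12255784167) (nat_lit 1824) (nat_lit 7149909416) (nat_lit 1900) (nat_lit 2478786358) (nat_lit 453) (nat_lit 5) (nat_lit 477) (nat_lit 5) (nat_lit 478) (nat_lit 5) (nat_lit 464) (nat_lit 449) (nat_lit 287)) (XT.lf (nat_lit 76) (nat_lit 10226230430) (nat_lit 0) (nat_lit 4825294832) (nat_lit 1900) (nat_lit 7181356154) (nat_lit 454)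 (nat_lit 5) (nat_lit 453) (nat_lit 5) (nat_lit 478) (nat_lit 5) (nat_lit 465) (nat_lit 449) (nat_lit 286)))) (XT.nd (nat_lit 78) (nat_lit 1064) (nat_lit 0) (XT.lf (nat_lit 0) (nat_lit 5630848211) (nat_lit 1672) (nat_lit 12443392858) (nat_lit 1748) (nat_lit 4514633063) (nat_lit 432) (nat_lit 5) (nat_lit 454) (nat_lit 5) (nat_lit 455) (nat_lit 5) (nat_lit 466) (nat_lit 449) (nat_lit 285)) (XT.nd (nat_lit 78) (nat_lit 76) (nat_lit 0) (XT.lf (nat_lit 0) (nat_lit 964110664) (nat_lit 988) (nat_lit 20352069033) (nat_lit 1064) (nat_lit 1636797316) (nat_lit 419) (nat_lit 5) (nat_lit 432) (nat_lit 5) (nat_lit 433) (nat_lit 5) (nat_lit 467) (nat_lit 449) (nat_lit 284)) (XT.lf (nat_lit 0) (nat_lit 1500792176) (nat_lit 1064) (nat_lit 3769568486) (nat_lit 76) (nat_lit 18053654559) (nat_lit 418) (nat_lit 5) (nat_lit 432) (nat_lit 5) (nat_lit 419) (nat_lit 5) (nat_lit 468) (nat_lit 449) (nat_lit 283))))) (XT.nd (nat_lit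 234) (nat_lit 1672) (nat_lit 0) (XT.nd (nat_lit 78) (nat_lit 1748) (nat_lit 0) (XT.lf (nat_lit 0) (nat_lit 4868482705) (nat_lit 988) (nat_lit 8594198843) (nat_lit 76) (nat_lit 10240123539) (nat_lit 406) (nat_lit 5) (nat_lit 419) (nat_lit 5) (nat_lit 407) (nat_lit 5) (nat_lit 469) (nat_lit 449) (nat_lit 282)) (XT.nd (nat_lit 78) (nat_lit 836) (nat_lit 0) (XT.lf (nat_lit 0) (nat_lit 8473358382) (nat_lit 988) (nat_lit 13495607834) (nat_lit 76) (nat_lit 2121270432) (nat_lit 394) (nat_lit 5) (nat_lit 407) (nat_lit 5) (nat_lit 395) (nat_lit 5) (nat_lit 470) (nat_lit 449) (nat_lit 281)) (XT.lf (nat_lit 0) (nat_lit 5969332526) (nat_lit 836) (nat_lit 6396998797) (nat_lit 912) (nat_lit 12119361865) (nat_lit 383) (nat_lit 5) (nat_lit 394) (nat_lit 5) (nat_lit 395) (nat_lit 5) (nat_lit 471) (nat_lit 449) (nat_lit 280)))) (XT.nd (nat_lit 78) (nat_lit 836) (nat_lit 0) (XT.lf (nat_lit 0) (nat_lit 1257849603) (nat_lit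 836) (nat_lit 15273783343) (nat_lit 912) (nat_lit 8358270714) (nat_lit 372) (nat_lit 5) (nat_lit 383) (nat_lit 5) (nat_lit 384) (nat_lit 5) (nat_lit 472) (nat_lit 449) (nat_lit 279)) (XT.nd (nat_lit 78) (nat_lit 836) (nat_lit 0) (XT.lf (nat_lit 0) (nat_lit 20988234068) (nat_lit 912) (nat_lit 3480209799) (nat_lit 76) (nat_lit 834470761) (nat_lit 372) (nat_lit 5) (nat_lit 384) (nat_lit 5) (nat_lit 373) (nat_lit 5) (nat_lit 473) (nat_lit 449) (nat_lit 278)) (XT.lf (nat_lit 0) (nat_lit 61730176) (nat_lit 836) (nat_lit 8329392991) (nat_lit 76) (nat_lit 17333022186) (nat_lit 361) (nat_lit 5) (nat_lit 372) (nat_lit 5) (nat_lit 362) (nat_lit 5) (nat_lit 474) (nat_lit 449) (nat_lit 277)))))) (XT.nd (nat_lit 468) (nat_lit 3344) (nat_lit 0) (XT.nd (nat_lit 234) (nat_lit 1520) (nat_lit 0) (XT.nd (nat_lit 78) (nat_lit 1520) (nat_lit 0) (XT.lf (nat_lit 0) (nat_lit 4665904944) (nat_lit 912) (nat_lit 13289866362)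 (nat_lit 76) (nat_lit 8198570386) (nat_lit 350) (nat_lit 5) (nat_lit 362) (nat_lit 5) (nat_lit 351) (nat_lit 5) (nat_lit 475) (nat_lit 449) (nat_lit 276)) (XT.nd (nat_lit 78) (nat_lit 760) (nat_lit 0) (XT.lf (nat_lit 0) (nat_lit 8256639503) (nat_lit 760) (nat_lit 1311454552) (nat_lit 836) (nat_lit 17026152975) (nat_lit 340) (nat_lit 5) (nat_lit 350) (nat_lit 5) (nat_lit 351) (nat_lit 5) (nat_lit 476) (nat_lit 449) (nat_lit 275)) (XT.lf (nat_lit 0) (nat_lit 3521671840) (nat_lit 760) (nat_lit 11305484076) (nat_lit 836) (nat_lit 12215998336) (nat_lit 330) (nat_lit 5) (nat_lit 340) (nat_lit 5) (nat_lit 341) (nat_lit 5) (nat_lit 477) (nat_lit 449) (nat_lit 274)))) (XT.nd (nat_lit 78) (nat_lit 1520) (nat_lit 0) (XT.lf (nat_lit 0) (nat_lit 20408919711) (nat_lit 836) (nat_lit 1269379625) (nat_lit 76) (nat_lit 5823931593) (nat_lit 330) (nat_lit 5) (nat_lit 341) (nat_lit 5) (nat_lit 331) (nat_lit 5) (nat_lit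 478) (nat_lit 449) (nat_lit 273)) (XT.nd (nat_lit 78) (nat_lit 836) (nat_lit 0) (XT.lf (nat_lit 0) (nat_lit 21854469603) (nat_lit 684) (nat_lit 4514987752) (nat_lit 760) (nat_lit 1601396949) (nat_lit 321) (nat_lit 5) (nat_lit 330) (nat_lit 5) (nat_lit 331) (nat_lit 5) (nat_lit 479) (nat_lit 449) (nat_lit 272)) (XT.lf (nat_lit 0) (nat_lit 4204283220) (nat_lit 836) (nat_lit 11105668461) (nat_lit 76) (nat_lit 13139015002) (nat_lit 310) (nat_lit 5) (nat_lit 321) (nat_lit 5) (nat_lit 311) (nat_lit 5) (nat_lit 480) (nat_lit 449) (nat_lit 271))))) (XT.nd (nat_lit 234) (nat_lit 1368) (nat_lit 0) (XT.nd (nat_lit 78) (nat_lit 1292) (nat_lit 0) (XT.lf (nat_lit 0) (nat_lit 10327328934) (nat_lit 760) (nat_lit 16184807458) (nat_lit 76) (nat_lit 2425776054) (nat_lit 301) (nat_lit 5) (nat_lit 311) (nat_lit 5) (nat_lit 302) (nat_lit 5) (nat_lit 481) (nat_lit 449) (nat_lit 270)) (XT.nd (nat_lit 78) (nat_lit 608) (nat_lit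 0) (XT.lf (nat_lit 0) (nat_lit 8035325007) (nat_lit 684) (nat_lit 8823220894) (nat_lit 760) (nat_lit 12578491816) (nat_lit 292) (nat_lit 5) (nat_lit 301) (nat_lit 5) (nat_lit 302) (nat_lit 5) (nat_lit 482) (nat_lit 449) (nat_lit 269)) (XT.lf (nat_lit 0) (nat_lit 3228455446) (nat_lit 608) (nat_lit 20543902961) (nat_lit 684) (nat_lit 6175045868) (nat_lit 284) (nat_lit 5) (nat_lit 292) (nat_lit 5) (nat_lit 293) (nat_lit 5) (nat_lit 483) (nat_lit 449) (nat_lit 268)))) (XT.nd (nat_lit 78) (nat_lit 1292) (nat_lit 0) (XT.lf (nat_lit 0) (nat_lit 614354232) (nat_lit 684) (nat_lit 1649173954) (nat_lit 76) (nat_lit 28205512402) (nat_lit 283) (nat_lit 5) (nat_lit 292) (nat_lit 5) (nat_lit 284) (nat_lit 5) (nat_lit 484) (nat_lit 449) (nat_lit 267)) (XT.nd (nat_lit 78) (nat_lit 608) (nat_lit 0) (XT.lf (nat_lit 0) (nat_lit 7786145360) (nat_lit 760) (nat_lit 6665879057) (nat_lit 76) (nat_lit 16548233816) (nat_lit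 274) (nat_lit 5) (nat_lit 284) (nat_lit 5) (nat_lit 275) (nat_lit 5) (nat_lit 485) (nat_lit 449) (nat_lit 266)) (XT.lf (nat_lit 0) (nat_lit 15351891123) (nat_lit 684) (nat_lit 11762695634) (nat_lit 76) (nat_lit 4429250269) (nat_lit 266) (nat_lit 5) (nat_lit 275) (nat_lit 5) (nat_lit 267) (nat_lit 5) (nat_lit 486) (nat_lit 449) (nat_lit 265))))))))
noncomputable def xc114 : XT := (XT.nd (nat_lit 61074) (nat_lit 0) (nat_lit 532) (XT.nd (nat_lit 60138) (nat_lit 0) (nat_lit 13984) (XT.nd (nat_lit 59670) (nat_lit 0) (nat_lit 17632) (XT.nd (nat_lit 156) (nat_lit 1216) (nat_lit 0) (XT.nd (nat_lit 78) (nat_lit 532) (nat_lit 0) (XT.lf (nat_lit 0) (nat_lit 15104586681) (nat_lit 608) (nat_lit 8274963078) (nat_lit 684) (nat_lit 8719475232) (nat_lit 258) (nat_lit 5) (nat_lit 266) (nat_lit 5) (nat_lit 267) (nat_lit 5) (nat_lit 487) (nat_lit 449) (nat_lit 264)) (XT.lf (nat_lit 0) (nat_lit 10325704946) (nat_lit 532)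 (nat_lit 21536729935) (nat_lit 608) (nat_lit 804146381) (nat_lit 251) (nat_lit 5) (nat_lit 258) (nat_lit 5) (nat_lit 259) (nat_lit 5) (nat_lit 488) (nat_lit 449) (nat_lit 263))) (XT.nd (nat_lit 78) (nat_lit 532) (nat_lit 0) (XT.lf (nat_lit 0) (nat_lit 5409839180) (nat_lit 608) (nat_lit 2043740778) (nat_lit 684) (nat_lit 25792604263) (nat_lit 242) (nat_lit 5) (nat_lit 250) (nat_lit 5) (nat_lit 251) (nat_lit 5) (nat_lit 489) (nat_lit 449) (nat_lit 262)) (XT.nd (nat_lit 59358) (nat_lit 0) (nat_lit 17632) (XT.lf (nat_lit 0) (nat_lit 333136667) (nat_lit 532) (nat_lit 15881709895) (nat_lit 608) (nat_lit 17622888279) (nat_lit 235) (nat_lit 5) (nat_lit 242) (nat_lit 5) (nat_lit 243) (nat_lit 5) (nat_lit 490) (nat_lit 449) (nat_lit 261)) (XT.lf (nat_lit 0) (nat_lit 2725785233) (nat_lit 0) (nat_lit 2725785233) (nat_lit 1748) (nat_lit 3528637975) (nat_lit 467) (nat_lit 5) (nat_lit 467) (nat_lit 3) (nat_lit 490)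 (nat_lit 3) (nat_lit 450) (nat_lit 450) (nat_lit 300))))) (XT.nd (nat_lit 234) (nat_lit 0) (nat_lit 152) (XT.nd (nat_lit 78) (nat_lit 0) (nat_lit 76) (XT.lf (nat_lit 76) (nat_lit 652624084) (nat_lit 0) (nat_lit 10772686809) (nat_lit 1824) (nat_lit 6797291946) (nat_lit 468) (nat_lit 5) (nat_lit 467) (nat_lit 5) (nat_lit 491) (nat_lit 5) (nat_lit 451) (nat_lit 450) (nat_lit 299)) (XT.nd (nat_lit 78) (nat_lit 0) (nat_lit 0) (XT.lf (nat_lit 0) (nat_lit 12086909664) (nat_lit 1748) (nat_lit 4168280048) (nat_lit 1824) (nat_lit 2234991255) (nat_lit 468) (nat_lit 5) (nat_lit 491) (nat_lit 5) (nat_lit 492) (nat_lit 5) (nat_lit 452) (nat_lit 450) (nat_lit 298)) (XT.lf (nat_lit 76) (nat_lit 9684029891) (nat_lit 0) (nat_lit 3207704614) (nat_lit 1824) (nat_lit 5871586184) (nat_lit 469) (nat_lit 5) (nat_lit 468) (nat_lit 5) (nat_lit 492) (nat_lit 5) (nat_lit 453) (nat_lit 450) (nat_lit 297)))) (XT.nd (nat_lit 78)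 (nat_lit 0) (nat_lit 76) (XT.lf (nat_lit 76) (nat_lit 4956708223) (nat_lit 0) (nat_lit 8879826996) (nat_lit 1824) (nat_lit 5205804521) (nat_lit 470) (nat_lit 5) (nat_lit 469) (nat_lit 5) (nat_lit 493) (nat_lit 5) (nat_lit 454) (nat_lit 450) (nat_lit 296)) (XT.nd (nat_lit 78) (nat_lit 0) (nat_lit 0) (XT.lf (nat_lit 76) (nat_lit 153546366) (nat_lit 0) (nat_lit 14759087910) (nat_lit 1824) (nat_lit 4415037709) (nat_lit 471) (nat_lit 5) (nat_lit 470) (nat_lit 5) (nat_lit 494) (nat_lit 5) (nat_lit 455) (nat_lit 450) (nat_lit 295)) (XT.lf (nat_lit 76) (nat_lit 14945938748) (nat_lit 0) (nat_lit 1218895665) (nat_lit 1824) (nat_lit 3453855081) (nat_lit 471) (nat_lit 5) (nat_lit 470) (nat_lit 5) (nat_lit 494) (nat_lit 5) (nat_lit 456) (nat_lit 450) (nat_lit 294)))))) (XT.nd (nat_lit 468) (nat_lit 2280) (nat_lit 0) (XT.nd (nat_lit 234) (nat_lit 0) (nat_lit 0) (XT.nd (nat_lit 78) (nat_lit 1672) (nat_lit 0) (XT.lf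 (nat_lit 76) (nat_lit 10309606447) (nat_lit 0) (nat_lit 7284277867) (nat_lit 1824) (nat_lit 2321769149) (nat_lit 472) (nat_lit 5) (nat_lit 471) (nat_lit 5) (nat_lit 495) (nat_lit 5) (nat_lit 457) (nat_lit 450) (nat_lit 293)) (XT.nd (nat_lit 78) (nat_lit 1748) (nat_lit 0) (XT.lf (nat_lit 76) (nat_lit 5599646079) (nat_lit 0) (nat_lit 13575715647) (nat_lit 1824) (nat_lit 1043975070) (nat_lit 473) (nat_lit 5) (nat_lit 472) (nat_lit 5) (nat_lit 496) (nat_lit 5) (nat_lit 458) (nat_lit 450) (nat_lit 292)) (XT.lf (nat_lit 0) (nat_lit 381124425) (nat_lit 1824) (nat_lit 19717564722) (nat_lit 1900) (nat_lit 431156811) (nat_lit 449) (nat_lit 5) (nat_lit 473) (nat_lit 5) (nat_lit 474) (nat_lit 5) (nat_lit 459) (nat_lit 450) (nat_lit 291)))) (XT.nd (nat_lit 78) (nat_lit 0) (nat_lit 76) (XT.lf (nat_lit 0) (nat_lit 2015820464) (nat_lit 1824) (nat_lit 4045662273) (nat_lit 1900) (nat_lit 14784430546) (nat_lit 449) (nat_lit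 5) (nat_lit 473) (nat_lit 5) (nat_lit 474) (nat_lit 5) (nat_lit 460) (nat_lit 450) (nat_lit 290)) (XT.nd (nat_lit 78) (nat_lit 0) (nat_lit 76) (XT.lf (nat_lit 0) (nat_lit 3824870808) (nat_lit 1824) (nat_lit 8974734726) (nat_lit 1900) (nat_lit 8369352231) (nat_lit 450) (nat_lit 5) (nat_lit 474) (nat_lit 5) (nat_lit 475) (nat_lit 5) (nat_lit 461) (nat_lit 450) (nat_lit 289)) (XT.lf (nat_lit 0) (nat_lit 5807388020) (nat_lit 1824) (nat_lit 13984005056) (nat_lit 1900) (nat_lit 1707917959) (nat_lit 451) (nat_lit 5) (nat_lit 475) (nat_lit 5) (nat_lit 476) (nat_lit 5) (nat_lit 462) (nat_lit 450) (nat_lit 288))))) (XT.nd (nat_lit 234) (nat_lit 2432) (nat_lit 0) (XT.nd (nat_lit 78) (nat_lit 0) (nat_lit 76) (XT.lf (nat_lit 76) (nat_lit 2727458815) (nat_lit 0) (nat_lit 5277637831) (nat_lit 1900) (nat_lit 13831365261) (nat_lit 452) (nat_lit 5) (nat_lit 451) (nat_lit 5) (nat_lit 476) (nat_lit 5) (nat_lit 463) (nat_lit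 450) (nat_lit 287)) (XT.nd (nat_lit 78) (nat_lit 0) (nat_lit 76) (XT.lf (nat_lit 0) (nat_lit 10418335338) (nat_lit 1824) (nat_lit 2120495685) (nat_lit 1900) (nat_lit 9641905591) (nat_lit 452) (nat_lit 5) (nat_lit 476) (nat_lit 5) (nat_lit 477) (nat_lit 5) (nat_lit 464) (nat_lit 450) (nat_lit 286)) (XT.lf (nat_lit 0) (nat_lit 13048105939) (nat_lit 1824) (nat_lit 7009611404) (nat_lit 1900) (nat_lit 2474740769) (nat_lit 453) (nat_lit 5) (nat_lit 477) (nat_lit 5) (nat_lit 478) (nat_lit 5) (nat_lit 465) (nat_lit 450) (nat_lit 285)))) (XT.nd (nat_lit 78) (nat_lit 2584) (nat_lit 0) (XT.lf (nat_lit 76) (nat_lit 10882056506) (nat_lit 0) (nat_lit 5035560560) (nat_lit 1900) (nat_lit 6973898452) (nat_lit 454) (nat_lit 5) (nat_lit 453) (nat_lit 5) (nat_lit 478) (nat_lit 5) (nat_lit 466) (nat_lit 450) (nat_lit 284)) (XT.nd (nat_lit 78) (nat_lit 988) (nat_lit 0) (XT.lf (nat_lit 0) (nat_lit 6151785322) (nat_lit 1672)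 (nat_lit 12869027435) (nat_lit 1748) (nat_lit 4237581079) (nat_lit 432) (nat_lit 5) (nat_lit 454) (nat_lit 5) (nat_lit 455) (nat_lit 5) (nat_lit 467) (nat_lit 450) (nat_lit 283)) (XT.lf (nat_lit 0) (nat_lit 1347683296) (nat_lit 988) (nat_lit 21002521960) (nat_lit 1064) (nat_lit 1283412370) (nat_lit 419) (nat_lit 5) (nat_lit 432) (nat_lit 5) (nat_lit 433) (nat_lit 5) (nat_lit 468) (nat_lit 450) (nat_lit 282))))))) (XT.nd (nat_lit 858) (nat_lit 6688) (nat_lit 0) (XT.nd (nat_lit 390) (nat_lit 3192) (nat_lit 0) (XT.nd (nat_lit 156) (nat_lit 2584) (nat_lit 0) (XT.nd (nat_lit 78) (nat_lit 912) (nat_lit 0) (XT.lf (nat_lit 0) (nat_lit 1931456866) (nat_lit 1064) (nat_lit 3533155749) (nat_lit 76) (nat_lit 18551355138) (nat_lit 418) (nat_lit 5) (nat_lit 432) (nat_lit 5) (nat_lit 419) (nat_lit 5) (nat_lit 469) (nat_lit 450) (nat_lit 281)) (XT.lf (nat_lit 0) (nat_lit 5390965187) (nat_lit 988) (nat_lit 8500395882)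 (nat_lit 76) (nat_lit 10514946111) (nat_lit 406) (nat_lit 5) (nat_lit 419) (nat_lit 5) (nat_lit 407) (nat_lit 5) (nat_lit 470) (nat_lit 450) (nat_lit 280))) (XT.nd (nat_lit 78) (nat_lit 1672) (nat_lit 0) (XT.lf (nat_lit 0) (nat_lit 9095127732) (nat_lit 988) (nat_lit 13547004312) (nat_lit 76) (nat_lit 2163408388) (nat_lit 394) (nat_lit 5) (nat_lit 407) (nat_lit 5) (nat_lit 395) (nat_lit 5) (nat_lit 471) (nat_lit 450) (nat_lit 279)) (XT.nd (nat_lit 78) (nat_lit 836) (nat_lit 0) (XT.lf (nat_lit 0) (nat_lit 6496149599) (nat_lit 836) (nat_lit 6600292121) (nat_lit 912) (nat_lit 12116589426) (nat_lit 383) (nat_lit 5) (nat_lit 394) (nat_lit 5) (nat_lit 395) (nat_lit 5) (nat_lit 472) (nat_lit 450) (nat_lit 278)) (XT.lf (nat_lit 0) (nat_lit 1644868770) (nat_lit 836) (nat_lit 15733569827) (nat_lit 912) (nat_lit 8251096078) (nat_lit 372) (nat_lit 5) (nat_lit 383) (nat_lit 5) (nat_lit 384) (nat_lit 5) (nat_lit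 473) (nat_lit 450) (nat_lit 277))))) (XT.nd (nat_lit 234) (nat_lit 1520) (nat_lit 0) (XT.nd (nat_lit 78) (nat_lit 1672) (nat_lit 0) (XT.lf (nat_lit 0) (nat_lit 21958508713) (nat_lit 912) (nat_lit 3238635524) (nat_lit 76) (nat_lit 857997744) (nat_lit 372) (nat_lit 5) (nat_lit 384) (nat_lit 5) (nat_lit 373) (nat_lit 5) (nat_lit 474) (nat_lit 450) (nat_lit 276)) (XT.nd (nat_lit 78) (nat_lit 836) (nat_lit 0) (XT.lf (nat_lit 0) (nat_lit 398748691) (nat_lit 836) (nat_lit 8234407903) (nat_lit 76) (nat_lit 17855964543) (nat_lit 361) (nat_lit 5) (nat_lit 372) (nat_lit 5) (nat_lit 362) (nat_lit 5) (nat_lit 475) (nat_lit 450) (nat_lit 275)) (XT.lf (nat_lit 0) (nat_lit 5133565079) (nat_lit 912) (nat_lit 13342770192) (nat_lit 76) (nat_lit 8456039085) (nat_lit 350) (nat_lit 5) (nat_lit 362) (nat_lit 5) (nat_lit 351) (nat_lit 5) (nat_lit 476) (nat_lit 450) (nat_lit 274)))) (XT.nd (nat_lit 78) (nat_lit 760) (nat_lit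 0) (XT.lf (nat_lit 0) (nat_lit 8844520781) (nat_lit 760) (nat_lit 1330963605) (nat_lit 836) (nat_lit 17210140456) (nat_lit 340) (nat_lit 5) (nat_lit 350) (nat_lit 5) (nat_lit 351) (nat_lit 5) (nat_lit 477) (nat_lit 450) (nat_lit 273)) (XT.nd (nat_lit 78) (nat_lit 0) (nat_lit 0) (XT.lf (nat_lit 0) (nat_lit 3968203309) (nat_lit 760) (nat_lit 11617122540) (nat_lit 836) (nat_lit 12262814519) (nat_lit 330) (nat_lit 5) (nat_lit 340) (nat_lit 5) (nat_lit 341) (nat_lit 5) (nat_lit 478) (nat_lit 450) (nat_lit 272)) (XT.lf (nat_lit 0) (nat_lit 21325589218) (nat_lit 836) (nat_lit 970557026) (nat_lit 76) (nat_lit 6025023375) (nat_lit 330) (nat_lit 5) (nat_lit 341) (nat_lit 5) (nat_lit 331) (nat_lit 5) (nat_lit 479) (nat_lit 450) (nat_lit 271)))))) (XT.nd (nat_lit 468) (nat_lit 3116) (nat_lit 0) (XT.nd (nat_lit 234) (nat_lit 1368) (nat_lit 0) (XT.nd (nat_lit 78) (nat_lit 1520) (nat_lit 0) (XT.lf (nat_lit 0) (nat_lit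 22841541811) (nat_lit 684) (nat_lit 4616687021) (nat_lit 760) (nat_lit 1345758317) (nat_lit 321) (nat_lit 5) (nat_lit 330) (nat_lit 5) (nat_lit 331) (nat_lit 5) (nat_lit 480) (nat_lit 450) (nat_lit 270)) (XT.nd (nat_lit 78) (nat_lit 684) (nat_lit 0) (XT.lf (nat_lit 0) (nat_lit 4623762674) (nat_lit 836) (nat_lit 11103161972) (nat_lit 76) (nat_lit 13569606869) (nat_lit 310) (nat_lit 5) (nat_lit 321) (nat_lit 5) (nat_lit 311) (nat_lit 5) (nat_lit 481) (nat_lit 450) (nat_lit 269)) (XT.lf (nat_lit 0) (nat_lit 10924380635) (nat_lit 760) (nat_lit 16334627009) (nat_lit 76) (nat_lit 2541261472) (nat_lit 301) (nat_lit 5) (nat_lit 311) (nat_lit 5) (nat_lit 302) (nat_lit 5) (nat_lit 482) (nat_lit 450) (nat_lit 268)))) (XT.nd (nat_lit 78) (nat_lit 684) (nat_lit 0) (XT.lf (nat_lit 0) (nat_lit 8606662695) (nat_lit 684) (nat_lit 9038649822) (nat_lit 760) (nat_lit 12669181109) (nat_lit 292) (nat_lit 5) (nat_lit 301)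 (nat_lit 5) (nat_lit 302) (nat_lit 5) (nat_lit 483) (nat_lit 450) (nat_lit 267)) (XT.nd (nat_lit 78) (nat_lit 76) (nat_lit 0) (XT.lf (nat_lit 0) (nat_lit 3655477464) (nat_lit 608) (nat_lit 21105331405) (nat_lit 684) (nat_lit 6079477943) (nat_lit 284) (nat_lit 5) (nat_lit 292) (nat_lit 5) (nat_lit 293) (nat_lit 5) (nat_lit 484) (nat_lit 450) (nat_lit 266)) (XT.lf (nat_lit 0) (nat_lit 901849232) (nat_lit 684) (nat_lit 1374489289) (nat_lit 76) (nat_lit 29101359638) (nat_lit 283) (nat_lit 5) (nat_lit 292) (nat_lit 5) (nat_lit 284) (nat_lit 5) (nat_lit 485) (nat_lit 450) (nat_lit 265))))) (XT.nd (nat_lit 234) (nat_lit 1216) (nat_lit 0) (XT.nd (nat_lit 78) (nat_lit 1216) (nat_lit 0) (XT.lf (nat_lit 0) (nat_lit 8283388792) (nat_lit 760) (nat_lit 6542018286) (nat_lit 76) (nat_lit 17099554303) (nat_lit 274) (nat_lit 5) (nat_lit 284) (nat_lit 5) (nat_lit 275) (nat_lit 5) (nat_lit 486) (nat_lit 450) (nat_lit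 264)) (XT.nd (nat_lit 78) (nat_lit 608) (nat_lit 0) (XT.lf (nat_lit 0) (nat_lit 16070889026) (nat_lit 684) (nat_lit 11792194803) (nat_lit 76) (nat_lit 4621868982) (nat_lit 266) (nat_lit 5) (nat_lit 275) (nat_lit 5) (nat_lit 267) (nat_lit 5) (nat_lit 487) (nat_lit 450) (nat_lit 263)) (XT.lf (nat_lit 0) (nat_lit 15875859497) (nat_lit 608) (nat_lit 8458056056) (nat_lit 684) (nat_lit 8722990988) (nat_lit 258) (nat_lit 5) (nat_lit 266) (nat_lit 5) (nat_lit 267) (nat_lit 5) (nat_lit 488) (nat_lit 450) (nat_lit 262)))) (XT.nd (nat_lit 78) (nat_lit 684) (nat_lit 0) (XT.lf (nat_lit 0) (nat_lit 10953040406) (nat_lit 532) (nat_lit 22113351047) (nat_lit 608) (nat_lit 575196827) (nat_lit 251) (nat_lit 5) (nat_lit 258) (nat_lit 5) (nat_lit 259) (nat_lit 5) (nat_lit 489) (nat_lit 450) (nat_lit 261)) (XT.nd (nat_lit 59436) (nat_lit 0) (nat_lit 17100) (XT.lf (nat_lit 0) (nat_lit 5887839554) (nat_lit 608) (nat_lit 2033877994)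 (nat_lit 684) (nat_lit 26316934230) (nat_lit 242) (nat_lit 5) (nat_lit 250) (nat_lit 5) (nat_lit 251) (nat_lit 5) (nat_lit 490) (nat_lit 450) (nat_lit 260)) (XT.lf (nat_lit 0) (nat_lit 2958791365) (nat_lit 0) (nat_lit 2958791365) (nat_lit 1748) (nat_lit 3325935281) (nat_lit 467) (nat_lit 5) (nat_lit 467) (nat_lit 3) (nat_lit 490) (nat_lit 3) (nat_lit 451) (nat_lit 451) (nat_lit 298))))))))
noncomputable def xc115 : XT := (XT.nd (nat_lit 1794) (nat_lit 9196) (nat_lit 0) (XT.nd (nat_lit 858) (nat_lit 5852) (nat_lit 0) (XT.nd (nat_lit 390) (nat_lit 1368) (nat_lit 0) (XT.nd (nat_lit 156) (nat_lit 0) (nat_lit 76) (XT.nd (nat_lit 78) (nat_lit 0) (nat_lit 76) (XT.lf (nat_lit 76) (nat_lit 983688305) (nat_lit 0) (nat_lit 11371808649) (nat_lit 1824) (nat_lit 6401943435) (nat_lit 468) (nat_lit 5) (nat_lit 467) (nat_lit 5) (nat_lit 491) (nat_lit 5) (nat_lit 452) (nat_lit 451) (nat_lit 297)) (XT.lf (nat_lit 0)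 (nat_lit 13018094760) (nat_lit 1748) (nat_lit 3977680267) (nat_lit 1824) (nat_lit 2037650492) (nat_lit 468) (nat_lit 5) (nat_lit 491) (nat_lit 5) (nat_lit 492) (nat_lit 5) (nat_lit 453) (nat_lit 451) (nat_lit 296))) (XT.nd (nat_lit 78) (nat_lit 0) (nat_lit 76) (XT.lf (nat_lit 76) (nat_lit 10285077953) (nat_lit 0) (nat_lit 3547442023) (nat_lit 1824) (nat_lit 5482532945) (nat_lit 469) (nat_lit 5) (nat_lit 468) (nat_lit 5) (nat_lit 492) (nat_lit 5) (nat_lit 454) (nat_lit 451) (nat_lit 295)) (XT.nd (nat_lit 78) (nat_lit 0) (nat_lit 76) (XT.lf (nat_lit 76) (nat_lit 5423440265) (nat_lit 0) (nat_lit 9366617461) (nat_lit 1824) (nat_lit 4812699483) (nat_lit 470) (nat_lit 5) (nat_lit 469) (nat_lit 5) (nat_lit 493) (nat_lit 5) (nat_lit 455) (nat_lit 451) (nat_lit 294)) (XT.lf (nat_lit 76) (nat_lit 483108270) (nat_lit 0) (nat_lit 15400369712) (nat_lit 1824) (nat_lit 4013473128) (nat_lit 471) (nat_lit 5) (nat_lit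 470) (nat_lit 5) (nat_lit 494) (nat_lit 5) (nat_lit 456) (nat_lit 451) (nat_lit 293))))) (XT.nd (nat_lit 234) (nat_lit 1596) (nat_lit 0) (XT.nd (nat_lit 78) (nat_lit 0) (nat_lit 76) (XT.lf (nat_lit 76) (nat_lit 15709807699) (nat_lit 0) (nat_lit 1448189880) (nat_lit 1824) (nat_lit 3039008877) (nat_lit 471) (nat_lit 5) (nat_lit 470) (nat_lit 5) (nat_lit 494) (nat_lit 5) (nat_lit 457) (nat_lit 451) (nat_lit 292)) (XT.nd (nat_lit 78) (nat_lit 0) (nat_lit 76) (XT.lf (nat_lit 76) (nat_lit 10940575510) (nat_lit 0) (nat_lit 7675414695) (nat_lit 1824) (nat_lit 1887170026) (nat_lit 472) (nat_lit 5) (nat_lit 471) (nat_lit 5) (nat_lit 495) (nat_lit 5) (nat_lit 458) (nat_lit 451) (nat_lit 291)) (XT.lf (nat_lit 76) (nat_lit 6095001149) (nat_lit 0) (nat_lit 14136551441) (nat_lit 1824) (nat_lit 584670905) (nat_lit 473) (nat_lit 5) (nat_lit 472) (nat_lit 5) (nat_lit 496) (nat_lit 5) (nat_lit 459) (nat_lit 451) (nat_lit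 290)))) (XT.nd (nat_lit 78) (nat_lit 0) (nat_lit 0) (XT.lf (nat_lit 0) (nat_lit 863843536) (nat_lit 1824) (nat_lit 19970185753) (nat_lit 1900) (nat_lit 302215138) (nat_lit 449) (nat_lit 5) (nat_lit 473) (nat_lit 5) (nat_lit 474) (nat_lit 5) (nat_lit 460) (nat_lit 451) (nat_lit 289)) (XT.nd (nat_lit 78) (nat_lit 0) (nat_lit 76) (XT.lf (nat_lit 0) (nat_lit 2533853699) (nat_lit 1824) (nat_lit 3837997277) (nat_lit 1900) (nat_lit 15090219407) (nat_lit 449) (nat_lit 5) (nat_lit 473) (nat_lit 5) (nat_lit 474) (nat_lit 5) (nat_lit 461) (nat_lit 451) (nat_lit 288)) (XT.lf (nat_lit 0) (nat_lit 4385154017) (nat_lit 1824) (nat_lit 8910490083) (nat_lit 1900) (nat_lit 8499404541) (nat_lit 450) (nat_lit 5) (nat_lit 474) (nat_lit 5) (nat_lit 475) (nat_lit 5) (nat_lit 462) (nat_lit 451) (nat_lit 287)))))) (XT.nd (nat_lit 468) (nat_lit 4560) (nat_lit 0) (XT.nd (nat_lit 234) (nat_lit 1444) (nat_lit 0) (XT.nd (nat_lit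 78) (nat_lit 0) (nat_lit 0) (XT.lf (nat_lit 0) (nat_lit 6415607816) (nat_lit 1824) (nat_lit 14065997771) (nat_lit 1900) (nat_lit 1653939655) (nat_lit 451) (nat_lit 5) (nat_lit 475) (nat_lit 5) (nat_lit 476) (nat_lit 5) (nat_lit 463) (nat_lit 451) (nat_lit 286)) (XT.nd (nat_lit 78) (nat_lit 0) (nat_lit 76) (XT.lf (nat_lit 76) (nat_lit 3141334034) (nat_lit 0) (nat_lit 5527428842) (nat_lit 1900) (nat_lit 13814259359) (nat_lit 452) (nat_lit 5) (nat_lit 451) (nat_lit 5) (nat_lit 476) (nat_lit 5) (nat_lit 464) (nat_lit 451) (nat_lit 285)) (XT.lf (nat_lit 0) (nat_lit 11141486854) (nat_lit 1824) (nat_lit 1852868988) (nat_lit 1900) (nat_lit 9843529421) (nat_lit 452) (nat_lit 5) (nat_lit 476) (nat_lit 5) (nat_lit 477) (nat_lit 5) (nat_lit 465) (nat_lit 451) (nat_lit 284)))) (XT.nd (nat_lit 78) (nat_lit 1596) (nat_lit 0) (XT.lf (nat_lit 0) (nat_lit 13839820819) (nat_lit 1824) (nat_lit 6885471152) (nat_lit 1900)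 (nat_lit 2475074821) (nat_lit 453) (nat_lit 5) (nat_lit 477) (nat_lit 5) (nat_lit 478) (nat_lit 5) (nat_lit 466) (nat_lit 451) (nat_lit 283)) (XT.nd (nat_lit 78) (nat_lit 1596) (nat_lit 0) (XT.lf (nat_lit 76) (nat_lit 11537521088) (nat_lit 0) (nat_lit 5248373897) (nat_lit 1900) (nat_lit 6784493117) (nat_lit 454) (nat_lit 5) (nat_lit 453) (nat_lit 5) (nat_lit 478) (nat_lit 5) (nat_lit 467) (nat_lit 451) (nat_lit 282)) (XT.lf (nat_lit 0) (nat_lit 6668143637) (nat_lit 1672) (nat_lit 13304426933) (nat_lit 1748) (nat_lit 3975896205) (nat_lit 432) (nat_lit 5) (nat_lit 454) (nat_lit 5) (nat_lit 455) (nat_lit 5) (nat_lit 468) (nat_lit 451) (nat_lit 281))))) (XT.nd (nat_lit 234) (nat_lit 2584) (nat_lit 0) (XT.nd (nat_lit 78) (nat_lit 988) (nat_lit 0) (XT.lf (nat_lit 0) (nat_lit 1722404786) (nat_lit 988) (nat_lit 21670198578) (nat_lit 1064) (nat_lit 942530382) (nat_lit 419) (nat_lit 5) (nat_lit 432) (nat_lit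 5) (nat_lit 433) (nat_lit 5) (nat_lit 469) (nat_lit 451) (nat_lit 280)) (XT.nd (nat_lit 78) (nat_lit 912) (nat_lit 0) (XT.lf (nat_lit 0) (nat_lit 2352904129) (nat_lit 1064) (nat_lit 3309713349) (nat_lit 76) (nat_lit 19066507294) (nat_lit 418) (nat_lit 5) (nat_lit 432) (nat_lit 5) (nat_lit 419) (nat_lit 5) (nat_lit 470) (nat_lit 451) (nat_lit 279)) (XT.lf (nat_lit 0) (nat_lit 5907513636) (nat_lit 988) (nat_lit 8423963770) (nat_lit 76) (nat_lit 10799872170) (nat_lit 406) (nat_lit 5) (nat_lit 419) (nat_lit 5) (nat_lit 407) (nat_lit 5) (nat_lit 471) (nat_lit 451) (nat_lit 278)))) (XT.nd (nat_lit 78) (nat_lit 1672) (nat_lit 0) (XT.lf (nat_lit 0) (nat_lit 9714450221) (nat_lit 988) (nat_lit 13620233410) (nat_lit 76) (nat_lit 2208044681) (nat_lit 394) (nat_lit 5) (nat_lit 407) (nat_lit 5) (nat_lit 395) (nat_lit 5) (nat_lit 472) (nat_lit 451) (nat_lit 277)) (XT.nd (nat_lit 78) (nat_lit 836) (nat_lit 0) (XT.lf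 (nat_lit 0) (nat_lit 7018809652) (nat_lit 836) (nat_lit 6809030793) (nat_lit 912) (nat_lit 12134763991) (nat_lit 383) (nat_lit 5) (nat_lit 394) (nat_lit 5) (nat_lit 395) (nat_lit 5) (nat_lit 473) (nat_lit 451) (nat_lit 276)) (XT.lf (nat_lit 0) (nat_lit 2023448200) (nat_lit 836) (nat_lit 16207059611) (nat_lit 912) (nat_lit 8161252433) (nat_lit 372) (nat_lit 5) (nat_lit 383) (nat_lit 5) (nat_lit 384) (nat_lit 5) (nat_lit 474) (nat_lit 451) (nat_lit 275))))))) (XT.nd (nat_lit 936) (nat_lit 2432) (nat_lit 0) (XT.nd (nat_lit 468) (nat_lit 3572) (nat_lit 0) (XT.nd (nat_lit 234) (nat_lit 1520) (nat_lit 0) (XT.nd (nat_lit 78) (nat_lit 1672) (nat_lit 0) (XT.lf (nat_lit 0) (nat_lit 22938338177) (nat_lit 912) (nat_lit 3009674722) (nat_lit 76) (nat_lit 882317052) (nat_lit 372) (nat_lit 5) (nat_lit 384) (nat_lit 5) (nat_lit 373) (nat_lit 5) (nat_lit 475) (nat_lit 451) (nat_lit 274)) (XT.nd (nat_lit 78) (nat_lit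 836) (nat_lit 0) (XT.lf (nat_lit 0) (nat_lit 726637826) (nat_lit 836) (nat_lit 8156370032) (nat_lit 76) (nat_lit 18394425732) (nat_lit 361) (nat_lit 5) (nat_lit 372) (nat_lit 5) (nat_lit 362) (nat_lit 5) (nat_lit 476) (nat_lit 451) (nat_lit 273)) (XT.lf (nat_lit 0) (nat_lit 5596444674) (nat_lit 912) (nat_lit 13417111022) (nat_lit 76) (nat_lit 8720571032) (nat_lit 350) (nat_lit 5) (nat_lit 362) (nat_lit 5) (nat_lit 351) (nat_lit 5) (nat_lit 477) (nat_lit 451) (nat_lit 272)))) (XT.nd (nat_lit 78) (nat_lit 760) (nat_lit 0) (XT.lf (nat_lit 0) (nat_lit 9430510654) (nat_lit 760) (nat_lit 1352196516) (nat_lit 836) (nat_lit 17418407053) (nat_lit 340) (nat_lit 5) (nat_lit 350) (nat_lit 5) (nat_lit 351) (nat_lit 5) (nat_lit 478) (nat_lit 451) (nat_lit 271)) (XT.nd (nat_lit 78) (nat_lit 0) (nat_lit 0) (XT.lf (nat_lit 0) (nat_lit 4408562741) (nat_lit 760) (nat_lit 11939690266) (nat_lit 836) (nat_lit 12329385197)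 (nat_lit 330) (nat_lit 5) (nat_lit 340) (nat_lit 5) (nat_lit 341) (nat_lit 5) (nat_lit 479) (nat_lit 451) (nat_lit 270)) (XT.lf (nat_lit 0) (nat_lit 22252284895) (nat_lit 836) (nat_lit 682109416) (nat_lit 76) (nat_lit 6230633944) (nat_lit 330) (nat_lit 5) (nat_lit 341) (nat_lit 5) (nat_lit 331) (nat_lit 5) (nat_lit 480) (nat_lit 451) (nat_lit 269))))) (XT.nd (nat_lit 234) (nat_lit 1368) (nat_lit 0) (XT.nd (nat_lit 78) (nat_lit 1520) (nat_lit 0) (XT.lf (nat_lit 0) (nat_lit 23839200282) (nat_lit 684) (nat_lit 4723374676) (nat_lit 760) (nat_lit 1099883032) (nat_lit 321) (nat_lit 5) (nat_lit 330) (nat_lit 5) (nat_lit 331) (nat_lit 5) (nat_lit 481) (nat_lit 451) (nat_lit 268)) (XT.nd (nat_lit 78) (nat_lit 684) (nat_lit 0) (XT.lf (nat_lit 0) (nat_lit 5038986968) (nat_lit 836) (nat_lit 11119849495) (nat_lit 76) (nat_lit 14011025754) (nat_lit 310) (nat_lit 5) (nat_lit 321) (nat_lit 5) (nat_lit 311) (nat_lit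 5) (nat_lit 482) (nat_lit 451) (nat_lit 267)) (XT.lf (nat_lit 0) (nat_lit 11522855604) (nat_lit 760) (nat_lit 16508213117) (nat_lit 76) (nat_lit 2657759602) (nat_lit 301) (nat_lit 5) (nat_lit 311) (nat_lit 5) (nat_lit 302) (nat_lit 5) (nat_lit 483) (nat_lit 451) (nat_lit 266)))) (XT.nd (nat_lit 78) (nat_lit 684) (nat_lit 0) (XT.lf (nat_lit 0) (nat_lit 9176181210) (nat_lit 684) (nat_lit 9263369786) (nat_lit 760) (nat_lit 12779046851) (nat_lit 292) (nat_lit 5) (nat_lit 301) (nat_lit 5) (nat_lit 302) (nat_lit 5) (nat_lit 484) (nat_lit 451) (nat_lit 265)) (XT.nd (nat_lit 78) (nat_lit 76) (nat_lit 0) (XT.lf (nat_lit 0) (nat_lit 4076357128) (nat_lit 608) (nat_lit 21686753535) (nat_lit 684) (nat_lit 5997163158) (nat_lit 284) (nat_lit 5) (nat_lit 292) (nat_lit 5) (nat_lit 293) (nat_lit 5) (nat_lit 485) (nat_lit 451) (nat_lit 264)) (XT.lf (nat_lit 0) (nat_lit 1182523687) (nat_lit 684) (nat_lit 1110172188) (nat_lit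 76) (nat_lit 30021230348) (nat_lit 283) (nat_lit 5) (nat_lit 292) (nat_lit 5) (nat_lit 284) (nat_lit 5) (nat_lit 486) (nat_lit 451) (nat_lit 263)))))) (XT.nd (nat_lit 59904) (nat_lit 0) (nat_lit 16492) (XT.nd (nat_lit 234) (nat_lit 532) (nat_lit 0) (XT.nd (nat_lit 78) (nat_lit 1216) (nat_lit 0) (XT.lf (nat_lit 0) (nat_lit 8780414419) (nat_lit 760) (nat_lit 6433031268) (nat_lit 76) (nat_lit 17664264442) (nat_lit 274) (nat_lit 5) (nat_lit 284) (nat_lit 5) (nat_lit 275) (nat_lit 5) (nat_lit 487) (nat_lit 451) (nat_lit 262)) (XT.nd (nat_lit 78) (nat_lit 608) (nat_lit 0) (XT.lf (nat_lit 0) (nat_lit 16796621286) (nat_lit 684) (nat_lit 11841142379) (nat_lit 76) (nat_lit 4816836867) (nat_lit 266) (nat_lit 5) (nat_lit 275) (nat_lit 5) (nat_lit 267) (nat_lit 5) (nat_lit 488) (nat_lit 451) (nat_lit 261)) (XT.lf (nat_lit 0) (nat_lit 16652008236) (nat_lit 608) (nat_lit 8650382040) (nat_lit 684) (nat_lit 8741426404)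 (nat_lit 258) (nat_lit 5) (nat_lit 266) (nat_lit 5) (nat_lit 267) (nat_lit 5) (nat_lit 489) (nat_lit 451) (nat_lit 260)))) (XT.nd (nat_lit 59514) (nat_lit 0) (nat_lit 16416) (XT.lf (nat_lit 0) (nat_lit 11580966438) (nat_lit 532) (nat_lit 22711259273) (nat_lit 608) (nat_lit 353906265) (nat_lit 251) (nat_lit 5) (nat_lit 258) (nat_lit 5) (nat_lit 259) (nat_lit 5) (nat_lit 490) (nat_lit 451) (nat_lit 259)) (XT.nd (nat_lit 78) (nat_lit 0) (nat_lit 0) (XT.lf (nat_lit 0) (nat_lit 3190106312) (nat_lit 0) (nat_lit 3190106312) (nat_lit 1748) (nat_lit 3134864219) (nat_lit 467) (nat_lit 5) (nat_lit 467) (nat_lit 3) (nat_lit 490) (nat_lit 3) (nat_lit 452) (nat_lit 452) (nat_lit 296)) (XT.lf (nat_lit 76) (nat_lit 1306803912) (nat_lit 0) (nat_lit 11973063987) (nat_lit 1824) (nat_lit 6029134862) (nat_lit 468) (nat_lit 5) (nat_lit 467) (nat_lit 5) (nat_lit 491) (nat_lit 5) (nat_lit 453) (nat_lit 452) (nat_lit 295)))))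 (XT.nd (nat_lit 234) (nat_lit 0) (nat_lit 152) (XT.nd (nat_lit 78) (nat_lit 0) (nat_lit 0) (XT.lf (nat_lit 0) (nat_lit 13944576718) (nat_lit 1748) (nat_lit 3799481990) (nat_lit 1824) (nat_lit 1849566602) (nat_lit 468) (nat_lit 5) (nat_lit 491) (nat_lit 5) (nat_lit 492) (nat_lit 5) (nat_lit 454) (nat_lit 452) (nat_lit 294)) (XT.nd (nat_lit 78) (nat_lit 0) (nat_lit 76) (XT.lf (nat_lit 76) (nat_lit 10886331928) (nat_lit 0) (nat_lit 3883393298) (nat_lit 1824) (nat_lit 5114252949) (nat_lit 469) (nat_lit 5) (nat_lit 468) (nat_lit 5) (nat_lit 492) (nat_lit 5) (nat_lit 455) (nat_lit 452) (nat_lit 293)) (XT.lf (nat_lit 76) (nat_lit 5885918000) (nat_lit 0) (nat_lit 9855360029) (nat_lit 1824) (nat_lit 4439332166) (nat_lit 470) (nat_lit 5) (nat_lit 469) (nat_lit 5) (nat_lit 493) (nat_lit 5) (nat_lit 456) (nat_lit 452) (nat_lit 292)))) (XT.nd (nat_lit 78) (nat_lit 0) (nat_lit 0) (XT.lf (nat_lit 76) (nat_lit 803903255)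 (nat_lit 0) (nat_lit 16049494730) (nat_lit 1824) (nat_lit 3630516296) (nat_lit 471) (nat_lit 5) (nat_lit 470) (nat_lit 5) (nat_lit 494) (nat_lit 5) (nat_lit 457) (nat_lit 452) (nat_lit 291)) (XT.nd (nat_lit 78) (nat_lit 0) (nat_lit 76) (XT.lf (nat_lit 76) (nat_lit 16478482258) (nat_lit 0) (nat_lit 1673299582) (nat_lit 1824) (nat_lit 2641479118) (nat_lit 471) (nat_lit 5) (nat_lit 470) (nat_lit 5) (nat_lit 494) (nat_lit 5) (nat_lit 458) (nat_lit 452) (nat_lit 290)) (XT.lf (nat_lit 76) (nat_lit 11572007847) (nat_lit 0) (nat_lit 8068377195) (nat_lit 1824) (nat_lit 1468479068) (nat_lit 472) (nat_lit 5) (nat_lit 471) (nat_lit 5) (nat_lit 495) (nat_lit 5) (nat_lit 459) (nat_lit 452) (nat_lit 289))))))))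
noncomputable def xc116 : XT := (XT.nd (nat_lit 1794) (nat_lit 4788) (nat_lit 0) (XT.nd (nat_lit 858) (nat_lit 7448) (nat_lit 0) (XT.nd (nat_lit 390) (nat_lit 2280) (nat_lit 0) (XT.nd (nat_lit 156) (nat_lit 0) (nat_lit 0) (XT.nd (nat_lit 78) (nat_lit 1748) (nat_lit 0) (XT.lf (nat_lit 76) (nat_lit 6586424741) (nat_lit 0) (nat_lit 14705397088) (nat_lit 1824) (nat_lit 139751407) (nat_lit 473) (nat_lit 5) (nat_lit 472) (nat_lit 5) (nat_lit 496) (nat_lit 5) (nat_lit 460) (nat_lit 452) (nat_lit 288)) (XT.lf (nat_lit 0) (nat_lit 1333990513) (nat_lit 1824) (nat_lit 20249840000) (nat_lit 1900) (nat_lit 177549499) (nat_lit 449) (nat_lit 5) (nat_lit 473) (nat_lit 5) (nat_lit 474) (nat_lit 5) (nat_lit 461) (nat_lit 452) (nat_lit 287))) (XT.nd (nat_lit 78) (nat_lit 0) (nat_lit 76) (XT.lf (nat_lit 0) (nat_lit 3041162194) (nat_lit 1824) (nat_lit 3642990277) (nat_lit 1900) (nat_lit 15413089005) (nat_lit 449) (nat_lit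 5) (nat_lit 473) (nat_lit 5) (nat_lit 474) (nat_lit 5) (nat_lit 462) (nat_lit 452) (nat_lit 286)) (XT.nd (nat_lit 78) (nat_lit 0) (nat_lit 76) (XT.lf (nat_lit 0) (nat_lit 4936670072) (nat_lit 1824) (nat_lit 8863461600) (nat_lit 1900) (nat_lit 8640305938) (nat_lit 450) (nat_lit 5) (nat_lit 474) (nat_lit 5) (nat_lit 475) (nat_lit 5) (nat_lit 463) (nat_lit 452) (nat_lit 285)) (XT.lf (nat_lit 0) (nat_lit 7017160937) (nat_lit 1824) (nat_lit 14169825723) (nat_lit 1900) (nat_lit 1604381822) (nat_lit 451) (nat_lit 5) (nat_lit 475) (nat_lit 5) (nat_lit 476) (nat_lit 5) (nat_lit 464) (nat_lit 452) (nat_lit 284))))) (XT.nd (nat_lit 234) (nat_lit 2432) (nat_lit 0) (XT.nd (nat_lit 78) (nat_lit 0) (nat_lit 76) (XT.lf (nat_lit 76) (nat_lit 3548564398) (nat_lit 0) (nat_lit 5779463298) (nat_lit 1900) (nat_lit 13821441537) (nat_lit 452) (nat_lit 5) (nat_lit 451) (nat_lit 5) (nat_lit 476) (nat_lit 5) (nat_lit 465) (nat_lit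 452) (nat_lit 283)) (XT.nd (nat_lit 78) (nat_lit 0) (nat_lit 76) (XT.lf (nat_lit 0) (nat_lit 11862762713) (nat_lit 1824) (nat_lit 1596228112) (nat_lit 1900) (nat_lit 10056232478) (nat_lit 452) (nat_lit 5) (nat_lit 476) (nat_lit 5) (nat_lit 477) (nat_lit 5) (nat_lit 466) (nat_lit 452) (nat_lit 282)) (XT.lf (nat_lit 0) (nat_lit 14632309911) (nat_lit 1824) (nat_lit 6776804262) (nat_lit 1900) (nat_lit 2479661525) (nat_lit 453) (nat_lit 5) (nat_lit 477) (nat_lit 5) (nat_lit 478) (nat_lit 5) (nat_lit 467) (nat_lit 452) (nat_lit 281)))) (XT.nd (nat_lit 78) (nat_lit 2584) (nat_lit 0) (XT.lf (nat_lit 76) (nat_lit 12193763496) (nat_lit 0) (nat_lit 5464027131) (nat_lit 1900) (nat_lit 6612288171) (nat_lit 454) (nat_lit 5) (nat_lit 453) (nat_lit 5) (nat_lit 478) (nat_lit 5) (nat_lit 468) (nat_lit 452) (nat_lit 280)) (XT.nd (nat_lit 78) (nat_lit 988) (nat_lit 0) (XT.lf (nat_lit 0) (nat_lit 7180945751) (nat_lit 1672)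 (nat_lit 13750056749) (nat_lit 1748) (nat_lit 3728680202) (nat_lit 432) (nat_lit 5) (nat_lit 454) (nat_lit 5) (nat_lit 455) (nat_lit 5) (nat_lit 469) (nat_lit 452) (nat_lit 279)) (XT.lf (nat_lit 0) (nat_lit 2089178250) (nat_lit 988) (nat_lit 22355747045) (nat_lit 1064) (nat_lit 613200149) (nat_lit 419) (nat_lit 5) (nat_lit 432) (nat_lit 5) (nat_lit 433) (nat_lit 5) (nat_lit 470) (nat_lit 452) (nat_lit 278)))))) (XT.nd (nat_lit 468) (nat_lit 3876) (nat_lit 0) (XT.nd (nat_lit 234) (nat_lit 1672) (nat_lit 0) (XT.nd (nat_lit 78) (nat_lit 1824) (nat_lit 0) (XT.lf (nat_lit 0) (nat_lit 2766128220) (nat_lit 1064) (nat_lit 3098478712) (nat_lit 76) (nat_lit 19599489884) (nat_lit 418) (nat_lit 5) (nat_lit 432) (nat_lit 5) (nat_lit 419) (nat_lit 5) (nat_lit 471) (nat_lit 452) (nat_lit 277)) (XT.nd (nat_lit 78) (nat_lit 912) (nat_lit 0) (XT.lf (nat_lit 0) (nat_lit 6419190448) (nat_lit 988) (nat_lit 8364264936)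 (nat_lit 76) (nat_lit 11095098117) (nat_lit 406) (nat_lit 5) (nat_lit 419) (nat_lit 5) (nat_lit 407) (nat_lit 5) (nat_lit 472) (nat_lit 452) (nat_lit 276)) (XT.lf (nat_lit 0) (nat_lit 10332463667) (nat_lit 988) (nat_lit 13714785335) (nat_lit 76) (nat_lit 2255183411) (nat_lit 394) (nat_lit 5) (nat_lit 407) (nat_lit 5) (nat_lit 395) (nat_lit 5) (nat_lit 473) (nat_lit 452) (nat_lit 275)))) (XT.nd (nat_lit 78) (nat_lit 836) (nat_lit 0) (XT.lf (nat_lit 0) (nat_lit 7538333848) (nat_lit 836) (nat_lit 7023415685) (nat_lit 912) (nat_lit 12173306753) (nat_lit 383) (nat_lit 5) (nat_lit 394) (nat_lit 5) (nat_lit 395) (nat_lit 5) (nat_lit 474) (nat_lit 452) (nat_lit 274)) (XT.nd (nat_lit 78) (nat_lit 0) (nat_lit 0) (XT.lf (nat_lit 0) (nat_lit 2394485672) (nat_lit 836) (nat_lit 16694668975) (nat_lit 912) (nat_lit 8088080272) (nat_lit 372) (nat_lit 5) (nat_lit 383) (nat_lit 5) (nat_lit 384) (nat_lit 5) (nat_lit 475)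 (nat_lit 452) (nat_lit 273)) (XT.lf (nat_lit 0) (nat_lit 23929131553) (nat_lit 912) (nat_lit 2792565709) (nat_lit 76) (nat_lit 907447489) (nat_lit 372) (nat_lit 5) (nat_lit 384) (nat_lit 5) (nat_lit 373) (nat_lit 5) (nat_lit 476) (nat_lit 452) (nat_lit 272))))) (XT.nd (nat_lit 234) (nat_lit 1444) (nat_lit 0) (XT.nd (nat_lit 78) (nat_lit 1596) (nat_lit 0) (XT.lf (nat_lit 0) (nat_lit 1046228152) (nat_lit 836) (nat_lit 8094651379) (nat_lit 76) (nat_lit 18948881044) (nat_lit 361) (nat_lit 5) (nat_lit 372) (nat_lit 5) (nat_lit 362) (nat_lit 5) (nat_lit 477) (nat_lit 452) (nat_lit 271)) (XT.nd (nat_lit 78) (nat_lit 760) (nat_lit 0) (XT.lf (nat_lit 0) (nat_lit 6055480103) (nat_lit 912) (nat_lit 13512392497) (nat_lit 76) (nat_lit 8992416059) (nat_lit 350) (nat_lit 5) (nat_lit 362) (nat_lit 5) (nat_lit 351) (nat_lit 5) (nat_lit 478) (nat_lit 452) (nat_lit 270)) (XT.lf (nat_lit 0) (nat_lit 10015673358) (nat_lit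 760) (nat_lit 1375139641) (nat_lit 836) (nat_lit 17650604268) (nat_lit 340) (nat_lit 5) (nat_lit 350) (nat_lit 5) (nat_lit 351) (nat_lit 5) (nat_lit 479) (nat_lit 452) (nat_lit 269)))) (XT.nd (nat_lit 78) (nat_lit 684) (nat_lit 0) (XT.lf (nat_lit 0) (nat_lit 4843688255) (nat_lit 760) (nat_lit 12273424428) (nat_lit 836) (nat_lit 12415249637) (nat_lit 330) (nat_lit 5) (nat_lit 340) (nat_lit 5) (nat_lit 341) (nat_lit 5) (nat_lit 480) (nat_lit 452) (nat_lit 268)) (XT.nd (nat_lit 78) (nat_lit 684) (nat_lit 0) (XT.lf (nat_lit 0) (nat_lit 23190310602) (nat_lit 836) (nat_lit 403237870) (nat_lit 76) (nat_lit 6440985773) (nat_lit 330) (nat_lit 5) (nat_lit 341) (nat_lit 5) (nat_lit 331) (nat_lit 5) (nat_lit 481) (nat_lit 452) (nat_lit 267)) (XT.lf (nat_lit 0) (nat_lit 24848854768) (nat_lit 684) (nat_lit 4835089155) (nat_lit 760) (nat_lit 863063296) (nat_lit 321) (nat_lit 5) (nat_lit 330) (nat_lit 5) (nat_lit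 331) (nat_lit 5) (nat_lit 482) (nat_lit 452) (nat_lit 266))))))) (XT.nd (nat_lit 60372) (nat_lit 0) (nat_lit 14440) (XT.nd (nat_lit 390) (nat_lit 1900) (nat_lit 0) (XT.nd (nat_lit 156) (nat_lit 1368) (nat_lit 0) (XT.nd (nat_lit 78) (nat_lit 684) (nat_lit 0) (XT.lf (nat_lit 0) (nat_lit 5450795104) (nat_lit 836) (nat_lit 11155200719) (nat_lit 76) (nat_lit 14463716483) (nat_lit 310) (nat_lit 5) (nat_lit 321) (nat_lit 5) (nat_lit 311) (nat_lit 5) (nat_lit 483) (nat_lit 452) (nat_lit 265)) (XT.lf (nat_lit 0) (nat_lit 12123743035) (nat_lit 760) (nat_lit 16705172487) (nat_lit 76) (nat_lit 2775441570) (nat_lit 301) (nat_lit 5) (nat_lit 311) (nat_lit 5) (nat_lit 302) (nat_lit 5) (nat_lit 484) (nat_lit 452) (nat_lit 264))) (XT.nd (nat_lit 78) (nat_lit 684) (nat_lit 0) (XT.lf (nat_lit 0) (nat_lit 9744914317) (nat_lit 684) (nat_lit 9497497168) (nat_lit 760) (nat_lit 12907719707) (nat_lit 292) (nat_lit 5) (nat_lit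 301) (nat_lit 5) (nat_lit 302) (nat_lit 5) (nat_lit 485) (nat_lit 452) (nat_lit 263)) (XT.nd (nat_lit 78) (nat_lit 76) (nat_lit 0) (XT.lf (nat_lit 0) (nat_lit 4491998149) (nat_lit 608) (nat_lit 22288588291) (nat_lit 684) (nat_lit 5927573742) (nat_lit 284) (nat_lit 5) (nat_lit 292) (nat_lit 5) (nat_lit 293) (nat_lit 5) (nat_lit 486) (nat_lit 452) (nat_lit 262)) (XT.lf (nat_lit 0) (nat_lit 1457059609) (nat_lit 684) (nat_lit 855465495) (nat_lit 76) (nat_lit 30966008951) (nat_lit 283) (nat_lit 5) (nat_lit 292) (nat_lit 5) (nat_lit 284) (nat_lit 5) (nat_lit 487) (nat_lit 452) (nat_lit 261))))) (XT.nd (nat_lit 59748) (nat_lit 0) (nat_lit 15884) (XT.nd (nat_lit 78) (nat_lit 1216) (nat_lit 0) (XT.lf (nat_lit 0) (nat_lit 9278084522) (nat_lit 760) (nat_lit 6338297100) (nat_lit 76) (nat_lit 18242946745) (nat_lit 274) (nat_lit 5) (nat_lit 284) (nat_lit 5) (nat_lit 275) (nat_lit 5) (nat_lit 488) (nat_lit 452) (nat_lit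 260)) (XT.nd (nat_lit 78) (nat_lit 608) (nat_lit 0) (XT.lf (nat_lit 0) (nat_lit 17530141557) (nat_lit 684) (nat_lit 11909056199) (nat_lit 76) (nat_lit 5014421260) (nat_lit 266) (nat_lit 5) (nat_lit 275) (nat_lit 5) (nat_lit 267) (nat_lit 5) (nat_lit 489) (nat_lit 452) (nat_lit 259)) (XT.lf (nat_lit 0) (nat_lit 17434227502) (nat_lit 608) (nat_lit 8852003315) (nat_lit 684) (nat_lit 8774378675) (nat_lit 258) (nat_lit 5) (nat_lit 266) (nat_lit 5) (nat_lit 267) (nat_lit 5) (nat_lit 490) (nat_lit 452) (nat_lit 258)))) (XT.nd (nat_lit 78) (nat_lit 0) (nat_lit 0) (XT.lf (nat_lit 0) (nat_lit 3420177685) (nat_lit 0) (nat_lit 3420177685) (nat_lit 1748) (nat_lit 2954756954) (nat_lit 467) (nat_lit 5) (nat_lit 467) (nat_lit 3) (nat_lit 490) (nat_lit 3) (nat_lit 453) (nat_lit 453) (nat_lit 294)) (XT.nd (nat_lit 78) (nat_lit 0) (nat_lit 76) (XT.lf (nat_lit 76) (nat_lit 1622758861) (nat_lit 0) (nat_lit 12577426120)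 (nat_lit 1824) (nat_lit 5677567701) (nat_lit 468) (nat_lit 5) (nat_lit 467) (nat_lit 5) (nat_lit 491) (nat_lit 5) (nat_lit 454) (nat_lit 453) (nat_lit 293)) (XT.lf (nat_lit 0) (nat_lit 14868088036) (nat_lit 1748) (nat_lit 3633017128) (nat_lit 1824) (nat_lit 1670146064) (nat_lit 468) (nat_lit 5) (nat_lit 491) (nat_lit 5) (nat_lit 492) (nat_lit 5) (nat_lit 455) (nat_lit 453) (nat_lit 292)))))) (XT.nd (nat_lit 468) (nat_lit 0) (nat_lit 76) (XT.nd (nat_lit 234) (nat_lit 1520) (nat_lit 0) (XT.nd (nat_lit 78) (nat_lit 0) (nat_lit 76) (XT.lf (nat_lit 76) (nat_lit 11488821250) (nat_lit 0) (nat_lit 4216247265) (nat_lit 1824) (nat_lit 4765506926) (nat_lit 469) (nat_lit 5) (nat_lit 468) (nat_lit 5) (nat_lit 492) (nat_lit 5) (nat_lit 456) (nat_lit 453) (nat_lit 291)) (XT.nd (nat_lit 78) (nat_lit 0) (nat_lit 76) (XT.lf (nat_lit 76) (nat_lit 6345061783) (nat_lit 0) (nat_lit 10346839515) (nat_lit 1824) (nat_lit 4084484700)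 (nat_lit 470) (nat_lit 5) (nat_lit 469) (nat_lit 5) (nat_lit 493) (nat_lit 5) (nat_lit 457) (nat_lit 453) (nat_lit 290)) (XT.lf (nat_lit 76) (nat_lit 1116739117) (nat_lit 0) (nat_lit 16707352394) (nat_lit 1824) (nat_lit 3264965741) (nat_lit 471) (nat_lit 5) (nat_lit 470) (nat_lit 5) (nat_lit 494) (nat_lit 5) (nat_lit 458) (nat_lit 453) (nat_lit 289)))) (XT.nd (nat_lit 78) (nat_lit 1672) (nat_lit 0) (XT.lf (nat_lit 76) (nat_lit 17253146206) (nat_lit 0) (nat_lit 1894734319) (nat_lit 1824) (nat_lit 2260076847) (nat_lit 471) (nat_lit 5) (nat_lit 470) (nat_lit 5) (nat_lit 494) (nat_lit 5) (nat_lit 459) (nat_lit 453) (nat_lit 288)) (XT.nd (nat_lit 78) (nat_lit 1748) (nat_lit 0) (XT.lf (nat_lit 76) (nat_lit 12204977368) (nat_lit 0) (nat_lit 8463788920) (nat_lit 1824) (nat_lit 1064511894) (nat_lit 472) (nat_lit 5) (nat_lit 471) (nat_lit 5) (nat_lit 495) (nat_lit 5) (nat_lit 460) (nat_lit 453) (nat_lit 287))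 (XT.lf (nat_lit 0) (nat_lit 288139380) (nat_lit 1824) (nat_lit 14992925966) (nat_lit 1900) (nat_lit 6784804709) (nat_lit 448) (nat_lit 5) (nat_lit 472) (nat_lit 5) (nat_lit 473) (nat_lit 5) (nat_lit 461) (nat_lit 453) (nat_lit 286))))) (XT.nd (nat_lit 234) (nat_lit 0) (nat_lit 152) (XT.nd (nat_lit 78) (nat_lit 0) (nat_lit 0) (XT.lf (nat_lit 0) (nat_lit 1792741183) (nat_lit 1824) (nat_lit 20556221687) (nat_lit 1900) (nat_lit 56820660) (nat_lit 449) (nat_lit 5) (nat_lit 473) (nat_lit 5) (nat_lit 474) (nat_lit 5) (nat_lit 462) (nat_lit 453) (nat_lit 285)) (XT.nd (nat_lit 78) (nat_lit 0) (nat_lit 76) (XT.lf (nat_lit 0) (nat_lit 3538931967) (nat_lit 1824) (nat_lit 3459936769) (nat_lit 1900) (nat_lit 15753097866) (nat_lit 449) (nat_lit 5) (nat_lit 473) (nat_lit 5) (nat_lit 474) (nat_lit 5) (nat_lit 463) (nat_lit 453) (nat_lit 284)) (XT.lf (nat_lit 0) (nat_lit 5480624104) (nat_lit 1824) (nat_lit 8833066848)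 (nat_lit 1900) (nat_lit 8791983078) (nat_lit 450) (nat_lit 5) (nat_lit 474) (nat_lit 5) (nat_lit 475) (nat_lit 5) (nat_lit 464) (nat_lit 453) (nat_lit 283)))) (XT.nd (nat_lit 78) (nat_lit 0) (nat_lit 0) (XT.lf (nat_lit 0) (nat_lit 7613277506) (nat_lit 1824) (nat_lit 14295031740) (nat_lit 1900) (nat_lit 1559030363) (nat_lit 451) (nat_lit 5) (nat_lit 475) (nat_lit 5) (nat_lit 476) (nat_lit 5) (nat_lit 465) (nat_lit 453) (nat_lit 282)) (XT.nd (nat_lit 78) (nat_lit 0) (nat_lit 76) (XT.lf (nat_lit 76) (nat_lit 3950044746) (nat_lit 0) (nat_lit 6034109890) (nat_lit 1900) (nat_lit 13852216744) (nat_lit 452) (nat_lit 5) (nat_lit 451) (nat_lit 5) (nat_lit 476) (nat_lit 5) (nat_lit 466) (nat_lit 453) (nat_lit 281)) (XT.lf (nat_lit 0) (nat_lit 12583459670) (nat_lit 1824) (nat_lit 1349811113) (nat_lit 1900) (nat_lit 10280058367) (nat_lit 452) (nat_lit 5) (nat_lit 476) (nat_lit 5) (nat_lit 477) (nat_lit 5) (nat_lit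 467) (nat_lit 453) (nat_lit 280))))))))
noncomputable def xc117 : XT := (XT.nd (nat_lit 61464) (nat_lit 0) (nat_lit 7448) (XT.nd (nat_lit 858) (nat_lit 6612) (nat_lit 0) (XT.nd (nat_lit 390) (nat_lit 4332) (nat_lit 0) (XT.nd (nat_lit 156) (nat_lit 2660) (nat_lit 0) (XT.nd (nat_lit 78) (nat_lit 0) (nat_lit 0) (XT.lf (nat_lit 0) (nat_lit 15426915431) (nat_lit 1824) (nat_lit 6682972916) (nat_lit 1900) (nat_lit 2488384917) (nat_lit 453) (nat_lit 5) (nat_lit 477) (nat_lit 5) (nat_lit 478) (nat_lit 5) (nat_lit 468) (nat_lit 453) (nat_lit 279)) (XT.lf (nat_lit 76) (nat_lit 12851891205) (nat_lit 0) (nat_lit 5682808929) (nat_lit 1900) (nat_lit 6456486076) (nat_lit 454) (nat_lit 5) (nat_lit 453) (nat_lit 5) (nat_lit 478) (nat_lit 5) (nat_lit 469) (nat_lit 453) (nat_lit 278))) (XT.nd (nat_lit 78) (nat_lit 1064) (nat_lit 0) (XT.lf (nat_lit 0) (nat_lit 7691178351) (nat_lit 1672) (nat_lit 14206386341) (nat_lit 1748)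 (nat_lit 3495085910) (nat_lit 432) (nat_lit 5) (nat_lit 454) (nat_lit 5) (nat_lit 455) (nat_lit 5) (nat_lit 470) (nat_lit 453) (nat_lit 277)) (XT.nd (nat_lit 78) (nat_lit 76) (nat_lit 0) (XT.lf (nat_lit 0) (nat_lit 2448866813) (nat_lit 988) (nat_lit 23059827421) (nat_lit 1064) (nat_lit 294518065) (nat_lit 419) (nat_lit 5) (nat_lit 432) (nat_lit 5) (nat_lit 433) (nat_lit 5) (nat_lit 471) (nat_lit 453) (nat_lit 276)) (XT.lf (nat_lit 0) (nat_lit 3172080269) (nat_lit 1064) (nat_lit 2898732501) (nat_lit 76) (nat_lit 20150701437) (nat_lit 418) (nat_lit 5) (nat_lit 432) (nat_lit 5) (nat_lit 419) (nat_lit 5) (nat_lit 472) (nat_lit 453) (nat_lit 275))))) (XT.nd (nat_lit 234) (nat_lit 1672) (nat_lit 0) (XT.nd (nat_lit 78) (nat_lit 1748) (nat_lit 0) (XT.lf (nat_lit 0) (nat_lit 6927018685) (nat_lit 988) (nat_lit 8320709194) (nat_lit 76) (nat_lit 11400832370) (nat_lit 406) (nat_lit 5) (nat_lit 419) (nat_lit 5)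 (nat_lit 407) (nat_lit 5) (nat_lit 473) (nat_lit 453) (nat_lit 274)) (XT.nd (nat_lit 78) (nat_lit 836) (nat_lit 0) (XT.lf (nat_lit 0) (nat_lit 10950270492) (nat_lit 988) (nat_lit 13830201864) (nat_lit 76) (nat_lit 2304832871) (nat_lit 394) (nat_lit 5) (nat_lit 407) (nat_lit 5) (nat_lit 395) (nat_lit 5) (nat_lit 474) (nat_lit 453) (nat_lit 273)) (XT.lf (nat_lit 0) (nat_lit 8055708208) (nat_lit 836) (nat_lit 7243651540) (nat_lit 912) (nat_lit 12231690838) (nat_lit 383) (nat_lit 5) (nat_lit 394) (nat_lit 5) (nat_lit 395) (nat_lit 5) (nat_lit 475) (nat_lit 453) (nat_lit 272)))) (XT.nd (nat_lit 78) (nat_lit 836) (nat_lit 0) (XT.lf (nat_lit 0) (nat_lit 2758839824) (nat_lit 836) (nat_lit 17196826394) (nat_lit 912) (nat_lit 8030968006) (nat_lit 372) (nat_lit 5) (nat_lit 383) (nat_lit 5) (nat_lit 384) (nat_lit 5) (nat_lit 476) (nat_lit 453) (nat_lit 271)) (XT.nd (nat_lit 78) (nat_lit 836) (nat_lit 0) (XT.lf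 (nat_lit 0) (nat_lit 24932275771) (nat_lit 912) (nat_lit 2586589401) (nat_lit 76) (nat_lit 933408707) (nat_lit 372) (nat_lit 5) (nat_lit 384) (nat_lit 5) (nat_lit 373) (nat_lit 5) (nat_lit 477) (nat_lit 453) (nat_lit 270)) (XT.lf (nat_lit 0) (nat_lit 1358311754) (nat_lit 836) (nat_lit 8048670340) (nat_lit 76) (nat_lit 19519819471) (nat_lit 361) (nat_lit 5) (nat_lit 372) (nat_lit 5) (nat_lit 362) (nat_lit 5) (nat_lit 478) (nat_lit 453) (nat_lit 269)))))) (XT.nd (nat_lit 468) (nat_lit 2736) (nat_lit 0) (XT.nd (nat_lit 234) (nat_lit 1520) (nat_lit 0) (XT.nd (nat_lit 78) (nat_lit 1520) (nat_lit 0) (XT.lf (nat_lit 0) (nat_lit 6511573849) (nat_lit 912) (nat_lit 13628168782) (nat_lit 76) (nat_lit 9271829314) (nat_lit 350) (nat_lit 5) (nat_lit 362) (nat_lit 5) (nat_lit 351) (nat_lit 5) (nat_lit 479) (nat_lit 453) (nat_lit 268)) (XT.nd (nat_lit 78) (nat_lit 760) (nat_lit 0) (XT.lf (nat_lit 0) (nat_lit 10601040706)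 (nat_lit 760) (nat_lit 1399782678) (nat_lit 836) (nat_lit 17906434963) (nat_lit 340) (nat_lit 5) (nat_lit 350) (nat_lit 5) (nat_lit 351) (nat_lit 5) (nat_lit 480) (nat_lit 453) (nat_lit 267)) (XT.lf (nat_lit 0) (nat_lit 5274481637) (nat_lit 760) (nat_lit 12618574520) (nat_lit 836) (nat_lit 12519993754) (nat_lit 330) (nat_lit 5) (nat_lit 340) (nat_lit 5) (nat_lit 341) (nat_lit 5) (nat_lit 481) (nat_lit 453) (nat_lit 266)))) (XT.nd (nat_lit 78) (nat_lit 1520) (nat_lit 0) (XT.lf (nat_lit 0) (nat_lit 24140951732) (nat_lit 836) (nat_lit 133183220) (nat_lit 76) (nat_lit 6656303017) (nat_lit 330) (nat_lit 5) (nat_lit 341) (nat_lit 5) (nat_lit 331) (nat_lit 5) (nat_lit 482) (nat_lit 453) (nat_lit 265)) (XT.nd (nat_lit 78) (nat_lit 836) (nat_lit 0) (XT.lf (nat_lit 0) (nat_lit 25871894619) (nat_lit 684) (nat_lit 4951876432) (nat_lit 760) (nat_lit 634627523) (nat_lit 321) (nat_lit 5) (nat_lit 330) (nat_lit 5)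 (nat_lit 331) (nat_lit 5) (nat_lit 483) (nat_lit 453) (nat_lit 264)) (XT.lf (nat_lit 0) (nat_lit 5859995766) (nat_lit 836) (nat_lit 11208732921) (nat_lit 76) (nat_lit 14928130341) (nat_lit 310) (nat_lit 5) (nat_lit 321) (nat_lit 5) (nat_lit 311) (nat_lit 5) (nat_lit 484) (nat_lit 453) (nat_lit 263))))) (XT.nd (nat_lit 234) (nat_lit 760) (nat_lit 0) (XT.nd (nat_lit 78) (nat_lit 1292) (nat_lit 0) (XT.lf (nat_lit 0) (nat_lit 12728007464) (nat_lit 760) (nat_lit 16925163534) (nat_lit 76) (nat_lit 2894475559) (nat_lit 301) (nat_lit 5) (nat_lit 311) (nat_lit 5) (nat_lit 302) (nat_lit 5) (nat_lit 485) (nat_lit 453) (nat_lit 262)) (XT.nd (nat_lit 78) (nat_lit 608) (nat_lit 0) (XT.lf (nat_lit 0) (nat_lit 10313864321) (nat_lit 684) (nat_lit 9741161161) (nat_lit 760) (nat_lit 13054873487) (nat_lit 292) (nat_lit 5) (nat_lit 301) (nat_lit 5) (nat_lit 302) (nat_lit 5) (nat_lit 486) (nat_lit 453) (nat_lit 261)) (XT.lf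 (nat_lit 0) (nat_lit 4903268892) (nat_lit 608) (nat_lit 22911277564) (nat_lit 684) (nat_lit 5870219211) (nat_lit 284) (nat_lit 5) (nat_lit 292) (nat_lit 5) (nat_lit 293) (nat_lit 5) (nat_lit 487) (nat_lit 453) (nat_lit 260)))) (XT.nd (nat_lit 78) (nat_lit 684) (nat_lit 0) (XT.lf (nat_lit 0) (nat_lit 1726108574) (nat_lit 684) (nat_lit 609650661) (nat_lit 76) (nat_lit 31936596998) (nat_lit 283) (nat_lit 5) (nat_lit 292) (nat_lit 5) (nat_lit 284) (nat_lit 5) (nat_lit 488) (nat_lit 453) (nat_lit 259)) (XT.nd (nat_lit 59748) (nat_lit 0) (nat_lit 14668) (XT.lf (nat_lit 0) (nat_lit 9777237380) (nat_lit 760) (nat_lit 6257237504) (nat_lit 76) (nat_lit 18836190817) (nat_lit 274) (nat_lit 5) (nat_lit 284) (nat_lit 5) (nat_lit 275) (nat_lit 5) (nat_lit 489) (nat_lit 453) (nat_lit 258)) (XT.lf (nat_lit 0) (nat_lit 3649437916) (nat_lit 0) (nat_lit 3649437916) (nat_lit 1748) (nat_lit 2784983985) (nat_lit 467) (nat_lit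 5) (nat_lit 467) (nat_lit 3) (nat_lit 490) (nat_lit 3) (nat_lit 454) (nat_lit 454) (nat_lit 292))))))) (XT.nd (nat_lit 936) (nat_lit 5776) (nat_lit 0) (XT.nd (nat_lit 468) (nat_lit 1444) (nat_lit 0) (XT.nd (nat_lit 234) (nat_lit 0) (nat_lit 152) (XT.nd (nat_lit 78) (nat_lit 0) (nat_lit 76) (XT.lf (nat_lit 76) (nat_lit 1932305828) (nat_lit 0) (nat_lit 13185845344) (nat_lit 1824) (nat_lit 5346017829) (nat_lit 468) (nat_lit 5) (nat_lit 467) (nat_lit 5) (nat_lit 491) (nat_lit 5) (nat_lit 455) (nat_lit 454) (nat_lit 291)) (XT.nd (nat_lit 78) (nat_lit 0) (nat_lit 0) (XT.lf (nat_lit 0) (nat_lit 15790305638) (nat_lit 1748) (nat_lit 3477657258) (nat_lit 1824) (nat_lit 1498827564) (nat_lit 468) (nat_lit 5) (nat_lit 491) (nat_lit 5) (nat_lit 492) (nat_lit 5) (nat_lit 456) (nat_lit 454) (nat_lit 290)) (XT.lf (nat_lit 76) (nat_lit 12093547500) (nat_lit 0) (nat_lit 4546667351) (nat_lit 1824) (nat_lit 4435125342)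 (nat_lit 469) (nat_lit 5) (nat_lit 468) (nat_lit 5) (nat_lit 492) (nat_lit 5) (nat_lit 457) (nat_lit 454) (nat_lit 289)))) (XT.nd (nat_lit 78) (nat_lit 0) (nat_lit 76) (XT.lf (nat_lit 76) (nat_lit 6801759421) (nat_lit 0) (nat_lit 10841822592) (nat_lit 1824) (nat_lit 3747006580) (nat_lit 470) (nat_lit 5) (nat_lit 469) (nat_lit 5) (nat_lit 493) (nat_lit 5) (nat_lit 458) (nat_lit 454) (nat_lit 288)) (XT.nd (nat_lit 78) (nat_lit 0) (nat_lit 0) (XT.lf (nat_lit 76) (nat_lit 1422386417) (nat_lit 0) (nat_lit 17374821266) (nat_lit 1824) (nat_lit 2915684961) (nat_lit 471) (nat_lit 5) (nat_lit 470) (nat_lit 5) (nat_lit 494) (nat_lit 5) (nat_lit 459) (nat_lit 454) (nat_lit 287)) (XT.lf (nat_lit 76) (nat_lit 18034959161) (nat_lit 0) (nat_lit 2112982465) (nat_lit 1824) (nat_lit 1893675510) (nat_lit 471) (nat_lit 5) (nat_lit 470) (nat_lit 5) (nat_lit 494) (nat_lit 5) (nat_lit 460) (nat_lit 454) (nat_lit 286)))))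 (XT.nd (nat_lit 234) (nat_lit 0) (nat_lit 76) (XT.nd (nat_lit 78) (nat_lit 1748) (nat_lit 0) (XT.lf (nat_lit 76) (nat_lit 12840529353) (nat_lit 0) (nat_lit 8862259483) (nat_lit 1824) (nat_lit 674143974) (nat_lit 472) (nat_lit 5) (nat_lit 471) (nat_lit 5) (nat_lit 495) (nat_lit 5) (nat_lit 461) (nat_lit 454) (nat_lit 285)) (XT.nd (nat_lit 78) (nat_lit 0) (nat_lit 0) (XT.lf (nat_lit 0) (nat_lit 702284061) (nat_lit 1824) (nat_lit 15163099828) (nat_lit 1900) (nat_lit 6854290838) (nat_lit 448) (nat_lit 5) (nat_lit 472) (nat_lit 5) (nat_lit 473) (nat_lit 5) (nat_lit 462) (nat_lit 454) (nat_lit 284)) (XT.lf (nat_lit 76) (nat_lit 2180518948) (nat_lit 0) (nat_lit 61095226) (nat_lit 1900) (nat_lit 20828381417) (nat_lit 449) (nat_lit 5) (nat_lit 448) (nat_lit 5) (nat_lit 473) (nat_lit 5) (nat_lit 463) (nat_lit 454) (nat_lit 283)))) (XT.nd (nat_lit 78) (nat_lit 0) (nat_lit 76) (XT.lf (nat_lit 0) (nat_lit 4028298067)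 (nat_lit 1824) (nat_lit 3288173353) (nat_lit 1900) (nat_lit 16110332324) (nat_lit 449) (nat_lit 5) (nat_lit 473) (nat_lit 5) (nat_lit 474) (nat_lit 5) (nat_lit 464) (nat_lit 454) (nat_lit 282)) (XT.nd (nat_lit 78) (nat_lit 0) (nat_lit 76) (XT.lf (nat_lit 0) (nat_lit 6018173121) (nat_lit 1824) (nat_lit 8818769005) (nat_lit 1900) (nat_lit 8954383311) (nat_lit 450) (nat_lit 5) (nat_lit 474) (nat_lit 5) (nat_lit 475) (nat_lit 5) (nat_lit 465) (nat_lit 454) (nat_lit 281)) (XT.lf (nat_lit 0) (nat_lit 8205142454) (nat_lit 1824) (nat_lit 14441208778) (nat_lit 1900) (nat_lit 1517684662) (nat_lit 451) (nat_lit 5) (nat_lit 475) (nat_lit 5) (nat_lit 476) (nat_lit 5) (nat_lit 466) (nat_lit 454) (nat_lit 280)))))) (XT.nd (nat_lit 468) (nat_lit 3496) (nat_lit 0) (XT.nd (nat_lit 234) (nat_lit 2508) (nat_lit 0) (XT.nd (nat_lit 78) (nat_lit 0) (nat_lit 76) (XT.lf (nat_lit 76) (nat_lit 4346633955) (nat_lit 0) (nat_lit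 6291731069) (nat_lit 1900) (nat_lit 13905950803) (nat_lit 452) (nat_lit 5) (nat_lit 451) (nat_lit 5) (nat_lit 476) (nat_lit 5) (nat_lit 467) (nat_lit 454) (nat_lit 279)) (XT.nd (nat_lit 78) (nat_lit 0) (nat_lit 76) (XT.lf (nat_lit 0) (nat_lit 13304835716) (nat_lit 1824) (nat_lit 1112895848) (nat_lit 1900) (nat_lit 10515068577) (nat_lit 452) (nat_lit 5) (nat_lit 476) (nat_lit 5) (nat_lit 477) (nat_lit 5) (nat_lit 468) (nat_lit 454) (nat_lit 278)) (XT.lf (nat_lit 0) (nat_lit 16224944142) (nat_lit 1824) (nat_lit 6603383421) (nat_lit 1900) (nat_lit 2501139534) (nat_lit 453) (nat_lit 5) (nat_lit 477) (nat_lit 5) (nat_lit 478) (nat_lit 5) (nat_lit 469) (nat_lit 454) (nat_lit 277)))) (XT.nd (nat_lit 78) (nat_lit 2660) (nat_lit 0) (XT.lf (nat_lit 76) (nat_lit 13512982680) (nat_lit 0) (nat_lit 5905004935) (nat_lit 1900) (nat_lit 6316340767) (nat_lit 454) (nat_lit 5) (nat_lit 453) (nat_lit 5) (nat_lit 478) (nat_lit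 5) (nat_lit 470) (nat_lit 454) (nat_lit 276)) (XT.nd (nat_lit 78) (nat_lit 1064) (nat_lit 0) (XT.lf (nat_lit 0) (nat_lit 8199794960) (nat_lit 1672) (nat_lit 14673889920) (nat_lit 1748) (nat_lit 3274314302) (nat_lit 432) (nat_lit 5) (nat_lit 454) (nat_lit 5) (nat_lit 455) (nat_lit 5) (nat_lit 471) (nat_lit 454) (nat_lit 275)) (XT.lf (nat_lit 0) (nat_lit 14186291) (nat_lit 1064) (nat_lit 23768830965) (nat_lit 76) (nat_lit 2788014770) (nat_lit 418) (nat_lit 5) (nat_lit 432) (nat_lit 5) (nat_lit 419) (nat_lit 5) (nat_lit 472) (nat_lit 454) (nat_lit 274))))) (XT.nd (nat_lit 234) (nat_lit 1672) (nat_lit 0) (XT.nd (nat_lit 78) (nat_lit 1824) (nat_lit 0) (XT.lf (nat_lit 0) (nat_lit 3571671184) (nat_lit 1064) (nat_lit 2709796114) (nat_lit 76) (nat_lit 20720560264) (nat_lit 418) (nat_lit 5) (nat_lit 432) (nat_lit 5) (nat_lit 419) (nat_lit 5) (nat_lit 473) (nat_lit 454) (nat_lit 273)) (XT.nd (nat_lit 78) (nat_lit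 912) (nat_lit 0) (XT.lf (nat_lit 0) (nat_lit 7431984985) (nat_lit 988) (nat_lit 8292751348) (nat_lit 76) (nat_lit 11717295375) (nat_lit 406) (nat_lit 5) (nat_lit 419) (nat_lit 5) (nat_lit 407) (nat_lit 5) (nat_lit 474) (nat_lit 454) (nat_lit 272)) (XT.lf (nat_lit 0) (nat_lit 11568940653) (nat_lit 988) (nat_lit 13966074051) (nat_lit 76) (nat_lit 2357005435) (nat_lit 394) (nat_lit 5) (nat_lit 407) (nat_lit 5) (nat_lit 395) (nat_lit 5) (nat_lit 475) (nat_lit 454) (nat_lit 271)))) (XT.nd (nat_lit 78) (nat_lit 836) (nat_lit 0) (XT.lf (nat_lit 0) (nat_lit 8571886330) (nat_lit 836) (nat_lit 7469947216) (nat_lit 912) (nat_lit 12309438889) (nat_lit 383) (nat_lit 5) (nat_lit 394) (nat_lit 5) (nat_lit 395) (nat_lit 5) (nat_lit 476) (nat_lit 454) (nat_lit 270)) (XT.nd (nat_lit 78) (nat_lit 0) (nat_lit 0) (XT.lf (nat_lit 0) (nat_lit 3117332781) (nat_lit 836) (nat_lit 17713972915) (nat_lit 912) (nat_lit 7989349516)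 (nat_lit 372) (nat_lit 5) (nat_lit 383) (nat_lit 5) (nat_lit 384) (nat_lit 5) (nat_lit 477) (nat_lit 454) (nat_lit 269)) (XT.lf (nat_lit 0) (nat_lit 25949138634) (nat_lit 912) (nat_lit 2391066827) (nat_lit 76) (nat_lit 960221218) (nat_lit 372) (nat_lit 5) (nat_lit 384) (nat_lit 5) (nat_lit 373) (nat_lit 5) (nat_lit 478) (nat_lit 454) (nat_lit 268))))))))
noncomputable def xc118 : XT := (XT.nd (nat_lit 61542) (nat_lit 0) (nat_lit 76) (XT.nd (nat_lit 60606) (nat_lit 0) (nat_lit 12540) (XT.nd (nat_lit 390) (nat_lit 2888) (nat_lit 0) (XT.nd (nat_lit 156) (nat_lit 2204) (nat_lit 0) (XT.nd (nat_lit 78) (nat_lit 836) (nat_lit 0) (XT.lf (nat_lit 0) (nat_lit 1663644723) (nat_lit 836) (nat_lit 8017889352) (nat_lit 76) (nat_lit 20107744147) (nat_lit 361) (nat_lit 5) (nat_lit 372) (nat_lit 5) (nat_lit 362) (nat_lit 5) (nat_lit 479) (nat_lit 454) (nat_lit 267)) (XT.lf (nat_lit 0) (nat_lit 6965597040) (nat_lit 912)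 (nat_lit 13764042321) (nat_lit 76) (nat_lit 9559071546) (nat_lit 350) (nat_lit 5) (nat_lit 362) (nat_lit 5) (nat_lit 351) (nat_lit 5) (nat_lit 480) (nat_lit 454) (nat_lit 266))) (XT.nd (nat_lit 78) (nat_lit 1444) (nat_lit 0) (XT.lf (nat_lit 0) (nat_lit 11187614814) (nat_lit 760) (nat_lit 1426118555) (nat_lit 836) (nat_lit 18185651358) (nat_lit 340) (nat_lit 5) (nat_lit 350) (nat_lit 5) (nat_lit 351) (nat_lit 5) (nat_lit 481) (nat_lit 454) (nat_lit 265)) (XT.nd (nat_lit 78) (nat_lit 684) (nat_lit 0) (XT.lf (nat_lit 0) (nat_lit 5701810943) (nat_lit 760) (nat_lit 12975402431) (nat_lit 836) (nat_lit 12643248038) (nat_lit 330) (nat_lit 5) (nat_lit 340) (nat_lit 5) (nat_lit 341) (nat_lit 5) (nat_lit 482) (nat_lit 454) (nat_lit 264)) (XT.lf (nat_lit 0) (nat_lit 130487772) (nat_lit 684) (nat_lit 24975837408) (nat_lit 760) (nat_lit 6747171296) (nat_lit 321) (nat_lit 5) (nat_lit 330) (nat_lit 5) (nat_lit 331)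 (nat_lit 5) (nat_lit 483) (nat_lit 454) (nat_lit 263))))) (XT.nd (nat_lit 234) (nat_lit 1368) (nat_lit 0) (XT.nd (nat_lit 78) (nat_lit 1520) (nat_lit 0) (XT.lf (nat_lit 0) (nat_lit 26909691771) (nat_lit 684) (nat_lit 5073789875) (nat_lit 760) (nat_lit 413938126) (nat_lit 321) (nat_lit 5) (nat_lit 330) (nat_lit 5) (nat_lit 331) (nat_lit 5) (nat_lit 484) (nat_lit 454) (nat_lit 262)) (XT.nd (nat_lit 78) (nat_lit 684) (nat_lit 0) (XT.lf (nat_lit 0) (nat_lit 6267369594) (nat_lit 836) (nat_lit 11280008746) (nat_lit 76) (nat_lit 15404725654) (nat_lit 310) (nat_lit 5) (nat_lit 321) (nat_lit 5) (nat_lit 311) (nat_lit 5) (nat_lit 485) (nat_lit 454) (nat_lit 261)) (XT.lf (nat_lit 0) (nat_lit 13336591149) (nat_lit 760) (nat_lit 17167894283) (nat_lit 76) (nat_lit 3015027180) (nat_lit 301) (nat_lit 5) (nat_lit 311) (nat_lit 5) (nat_lit 302) (nat_lit 5) (nat_lit 486) (nat_lit 454) (nat_lit 260)))) (XT.nd (nat_lit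 78) (nat_lit 684) (nat_lit 0) (XT.lf (nat_lit 0) (nat_lit 10884004705) (nat_lit 684) (nat_lit 9994503620) (nat_lit 760) (nat_lit 13220223330) (nat_lit 292) (nat_lit 5) (nat_lit 301) (nat_lit 5) (nat_lit 302) (nat_lit 5) (nat_lit 487) (nat_lit 454) (nat_lit 259)) (XT.nd (nat_lit 78) (nat_lit 76) (nat_lit 0) (XT.lf (nat_lit 0) (nat_lit 5311004907) (nat_lit 608) (nat_lit 23555286288) (nat_lit 684) (nat_lit 5824644438) (nat_lit 284) (nat_lit 5) (nat_lit 292) (nat_lit 5) (nat_lit 293) (nat_lit 5) (nat_lit 488) (nat_lit 454) (nat_lit 258)) (XT.lf (nat_lit 0) (nat_lit 1990293732) (nat_lit 684) (nat_lit 372045375) (nat_lit 76) (nat_lit 32933914229) (nat_lit 283) (nat_lit 5) (nat_lit 292) (nat_lit 5) (nat_lit 284) (nat_lit 5) (nat_lit 489) (nat_lit 454) (nat_lit 257)))))) (XT.nd (nat_lit 468) (nat_lit 1444) (nat_lit 0) (XT.nd (nat_lit 234) (nat_lit 0) (nat_lit 76) (XT.nd (nat_lit 78) (nat_lit 0) (nat_lit 0)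 (XT.lf (nat_lit 0) (nat_lit 3878305445) (nat_lit 0) (nat_lit 3878305445) (nat_lit 1748) (nat_lit 2624951945) (nat_lit 467) (nat_lit 5) (nat_lit 467) (nat_lit 3) (nat_lit 490) (nat_lit 3) (nat_lit 455) (nat_lit 455) (nat_lit 290)) (XT.nd (nat_lit 78) (nat_lit 0) (nat_lit 76) (XT.lf (nat_lit 76) (nat_lit 2236164532) (nat_lit 0) (nat_lit 13799251263) (nat_lit 1824) (nat_lit 5033331247) (nat_lit 468) (nat_lit 5) (nat_lit 467) (nat_lit 5) (nat_lit 491) (nat_lit 5) (nat_lit 456) (nat_lit 455) (nat_lit 289)) (XT.lf (nat_lit 0) (nat_lit 16712855378) (nat_lit 1748) (nat_lit 3332811386) (nat_lit 1824) (nat_lit 1335080088) (nat_lit 468) (nat_lit 5) (nat_lit 491) (nat_lit 5) (nat_lit 492) (nat_lit 5) (nat_lit 457) (nat_lit 455) (nat_lit 288)))) (XT.nd (nat_lit 78) (nat_lit 0) (nat_lit 76) (XT.lf (nat_lit 76) (nat_lit 12701486937) (nat_lit 0) (nat_lit 4875293470) (nat_lit 1824) (nat_lit 4122004353) (nat_lit 469)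 (nat_lit 5) (nat_lit 468) (nat_lit 5) (nat_lit 492) (nat_lit 5) (nat_lit 458) (nat_lit 455) (nat_lit 287)) (XT.nd (nat_lit 78) (nat_lit 0) (nat_lit 76) (XT.lf (nat_lit 76) (nat_lit 7256868651) (nat_lit 0) (nat_lit 11341059635) (nat_lit 1824) (nat_lit 3425810726) (nat_lit 470) (nat_lit 5) (nat_lit 469) (nat_lit 5) (nat_lit 493) (nat_lit 5) (nat_lit 459) (nat_lit 455) (nat_lit 286)) (XT.lf (nat_lit 76) (nat_lit 1721580892) (nat_lit 0) (nat_lit 18052770872) (nat_lit 1824) (nat_lit 2581598576) (nat_lit 471) (nat_lit 5) (nat_lit 470) (nat_lit 5) (nat_lit 494) (nat_lit 5) (nat_lit 460) (nat_lit 455) (nat_lit 285))))) (XT.nd (nat_lit 234) (nat_lit 0) (nat_lit 0) (XT.nd (nat_lit 78) (nat_lit 1672) (nat_lit 0) (XT.lf (nat_lit 76) (nat_lit 18825059278) (nat_lit 0) (nat_lit 2328512685) (nat_lit 1824) (nat_lit 1541207198) (nat_lit 471) (nat_lit 5) (nat_lit 470) (nat_lit 5) (nat_lit 494) (nat_lit 5) (nat_lit 461)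 (nat_lit 455) (nat_lit 284)) (XT.nd (nat_lit 78) (nat_lit 1748) (nat_lit 0) (XT.lf (nat_lit 76) (nat_lit 13479683083) (nat_lit 0) (nat_lit 9264386005) (nat_lit 1824) (nat_lit 296306952) (nat_lit 472) (nat_lit 5) (nat_lit 471) (nat_lit 5) (nat_lit 495) (nat_lit 5) (nat_lit 462) (nat_lit 455) (nat_lit 283)) (XT.lf (nat_lit 0) (nat_lit 1105575695) (nat_lit 1824) (nat_lit 15354429888) (nat_lit 1900) (nat_lit 6933557030) (nat_lit 448) (nat_lit 5) (nat_lit 472) (nat_lit 5) (nat_lit 473) (nat_lit 5) (nat_lit 463) (nat_lit 455) (nat_lit 282)))) (XT.nd (nat_lit 78) (nat_lit 0) (nat_lit 76) (XT.lf (nat_lit 76) (nat_lit 2505221455) (nat_lit 0) (nat_lit 176415007) (nat_lit 1900) (nat_lit 21072947312) (nat_lit 449) (nat_lit 5) (nat_lit 448) (nat_lit 5) (nat_lit 473) (nat_lit 5) (nat_lit 464) (nat_lit 455) (nat_lit 281)) (XT.nd (nat_lit 78) (nat_lit 0) (nat_lit 76) (XT.lf (nat_lit 0) (nat_lit 4510348010) (nat_lit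 1824) (nat_lit 3127075392) (nat_lit 1900) (nat_lit 16484905865) (nat_lit 449) (nat_lit 5) (nat_lit 473) (nat_lit 5) (nat_lit 474) (nat_lit 5) (nat_lit 465) (nat_lit 455) (nat_lit 280)) (XT.lf (nat_lit 0) (nat_lit 6550429404) (nat_lit 1824) (nat_lit 8820074606) (nat_lit 1900) (nat_lit 9127473987) (nat_lit 450) (nat_lit 5) (nat_lit 474) (nat_lit 5) (nat_lit 475) (nat_lit 5) (nat_lit 466) (nat_lit 455) (nat_lit 279))))))) (XT.nd (nat_lit 858) (nat_lit 7524) (nat_lit 0) (XT.nd (nat_lit 390) (nat_lit 5168) (nat_lit 0) (XT.nd (nat_lit 156) (nat_lit 0) (nat_lit 76) (XT.nd (nat_lit 78) (nat_lit 0) (nat_lit 0) (XT.lf (nat_lit 0) (nat_lit 8793898880) (nat_lit 1824) (nat_lit 14607997766) (nat_lit 1900) (nat_lit 1480156845) (nat_lit 451) (nat_lit 5) (nat_lit 475) (nat_lit 5) (nat_lit 476) (nat_lit 5) (nat_lit 467) (nat_lit 455) (nat_lit 278)) (XT.lf (nat_lit 76) (nat_lit 4739157458) (nat_lit 0) (nat_lit 6552683851)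 (nat_lit 1900) (nat_lit 13982067547) (nat_lit 452) (nat_lit 5) (nat_lit 451) (nat_lit 5) (nat_lit 476) (nat_lit 5) (nat_lit 468) (nat_lit 455) (nat_lit 277))) (XT.nd (nat_lit 78) (nat_lit 0) (nat_lit 76) (XT.lf (nat_lit 0) (nat_lit 14028113369) (nat_lit 1824) (nat_lit 884797571) (nat_lit 1900) (nat_lit 10761342069) (nat_lit 452) (nat_lit 5) (nat_lit 476) (nat_lit 5) (nat_lit 477) (nat_lit 5) (nat_lit 469) (nat_lit 455) (nat_lit 276)) (XT.nd (nat_lit 78) (nat_lit 0) (nat_lit 0) (XT.lf (nat_lit 0) (nat_lit 17027670643) (nat_lit 1824) (nat_lit 6537483904) (nat_lit 1900) (nat_lit 2517829926) (nat_lit 453) (nat_lit 5) (nat_lit 477) (nat_lit 5) (nat_lit 478) (nat_lit 5) (nat_lit 470) (nat_lit 455) (nat_lit 275)) (XT.lf (nat_lit 76) (nat_lit 14178090077) (nat_lit 0) (nat_lit 6130898356) (nat_lit 1900) (nat_lit 6191154874) (nat_lit 454) (nat_lit 5) (nat_lit 453) (nat_lit 5) (nat_lit 478) (nat_lit 5) (nat_lit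 471) (nat_lit 455) (nat_lit 274))))) (XT.nd (nat_lit 234) (nat_lit 2660) (nat_lit 0) (XT.nd (nat_lit 78) (nat_lit 1064) (nat_lit 0) (XT.lf (nat_lit 0) (nat_lit 8707718546) (nat_lit 1672) (nat_lit 15153047129) (nat_lit 1748) (nat_lit 3065611706) (nat_lit 432) (nat_lit 5) (nat_lit 454) (nat_lit 5) (nat_lit 455) (nat_lit 5) (nat_lit 472) (nat_lit 455) (nat_lit 273)) (XT.nd (nat_lit 78) (nat_lit 0) (nat_lit 0) (XT.lf (nat_lit 0) (nat_lit 310173537) (nat_lit 1064) (nat_lit 24214033406) (nat_lit 76) (nat_lit 2838002577) (nat_lit 418) (nat_lit 5) (nat_lit 432) (nat_lit 5) (nat_lit 419) (nat_lit 5) (nat_lit 473) (nat_lit 455) (nat_lit 272)) (XT.lf (nat_lit 0) (nat_lit 3965774385) (nat_lit 1064) (nat_lit 2531029330) (nat_lit 76) (nat_lit 21309504610) (nat_lit 418) (nat_lit 5) (nat_lit 432) (nat_lit 5) (nat_lit 419) (nat_lit 5) (nat_lit 474) (nat_lit 455) (nat_lit 271)))) (XT.nd (nat_lit 78) (nat_lit 1748) (nat_lit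 0) (XT.lf (nat_lit 0) (nat_lit 7935042319) (nat_lit 988) (nat_lit 8279888944) (nat_lit 76) (nat_lit 12044719632) (nat_lit 406) (nat_lit 5) (nat_lit 419) (nat_lit 5) (nat_lit 407) (nat_lit 5) (nat_lit 475) (nat_lit 455) (nat_lit 270)) (XT.nd (nat_lit 78) (nat_lit 836) (nat_lit 0) (XT.lf (nat_lit 0) (nat_lit 12189514430) (nat_lit 988) (nat_lit 14122040090) (nat_lit 76) (nat_lit 2411717462) (nat_lit 394) (nat_lit 5) (nat_lit 407) (nat_lit 5) (nat_lit 395) (nat_lit 5) (nat_lit 476) (nat_lit 455) (nat_lit 269)) (XT.lf (nat_lit 0) (nat_lit 9087791978) (nat_lit 836) (nat_lit 7702515922) (nat_lit 912) (nat_lit 12406120797) (nat_lit 383) (nat_lit 5) (nat_lit 394) (nat_lit 5) (nat_lit 395) (nat_lit 5) (nat_lit 477) (nat_lit 455) (nat_lit 268)))))) (XT.nd (nat_lit 468) (nat_lit 3496) (nat_lit 0) (XT.nd (nat_lit 234) (nat_lit 2356) (nat_lit 0) (XT.nd (nat_lit 78) (nat_lit 836) (nat_lit 0) (XT.lf (nat_lit 0) (nat_lit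 3470752624) (nat_lit 836) (nat_lit 18246562550) (nat_lit 912) (nat_lit 7962701856) (nat_lit 372) (nat_lit 5) (nat_lit 383) (nat_lit 5) (nat_lit 384) (nat_lit 5) (nat_lit 478) (nat_lit 455) (nat_lit 267)) (XT.nd (nat_lit 78) (nat_lit 836) (nat_lit 0) (XT.lf (nat_lit 0) (nat_lit 26981071734) (nat_lit 912) (nat_lit 2205356796) (nat_lit 76) (nat_lit 987906400) (nat_lit 372) (nat_lit 5) (nat_lit 384) (nat_lit 5) (nat_lit 373) (nat_lit 5) (nat_lit 479) (nat_lit 455) (nat_lit 266)) (XT.lf (nat_lit 0) (nat_lit 1962949499) (nat_lit 836) (nat_lit 8001812687) (nat_lit 76) (nat_lit 20713172808) (nat_lit 361) (nat_lit 5) (nat_lit 372) (nat_lit 5) (nat_lit 362) (nat_lit 5) (nat_lit 480) (nat_lit 455) (nat_lit 265)))) (XT.nd (nat_lit 78) (nat_lit 1520) (nat_lit 0) (XT.lf (nat_lit 0) (nat_lit 7418391867) (nat_lit 912) (nat_lit 13919661748) (nat_lit 76) (nat_lit 9854409395) (nat_lit 350) (nat_lit 5) (nat_lit 362) (nat_lit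 5) (nat_lit 351) (nat_lit 5) (nat_lit 481) (nat_lit 455) (nat_lit 264)) (XT.nd (nat_lit 78) (nat_lit 760) (nat_lit 0) (XT.lf (nat_lit 0) (nat_lit 11776370684) (nat_lit 760) (nat_lit 1454143318) (nat_lit 836) (nat_lit 18488053159) (nat_lit 340) (nat_lit 5) (nat_lit 350) (nat_lit 5) (nat_lit 351) (nat_lit 5) (nat_lit 482) (nat_lit 455) (nat_lit 263)) (XT.lf (nat_lit 0) (nat_lit 6126512983) (nat_lit 760) (nat_lit 13344182532) (nat_lit 836) (nat_lit 12784685615) (nat_lit 330) (nat_lit 5) (nat_lit 340) (nat_lit 5) (nat_lit 341) (nat_lit 5) (nat_lit 483) (nat_lit 455) (nat_lit 262))))) (XT.nd (nat_lit 234) (nat_lit 1976) (nat_lit 0) (XT.nd (nat_lit 78) (nat_lit 836) (nat_lit 0) (XT.lf (nat_lit 0) (nat_lit 388422126) (nat_lit 684) (nat_lit 25699245686) (nat_lit 760) (nat_lit 6716840588) (nat_lit 321) (nat_lit 5) (nat_lit 330) (nat_lit 5) (nat_lit 331) (nat_lit 5) (nat_lit 484) (nat_lit 455) (nat_lit 261))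 (XT.nd (nat_lit 78) (nat_lit 836) (nat_lit 0) (XT.lf (nat_lit 0) (nat_lit 27963603613) (nat_lit 684) (nat_lit 5200890131) (nat_lit 760) (nat_lit 200389428) (nat_lit 321) (nat_lit 5) (nat_lit 330) (nat_lit 5) (nat_lit 331) (nat_lit 5) (nat_lit 485) (nat_lit 455) (nat_lit 260)) (XT.lf (nat_lit 0) (nat_lit 6673671345) (nat_lit 836) (nat_lit 11368634135) (nat_lit 76) (nat_lit 15893968378) (nat_lit 310) (nat_lit 5) (nat_lit 321) (nat_lit 5) (nat_lit 311) (nat_lit 5) (nat_lit 486) (nat_lit 455) (nat_lit 259)))) (XT.nd (nat_lit 78) (nat_lit 1292) (nat_lit 0) (XT.lf (nat_lit 0) (nat_lit 13950416342) (nat_lit 760) (nat_lit 17433120426) (nat_lit 76) (nat_lit 3137259837) (nat_lit 301) (nat_lit 5) (nat_lit 311) (nat_lit 5) (nat_lit 302) (nat_lit 5) (nat_lit 487) (nat_lit 455) (nat_lit 258)) (XT.nd (nat_lit 78) (nat_lit 608) (nat_lit 0) (XT.lf (nat_lit 0) (nat_lit 11456282650) (nat_lit 684) (nat_lit 10257678934)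 (nat_lit 760) (nat_lit 13403524004) (nat_lit 292) (nat_lit 5) (nat_lit 301) (nat_lit 5) (nat_lit 302) (nat_lit 5) (nat_lit 488) (nat_lit 455) (nat_lit 257)) (XT.lf (nat_lit 0) (nat_lit 5716011318) (nat_lit 608) (nat_lit 24221102570) (nat_lit 684) (nat_lit 5790427839) (nat_lit 284) (nat_lit 5) (nat_lit 292) (nat_lit 5) (nat_lit 293) (nat_lit 5) (nat_lit 489) (nat_lit 455) (nat_lit 256))))))))
noncomputable def xc119 : XT := (XT.nd (nat_lit 1794) (nat_lit 6916) (nat_lit 0) (XT.nd (nat_lit 858) (nat_lit 4864) (nat_lit 0) (XT.nd (nat_lit 390) (nat_lit 1520) (nat_lit 0) (XT.nd (nat_lit 156) (nat_lit 0) (nat_lit 76) (XT.nd (nat_lit 78) (nat_lit 0) (nat_lit 0) (XT.lf (nat_lit 0) (nat_lit 4107185847) (nat_lit 0) (nat_lit 4107185847) (nat_lit 1748) (nat_lit 2474101521) (nat_lit 467) (nat_lit 5) (nat_lit 467) (nat_lit 3) (nat_lit 490) (nat_lit 3) (nat_lit 456) (nat_lit 456) (nat_lit 288)) (XT.lf (nat_lit 76)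 (nat_lit 2535023933) (nat_lit 0) (nat_lit 14418554995) (nat_lit 1824) (nat_lit 4738420057) (nat_lit 468) (nat_lit 5) (nat_lit 467) (nat_lit 5) (nat_lit 491) (nat_lit 5) (nat_lit 457) (nat_lit 456) (nat_lit 287))) (XT.nd (nat_lit 78) (nat_lit 0) (nat_lit 0) (XT.lf (nat_lit 0) (nat_lit 17637316326) (nat_lit 1748) (nat_lit 3197923836) (nat_lit 1824) (nat_lit 1178401128) (nat_lit 468) (nat_lit 5) (nat_lit 491) (nat_lit 5) (nat_lit 492) (nat_lit 5) (nat_lit 458) (nat_lit 456) (nat_lit 286)) (XT.nd (nat_lit 78) (nat_lit 0) (nat_lit 76) (XT.lf (nat_lit 76) (nat_lit 13313592920) (nat_lit 0) (nat_lit 5202743808) (nat_lit 1824) (nat_lit 3825101989) (nat_lit 469) (nat_lit 5) (nat_lit 468) (nat_lit 5) (nat_lit 492) (nat_lit 5) (nat_lit 459) (nat_lit 456) (nat_lit 285)) (XT.lf (nat_lit 76) (nat_lit 7711219490) (nat_lit 0) (nat_lit 11845286490) (nat_lit 1824) (nat_lit 3119869757) (nat_lit 470) (nat_lit 5) (nat_lit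 469) (nat_lit 5) (nat_lit 493) (nat_lit 5) (nat_lit 460) (nat_lit 456) (nat_lit 284))))) (XT.nd (nat_lit 234) (nat_lit 0) (nat_lit 76) (XT.nd (nat_lit 78) (nat_lit 1748) (nat_lit 0) (XT.lf (nat_lit 76) (nat_lit 2015025739) (nat_lit 0) (nat_lit 18742063459) (nat_lit 1824) (nat_lit 2261688691) (nat_lit 471) (nat_lit 5) (nat_lit 470) (nat_lit 5) (nat_lit 494) (nat_lit 5) (nat_lit 461) (nat_lit 456) (nat_lit 283)) (XT.nd (nat_lit 78) (nat_lit 1748) (nat_lit 0) (XT.lf (nat_lit 76) (nat_lit 19624565833) (nat_lit 0) (nat_lit 2541775309) (nat_lit 1824) (nat_lit 1201659102) (nat_lit 471) (nat_lit 5) (nat_lit 470) (nat_lit 5) (nat_lit 494) (nat_lit 5) (nat_lit 462) (nat_lit 456) (nat_lit 282)) (XT.lf (nat_lit 0) (nat_lit 69096573) (nat_lit 1824) (nat_lit 9601194265) (nat_lit 1900) (nat_lit 14053874105) (nat_lit 447) (nat_lit 5) (nat_lit 471) (nat_lit 5) (nat_lit 472) (nat_lit 5) (nat_lit 463) (nat_lit 456) (nat_lit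 281)))) (XT.nd (nat_lit 78) (nat_lit 0) (nat_lit 0) (XT.lf (nat_lit 0) (nat_lit 1499024907) (nat_lit 1824) (nat_lit 15566629442) (nat_lit 1900) (nat_lit 7022454934) (nat_lit 448) (nat_lit 5) (nat_lit 472) (nat_lit 5) (nat_lit 473) (nat_lit 5) (nat_lit 464) (nat_lit 456) (nat_lit 280)) (XT.nd (nat_lit 78) (nat_lit 0) (nat_lit 76) (XT.lf (nat_lit 76) (nat_lit 2824780907) (nat_lit 0) (nat_lit 288679767) (nat_lit 1900) (nat_lit 21346680130) (nat_lit 449) (nat_lit 5) (nat_lit 448) (nat_lit 5) (nat_lit 473) (nat_lit 5) (nat_lit 465) (nat_lit 456) (nat_lit 279)) (XT.lf (nat_lit 0) (nat_lit 4986125035) (nat_lit 1824) (nat_lit 2976054813) (nat_lit 1900) (nat_lit 16876958527) (nat_lit 449) (nat_lit 5) (nat_lit 473) (nat_lit 5) (nat_lit 474) (nat_lit 5) (nat_lit 466) (nat_lit 456) (nat_lit 278)))))) (XT.nd (nat_lit 468) (nat_lit 5092) (nat_lit 0) (XT.nd (nat_lit 234) (nat_lit 0) (nat_lit 152) (XT.nd (nat_lit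 78) (nat_lit 0) (nat_lit 76) (XT.lf (nat_lit 0) (nat_lit 7078463720) (nat_lit 1824) (nat_lit 8836531431) (nat_lit 1900) (nat_lit 9311241817) (nat_lit 450) (nat_lit 5) (nat_lit 474) (nat_lit 5) (nat_lit 475) (nat_lit 5) (nat_lit 467) (nat_lit 456) (nat_lit 277)) (XT.nd (nat_lit 78) (nat_lit 0) (nat_lit 0) (XT.lf (nat_lit 0) (nat_lit 9380651233) (nat_lit 1824) (nat_lit 14795085588) (nat_lit 1900) (nat_lit 1446271082) (nat_lit 451) (nat_lit 5) (nat_lit 475) (nat_lit 5) (nat_lit 476) (nat_lit 5) (nat_lit 468) (nat_lit 456) (nat_lit 276)) (XT.lf (nat_lit 76) (nat_lit 5128409648) (nat_lit 0) (nat_lit 6817320592) (nat_lit 1900) (nat_lit 14080046134) (nat_lit 452) (nat_lit 5) (nat_lit 451) (nat_lit 5) (nat_lit 476) (nat_lit 5) (nat_lit 469) (nat_lit 456) (nat_lit 275)))) (XT.nd (nat_lit 78) (nat_lit 0) (nat_lit 76) (XT.lf (nat_lit 0) (nat_lit 14754482815) (nat_lit 1824) (nat_lit 664866664) (nat_lit 1900) (nat_lit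 11018974897) (nat_lit 452) (nat_lit 5) (nat_lit 476) (nat_lit 5) (nat_lit 477) (nat_lit 5) (nat_lit 470) (nat_lit 456) (nat_lit 274)) (XT.nd (nat_lit 78) (nat_lit 0) (nat_lit 0) (XT.lf (nat_lit 0) (nat_lit 17836340500) (nat_lit 1824) (nat_lit 6484762140) (nat_lit 1900) (nat_lit 2538370203) (nat_lit 453) (nat_lit 5) (nat_lit 477) (nat_lit 5) (nat_lit 478) (nat_lit 5) (nat_lit 471) (nat_lit 456) (nat_lit 273)) (XT.lf (nat_lit 76) (nat_lit 14848241826) (nat_lit 0) (nat_lit 6360770517) (nat_lit 1900) (nat_lit 6080277101) (nat_lit 454) (nat_lit 5) (nat_lit 453) (nat_lit 5) (nat_lit 478) (nat_lit 5) (nat_lit 472) (nat_lit 456) (nat_lit 272))))) (XT.nd (nat_lit 234) (nat_lit 2660) (nat_lit 0) (XT.nd (nat_lit 78) (nat_lit 1064) (nat_lit 0) (XT.lf (nat_lit 0) (nat_lit 9215844002) (nat_lit 1672) (nat_lit 15644343710) (nat_lit 1748) (nat_lit 2868267186) (nat_lit 432) (nat_lit 5) (nat_lit 454) (nat_lit 5) (nat_lit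 455) (nat_lit 5) (nat_lit 473) (nat_lit 456) (nat_lit 271)) (XT.nd (nat_lit 78) (nat_lit 0) (nat_lit 0) (XT.lf (nat_lit 0) (nat_lit 598073952) (nat_lit 1064) (nat_lit 24687968323) (nat_lit 76) (nat_lit 2891421817) (nat_lit 418) (nat_lit 5) (nat_lit 432) (nat_lit 5) (nat_lit 419) (nat_lit 5) (nat_lit 474) (nat_lit 456) (nat_lit 270)) (XT.lf (nat_lit 0) (nat_lit 4355228402) (nat_lit 1064) (nat_lit 2361828088) (nat_lit 76) (nat_lit 21917992819) (nat_lit 418) (nat_lit 5) (nat_lit 432) (nat_lit 5) (nat_lit 419) (nat_lit 5) (nat_lit 475) (nat_lit 456) (nat_lit 269)))) (XT.nd (nat_lit 78) (nat_lit 1748) (nat_lit 0) (XT.lf (nat_lit 0) (nat_lit 8437112615) (nat_lit 988) (nat_lit 8281660158) (nat_lit 76) (nat_lit 12383349745) (nat_lit 406) (nat_lit 5) (nat_lit 419) (nat_lit 5) (nat_lit 407) (nat_lit 5) (nat_lit 476) (nat_lit 456) (nat_lit 268)) (XT.nd (nat_lit 78) (nat_lit 836) (nat_lit 0) (XT.lf (nat_lit 0)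 (nat_lit 12813005083) (nat_lit 988) (nat_lit 14297783314) (nat_lit 76) (nat_lit 2468989209) (nat_lit 394) (nat_lit 5) (nat_lit 407) (nat_lit 5) (nat_lit 395) (nat_lit 5) (nat_lit 477) (nat_lit 456) (nat_lit 267)) (XT.lf (nat_lit 0) (nat_lit 9604321541) (nat_lit 836) (nat_lit 7941575459) (nat_lit 912) (nat_lit 12521351591) (nat_lit 383) (nat_lit 5) (nat_lit 394) (nat_lit 5) (nat_lit 395) (nat_lit 5) (nat_lit 478) (nat_lit 456) (nat_lit 266))))))) (XT.nd (nat_lit 60840) (nat_lit 0) (nat_lit 11780) (XT.nd (nat_lit 468) (nat_lit 2888) (nat_lit 0) (XT.nd (nat_lit 234) (nat_lit 2356) (nat_lit 0) (XT.nd (nat_lit 78) (nat_lit 836) (nat_lit 0) (XT.lf (nat_lit 0) (nat_lit 3819855748) (nat_lit 836) (nat_lit 18795062687) (nat_lit 912) (nat_lit 7950543091) (nat_lit 372) (nat_lit 5) (nat_lit 383) (nat_lit 5) (nat_lit 384) (nat_lit 5) (nat_lit 479) (nat_lit 456) (nat_lit 265)) (XT.nd (nat_lit 78) (nat_lit 836) (nat_lit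 0) (XT.lf (nat_lit 0) (nat_lit 28029413247) (nat_lit 912) (nat_lit 2028853690) (nat_lit 76) (nat_lit 1016486515) (nat_lit 372) (nat_lit 5) (nat_lit 384) (nat_lit 5) (nat_lit 373) (nat_lit 5) (nat_lit 480) (nat_lit 456) (nat_lit 264)) (XT.lf (nat_lit 0) (nat_lit 2256917100) (nat_lit 836) (nat_lit 7999984379) (nat_lit 76) (nat_lit 21336638249) (nat_lit 361) (nat_lit 5) (nat_lit 372) (nat_lit 5) (nat_lit 362) (nat_lit 5) (nat_lit 481) (nat_lit 456) (nat_lit 263)))) (XT.nd (nat_lit 78) (nat_lit 1520) (nat_lit 0) (XT.lf (nat_lit 0) (nat_lit 7870773877) (nat_lit 912) (nat_lit 14094719936) (nat_lit 76) (nat_lit 10158115672) (nat_lit 350) (nat_lit 5) (nat_lit 362) (nat_lit 5) (nat_lit 351) (nat_lit 5) (nat_lit 482) (nat_lit 456) (nat_lit 262)) (XT.nd (nat_lit 78) (nat_lit 760) (nat_lit 0) (XT.lf (nat_lit 0) (nat_lit 12368258680) (nat_lit 760) (nat_lit 1483856040) (nat_lit 836) (nat_lit 18813485838) (nat_lit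 340) (nat_lit 5) (nat_lit 350) (nat_lit 5) (nat_lit 351) (nat_lit 5) (nat_lit 483) (nat_lit 456) (nat_lit 261)) (XT.lf (nat_lit 0) (nat_lit 6549395667) (nat_lit 760) (nat_lit 13725201784) (nat_lit 836) (nat_lit 12944020450) (nat_lit 330) (nat_lit 5) (nat_lit 340) (nat_lit 5) (nat_lit 341) (nat_lit 5) (nat_lit 484) (nat_lit 456) (nat_lit 260))))) (XT.nd (nat_lit 234) (nat_lit 1368) (nat_lit 0) (XT.nd (nat_lit 78) (nat_lit 836) (nat_lit 0) (XT.lf (nat_lit 0) (nat_lit 639512740) (nat_lit 684) (nat_lit 26445841076) (nat_lit 760) (nat_lit 6698960522) (nat_lit 321) (nat_lit 5) (nat_lit 330) (nat_lit 5) (nat_lit 331) (nat_lit 5) (nat_lit 485) (nat_lit 456) (nat_lit 259)) (XT.nd (nat_lit 78) (nat_lit 760) (nat_lit 0) (XT.lf (nat_lit 0) (nat_lit 6507824) (nat_lit 760) (nat_lit 5326693514) (nat_lit 76) (nat_lit 29028424255) (nat_lit 320) (nat_lit 5) (nat_lit 330) (nat_lit 5) (nat_lit 321) (nat_lit 5) (nat_lit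 486) (nat_lit 456) (nat_lit 258)) (XT.lf (nat_lit 0) (nat_lit 7079631945) (nat_lit 836) (nat_lit 11474256386) (nat_lit 76) (nat_lit 16396332678) (nat_lit 310) (nat_lit 5) (nat_lit 321) (nat_lit 5) (nat_lit 311) (nat_lit 5) (nat_lit 487) (nat_lit 456) (nat_lit 257)))) (XT.nd (nat_lit 78) (nat_lit 684) (nat_lit 0) (XT.lf (nat_lit 0) (nat_lit 14570387460) (nat_lit 760) (nat_lit 17720643508) (nat_lit 76) (nat_lit 3261335065) (nat_lit 301) (nat_lit 5) (nat_lit 311) (nat_lit 5) (nat_lit 302) (nat_lit 5) (nat_lit 488) (nat_lit 456) (nat_lit 256)) (XT.nd (nat_lit 59982) (nat_lit 0) (nat_lit 13300) (XT.lf (nat_lit 0) (nat_lit 12031621431) (nat_lit 684) (nat_lit 10530853930) (nat_lit 760) (nat_lit 13604568337) (nat_lit 292) (nat_lit 5) (nat_lit 301) (nat_lit 5) (nat_lit 302) (nat_lit 5) (nat_lit 489) (nat_lit 456) (nat_lit 255)) (XT.lf (nat_lit 0) (nat_lit 4336472907) (nat_lit 0) (nat_lit 4336472907) (nat_lit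 1748) (nat_lit 2331905505) (nat_lit 467) (nat_lit 5) (nat_lit 467) (nat_lit 3) (nat_lit 490) (nat_lit 3) (nat_lit 457) (nat_lit 457) (nat_lit 286)))))) (XT.nd (nat_lit 468) (nat_lit 1520) (nat_lit 0) (XT.nd (nat_lit 234) (nat_lit 0) (nat_lit 152) (XT.nd (nat_lit 78) (nat_lit 0) (nat_lit 76) (XT.lf (nat_lit 76) (nat_lit 2829544313) (nat_lit 0) (nat_lit 15044651275) (nat_lit 1824) (nat_lit 4460258653) (nat_lit 468) (nat_lit 5) (nat_lit 467) (nat_lit 5) (nat_lit 491) (nat_lit 5) (nat_lit 458) (nat_lit 457) (nat_lit 285)) (XT.nd (nat_lit 78) (nat_lit 0) (nat_lit 0) (XT.lf (nat_lit 0) (nat_lit 18565224849) (nat_lit 1748) (nat_lit 3072472267) (nat_lit 1824) (nat_lit 1028314984) (nat_lit 468) (nat_lit 5) (nat_lit 491) (nat_lit 5) (nat_lit 492) (nat_lit 5) (nat_lit 459) (nat_lit 457) (nat_lit 284)) (XT.lf (nat_lit 76) (nat_lit 13930798213) (nat_lit 0) (nat_lit 5529616521) (nat_lit 1824) (nat_lit 3543434563)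 (nat_lit 469) (nat_lit 5) (nat_lit 468) (nat_lit 5) (nat_lit 492) (nat_lit 5) (nat_lit 460) (nat_lit 457) (nat_lit 283)))) (XT.nd (nat_lit 78) (nat_lit 0) (nat_lit 76) (XT.lf (nat_lit 76) (nat_lit 8165616476) (nat_lit 0) (nat_lit 12355226164) (nat_lit 1824) (nat_lit 2828212489) (nat_lit 470) (nat_lit 5) (nat_lit 469) (nat_lit 5) (nat_lit 493) (nat_lit 5) (nat_lit 461) (nat_lit 457) (nat_lit 282)) (XT.nd (nat_lit 78) (nat_lit 0) (nat_lit 0) (XT.lf (nat_lit 76) (nat_lit 2303393770) (nat_lit 0) (nat_lit 19443555697) (nat_lit 1824) (nat_lit 1954991475) (nat_lit 471) (nat_lit 5) (nat_lit 470) (nat_lit 5) (nat_lit 494) (nat_lit 5) (nat_lit 462) (nat_lit 457) (nat_lit 281)) (XT.lf (nat_lit 76) (nat_lit 20434581700) (nat_lit 0) (nat_lit 2753203650) (nat_lit 1824) (nat_lit 874070160) (nat_lit 471) (nat_lit 5) (nat_lit 470) (nat_lit 5) (nat_lit 494) (nat_lit 5) (nat_lit 463) (nat_lit 457) (nat_lit 280))))) (XT.nd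 (nat_lit 234) (nat_lit 0) (nat_lit 152) (XT.nd (nat_lit 78) (nat_lit 0) (nat_lit 76) (XT.lf (nat_lit 0) (nat_lit 420203340) (nat_lit 1824) (nat_lit 9658918146) (nat_lit 1900) (nat_lit 14349734747) (nat_lit 447) (nat_lit 5) (nat_lit 471) (nat_lit 5) (nat_lit 472) (nat_lit 5) (nat_lit 464) (nat_lit 457) (nat_lit 279)) (XT.nd (nat_lit 78) (nat_lit 0) (nat_lit 0) (XT.lf (nat_lit 0) (nat_lit 1883595939) (nat_lit 1824) (nat_lit 15799456071) (nat_lit 1900) (nat_lit 7120857108) (nat_lit 448) (nat_lit 5) (nat_lit 472) (nat_lit 5) (nat_lit 473) (nat_lit 5) (nat_lit 465) (nat_lit 457) (nat_lit 278)) (XT.lf (nat_lit 76) (nat_lit 3139897421) (nat_lit 0) (nat_lit 398171822) (nat_lit 1900) (nat_lit 21649201751) (nat_lit 449) (nat_lit 5) (nat_lit 448) (nat_lit 5) (nat_lit 473) (nat_lit 5) (nat_lit 466) (nat_lit 457) (nat_lit 277)))) (XT.nd (nat_lit 78) (nat_lit 0) (nat_lit 76) (XT.lf (nat_lit 0) (nat_lit 5456631196)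 (nat_lit 1824) (nat_lit 2834558023) (nat_lit 1900) (nat_lit 17286656373) (nat_lit 449) (nat_lit 5) (nat_lit 473) (nat_lit 5) (nat_lit 474) (nat_lit 5) (nat_lit 467) (nat_lit 457) (nat_lit 276)) (XT.nd (nat_lit 78) (nat_lit 0) (nat_lit 76) (XT.lf (nat_lit 0) (nat_lit 7603308379) (nat_lit 1824) (nat_lit 8867726523) (nat_lit 1900) (nat_lit 9505692288) (nat_lit 450) (nat_lit 5) (nat_lit 474) (nat_lit 5) (nat_lit 475) (nat_lit 5) (nat_lit 468) (nat_lit 457) (nat_lit 275)) (XT.lf (nat_lit 0) (nat_lit 9966468345) (nat_lit 1824) (nat_lit 15002203202) (nat_lit 1900) (nat_lit 1415862939) (nat_lit 451) (nat_lit 5) (nat_lit 475) (nat_lit 5) (nat_lit 476) (nat_lit 5) (nat_lit 469) (nat_lit 457) (nat_lit 274))))))))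
noncomputable def xc120 : XT := (XT.nd (nat_lit 61854) (nat_lit 0) (nat_lit 3040) (XT.nd (nat_lit 858) (nat_lit 4712) (nat_lit 0) (XT.nd (nat_lit 390) (nat_lit 4560) (nat_lit 0) (XT.nd (nat_lit 156) (nat_lit 1444) (nat_lit 0) (XT.nd (nat_lit 78) (nat_lit 0) (nat_lit 76) (XT.lf (nat_lit 76) (nat_lit 5515156147) (nat_lit 0) (nat_lit 7085989730) (nat_lit 1900) (nat_lit 14199418543) (nat_lit 452) (nat_lit 5) (nat_lit 451) (nat_lit 5) (nat_lit 476) (nat_lit 5) (nat_lit 470) (nat_lit 457) (nat_lit 273)) (XT.lf (nat_lit 0) (nat_lit 15485104900) (nat_lit 1824) (nat_lit 452486493) (nat_lit 1900) (nat_lit 11288079884) (nat_lit 452) (nat_lit 5) (nat_lit 476) (nat_lit 5) (nat_lit 477) (nat_lit 5) (nat_lit 471) (nat_lit 457) (nat_lit 272))) (XT.nd (nat_lit 78) (nat_lit 1596) (nat_lit 0) (XT.lf (nat_lit 0) (nat_lit 18652173233) (nat_lit 1824) (nat_lit 6444743517) (nat_lit 1900) (nat_lit 2562683605) (nat_lit 453)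 (nat_lit 5) (nat_lit 477) (nat_lit 5) (nat_lit 478) (nat_lit 5) (nat_lit 472) (nat_lit 457) (nat_lit 271)) (XT.nd (nat_lit 78) (nat_lit 1596) (nat_lit 0) (XT.lf (nat_lit 76) (nat_lit 15524445086) (nat_lit 0) (nat_lit 6594901399) (nat_lit 1900) (nat_lit 5983099760) (nat_lit 454) (nat_lit 5) (nat_lit 453) (nat_lit 5) (nat_lit 478) (nat_lit 5) (nat_lit 473) (nat_lit 457) (nat_lit 270)) (XT.lf (nat_lit 0) (nat_lit 9725040501) (nat_lit 1672) (nat_lit 16148272162) (nat_lit 1748) (nat_lit 2681610073) (nat_lit 432) (nat_lit 5) (nat_lit 454) (nat_lit 5) (nat_lit 455) (nat_lit 5) (nat_lit 474) (nat_lit 457) (nat_lit 269))))) (XT.nd (nat_lit 234) (nat_lit 2584) (nat_lit 0) (XT.nd (nat_lit 78) (nat_lit 912) (nat_lit 0) (XT.lf (nat_lit 0) (nat_lit 878618875) (nat_lit 1064) (nat_lit 25190615022) (nat_lit 76) (nat_lit 2948264540) (nat_lit 418) (nat_lit 5) (nat_lit 432) (nat_lit 5) (nat_lit 419) (nat_lit 5) (nat_lit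 475) (nat_lit 457) (nat_lit 268)) (XT.nd (nat_lit 78) (nat_lit 912) (nat_lit 0) (XT.lf (nat_lit 0) (nat_lit 4740839336) (nat_lit 1064) (nat_lit 2201622396) (nat_lit 76) (nat_lit 22546503543) (nat_lit 418) (nat_lit 5) (nat_lit 432) (nat_lit 5) (nat_lit 419) (nat_lit 5) (nat_lit 476) (nat_lit 457) (nat_lit 267)) (XT.lf (nat_lit 0) (nat_lit 8939089247) (nat_lit 988) (nat_lit 8297641818) (nat_lit 76) (nat_lit 12733442493) (nat_lit 406) (nat_lit 5) (nat_lit 419) (nat_lit 5) (nat_lit 407) (nat_lit 5) (nat_lit 477) (nat_lit 457) (nat_lit 266)))) (XT.nd (nat_lit 78) (nat_lit 1672) (nat_lit 0) (XT.lf (nat_lit 0) (nat_lit 13440401381) (nat_lit 988) (nat_lit 14493030341) (nat_lit 76) (nat_lit 2528844749) (nat_lit 394) (nat_lit 5) (nat_lit 407) (nat_lit 5) (nat_lit 395) (nat_lit 5) (nat_lit 478) (nat_lit 457) (nat_lit 265)) (XT.nd (nat_lit 78) (nat_lit 836) (nat_lit 0) (XT.lf (nat_lit 0) (nat_lit 10122346374)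 (nat_lit 836) (nat_lit 8187348465) (nat_lit 912) (nat_lit 12654789452) (nat_lit 383) (nat_lit 5) (nat_lit 394) (nat_lit 5) (nat_lit 395) (nat_lit 5) (nat_lit 479) (nat_lit 457) (nat_lit 264)) (XT.lf (nat_lit 0) (nat_lit 4165369080) (nat_lit 836) (nat_lit 19359954495) (nat_lit 912) (nat_lit 7952430276) (nat_lit 372) (nat_lit 5) (nat_lit 383) (nat_lit 5) (nat_lit 384) (nat_lit 5) (nat_lit 480) (nat_lit 457) (nat_lit 263)))))) (XT.nd (nat_lit 468) (nat_lit 836) (nat_lit 0) (XT.nd (nat_lit 234) (nat_lit 2204) (nat_lit 0) (XT.nd (nat_lit 78) (nat_lit 1672) (nat_lit 0) (XT.lf (nat_lit 0) (nat_lit 29095490631) (nat_lit 912) (nat_lit 1860985387) (nat_lit 76) (nat_lit 1045984713) (nat_lit 372) (nat_lit 5) (nat_lit 384) (nat_lit 5) (nat_lit 373) (nat_lit 5) (nat_lit 481) (nat_lit 457) (nat_lit 262)) (XT.nd (nat_lit 78) (nat_lit 836) (nat_lit 0) (XT.lf (nat_lit 0) (nat_lit 2546209226) (nat_lit 836) (nat_lit 8011986277)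 (nat_lit 76) (nat_lit 21978688813) (nat_lit 361) (nat_lit 5) (nat_lit 372) (nat_lit 5) (nat_lit 362) (nat_lit 5) (nat_lit 482) (nat_lit 457) (nat_lit 261)) (XT.lf (nat_lit 0) (nat_lit 8323534150) (nat_lit 912) (nat_lit 14288952180) (nat_lit 76) (nat_lit 10470469657) (nat_lit 350) (nat_lit 5) (nat_lit 362) (nat_lit 5) (nat_lit 351) (nat_lit 5) (nat_lit 483) (nat_lit 457) (nat_lit 260)))) (XT.nd (nat_lit 78) (nat_lit 1444) (nat_lit 0) (XT.lf (nat_lit 0) (nat_lit 12964206880) (nat_lit 760) (nat_lit 1515258725) (nat_lit 836) (nat_lit 19161839026) (nat_lit 340) (nat_lit 5) (nat_lit 350) (nat_lit 5) (nat_lit 351) (nat_lit 5) (nat_lit 484) (nat_lit 457) (nat_lit 259)) (XT.nd (nat_lit 78) (nat_lit 684) (nat_lit 0) (XT.lf (nat_lit 0) (nat_lit 6971240244) (nat_lit 760) (nat_lit 14118759871) (nat_lit 836) (nat_lit 13121005656) (nat_lit 330) (nat_lit 5) (nat_lit 340) (nat_lit 5) (nat_lit 341) (nat_lit 5) (nat_lit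 485) (nat_lit 457) (nat_lit 258)) (XT.lf (nat_lit 0) (nat_lit 884391355) (nat_lit 684) (nat_lit 27216233952) (nat_lit 760) (nat_lit 6693137667) (nat_lit 321) (nat_lit 5) (nat_lit 330) (nat_lit 5) (nat_lit 331) (nat_lit 5) (nat_lit 486) (nat_lit 457) (nat_lit 257))))) (XT.nd (nat_lit 60294) (nat_lit 0) (nat_lit 11932) (XT.nd (nat_lit 78) (nat_lit 760) (nat_lit 0) (XT.lf (nat_lit 0) (nat_lit 204838554) (nat_lit 760) (nat_lit 5264716263) (nat_lit 76) (nat_lit 29918931536) (nat_lit 320) (nat_lit 5) (nat_lit 330) (nat_lit 5) (nat_lit 321) (nat_lit 5) (nat_lit 487) (nat_lit 457) (nat_lit 256)) (XT.nd (nat_lit 60138) (nat_lit 0) (nat_lit 11932) (XT.lf (nat_lit 0) (nat_lit 7485960445) (nat_lit 836) (nat_lit 11596562338) (nat_lit 76) (nat_lit 16912301506) (nat_lit 310) (nat_lit 5) (nat_lit 321) (nat_lit 5) (nat_lit 311) (nat_lit 5) (nat_lit 488) (nat_lit 457) (nat_lit 255)) (XT.lf (nat_lit 0) (nat_lit 4566549642)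 (nat_lit 0) (nat_lit 4566549642) (nat_lit 1748) (nat_lit 2197866949) (nat_lit 467) (nat_lit 5) (nat_lit 467) (nat_lit 3) (nat_lit 490) (nat_lit 3) (nat_lit 458) (nat_lit 458) (nat_lit 284)))) (XT.nd (nat_lit 78) (nat_lit 0) (nat_lit 76) (XT.lf (nat_lit 76) (nat_lit 3120359252) (nat_lit 0) (nat_lit 15678420477) (nat_lit 1824) (nat_lit 4197880150) (nat_lit 468) (nat_lit 5) (nat_lit 467) (nat_lit 5) (nat_lit 491) (nat_lit 5) (nat_lit 459) (nat_lit 458) (nat_lit 283)) (XT.nd (nat_lit 78) (nat_lit 0) (nat_lit 0) (XT.lf (nat_lit 0) (nat_lit 19498078506) (nat_lit 1748) (nat_lit 2955965801) (nat_lit 1824) (nat_lit 884371165) (nat_lit 468) (nat_lit 5) (nat_lit 491) (nat_lit 5) (nat_lit 492) (nat_lit 5) (nat_lit 460) (nat_lit 458) (nat_lit 282)) (XT.lf (nat_lit 76) (nat_lit 14554017198) (nat_lit 0) (nat_lit 5856491348) (nat_lit 1824) (nat_lit 3276073271) (nat_lit 469) (nat_lit 5) (nat_lit 468) (nat_lit 5) (nat_lit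 492) (nat_lit 5) (nat_lit 461) (nat_lit 458) (nat_lit 281))))))) (XT.nd (nat_lit 858) (nat_lit 7372) (nat_lit 0) (XT.nd (nat_lit 390) (nat_lit 0) (nat_lit 76) (XT.nd (nat_lit 156) (nat_lit 1672) (nat_lit 0) (XT.nd (nat_lit 78) (nat_lit 0) (nat_lit 76) (XT.lf (nat_lit 76) (nat_lit 8620840792) (nat_lit 0) (nat_lit 12871590441) (nat_lit 1824) (nat_lit 2549920621) (nat_lit 470) (nat_lit 5) (nat_lit 469) (nat_lit 5) (nat_lit 493) (nat_lit 5) (nat_lit 462) (nat_lit 458) (nat_lit 280)) (XT.lf (nat_lit 76) (nat_lit 2587329459) (nat_lit 0) (nat_lit 20158100311) (nat_lit 1824) (nat_lit 1660593924) (nat_lit 471) (nat_lit 5) (nat_lit 470) (nat_lit 5) (nat_lit 494) (nat_lit 5) (nat_lit 463) (nat_lit 458) (nat_lit 279))) (XT.nd (nat_lit 78) (nat_lit 1748) (nat_lit 0) (XT.lf (nat_lit 76) (nat_lit 21256195729) (nat_lit 0) (nat_lit 2963215239) (nat_lit 1824) (nat_lit 557527900) (nat_lit 471) (nat_lit 5) (nat_lit 470)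 (nat_lit 5) (nat_lit 494) (nat_lit 5) (nat_lit 464) (nat_lit 458) (nat_lit 278)) (XT.nd (nat_lit 78) (nat_lit 0) (nat_lit 76) (XT.lf (nat_lit 0) (nat_lit 761807338) (nat_lit 1824) (nat_lit 9731594591) (nat_lit 1900) (nat_lit 14661690093) (nat_lit 447) (nat_lit 5) (nat_lit 471) (nat_lit 5) (nat_lit 472) (nat_lit 5) (nat_lit 465) (nat_lit 458) (nat_lit 277)) (XT.lf (nat_lit 0) (nat_lit 2260209655) (nat_lit 1824) (nat_lit 16052709945) (nat_lit 1900) (nat_lit 7228656189) (nat_lit 448) (nat_lit 5) (nat_lit 472) (nat_lit 5) (nat_lit 473) (nat_lit 5) (nat_lit 466) (nat_lit 458) (nat_lit 276))))) (XT.nd (nat_lit 234) (nat_lit 0) (nat_lit 228) (XT.nd (nat_lit 78) (nat_lit 0) (nat_lit 76) (XT.lf (nat_lit 76) (nat_lit 3451243073) (nat_lit 0) (nat_lit 505160489) (nat_lit 1900) (nat_lit 21980194645) (nat_lit 449) (nat_lit 5) (nat_lit 448) (nat_lit 5) (nat_lit 473) (nat_lit 5) (nat_lit 467) (nat_lit 458) (nat_lit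 275)) (XT.nd (nat_lit 78) (nat_lit 0) (nat_lit 76) (XT.lf (nat_lit 0) (nat_lit 5922830283) (nat_lit 1824) (nat_lit 2702063956) (nat_lit 1900) (nat_lit 17714191017) (nat_lit 449) (nat_lit 5) (nat_lit 473) (nat_lit 5) (nat_lit 474) (nat_lit 5) (nat_lit 468) (nat_lit 458) (nat_lit 274)) (XT.lf (nat_lit 0) (nat_lit 8125960131) (nat_lit 1824) (nat_lit 8913284333) (nat_lit 1900) (nat_lit 9710849121) (nat_lit 450) (nat_lit 5) (nat_lit 474) (nat_lit 5) (nat_lit 475) (nat_lit 5) (nat_lit 469) (nat_lit 458) (nat_lit 273)))) (XT.nd (nat_lit 78) (nat_lit 0) (nat_lit 0) (XT.lf (nat_lit 0) (nat_lit 10552386304) (nat_lit 1824) (nat_lit 15229123900) (nat_lit 1900) (nat_lit 1388778760) (nat_lit 451) (nat_lit 5) (nat_lit 475) (nat_lit 5) (nat_lit 476) (nat_lit 5) (nat_lit 470) (nat_lit 458) (nat_lit 272)) (XT.nd (nat_lit 78) (nat_lit 0) (nat_lit 76) (XT.lf (nat_lit 76) (nat_lit 5900135961) (nat_lit 0) (nat_lit 7359036497)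 (nat_lit 1900) (nat_lit 14339767227) (nat_lit 452) (nat_lit 5) (nat_lit 451) (nat_lit 5) (nat_lit 476) (nat_lit 5) (nat_lit 471) (nat_lit 458) (nat_lit 271)) (XT.lf (nat_lit 0) (nat_lit 16221113981) (nat_lit 1824) (nat_lit 247071390) (nat_lit 1900) (nat_lit 11568786321) (nat_lit 452) (nat_lit 5) (nat_lit 476) (nat_lit 5) (nat_lit 477) (nat_lit 5) (nat_lit 472) (nat_lit 458) (nat_lit 270)))))) (XT.nd (nat_lit 468) (nat_lit 4256) (nat_lit 0) (XT.nd (nat_lit 234) (nat_lit 1976) (nat_lit 0) (XT.nd (nat_lit 78) (nat_lit 1596) (nat_lit 0) (XT.lf (nat_lit 0) (nat_lit 19476365179) (nat_lit 1824) (nat_lit 6416989124) (nat_lit 1900) (nat_lit 2590702104) (nat_lit 453) (nat_lit 5) (nat_lit 477) (nat_lit 5) (nat_lit 478) (nat_lit 5) (nat_lit 473) (nat_lit 458) (nat_lit 269)) (XT.nd (nat_lit 78) (nat_lit 1596) (nat_lit 0) (XT.lf (nat_lit 76) (nat_lit 16207688105) (nat_lit 0) (nat_lit 6833570165) (nat_lit 1900) (nat_lit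 5899056460) (nat_lit 454) (nat_lit 5) (nat_lit 453) (nat_lit 5) (nat_lit 478) (nat_lit 5) (nat_lit 474) (nat_lit 458) (nat_lit 268)) (XT.lf (nat_lit 0) (nat_lit 10236153748) (nat_lit 1672) (nat_lit 16665332392) (nat_lit 1748) (nat_lit 2505007636) (nat_lit 432) (nat_lit 5) (nat_lit 454) (nat_lit 5) (nat_lit 455) (nat_lit 5) (nat_lit 475) (nat_lit 458) (nat_lit 267)))) (XT.nd (nat_lit 78) (nat_lit 912) (nat_lit 0) (XT.lf (nat_lit 0) (nat_lit 1152505676) (nat_lit 1064) (nat_lit 25722002857) (nat_lit 76) (nat_lit 3008528923) (nat_lit 418) (nat_lit 5) (nat_lit 432) (nat_lit 5) (nat_lit 419) (nat_lit 5) (nat_lit 476) (nat_lit 458) (nat_lit 266)) (XT.nd (nat_lit 78) (nat_lit 912) (nat_lit 0) (XT.lf (nat_lit 0) (nat_lit 5123383191) (nat_lit 1064) (nat_lit 2049874353) (nat_lit 76) (nat_lit 23195535977) (nat_lit 418) (nat_lit 5) (nat_lit 432) (nat_lit 5) (nat_lit 419) (nat_lit 5) (nat_lit 477) (nat_lit 458)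 (nat_lit 265)) (XT.lf (nat_lit 0) (nat_lit 9441839409) (nat_lit 988) (nat_lit 8327447551) (nat_lit 76) (nat_lit 13095266915) (nat_lit 406) (nat_lit 5) (nat_lit 419) (nat_lit 5) (nat_lit 407) (nat_lit 5) (nat_lit 478) (nat_lit 458) (nat_lit 264))))) (XT.nd (nat_lit 234) (nat_lit 1672) (nat_lit 0) (XT.nd (nat_lit 78) (nat_lit 1672) (nat_lit 0) (XT.lf (nat_lit 0) (nat_lit 14072670021) (nat_lit 988) (nat_lit 14707549339) (nat_lit 76) (nat_lit 2591311905) (nat_lit 394) (nat_lit 5) (nat_lit 407) (nat_lit 5) (nat_lit 395) (nat_lit 5) (nat_lit 479) (nat_lit 458) (nat_lit 263)) (XT.nd (nat_lit 78) (nat_lit 836) (nat_lit 0) (XT.lf (nat_lit 0) (nat_lit 10642715027) (nat_lit 836) (nat_lit 8440062652) (nat_lit 912) (nat_lit 12806133874) (nat_lit 383) (nat_lit 5) (nat_lit 394) (nat_lit 5) (nat_lit 395) (nat_lit 5) (nat_lit 480) (nat_lit 458) (nat_lit 262)) (XT.lf (nat_lit 0) (nat_lit 4507992194) (nat_lit 836) (nat_lit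 19941733362) (nat_lit 912) (nat_lit 7967957555) (nat_lit 372) (nat_lit 5) (nat_lit 383) (nat_lit 5) (nat_lit 384) (nat_lit 5) (nat_lit 481) (nat_lit 458) (nat_lit 261)))) (XT.nd (nat_lit 78) (nat_lit 1672) (nat_lit 0) (XT.lf (nat_lit 0) (nat_lit 30180623222) (nat_lit 912) (nat_lit 1701211296) (nat_lit 76) (nat_lit 1076425054) (nat_lit 372) (nat_lit 5) (nat_lit 384) (nat_lit 5) (nat_lit 373) (nat_lit 5) (nat_lit 482) (nat_lit 458) (nat_lit 260)) (XT.nd (nat_lit 78) (nat_lit 836) (nat_lit 0) (XT.lf (nat_lit 0) (nat_lit 2831460253) (nat_lit 836) (nat_lit 8037436228) (nat_lit 76) (nat_lit 22639888874) (nat_lit 361) (nat_lit 5) (nat_lit 372) (nat_lit 5) (nat_lit 362) (nat_lit 5) (nat_lit 483) (nat_lit 458) (nat_lit 259)) (XT.lf (nat_lit 0) (nat_lit 8777441379) (nat_lit 912) (nat_lit 14502134503) (nat_lit 76) (nat_lit 10791757387) (nat_lit 350) (nat_lit 5) (nat_lit 362) (nat_lit 5) (nat_lit 351) (nat_lit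 5) (nat_lit 484) (nat_lit 458) (nat_lit 258))))))))
noncomputable def xc121 : XT := (XT.nd (nat_lit 61932) (nat_lit 0) (nat_lit 76) (XT.nd (nat_lit 60996) (nat_lit 0) (nat_lit 7448) (XT.nd (nat_lit 60528) (nat_lit 0) (nat_lit 11172) (XT.nd (nat_lit 156) (nat_lit 760) (nat_lit 0) (XT.nd (nat_lit 78) (nat_lit 760) (nat_lit 0) (XT.lf (nat_lit 0) (nat_lit 13565123320) (nat_lit 760) (nat_lit 1548356230) (nat_lit 836) (nat_lit 19533045044) (nat_lit 340) (nat_lit 5) (nat_lit 350) (nat_lit 5) (nat_lit 351) (nat_lit 5) (nat_lit 485) (nat_lit 458) (nat_lit 257)) (XT.lf (nat_lit 0) (nat_lit 7392803416) (nat_lit 760) (nat_lit 14525169337) (nat_lit 836) (nat_lit 13315431934) (nat_lit 330) (nat_lit 5) (nat_lit 340) (nat_lit 5) (nat_lit 341) (nat_lit 5) (nat_lit 486) (nat_lit 458) (nat_lit 256))) (XT.nd (nat_lit 78) (nat_lit 76) (nat_lit 0) (XT.lf (nat_lit 0) (nat_lit 1123660613) (nat_lit 684) (nat_lit 28011057897)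 (nat_lit 760) (nat_lit 6699010814) (nat_lit 321) (nat_lit 5) (nat_lit 330) (nat_lit 5) (nat_lit 331) (nat_lit 5) (nat_lit 487) (nat_lit 458) (nat_lit 255)) (XT.nd (nat_lit 60216) (nat_lit 0) (nat_lit 11172) (XT.lf (nat_lit 0) (nat_lit 397745419) (nat_lit 760) (nat_lit 5213610663) (nat_lit 76) (nat_lit 30835025784) (nat_lit 320) (nat_lit 5) (nat_lit 330) (nat_lit 5) (nat_lit 321) (nat_lit 5) (nat_lit 488) (nat_lit 458) (nat_lit 254)) (XT.lf (nat_lit 0) (nat_lit 4797789272) (nat_lit 0) (nat_lit 4797789272) (nat_lit 1748) (nat_lit 2071517425) (nat_lit 467) (nat_lit 5) (nat_lit 467) (nat_lit 3) (nat_lit 490) (nat_lit 3) (nat_lit 459) (nat_lit 459) (nat_lit 282))))) (XT.nd (nat_lit 234) (nat_lit 0) (nat_lit 152) (XT.nd (nat_lit 78) (nat_lit 0) (nat_lit 76) (XT.lf (nat_lit 76) (nat_lit 3408077495) (nat_lit 0) (nat_lit 16320730546) (nat_lit 1824) (nat_lit 3950373005) (nat_lit 468) (nat_lit 5) (nat_lit 467)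 (nat_lit 5) (nat_lit 491) (nat_lit 5) (nat_lit 460) (nat_lit 459) (nat_lit 281)) (XT.nd (nat_lit 78) (nat_lit 0) (nat_lit 0) (XT.lf (nat_lit 0) (nat_lit 20437339753) (nat_lit 1748) (nat_lit 2847943264) (nat_lit 1824) (nat_lit 746142881) (nat_lit 468) (nat_lit 5) (nat_lit 491) (nat_lit 5) (nat_lit 492) (nat_lit 5) (nat_lit 461) (nat_lit 459) (nat_lit 280)) (XT.lf (nat_lit 76) (nat_lit 15184147977) (nat_lit 0) (nat_lit 6183931146) (nat_lit 1824) (nat_lit 3022141002) (nat_lit 469) (nat_lit 5) (nat_lit 468) (nat_lit 5) (nat_lit 492) (nat_lit 5) (nat_lit 462) (nat_lit 459) (nat_lit 279)))) (XT.nd (nat_lit 78) (nat_lit 0) (nat_lit 76) (XT.lf (nat_lit 76) (nat_lit 9077652294) (nat_lit 0) (nat_lit 13395081440) (nat_lit 1824) (nat_lit 2284125619) (nat_lit 470) (nat_lit 5) (nat_lit 469) (nat_lit 5) (nat_lit 493) (nat_lit 5) (nat_lit 463) (nat_lit 459) (nat_lit 278)) (XT.nd (nat_lit 78) (nat_lit 0) (nat_lit 0)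 (XT.lf (nat_lit 76) (nat_lit 2867450875) (nat_lit 0) (nat_lit 20886547669) (nat_lit 1824) (nat_lit 1377630804) (nat_lit 471) (nat_lit 5) (nat_lit 470) (nat_lit 5) (nat_lit 494) (nat_lit 5) (nat_lit 464) (nat_lit 459) (nat_lit 277)) (XT.lf (nat_lit 76) (nat_lit 22090485031) (nat_lit 0) (nat_lit 3172213005) (nat_lit 1824) (nat_lit 251165448) (nat_lit 471) (nat_lit 5) (nat_lit 470) (nat_lit 5) (nat_lit 494) (nat_lit 5) (nat_lit 465) (nat_lit 459) (nat_lit 276)))))) (XT.nd (nat_lit 468) (nat_lit 2204) (nat_lit 0) (XT.nd (nat_lit 234) (nat_lit 0) (nat_lit 152) (XT.nd (nat_lit 78) (nat_lit 0) (nat_lit 76) (XT.lf (nat_lit 0) (nat_lit 1094773630) (nat_lit 1824) (nat_lit 9818913247) (nat_lit 1900) (nat_lit 14989808591) (nat_lit 447) (nat_lit 5) (nat_lit 471) (nat_lit 5) (nat_lit 472) (nat_lit 5) (nat_lit 466) (nat_lit 459) (nat_lit 275)) (XT.nd (nat_lit 78) (nat_lit 0) (nat_lit 0) (XT.lf (nat_lit 0) (nat_lit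 2629746399) (nat_lit 1824) (nat_lit 16326232230) (nat_lit 1900) (nat_lit 7345764123) (nat_lit 448) (nat_lit 5) (nat_lit 472) (nat_lit 5) (nat_lit 473) (nat_lit 5) (nat_lit 467) (nat_lit 459) (nat_lit 274)) (XT.lf (nat_lit 76) (nat_lit 3759463869) (nat_lit 0) (nat_lit 609902929) (nat_lit 1900) (nat_lit 22339399562) (nat_lit 449) (nat_lit 5) (nat_lit 448) (nat_lit 5) (nat_lit 473) (nat_lit 5) (nat_lit 468) (nat_lit 459) (nat_lit 273)))) (XT.nd (nat_lit 78) (nat_lit 0) (nat_lit 76) (XT.lf (nat_lit 0) (nat_lit 6385650597) (nat_lit 1824) (nat_lit 2578082225) (nat_lit 1900) (nat_lit 18159779206) (nat_lit 449) (nat_lit 5) (nat_lit 473) (nat_lit 5) (nat_lit 474) (nat_lit 5) (nat_lit 469) (nat_lit 459) (nat_lit 272)) (XT.nd (nat_lit 78) (nat_lit 0) (nat_lit 76) (XT.lf (nat_lit 0) (nat_lit 8647382917) (nat_lit 1824) (nat_lit 8972864987) (nat_lit 1900) (nat_lit 9926753786) (nat_lit 450) (nat_lit 5) (nat_lit 474)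 (nat_lit 5) (nat_lit 475) (nat_lit 5) (nat_lit 470) (nat_lit 459) (nat_lit 271)) (XT.lf (nat_lit 0) (nat_lit 11139411196) (nat_lit 1824) (nat_lit 15475661678) (nat_lit 1900) (nat_lit 1364875088) (nat_lit 451) (nat_lit 5) (nat_lit 475) (nat_lit 5) (nat_lit 476) (nat_lit 5) (nat_lit 471) (nat_lit 459) (nat_lit 270))))) (XT.nd (nat_lit 234) (nat_lit 2508) (nat_lit 0) (XT.nd (nat_lit 78) (nat_lit 0) (nat_lit 76) (XT.lf (nat_lit 76) (nat_lit 6284063529) (nat_lit 0) (nat_lit 7636803610) (nat_lit 1900) (nat_lit 14500722924) (nat_lit 452) (nat_lit 5) (nat_lit 451) (nat_lit 5) (nat_lit 476) (nat_lit 5) (nat_lit 472) (nat_lit 459) (nat_lit 269)) (XT.nd (nat_lit 78) (nat_lit 0) (nat_lit 76) (XT.lf (nat_lit 0) (nat_lit 16963620654) (nat_lit 1824) (nat_lit 48064738) (nat_lit 1900) (nat_lit 11861239712) (nat_lit 452) (nat_lit 5) (nat_lit 476) (nat_lit 5) (nat_lit 477) (nat_lit 5) (nat_lit 473) (nat_lit 459) (nat_lit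 268)) (XT.lf (nat_lit 0) (nat_lit 20310092225) (nat_lit 1824) (nat_lit 6401093955) (nat_lit 1900) (nat_lit 2622366038) (nat_lit 453) (nat_lit 5) (nat_lit 477) (nat_lit 5) (nat_lit 478) (nat_lit 5) (nat_lit 474) (nat_lit 459) (nat_lit 267)))) (XT.nd (nat_lit 78) (nat_lit 2660) (nat_lit 0) (XT.lf (nat_lit 76) (nat_lit 16898942471) (nat_lit 0) (nat_lit 7077055660) (nat_lit 1900) (nat_lit 5827619922) (nat_lit 454) (nat_lit 5) (nat_lit 453) (nat_lit 5) (nat_lit 478) (nat_lit 5) (nat_lit 475) (nat_lit 459) (nat_lit 266)) (XT.nd (nat_lit 78) (nat_lit 1064) (nat_lit 0) (XT.lf (nat_lit 0) (nat_lit 10750008114) (nat_lit 1672) (nat_lit 17196032364) (nat_lit 1748) (nat_lit 2337862891) (nat_lit 432) (nat_lit 5) (nat_lit 454) (nat_lit 5) (nat_lit 455) (nat_lit 5) (nat_lit 476) (nat_lit 459) (nat_lit 265)) (XT.lf (nat_lit 0) (nat_lit 1420399948) (nat_lit 1064) (nat_lit 26282209821) (nat_lit 76) (nat_lit 3072219089)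 (nat_lit 418) (nat_lit 5) (nat_lit 432) (nat_lit 5) (nat_lit 419) (nat_lit 5) (nat_lit 477) (nat_lit 459) (nat_lit 264))))))) (XT.nd (nat_lit 61152) (nat_lit 0) (nat_lit 9500) (XT.nd (nat_lit 468) (nat_lit 3876) (nat_lit 0) (XT.nd (nat_lit 234) (nat_lit 1672) (nat_lit 0) (XT.nd (nat_lit 78) (nat_lit 1824) (nat_lit 0) (XT.lf (nat_lit 0) (nat_lit 5503608086) (nat_lit 1064) (nat_lit 1906076291) (nat_lit 76) (nat_lit 23865610112) (nat_lit 418) (nat_lit 5) (nat_lit 432) (nat_lit 5) (nat_lit 419) (nat_lit 5) (nat_lit 478) (nat_lit 459) (nat_lit 263)) (XT.nd (nat_lit 78) (nat_lit 912) (nat_lit 0) (XT.lf (nat_lit 0) (nat_lit 9946206369) (nat_lit 988) (nat_lit 8370726042) (nat_lit 76) (nat_lit 13469104419) (nat_lit 406) (nat_lit 5) (nat_lit 419) (nat_lit 5) (nat_lit 407) (nat_lit 5) (nat_lit 479) (nat_lit 459) (nat_lit 262)) (XT.lf (nat_lit 0) (nat_lit 14710757935) (nat_lit 988) (nat_lit 14941148416) (nat_lit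 76) (nat_lit 2656422186) (nat_lit 394) (nat_lit 5) (nat_lit 407) (nat_lit 5) (nat_lit 395) (nat_lit 5) (nat_lit 480) (nat_lit 459) (nat_lit 261)))) (XT.nd (nat_lit 78) (nat_lit 836) (nat_lit 0) (XT.lf (nat_lit 0) (nat_lit 11166255374) (nat_lit 836) (nat_lit 8699951056) (nat_lit 912) (nat_lit 12975123940) (nat_lit 383) (nat_lit 5) (nat_lit 394) (nat_lit 5) (nat_lit 395) (nat_lit 5) (nat_lit 481) (nat_lit 459) (nat_lit 260)) (XT.nd (nat_lit 78) (nat_lit 0) (nat_lit 0) (XT.lf (nat_lit 0) (nat_lit 4848399310) (nat_lit 836) (nat_lit 20540909325) (nat_lit 912) (nat_lit 7996754384) (nat_lit 372) (nat_lit 5) (nat_lit 383) (nat_lit 5) (nat_lit 384) (nat_lit 5) (nat_lit 482) (nat_lit 459) (nat_lit 259)) (XT.lf (nat_lit 0) (nat_lit 31286124747) (nat_lit 912) (nat_lit 1549020515) (nat_lit 76) (nat_lit 1107832520) (nat_lit 372) (nat_lit 5) (nat_lit 384) (nat_lit 5) (nat_lit 373) (nat_lit 5) (nat_lit 483) (nat_lit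 459) (nat_lit 258))))) (XT.nd (nat_lit 234) (nat_lit 1444) (nat_lit 0) (XT.nd (nat_lit 78) (nat_lit 1596) (nat_lit 0) (XT.lf (nat_lit 0) (nat_lit 3113279119) (nat_lit 836) (nat_lit 8075986371) (nat_lit 76) (nat_lit 23320819348) (nat_lit 361) (nat_lit 5) (nat_lit 372) (nat_lit 5) (nat_lit 362) (nat_lit 5) (nat_lit 484) (nat_lit 459) (nat_lit 257)) (XT.nd (nat_lit 78) (nat_lit 760) (nat_lit 0) (XT.lf (nat_lit 0) (nat_lit 9233243839) (nat_lit 912) (nat_lit 14734082088) (nat_lit 76) (nat_lit 11122271953) (nat_lit 350) (nat_lit 5) (nat_lit 362) (nat_lit 5) (nat_lit 351) (nat_lit 5) (nat_lit 485) (nat_lit 459) (nat_lit 256)) (XT.lf (nat_lit 0) (nat_lit 14171898147) (nat_lit 760) (nat_lit 1583156189) (nat_lit 836) (nat_lit 19927077536) (nat_lit 340) (nat_lit 5) (nat_lit 350) (nat_lit 5) (nat_lit 351) (nat_lit 5) (nat_lit 486) (nat_lit 459) (nat_lit 255)))) (XT.nd (nat_lit 78) (nat_lit 684) (nat_lit 0) (XT.lf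 (nat_lit 0) (nat_lit 7814819364) (nat_lit 760) (nat_lit 14944755759) (nat_lit 836) (nat_lit 13527126120) (nat_lit 330) (nat_lit 5) (nat_lit 340) (nat_lit 5) (nat_lit 341) (nat_lit 5) (nat_lit 487) (nat_lit 459) (nat_lit 254)) (XT.nd (nat_lit 60294) (nat_lit 0) (nat_lit 11096) (XT.lf (nat_lit 0) (nat_lit 1357895945) (nat_lit 684) (nat_lit 28830970108) (nat_lit 760) (nat_lit 6716249417) (nat_lit 321) (nat_lit 5) (nat_lit 330) (nat_lit 5) (nat_lit 331) (nat_lit 5) (nat_lit 488) (nat_lit 459) (nat_lit 253)) (XT.lf (nat_lit 0) (nat_lit 5030556149) (nat_lit 0) (nat_lit 5030556149) (nat_lit 1748) (nat_lit 1952415391) (nat_lit 467) (nat_lit 5) (nat_lit 467) (nat_lit 3) (nat_lit 490) (nat_lit 3) (nat_lit 460) (nat_lit 460) (nat_lit 280)))))) (XT.nd (nat_lit 468) (nat_lit 0) (nat_lit 76) (XT.nd (nat_lit 234) (nat_lit 1596) (nat_lit 0) (XT.nd (nat_lit 78) (nat_lit 0) (nat_lit 76) (XT.lf (nat_lit 76) (nat_lit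 3693284722) (nat_lit 0) (nat_lit 16972438856) (nat_lit 1824) (nat_lit 3716877833) (nat_lit 468) (nat_lit 5) (nat_lit 467) (nat_lit 5) (nat_lit 491) (nat_lit 5) (nat_lit 461) (nat_lit 460) (nat_lit 279)) (XT.nd (nat_lit 78) (nat_lit 0) (nat_lit 0) (XT.lf (nat_lit 0) (nat_lit 21384439483) (nat_lit 1748) (nat_lit 2747971521) (nat_lit 1824) (nat_lit 613225613) (nat_lit 468) (nat_lit 5) (nat_lit 491) (nat_lit 5) (nat_lit 492) (nat_lit 5) (nat_lit 462) (nat_lit 460) (nat_lit 278)) (XT.lf (nat_lit 76) (nat_lit 15822074399) (nat_lit 0) (nat_lit 6512483351) (nat_lit 1824) (nat_lit 2780809316) (nat_lit 469) (nat_lit 5) (nat_lit 468) (nat_lit 5) (nat_lit 492) (nat_lit 5) (nat_lit 463) (nat_lit 460) (nat_lit 277)))) (XT.nd (nat_lit 78) (nat_lit 1748) (nat_lit 0) (XT.lf (nat_lit 76) (nat_lit 9536791437) (nat_lit 0) (nat_lit 13926393103) (nat_lit 1824) (nat_lit 2030005763) (nat_lit 470) (nat_lit 5) (nat_lit 469)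 (nat_lit 5) (nat_lit 493) (nat_lit 5) (nat_lit 464) (nat_lit 460) (nat_lit 276)) (XT.nd (nat_lit 78) (nat_lit 1824) (nat_lit 0) (XT.lf (nat_lit 76) (nat_lit 3144351517) (nat_lit 0) (nat_lit 21629747312) (nat_lit 1824) (nat_lit 1105281779) (nat_lit 471) (nat_lit 5) (nat_lit 470) (nat_lit 5) (nat_lit 494) (nat_lit 5) (nat_lit 465) (nat_lit 460) (nat_lit 275)) (XT.lf (nat_lit 0) (nat_lit 45240069) (nat_lit 1824) (nat_lit 3335042744) (nat_lit 1900) (nat_lit 22892973516) (nat_lit 446) (nat_lit 5) (nat_lit 470) (nat_lit 5) (nat_lit 471) (nat_lit 5) (nat_lit 466) (nat_lit 460) (nat_lit 274))))) (XT.nd (nat_lit 234) (nat_lit 0) (nat_lit 152) (XT.nd (nat_lit 78) (nat_lit 0) (nat_lit 76) (XT.lf (nat_lit 0) (nat_lit 1419927210) (nat_lit 1824) (nat_lit 9920598015) (nat_lit 1900) (nat_lit 15334184530) (nat_lit 447) (nat_lit 5) (nat_lit 471) (nat_lit 5) (nat_lit 472) (nat_lit 5) (nat_lit 467) (nat_lit 460) (nat_lit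 273)) (XT.nd (nat_lit 78) (nat_lit 0) (nat_lit 0) (XT.lf (nat_lit 0) (nat_lit 2993048683) (nat_lit 1824) (nat_lit 16619903621) (nat_lit 1900) (nat_lit 7472111455) (nat_lit 448) (nat_lit 5) (nat_lit 472) (nat_lit 5) (nat_lit 473) (nat_lit 5) (nat_lit 468) (nat_lit 460) (nat_lit 272)) (XT.lf (nat_lit 76) (nat_lit 4065181618) (nat_lit 0) (nat_lit 712644946) (nat_lit 1900) (nat_lit 22726613387) (nat_lit 449) (nat_lit 5) (nat_lit 448) (nat_lit 5) (nat_lit 473) (nat_lit 5) (nat_lit 469) (nat_lit 460) (nat_lit 271)))) (XT.nd (nat_lit 78) (nat_lit 0) (nat_lit 76) (XT.lf (nat_lit 0) (nat_lit 6845987581) (nat_lit 1824) (nat_lit 2462151386) (nat_lit 1900) (nat_lit 18623662466) (nat_lit 449) (nat_lit 5) (nat_lit 473) (nat_lit 5) (nat_lit 474) (nat_lit 5) (nat_lit 470) (nat_lit 460) (nat_lit 270)) (XT.nd (nat_lit 78) (nat_lit 0) (nat_lit 76) (XT.lf (nat_lit 0) (nat_lit 9168510485) (nat_lit 1824) (nat_lit 9046162656)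 (nat_lit 1900) (nat_lit 10153465055) (nat_lit 450) (nat_lit 5) (nat_lit 474) (nat_lit 5) (nat_lit 475) (nat_lit 5) (nat_lit 471) (nat_lit 460) (nat_lit 269)) (XT.lf (nat_lit 0) (nat_lit 11728521708) (nat_lit 1824) (nat_lit 15741669732) (nat_lit 1900) (nat_lit 1344018122) (nat_lit 451) (nat_lit 5) (nat_lit 475) (nat_lit 5) (nat_lit 476) (nat_lit 5) (nat_lit 472) (nat_lit 460) (nat_lit 268))))))))
noncomputable def xc122 : XT := (XT.nd (nat_lit 62088) (nat_lit 0) (nat_lit 1520) (XT.nd (nat_lit 858) (nat_lit 3192) (nat_lit 0) (XT.nd (nat_lit 390) (nat_lit 4560) (nat_lit 0) (XT.nd (nat_lit 156) (nat_lit 1444) (nat_lit 0) (XT.nd (nat_lit 78) (nat_lit 0) (nat_lit 76) (XT.lf (nat_lit 76) (nat_lit 6667630668) (nat_lit 0) (nat_lit 7919631932) (nat_lit 1900) (nat_lit 14681962616) (nat_lit 452) (nat_lit 5) (nat_lit 451) (nat_lit 5) (nat_lit 476) (nat_lit 5) (nat_lit 473) (nat_lit 460) (nat_lit 267)) (XT.lf (nat_lit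 76) (nat_lit 146990638) (nat_lit 0) (nat_lit 17567678076) (nat_lit 1900) (nat_lit 12019565275) (nat_lit 453) (nat_lit 5) (nat_lit 452) (nat_lit 5) (nat_lit 477) (nat_lit 5) (nat_lit 474) (nat_lit 460) (nat_lit 266))) (XT.nd (nat_lit 78) (nat_lit 1596) (nat_lit 0) (XT.lf (nat_lit 0) (nat_lit 21154512431) (nat_lit 1824) (nat_lit 6396685221) (nat_lit 1900) (nat_lit 2657623758) (nat_lit 453) (nat_lit 5) (nat_lit 477) (nat_lit 5) (nat_lit 478) (nat_lit 5) (nat_lit 475) (nat_lit 460) (nat_lit 265)) (XT.nd (nat_lit 78) (nat_lit 1596) (nat_lit 0) (XT.lf (nat_lit 76) (nat_lit 17599165267) (nat_lit 0) (nat_lit 7325636902) (nat_lit 1900) (nat_lit 5768299937) (nat_lit 454) (nat_lit 5) (nat_lit 453) (nat_lit 5) (nat_lit 478) (nat_lit 5) (nat_lit 476) (nat_lit 460) (nat_lit 264)) (XT.lf (nat_lit 0) (nat_lit 11267408681) (nat_lit 1672) (nat_lit 17740888732) (nat_lit 1748) (nat_lit 2179612525) (nat_lit 432) (nat_lit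 5) (nat_lit 454) (nat_lit 5) (nat_lit 455) (nat_lit 5) (nat_lit 477) (nat_lit 460) (nat_lit 263))))) (XT.nd (nat_lit 234) (nat_lit 2584) (nat_lit 0) (XT.nd (nat_lit 78) (nat_lit 912) (nat_lit 0) (XT.lf (nat_lit 0) (nat_lit 1682937577) (nat_lit 1064) (nat_lit 26871361269) (nat_lit 76) (nat_lit 3139344940) (nat_lit 418) (nat_lit 5) (nat_lit 432) (nat_lit 5) (nat_lit 419) (nat_lit 5) (nat_lit 478) (nat_lit 460) (nat_lit 262)) (XT.nd (nat_lit 78) (nat_lit 912) (nat_lit 0) (XT.lf (nat_lit 0) (nat_lit 5882236358) (nat_lit 1064) (nat_lit 1769749020) (nat_lit 76) (nat_lit 24557267035) (nat_lit 418) (nat_lit 5) (nat_lit 432) (nat_lit 5) (nat_lit 419) (nat_lit 5) (nat_lit 479) (nat_lit 460) (nat_lit 261)) (XT.lf (nat_lit 0) (nat_lit 10453011617) (nat_lit 988) (nat_lit 8427159412) (nat_lit 76) (nat_lit 13855248903) (nat_lit 406) (nat_lit 5) (nat_lit 419) (nat_lit 5) (nat_lit 407) (nat_lit 5) (nat_lit 480) (nat_lit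 460) (nat_lit 260)))) (XT.nd (nat_lit 78) (nat_lit 1672) (nat_lit 0) (XT.lf (nat_lit 0) (nat_lit 15355594494) (nat_lit 988) (nat_lit 15193674127) (nat_lit 76) (nat_lit 2724210737) (nat_lit 394) (nat_lit 5) (nat_lit 407) (nat_lit 5) (nat_lit 395) (nat_lit 5) (nat_lit 481) (nat_lit 460) (nat_lit 259)) (XT.nd (nat_lit 78) (nat_lit 836) (nat_lit 0) (XT.lf (nat_lit 0) (nat_lit 11693776635) (nat_lit 836) (nat_lit 8967252278) (nat_lit 912) (nat_lit 13161536721) (nat_lit 383) (nat_lit 5) (nat_lit 394) (nat_lit 5) (nat_lit 395) (nat_lit 5) (nat_lit 482) (nat_lit 460) (nat_lit 258)) (XT.lf (nat_lit 0) (nat_lit 5187241193) (nat_lit 836) (nat_lit 21158007529) (nat_lit 912) (nat_lit 8038483863) (nat_lit 372) (nat_lit 5) (nat_lit 383) (nat_lit 5) (nat_lit 384) (nat_lit 5) (nat_lit 483) (nat_lit 460) (nat_lit 257)))))) (XT.nd (nat_lit 60762) (nat_lit 0) (nat_lit 8816) (XT.nd (nat_lit 234) (nat_lit 1520) (nat_lit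 0) (XT.nd (nat_lit 78) (nat_lit 1672) (nat_lit 0) (XT.lf (nat_lit 0) (nat_lit 32413305745) (nat_lit 912) (nat_lit 1403930078) (nat_lit 76) (nat_lit 1140233028) (nat_lit 372) (nat_lit 5) (nat_lit 384) (nat_lit 5) (nat_lit 373) (nat_lit 5) (nat_lit 484) (nat_lit 460) (nat_lit 256)) (XT.nd (nat_lit 78) (nat_lit 836) (nat_lit 0) (XT.lf (nat_lit 0) (nat_lit 3392251118) (nat_lit 836) (nat_lit 8127321533) (nat_lit 76) (nat_lit 24022078208) (nat_lit 361) (nat_lit 5) (nat_lit 372) (nat_lit 5) (nat_lit 362) (nat_lit 5) (nat_lit 485) (nat_lit 460) (nat_lit 255)) (XT.lf (nat_lit 0) (nat_lit 9691671279) (nat_lit 912) (nat_lit 14984647816) (nat_lit 76) (nat_lit 11462313799) (nat_lit 350) (nat_lit 5) (nat_lit 362) (nat_lit 5) (nat_lit 351) (nat_lit 5) (nat_lit 486) (nat_lit 460) (nat_lit 254)))) (XT.nd (nat_lit 78) (nat_lit 760) (nat_lit 0) (XT.lf (nat_lit 0) (nat_lit 14785405668) (nat_lit 760) (nat_lit 1619668946)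 (nat_lit 836) (nat_lit 20343950228) (nat_lit 340) (nat_lit 5) (nat_lit 350) (nat_lit 5) (nat_lit 351) (nat_lit 5) (nat_lit 487) (nat_lit 460) (nat_lit 253)) (XT.nd (nat_lit 60372) (nat_lit 0) (nat_lit 10412) (XT.lf (nat_lit 0) (nat_lit 8238001664) (nat_lit 760) (nat_lit 15377857921) (nat_lit 836) (nat_lit 13755949827) (nat_lit 330) (nat_lit 5) (nat_lit 340) (nat_lit 5) (nat_lit 341) (nat_lit 5) (nat_lit 488) (nat_lit 460) (nat_lit 252)) (XT.lf (nat_lit 0) (nat_lit 5265206644) (nat_lit 0) (nat_lit 5265206644) (nat_lit 1748) (nat_lit 1840144647) (nat_lit 467) (nat_lit 5) (nat_lit 467) (nat_lit 3) (nat_lit 490) (nat_lit 3) (nat_lit 461) (nat_lit 461) (nat_lit 278))))) (XT.nd (nat_lit 234) (nat_lit 1596) (nat_lit 0) (XT.nd (nat_lit 78) (nat_lit 0) (nat_lit 76) (XT.lf (nat_lit 76) (nat_lit 3976545233) (nat_lit 0) (nat_lit 17634393993) (nat_lit 1824) (nat_lit 3496584411) (nat_lit 468) (nat_lit 5) (nat_lit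 467) (nat_lit 5) (nat_lit 491) (nat_lit 5) (nat_lit 462) (nat_lit 461) (nat_lit 277)) (XT.nd (nat_lit 78) (nat_lit 0) (nat_lit 0) (XT.lf (nat_lit 0) (nat_lit 22340780413) (nat_lit 1748) (nat_lit 2655643922) (nat_lit 1824) (nat_lit 485235771) (nat_lit 468) (nat_lit 5) (nat_lit 491) (nat_lit 5) (nat_lit 492) (nat_lit 5) (nat_lit 463) (nat_lit 461) (nat_lit 276)) (XT.lf (nat_lit 76) (nat_lit 16468667994) (nat_lit 0) (nat_lit 6842681369) (nat_lit 1824) (nat_lit 2551295603) (nat_lit 469) (nat_lit 5) (nat_lit 468) (nat_lit 5) (nat_lit 492) (nat_lit 5) (nat_lit 464) (nat_lit 461) (nat_lit 275)))) (XT.nd (nat_lit 78) (nat_lit 1748) (nat_lit 0) (XT.lf (nat_lit 76) (nat_lit 9998981121) (nat_lit 0) (nat_lit 14466212627) (nat_lit 1824) (nat_lit 1786783375) (nat_lit 470) (nat_lit 5) (nat_lit 469) (nat_lit 5) (nat_lit 493) (nat_lit 5) (nat_lit 465) (nat_lit 461) (nat_lit 274)) (XT.nd (nat_lit 78) (nat_lit 1824)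 (nat_lit 0) (XT.lf (nat_lit 76) (nat_lit 3418602051) (nat_lit 0) (nat_lit 22388549443) (nat_lit 1824) (nat_lit 842768680) (nat_lit 471) (nat_lit 5) (nat_lit 470) (nat_lit 5) (nat_lit 494) (nat_lit 5) (nat_lit 466) (nat_lit 461) (nat_lit 273)) (XT.lf (nat_lit 0) (nat_lit 329892190) (nat_lit 1824) (nat_lit 3256606507) (nat_lit 1900) (nat_lit 23469246345) (nat_lit 446) (nat_lit 5) (nat_lit 470) (nat_lit 5) (nat_lit 471) (nat_lit 5) (nat_lit 467) (nat_lit 461) (nat_lit 272))))))) (XT.nd (nat_lit 858) (nat_lit 6232) (nat_lit 0) (XT.nd (nat_lit 390) (nat_lit 1140) (nat_lit 0) (XT.nd (nat_lit 156) (nat_lit 0) (nat_lit 76) (XT.nd (nat_lit 78) (nat_lit 0) (nat_lit 76) (XT.lf (nat_lit 0) (nat_lit 1738055586) (nat_lit 1824) (nat_lit 10036405578) (nat_lit 1900) (nat_lit 15694937449) (nat_lit 447) (nat_lit 5) (nat_lit 471) (nat_lit 5) (nat_lit 472) (nat_lit 5) (nat_lit 468) (nat_lit 461) (nat_lit 271)) (XT.lf (nat_lit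 0) (nat_lit 3350923743) (nat_lit 1824) (nat_lit 16933642991) (nat_lit 1900) (nat_lit 7607646660) (nat_lit 448) (nat_lit 5) (nat_lit 472) (nat_lit 5) (nat_lit 473) (nat_lit 5) (nat_lit 469) (nat_lit 461) (nat_lit 270))) (XT.nd (nat_lit 78) (nat_lit 0) (nat_lit 76) (XT.lf (nat_lit 76) (nat_lit 4368995709) (nat_lit 0) (nat_lit 813621740) (nat_lit 1900) (nat_lit 23141687157) (nat_lit 449) (nat_lit 5) (nat_lit 448) (nat_lit 5) (nat_lit 473) (nat_lit 5) (nat_lit 470) (nat_lit 461) (nat_lit 269)) (XT.nd (nat_lit 78) (nat_lit 0) (nat_lit 76) (XT.lf (nat_lit 0) (nat_lit 7304706323) (nat_lit 1824) (nat_lit 2353837301) (nat_lit 1900) (nat_lit 19106106797) (nat_lit 449) (nat_lit 5) (nat_lit 473) (nat_lit 5) (nat_lit 474) (nat_lit 5) (nat_lit 471) (nat_lit 461) (nat_lit 268)) (XT.lf (nat_lit 0) (nat_lit 9690248882) (nat_lit 1824) (nat_lit 9132904044) (nat_lit 1900) (nat_lit 10391058595) (nat_lit 450) (nat_lit 5)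 (nat_lit 474) (nat_lit 5) (nat_lit 475) (nat_lit 5) (nat_lit 472) (nat_lit 461) (nat_lit 267))))) (XT.nd (nat_lit 234) (nat_lit 1444) (nat_lit 0) (XT.nd (nat_lit 78) (nat_lit 0) (nat_lit 0) (XT.lf (nat_lit 0) (nat_lit 12320671616) (nat_lit 1824) (nat_lit 16027039066) (nat_lit 1900) (nat_lit 1326083205) (nat_lit 451) (nat_lit 5) (nat_lit 475) (nat_lit 5) (nat_lit 476) (nat_lit 5) (nat_lit 473) (nat_lit 461) (nat_lit 266)) (XT.nd (nat_lit 78) (nat_lit 0) (nat_lit 76) (XT.lf (nat_lit 76) (nat_lit 7051508428) (nat_lit 0) (nat_lit 8207861113) (nat_lit 1900) (nat_lit 14883207624) (nat_lit 452) (nat_lit 5) (nat_lit 451) (nat_lit 5) (nat_lit 476) (nat_lit 5) (nat_lit 474) (nat_lit 461) (nat_lit 265)) (XT.lf (nat_lit 76) (nat_lit 337238077) (nat_lit 0) (nat_lit 18137417352) (nat_lit 1900) (nat_lit 12147000641) (nat_lit 453) (nat_lit 5) (nat_lit 452) (nat_lit 5) (nat_lit 477) (nat_lit 5) (nat_lit 475) (nat_lit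 461) (nat_lit 264)))) (XT.nd (nat_lit 78) (nat_lit 1596) (nat_lit 0) (XT.lf (nat_lit 0) (nat_lit 22010768539) (nat_lit 1824) (nat_lit 6403420774) (nat_lit 1900) (nat_lit 2696431307) (nat_lit 453) (nat_lit 5) (nat_lit 477) (nat_lit 5) (nat_lit 478) (nat_lit 5) (nat_lit 476) (nat_lit 461) (nat_lit 263)) (XT.nd (nat_lit 78) (nat_lit 1596) (nat_lit 0) (XT.lf (nat_lit 76) (nat_lit 18309301146) (nat_lit 0) (nat_lit 7579593560) (nat_lit 1900) (nat_lit 5720641439) (nat_lit 454) (nat_lit 5) (nat_lit 453) (nat_lit 5) (nat_lit 478) (nat_lit 5) (nat_lit 477) (nat_lit 461) (nat_lit 262)) (XT.lf (nat_lit 0) (nat_lit 11789143189) (nat_lit 1672) (nat_lit 18300427486) (nat_lit 1748) (nat_lit 2029724954) (nat_lit 432) (nat_lit 5) (nat_lit 454) (nat_lit 5) (nat_lit 455) (nat_lit 5) (nat_lit 478) (nat_lit 461) (nat_lit 261)))))) (XT.nd (nat_lit 468) (nat_lit 1672) (nat_lit 0) (XT.nd (nat_lit 234) (nat_lit 2584) (nat_lit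 0) (XT.nd (nat_lit 78) (nat_lit 912) (nat_lit 0) (XT.lf (nat_lit 0) (nat_lit 1940726704) (nat_lit 1064) (nat_lit 27489628747) (nat_lit 76) (nat_lit 3209922006) (nat_lit 418) (nat_lit 5) (nat_lit 432) (nat_lit 5) (nat_lit 419) (nat_lit 5) (nat_lit 479) (nat_lit 461) (nat_lit 260)) (XT.nd (nat_lit 78) (nat_lit 912) (nat_lit 0) (XT.lf (nat_lit 0) (nat_lit 6259966555) (nat_lit 1064) (nat_lit 1640440170) (nat_lit 76) (nat_lit 25271069239) (nat_lit 418) (nat_lit 5) (nat_lit 432) (nat_lit 5) (nat_lit 419) (nat_lit 5) (nat_lit 480) (nat_lit 461) (nat_lit 259)) (XT.lf (nat_lit 0) (nat_lit 10963056916) (nat_lit 988) (nat_lit 8496461695) (nat_lit 76) (nat_lit 14254006899) (nat_lit 406) (nat_lit 5) (nat_lit 419) (nat_lit 5) (nat_lit 407) (nat_lit 5) (nat_lit 481) (nat_lit 461) (nat_lit 258)))) (XT.nd (nat_lit 78) (nat_lit 1672) (nat_lit 0) (XT.lf (nat_lit 0) (nat_lit 16008093624) (nat_lit 988) (nat_lit 15465010092)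 (nat_lit 76) (nat_lit 2794716288) (nat_lit 394) (nat_lit 5) (nat_lit 407) (nat_lit 5) (nat_lit 395) (nat_lit 5) (nat_lit 482) (nat_lit 461) (nat_lit 257)) (XT.nd (nat_lit 78) (nat_lit 836) (nat_lit 0) (XT.lf (nat_lit 0) (nat_lit 12226071317) (nat_lit 836) (nat_lit 9242210737) (nat_lit 912) (nat_lit 13365185785) (nat_lit 383) (nat_lit 5) (nat_lit 394) (nat_lit 5) (nat_lit 395) (nat_lit 5) (nat_lit 483) (nat_lit 461) (nat_lit 256)) (XT.lf (nat_lit 0) (nat_lit 5525146962) (nat_lit 836) (nat_lit 21793568683) (nat_lit 912) (nat_lit 8092841176) (nat_lit 372) (nat_lit 5) (nat_lit 383) (nat_lit 5) (nat_lit 384) (nat_lit 5) (nat_lit 484) (nat_lit 461) (nat_lit 255))))) (XT.nd (nat_lit 60684) (nat_lit 0) (nat_lit 8892) (XT.nd (nat_lit 78) (nat_lit 1672) (nat_lit 0) (XT.lf (nat_lit 0) (nat_lit 33563475919) (nat_lit 912) (nat_lit 1265483316) (nat_lit 76) (nat_lit 1173653454) (nat_lit 372) (nat_lit 5) (nat_lit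 384) (nat_lit 5) (nat_lit 373) (nat_lit 5) (nat_lit 485) (nat_lit 461) (nat_lit 254)) (XT.nd (nat_lit 78) (nat_lit 836) (nat_lit 0) (XT.lf (nat_lit 0) (nat_lit 3668939591) (nat_lit 836) (nat_lit 8191157742) (nat_lit 76) (nat_lit 24744281020) (nat_lit 361) (nat_lit 5) (nat_lit 372) (nat_lit 5) (nat_lit 362) (nat_lit 5) (nat_lit 486) (nat_lit 461) (nat_lit 253)) (XT.lf (nat_lit 0) (nat_lit 10153436711) (nat_lit 912) (nat_lit 15253720915) (nat_lit 76) (nat_lit 11812191023) (nat_lit 350) (nat_lit 5) (nat_lit 362) (nat_lit 5) (nat_lit 351) (nat_lit 5) (nat_lit 487) (nat_lit 461) (nat_lit 252)))) (XT.nd (nat_lit 78) (nat_lit 0) (nat_lit 0) (XT.lf (nat_lit 0) (nat_lit 5502089990) (nat_lit 0) (nat_lit 5502089990) (nat_lit 1748) (nat_lit 1734312880) (nat_lit 467) (nat_lit 5) (nat_lit 467) (nat_lit 3) (nat_lit 490) (nat_lit 3) (nat_lit 462) (nat_lit 462) (nat_lit 276)) (XT.nd (nat_lit 78) (nat_lit 0) (nat_lit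 76) (XT.lf (nat_lit 76) (nat_lit 4258403536) (nat_lit 0) (nat_lit 18307437474) (nat_lit 1824) (nat_lit 3288728849) (nat_lit 468) (nat_lit 5) (nat_lit 467) (nat_lit 5) (nat_lit 491) (nat_lit 5) (nat_lit 463) (nat_lit 462) (nat_lit 275)) (XT.lf (nat_lit 0) (nat_lit 23307740319) (nat_lit 1748) (nat_lit 2570578820) (nat_lit 1824) (nat_lit 361809425) (nat_lit 468) (nat_lit 5) (nat_lit 491) (nat_lit 5) (nat_lit 492) (nat_lit 5) (nat_lit 464) (nat_lit 462) (nat_lit 274))))))))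
noncomputable def xc123 : XT := (XT.nd (nat_lit 62322) (nat_lit 0) (nat_lit 836) (XT.nd (nat_lit 858) (nat_lit 6460) (nat_lit 0) (XT.nd (nat_lit 390) (nat_lit 0) (nat_lit 152) (XT.nd (nat_lit 156) (nat_lit 1672) (nat_lit 0) (XT.nd (nat_lit 78) (nat_lit 0) (nat_lit 76) (XT.lf (nat_lit 76) (nat_lit 17124789832) (nat_lit 0) (nat_lit 7175045907) (nat_lit 1824) (nat_lit 2332860400) (nat_lit 469) (nat_lit 5) (nat_lit 468) (nat_lit 5) (nat_lit 492) (nat_lit 5) (nat_lit 465) (nat_lit 462) (nat_lit 273)) (XT.lf (nat_lit 76) (nat_lit 10464928442) (nat_lit 0) (nat_lit 15015221845) (nat_lit 1824) (nat_lit 1553722195) (nat_lit 470) (nat_lit 5) (nat_lit 469) (nat_lit 5) (nat_lit 493) (nat_lit 5) (nat_lit 466) (nat_lit 462) (nat_lit 272))) (XT.nd (nat_lit 78) (nat_lit 1824) (nat_lit 0) (XT.lf (nat_lit 76) (nat_lit 3690751958) (nat_lit 0) (nat_lit 23163806371) (nat_lit 1824) (nat_lit 589352945) (nat_lit 471) (nat_lit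 5) (nat_lit 470) (nat_lit 5) (nat_lit 494) (nat_lit 5) (nat_lit 467) (nat_lit 462) (nat_lit 271)) (XT.nd (nat_lit 78) (nat_lit 0) (nat_lit 76) (XT.lf (nat_lit 0) (nat_lit 606821588) (nat_lit 1824) (nat_lit 3186063096) (nat_lit 1900) (nat_lit 24069151451) (nat_lit 446) (nat_lit 5) (nat_lit 470) (nat_lit 5) (nat_lit 471) (nat_lit 5) (nat_lit 468) (nat_lit 462) (nat_lit 270)) (XT.lf (nat_lit 0) (nat_lit 2049911232) (nat_lit 1824) (nat_lit 10166124027) (nat_lit 1900) (nat_lit 16072211610) (nat_lit 447) (nat_lit 5) (nat_lit 471) (nat_lit 5) (nat_lit 472) (nat_lit 5) (nat_lit 469) (nat_lit 462) (nat_lit 269))))) (XT.nd (nat_lit 234) (nat_lit 0) (nat_lit 152) (XT.nd (nat_lit 78) (nat_lit 0) (nat_lit 0) (XT.lf (nat_lit 0) (nat_lit 3704145961) (nat_lit 1824) (nat_lit 17267406131) (nat_lit 1900) (nat_lit 7752335539) (nat_lit 448) (nat_lit 5) (nat_lit 472) (nat_lit 5) (nat_lit 473) (nat_lit 5) (nat_lit 470) (nat_lit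 462) (nat_lit 268)) (XT.nd (nat_lit 78) (nat_lit 0) (nat_lit 76) (XT.lf (nat_lit 76) (nat_lit 4671484792) (nat_lit 0) (nat_lit 913058618) (nat_lit 1900) (nat_lit 23584524225) (nat_lit 449) (nat_lit 5) (nat_lit 448) (nat_lit 5) (nat_lit 473) (nat_lit 5) (nat_lit 471) (nat_lit 462) (nat_lit 267)) (XT.lf (nat_lit 0) (nat_lit 7762643925) (nat_lit 1824) (nat_lit 2252731591) (nat_lit 1900) (nat_lit 19607402411) (nat_lit 449) (nat_lit 5) (nat_lit 473) (nat_lit 5) (nat_lit 474) (nat_lit 5) (nat_lit 472) (nat_lit 462) (nat_lit 266)))) (XT.nd (nat_lit 78) (nat_lit 0) (nat_lit 76) (XT.lf (nat_lit 0) (nat_lit 10213478812) (nat_lit 1824) (nat_lit 9232846965) (nat_lit 1900) (nat_lit 10639626614) (nat_lit 450) (nat_lit 5) (nat_lit 474) (nat_lit 5) (nat_lit 475) (nat_lit 5) (nat_lit 473) (nat_lit 462) (nat_lit 265)) (XT.nd (nat_lit 78) (nat_lit 0) (nat_lit 0) (XT.lf (nat_lit 0) (nat_lit 12916792148) (nat_lit 1824)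 (nat_lit 16331697200) (nat_lit 1900) (nat_lit 1310954342) (nat_lit 451) (nat_lit 5) (nat_lit 475) (nat_lit 5) (nat_lit 476) (nat_lit 5) (nat_lit 474) (nat_lit 462) (nat_lit 264)) (XT.lf (nat_lit 76) (nat_lit 7436348845) (nat_lit 0) (nat_lit 8501830214) (nat_lit 1900) (nat_lit 15104221836) (nat_lit 452) (nat_lit 5) (nat_lit 451) (nat_lit 5) (nat_lit 476) (nat_lit 5) (nat_lit 475) (nat_lit 462) (nat_lit 263)))))) (XT.nd (nat_lit 468) (nat_lit 4332) (nat_lit 0) (XT.nd (nat_lit 234) (nat_lit 2584) (nat_lit 0) (XT.nd (nat_lit 78) (nat_lit 0) (nat_lit 76) (XT.lf (nat_lit 76) (nat_lit 522525094) (nat_lit 0) (nat_lit 18721797138) (nat_lit 1900) (nat_lit 12291642923) (nat_lit 453) (nat_lit 5) (nat_lit 452) (nat_lit 5) (nat_lit 477) (nat_lit 5) (nat_lit 476) (nat_lit 462) (nat_lit 262)) (XT.nd (nat_lit 78) (nat_lit 0) (nat_lit 0) (XT.lf (nat_lit 0) (nat_lit 22879990395) (nat_lit 1824) (nat_lit 6420987622) (nat_lit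 1900) (nat_lit 2738752126) (nat_lit 453) (nat_lit 5) (nat_lit 477) (nat_lit 5) (nat_lit 478) (nat_lit 5) (nat_lit 477) (nat_lit 462) (nat_lit 261)) (XT.lf (nat_lit 76) (nat_lit 19030284320) (nat_lit 0) (nat_lit 7839206413) (nat_lit 1900) (nat_lit 5684222699) (nat_lit 454) (nat_lit 5) (nat_lit 453) (nat_lit 5) (nat_lit 478) (nat_lit 5) (nat_lit 478) (nat_lit 462) (nat_lit 260)))) (XT.nd (nat_lit 78) (nat_lit 1064) (nat_lit 0) (XT.lf (nat_lit 0) (nat_lit 12315983898) (nat_lit 1672) (nat_lit 18875184576) (nat_lit 1748) (nat_lit 1887698476) (nat_lit 432) (nat_lit 5) (nat_lit 454) (nat_lit 5) (nat_lit 455) (nat_lit 5) (nat_lit 479) (nat_lit 462) (nat_lit 259)) (XT.nd (nat_lit 78) (nat_lit 0) (nat_lit 0) (XT.lf (nat_lit 0) (nat_lit 2194349579) (nat_lit 1064) (nat_lit 28137228950) (nat_lit 76) (nat_lit 3283971309) (nat_lit 418) (nat_lit 5) (nat_lit 432) (nat_lit 5) (nat_lit 419) (nat_lit 5) (nat_lit 480)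 (nat_lit 462) (nat_lit 258)) (XT.lf (nat_lit 0) (nat_lit 6637475333) (nat_lit 1064) (nat_lit 1517722637) (nat_lit 76) (nat_lit 26007600969) (nat_lit 418) (nat_lit 5) (nat_lit 432) (nat_lit 5) (nat_lit 419) (nat_lit 5) (nat_lit 481) (nat_lit 462) (nat_lit 257))))) (XT.nd (nat_lit 234) (nat_lit 1672) (nat_lit 0) (XT.nd (nat_lit 78) (nat_lit 1748) (nat_lit 0) (XT.lf (nat_lit 0) (nat_lit 11477126257) (nat_lit 988) (nat_lit 8578377414) (nat_lit 76) (nat_lit 14665697734) (nat_lit 406) (nat_lit 5) (nat_lit 419) (nat_lit 5) (nat_lit 407) (nat_lit 5) (nat_lit 482) (nat_lit 462) (nat_lit 256)) (XT.nd (nat_lit 78) (nat_lit 836) (nat_lit 0) (XT.lf (nat_lit 0) (nat_lit 16669155827) (nat_lit 988) (nat_lit 15755075713) (nat_lit 76) (nat_lit 2867981125) (nat_lit 394) (nat_lit 5) (nat_lit 407) (nat_lit 5) (nat_lit 395) (nat_lit 5) (nat_lit 483) (nat_lit 462) (nat_lit 255)) (XT.lf (nat_lit 0) (nat_lit 12763917066) (nat_lit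 836) (nat_lit 9525076918) (nat_lit 912) (nat_lit 13585919813) (nat_lit 383) (nat_lit 5) (nat_lit 394) (nat_lit 5) (nat_lit 395) (nat_lit 5) (nat_lit 484) (nat_lit 462) (nat_lit 254)))) (XT.nd (nat_lit 78) (nat_lit 836) (nat_lit 0) (XT.lf (nat_lit 0) (nat_lit 5862725796) (nat_lit 836) (nat_lit 22448149548) (nat_lit 912) (nat_lit 8159552132) (nat_lit 372) (nat_lit 5) (nat_lit 383) (nat_lit 5) (nat_lit 384) (nat_lit 5) (nat_lit 485) (nat_lit 462) (nat_lit 253)) (XT.nd (nat_lit 78) (nat_lit 836) (nat_lit 0) (XT.lf (nat_lit 0) (nat_lit 34737946416) (nat_lit 912) (nat_lit 1133248302) (nat_lit 76) (nat_lit 1208121644) (nat_lit 372) (nat_lit 5) (nat_lit 384) (nat_lit 5) (nat_lit 373) (nat_lit 5) (nat_lit 486) (nat_lit 462) (nat_lit 252)) (XT.lf (nat_lit 0) (nat_lit 3943887541) (nat_lit 836) (nat_lit 8267240823) (nat_lit 76) (nat_lit 25488061488) (nat_lit 361) (nat_lit 5) (nat_lit 372) (nat_lit 5) (nat_lit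 362) (nat_lit 5) (nat_lit 487) (nat_lit 462) (nat_lit 251))))))) (XT.nd (nat_lit 936) (nat_lit 5624) (nat_lit 0) (XT.nd (nat_lit 468) (nat_lit 1596) (nat_lit 0) (XT.nd (nat_lit 234) (nat_lit 0) (nat_lit 76) (XT.nd (nat_lit 78) (nat_lit 0) (nat_lit 0) (XT.lf (nat_lit 0) (nat_lit 5741549095) (nat_lit 0) (nat_lit 5741549095) (nat_lit 1748) (nat_lit 1634550291) (nat_lit 467) (nat_lit 5) (nat_lit 467) (nat_lit 3) (nat_lit 490) (nat_lit 3) (nat_lit 463) (nat_lit 463) (nat_lit 274)) (XT.nd (nat_lit 78) (nat_lit 0) (nat_lit 76) (XT.lf (nat_lit 76) (nat_lit 4539385867) (nat_lit 0) (nat_lit 18992405401) (nat_lit 1824) (nat_lit 3092590928) (nat_lit 468) (nat_lit 5) (nat_lit 467) (nat_lit 5) (nat_lit 491) (nat_lit 5) (nat_lit 464) (nat_lit 463) (nat_lit 273)) (XT.lf (nat_lit 0) (nat_lit 24286675133) (nat_lit 1748) (nat_lit 2492418195) (nat_lit 1824) (nat_lit 242601100) (nat_lit 468) (nat_lit 5) (nat_lit 491) (nat_lit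 5) (nat_lit 492) (nat_lit 5) (nat_lit 465) (nat_lit 463) (nat_lit 272)))) (XT.nd (nat_lit 78) (nat_lit 0) (nat_lit 76) (XT.lf (nat_lit 76) (nat_lit 17791292316) (nat_lit 0) (nat_lit 7510086233) (nat_lit 1824) (nat_lit 2124804858) (nat_lit 469) (nat_lit 5) (nat_lit 468) (nat_lit 5) (nat_lit 492) (nat_lit 5) (nat_lit 466) (nat_lit 463) (nat_lit 271)) (XT.nd (nat_lit 78) (nat_lit 0) (nat_lit 76) (XT.lf (nat_lit 76) (nat_lit 10935326372) (nat_lit 0) (nat_lit 15574098559) (nat_lit 1824) (nat_lit 1330124904) (nat_lit 470) (nat_lit 5) (nat_lit 469) (nat_lit 5) (nat_lit 493) (nat_lit 5) (nat_lit 467) (nat_lit 463) (nat_lit 270)) (XT.lf (nat_lit 76) (nat_lit 3961331097) (nat_lit 0) (nat_lit 23956373917) (nat_lit 1824) (nat_lit 344333189) (nat_lit 471) (nat_lit 5) (nat_lit 470) (nat_lit 5) (nat_lit 494) (nat_lit 5) (nat_lit 468) (nat_lit 463) (nat_lit 269))))) (XT.nd (nat_lit 234) (nat_lit 0) (nat_lit 152) (XT.nd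 (nat_lit 78) (nat_lit 0) (nat_lit 76) (XT.lf (nat_lit 0) (nat_lit 876730102) (nat_lit 1824) (nat_lit 3123061140) (nat_lit 1900) (nat_lit 24693033625) (nat_lit 446) (nat_lit 5) (nat_lit 470) (nat_lit 5) (nat_lit 471) (nat_lit 5) (nat_lit 469) (nat_lit 463) (nat_lit 268)) (XT.nd (nat_lit 78) (nat_lit 0) (nat_lit 76) (XT.lf (nat_lit 0) (nat_lit 2356213903) (nat_lit 1824) (nat_lit 10309571582) (nat_lit 1900) (nat_lit 16466175524) (nat_lit 447) (nat_lit 5) (nat_lit 471) (nat_lit 5) (nat_lit 472) (nat_lit 5) (nat_lit 470) (nat_lit 463) (nat_lit 267)) (XT.lf (nat_lit 0) (nat_lit 4053459146) (nat_lit 1824) (nat_lit 17621184608) (nat_lit 1900) (nat_lit 7906160652) (nat_lit 448) (nat_lit 5) (nat_lit 472) (nat_lit 5) (nat_lit 473) (nat_lit 5) (nat_lit 471) (nat_lit 463) (nat_lit 266)))) (XT.nd (nat_lit 78) (nat_lit 0) (nat_lit 76) (XT.lf (nat_lit 76) (nat_lit 4973208384) (nat_lit 0) (nat_lit 1011171675) (nat_lit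 1900) (nat_lit 24055078571) (nat_lit 449) (nat_lit 5) (nat_lit 448) (nat_lit 5) (nat_lit 473) (nat_lit 5) (nat_lit 472) (nat_lit 463) (nat_lit 265)) (XT.nd (nat_lit 78) (nat_lit 0) (nat_lit 76) (XT.lf (nat_lit 0) (nat_lit 8220611765) (nat_lit 1824) (nat_lit 2158450188) (nat_lit 1900) (nat_lit 20127863535) (nat_lit 449) (nat_lit 5) (nat_lit 473) (nat_lit 5) (nat_lit 474) (nat_lit 5) (nat_lit 473) (nat_lit 463) (nat_lit 264)) (XT.lf (nat_lit 0) (nat_lit 10739057899) (nat_lit 1824) (nat_lit 9345779023) (nat_lit 1900) (nat_lit 10899277530) (nat_lit 450) (nat_lit 5) (nat_lit 474) (nat_lit 5) (nat_lit 475) (nat_lit 5) (nat_lit 474) (nat_lit 463) (nat_lit 263)))))) (XT.nd (nat_lit 468) (nat_lit 4560) (nat_lit 0) (XT.nd (nat_lit 234) (nat_lit 1444) (nat_lit 0) (XT.nd (nat_lit 78) (nat_lit 0) (nat_lit 0) (XT.lf (nat_lit 0) (nat_lit 13517794246) (nat_lit 1824) (nat_lit 16655606984) (nat_lit 1900) (nat_lit 1298523750)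 (nat_lit 451) (nat_lit 5) (nat_lit 475) (nat_lit 5) (nat_lit 476) (nat_lit 5) (nat_lit 475) (nat_lit 463) (nat_lit 262)) (XT.nd (nat_lit 78) (nat_lit 0) (nat_lit 76) (XT.lf (nat_lit 76) (nat_lit 7822786623) (nat_lit 0) (nat_lit 8801878303) (nat_lit 1900) (nat_lit 15344810065) (nat_lit 452) (nat_lit 5) (nat_lit 451) (nat_lit 5) (nat_lit 476) (nat_lit 5) (nat_lit 476) (nat_lit 463) (nat_lit 261)) (XT.lf (nat_lit 76) (nat_lit 703315254) (nat_lit 0) (nat_lit 19321397386) (nat_lit 1900) (nat_lit 12453240041) (nat_lit 453) (nat_lit 5) (nat_lit 452) (nat_lit 5) (nat_lit 477) (nat_lit 5) (nat_lit 477) (nat_lit 463) (nat_lit 260)))) (XT.nd (nat_lit 78) (nat_lit 1596) (nat_lit 0) (XT.lf (nat_lit 0) (nat_lit 23763297260) (nat_lit 1824) (nat_lit 6449100543) (nat_lit 1900) (nat_lit 2784556767) (nat_lit 453) (nat_lit 5) (nat_lit 477) (nat_lit 5) (nat_lit 478) (nat_lit 5) (nat_lit 478) (nat_lit 463) (nat_lit 259))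 (XT.nd (nat_lit 78) (nat_lit 1596) (nat_lit 0) (XT.lf (nat_lit 76) (nat_lit 19763040469) (nat_lit 0) (nat_lit 8104757802) (nat_lit 1900) (nat_lit 5658653628) (nat_lit 454) (nat_lit 5) (nat_lit 453) (nat_lit 5) (nat_lit 478) (nat_lit 5) (nat_lit 479) (nat_lit 463) (nat_lit 258)) (XT.lf (nat_lit 0) (nat_lit 12848689368) (nat_lit 1672) (nat_lit 19465706553) (nat_lit 1748) (nat_lit 1753059539) (nat_lit 432) (nat_lit 5) (nat_lit 454) (nat_lit 5) (nat_lit 455) (nat_lit 5) (nat_lit 480) (nat_lit 463) (nat_lit 257))))) (XT.nd (nat_lit 234) (nat_lit 2584) (nat_lit 0) (XT.nd (nat_lit 78) (nat_lit 912) (nat_lit 0) (XT.lf (nat_lit 0) (nat_lit 2444364320) (nat_lit 1064) (nat_lit 28814422772) (nat_lit 76) (nat_lit 3361519238) (nat_lit 418) (nat_lit 5) (nat_lit 432) (nat_lit 5) (nat_lit 419) (nat_lit 5) (nat_lit 481) (nat_lit 463) (nat_lit 256)) (XT.nd (nat_lit 78) (nat_lit 912) (nat_lit 0) (XT.lf (nat_lit 0) (nat_lit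 7015419256) (nat_lit 1064) (nat_lit 1401193106) (nat_lit 76) (nat_lit 26767468600) (nat_lit 418) (nat_lit 5) (nat_lit 432) (nat_lit 5) (nat_lit 419) (nat_lit 5) (nat_lit 482) (nat_lit 463) (nat_lit 255)) (XT.lf (nat_lit 0) (nat_lit 11995987723) (nat_lit 988) (nat_lit 8672680257) (nat_lit 76) (nat_lit 15090653705) (nat_lit 406) (nat_lit 5) (nat_lit 419) (nat_lit 5) (nat_lit 407) (nat_lit 5) (nat_lit 483) (nat_lit 463) (nat_lit 254)))) (XT.nd (nat_lit 78) (nat_lit 1672) (nat_lit 0) (XT.lf (nat_lit 0) (nat_lit 17339670123) (nat_lit 988) (nat_lit 16063824994) (nat_lit 76) (nat_lit 2944051049) (nat_lit 394) (nat_lit 5) (nat_lit 407) (nat_lit 5) (nat_lit 395) (nat_lit 5) (nat_lit 484) (nat_lit 463) (nat_lit 253)) (XT.nd (nat_lit 78) (nat_lit 836) (nat_lit 0) (XT.lf (nat_lit 0) (nat_lit 13308078437) (nat_lit 836) (nat_lit 9816107629) (nat_lit 912) (nat_lit 13823621316) (nat_lit 383) (nat_lit 5) (nat_lit 394)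 (nat_lit 5) (nat_lit 395) (nat_lit 5) (nat_lit 485) (nat_lit 463) (nat_lit 252)) (XT.lf (nat_lit 0) (nat_lit 6200568571) (nat_lit 836) (nat_lit 23122323419) (nat_lit 912) (nat_lit 8238371801) (nat_lit 372) (nat_lit 5) (nat_lit 383) (nat_lit 5) (nat_lit 384) (nat_lit 5) (nat_lit 486) (nat_lit 463) (nat_lit 251))))))))
noncomputable def xc124 : XT := (XT.nd (nat_lit 62400) (nat_lit 0) (nat_lit 836) (XT.nd (nat_lit 61464) (nat_lit 0) (nat_lit 1672) (XT.nd (nat_lit 60996) (nat_lit 0) (nat_lit 5624) (XT.nd (nat_lit 60762) (nat_lit 0) (nat_lit 7220) (XT.nd (nat_lit 60684) (nat_lit 0) (nat_lit 7220) (XT.lf (nat_lit 0) (nat_lit 35938032041) (nat_lit 912) (nat_lit 1006816385) (nat_lit 76) (nat_lit 1243666441) (nat_lit 372) (nat_lit 5) (nat_lit 384) (nat_lit 5) (nat_lit 373) (nat_lit 5) (nat_lit 487) (nat_lit 463) (nat_lit 250)) (XT.lf (nat_lit 0) (nat_lit 5983921315) (nat_lit 0) (nat_lit 5983921315) (nat_lit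 1748) (nat_lit 1540508305) (nat_lit 467) (nat_lit 5) (nat_lit 467) (nat_lit 3) (nat_lit 490) (nat_lit 3) (nat_lit 464) (nat_lit 464) (nat_lit 272))) (XT.nd (nat_lit 78) (nat_lit 0) (nat_lit 76) (XT.lf (nat_lit 76) (nat_lit 4820001627) (nat_lit 0) (nat_lit 19690130059) (nat_lit 1824) (nat_lit 2907491583) (nat_lit 468) (nat_lit 5) (nat_lit 467) (nat_lit 5) (nat_lit 491) (nat_lit 5) (nat_lit 465) (nat_lit 464) (nat_lit 271)) (XT.nd (nat_lit 78) (nat_lit 0) (nat_lit 0) (XT.lf (nat_lit 0) (nat_lit 25278921918) (nat_lit 1748) (nat_lit 2420826343) (nat_lit 1824) (nat_lit 127282652) (nat_lit 468) (nat_lit 5) (nat_lit 491) (nat_lit 5) (nat_lit 492) (nat_lit 5) (nat_lit 466) (nat_lit 464) (nat_lit 270)) (XT.lf (nat_lit 76) (nat_lit 18469020895) (nat_lit 0) (nat_lit 7848301394) (nat_lit 1824) (nat_lit 1926468362) (nat_lit 469) (nat_lit 5) (nat_lit 468) (nat_lit 5) (nat_lit 492) (nat_lit 5) (nat_lit 467) (nat_lit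 464) (nat_lit 269))))) (XT.nd (nat_lit 234) (nat_lit 0) (nat_lit 76) (XT.nd (nat_lit 78) (nat_lit 1748) (nat_lit 0) (XT.lf (nat_lit 76) (nat_lit 11410855367) (nat_lit 0) (nat_lit 16143517819) (nat_lit 1824) (nat_lit 1115330795) (nat_lit 470) (nat_lit 5) (nat_lit 469) (nat_lit 5) (nat_lit 493) (nat_lit 5) (nat_lit 468) (nat_lit 464) (nat_lit 268)) (XT.nd (nat_lit 78) (nat_lit 1824) (nat_lit 0) (XT.lf (nat_lit 76) (nat_lit 4230851188) (nat_lit 0) (nat_lit 24767112787) (nat_lit 1824) (nat_lit 107042914) (nat_lit 471) (nat_lit 5) (nat_lit 470) (nat_lit 5) (nat_lit 494) (nat_lit 5) (nat_lit 469) (nat_lit 464) (nat_lit 267)) (XT.lf (nat_lit 0) (nat_lit 1140287040) (nat_lit 1824) (nat_lit 3067272487) (nat_lit 1900) (nat_lit 25341268909) (nat_lit 446) (nat_lit 5) (nat_lit 470) (nat_lit 5) (nat_lit 471) (nat_lit 5) (nat_lit 470) (nat_lit 464) (nat_lit 266)))) (XT.nd (nat_lit 78) (nat_lit 0) (nat_lit 76) (XT.lf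 (nat_lit 0) (nat_lit 2657652826) (nat_lit 1824) (nat_lit 10466595400) (nat_lit 1900) (nat_lit 16877021536) (nat_lit 447) (nat_lit 5) (nat_lit 471) (nat_lit 5) (nat_lit 472) (nat_lit 5) (nat_lit 471) (nat_lit 464) (nat_lit 265)) (XT.nd (nat_lit 78) (nat_lit 0) (nat_lit 0) (XT.lf (nat_lit 0) (nat_lit 4399578715) (nat_lit 1824) (nat_lit 17995004700) (nat_lit 1900) (nat_lit 8069120801) (nat_lit 448) (nat_lit 5) (nat_lit 472) (nat_lit 5) (nat_lit 473) (nat_lit 5) (nat_lit 472) (nat_lit 464) (nat_lit 264)) (XT.lf (nat_lit 76) (nat_lit 5274708385) (nat_lit 0) (nat_lit 1108168433) (nat_lit 1900) (nat_lit 24553353249) (nat_lit 449) (nat_lit 5) (nat_lit 448) (nat_lit 5) (nat_lit 473) (nat_lit 5) (nat_lit 473) (nat_lit 464) (nat_lit 263)))))) (XT.nd (nat_lit 468) (nat_lit 4180) (nat_lit 0) (XT.nd (nat_lit 234) (nat_lit 0) (nat_lit 152) (XT.nd (nat_lit 78) (nat_lit 0) (nat_lit 76) (XT.lf (nat_lit 0) (nat_lit 8679397637)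 (nat_lit 1824) (nat_lit 2070631962) (nat_lit 1900) (nat_lit 20667828249) (nat_lit 449) (nat_lit 5) (nat_lit 473) (nat_lit 5) (nat_lit 474) (nat_lit 5) (nat_lit 474) (nat_lit 464) (nat_lit 262)) (XT.nd (nat_lit 78) (nat_lit 0) (nat_lit 76) (XT.lf (nat_lit 0) (nat_lit 11267822833) (nat_lit 1824) (nat_lit 9471516376) (nat_lit 1900) (nat_lit 11170135691) (nat_lit 450) (nat_lit 5) (nat_lit 474) (nat_lit 5) (nat_lit 475) (nat_lit 5) (nat_lit 475) (nat_lit 464) (nat_lit 261)) (XT.lf (nat_lit 0) (nat_lit 14124570731) (nat_lit 1824) (nat_lit 16998765501) (nat_lit 1900) (nat_lit 1288691431) (nat_lit 451) (nat_lit 5) (nat_lit 475) (nat_lit 5) (nat_lit 476) (nat_lit 5) (nat_lit 476) (nat_lit 464) (nat_lit 260)))) (XT.nd (nat_lit 78) (nat_lit 0) (nat_lit 76) (XT.lf (nat_lit 76) (nat_lit 8211440731) (nat_lit 0) (nat_lit 9108345042) (nat_lit 1900) (nat_lit 15604816516) (nat_lit 452) (nat_lit 5) (nat_lit 451) (nat_lit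 5) (nat_lit 476) (nat_lit 5) (nat_lit 477) (nat_lit 464) (nat_lit 259)) (XT.nd (nat_lit 78) (nat_lit 0) (nat_lit 76) (XT.lf (nat_lit 76) (nat_lit 880050876) (nat_lit 0) (nat_lit 19936807367) (nat_lit 1900) (nat_lit 12631576454) (nat_lit 453) (nat_lit 5) (nat_lit 452) (nat_lit 5) (nat_lit 477) (nat_lit 5) (nat_lit 478) (nat_lit 464) (nat_lit 258)) (XT.lf (nat_lit 0) (nat_lit 24661800055) (nat_lit 1824) (nat_lit 6487500784) (nat_lit 1900) (nat_lit 2833822640) (nat_lit 453) (nat_lit 5) (nat_lit 477) (nat_lit 5) (nat_lit 478) (nat_lit 5) (nat_lit 479) (nat_lit 464) (nat_lit 257))))) (XT.nd (nat_lit 234) (nat_lit 1824) (nat_lit 0) (XT.nd (nat_lit 78) (nat_lit 2660) (nat_lit 0) (XT.lf (nat_lit 76) (nat_lit 20508488588) (nat_lit 0) (nat_lit 8376532071) (nat_lit 1900) (nat_lit 5643574183) (nat_lit 454) (nat_lit 5) (nat_lit 453) (nat_lit 5) (nat_lit 478) (nat_lit 5) (nat_lit 480) (nat_lit 464) (nat_lit 256))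 (XT.nd (nat_lit 78) (nat_lit 1064) (nat_lit 0) (XT.lf (nat_lit 0) (nat_lit 13388006165) (nat_lit 1672) (nat_lit 20072551196) (nat_lit 1748) (nat_lit 1625361109) (nat_lit 432) (nat_lit 5) (nat_lit 454) (nat_lit 5) (nat_lit 455) (nat_lit 5) (nat_lit 481) (nat_lit 464) (nat_lit 255)) (XT.lf (nat_lit 0) (nat_lit 2691306573) (nat_lit 1064) (nat_lit 29521514474) (nat_lit 76) (nat_lit 3442597438) (nat_lit 418) (nat_lit 5) (nat_lit 432) (nat_lit 5) (nat_lit 419) (nat_lit 5) (nat_lit 482) (nat_lit 464) (nat_lit 254)))) (XT.nd (nat_lit 78) (nat_lit 1824) (nat_lit 0) (XT.lf (nat_lit 0) (nat_lit 7394436517) (nat_lit 1064) (nat_lit 1290470666) (nat_lit 76) (nat_lit 27551301029) (nat_lit 418) (nat_lit 5) (nat_lit 432) (nat_lit 5) (nat_lit 419) (nat_lit 5) (nat_lit 483) (nat_lit 464) (nat_lit 253)) (XT.nd (nat_lit 78) (nat_lit 912) (nat_lit 0) (XT.lf (nat_lit 0) (nat_lit 12520395283) (nat_lit 988) (nat_lit 8779171835)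 (nat_lit 76) (nat_lit 15529220275) (nat_lit 406) (nat_lit 5) (nat_lit 419) (nat_lit 5) (nat_lit 407) (nat_lit 5) (nat_lit 484) (nat_lit 464) (nat_lit 252)) (XT.lf (nat_lit 0) (nat_lit 18020515916) (nat_lit 988) (nat_lit 16391245456) (nat_lit 76) (nat_lit 3022975362) (nat_lit 394) (nat_lit 5) (nat_lit 407) (nat_lit 5) (nat_lit 395) (nat_lit 5) (nat_lit 485) (nat_lit 464) (nat_lit 251))))))) (XT.nd (nat_lit 61620) (nat_lit 0) (nat_lit 836) (XT.nd (nat_lit 61152) (nat_lit 0) (nat_lit 4788) (XT.nd (nat_lit 60918) (nat_lit 0) (nat_lit 6384) (XT.nd (nat_lit 60840) (nat_lit 0) (nat_lit 6384) (XT.lf (nat_lit 0) (nat_lit 13859308591) (nat_lit 836) (nat_lit 10115566260) (nat_lit 912) (nat_lit 14078205446) (nat_lit 383) (nat_lit 5) (nat_lit 394) (nat_lit 5) (nat_lit 395) (nat_lit 5) (nat_lit 486) (nat_lit 464) (nat_lit 250)) (XT.lf (nat_lit 0) (nat_lit 6229539198) (nat_lit 0) (nat_lit 6229539198) (nat_lit 1748)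 (nat_lit 1451858350) (nat_lit 467) (nat_lit 5) (nat_lit 467) (nat_lit 3) (nat_lit 490) (nat_lit 3) (nat_lit 465) (nat_lit 465) (nat_lit 270))) (XT.nd (nat_lit 78) (nat_lit 0) (nat_lit 76) (XT.lf (nat_lit 76) (nat_lit 5100744746) (nat_lit 0) (nat_lit 20401441459) (nat_lit 1824) (nat_lit 2732790538) (nat_lit 468) (nat_lit 5) (nat_lit 467) (nat_lit 5) (nat_lit 491) (nat_lit 5) (nat_lit 466) (nat_lit 465) (nat_lit 269)) (XT.nd (nat_lit 78) (nat_lit 0) (nat_lit 0) (XT.lf (nat_lit 0) (nat_lit 26285801717) (nat_lit 1748) (nat_lit 2355488651) (nat_lit 1824) (nat_lit 15542190) (nat_lit 468) (nat_lit 5) (nat_lit 491) (nat_lit 5) (nat_lit 492) (nat_lit 5) (nat_lit 467) (nat_lit 465) (nat_lit 268)) (XT.lf (nat_lit 76) (nat_lit 19158815727) (nat_lit 0) (nat_lit 8190181366) (nat_lit 1824) (nat_lit 1737226272) (nat_lit 469) (nat_lit 5) (nat_lit 468) (nat_lit 5) (nat_lit 492) (nat_lit 5) (nat_lit 468) (nat_lit 465)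 (nat_lit 267))))) (XT.nd (nat_lit 234) (nat_lit 0) (nat_lit 76) (XT.nd (nat_lit 78) (nat_lit 1748) (nat_lit 0) (XT.lf (nat_lit 76) (nat_lit 11892184895) (nat_lit 0) (nat_lit 16724153171) (nat_lit 1824) (nat_lit 908713561) (nat_lit 470) (nat_lit 5) (nat_lit 469) (nat_lit 5) (nat_lit 493) (nat_lit 5) (nat_lit 469) (nat_lit 465) (nat_lit 266)) (XT.nd (nat_lit 78) (nat_lit 0) (nat_lit 0) (XT.lf (nat_lit 0) (nat_lit 121536495) (nat_lit 1824) (nat_lit 25474537843) (nat_lit 1900) (nat_lit 4377455154) (nat_lit 446) (nat_lit 5) (nat_lit 470) (nat_lit 5) (nat_lit 471) (nat_lit 5) (nat_lit 470) (nat_lit 465) (nat_lit 265)) (XT.lf (nat_lit 0) (nat_lit 1398131276) (nat_lit 1824) (nat_lit 3018390965) (nat_lit 1900) (nat_lit 26014264328) (nat_lit 446) (nat_lit 5) (nat_lit 470) (nat_lit 5) (nat_lit 471) (nat_lit 5) (nat_lit 471) (nat_lit 465) (nat_lit 264)))) (XT.nd (nat_lit 78) (nat_lit 0) (nat_lit 76) (XT.lf (nat_lit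 0) (nat_lit 2954888779) (nat_lit 1824) (nat_lit 10637070471) (nat_lit 1900) (nat_lit 17304965462) (nat_lit 447) (nat_lit 5) (nat_lit 471) (nat_lit 5) (nat_lit 472) (nat_lit 5) (nat_lit 472) (nat_lit 465) (nat_lit 263)) (XT.nd (nat_lit 78) (nat_lit 0) (nat_lit 0) (XT.lf (nat_lit 0) (nat_lit 4743193747) (nat_lit 1824) (nat_lit 18388926435) (nat_lit 1900) (nat_lit 8241230554) (nat_lit 448) (nat_lit 5) (nat_lit 472) (nat_lit 5) (nat_lit 473) (nat_lit 5) (nat_lit 473) (nat_lit 465) (nat_lit 262)) (XT.lf (nat_lit 76) (nat_lit 5576510528) (nat_lit 0) (nat_lit 1204248444) (nat_lit 1900) (nat_lit 25079398959) (nat_lit 449) (nat_lit 5) (nat_lit 448) (nat_lit 5) (nat_lit 473) (nat_lit 5) (nat_lit 474) (nat_lit 465) (nat_lit 261)))))) (XT.nd (nat_lit 468) (nat_lit 4180) (nat_lit 0) (XT.nd (nat_lit 234) (nat_lit 0) (nat_lit 152) (XT.nd (nat_lit 78) (nat_lit 0) (nat_lit 76) (XT.lf (nat_lit 0) (nat_lit 9139767803)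 (nat_lit 1824) (nat_lit 1988937430) (nat_lit 1900) (nat_lit 21227658372) (nat_lit 449) (nat_lit 5) (nat_lit 473) (nat_lit 5) (nat_lit 474) (nat_lit 5) (nat_lit 475) (nat_lit 465) (nat_lit 260)) (XT.nd (nat_lit 78) (nat_lit 0) (nat_lit 76) (XT.lf (nat_lit 0) (nat_lit 11800591421) (nat_lit 1824) (nat_lit 9609902590) (nat_lit 1900) (nat_lit 11452341125) (nat_lit 450) (nat_lit 5) (nat_lit 474) (nat_lit 5) (nat_lit 475) (nat_lit 5) (nat_lit 476) (nat_lit 465) (nat_lit 259)) (XT.lf (nat_lit 0) (nat_lit 14737998357) (nat_lit 1824) (nat_lit 17361203070) (nat_lit 1900) (nat_lit 1281364775) (nat_lit 451) (nat_lit 5) (nat_lit 475) (nat_lit 5) (nat_lit 476) (nat_lit 5) (nat_lit 477) (nat_lit 465) (nat_lit 258)))) (XT.nd (nat_lit 78) (nat_lit 0) (nat_lit 76) (XT.lf (nat_lit 76) (nat_lit 8602915924) (nat_lit 0) (nat_lit 9421571254) (nat_lit 1900) (nat_lit 15884123373) (nat_lit 452) (nat_lit 5) (nat_lit 451) (nat_lit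 5) (nat_lit 476) (nat_lit 5) (nat_lit 478) (nat_lit 465) (nat_lit 257)) (XT.nd (nat_lit 78) (nat_lit 0) (nat_lit 76) (XT.lf (nat_lit 76) (nat_lit 1053154415) (nat_lit 0) (nat_lit 20568626414) (nat_lit 1900) (nat_lit 12826471728) (nat_lit 453) (nat_lit 5) (nat_lit 452) (nat_lit 5) (nat_lit 477) (nat_lit 5) (nat_lit 479) (nat_lit 465) (nat_lit 256)) (XT.lf (nat_lit 0) (nat_lit 25576603513) (nat_lit 1824) (nat_lit 6535954843) (nat_lit 1900) (nat_lit 2886533775) (nat_lit 453) (nat_lit 5) (nat_lit 477) (nat_lit 5) (nat_lit 478) (nat_lit 5) (nat_lit 480) (nat_lit 465) (nat_lit 255))))) (XT.nd (nat_lit 234) (nat_lit 1824) (nat_lit 0) (XT.nd (nat_lit 78) (nat_lit 2660) (nat_lit 0) (XT.lf (nat_lit 76) (nat_lit 21267542759) (nat_lit 0) (nat_lit 8654816002) (nat_lit 1900) (nat_lit 5638652873) (nat_lit 454) (nat_lit 5) (nat_lit 453) (nat_lit 5) (nat_lit 478) (nat_lit 5) (nat_lit 481) (nat_lit 465) (nat_lit 254))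 (XT.nd (nat_lit 78) (nat_lit 1064) (nat_lit 0) (XT.lf (nat_lit 0) (nat_lit 13934670495) (nat_lit 1672) (nat_lit 20696288149) (nat_lit 1748) (nat_lit 1504181122) (nat_lit 432) (nat_lit 5) (nat_lit 454) (nat_lit 5) (nat_lit 455) (nat_lit 5) (nat_lit 482) (nat_lit 465) (nat_lit 253)) (XT.lf (nat_lit 0) (nat_lit 2935691094) (nat_lit 1064) (nat_lit 30258850943) (nat_lit 76) (nat_lit 3527242712) (nat_lit 418) (nat_lit 5) (nat_lit 432) (nat_lit 5) (nat_lit 419) (nat_lit 5) (nat_lit 483) (nat_lit 465) (nat_lit 252)))) (XT.nd (nat_lit 78) (nat_lit 1824) (nat_lit 0) (XT.lf (nat_lit 0) (nat_lit 7775148567) (nat_lit 1064) (nat_lit 1185195499) (nat_lit 76) (nat_lit 28359750110) (nat_lit 418) (nat_lit 5) (nat_lit 432) (nat_lit 5) (nat_lit 419) (nat_lit 5) (nat_lit 484) (nat_lit 465) (nat_lit 251)) (XT.nd (nat_lit 78) (nat_lit 912) (nat_lit 0) (XT.lf (nat_lit 0) (nat_lit 13051090494) (nat_lit 988) (nat_lit 8897680528)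 (nat_lit 76) (nat_lit 15981756285) (nat_lit 406) (nat_lit 5) (nat_lit 419) (nat_lit 5) (nat_lit 407) (nat_lit 5) (nat_lit 485) (nat_lit 465) (nat_lit 250)) (XT.lf (nat_lit 0) (nat_lit 18712564790) (nat_lit 988) (nat_lit 16737357137) (nat_lit 76) (nat_lit 3104806844) (nat_lit 394) (nat_lit 5) (nat_lit 407) (nat_lit 5) (nat_lit 395) (nat_lit 5) (nat_lit 486) (nat_lit 465) (nat_lit 249))))))))
noncomputable def xc125 : XT := (XT.nd (nat_lit 62790) (nat_lit 0) (nat_lit 0) (XT.nd (nat_lit 858) (nat_lit 2128) (nat_lit 0) (XT.nd (nat_lit 390) (nat_lit 1596) (nat_lit 0) (XT.nd (nat_lit 156) (nat_lit 0) (nat_lit 0) (XT.nd (nat_lit 78) (nat_lit 0) (nat_lit 0) (XT.lf (nat_lit 0) (nat_lit 6478731192) (nat_lit 0) (nat_lit 6478731192) (nat_lit 1748) (nat_lit 1368290711) (nat_lit 467) (nat_lit 5) (nat_lit 467) (nat_lit 3) (nat_lit 490) (nat_lit 3) (nat_lit 466) (nat_lit 466) (nat_lit 268)) (XT.lf (nat_lit 76) (nat_lit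 5382094990) (nat_lit 0) (nat_lit 21127168838) (nat_lit 1824) (nat_lit 2567884074) (nat_lit 468) (nat_lit 5) (nat_lit 467) (nat_lit 5) (nat_lit 491) (nat_lit 5) (nat_lit 467) (nat_lit 466) (nat_lit 267))) (XT.nd (nat_lit 78) (nat_lit 0) (nat_lit 76) (XT.lf (nat_lit 76) (nat_lit 27215081846) (nat_lit 0) (nat_lit 94151746) (nat_lit 1824) (nat_lit 2202569988) (nat_lit 468) (nat_lit 5) (nat_lit 467) (nat_lit 5) (nat_lit 491) (nat_lit 5) (nat_lit 468) (nat_lit 466) (nat_lit 266)) (XT.nd (nat_lit 78) (nat_lit 0) (nat_lit 76) (XT.lf (nat_lit 76) (nat_lit 19861513280) (nat_lit 0) (nat_lit 8536208167) (nat_lit 1824) (nat_lit 1556487804) (nat_lit 469) (nat_lit 5) (nat_lit 468) (nat_lit 5) (nat_lit 492) (nat_lit 5) (nat_lit 469) (nat_lit 466) (nat_lit 265)) (XT.lf (nat_lit 76) (nat_lit 12379974919) (nat_lit 0) (nat_lit 17316677858) (nat_lit 1824) (nat_lit 709679221) (nat_lit 470) (nat_lit 5) (nat_lit 469) (nat_lit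 5) (nat_lit 493) (nat_lit 5) (nat_lit 470) (nat_lit 466) (nat_lit 264))))) (XT.nd (nat_lit 234) (nat_lit 0) (nat_lit 152) (XT.nd (nat_lit 78) (nat_lit 0) (nat_lit 0) (XT.lf (nat_lit 0) (nat_lit 342304556) (nat_lit 1824) (nat_lit 26101978157) (nat_lit 1900) (nat_lit 4424077209) (nat_lit 446) (nat_lit 5) (nat_lit 470) (nat_lit 5) (nat_lit 471) (nat_lit 5) (nat_lit 471) (nat_lit 466) (nat_lit 263)) (XT.nd (nat_lit 78) (nat_lit 0) (nat_lit 76) (XT.lf (nat_lit 0) (nat_lit 1650873240) (nat_lit 1824) (nat_lit 2976131217) (nat_lit 1900) (nat_lit 26712457695) (nat_lit 446) (nat_lit 5) (nat_lit 470) (nat_lit 5) (nat_lit 471) (nat_lit 5) (nat_lit 472) (nat_lit 466) (nat_lit 262)) (XT.lf (nat_lit 0) (nat_lit 3248556055) (nat_lit 1824) (nat_lit 10820898590) (nat_lit 1900) (nat_lit 17750246276) (nat_lit 447) (nat_lit 5) (nat_lit 471) (nat_lit 5) (nat_lit 472) (nat_lit 5) (nat_lit 473) (nat_lit 466) (nat_lit 261))))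 (XT.nd (nat_lit 78) (nat_lit 0) (nat_lit 0) (XT.lf (nat_lit 0) (nat_lit 5084968935) (nat_lit 1824) (nat_lit 18803042709) (nat_lit 1900) (nat_lit 8422519812) (nat_lit 448) (nat_lit 5) (nat_lit 472) (nat_lit 5) (nat_lit 473) (nat_lit 5) (nat_lit 474) (nat_lit 466) (nat_lit 260)) (XT.nd (nat_lit 78) (nat_lit 0) (nat_lit 76) (XT.lf (nat_lit 76) (nat_lit 5879125753) (nat_lit 0) (nat_lit 1299603872) (nat_lit 1900) (nat_lit 25633312753) (nat_lit 449) (nat_lit 5) (nat_lit 448) (nat_lit 5) (nat_lit 473) (nat_lit 5) (nat_lit 475) (nat_lit 466) (nat_lit 259)) (XT.lf (nat_lit 0) (nat_lit 9602468930) (nat_lit 1824) (nat_lit 1913047545) (nat_lit 1900) (nat_lit 21807739396) (nat_lit 449) (nat_lit 5) (nat_lit 473) (nat_lit 5) (nat_lit 474) (nat_lit 5) (nat_lit 476) (nat_lit 466) (nat_lit 258)))))) (XT.nd (nat_lit 468) (nat_lit 2432) (nat_lit 0) (XT.nd (nat_lit 234) (nat_lit 0) (nat_lit 152) (XT.nd (nat_lit 78) (nat_lit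 0) (nat_lit 76) (XT.lf (nat_lit 0) (nat_lit 12338164544) (nat_lit 1824) (nat_lit 9760807569) (nat_lit 1900) (nat_lit 11746049319) (nat_lit 450) (nat_lit 5) (nat_lit 474) (nat_lit 5) (nat_lit 475) (nat_lit 5) (nat_lit 477) (nat_lit 466) (nat_lit 257)) (XT.nd (nat_lit 78) (nat_lit 0) (nat_lit 0) (XT.lf (nat_lit 0) (nat_lit 15358939802) (nat_lit 1824) (nat_lit 17742982327) (nat_lit 1900) (nat_lit 1276458184) (nat_lit 451) (nat_lit 5) (nat_lit 475) (nat_lit 5) (nat_lit 476) (nat_lit 5) (nat_lit 478) (nat_lit 466) (nat_lit 256)) (XT.lf (nat_lit 76) (nat_lit 8997804205) (nat_lit 0) (nat_lit 9741899474) (nat_lit 1900) (nat_lit 16182649489) (nat_lit 452) (nat_lit 5) (nat_lit 451) (nat_lit 5) (nat_lit 476) (nat_lit 5) (nat_lit 479) (nat_lit 466) (nat_lit 255)))) (XT.nd (nat_lit 78) (nat_lit 0) (nat_lit 76) (XT.lf (nat_lit 76) (nat_lit 1223029764) (nat_lit 0) (nat_lit 21217464664) (nat_lit 1900) (nat_lit 13037779199)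 (nat_lit 453) (nat_lit 5) (nat_lit 452) (nat_lit 5) (nat_lit 477) (nat_lit 5) (nat_lit 480) (nat_lit 466) (nat_lit 254)) (XT.nd (nat_lit 78) (nat_lit 0) (nat_lit 0) (XT.lf (nat_lit 0) (nat_lit 26508808259) (nat_lit 1824) (nat_lit 6594253336) (nat_lit 1900) (nat_lit 2942680600) (nat_lit 453) (nat_lit 5) (nat_lit 477) (nat_lit 5) (nat_lit 478) (nat_lit 5) (nat_lit 481) (nat_lit 466) (nat_lit 253)) (XT.lf (nat_lit 76) (nat_lit 22041113875) (nat_lit 0) (nat_lit 8939899231) (nat_lit 1900) (nat_lit 5643585354) (nat_lit 454) (nat_lit 5) (nat_lit 453) (nat_lit 5) (nat_lit 478) (nat_lit 5) (nat_lit 482) (nat_lit 466) (nat_lit 252))))) (XT.nd (nat_lit 61230) (nat_lit 0) (nat_lit 3724) (XT.nd (nat_lit 78) (nat_lit 1064) (nat_lit 0) (XT.lf (nat_lit 0) (nat_lit 14489409775) (nat_lit 1672) (nat_lit 21337499555) (nat_lit 1748) (nat_lit 1389121034) (nat_lit 432) (nat_lit 5) (nat_lit 454) (nat_lit 5) (nat_lit 455)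 (nat_lit 5) (nat_lit 483) (nat_lit 466) (nat_lit 251)) (XT.nd (nat_lit 78) (nat_lit 0) (nat_lit 0) (XT.lf (nat_lit 0) (nat_lit 3178013239) (nat_lit 1064) (nat_lit 31026821048) (nat_lit 76) (nat_lit 3615496935) (nat_lit 418) (nat_lit 5) (nat_lit 432) (nat_lit 5) (nat_lit 419) (nat_lit 5) (nat_lit 484) (nat_lit 466) (nat_lit 250)) (XT.lf (nat_lit 0) (nat_lit 8158161677) (nat_lit 1064) (nat_lit 1085027652) (nat_lit 76) (nat_lit 29193491100) (nat_lit 418) (nat_lit 5) (nat_lit 432) (nat_lit 5) (nat_lit 419) (nat_lit 5) (nat_lit 485) (nat_lit 466) (nat_lit 249)))) (XT.nd (nat_lit 78) (nat_lit 0) (nat_lit 0) (XT.lf (nat_lit 0) (nat_lit 6731822337) (nat_lit 0) (nat_lit 6731822337) (nat_lit 1748) (nat_lit 1289513446) (nat_lit 467) (nat_lit 5) (nat_lit 467) (nat_lit 3) (nat_lit 490) (nat_lit 3) (nat_lit 467) (nat_lit 467) (nat_lit 266)) (XT.nd (nat_lit 78) (nat_lit 0) (nat_lit 0) (XT.lf (nat_lit 76) (nat_lit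 5664519195) (nat_lit 0) (nat_lit 21868142104) (nat_lit 1824) (nat_lit 2412202922) (nat_lit 468) (nat_lit 5) (nat_lit 467) (nat_lit 5) (nat_lit 491) (nat_lit 5) (nat_lit 468) (nat_lit 467) (nat_lit 265)) (XT.lf (nat_lit 76) (nat_lit 28148972510) (nat_lit 0) (nat_lit 201013387) (nat_lit 1824) (nat_lit 2042707598) (nat_lit 468) (nat_lit 5) (nat_lit 467) (nat_lit 5) (nat_lit 491) (nat_lit 5) (nat_lit 469) (nat_lit 467) (nat_lit 264))))))) (XT.nd (nat_lit 936) (nat_lit 2128) (nat_lit 0) (XT.nd (nat_lit 468) (nat_lit 0) (nat_lit 152) (XT.nd (nat_lit 234) (nat_lit 0) (nat_lit 0) (XT.nd (nat_lit 78) (nat_lit 1672) (nat_lit 0) (XT.lf (nat_lit 76) (nat_lit 20577947877) (nat_lit 0) (nat_lit 8886856915) (nat_lit 1824) (nat_lit 1383694027) (nat_lit 469) (nat_lit 5) (nat_lit 468) (nat_lit 5) (nat_lit 492) (nat_lit 5) (nat_lit 470) (nat_lit 467) (nat_lit 263)) (XT.nd (nat_lit 78) (nat_lit 1748) (nat_lit 0) (XT.lf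 (nat_lit 76) (nat_lit 12874877303) (nat_lit 0) (nat_lit 17921765989) (nat_lit 1824) (nat_lit 517664152) (nat_lit 470) (nat_lit 5) (nat_lit 469) (nat_lit 5) (nat_lit 493) (nat_lit 5) (nat_lit 471) (nat_lit 467) (nat_lit 262)) (XT.lf (nat_lit 0) (nat_lit 557231970) (nat_lit 1824) (nat_lit 26756094320) (nat_lit 1900) (nat_lit 4476960143) (nat_lit 446) (nat_lit 5) (nat_lit 470) (nat_lit 5) (nat_lit 471) (nat_lit 5) (nat_lit 472) (nat_lit 467) (nat_lit 261)))) (XT.nd (nat_lit 78) (nat_lit 0) (nat_lit 76) (XT.lf (nat_lit 0) (nat_lit 1899096793) (nat_lit 1824) (nat_lit 2940227599) (nat_lit 1900) (nat_lit 27436317463) (nat_lit 446) (nat_lit 5) (nat_lit 470) (nat_lit 5) (nat_lit 471) (nat_lit 5) (nat_lit 473) (nat_lit 467) (nat_lit 260)) (XT.nd (nat_lit 78) (nat_lit 0) (nat_lit 76) (XT.lf (nat_lit 0) (nat_lit 3539264327) (nat_lit 1824) (nat_lit 11018007407) (nat_lit 1900) (nat_lit 18213125848) (nat_lit 447)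 (nat_lit 5) (nat_lit 471) (nat_lit 5) (nat_lit 472) (nat_lit 5) (nat_lit 474) (nat_lit 467) (nat_lit 259)) (XT.lf (nat_lit 0) (nat_lit 5425546446) (nat_lit 1824) (nat_lit 19237478491) (nat_lit 1900) (nat_lit 8613033413) (nat_lit 448) (nat_lit 5) (nat_lit 472) (nat_lit 5) (nat_lit 473) (nat_lit 5) (nat_lit 475) (nat_lit 467) (nat_lit 258))))) (XT.nd (nat_lit 234) (nat_lit 0) (nat_lit 228) (XT.nd (nat_lit 78) (nat_lit 0) (nat_lit 76) (XT.lf (nat_lit 76) (nat_lit 6183051518) (nat_lit 0) (nat_lit 1394420034) (nat_lit 1900) (nat_lit 26215236845) (nat_lit 449) (nat_lit 5) (nat_lit 448) (nat_lit 5) (nat_lit 473) (nat_lit 5) (nat_lit 476) (nat_lit 467) (nat_lit 257)) (XT.nd (nat_lit 78) (nat_lit 0) (nat_lit 76) (XT.lf (nat_lit 0) (nat_lit 10068229955) (nat_lit 1824) (nat_lit 1842662548) (nat_lit 1900) (nat_lit 22408480460) (nat_lit 449) (nat_lit 5) (nat_lit 473) (nat_lit 5) (nat_lit 474) (nat_lit 5) (nat_lit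 477) (nat_lit 467) (nat_lit 256)) (XT.lf (nat_lit 0) (nat_lit 12881328030) (nat_lit 1824) (nat_lit 9924126566) (nat_lit 1900) (nat_lit 12051431044) (nat_lit 450) (nat_lit 5) (nat_lit 474) (nat_lit 5) (nat_lit 475) (nat_lit 5) (nat_lit 478) (nat_lit 467) (nat_lit 255)))) (XT.nd (nat_lit 78) (nat_lit 0) (nat_lit 0) (XT.lf (nat_lit 0) (nat_lit 15988245553) (nat_lit 1824) (nat_lit 18144197393) (nat_lit 1900) (nat_lit 1273892721) (nat_lit 451) (nat_lit 5) (nat_lit 475) (nat_lit 5) (nat_lit 476) (nat_lit 5) (nat_lit 479) (nat_lit 467) (nat_lit 254)) (XT.nd (nat_lit 78) (nat_lit 0) (nat_lit 76) (XT.lf (nat_lit 76) (nat_lit 9396686208) (nat_lit 0) (nat_lit 10069674492) (nat_lit 1900) (nat_lit 16500349177) (nat_lit 452) (nat_lit 5) (nat_lit 451) (nat_lit 5) (nat_lit 476) (nat_lit 5) (nat_lit 480) (nat_lit 467) (nat_lit 253)) (XT.lf (nat_lit 76) (nat_lit 1390063494) (nat_lit 0) (nat_lit 21883943790) (nat_lit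 1900) (nat_lit 13265384739) (nat_lit 453) (nat_lit 5) (nat_lit 452) (nat_lit 5) (nat_lit 477) (nat_lit 5) (nat_lit 481) (nat_lit 467) (nat_lit 252)))))) (XT.nd (nat_lit 61542) (nat_lit 0) (nat_lit 2128) (XT.nd (nat_lit 234) (nat_lit 1064) (nat_lit 0) (XT.nd (nat_lit 78) (nat_lit 1596) (nat_lit 0) (XT.lf (nat_lit 0) (nat_lit 27459512832) (nat_lit 1824) (nat_lit 6662209928) (nat_lit 1900) (nat_lit 3002259738) (nat_lit 453) (nat_lit 5) (nat_lit 477) (nat_lit 5) (nat_lit 478) (nat_lit 5) (nat_lit 482) (nat_lit 467) (nat_lit 251)) (XT.nd (nat_lit 78) (nat_lit 1596) (nat_lit 0) (XT.lf (nat_lit 76) (nat_lit 22830111297) (nat_lit 0) (nat_lit 9232074668) (nat_lit 1900) (nat_lit 5658093117) (nat_lit 454) (nat_lit 5) (nat_lit 453) (nat_lit 5) (nat_lit 478) (nat_lit 5) (nat_lit 483) (nat_lit 467) (nat_lit 250)) (XT.lf (nat_lit 0) (nat_lit 15052944143) (nat_lit 1672) (nat_lit 21996780693) (nat_lit 1748) (nat_lit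 1279804447) (nat_lit 432) (nat_lit 5) (nat_lit 454) (nat_lit 5) (nat_lit 455) (nat_lit 5) (nat_lit 484) (nat_lit 467) (nat_lit 249)))) (XT.nd (nat_lit 61152) (nat_lit 0) (nat_lit 3724) (XT.lf (nat_lit 0) (nat_lit 3418750387) (nat_lit 1064) (nat_lit 31825855085) (nat_lit 76) (nat_lit 3707406976) (nat_lit 418) (nat_lit 5) (nat_lit 432) (nat_lit 5) (nat_lit 419) (nat_lit 5) (nat_lit 485) (nat_lit 467) (nat_lit 248)) (XT.nd (nat_lit 78) (nat_lit 0) (nat_lit 0) (XT.lf (nat_lit 0) (nat_lit 6989134920) (nat_lit 0) (nat_lit 6989134920) (nat_lit 1748) (nat_lit 1215251364) (nat_lit 467) (nat_lit 5) (nat_lit 467) (nat_lit 3) (nat_lit 490) (nat_lit 3) (nat_lit 468) (nat_lit 468) (nat_lit 264)) (XT.lf (nat_lit 76) (nat_lit 5948472449) (nat_lit 0) (nat_lit 22625193249) (nat_lit 1824) (nat_lit 2265210282) (nat_lit 468) (nat_lit 5) (nat_lit 467) (nat_lit 5) (nat_lit 491) (nat_lit 5) (nat_lit 469) (nat_lit 468) (nat_lit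 263))))) (XT.nd (nat_lit 234) (nat_lit 1596) (nat_lit 0) (XT.nd (nat_lit 78) (nat_lit 0) (nat_lit 76) (XT.lf (nat_lit 76) (nat_lit 29104138460) (nat_lit 0) (nat_lit 305108722) (nat_lit 1824) (nat_lit 1891019188) (nat_lit 468) (nat_lit 5) (nat_lit 467) (nat_lit 5) (nat_lit 491) (nat_lit 5) (nat_lit 470) (nat_lit 468) (nat_lit 262)) (XT.nd (nat_lit 78) (nat_lit 0) (nat_lit 76) (XT.lf (nat_lit 76) (nat_lit 21308953198) (nat_lit 0) (nat_lit 9242596850) (nat_lit 1824) (nat_lit 1218315969) (nat_lit 469) (nat_lit 5) (nat_lit 468) (nat_lit 5) (nat_lit 492) (nat_lit 5) (nat_lit 471) (nat_lit 468) (nat_lit 261)) (XT.lf (nat_lit 76) (nat_lit 13377537173) (nat_lit 0) (nat_lit 18540093674) (nat_lit 1824) (nat_lit 332133237) (nat_lit 470) (nat_lit 5) (nat_lit 469) (nat_lit 5) (nat_lit 493) (nat_lit 5) (nat_lit 472) (nat_lit 468) (nat_lit 260)))) (XT.nd (nat_lit 78) (nat_lit 0) (nat_lit 0) (XT.lf (nat_lit 0) (nat_lit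 766858984) (nat_lit 1824) (nat_lit 27437235834) (nat_lit 1900) (nat_lit 4536012673) (nat_lit 446) (nat_lit 5) (nat_lit 470) (nat_lit 5) (nat_lit 471) (nat_lit 5) (nat_lit 473) (nat_lit 468) (nat_lit 259)) (XT.nd (nat_lit 78) (nat_lit 0) (nat_lit 76) (XT.lf (nat_lit 0) (nat_lit 2143361012) (nat_lit 1824) (nat_lit 2910433150) (nat_lit 1900) (nat_lit 28186342642) (nat_lit 446) (nat_lit 5) (nat_lit 470) (nat_lit 5) (nat_lit 471) (nat_lit 5) (nat_lit 474) (nat_lit 468) (nat_lit 258)) (XT.lf (nat_lit 0) (nat_lit 3827600416) (nat_lit 1824) (nat_lit 11228349551) (nat_lit 1900) (nat_lit 18693888729) (nat_lit 447) (nat_lit 5) (nat_lit 471) (nat_lit 5) (nat_lit 472) (nat_lit 5) (nat_lit 475) (nat_lit 468) (nat_lit 257))))))))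
noncomputable def xc126 : XT := (XT.nd (nat_lit 63024) (nat_lit 76) (nat_lit 0) (XT.nd (nat_lit 62088) (nat_lit 152) (nat_lit 0) (XT.nd (nat_lit 390) (nat_lit 0) (nat_lit 228) (XT.nd (nat_lit 156) (nat_lit 0) (nat_lit 76) (XT.nd (nat_lit 78) (nat_lit 0) (nat_lit 0) (XT.lf (nat_lit 0) (nat_lit 5765547681) (nat_lit 1824) (nat_lit 19692390103) (nat_lit 1900) (nat_lit 8812830775) (nat_lit 448) (nat_lit 5) (nat_lit 472) (nat_lit 5) (nat_lit 473) (nat_lit 5) (nat_lit 476) (nat_lit 468) (nat_lit 256)) (XT.lf (nat_lit 76) (nat_lit 6488773050) (nat_lit 0) (nat_lit 1488875924) (nat_lit 1900) (nat_lit 26825357547) (nat_lit 449) (nat_lit 5) (nat_lit 448) (nat_lit 5) (nat_lit 473) (nat_lit 5) (nat_lit 477) (nat_lit 468) (nat_lit 255))) (XT.nd (nat_lit 78) (nat_lit 0) (nat_lit 76) (XT.lf (nat_lit 0) (nat_lit 10537763853) (nat_lit 1824) (nat_lit 1777500890) (nat_lit 1900) (nat_lit 23030314365) (nat_lit 449) (nat_lit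 5) (nat_lit 473) (nat_lit 5) (nat_lit 474) (nat_lit 5) (nat_lit 478) (nat_lit 468) (nat_lit 254)) (XT.nd (nat_lit 78) (nat_lit 0) (nat_lit 76) (XT.lf (nat_lit 0) (nat_lit 13430854449) (nat_lit 1824) (nat_lit 10099779263) (nat_lit 1900) (nat_lit 12368672200) (nat_lit 450) (nat_lit 5) (nat_lit 474) (nat_lit 5) (nat_lit 475) (nat_lit 5) (nat_lit 479) (nat_lit 468) (nat_lit 253)) (XT.lf (nat_lit 0) (nat_lit 16626755731) (nat_lit 1824) (nat_lit 18564973118) (nat_lit 1900) (nat_lit 1273595780) (nat_lit 451) (nat_lit 5) (nat_lit 475) (nat_lit 5) (nat_lit 476) (nat_lit 5) (nat_lit 480) (nat_lit 468) (nat_lit 252))))) (XT.nd (nat_lit 234) (nat_lit 0) (nat_lit 152) (XT.nd (nat_lit 78) (nat_lit 0) (nat_lit 76) (XT.lf (nat_lit 76) (nat_lit 9800132536) (nat_lit 0) (nat_lit 10405243880) (nat_lit 1900) (nat_lit 16837211103) (nat_lit 452) (nat_lit 5) (nat_lit 451) (nat_lit 5) (nat_lit 476) (nat_lit 5) (nat_lit 481)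 (nat_lit 468) (nat_lit 251)) (XT.nd (nat_lit 78) (nat_lit 0) (nat_lit 76) (XT.lf (nat_lit 76) (nat_lit 1554626024) (nat_lit 0) (nat_lit 22568697740) (nat_lit 1900) (nat_lit 13509205612) (nat_lit 453) (nat_lit 5) (nat_lit 452) (nat_lit 5) (nat_lit 477) (nat_lit 5) (nat_lit 482) (nat_lit 468) (nat_lit 250)) (XT.lf (nat_lit 0) (nat_lit 28429815632) (nat_lit 1824) (nat_lit 6739660344) (nat_lit 1900) (nat_lit 3065273821) (nat_lit 453) (nat_lit 5) (nat_lit 477) (nat_lit 5) (nat_lit 478) (nat_lit 5) (nat_lit 483) (nat_lit 468) (nat_lit 249)))) (XT.nd (nat_lit 61308) (nat_lit 0) (nat_lit 1064) (XT.lf (nat_lit 76) (nat_lit 23635444464) (nat_lit 0) (nat_lit 9531638907) (nat_lit 1900) (nat_lit 5681922255) (nat_lit 454) (nat_lit 5) (nat_lit 453) (nat_lit 5) (nat_lit 478) (nat_lit 5) (nat_lit 484) (nat_lit 468) (nat_lit 248)) (XT.nd (nat_lit 78) (nat_lit 0) (nat_lit 0) (XT.lf (nat_lit 0) (nat_lit 7250989110) (nat_lit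 0) (nat_lit 7250989110) (nat_lit 1748) (nat_lit 1145245068) (nat_lit 467) (nat_lit 5) (nat_lit 467) (nat_lit 3) (nat_lit 490) (nat_lit 3) (nat_lit 469) (nat_lit 469) (nat_lit 262)) (XT.lf (nat_lit 76) (nat_lit 6234399220) (nat_lit 0) (nat_lit 23399157720) (nat_lit 1824) (nat_lit 2126399952) (nat_lit 468) (nat_lit 5) (nat_lit 467) (nat_lit 5) (nat_lit 491) (nat_lit 5) (nat_lit 470) (nat_lit 469) (nat_lit 261)))))) (XT.nd (nat_lit 468) (nat_lit 0) (nat_lit 152) (XT.nd (nat_lit 234) (nat_lit 1596) (nat_lit 0) (XT.nd (nat_lit 78) (nat_lit 0) (nat_lit 76) (XT.lf (nat_lit 76) (nat_lit 30081604941) (nat_lit 0) (nat_lit 406697589) (nat_lit 1824) (nat_lit 1747005453) (nat_lit 468) (nat_lit 5) (nat_lit 467) (nat_lit 5) (nat_lit 491) (nat_lit 5) (nat_lit 471) (nat_lit 469) (nat_lit 260)) (XT.nd (nat_lit 78) (nat_lit 0) (nat_lit 76) (XT.lf (nat_lit 76) (nat_lit 22055363735) (nat_lit 0) (nat_lit 9603892315) (nat_lit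 1824) (nat_lit 1059852837) (nat_lit 469) (nat_lit 5) (nat_lit 468) (nat_lit 5) (nat_lit 492) (nat_lit 5) (nat_lit 472) (nat_lit 469) (nat_lit 259)) (XT.lf (nat_lit 76) (nat_lit 13888594225) (nat_lit 0) (nat_lit 19172340132) (nat_lit 1824) (nat_lit 152578109) (nat_lit 470) (nat_lit 5) (nat_lit 469) (nat_lit 5) (nat_lit 493) (nat_lit 5) (nat_lit 473) (nat_lit 469) (nat_lit 258)))) (XT.nd (nat_lit 78) (nat_lit 0) (nat_lit 0) (XT.lf (nat_lit 0) (nat_lit 971700982) (nat_lit 1824) (nat_lit 28145788562) (nat_lit 1900) (nat_lit 4601156797) (nat_lit 446) (nat_lit 5) (nat_lit 470) (nat_lit 5) (nat_lit 471) (nat_lit 5) (nat_lit 474) (nat_lit 469) (nat_lit 257)) (XT.nd (nat_lit 78) (nat_lit 0) (nat_lit 76) (XT.lf (nat_lit 0) (nat_lit 2384201870) (nat_lit 1824) (nat_lit 2886518623) (nat_lit 1900) (nat_lit 28963062770) (nat_lit 446) (nat_lit 5) (nat_lit 470) (nat_lit 5) (nat_lit 471) (nat_lit 5) (nat_lit 475) (nat_lit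 469) (nat_lit 256)) (XT.lf (nat_lit 0) (nat_lit 4114129964) (nat_lit 1824) (nat_lit 11451901821) (nat_lit 1900) (nat_lit 19192841978) (nat_lit 447) (nat_lit 5) (nat_lit 471) (nat_lit 5) (nat_lit 472) (nat_lit 5) (nat_lit 476) (nat_lit 469) (nat_lit 255))))) (XT.nd (nat_lit 234) (nat_lit 0) (nat_lit 152) (XT.nd (nat_lit 78) (nat_lit 0) (nat_lit 0) (XT.lf (nat_lit 0) (nat_lit 6105574948) (nat_lit 1824) (nat_lit 20167964575) (nat_lit 1900) (nat_lit 9021985573) (nat_lit 448) (nat_lit 5) (nat_lit 472) (nat_lit 5) (nat_lit 473) (nat_lit 5) (nat_lit 477) (nat_lit 469) (nat_lit 254)) (XT.nd (nat_lit 78) (nat_lit 0) (nat_lit 76) (XT.lf (nat_lit 76) (nat_lit 6796764535) (nat_lit 0) (nat_lit 1583144697) (nat_lit 1900) (nat_lit 27463904301) (nat_lit 449) (nat_lit 5) (nat_lit 448) (nat_lit 5) (nat_lit 473) (nat_lit 5) (nat_lit 478) (nat_lit 469) (nat_lit 253)) (XT.lf (nat_lit 0) (nat_lit 11011769330) (nat_lit 1824)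 (nat_lit 1717298219) (nat_lit 1900) (nat_lit 23673697630) (nat_lit 449) (nat_lit 5) (nat_lit 473) (nat_lit 5) (nat_lit 474) (nat_lit 5) (nat_lit 479) (nat_lit 469) (nat_lit 252)))) (XT.nd (nat_lit 78) (nat_lit 0) (nat_lit 76) (XT.lf (nat_lit 0) (nat_lit 13987504823) (nat_lit 1824) (nat_lit 10287708921) (nat_lit 1900) (nat_lit 12697973693) (nat_lit 450) (nat_lit 5) (nat_lit 474) (nat_lit 5) (nat_lit 475) (nat_lit 5) (nat_lit 480) (nat_lit 469) (nat_lit 251)) (XT.nd (nat_lit 78) (nat_lit 0) (nat_lit 0) (XT.lf (nat_lit 0) (nat_lit 17275301839) (nat_lit 1824) (nat_lit 19005464402) (nat_lit 1900) (nat_lit 1275500776) (nat_lit 451) (nat_lit 5) (nat_lit 475) (nat_lit 5) (nat_lit 476) (nat_lit 5) (nat_lit 481) (nat_lit 469) (nat_lit 250)) (XT.lf (nat_lit 76) (nat_lit 10208705030) (nat_lit 0) (nat_lit 10748958509) (nat_lit 1900) (nat_lit 17193257260) (nat_lit 452) (nat_lit 5) (nat_lit 451) (nat_lit 5) (nat_lit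 476) (nat_lit 5) (nat_lit 482) (nat_lit 469) (nat_lit 249))))))) (XT.nd (nat_lit 62166) (nat_lit 0) (nat_lit 0) (XT.nd (nat_lit 61698) (nat_lit 532) (nat_lit 0) (XT.nd (nat_lit 61464) (nat_lit 0) (nat_lit 1140) (XT.nd (nat_lit 78) (nat_lit 0) (nat_lit 76) (XT.lf (nat_lit 76) (nat_lit 1717072728) (nat_lit 0) (nat_lit 23272373467) (nat_lit 1900) (nat_lit 13769189416) (nat_lit 453) (nat_lit 5) (nat_lit 452) (nat_lit 5) (nat_lit 477) (nat_lit 5) (nat_lit 483) (nat_lit 469) (nat_lit 248)) (XT.lf (nat_lit 0) (nat_lit 29420816817) (nat_lit 1824) (nat_lit 6826461446) (nat_lit 1900) (nat_lit 3131731320) (nat_lit 453) (nat_lit 5) (nat_lit 477) (nat_lit 5) (nat_lit 478) (nat_lit 5) (nat_lit 484) (nat_lit 469) (nat_lit 247))) (XT.nd (nat_lit 78) (nat_lit 0) (nat_lit 0) (XT.lf (nat_lit 0) (nat_lit 7517703571) (nat_lit 0) (nat_lit 7517703571) (nat_lit 1748) (nat_lit 1079250042) (nat_lit 467) (nat_lit 5) (nat_lit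 467) (nat_lit 3) (nat_lit 490) (nat_lit 3) (nat_lit 470) (nat_lit 470) (nat_lit 260)) (XT.nd (nat_lit 78) (nat_lit 0) (nat_lit 0) (XT.lf (nat_lit 76) (nat_lit 6522734427) (nat_lit 0) (nat_lit 24190875758) (nat_lit 1824) (nat_lit 1995294562) (nat_lit 468) (nat_lit 5) (nat_lit 467) (nat_lit 5) (nat_lit 491) (nat_lit 5) (nat_lit 471) (nat_lit 470) (nat_lit 259)) (XT.lf (nat_lit 76) (nat_lit 31082405740) (nat_lit 0) (nat_lit 506027940) (nat_lit 1824) (nat_lit 1610194852) (nat_lit 468) (nat_lit 5) (nat_lit 467) (nat_lit 5) (nat_lit 491) (nat_lit 5) (nat_lit 472) (nat_lit 470) (nat_lit 258))))) (XT.nd (nat_lit 234) (nat_lit 0) (nat_lit 76) (XT.nd (nat_lit 78) (nat_lit 1748) (nat_lit 0) (XT.lf (nat_lit 76) (nat_lit 22818016202) (nat_lit 0) (nat_lit 9971203692) (nat_lit 1824) (nat_lit 907830333) (nat_lit 469) (nat_lit 5) (nat_lit 468) (nat_lit 5) (nat_lit 492) (nat_lit 5) (nat_lit 473) (nat_lit 470) (nat_lit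 257)) (XT.nd (nat_lit 78) (nat_lit 0) (nat_lit 76) (XT.lf (nat_lit 0) (nat_lit 21202726) (nat_lit 1824) (nat_lit 19797843759) (nat_lit 1900) (nat_lit 14387338975) (nat_lit 445) (nat_lit 5) (nat_lit 469) (nat_lit 5) (nat_lit 470) (nat_lit 5) (nat_lit 474) (nat_lit 470) (nat_lit 256)) (XT.lf (nat_lit 0) (nat_lit 1172250096) (nat_lit 1824) (nat_lit 28882174334) (nat_lit 1900) (nat_lit 4672327275) (nat_lit 446) (nat_lit 5) (nat_lit 470) (nat_lit 5) (nat_lit 471) (nat_lit 5) (nat_lit 475) (nat_lit 470) (nat_lit 255)))) (XT.nd (nat_lit 78) (nat_lit 0) (nat_lit 76) (XT.lf (nat_lit 0) (nat_lit 2622133834) (nat_lit 1824) (nat_lit 2868271575) (nat_lit 1900) (nat_lit 29767037929) (nat_lit 446) (nat_lit 5) (nat_lit 470) (nat_lit 5) (nat_lit 471) (nat_lit 5) (nat_lit 476) (nat_lit 470) (nat_lit 254)) (XT.nd (nat_lit 78) (nat_lit 0) (nat_lit 76) (XT.lf (nat_lit 0) (nat_lit 4399399028) (nat_lit 1824) (nat_lit 11688664440)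 (nat_lit 1900) (nat_lit 19710315038) (nat_lit 447) (nat_lit 5) (nat_lit 471) (nat_lit 5) (nat_lit 472) (nat_lit 5) (nat_lit 477) (nat_lit 470) (nat_lit 253)) (XT.lf (nat_lit 0) (nat_lit 6446213058) (nat_lit 1824) (nat_lit 20664419073) (nat_lit 1900) (nat_lit 9240585449) (nat_lit 448) (nat_lit 5) (nat_lit 472) (nat_lit 5) (nat_lit 473) (nat_lit 5) (nat_lit 478) (nat_lit 470) (nat_lit 252)))))) (XT.nd (nat_lit 61932) (nat_lit 228) (nat_lit 0) (XT.nd (nat_lit 234) (nat_lit 0) (nat_lit 228) (XT.nd (nat_lit 78) (nat_lit 0) (nat_lit 76) (XT.lf (nat_lit 76) (nat_lit 7107490256) (nat_lit 0) (nat_lit 1677394148) (nat_lit 1900) (nat_lit 28131148820) (nat_lit 449) (nat_lit 5) (nat_lit 448) (nat_lit 5) (nat_lit 473) (nat_lit 5) (nat_lit 479) (nat_lit 470) (nat_lit 251)) (XT.nd (nat_lit 78) (nat_lit 0) (nat_lit 76) (XT.lf (nat_lit 0) (nat_lit 11490932439) (nat_lit 1824) (nat_lit 1661806422) (nat_lit 1900) (nat_lit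 24339110590) (nat_lit 449) (nat_lit 5) (nat_lit 473) (nat_lit 5) (nat_lit 474) (nat_lit 5) (nat_lit 480) (nat_lit 470) (nat_lit 250)) (XT.lf (nat_lit 0) (nat_lit 14552030280) (nat_lit 1824) (nat_lit 10487881597) (nat_lit 1900) (nat_lit 13039551350) (nat_lit 450) (nat_lit 5) (nat_lit 474) (nat_lit 5) (nat_lit 475) (nat_lit 5) (nat_lit 481) (nat_lit 470) (nat_lit 249)))) (XT.nd (nat_lit 78) (nat_lit 0) (nat_lit 0) (XT.lf (nat_lit 0) (nat_lit 17934708445) (nat_lit 1824) (nat_lit 19465855585) (nat_lit 1900) (nat_lit 1279546856) (nat_lit 451) (nat_lit 5) (nat_lit 475) (nat_lit 5) (nat_lit 476) (nat_lit 5) (nat_lit 482) (nat_lit 470) (nat_lit 248)) (XT.nd (nat_lit 61542) (nat_lit 0) (nat_lit 1216) (XT.lf (nat_lit 76) (nat_lit 10622957998) (nat_lit 0) (nat_lit 11101173059) (nat_lit 1900) (nat_lit 17568542040) (nat_lit 452) (nat_lit 5) (nat_lit 451) (nat_lit 5) (nat_lit 476) (nat_lit 5) (nat_lit 483) (nat_lit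 470) (nat_lit 247)) (XT.lf (nat_lit 0) (nat_lit 7789596059) (nat_lit 0) (nat_lit 7789596059) (nat_lit 1748) (nat_lit 1017035803) (nat_lit 467) (nat_lit 5) (nat_lit 467) (nat_lit 3) (nat_lit 490) (nat_lit 3) (nat_lit 471) (nat_lit 471) (nat_lit 258))))) (XT.nd (nat_lit 234) (nat_lit 1672) (nat_lit 0) (XT.nd (nat_lit 78) (nat_lit 0) (nat_lit 0) (XT.lf (nat_lit 76) (nat_lit 6813904470) (nat_lit 0) (nat_lit 25001193704) (nat_lit 1824) (nat_lit 1871443918) (nat_lit 468) (nat_lit 5) (nat_lit 467) (nat_lit 5) (nat_lit 491) (nat_lit 5) (nat_lit 472) (nat_lit 471) (nat_lit 257)) (XT.nd (nat_lit 78) (nat_lit 0) (nat_lit 76) (XT.lf (nat_lit 76) (nat_lit 32107584719) (nat_lit 0) (nat_lit 603336616) (nat_lit 1824) (nat_lit 1480141978) (nat_lit 468) (nat_lit 5) (nat_lit 467) (nat_lit 5) (nat_lit 491) (nat_lit 5) (nat_lit 473) (nat_lit 471) (nat_lit 256)) (XT.lf (nat_lit 76) (nat_lit 23597750915) (nat_lit 0) (nat_lit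 10344988316) (nat_lit 1824) (nat_lit 761799064) (nat_lit 469) (nat_lit 5) (nat_lit 468) (nat_lit 5) (nat_lit 492) (nat_lit 5) (nat_lit 474) (nat_lit 471) (nat_lit 255)))) (XT.nd (nat_lit 78) (nat_lit 0) (nat_lit 76) (XT.lf (nat_lit 0) (nat_lit 188015693) (nat_lit 1824) (nat_lit 20292050849) (nat_lit 1900) (nat_lit 14749161642) (nat_lit 445) (nat_lit 5) (nat_lit 469) (nat_lit 5) (nat_lit 470) (nat_lit 5) (nat_lit 475) (nat_lit 471) (nat_lit 254)) (XT.nd (nat_lit 78) (nat_lit 0) (nat_lit 0) (XT.lf (nat_lit 0) (nat_lit 1368976733) (nat_lit 1824) (nat_lit 29646850626) (nat_lit 1900) (nat_lit 4749471149) (nat_lit 446) (nat_lit 5) (nat_lit 470) (nat_lit 5) (nat_lit 471) (nat_lit 5) (nat_lit 476) (nat_lit 471) (nat_lit 253)) (XT.lf (nat_lit 0) (nat_lit 2857651377) (nat_lit 1824) (nat_lit 2855495511) (nat_lit 1900) (nat_lit 30598858829) (nat_lit 446) (nat_lit 5) (nat_lit 470) (nat_lit 5) (nat_lit 471) (nat_lit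 5) (nat_lit 477) (nat_lit 471) (nat_lit 252))))))))
noncomputable def xc127 : XT := (XT.nd (nat_lit 125034) (nat_lit 0) (nat_lit 0) (XT.nd (nat_lit 62400) (nat_lit 0) (nat_lit 0) (XT.nd (nat_lit 390) (nat_lit 152) (nat_lit 0) (XT.nd (nat_lit 156) (nat_lit 0) (nat_lit 76) (XT.nd (nat_lit 78) (nat_lit 0) (nat_lit 76) (XT.lf (nat_lit 0) (nat_lit 4683935590) (nat_lit 1824) (nat_lit 11938660375) (nat_lit 1900) (nat_lit 20246659648) (nat_lit 447) (nat_lit 5) (nat_lit 471) (nat_lit 5) (nat_lit 472) (nat_lit 5) (nat_lit 478) (nat_lit 471) (nat_lit 251)) (XT.lf (nat_lit 0) (nat_lit 6788030839) (nat_lit 1824) (nat_lit 21182000397) (nat_lit 1900) (nat_lit 9468731761) (nat_lit 448) (nat_lit 5) (nat_lit 472) (nat_lit 5) (nat_lit 473) (nat_lit 5) (nat_lit 479) (nat_lit 471) (nat_lit 250))) (XT.nd (nat_lit 78) (nat_lit 0) (nat_lit 76) (XT.lf (nat_lit 76) (nat_lit 7421405685) (nat_lit 0) (nat_lit 1771787148) (nat_lit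 1900) (nat_lit 28827404323) (nat_lit 449) (nat_lit 5) (nat_lit 448) (nat_lit 5) (nat_lit 473) (nat_lit 5) (nat_lit 480) (nat_lit 471) (nat_lit 249)) (XT.nd (nat_lit 78) (nat_lit 0) (nat_lit 76) (XT.lf (nat_lit 0) (nat_lit 11975928137) (nat_lit 1824) (nat_lit 1610792726) (nat_lit 1900) (nat_lit 25027057525) (nat_lit 449) (nat_lit 5) (nat_lit 473) (nat_lit 5) (nat_lit 474) (nat_lit 5) (nat_lit 481) (nat_lit 471) (nat_lit 248)) (XT.lf (nat_lit 0) (nat_lit 15125173630) (nat_lit 1824) (nat_lit 10700285421) (nat_lit 1900) (nat_lit 13393635850) (nat_lit 450) (nat_lit 5) (nat_lit 474) (nat_lit 5) (nat_lit 475) (nat_lit 5) (nat_lit 482) (nat_lit 471) (nat_lit 247))))) (XT.nd (nat_lit 61776) (nat_lit 456) (nat_lit 0) (XT.nd (nat_lit 61620) (nat_lit 0) (nat_lit 1216) (XT.lf (nat_lit 0) (nat_lit 18605794802) (nat_lit 1824) (nat_lit 19946359908) (nat_lit 1900) (nat_lit 1285678625) (nat_lit 451) (nat_lit 5) (nat_lit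 475) (nat_lit 5) (nat_lit 476) (nat_lit 5) (nat_lit 483) (nat_lit 471) (nat_lit 246)) (XT.nd (nat_lit 78) (nat_lit 0) (nat_lit 0) (XT.lf (nat_lit 0) (nat_lit 8066983988) (nat_lit 0) (nat_lit 8066983988) (nat_lit 1748) (nat_lit 958385089) (nat_lit 467) (nat_lit 5) (nat_lit 467) (nat_lit 3) (nat_lit 490) (nat_lit 3) (nat_lit 472) (nat_lit 472) (nat_lit 256)) (XT.lf (nat_lit 76) (nat_lit 7108328212) (nat_lit 0) (nat_lit 25830965280) (nat_lit 1824) (nat_lit 1754423431) (nat_lit 468) (nat_lit 5) (nat_lit 467) (nat_lit 5) (nat_lit 491) (nat_lit 5) (nat_lit 473) (nat_lit 472) (nat_lit 255)))) (XT.nd (nat_lit 78) (nat_lit 1672) (nat_lit 0) (XT.lf (nat_lit 76) (nat_lit 33158197317) (nat_lit 0) (nat_lit 698850079) (nat_lit 1824) (nat_lit 1356426038) (nat_lit 468) (nat_lit 5) (nat_lit 467) (nat_lit 5) (nat_lit 491) (nat_lit 5) (nat_lit 474) (nat_lit 472) (nat_lit 254)) (XT.nd (nat_lit 78) (nat_lit 1748) (nat_lit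 0) (XT.lf (nat_lit 76) (nat_lit 24395413131) (nat_lit 0) (nat_lit 10725701348) (nat_lit 1824) (nat_lit 621333044) (nat_lit 469) (nat_lit 5) (nat_lit 468) (nat_lit 5) (nat_lit 492) (nat_lit 5) (nat_lit 475) (nat_lit 472) (nat_lit 253)) (XT.lf (nat_lit 0) (nat_lit 350293815) (nat_lit 1824) (nat_lit 20806808959) (nat_lit 1900) (nat_lit 15125845650) (nat_lit 445) (nat_lit 5) (nat_lit 469) (nat_lit 5) (nat_lit 470) (nat_lit 5) (nat_lit 476) (nat_lit 472) (nat_lit 252)))))) (XT.nd (nat_lit 62166) (nat_lit 76) (nat_lit 0) (XT.nd (nat_lit 234) (nat_lit 0) (nat_lit 152) (XT.nd (nat_lit 78) (nat_lit 0) (nat_lit 0) (XT.lf (nat_lit 0) (nat_lit 1562331014) (nat_lit 1824) (nat_lit 30440310308) (nat_lit 1900) (nat_lit 4832547285) (nat_lit 446) (nat_lit 5) (nat_lit 470) (nat_lit 5) (nat_lit 471) (nat_lit 5) (nat_lit 477) (nat_lit 472) (nat_lit 251)) (XT.nd (nat_lit 78) (nat_lit 0) (nat_lit 76) (XT.lf (nat_lit 0) (nat_lit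 3091230413) (nat_lit 1824) (nat_lit 2848009078) (nat_lit 1900) (nat_lit 31459146926) (nat_lit 446) (nat_lit 5) (nat_lit 470) (nat_lit 5) (nat_lit 471) (nat_lit 5) (nat_lit 478) (nat_lit 472) (nat_lit 250)) (XT.lf (nat_lit 0) (nat_lit 4968250990) (nat_lit 1824) (nat_lit 12201934714) (nat_lit 1900) (nat_lit 20802249803) (nat_lit 447) (nat_lit 5) (nat_lit 471) (nat_lit 5) (nat_lit 472) (nat_lit 5) (nat_lit 479) (nat_lit 472) (nat_lit 249)))) (XT.nd (nat_lit 78) (nat_lit 0) (nat_lit 0) (XT.lf (nat_lit 0) (nat_lit 7131582585) (nat_lit 1824) (nat_lit 21720984541) (nat_lit 1900) (nat_lit 9706539353) (nat_lit 448) (nat_lit 5) (nat_lit 472) (nat_lit 5) (nat_lit 473) (nat_lit 5) (nat_lit 480) (nat_lit 472) (nat_lit 248)) (XT.nd (nat_lit 78) (nat_lit 0) (nat_lit 76) (XT.lf (nat_lit 76) (nat_lit 7738958517) (nat_lit 0) (nat_lit 1866482072) (nat_lit 1900) (nat_lit 29553024868) (nat_lit 449) (nat_lit 5) (nat_lit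 448) (nat_lit 5) (nat_lit 473) (nat_lit 5) (nat_lit 481) (nat_lit 472) (nat_lit 247)) (XT.lf (nat_lit 0) (nat_lit 12467421765) (nat_lit 1824) (nat_lit 1564038849) (nat_lit 1900) (nat_lit 25738066835) (nat_lit 449) (nat_lit 5) (nat_lit 473) (nat_lit 5) (nat_lit 474) (nat_lit 5) (nat_lit 482) (nat_lit 472) (nat_lit 246))))) (XT.nd (nat_lit 234) (nat_lit 1672) (nat_lit 0) (XT.nd (nat_lit 78) (nat_lit 0) (nat_lit 0) (XT.lf (nat_lit 0) (nat_lit 8350184994) (nat_lit 0) (nat_lit 8350184994) (nat_lit 1748) (nat_lit 903093106) (nat_lit 467) (nat_lit 5) (nat_lit 467) (nat_lit 3) (nat_lit 490) (nat_lit 3) (nat_lit 473) (nat_lit 473) (nat_lit 254)) (XT.nd (nat_lit 78) (nat_lit 0) (nat_lit 0) (XT.lf (nat_lit 76) (nat_lit 7406417919) (nat_lit 0) (nat_lit 26681052845) (nat_lit 1824) (nat_lit 1643832639) (nat_lit 468) (nat_lit 5) (nat_lit 467) (nat_lit 5) (nat_lit 491) (nat_lit 5) (nat_lit 474) (nat_lit 473) (nat_lit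 253)) (XT.lf (nat_lit 76) (nat_lit 34235312033) (nat_lit 0) (nat_lit 792785102) (nat_lit 1824) (nat_lit 1238649408) (nat_lit 468) (nat_lit 5) (nat_lit 467) (nat_lit 5) (nat_lit 491) (nat_lit 5) (nat_lit 475) (nat_lit 473) (nat_lit 252)))) (XT.nd (nat_lit 78) (nat_lit 1748) (nat_lit 0) (XT.lf (nat_lit 76) (nat_lit 25211854363) (nat_lit 0) (nat_lit 11113796626) (nat_lit 1824) (nat_lit 486028280) (nat_lit 469) (nat_lit 5) (nat_lit 468) (nat_lit 5) (nat_lit 492) (nat_lit 5) (nat_lit 476) (nat_lit 473) (nat_lit 251)) (XT.nd (nat_lit 78) (nat_lit 0) (nat_lit 76) (XT.lf (nat_lit 0) (nat_lit 508448639) (nat_lit 1824) (nat_lit 21342405993) (nat_lit 1900) (nat_lit 15517606842) (nat_lit 445) (nat_lit 5) (nat_lit 469) (nat_lit 5) (nat_lit 470) (nat_lit 5) (nat_lit 477) (nat_lit 473) (nat_lit 250)) (XT.lf (nat_lit 0) (nat_lit 1752744142) (nat_lit 1824) (nat_lit 31263081464) (nat_lit 1900) (nat_lit 4921525967) (nat_lit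 446) (nat_lit 5) (nat_lit 470) (nat_lit 5) (nat_lit 471) (nat_lit 5) (nat_lit 478) (nat_lit 473) (nat_lit 249))))))) (XT.nd (nat_lit 124644) (nat_lit 0) (nat_lit 0) (XT.nd (nat_lit 62244) (nat_lit 76) (nat_lit 0) (XT.nd (nat_lit 234) (nat_lit 0) (nat_lit 152) (XT.nd (nat_lit 78) (nat_lit 0) (nat_lit 76) (XT.lf (nat_lit 0) (nat_lit 3323329653) (nat_lit 1824) (nat_lit 2845645318) (nat_lit 1900) (nat_lit 32348554600) (nat_lit 446) (nat_lit 5) (nat_lit 470) (nat_lit 5) (nat_lit 471) (nat_lit 5) (nat_lit 479) (nat_lit 473) (nat_lit 248)) (XT.nd (nat_lit 78) (nat_lit 0) (nat_lit 76) (XT.lf (nat_lit 0) (nat_lit 5252841298) (nat_lit 1824) (nat_lit 12478554097) (nat_lit 1900) (nat_lit 21377481748) (nat_lit 447) (nat_lit 5) (nat_lit 471) (nat_lit 5) (nat_lit 472) (nat_lit 5) (nat_lit 480) (nat_lit 473) (nat_lit 247)) (XT.lf (nat_lit 0) (nat_lit 7477409430) (nat_lit 1824) (nat_lit 22281676319) (nat_lit 1900)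 (nat_lit 9954136363) (nat_lit 448) (nat_lit 5) (nat_lit 472) (nat_lit 5) (nat_lit 473) (nat_lit 5) (nat_lit 481) (nat_lit 473) (nat_lit 246)))) (XT.nd (nat_lit 61854) (nat_lit 0) (nat_lit 1444) (XT.lf (nat_lit 76) (nat_lit 8060589674) (nat_lit 0) (nat_lit 1961633203) (nat_lit 1900) (nat_lit 30308404769) (nat_lit 449) (nat_lit 5) (nat_lit 448) (nat_lit 5) (nat_lit 473) (nat_lit 5) (nat_lit 482) (nat_lit 473) (nat_lit 245)) (XT.nd (nat_lit 78) (nat_lit 0) (nat_lit 0) (XT.lf (nat_lit 0) (nat_lit 8639517469) (nat_lit 0) (nat_lit 8639517469) (nat_lit 1748) (nat_lit 850966805) (nat_lit 467) (nat_lit 5) (nat_lit 467) (nat_lit 3) (nat_lit 490) (nat_lit 3) (nat_lit 474) (nat_lit 474) (nat_lit 252)) (XT.lf (nat_lit 76) (nat_lit 7708580163) (nat_lit 0) (nat_lit 27552328624) (nat_lit 1824) (nat_lit 1539293821) (nat_lit 468) (nat_lit 5) (nat_lit 467) (nat_lit 5) (nat_lit 491) (nat_lit 5) (nat_lit 475) (nat_lit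 474) (nat_lit 251))))) (XT.nd (nat_lit 234) (nat_lit 0) (nat_lit 76) (XT.nd (nat_lit 78) (nat_lit 1672) (nat_lit 0) (XT.lf (nat_lit 76) (nat_lit 35340011885) (nat_lit 0) (nat_lit 885349426) (nat_lit 1824) (nat_lit 1126436271) (nat_lit 468) (nat_lit 5) (nat_lit 467) (nat_lit 5) (nat_lit 491) (nat_lit 5) (nat_lit 476) (nat_lit 474) (nat_lit 250)) (XT.nd (nat_lit 78) (nat_lit 1748) (nat_lit 0) (XT.lf (nat_lit 76) (nat_lit 26047933660) (nat_lit 0) (nat_lit 11509727479) (nat_lit 1824) (nat_lit 355501431) (nat_lit 469) (nat_lit 5) (nat_lit 468) (nat_lit 5) (nat_lit 492) (nat_lit 5) (nat_lit 477) (nat_lit 474) (nat_lit 249)) (XT.lf (nat_lit 0) (nat_lit 662872623) (nat_lit 1824) (nat_lit 21899157356) (nat_lit 1900) (nat_lit 15924680737) (nat_lit 445) (nat_lit 5) (nat_lit 469) (nat_lit 5) (nat_lit 470) (nat_lit 5) (nat_lit 478) (nat_lit 474) (nat_lit 248)))) (XT.nd (nat_lit 78) (nat_lit 0) (nat_lit 0) (XT.lf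 (nat_lit 0) (nat_lit 1940629697) (nat_lit 1824) (nat_lit 32115727275) (nat_lit 1900) (nat_lit 5016388510) (nat_lit 446) (nat_lit 5) (nat_lit 470) (nat_lit 5) (nat_lit 471) (nat_lit 5) (nat_lit 479) (nat_lit 474) (nat_lit 247)) (XT.nd (nat_lit 78) (nat_lit 0) (nat_lit 76) (XT.lf (nat_lit 0) (nat_lit 3554391903) (nat_lit 1824) (nat_lit 2848250956) (nat_lit 1900) (nat_lit 33267765377) (nat_lit 446) (nat_lit 5) (nat_lit 470) (nat_lit 5) (nat_lit 471) (nat_lit 5) (nat_lit 480) (nat_lit 474) (nat_lit 246)) (XT.lf (nat_lit 0) (nat_lit 5538188604) (nat_lit 1824) (nat_lit 12768606206) (nat_lit 1900) (nat_lit 21972774012) (nat_lit 447) (nat_lit 5) (nat_lit 471) (nat_lit 5) (nat_lit 472) (nat_lit 5) (nat_lit 481) (nat_lit 474) (nat_lit 245)))))) (XT.nd (nat_lit 62556) (nat_lit 0) (nat_lit 1672) (XT.nd (nat_lit 234) (nat_lit 1672) (nat_lit 0) (XT.nd (nat_lit 78) (nat_lit 0) (nat_lit 0) (XT.lf (nat_lit 0) (nat_lit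 8935301095) (nat_lit 0) (nat_lit 8935301095) (nat_lit 1748) (nat_lit 801824216) (nat_lit 467) (nat_lit 5) (nat_lit 467) (nat_lit 3) (nat_lit 490) (nat_lit 3) (nat_lit 475) (nat_lit 475) (nat_lit 250)) (XT.nd (nat_lit 78) (nat_lit 0) (nat_lit 0) (XT.lf (nat_lit 76) (nat_lit 8015216685) (nat_lit 0) (nat_lit 28445675931) (nat_lit 1824) (nat_lit 1440450675) (nat_lit 468) (nat_lit 5) (nat_lit 467) (nat_lit 5) (nat_lit 491) (nat_lit 5) (nat_lit 476) (nat_lit 475) (nat_lit 249)) (XT.lf (nat_lit 76) (nat_lit 36473395851) (nat_lit 0) (nat_lit 976742383) (nat_lit 1824) (nat_lit 1019431339) (nat_lit 468) (nat_lit 5) (nat_lit 467) (nat_lit 5) (nat_lit 491) (nat_lit 5) (nat_lit 477) (nat_lit 475) (nat_lit 248)))) (XT.nd (nat_lit 78) (nat_lit 1748) (nat_lit 0) (XT.lf (nat_lit 76) (nat_lit 26904518872) (nat_lit 0) (nat_lit 11913947529) (nat_lit 1824) (nat_lit 229388552) (nat_lit 469) (nat_lit 5) (nat_lit 468) (nat_lit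 5) (nat_lit 492) (nat_lit 5) (nat_lit 478) (nat_lit 475) (nat_lit 247)) (XT.nd (nat_lit 78) (nat_lit 0) (nat_lit 76) (XT.lf (nat_lit 0) (nat_lit 813940370) (nat_lit 1824) (nat_lit 22477405696) (nat_lit 1900) (nat_lit 16347322366) (nat_lit 445) (nat_lit 5) (nat_lit 469) (nat_lit 5) (nat_lit 470) (nat_lit 5) (nat_lit 479) (nat_lit 475) (nat_lit 246)) (XT.lf (nat_lit 0) (nat_lit 2126384860) (nat_lit 1824) (nat_lit 32998845965) (nat_lit 1900) (nat_lit 5117126902) (nat_lit 446) (nat_lit 5) (nat_lit 470) (nat_lit 5) (nat_lit 471) (nat_lit 5) (nat_lit 480) (nat_lit 475) (nat_lit 245))))) (XT.nd (nat_lit 234) (nat_lit 0) (nat_lit 0) (XT.nd (nat_lit 78) (nat_lit 0) (nat_lit 0) (XT.lf (nat_lit 0) (nat_lit 9237857349) (nat_lit 0) (nat_lit 9237857349) (nat_lit 1748) (nat_lit 755493804) (nat_lit 467) (nat_lit 5) (nat_lit 467) (nat_lit 3) (nat_lit 490) (nat_lit 3) (nat_lit 476) (nat_lit 476) (nat_lit 248)) (XT.nd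 (nat_lit 78) (nat_lit 0) (nat_lit 0) (XT.lf (nat_lit 76) (nat_lit 8326725233) (nat_lit 0) (nat_lit 29361990358) (nat_lit 1824) (nat_lit 1346967088) (nat_lit 468) (nat_lit 5) (nat_lit 467) (nat_lit 5) (nat_lit 491) (nat_lit 5) (nat_lit 477) (nat_lit 476) (nat_lit 247)) (XT.lf (nat_lit 76) (nat_lit 37636580297) (nat_lit 0) (nat_lit 1067155479) (nat_lit 1824) (nat_lit 917298641) (nat_lit 468) (nat_lit 5) (nat_lit 467) (nat_lit 5) (nat_lit 491) (nat_lit 5) (nat_lit 478) (nat_lit 476) (nat_lit 246)))) (XT.nd (nat_lit 62400) (nat_lit 76) (nat_lit 0) (XT.lf (nat_lit 76) (nat_lit 27782487883) (nat_lit 0) (nat_lit 12326911459) (nat_lit 1824) (nat_lit 107343899) (nat_lit 469) (nat_lit 5) (nat_lit 468) (nat_lit 5) (nat_lit 492) (nat_lit 5) (nat_lit 479) (nat_lit 476) (nat_lit 245)) (XT.nd (nat_lit 78) (nat_lit 0) (nat_lit 0) (XT.lf (nat_lit 76) (nat_lit 8643500359) (nat_lit 0) (nat_lit 30302180967) (nat_lit 1824)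 (nat_lit 1258525967) (nat_lit 468) (nat_lit 5) (nat_lit 467) (nat_lit 5) (nat_lit 491) (nat_lit 5) (nat_lit 478) (nat_lit 477) (nat_lit 245)) (XT.lf (nat_lit 76) (nat_lit 38830700394) (nat_lit 0) (nat_lit 1156772957) (nat_lit 1824) (nat_lit 819720383) (nat_lit 468) (nat_lit 5) (nat_lit 467) (nat_lit 5) (nat_lit 491) (nat_lit 5) (nat_lit 479) (nat_lit 477) (nat_lit 244))))))))

set_option maxRecDepth 10000000 in
noncomputable def Tp : PT := (PT.nd (nat_lit 12824136) (PT.nd (nat_lit 11824254) (PT.nd (nat_lit 10825698) (PT.nd (nat_lit 10013484) (PT.nd (nat_lit 9326772) pc0 pc1) (PT.nd (nat_lit 437502) pc2 pc3)) (PT.nd (nat_lit 561912) (PT.nd (nat_lit 312000) pc4 pc5) (PT.nd (nat_lit 249132) pc6 pc7))) (PT.nd (nat_lit 563004) (PT.nd (nat_lit 312468) (PT.nd (nat_lit 186732) pc8 pc9) (PT.nd (nat_lit 125424) pc10 pc11)) (PT.nd (nat_lit 248898) (PT.nd (nat_lit 124722) pc12 pc13) (PT.nd (nat_lit 123786) pc14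 pc15)))) (PT.nd (nat_lit 624156) (PT.nd (nat_lit 372294) (PT.nd (nat_lit 186732) (PT.nd (nat_lit 123006) pc16 pc17) (PT.nd (nat_lit 63648) pc18 pc19)) (PT.nd (nat_lit 126204) (PT.nd (nat_lit 63180) pc20 pc21) (PT.nd (nat_lit 62868) pc22 pc23))) (PT.nd (nat_lit 371670) (PT.nd (nat_lit 126204) (PT.nd (nat_lit 62556) pc24 pc25) (PT.nd (nat_lit 121290) pc26 pc27)) (PT.nd (nat_lit 311766) (PT.nd (nat_lit 125112) pc28 pc29) (PT.nd (nat_lit 248976) pc30 pc31)))))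

set_option maxRecDepth 10000000 in
noncomputable def Tx : XT := (XT.nd (nat_lit 22280310) (nat_lit 0) (nat_lit 684) XT.nil (XT.nd (nat_lit 7559136) (nat_lit 0) (nat_lit 0) (XT.nd (nat_lit 3494088) (nat_lit 0) (nat_lit 5320) (XT.nd (nat_lit 2370264) (nat_lit 0) (nat_lit 2508) (XT.nd (nat_lit 1624272) (nat_lit 0) (nat_lit 1216) (XT.nd (nat_lit 1124136) (nat_lit 0) (nat_lit 608) (XT.nd (nat_lit 810498) (nat_lit 0) (nat_lit 228) (XT.nd (nat_lit 561132) (nat_lit 0) (nat_lit 152) (XT.nd (nat_lit 374244) (nat_lit 0) (nat_lit 76) xc0 xc1) (XT.nd (nat_lit 124956) (nat_lit 0) (nat_lit 76) xc2 xc3)) (XT.nd (nat_lit 187200) (nat_lit 0) (nat_lit 76) (XT.nd (nat_lit 63726) (nat_lit 0) (nat_lit 0) xc4 xc5) (XT.nd (nat_lit 63258) (nat_lit 0) (nat_lit 0) xc6 xc7))) (XT.nd (nat_lit 310128) (nat_lit 0) (nat_lit 304) (XT.nd (nat_lit 185094) (nat_lit 0) (nat_lit 228) (XT.nd (nat_lit 122304) (nat_lit 0) (nat_lit 152) xc8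 xc9) (XT.nd (nat_lit 62556) (nat_lit 0) (nat_lit 76) xc10 xc11)) (XT.nd (nat_lit 124410) (nat_lit 0) (nat_lit 152) (XT.nd (nat_lit 62244) (nat_lit 0) (nat_lit 152) xc12 xc13) (XT.nd (nat_lit 61932) (nat_lit 0) (nat_lit 380) xc14 xc15)))) (XT.nd (nat_lit 433056) (nat_lit 0) (nat_lit 684) (XT.nd (nat_lit 246324) (nat_lit 0) (nat_lit 380) (XT.nd (nat_lit 123474) (nat_lit 0) (nat_lit 152) (XT.nd (nat_lit 61776) (nat_lit 0) (nat_lit 0) xc16 xc17) (XT.nd (nat_lit 61464) (nat_lit 0) (nat_lit 0) xc18 xc19)) (XT.nd (nat_lit 64818) (nat_lit 0) (nat_lit 0) (XT.nd (nat_lit 3588) (nat_lit 380) (nat_lit 0) xc20 xc21) (XT.nd (nat_lit 60996) (nat_lit 0) (nat_lit 152) xc22 xc23))) (XT.nd (nat_lit 128544) (nat_lit 0) (nat_lit 228) (XT.nd (nat_lit 64350) (nat_lit 0) (nat_lit 76) (XT.nd (nat_lit 3588) (nat_lit 2128) (nat_lit 0) xc24 xc25) (XT.nd (nat_lit 60528) (nat_lit 0) (nat_lit 2356) xc26 xc27)) (XT.nd (nat_lit 120666)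 (nat_lit 0) (nat_lit 228) (XT.nd (nat_lit 60372) (nat_lit 0) (nat_lit 0) xc28 xc29) (XT.nd (nat_lit 3588) (nat_lit 4712) (nat_lit 0) xc30 xc31))))) (XT.nd (nat_lit 560664) (nat_lit 0) (nat_lit 1368) (XT.nd (nat_lit 253344) (nat_lit 0) (nat_lit 608) (XT.nd (nat_lit 126984) (nat_lit 0) (nat_lit 152) (XT.nd (nat_lit 63570) (nat_lit 0) (nat_lit 0) (XT.nd (nat_lit 3588) (nat_lit 912) (nat_lit 0) xc32 xc33) (XT.nd (nat_lit 59748) (nat_lit 0) (nat_lit 6536) xc34 xc35)) (XT.nd (nat_lit 63258) (nat_lit 0) (nat_lit 304) (XT.nd (nat_lit 59592) (nat_lit 0) (nat_lit 3496) xc36 xc37) (XT.nd (nat_lit 59436) (nat_lit 0) (nat_lit 1368) xc38 xc39))) (XT.nd (nat_lit 181350) (nat_lit 0) (nat_lit 456) (XT.nd (nat_lit 118482) (nat_lit 0) (nat_lit 304) (XT.nd (nat_lit 59280) (nat_lit 0) (nat_lit 0) xc40 xc41) (XT.nd (nat_lit 3588) (nat_lit 15732) (nat_lit 0) xc42 xc43)) (XT.nd (nat_lit 62946) (nat_lit 0) (nat_lit 228) (XT.nd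 (nat_lit 3588) (nat_lit 13224) (nat_lit 0) xc44 xc45) (XT.nd (nat_lit 3588) (nat_lit 10260) (nat_lit 0) xc46 xc47)))) (XT.nd (nat_lit 252876) (nat_lit 0) (nat_lit 684) (XT.nd (nat_lit 126282) (nat_lit 0) (nat_lit 380) (XT.nd (nat_lit 63102) (nat_lit 0) (nat_lit 152) (XT.nd (nat_lit 3588) (nat_lit 7448) (nat_lit 0) xc48 xc49) (XT.nd (nat_lit 3588) (nat_lit 4636) (nat_lit 0) xc50 xc51)) (XT.nd (nat_lit 63258) (nat_lit 0) (nat_lit 304) (XT.nd (nat_lit 3588) (nat_lit 1824) (nat_lit 0) xc52 xc53) (XT.nd (nat_lit 59670) (nat_lit 0) (nat_lit 11628) xc54 xc55))) (XT.nd (nat_lit 126828) (nat_lit 0) (nat_lit 228) (XT.nd (nat_lit 63414) (nat_lit 0) (nat_lit 0) (XT.nd (nat_lit 59748) (nat_lit 0) (nat_lit 6308) xc56 xc57) (XT.nd (nat_lit 59748) (nat_lit 0) (nat_lit 2736) xc58 xc59)) (XT.nd (nat_lit 119808) (nat_lit 0) (nat_lit 532) (XT.nd (nat_lit 59826) (nat_lit 0) (nat_lit 228) xc60 xc61) (XT.nd (nat_lit 3588)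 (nat_lit 10260) (nat_lit 0) xc62 xc63)))))) (XT.nd (nat_lit 1314768) (nat_lit 0) (nat_lit 4712) (XT.nd (nat_lit 625248) (nat_lit 0) (nat_lit 1672) (XT.nd (nat_lit 311922) (nat_lit 0) (nat_lit 760) (XT.nd (nat_lit 127530) (nat_lit 0) (nat_lit 228) (XT.nd (nat_lit 63726) (nat_lit 0) (nat_lit 228) (XT.nd (nat_lit 3588) (nat_lit 4408) (nat_lit 0) xc64 xc65) (XT.nd (nat_lit 60138) (nat_lit 0) (nat_lit 10032) xc66 xc67)) (XT.nd (nat_lit 63804) (nat_lit 0) (nat_lit 304) (XT.nd (nat_lit 60138) (nat_lit 0) (nat_lit 3724) xc68 xc69) (XT.nd (nat_lit 60216) (nat_lit 0) (nat_lit 228) xc70 xc71))) (XT.nd (nat_lit 127998) (nat_lit 0) (nat_lit 380) (XT.nd (nat_lit 63960) (nat_lit 0) (nat_lit 0) (XT.nd (nat_lit 3588) (nat_lit 7448) (nat_lit 0) xc72 xc73) (XT.nd (nat_lit 3588) (nat_lit 1216) (nat_lit 0) xc74 xc75)) (XT.nd (nat_lit 64116) (nat_lit 0) (nat_lit 228) (XT.nd (nat_lit 60450) (nat_lit 0) (nat_lit 2812) xc76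 xc77) (XT.nd (nat_lit 60528) (nat_lit 0) (nat_lit 304) xc78 xc79)))) (XT.nd (nat_lit 314886) (nat_lit 0) (nat_lit 1292) (XT.nd (nat_lit 128622) (nat_lit 0) (nat_lit 608) (XT.nd (nat_lit 64272) (nat_lit 0) (nat_lit 304) (XT.nd (nat_lit 3588) (nat_lit 3800) (nat_lit 0) xc80 xc81) (XT.nd (nat_lit 60684) (nat_lit 0) (nat_lit 3572) xc82 xc83)) (XT.nd (nat_lit 121680) (nat_lit 0) (nat_lit 380) (XT.nd (nat_lit 60762) (nat_lit 0) (nat_lit 0) xc84 xc85) (XT.nd (nat_lit 3588) (nat_lit 2052) (nat_lit 0) xc86 xc87))) (XT.nd (nat_lit 186966) (nat_lit 0) (nat_lit 988) (XT.nd (nat_lit 122148) (nat_lit 0) (nat_lit 684) (XT.nd (nat_lit 60996) (nat_lit 0) (nat_lit 304) xc88 xc89) (XT.nd (nat_lit 3588) (nat_lit 6080) (nat_lit 0) xc90 xc91)) (XT.nd (nat_lit 64896) (nat_lit 0) (nat_lit 380) (XT.nd (nat_lit 61230) (nat_lit 0) (nat_lit 456) xc92 xc93) (XT.nd (nat_lit 61308) (nat_lit 0) (nat_lit 76) xc94 xc95))))) (XT.nd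 (nat_lit 875940) (nat_lit 0) (nat_lit 6004) (XT.nd (nat_lit 435786) (nat_lit 0) (nat_lit 2964) (XT.nd (nat_lit 188370) (nat_lit 0) (nat_lit 1216) (XT.nd (nat_lit 123084) (nat_lit 0) (nat_lit 760) (XT.nd (nat_lit 61464) (nat_lit 0) (nat_lit 380) xc96 xc97) (XT.nd (nat_lit 3588) (nat_lit 2736) (nat_lit 0) xc98 xc99)) (XT.nd (nat_lit 123552) (nat_lit 0) (nat_lit 380) (XT.nd (nat_lit 61698) (nat_lit 0) (nat_lit 380) xc100 xc101) (XT.nd (nat_lit 61854) (nat_lit 0) (nat_lit 532) xc102 xc103))) (XT.nd (nat_lit 190242) (nat_lit 0) (nat_lit 1444) (XT.nd (nat_lit 65754) (nat_lit 0) (nat_lit 532) (XT.nd (nat_lit 3588) (nat_lit 988) (nat_lit 0) xc104 xc105) (XT.nd (nat_lit 62166) (nat_lit 0) (nat_lit 456) xc106 xc107)) (XT.nd (nat_lit 124800) (nat_lit 0) (nat_lit 608) (XT.nd (nat_lit 62322) (nat_lit 0) (nat_lit 0) xc108 xc109) (XT.nd (nat_lit 62478) (nat_lit 0) (nat_lit 456) xc110 xc111)))) (XT.nd (nat_lit 624000)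 (nat_lit 0) (nat_lit 6840) (XT.nd (nat_lit 310830) (nat_lit 0) (nat_lit 2888) (XT.nd (nat_lit 125502) (nat_lit 0) (nat_lit 1140) (XT.nd (nat_lit 62634) (nat_lit 0) (nat_lit 1140) xc112 xc113) (XT.nd (nat_lit 122226) (nat_lit 0) (nat_lit 1216) xc114 xc115)) (XT.nd (nat_lit 126438) (nat_lit 0) (nat_lit 1900) (XT.nd (nat_lit 63102) (nat_lit 0) (nat_lit 1216) xc116 xc117) (XT.nd (nat_lit 123162) (nat_lit 0) (nat_lit 684) xc118 xc119))) (XT.nd (nat_lit 376194) (nat_lit 0) (nat_lit 4712) (XT.nd (nat_lit 187668) (nat_lit 0) (nat_lit 1520) (XT.nd (nat_lit 63648) (nat_lit 0) (nat_lit 760) xc120 xc121) (XT.nd (nat_lit 124332) (nat_lit 0) (nat_lit 2356) xc122 xc123)) (XT.nd (nat_lit 311532) (nat_lit 0) (nat_lit 5548) (XT.nd (nat_lit 185796) (nat_lit 0) (nat_lit 3496) xc124 xc125) (XT.nd (nat_lit 187590) (nat_lit 0) (nat_lit 0) xc126 xc127))))))) XT.nil))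

set_option maxRecDepth 10000000 in
noncomputable def Te : XT := XT.nil

set_option maxRecDepth 10000000 in
noncomputable def Tz : ZL := (ZL.cons (nat_lit 76) (nat_lit 3) (nat_lit 172440205931995886665) (ZL.cons (nat_lit 152) (nat_lit 6) (nat_lit 339933888632351737800) (ZL.cons (nat_lit 4028) (nat_lit 6) (nat_lit 209402053385932031522) (ZL.cons (nat_lit 4104) (nat_lit 6) (nat_lit 206610416524678555442) (ZL.cons (nat_lit 4180) (nat_lit 3) (nat_lit 103261174007933612202) (ZL.cons (nat_lit 4332) (nat_lit 6) (nat_lit 203735030557587475082) (ZL.cons (nat_lit 4408) (nat_lit 6) (nat_lit 201037665490983607078) (ZL.cons (nat_lit 4484) (nat_lit 3) (nat_lit 100476081042185332159) (ZL.cons (nat_lit 4636) (nat_lit 6) (nat_lit 198259379472381623032) (ZL.cons (nat_lit 4712) (nat_lit 6) (nat_lit 195654329804774923902) (ZL.cons (nat_lit 4788) (nat_lit 3) (nat_lit 97785658394322926633) (ZL.cons (nat_lit 4940) (nat_lit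 6) (nat_lit 192971128647140023798) (ZL.cons (nat_lit 5016) (nat_lit 6) (nat_lit 190456543038808449926) (ZL.cons (nat_lit 5092) (nat_lit 3) (nat_lit 95187973938759045042) (ZL.cons (nat_lit 5168) (nat_lit 6) (nat_lit 188025362752925405034) (ZL.cons (nat_lit 5244) (nat_lit 6) (nat_lit 187866519862226928838) (ZL.cons (nat_lit 5396) (nat_lit 6) (nat_lit 185440651897175508952) (ZL.cons (nat_lit 5472) (nat_lit 3) (nat_lit 92681202083883696299) (ZL.cons (nat_lit 5548) (nat_lit 6) (nat_lit 183096224291908931122) (ZL.cons (nat_lit 5624) (nat_lit 6) (nat_lit 182942007893172546468) (ZL.cons (nat_lit 5776) (nat_lit 6) (nat_lit 180603216129076239606) (ZL.cons (nat_lit 5852) (nat_lit 3) (nat_lit 90263623729873985653) (ZL.cons (nat_lit 5928) (nat_lit 6) (nat_lit 178343985271024407282) (ZL.cons (nat_lit 6004) (nat_lit 6) (nat_lit 178194260612057043540) (ZL.cons (nat_lit 6156) (nat_lit 6) (nat_lit 175941008817902751688)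 (ZL.cons (nat_lit 6232) (nat_lit 3) (nat_lit 87933626414131828123) (ZL.cons (nat_lit 6308) (nat_lit 6) (nat_lit 173765523216494087140) (ZL.cons (nat_lit 6384) (nat_lit 6) (nat_lit 173620159469923831076) (ZL.cons (nat_lit 6460) (nat_lit 6) (nat_lit 171665902898082246210) (ZL.cons (nat_lit 6536) (nat_lit 6) (nat_lit 171451017057404067214) (ZL.cons (nat_lit 6612) (nat_lit 3) (nat_lit 85689704650236453296) (ZL.cons (nat_lit 6688) (nat_lit 6) (nat_lit 169357930223547793990) (ZL.cons (nat_lit 6764) (nat_lit 6) (nat_lit 169216800372508710436) (ZL.cons (nat_lit 6840) (nat_lit 6) (nat_lit 167339070057529311744) (ZL.cons (nat_lit 6916) (nat_lit 6) (nat_lit 167130443027744671946) (ZL.cons (nat_lit 6992) (nat_lit 3) (nat_lit 83530460466818374507) (ZL.cons (nat_lit 7144) (nat_lit 6) (nat_lit 165118514235491191480) (ZL.cons (nat_lit 7220) (nat_lit 6) (nat_lit 164981494962637712304) (ZL.cons (nat_lit 7296) (nat_lit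 6) (nat_lit 163179255999716202892) (ZL.cons (nat_lit 7372) (nat_lit 6) (nat_lit 162976705485362183670) (ZL.cons (nat_lit 7448) (nat_lit 3) (nat_lit 81454604153308313713) (ZL.cons (nat_lit 7524) (nat_lit 6) (nat_lit 161310973822932135802) (ZL.cons (nat_lit 7600) (nat_lit 6) (nat_lit 161044800744014485468) (ZL.cons (nat_lit 7676) (nat_lit 6) (nat_lit 160911772323768389178) (ZL.cons (nat_lit 7752) (nat_lit 6) (nat_lit 159184092666490527478) (ZL.cons (nat_lit 7828) (nat_lit 6) (nat_lit 158987441681680800076) (ZL.cons (nat_lit 7904) (nat_lit 3) (nat_lit 79460955220090130015) (ZL.cons (nat_lit 7980) (nat_lit 6) (nat_lit 157392955391363347014) (ZL.cons (nat_lit 8056) (nat_lit 6) (nat_lit 157134534926394754456) (ZL.cons (nat_lit 8132) (nat_lit 6) (nat_lit 157005381120330583298) (ZL.cons (nat_lit 8208) (nat_lit 6) (nat_lit 155351433013172623734) (ZL.cons (nat_lit 8284) (nat_lit 6) (nat_lit 155160509726949587420)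 (ZL.cons (nat_lit 8360) (nat_lit 3) (nat_lit 77548443581192978154) (ZL.cons (nat_lit 8436) (nat_lit 6) (nat_lit 153636577891798971098) (ZL.cons (nat_lit 8512) (nat_lit 6) (nat_lit 153385684236489657934) (ZL.cons (nat_lit 8588) (nat_lit 6) (nat_lit 153260292191767161666) (ZL.cons (nat_lit 8664) (nat_lit 6) (nat_lit 151988471145177450636) (ZL.cons (nat_lit 8740) (nat_lit 6) (nat_lit 151679353830561072568) (ZL.cons (nat_lit 8816) (nat_lit 6) (nat_lit 151493991416752299450) (ZL.cons (nat_lit 8892) (nat_lit 3) (nat_lit 75716110968296717147) (ZL.cons (nat_lit 8968) (nat_lit 6) (nat_lit 150040027540847971398) (ZL.cons (nat_lit 9044) (nat_lit 6) (nat_lit 149796441467732133376) (ZL.cons (nat_lit 9120) (nat_lit 6) (nat_lit 149674701618486991370) (ZL.cons (nat_lit 9196) (nat_lit 6) (nat_lit 148466272946320508022) (ZL.cons (nat_lit 9272) (nat_lit 6) (nat_lit 148166159048634704074) (ZL.cons (nat_lit 9348) (nat_lit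 6) (nat_lit 147986195540082497164) (ZL.cons (nat_lit 9424) (nat_lit 3) (nat_lit 73963112585498110157) (ZL.cons (nat_lit 9576) (nat_lit 6) (nat_lit 146601719640841382722) (ZL.cons (nat_lit 9652) (nat_lit 6) (nat_lit 146365228307719209886) (ZL.cons (nat_lit 9728) (nat_lit 6) (nat_lit 146247034279325868132) (ZL.cons (nat_lit 9804) (nat_lit 6) (nat_lit 145101756258461864478) (ZL.cons (nat_lit 9880) (nat_lit 6) (nat_lit 144810383542262054820) (ZL.cons (nat_lit 9956) (nat_lit 6) (nat_lit 144635661689298747140) (ZL.cons (nat_lit 10032) (nat_lit 3) (nat_lit 72288719014995841118) (ZL.cons (nat_lit 10108) (nat_lit 6) (nat_lit 143664958253880477918) (ZL.cons (nat_lit 10184) (nat_lit 6) (nat_lit 143320302641488787850) (ZL.cons (nat_lit 10260) (nat_lit 6) (nat_lit 143090699405447843348) (ZL.cons (nat_lit 10336) (nat_lit 6) (nat_lit 142975947921570812518) (ZL.cons (nat_lit 10412) (nat_lit 6) (nat_lit 141893683592961840102)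 (ZL.cons (nat_lit 10488) (nat_lit 6) (nat_lit 141610797460729015190) (ZL.cons (nat_lit 10564) (nat_lit 6) (nat_lit 141441164593774347538) (ZL.cons (nat_lit 10640) (nat_lit 3) (nat_lit 70692318384602190806) (ZL.cons (nat_lit 10716) (nat_lit 6) (nat_lit 140529279836347547252) (ZL.cons (nat_lit 10792) (nat_lit 6) (nat_lit 140194662736938139420) (ZL.cons (nat_lit 10868) (nat_lit 6) (nat_lit 139971746973791591358) (ZL.cons (nat_lit 10944) (nat_lit 6) (nat_lit 139860337766143988610) (ZL.cons (nat_lit 11020) (nat_lit 6) (nat_lit 139225899174188673508) (ZL.cons (nat_lit 11096) (nat_lit 6) (nat_lit 138841057834802000704) (ZL.cons (nat_lit 11172) (nat_lit 6) (nat_lit 138566411104478869722) (ZL.cons (nat_lit 11248) (nat_lit 6) (nat_lit 138401719000639386564) (ZL.cons (nat_lit 11324) (nat_lit 3) (nat_lit 69173418808780874871) (ZL.cons (nat_lit 11400) (nat_lit 6) (nat_lit 137548799992755625720) (ZL.cons (nat_lit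 11476) (nat_lit 6) (nat_lit 137223929022455229766) (ZL.cons (nat_lit 11552) (nat_lit 6) (nat_lit 137007505951439163688) (ZL.cons (nat_lit 11628) (nat_lit 6) (nat_lit 136899341672169646456) (ZL.cons (nat_lit 11704) (nat_lit 6) (nat_lit 136316760053461304044) (ZL.cons (nat_lit 11780) (nat_lit 6) (nat_lit 135943127685124728506) (ZL.cons (nat_lit 11856) (nat_lit 6) (nat_lit 135676480374131397456) (ZL.cons (nat_lit 11932) (nat_lit 6) (nat_lit 135516585127685297304) (ZL.cons (nat_lit 12008) (nat_lit 3) (nat_lit 67731651115746708447) (ZL.cons (nat_lit 12084) (nat_lit 6) (nat_lit 135143861477166254230) (ZL.cons (nat_lit 12160) (nat_lit 6) (nat_lit 134722887945687756764) (ZL.cons (nat_lit 12236) (nat_lit 6) (nat_lit 134407479236658246130) (ZL.cons (nat_lit 12312) (nat_lit 6) (nat_lit 134197359750234881006) (ZL.cons (nat_lit 12388) (nat_lit 6) (nat_lit 134092345886866417676) (ZL.cons (nat_lit 12464) (nat_lit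 6) (nat_lit 133562143575245777382) (ZL.cons (nat_lit 12540) (nat_lit 6) (nat_lit 133199393703074344820) (ZL.cons (nat_lit 12616) (nat_lit 6) (nat_lit 132940512818614800112) (ZL.cons (nat_lit 12692) (nat_lit 6) (nat_lit 132785274715269071810) (ZL.cons (nat_lit 12768) (nat_lit 3) (nat_lit 66366771874046244445) (ZL.cons (nat_lit 12844) (nat_lit 6) (nat_lit 132459880331145006108) (ZL.cons (nat_lit 12920) (nat_lit 6) (nat_lit 132051168164661027984) (ZL.cons (nat_lit 12996) (nat_lit 6) (nat_lit 131744946117059561348) (ZL.cons (nat_lit 13072) (nat_lit 6) (nat_lit 131540946615677653462) (ZL.cons (nat_lit 13148) (nat_lit 6) (nat_lit 131438991408523805570) (ZL.cons (nat_lit 13224) (nat_lit 6) (nat_lit 131415135070744966534) (ZL.cons (nat_lit 13300) (nat_lit 6) (nat_lit 130961799317549779132) (ZL.cons (nat_lit 13376) (nat_lit 6) (nat_lit 130609614975635766934) (ZL.cons (nat_lit 13452) (nat_lit 6) (nat_lit 130358274311111937120)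 (ZL.cons (nat_lit 13528) (nat_lit 6) (nat_lit 130207557705921909644) (ZL.cons (nat_lit 13604) (nat_lit 3) (nat_lit 65078666732972322336) (ZL.cons (nat_lit 13680) (nat_lit 6) (nat_lit 129930335286048947652) (ZL.cons (nat_lit 13756) (nat_lit 6) (nat_lit 129533527357423726176) (ZL.cons (nat_lit 13832) (nat_lit 6) (nat_lit 129236224398587350800) (ZL.cons (nat_lit 13908) (nat_lit 6) (nat_lit 129038166630255401396) (ZL.cons (nat_lit 13984) (nat_lit 6) (nat_lit 128939180992241956840) (ZL.cons (nat_lit 14060) (nat_lit 6) (nat_lit 128955874790907707582) (ZL.cons (nat_lit 14136) (nat_lit 6) (nat_lit 128515742991689079034) (ZL.cons (nat_lit 14212) (nat_lit 6) (nat_lit 128173816446141494380) (ZL.cons (nat_lit 14288) (nat_lit 6) (nat_lit 127929796383496999414) (ZL.cons (nat_lit 14364) (nat_lit 6) (nat_lit 127783469582341632930) (ZL.cons (nat_lit 14440) (nat_lit 3) (nat_lit 63867354092152726673) (ZL.cons (nat_lit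 14516) (nat_lit 6) (nat_lit 128037566361790498612) (ZL.cons (nat_lit 14592) (nat_lit 6) (nat_lit 127555372552287008832) (ZL.cons (nat_lit 14668) (nat_lit 6) (nat_lit 127170122136146017106) (ZL.cons (nat_lit 14744) (nat_lit 6) (nat_lit 126881478486790312862) (ZL.cons (nat_lit 14820) (nat_lit 6) (nat_lit 126689189391322400816) (ZL.cons (nat_lit 14896) (nat_lit 6) (nat_lit 126593086830144299304) (ZL.cons (nat_lit 14972) (nat_lit 6) (nat_lit 127174607593273820266) (ZL.cons (nat_lit 15048) (nat_lit 6) (nat_lit 126651576880581144824) (ZL.cons (nat_lit 15124) (nat_lit 6) (nat_lit 126224264454155291866) (ZL.cons (nat_lit 15200) (nat_lit 6) (nat_lit 125892296934206180550) (ZL.cons (nat_lit 15276) (nat_lit 6) (nat_lit 125655384252027059226) (ZL.cons (nat_lit 15352) (nat_lit 6) (nat_lit 125513319396536412152) (ZL.cons (nat_lit 15428) (nat_lit 3) (nat_lit 62732989116697245112) (ZL.cons (nat_lit 15504) (nat_lit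 6) (nat_lit 125803566252198151792) (ZL.cons (nat_lit 15580) (nat_lit 6) (nat_lit 125335416922583113172) (ZL.cons (nat_lit 15656) (nat_lit 6) (nat_lit 124961387392349140624) (ZL.cons (nat_lit 15732) (nat_lit 6) (nat_lit 124681150839576612228) (ZL.cons (nat_lit 15808) (nat_lit 6) (nat_lit 124494462397374755876) (ZL.cons (nat_lit 15884) (nat_lit 6) (nat_lit 124401158939920288386) (ZL.cons (nat_lit 15960) (nat_lit 6) (nat_lit 125010599686977306732) (ZL.cons (nat_lit 16036) (nat_lit 6) (nat_lit 124502802878537816010) (ZL.cons (nat_lit 16112) (nat_lit 6) (nat_lit 124087936445114657800) (ZL.cons (nat_lit 16188) (nat_lit 6) (nat_lit 123765637882057268172) (ZL.cons (nat_lit 16264) (nat_lit 6) (nat_lit 123535625569262004748) (ZL.cons (nat_lit 16340) (nat_lit 6) (nat_lit 123397698525096327980) (ZL.cons (nat_lit 16416) (nat_lit 3) (nat_lit 61675868115391891209) (ZL.cons (nat_lit 16492) (nat_lit 6) (nat_lit 124271984301512105990)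 (ZL.cons (nat_lit 16568) (nat_lit 6) (nat_lit 123725694795184797698) (ZL.cons (nat_lit 16644) (nat_lit 6) (nat_lit 123271180882937187386) (ZL.cons (nat_lit 16720) (nat_lit 6) (nat_lit 122908045416690612096) (ZL.cons (nat_lit 16796) (nat_lit 6) (nat_lit 122635971093610487440) (ZL.cons (nat_lit 16872) (nat_lit 6) (nat_lit 122454720178851403600) (ZL.cons (nat_lit 16948) (nat_lit 6) (nat_lit 122364134297827648760) (ZL.cons (nat_lit 17024) (nat_lit 6) (nat_lit 123587074703718162502) (ZL.cons (nat_lit 17100) (nat_lit 6) (nat_lit 123003413646043458508) (ZL.cons (nat_lit 17176) (nat_lit 6) (nat_lit 122510407035908030626) (ZL.cons (nat_lit 17252) (nat_lit 6) (nat_lit 122107624090837003234) (ZL.cons (nat_lit 17328) (nat_lit 6) (nat_lit 121794712864567692916) (ZL.cons (nat_lit 17404) (nat_lit 6) (nat_lit 121571399939523747844) (ZL.cons (nat_lit 17480) (nat_lit 6) (nat_lit 121437490187906585932) (ZL.cons (nat_lit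 17556) (nat_lit 3) (nat_lit 60696433300597688327) (ZL.cons (nat_lit 17632) (nat_lit 6) (nat_lit 122335328311663092414) (ZL.cons (nat_lit 17708) (nat_lit 6) (nat_lit 121804950150180268830) (ZL.cons (nat_lit 17784) (nat_lit 6) (nat_lit 121363674507221423868) (ZL.cons (nat_lit 17860) (nat_lit 6) (nat_lit 121011115802127661448) (ZL.cons (nat_lit 17936) (nat_lit 6) (nat_lit 120746965973894530714) (ZL.cons (nat_lit 18012) (nat_lit 6) (nat_lit 120570994211992507570) (ZL.cons (nat_lit 18088) (nat_lit 6) (nat_lit 120483046754687891220) (ZL.cons (nat_lit 18164) (nat_lit 6) (nat_lit 121720855028159289394) (ZL.cons (nat_lit 18240) (nat_lit 6) (nat_lit 121154193807115887458) (ZL.cons (nat_lit 18316) (nat_lit 6) (nat_lit 120675546612809646794) (ZL.cons (nat_lit 18392) (nat_lit 6) (nat_lit 120284495209828066804) (ZL.cons (nat_lit 18468) (nat_lit 6) (nat_lit 119980697902770483968) (ZL.cons (nat_lit 18544) (nat_lit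 6) (nat_lit 119763889237679275162) (ZL.cons (nat_lit 18620) (nat_lit 6) (nat_lit 119633879770089797580) (ZL.cons (nat_lit 18696) (nat_lit 3) (nat_lit 59795277949748195254) (ZL.cons (nat_lit 18772) (nat_lit 6) (nat_lit 121159456877128987866) (ZL.cons (nat_lit 18848) (nat_lit 6) (nat_lit 120557569384667548696) (ZL.cons (nat_lit 18924) (nat_lit 6) (nat_lit 120042639130800729680) (ZL.cons (nat_lit 19000) (nat_lit 6) (nat_lit 119614216176471753988) (ZL.cons (nat_lit 19076) (nat_lit 6) (nat_lit 119271926171526353582) (ZL.cons (nat_lit 19152) (nat_lit 6) (nat_lit 119015470027610692674) (ZL.cons (nat_lit 19228) (nat_lit 6) (nat_lit 118844623656832029430) (ZL.cons (nat_lit 19304) (nat_lit 6) (nat_lit 118759237775953761126) (ZL.cons (nat_lit 19380) (nat_lit 6) (nat_lit 120650643316498472036) (ZL.cons (nat_lit 19456) (nat_lit 6) (nat_lit 120014555560524375358) (ZL.cons (nat_lit 19532) (nat_lit 6) (nat_lit 119464399035239519108)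 (ZL.cons (nat_lit 19608) (nat_lit 6) (nat_lit 118999693021349965064) (ZL.cons (nat_lit 19684) (nat_lit 6) (nat_lit 118620031465057168956) (ZL.cons (nat_lit 19760) (nat_lit 6) (nat_lit 118325082623253690478) (ZL.cons (nat_lit 19836) (nat_lit 6) (nat_lit 118114588773650575132) (ZL.cons (nat_lit 19912) (nat_lit 6) (nat_lit 117988365989583121166) (ZL.cons (nat_lit 19988) (nat_lit 3) (nat_lit 58973151989649129967) (ZL.cons (nat_lit 20140) (nat_lit 6) (nat_lit 120193969751894375432) (ZL.cons (nat_lit 20216) (nat_lit 6) (nat_lit 119524677856587601560) (ZL.cons (nat_lit 20292) (nat_lit 6) (nat_lit 118940321067790087802) (ZL.cons (nat_lit 20368) (nat_lit 6) (nat_lit 118440388782482496524) (ZL.cons (nat_lit 20444) (nat_lit 6) (nat_lit 118024444166629122064) (ZL.cons (nat_lit 20520) (nat_lit 6) (nat_lit 117692123773478247884) (ZL.cons (nat_lit 20596) (nat_lit 6) (nat_lit 117443137225987314968) (ZL.cons (nat_lit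 20672) (nat_lit 6) (nat_lit 117277266963095408900) (ZL.cons (nat_lit 20748) (nat_lit 6) (nat_lit 117194368049621362006) (ZL.cons (nat_lit 20824) (nat_lit 3) (nat_lit 58725669225113491530) (ZL.cons (nat_lit 20900) (nat_lit 6) (nat_lit 117476786658194616008) (ZL.cons (nat_lit 20976) (nat_lit 6) (nat_lit 117553153518395739002) (ZL.cons (nat_lit 21052) (nat_lit 6) (nat_lit 117680505759154799622) (ZL.cons (nat_lit 21128) (nat_lit 6) (nat_lit 117858954659128771804) (ZL.cons (nat_lit 21204) (nat_lit 6) (nat_lit 118088656144540933782) (ZL.cons (nat_lit 21280) (nat_lit 6) (nat_lit 118369810925427082586) (ZL.cons (nat_lit 21356) (nat_lit 6) (nat_lit 118702664671013235236) (ZL.cons (nat_lit 21432) (nat_lit 6) (nat_lit 119087508224378059252) (ZL.cons (nat_lit 21508) (nat_lit 6) (nat_lit 118469947296247868300) (ZL.cons (nat_lit 21584) (nat_lit 6) (nat_lit 117935814747427619514) (ZL.cons (nat_lit 21660) (nat_lit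 6) (nat_lit 117484643860156207820) (ZL.cons (nat_lit 21736) (nat_lit 6) (nat_lit 117116040407444755288) (ZL.cons (nat_lit 21812) (nat_lit 6) (nat_lit 116829682308606426670) (ZL.cons (nat_lit 21888) (nat_lit 6) (nat_lit 116625319347826703032) (ZL.cons (nat_lit 21964) (nat_lit 6) (nat_lit 116502772955528204036) (ZL.cons (nat_lit 22040) (nat_lit 3) (nat_lit 58230968026169509187) (ZL.cons (nat_lit 22116) (nat_lit 6) (nat_lit 116600694684562950272) (ZL.cons (nat_lit 22192) (nat_lit 6) (nat_lit 116652354546737245160) (ZL.cons (nat_lit 22268) (nat_lit 6) (nat_lit 116755719410771229948) (ZL.cons (nat_lit 22344) (nat_lit 6) (nat_lit 116910879595478138218) (ZL.cons (nat_lit 22420) (nat_lit 6) (nat_lit 117117970677718393482) (ZL.cons (nat_lit 22496) (nat_lit 6) (nat_lit 117377173610864827030) (ZL.cons (nat_lit 22572) (nat_lit 6) (nat_lit 117688714882917275552) (ZL.cons (nat_lit 22648) (nat_lit 6) (nat_lit 118052866714404716914)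 (ZL.cons (nat_lit 22724) (nat_lit 6) (nat_lit 117485530026251790934) (ZL.cons (nat_lit 22800) (nat_lit 6) (nat_lit 117000158875467721732) (ZL.cons (nat_lit 22876) (nat_lit 6) (nat_lit 116596329151338231966) (ZL.cons (nat_lit 22952) (nat_lit 6) (nat_lit 116273687992939324996) (ZL.cons (nat_lit 23028) (nat_lit 6) (nat_lit 116031953480812205656) (ZL.cons (nat_lit 23104) (nat_lit 6) (nat_lit 115870914390625889090) (ZL.cons (nat_lit 23180) (nat_lit 6) (nat_lit 115790430008612251326) (ZL.cons (nat_lit 23256) (nat_lit 3) (nat_lit 57900137579438091228) (ZL.cons (nat_lit 23332) (nat_lit 6) (nat_lit 115826486813082844396) (ZL.cons (nat_lit 23408) (nat_lit 6) (nat_lit 115905144679090001078) (ZL.cons (nat_lit 23484) (nat_lit 6) (nat_lit 116036317487071833516) (ZL.cons (nat_lit 23560) (nat_lit 6) (nat_lit 116220119854045024868) (ZL.cons (nat_lit 23636) (nat_lit 6) (nat_lit 116456712384019551702) (ZL.cons (nat_lit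 23712) (nat_lit 6) (nat_lit 116746301808332284968) (ZL.cons (nat_lit 23788) (nat_lit 6) (nat_lit 117089141166286022202) (ZL.cons (nat_lit 23864) (nat_lit 6) (nat_lit 116570565876169275806) (ZL.cons (nat_lit 23940) (nat_lit 6) (nat_lit 116132535888527128532) (ZL.cons (nat_lit 24016) (nat_lit 6) (nat_lit 115774668458710184328) (ZL.cons (nat_lit 24092) (nat_lit 6) (nat_lit 115496650887022486636) (ZL.cons (nat_lit 24168) (nat_lit 6) (nat_lit 115298240245488774368) (ZL.cons (nat_lit 24244) (nat_lit 6) (nat_lit 115179263165587319034) (ZL.cons (nat_lit 24320) (nat_lit 3) (nat_lit 57569807843381433466) (ZL.cons (nat_lit 24396) (nat_lit 6) (nat_lit 115074828685432256164) (ZL.cons (nat_lit 24472) (nat_lit 6) (nat_lit 115128038343471779898) (ZL.cons (nat_lit 24548) (nat_lit 6) (nat_lit 115234504153426784230) (ZL.cons (nat_lit 24624) (nat_lit 6) (nat_lit 115394319143674899750) (ZL.cons (nat_lit 24700) (nat_lit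 6) (nat_lit 115607622958382362672) (ZL.cons (nat_lit 24776) (nat_lit 6) (nat_lit 115874601979523189224) (ZL.cons (nat_lit 24852) (nat_lit 6) (nat_lit 116195489489737211202) (ZL.cons (nat_lit 24928) (nat_lit 6) (nat_lit 115724255362762386734) (ZL.cons (nat_lit 25004) (nat_lit 6) (nat_lit 115332187669432785022) (ZL.cons (nat_lit 25080) (nat_lit 6) (nat_lit 115018943826327050096) (ZL.cons (nat_lit 25156) (nat_lit 6) (nat_lit 114784250125232759476) (ZL.cons (nat_lit 25232) (nat_lit 6) (nat_lit 114627901493983908440) (ZL.cons (nat_lit 25308) (nat_lit 6) (nat_lit 114549761317271638768) (ZL.cons (nat_lit 25384) (nat_lit 3) (nat_lit 57198361687565125900) (ZL.cons (nat_lit 25460) (nat_lit 6) (nat_lit 114423721378963113594) (ZL.cons (nat_lit 25536) (nat_lit 6) (nat_lit 114504738980950484978) (ZL.cons (nat_lit 25612) (nat_lit 6) (nat_lit 114639846973171772392) (ZL.cons (nat_lit 25688) (nat_lit 6) (nat_lit 114829163411154159482)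 (ZL.cons (nat_lit 25764) (nat_lit 6) (nat_lit 115072853717027922122) (ZL.cons (nat_lit 25840) (nat_lit 6) (nat_lit 115371130824070037386) (ZL.cons (nat_lit 25916) (nat_lit 6) (nat_lit 114945858991407758480) (ZL.cons (nat_lit 25992) (nat_lit 6) (nat_lit 114598414884789366046) (ZL.cons (nat_lit 26068) (nat_lit 6) (nat_lit 114328494912277038192) (ZL.cons (nat_lit 26144) (nat_lit 6) (nat_lit 114135863221467608804) (ZL.cons (nat_lit 26220) (nat_lit 6) (nat_lit 114020351493407943430) (ZL.cons (nat_lit 26296) (nat_lit 3) (nat_lit 56990929397760062930) (ZL.cons (nat_lit 26372) (nat_lit 6) (nat_lit 113791578362973654792) (ZL.cons (nat_lit 26448) (nat_lit 6) (nat_lit 113846384310754364236) (ZL.cons (nat_lit 26524) (nat_lit 6) (nat_lit 113956044095008018702) (ZL.cons (nat_lit 26600) (nat_lit 6) (nat_lit 114120653534963577686) (ZL.cons (nat_lit 26676) (nat_lit 6) (nat_lit 114340356464112264494) (ZL.cons (nat_lit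 26752) (nat_lit 6) (nat_lit 114615344855887315846) (ZL.cons (nat_lit 26828) (nat_lit 6) (nat_lit 114234696609936246218) (ZL.cons (nat_lit 26904) (nat_lit 6) (nat_lit 113930576373911260856) (ZL.cons (nat_lit 26980) (nat_lit 6) (nat_lit 113702718411683794234) (ZL.cons (nat_lit 27056) (nat_lit 6) (nat_lit 113550923624063550508) (ZL.cons (nat_lit 27132) (nat_lit 6) (nat_lit 113475059374828337236) (ZL.cons (nat_lit 27208) (nat_lit 3) (nat_lit 56615528468764133531) (ZL.cons (nat_lit 27284) (nat_lit 6) (nat_lit 113258864881476114712) (ZL.cons (nat_lit 27360) (nat_lit 6) (nat_lit 113342313011523107238) (ZL.cons (nat_lit 27436) (nat_lit 6) (nat_lit 113481474243511033274) (ZL.cons (nat_lit 27512) (nat_lit 6) (nat_lit 113676470174632891976) (ZL.cons (nat_lit 27588) (nat_lit 6) (nat_lit 113927471189682867496) (ZL.cons (nat_lit 27664) (nat_lit 6) (nat_lit 113590146814325204940) (ZL.cons (nat_lit 27740) (nat_lit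 6) (nat_lit 113328088588585080810) (ZL.cons (nat_lit 27816) (nat_lit 6) (nat_lit 113141067529546799850) (ZL.cons (nat_lit 27892) (nat_lit 6) (nat_lit 113028920220751008226) (ZL.cons (nat_lit 27968) (nat_lit 3) (nat_lit 56495774334701806262) (ZL.cons (nat_lit 28044) (nat_lit 6) (nat_lit 112741667326624134054) (ZL.cons (nat_lit 28120) (nat_lit 6) (nat_lit 112798117452838264786) (ZL.cons (nat_lit 28196) (nat_lit 6) (nat_lit 112911067030619528882) (ZL.cons (nat_lit 28272) (nat_lit 6) (nat_lit 113080614753773754636) (ZL.cons (nat_lit 28348) (nat_lit 6) (nat_lit 113306908770796902050) (ZL.cons (nat_lit 28424) (nat_lit 6) (nat_lit 113011646405724100726) (ZL.cons (nat_lit 28500) (nat_lit 6) (nat_lit 112790425083173162258) (ZL.cons (nat_lit 28576) (nat_lit 6) (nat_lit 112643051502959333400) (ZL.cons (nat_lit 28652) (nat_lit 6) (nat_lit 112569396892051359346) (ZL.cons (nat_lit 28728) (nat_lit 3) (nat_lit 56147169863002431139)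 (ZL.cons (nat_lit 28804) (nat_lit 6) (nat_lit 112322981908271145360) (ZL.cons (nat_lit 28880) (nat_lit 6) (nat_lit 112408933482219547662) (ZL.cons (nat_lit 28956) (nat_lit 6) (nat_lit 112552269551167111476) (ZL.cons (nat_lit 29032) (nat_lit 6) (nat_lit 112753115360222625942) (ZL.cons (nat_lit 29108) (nat_lit 6) (nat_lit 112498689898339010280) (ZL.cons (nat_lit 29184) (nat_lit 6) (nat_lit 112317116054612523914) (ZL.cons (nat_lit 29260) (nat_lit 6) (nat_lit 112208235172286512626) (ZL.cons (nat_lit 29336) (nat_lit 3) (nat_lit 56085976056362967137) (ZL.cons (nat_lit 29412) (nat_lit 6) (nat_lit 111916491210841059246) (ZL.cons (nat_lit 29488) (nat_lit 6) (nat_lit 111974634840841613898) (ZL.cons (nat_lit 29564) (nat_lit 6) (nat_lit 112090972905956315918) (ZL.cons (nat_lit 29640) (nat_lit 6) (nat_lit 112265607060805168444) (ZL.cons (nat_lit 29716) (nat_lit 6) (nat_lit 112050829077746004884) (ZL.cons (nat_lit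 29792) (nat_lit 6) (nat_lit 111907747931907336088) (ZL.cons (nat_lit 29868) (nat_lit 6) (nat_lit 111836238600928720502) (ZL.cons (nat_lit 29944) (nat_lit 3) (nat_lit 55789145087250854158) (ZL.cons (nat_lit 30020) (nat_lit 6) (nat_lit 111607791622235979886) (ZL.cons (nat_lit 30096) (nat_lit 6) (nat_lit 111696321743402834256) (ZL.cons (nat_lit 30172) (nat_lit 6) (nat_lit 111843957894418824988) (ZL.cons (nat_lit 30248) (nat_lit 6) (nat_lit 111667672609247478998) (ZL.cons (nat_lit 30324) (nat_lit 6) (nat_lit 111561963014756205904) (ZL.cons (nat_lit 30400) (nat_lit 3) (nat_lit 55763368371669084335) (ZL.cons (nat_lit 30476) (nat_lit 6) (nat_lit 111308083283784446526) (ZL.cons (nat_lit 30552) (nat_lit 6) (nat_lit 111367971222685017814) (ZL.cons (nat_lit 30628) (nat_lit 6) (nat_lit 111487799429753160896) (ZL.cons (nat_lit 30704) (nat_lit 6) (nat_lit 111348885695929210608) (ZL.cons (nat_lit 30780) (nat_lit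 6) (nat_lit 111279459160998515866) (ZL.cons (nat_lit 30856) (nat_lit 3) (nat_lit 55537623972207290219) (ZL.cons (nat_lit 30932) (nat_lit 6) (nat_lit 111105634435580880156) (ZL.cons (nat_lit 31008) (nat_lit 6) (nat_lit 111196820460382740156) (ZL.cons (nat_lit 31084) (nat_lit 6) (nat_lit 111094189786119368220) (ZL.cons (nat_lit 31160) (nat_lit 3) (nat_lit 55529994761303355356) (ZL.cons (nat_lit 31236) (nat_lit 6) (nat_lit 110909082155771592420) (ZL.cons (nat_lit 31312) (nat_lit 6) (nat_lit 110970766732839180850) (ZL.cons (nat_lit 31388) (nat_lit 6) (nat_lit 110903362329993846148) (ZL.cons (nat_lit 31464) (nat_lit 3) (nat_lit 55389071319273320818) (ZL.cons (nat_lit 31540) (nat_lit 6) (nat_lit 110809440724447930348) (ZL.cons (nat_lit 31616) (nat_lit 3) (nat_lit 55388118292557626577) (ZL.cons (nat_lit 31692) (nat_lit 6) (nat_lit 110712701470735637072) (ZL.cons (nat_lit 31768) (nat_lit 1) (nat_lit 18446744073709551617)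 ZL.nil)))))))))))))))))))))))))))))))))))))))))))))))))))))))))))))))))))))))))))))))))))))))))))))))))))))))))))))))))))))))))))))))))))))))))))))))))))))))))))))))))))))))))))))))))))))))))))))))))))))))))))))))))))))))))))))))))))))))))))))))))))))))))))))))))))))))))))))))))))))))))))))))))))))))))))))))))))))))))))))))))))))))))))))))))))))))))))))))))))))))

noncomputable def vl : XL := ⟨(nat_lit 0), (nat_lit 76), (nat_lit 149752543), (nat_lit 152), (nat_lit 46319546), (nat_lit 76), (nat_lit 149752543), (nat_lit 1), (nat_lit 5), (nat_lit 2), (nat_lit 4), (nat_lit 1), (nat_lit 4), (nat_lit 0), (nat_lit 0), (nat_lit 0)⟩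

noncomputable def cp0 : Nat := (nat_lit 93337838236533220617566846822536156301730823794616494804325831061270453809330141233253120054718878146074142897569953599033128469142213053845682393739209837559036532630990501152781375130128087587816103122053267418530227603814452310665583026600431471571190773634789382958609259459850413196233414400333458712428775556874768040489243553280775071679570172831513132042528321282744659045780529265122050509629761491807386266281098814019879115803125572359828529551052210490538974363396770394365731623451437638444834988600641420156790381138753085898939457922795160017700059467644316657676548859910009025220452214549718550316626340656857161271729051845071379242496352762812477533149234172290296889571723137735836330786834332321152270117972349587667089259659302408740983671441126221336153707015852202920432246005766270826061249084285312616733143698880678229099244458713053187855383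70768062545979118315973213445176217337564068415873926837109811187270370321882919236871209578756032440187794488059402140607486641749930345710822587558797025883355338442519034067233585885941916143239954631409045786286609709227384249484575947037834299115603809857880365216260819160535711805132515044628378262180961576785080238928008480573049136215016215408494708425577797234776677558784467614502878759977571894804732181022973725508561174574167340207372912314409097053715136170558105614382555317547648991702182418853123488511194372071911556025146571977004187710573855532388090131528522088553528904854966348457928142129025940102312426219404454865768888278922853226189326687828927597207016748272815807659090067538381280293785449591072768264970433332801241963056626020698734873853416450521866244080982678300028125051317132830995349863002255208176384504175747540071992344898131598030475725033236512078177902029745364066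03890014851112599069107875115621225925750108393428981957871216086122295846846447058237350559771998062630687310181390379039543509712230849150408962473518858260906716155974152318454916146901875215163845783423304308828922954763495533315366021427644462165946937195895395772672749056334708933375973113712181389477060078933366268895926727184580928496586759755282473687316647793916277096259946661493488228559488334946474255841485280933558987137770463651308510232819370806466049792021458024034402594023928248913761572287853496258441713781489191676713637748085003886131238404923986252365051073746628005925704112756805296528510011845700236537319494209758294105328856973182446743225006458658500757929336046273658357532147255137142627250213263957509967450285074113290369438197777183113441134150854099585028958039737975591088203231774521010577233170601104096372600220562529439038419009850279181625506768444760481776458629565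76251939561021522018655515124788295331481443549182208819098868079073387739741693882025701101082636331453465530167134775328199579459635828349978777204365622230391332368400456928490159601447468442726065087665820250960946473568678408042553754418153136720633557124489234252839251457469334737311413812260930815854881065497115363590600504819553911956031440861249954704497661491950136380503118757179239768568482501903054637970804650225107048520432745367892243118381147659135112024532956181656910151330148002935613163885392956907418814117774718198576390638406343407506602471733117060305842026652989363553504617203738209220860069026386046231224192158088859789564251744140710984896181652569003105249038537253047270183990250170723865069567537791956864698660774160072196807024716267248295041555701901092934744222852842864265278902653779453834999574923001013055637943651769704801937077826400695521579262655216622234742324034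17592437186075916955050029407494867117682524681469507677903366736541051748381882518192134324558062928045984594999710934849289544117504777377199848127472888364473022615206166676580356962894667621639438589366145326951723665954978384238305391286654364528800136168346561320641593717893146516968916085640206828462136603752288387913110596620689821274745449671039925411069229846228108968773498644328139974999805397688789221255472201023996663623378949753052780586015912420419541779453778191720921468836503599332138518535408281125547679699994753720182363997559777952876108766311100348704123307400076567641645084928439393184258402320397610746035081018170291651286211162937167666521434640636230921398472105544718134011840633066341182299966751848969255892128937334539762546215487352319315679687048075988854840097579133002751037786070648638707392816862773985559756518373901322180574310880689804784741775777866984883668765028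78539413732367442309777384599252279191536361510479754119207283737434527853560926301227437588314674258067833757992647636531717289511251046605457272846063116386413804715268955126512689050430524356418678723667773711865550660876190897050614570189358848931262446108376423701300493480297886037181096917349260738420330375568504590438507780836668198984380390811849466714169170328286913828048269283680103105306835526815252467039366791643538282837112685326487635826978049332407726589365272250489662693153261363349271401442758587632774482241236847305861955292129937508259707707733222610607426417294596245991217931092159135988197676149719587382347021990770251831549343727049782356037074232313940151116022987626708851472333518813736920580739946309409256710161252126495393384135295969637316051727360245662196658370478374033035633789311836012997956594997374671094944507911868054664652844801593522328964239939596838344018125340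58584886378169875553321257237109766903921441346693747042339049435057555719975002641576771031518192091806352277582255279110028790964096955555509582266976857097937064080234889354041911896700675355313722820675213541814914919095498019594172902781644611361476542638197293187605680267562362905622170309431355675281599441636033331618842757066826772477640078519787289734665774080819498042514590911293822669874535378214375856661564335450865786968179197501802143336823361912078543128125490064001800788103195840604623334490805690976778220122991393950921562738639441599196669834109932339285598939848908053059351456949114521463500302865364304983957050889732811920707941880486828982355211550181201200018199774167032709780439986757417959322254376086864060079028102173926743929797204321150225809505926011020257163101912219066484972269216816431235052019803240662712918372241752487500950872223158143760495662863857806015731492788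02051785599489962997507709363537605452371601091471487770936433868551636318360414755617538236583849891233924834523121621873403160439970166708563818084759406010351848288182173814368396309080139457919102498253950043096641139681497195070148650895804216269870436506661539505552641934190422804566093089605303690819642032945278797621025635952871473001643105081770393886451327930625284958386741280734304612062015953443526490850142796808942314705078379911009111740676274292911755619404730416726739559864907627703642004906300920306910090874209401544758636907009628877737515402298291001443322710250367115568264858882858004357911603986620667033605250986150705345463965209534412917869996812882354762702289399400748916562278532264951934370784912100175589788684011622943465540128831158565174182600831411154027343046038147263067872020469017606032304205289502069162956025529526063252137615152741220606411869096193927205112151948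81697886668566140447178401390921833528392036740416156324819544007454811891228685635282356801969081447900556539533307909504959707257526592165395659877695544679489733691119450822749887415150193883144862440519019564874399672265024934586679070565011926260627911144115770871624429179923053834420617989018774743652388522563979607849906681980050779355178883896950081593350422046213228711377261897446978554854239052987160417166078646677682694844608177931104996854811369121845086445984137368699035242164366978192552249190816729935827019635626127678606822120837159534719505781570258439619758654344174426751899453790847498926055255655724442875895147587934842501039008180113757820401641281914583731823087342760485209320653192632608842066945015781820792425510457821856279517977776856470790875929061781035164591404169692895518600081406387814558724657488449417085156022862274979370598502548188508136287731150484988533658290175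07094193106084166305760197375582513367819133504682884332392337149502125041674574855753198080758150174323534592428951360496103938560776838468471274737914914263363470951628526874848954018720885178442041801270276364254104592213670512646699455900669927548620646113304902372684484889410267224287532152101498862492054961409872931058553572541022535168346173594311817334752872509151664128477759309313729605132502733364060298764744364068756125508911063529338808034468527568057113203948563273812823855222192954214176234847337601895967585994970180704409663442465894014021498043594205246518939718637921503654225118478447650262570302032656421691244199342027579468093685523374437899971775110705998825483906635493793046515896565860744001021313876818908103413795334978722435930307503073781442265916226754287108651905638896252389271336804957268724917674861682091035161295171090831241210002513740184705441468209995330111155650976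0712536953953900021214458842469719695132131706313145095302617622151286157398967965209399164779420915252997552048766450907827751077281260429949052087920002186318571385058601486667115770145601286213700227257422935777382437601171824628230343090754077367415578740871785323041526460719696955777731744348724006791022145492687252529066648676949021334515867020382863963609092788975976850354036132088644939652502409471539093013780980573310691200788312273054288577451959064759032204822842455219336144820943002494824064483328)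

noncomputable def cp1 : Nat := (nat_lit 10529215410574485582199151866529514559803850881292257374731521081071375928682322620080008101272687043315911618946835952518709487854736424489091489279306586195763354610629336724811591614873289086019489996466049879614535448157671673287249720815997881749646807986497728384118846331979938159380206958764799371222043796247551653019619607972970716745477653244514484586438369965214441613699582232414409346998602802650293088730517512363569680198105161484376594640032406987793258082416113005281997619350288525128804980712729093274942151089426081552297878820268986330452101056744149671916449071981189475890964932023769910466761454618940038563859934806999540568864625971216341677469698365286604694479386377261525110326429259673361571135931869134113860062271119372055285059723036747014696776455208735217225384632820299537883653849484075022707176012728939724991825713398693336285860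59780171873723982546238371131669173299416893443973031676453651989579687751989968323083144381933972173783523816991878371553746457825604689992713392785180344207540687695280715580295008321027010555196848169875083315321779486728723513320805439924183046595280313852949241570475810844393276037930000502589303864453456121173809501132730864847438047998738952556262231703297800360631577028768162175044228506788261502218199241562413586927924124722760057785318646436700207380942124637459877211874316805444307233657500126616514882744665575378429763418965313370479131701068235324180257968264502568742314189174843654147326048653185163748044047730627824687431563077602834869005721953757594665692214615220064228697971342103498537586481856241093019828960505866883435548164971004338343607618778631190972529702244009345043334861144710889865272715993387874033522975333591587197253304853571652003380807086602356875235190150614948430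15761241600267717158436789786730055356971812117360176645521205663430489431107219394215289345037833197024723248652955753871150966976384903790870788113653491613498236421249769159515937508339525984337409817618268904051310916901401902247756204126684393893997308583215785875063124185533065268925950328198252734060113704472680473592522595130601219188014383092691053651647406803562540838860529659640807651610736094489733447506402039971336503701981175781063899766454930376839814546887415403095820521277412731604304874424163876561457163135772674252727465692956013295906692851610404487760258751111459414442070366502329251988951437551926999907528443766380768807542567775921513372274594619189356480845001187559676109457769860726737828811675697658879089564669228057211701552721671494130849171998823981818453921207629809474078201054720809652139746863638048316592443176457999957600794616681362605728448444081765530586163269428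88371458465215375625532309402955383047636106504140590260841457371173363524547498643660166936179619245275798459147020189435225284109197643473039509382425740351452860066931280512331596441969727618704221575954765595221654135158187380876460790396810464475373339323787152315719774829457777899377803003116724041379891930509330619532769110729146211938940750776967003155048152769387993749146432696448375731866337486056462821130573505865977578572725930315842201436942013893938797406635928330932583944326451362387565105895259313255558939872940149070140371861438296038304635690619205342020486026246576128239618645427556229036926143589901545480293078193170550091462360056948126732724107131696150540913427088573981814976878795760352394997952337080453562899034902473427914547629478102556082746777419529591213002899707974846033978079509149773612494918986044613395784121802754426955266388901096109713648150573292838052317471184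90625929800201520590316829030671824181341194012501670590550369007516635182432136510623199811875429117813341850860003646487805152971238264718179496597145593471310260621038956493010518203434925123367573049067625634945723659463911582228031710839691276277327397905459672032015227400284015253780893720174110362374656324720065830622313967235464463430619484986816019021168515104154200017329630940296910200092710839917684471084547220046867370286766659149512042084498865069134897587845649484797837024857095590645746067672837543877422248429529916662128852099536782917670844557106390739484276109267173354324606649844934730088460774369206991085759992899426595463850736423091557456117043069612217589427713994941954447663853678850577954985209831755851930733356825841288253780623255259948567490333670220347331715013433688404689896315971941076817537935441434088259141216936994179434332424370695359036992324130200932566628518777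31181883515862950624210977339479257103440506148871990551377862954373326916201842096416960736232415160271744306519562341081192560747057245967795617082523126155633397087356275140104507226645177868972039312846342985147058191224016734149719383020565933373648918602342204003392964670378554877599882630439077910392871358324254703489604212450508111581090353400478028841904715211704713118831962614980659106099005654844355882686421245718034102018634200638472389374231578132228101825969866386967482450140513024100927722003556748967630885082862270957758923612512732831863565626446239681620442126498194097932525856756528751340517121572286308886143598259768948317967870947827407859398556846780153956805138409862014991106025560979061722711347868197119427286695113419178139025350160496924679277758077436320633038192511319209147446025546372362091203504439358035486003357311285572193130084931590005426722005667322324156312909684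24160450284725811833937899641403010741701488651600806693876550735472351459655793666062623325930998172833978901935386669304999912102258886796722237829680144752760210619775298488495854621198842823180688957909428478078643719611744305065595798457453335234945353595544287688093294383204189967079436034899479646720818673232332448646249082387108278155473748100227790532979906275259594124847870220784437724011210132747956350657433196896613462652445289313916762041761878092266930726906620062570876005371579036077845625250898018373635555364364894306845529992070269335569151976094302800797659277061842711581847129753417092428930949520194754396346835527415357009289214187711839602606304681091060255956478821358411665465017543976896074567985809340724102548998751981409369989118511717475239377779991824208652117315854759258964136581041528249745057218805670632264378035142096509374252424290926450299950446485486749564039759226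42983702904482112381960389038189314574162523521770518331272388273767488467343514388341220620584540445844091379763927743108547048216454697563896386374966621182794495129108559892367156732013059159558136692765136417889357248105989926546185770233067508554827883505300153247472444926384836428771796623964162212284421436897732545150053451220452700911472106926990345285596502856497188792131059553793331730558213239098434362046914936563067778157877222965961532850514140309061185055224445606745950454191451499051228203139962455816867874706827998627834725129762729640331370963322252405366118836226893455958402696892598644884165296624729906856743619068081772348615157568550062872990159406483361073276358072733417193782652643592466578887954196705806882846694230339916040223950224016943206436726154553043949785017423801314914279797050132335397832021807717463433925061032999381526189045688207848966241948228029741731197335099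26450993788869817227432745901298006910600631679885603068126582876822868633154300830473472230613933316499558478535046443151369466058705348025165836155162953878655878872547262280896885735326296078418883120646652207955160828928595851164538606321151444486098154834873042289490504078590449305014657030290376630887958544932042562218767063332173262027207761608459947557589632655979735211558268330959893417499200195625483876642392796702716405342878707779630759556541908902544750596588597819346570290471849435622411080843362644249339607648428885627026187950915873147761418469324854499428723356380648326324111487660927322678901756866509664397565476015886237745315628628047479693990454586303108606388160670477009130966343324427604705660538456648891810216348528510744879572689568406245296481626314116548142405309349119106078098360367089100406226603752851833417190217041752963478205386481917441254259974690686194165663801799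43139870077540235783096036030200127761580605503170022237977738150448580216382743638196582644069669488581545819497704073300431235331248983608584283108269768442235264905079787015452127381820864837045180973005046317662447359808419632658967520873749951842976897722472625283370205237281135047229581477735111105177290013348725144910745453793695600205162303697687869621650953541193510496477575277063691813483149269089805719061183524420522061337886990557383331577670620072791005588904898304304728366679769543598926887503697083765992190355797799985516930311830610211061724808567830669375326431314071230957158440730626501573593123442349494475807326846062381565452947377164268413284570794596471200689028781080762876846475332045942875101360889064110923222124777255517025257078247658986626946727632428203515710139001401076345620946571202465013035770650916794751640201881550078085188269224485517608780772819792773183805014633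13742978414155369404827548116137702700009544501624932656198017282426838729847716368734805251177333088592173223281741143297292428989658079343079965358673806863155378127398785274219184813597818284712525672364154801914419246706577334803935196290635443900208637865650774086341827143973073947944368791074620538853171902104602195198095269801241789172857845812947573371756222752358972699738102421372992034483844099439360482707454982109583299050762638593293297207081786306302759832733894676684242673266361323012870297205849270686227174613501383901529272213850834263047463553382086049916323814980245260215654526180971507344266455268894169421882797574825306055211285983677405620191050060098992598968480758037906408652439865106640565398565506366224747426396795874790337162154334069738379998699916937038131951796133983318521828668834538370592402652540401647292123635003483258809020310062851303966904229613721679548537378110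83646476984169746593139046240879444015242181960446893444260211227668183580522222133144419938977671047723495303279987987958623174678858603999395783287722444158688972571677299023291971076611484404248679153519864569646314490271215563783289264953285064426901322621782620426787808553127047986984495599050351402514618368150746092419579662299545950622188887515535082442452675356946762444038376760178257274799575267438930513990522481494475058363112002800820741172650983558755562075987879294705814152154577674973627749813759532532769641138602410748593997382984823865847694023621067708050010296163612447294517771330725295942902754672660847362232163758530715911550921066722194873991400661692474031513420633806282627098041444903972385840786609398126424426469048047207298684596865927435469397222277587151716690589826866885505877695790996813959070225247994793177219309478195913304821672997946343641582978571020578462169229951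21520161260115222418522276804704411114239888669227260560678491676683826163391205289833068798557164221450880351376628312376771286201704586859493277931794729836423682258811152835889009925599252475636643370538141366845250028970357019437810448001229494402124652378465506713501114937151152677728534628418478761332886708901709465333723796169268985235101781647721970632881571356823315932480111631638111814715316191238875932786826541991306806926894594697463249598437989376938572218314977516606214732319505370029294731398023561827750660864358739566073827869198987320908061404525589451311899863757842243487725018509383321020954238839617720426148249830453236079570259305982541989265998318596328727232011916733464237578679762651141927119670363484454871816366158082001593430435574775800546694611462633522908797158706245168039876117440611548665187715393220384784117831270109457785027951126655847309752704229588327986027799613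85458785359606317057443814989553256966204128041177679423486648863065147786874200102351608408429193127800922811826796007309501874434285245365330579498934384050241885975101682190069413235909352773400028707298696275743080515830015419370570635873047149312275106030840399967283152092576362683124740779761370307463996118434700924045981580589967797715690208758595319612936021734583481616673561082159029697352105102246768953997186857705841633490143202188969633583933892660337820239739966707262376785026683209674720305453148895316806765461834970847503444639581843396157327594621043563565682393734327891413787515124638970362016387906704828021283944319344708197865291181910192870649810323360263496570493654139740818664696447981491158917636212110300010567534794477686561807309146615903948829061645210432937693373235374844362529681567775633645620326614155678532332527188341167456894290366798951972815211652655491296823209851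70970041456053173794463299025012179831684694120097034674033435746204524573839797504128925496841994876676380541746913813105100001181648156148175309632529022703320504874383478236997368960981013505805108112903172655013972673158172293879090699168182294422617654303024222588064039032455342771071561566296594641279216164456836438409716159394227755273165877911816895839798952188248116712311705520998195577843352827944035893792469613360022032929953120240054581898090674861439174825614772177397639714235638542537166891023138479455580749226508162877471678239730539881392536463134125897240738477588794232370733198819607192927731211630499958117984099138019504767029337340807286454698984735506439411343768969810872627410674904171658888990774519997511033821087499670897671670742027473127317045662717738741371459826198492565845543513830885516485739485075334260318640681105401723409819369086829221682417758876872645211192355141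97149987826507477365131185221274329207856775571345922760327297022825569631472425040787855816780708909043361904113590547553061896858035359992084015840160664140707690645163743408174859612153009141618106798551540191863864256861742909265435644876873084280910297621843176636349306778890242148347243280909065802017587976787647529251413418602352370413453990181357496763508088366908474346515864681759514499014811002371417575264328202277336341252285174402856893793009521597131561465744897427056812982806507503782454426994695202306655256743015990940459875779330812320578823030412033311606309646328836345817252042294816679029095534452653765702394448498929464768247591535679293312717212207919873146395177015917993023811602635777212672773245062317808571177119330345317772582671373550865770255737665717956291355463743590309210158439813133282778466939014816365946192696005016566427598138228959570961935431333473394398973929917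70902494561319659436053186473996707345351237625256790522169225367876853111563474742856325517046358862126231789171719802624204052103565741738777806464466676068921452089459733874029038785768515245721707146547032915179278217515905755532542275681967526464735103553081508655637213324705740831339897185099881523057484145406119969505466563187444903771571265869925304305870919563196879776344672546846079324473410897141890796299678609485360203995133925527370728766305537769984455485684145766154318447454351791055816032925932261345748704366375452386478360467723556223727904665381537227099748541323427154309856194955062667942630515278357762724598706260049818248952047067654489146767493451312616114245566173829048779029477034136138939251663643677465289286229035302282254779687883027490088498518684541800762926978964721225091039860665724348917477156584252584647980141790502888000967183695639878429891608532993625389413500296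83103448655603388823876940555373551755626026230772449577502635063774443923658485114577157333682563095976051237717894952058944752840100998675756280031730986304348355314674329326188195748424138255492304150775285209398523637548645960230789425036969922229466251548819490957293091926255173903922673246446458469056984981198334513852100706069371370422973419141565640431856805075907874531628236452024078350913286094075813619421639858175451287880904221734128660406700328017342035271669861076964903697620488279928655237721816796668303654511840952766108886564845203146375277482533762912156342154725319053570622183008524051569331249368445972150720409722388157849220376486976939040332140948190486527891646302925394787965933971475363294640275721758361199320326324134187027651488499152676282014088724685733397212341230246994047507858434997682830438386971578727219630108006598753119633834087568013285432183015621774008627743560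00787635245465596192887800998642530661526182660577575414356606929800572072587535185675183662702894070510743816445242166929519969174546304687143494057189463024774043460276639237162118881029844173741367431533732868977303583289172589099050551782396882789111640324423076430115308234162446280423841054099545805120390053868829661626621343887553018536244948950514914639576401547517120635663790418639629805001125417193135672952132890334966963985546343476949309247083157783434024378442578704674172353827526645482044124756158461698461076112857116181241258380891529239219257747818346223238158919644425785026141893104826849578757763166023222706179160880844698246954447820236917066468924958203542433471615313053634589325574155709125474328931927566011610603945053379607044680466688344809291067228197754602838844097461540336102796807686451408282239314650815152506642000533725921163071805148875257273959023763276797469762925887488)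

noncomputable def rc0 : Nat := (nat_lit 10529215410574485582199151866529514559803850881292257374731521081071375928682322620080008101272687043315911618946835952518709487854736424489091489279306586195763354610629336724811591614873289086019489996466049879614535448157671673287249720815997881749646807986497728384118846331979938159380206958764799371222043796247551653019619607972970716745477653244514484586438369965214441613699582232414409346998602802650293088730517512363569680198105161484376594640032406987793258082416113005281997619350288525128804980712729093274942151089426081552297878820268986330452101056744149671916449071981189475890964932023769910466761454618940038563859934806999540568864625971216341677469698365286604694479386377261525110326429259673361571135931869134113860062271119372055285059723036747014696776455208735217225384632820299537883653849484075022707176012728939724991825713398693336285860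59780171873723982546238371131669173299416893443973031676453651989579687751989968323083144381933972173783523816991878371553746457825604689992713392785180344207540687695280715580295008321027010555196848169875083315321779486728723513320805439924183046595280313852949241570475810844393276037930000502589303864453456121173809501132730864847438047998738952556262231703297800360631577028768162175044228506788261502218199241562413586927924124722760057785318646436700207380942124637459877211874316805444307233657500126616514882744665575378429763418965313370479131701068235324180257968264502568742314189174843654147326048653185163748044047730627824687431563077602834869005721953757594665692214615220064228697971342103498537586481856241093019828960505866883435548164971004338343607618778631190972529702244009345043334861144710889865272715993387874033522975333591587197253304853571652003380807086602356875235190150614948430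15761241600267717158436789786730055356971812117360176645521205663430489431107219394215289345037833197024723248652955753871150966976384903790870788113653491613498236421249769159515937508339525984337409817618268904051310916901401902247756204126684393893997308583215785875063124185533065268925950328198252734060113704472680473592522595130601219188014383092691053651647406803562540838860529659640807651610736094489733447506402039971336503701981175781063899766454930376839814546887415403095820521277412731604304874424163876561457163135772674252727465692956013295906692851610404487760258751111459414442070366502329251988951437551926999907528443766380768807542567775921513372274594619189356480845001187559676109457769860726737828811675697658879089564669228057211701552721671494130849171998823981818453921207629809474078201054720809652139746863638048316592443176457999957600794616681362605728448444081765530586163269428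88371458465215375625532309402955383047636106504140590260841457371173363524547498643660166936179619245275798459147020189435225284109197643473039509382425740351452860066931280512331596441969727618704221575954765595221654135158187380876460790396810464475373339323787152315719774829457777899377803003116724041379891930509330619532769110729146211938940750776967003155048152769387993749146432696448375731866337486056462821130573505865977578572725930315842201436942013893938797406635928330932583944326451362387565105895259313255558939872940149070140371861438296038304635690619205342020486026246576128239618645427556229036926143589901545480293078193170550091462360056948126732724107131696150540913427088573981814976878795760352394997952337080453562899034902473427914547629478102556082746777419529591213002899707974846033978079509149773612494918986044613395784121802754426955266388901096109713648150573292838052317471184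90625929800201520590316829030671824181341194012501670590550369007516635182432136510623199811875429117813341850860003646487805152971238264718179496597145593471310260621038956493010518203434925123367573049067625634945723659463911582228031710839691276277327397905459672032015227400284015253780893720174110362374656324720065830622313967235464463430619484986816019021168515104154200017329630940296910200092710839917684471084547220046867370286766659149512042084498865069134897587845649484797837024857095590645746067672837543877422248429529916662128852099536782917670844557106390739484276109267173354324606649844934730088460774369206991085759992899426595463850736423091557456117043069612217589427713994941954447663853678850577954985209831755851930733356825841288253780623255259948567490333670220347331715013433688404689896315971941076817537935441434088259141216936994179434332424370695359036992324130200932566628518777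31181883515862950624210977339479257103440506148871990551377862954373326916201842096416960736232415160271744306519562341081192560747057245967795617082523126155633397087356275140104507226645177868972039312846342985147058191224016734149719383020565933373648918602342204003392964670378554877599882630439077910392871358324254703489604212450508111581090353400478028841904715211704713118831962614980659106099005654844355882686421245718034102018634200638472389374231578132228101825969866386967482450140513024100927722003556748967630885082862270957758923612512732831863565626446239681620442126498194097932525856756528751340517121572286308886143598259768948317967870947827407859398556846780153956805138409862014991106025560979061722711347868197119427286695113419178139025350160496924679277758077436320633038192511319209147446025546372362091203504439358035486003357311285572193130084931590005426722005667322324156312909684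24160450284725811833937899641403010741701488651600806693876550735472351459655793666062623325930998172833978901935386669304999912102258886796722237829680144752760210619775298488495854621198842823180688957909428478078643719611744305065595798457453335234945353595544287688093294383204189967079436034899479646720818673232332448646249082387108278155473748100227790532979906275259594124847870220784437724011210132747956350657433196896613462652445289313916762041761878092266930726906620062570876005371579036077845625250898018373635555364364894306845529992070269335569151976094302800797659277061842711581847129753417092428930949520194754396346835527415357009289214187711839602606304681091060255956478821358411665465017543976896074567985809340724102548998751981409369989118511717475239377779991824208652117315854759258964136581041528249745057218805670632264378035142096509374252424290926450299950446485486749564039759226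42983702904482112381960389038189314574162523521770518331272388273767488467343514388341220620584540445844091379763927743108547048216454697563896386374966621182794495129108559892367156732013059159558136692765136417889357248105989926546185770233067508554827883505300153247472444926384836428771796623964162212284421436897732545150053451220452700911472106926990345285596502856497188792131059553793331730558213239098434362046914936563067778157877222965961532850514140309061185055224445606745950454191451499051228203139962455816867874706827998627834725129762729640331370963322252405366118836226893455958402696892598644884165296624729906856743619068081772348615157568550062872990159406483361073276358072733417193782652643592466578887954196705806882846694230339916040223950224016943206436726154553043949785017423801314914279797050132335397832021807717463433925061032999381526189045688207848966241948228029741731197335099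26450993788869817227432745901298006910600631679885603068126582876822868633154300830473472230613933316499558478535046443151369466058705348025165836155162953878655878872547262280896885735326296078418883120646652207955160828928595851164538606321151444486098154834873042289490504078590449305014657030290376630887958544932042562218767063332173262027207761608459947557589632655979735211558268330959893417499200195625483876642392796702716405342878707779630759556541908902544750596588597819346570290471849435622411080843362644249339607648428885627026187950915873147761418469324854499428723356380648326324111487660927322678901756866509664397565476015886237745315628628047479693990454586303108606388160670477009130966343324427604705660538456648891810216348528510744879572689568406245296481626314116548142405309349119106078098360367089100406226603752851833417190217041752963478205386481917441254259974690686194165663801799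43139870077540235783096036030200127761580605503170022237977738150448580216382743638196582644069669488581545819497704073300431235331248983608584283108269768442235264905079787015452127381820864837045180973005046317662447359808419632658967520873749951842976897722472625283370205237281135047229581477735111105177290013348725144910745453793695600205162303697687869621650953541193510496477575277063691813483149269089805719061183524420522061337886990557383331577670620072791005588904898304304728366679769543598926887503697083765992190355797799985516930311830610211061724808567830669375326431314071230957158440730626501573593123442349494475807326846062381565452947377164268413284570794596471200689028781080762876846475332045942875101360889064110923222124777255517025257078247658986626946727632428203515710139001401076345620946571202465013035770650916794751640201881550078085188269224485517608780772819792773183805014633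13742978414155369404827548116137702700009544501624932656198017282426838729847716368734805251177333088592173223281741143297292428989658079343079965358673806863155378127398785274219184813597818284712525672364154801914419246706577334803935196290635443900208637865650774086341827143973073947944368791074620538853171902104602195198095269801241789172857845812947573371756222752358972699738102421372992034483844099439360482707454982109583299050762638593293297207081786306302759832733894676684242673266361323012870297205849270686227174613501383901529272213850834263047463553382086049916323814980245260215654526180971507344266455268894169421882797574825306055211285983677405620191050060098992598968480758037906408652439865106640565398565506366224747426396795874790337162154334069738379998699916937038131951796133983318521828668834538370592402652540401647292123635003483258809020310062851303966904229613721679548537378110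83646476984169746593139046240879444015242181960446893444260211227668183580522222133144419938977671047723495303279987987958623174678858603999395783287722444158688972571677299023291971076611484404248679153519864569646314490271215563783289264953285064426901322621782620426787808553127047986984495599050351402514618368150746092419579662299545950622188887515535082442452675356946762444038376760178257274799575267438930513990522481494475058363112002800820741172650983558755562075987879294705814152154577674973627749813759532532769641138602410748593997382984823865847694023621067708050010296163612447294517771330725295942902754672660847362232163758530715911550921066722194873991400661692474031513420633806282627098041444903972385840786609398126424426469048047207298684596865927435469397222277587151716690589826866885505877695790996813959070225247994793177219309478195913304821672997946343641582978571020578462169229951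21520161260115222418522276804704411114239888669227260560678491676683826163391205289833068798557164221450880351376628312376771286201704586859493277931794729836423682258811152835889009925599252475636643370538141366845250028970357019437810448001229494402124652378465506713501114937151152677728534628418478761332886708901709465333723796169268985235101781647721970632881571356823315932480111631638111814715316191238875932786826541991306806926894594697463249598437989376938572218314977516606214732319505370029294731398023561827750660864358739566073827869198987320908061404525589451311899863757842243487725018509383321020954238839617720426148249830453236079570259305982541989265998318596328727232011916733464237578679762651141927119670363484454871816366158082001593430435574775800546694611462633522908797158706245168039876117440611548665187715393220384784117831270109457785027951126655847309752704229588327986027799613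85458785359606317057443814989553256966204128041177679423486648863065147786874200102351608408429193127800922811826796007309501874434285245365330579498934384050241885975101682190069413235909352773400028707298696275743080515830015419370570635873047149312275106030840399967283152092576362683124740779761370307463996118434700924045981580589967797715690208758595319612936021734583481616673561082159029697352105102246768953997186857705841633490143202188969633583933892660337820239739966707262376785026683209674720305453148895316806765461834970847503444639581843396157327594621043563565682393734327891413787515124638970362016387906704828021283944319344708197865291181910192870649810323360263496570493654139740818664696447981491158917636212110300010567534794477686561807309146615903948829061645210432937693373235374844362529681567775633645620326614155678532332527188341167456894290366798951972815211652655491296823209851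70970041456053173794463299025012179831684694120097034674033435746204524573839797504128925496841994876676380541746913813105100001181648156148175309632529022703320504874383478236997368960981013505805108112903172655013972673158172293879090699168182294422617654303024222588064039032455342771071561566296594641279216164456836438409716159394227755273165877911816895839798952188248116712311705520998195577843352827944035893792469613360022032929953120240054581898090674861439174825614772177397639714235638542537166891023138479455580749226508162877471678239730539881392536463134125897240738477588794232370733198819607192927731211630499958117984099138019504767029337340807286454698984735506439411343768969810872627410674904171658888990774519997511033821087499670897671670742027473127317045662717738741371459826198492565845543513830885516485739485075334260318640681105401723409819369086829221682417758876872645211192355141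97149987826507477365131185221274329207856775571345922760327297022825569631472425040787855816780708909043361904113590547553061896858035359992084015840160664140707690645163743408174859612153009141618106798551540191863864256861742909265435644876873084280910297621843176636349306778890242148347243280909065802017587976787647529251413418602352370413453990181357496763508088366908474346515864681759514499014811002371417575264328202277336341252285174402856893793009521597131561465744897427056812982806507503782454426994695202306655256743015990940459875779330812320578823030412033311606309646328836345817252042294816679029095534452653765702394448498929464768247591535679293312717212207919873146395177015917993023811602635777212672773245062317808571177119330345317772582671373550865770255737665717956291355463743590309210158439813133282778466939014816365946192696005016566427598138228959570961935431333473394398973929917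70902494561319659436053186473996707345351237625256790522169225367876853111563474742856325517046358862126231789171719802624204052103565741738777806464466676068921452089459733874029038785768515245721707146547032915179278217515905755532542275681967526464735103553081508655637213324705740831339897185099881523057484145406119969505466563187444903771571265869925304305870919563196879776344672546846079324473410897141890796299678609485360203995133925527370728766305537769984455485684145766154318447454351791055816032925932261345748704366375452386478360467723556223727904665381537227099748541323427154309856194955062667942630515278357762724598706260049818248952047067654489146767493451312616114245566173829048779029477034136138939251663643677465289286229035302282254779687883027490088498518684541800762926978964721225091039860665724348917477156584252584647980141790502888000967183695639878429891608532993625389413500296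83103448655603388823876940555373551755626026230772449577502635063774443923658485114577157333682563095976051237717894952058944752840100998675756280031730986304348355314674329326188195748424138255492304150775285209398523637548645960230789425036969922229466251548819490957293091926255173903922673246446458469056984981198334513852100706069371370422973419141565640431856805075907874531628236452024078350913286094075813619421639858175451287880904221734128660406700328017342035271669861076964903697620488279928655237721816796668303654511840952766108886564845203146375277482533762912156342154725319053570622183008524051569331249368445972150720409722388157849220376486976939040332140948190486527891646302925394787965933971475363294640275721758361199320326324134187027651488499152676282014088724685733397212341230246994047507858434997682830438386971578727219630108006598753119633834087568013285432183015621774008627743560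00787635245465596192887800998642530661526182660577575414356606929800572072587535185675183662702894070510743816445242166929519969174546304687143494057189463024774043460276639237162118881029844173741367431533732868977303583289172589099050551782396882789111640324423076430115308234162446280423841054099545805120390053868829661626621343887553018536244948950514914639576401547517120635663790418639629805001125417193135672952132890334966963985546343476949309247083157783434024378442578704674172353827526645482044124756158461698461076112857116181241258380891529239219257747818346223238158919644425785026141893104826849578757763166023222706179160880844698246954447820236917066468924958203542433471615313053634589325574155709125474328931927566011610603945053379607044680466688344809291067228197754602838844097461540336102796807686451408282239314650815152506642000533725921163071805148875257273959023763276797469762925887488)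

end Vale.Agent.Lib.P154.PChain.BE.S7
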